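import Crest.Agent.T145.Def_97

/-!
# Row 145, T0 (helper77): positive semidefinite kernels, infinite psd sums
-/

set_option autoImplicit false

namespace Crest.Agent.T145

open Finset Filter Topology

section psd
variable {I J : Type*} {K K' : I → I → ℝ}

theorem psd_iff : PSD K ↔ (∀ a b, K a b = K b a) ∧
    ∀ (T : Finset I) (x : I → ℝ), 0 ≤ ∑ a ∈ T, ∑ b ∈ T, x a * x b * K a b := by
  classical
  constructor
  · intro h
    refine ⟨fun a b => ?_, fun T x => ?_⟩
    · simpa using (h.1.apply a b).symm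
    · have h1 := (h.submatrix ((↑) : T → I)).dotProduct_mulVec_nonneg fun a => x a
      rw [← Finset.sum_coe_sort T]
      refine h1.trans_eq (Finset.sum_congr rfl fun a _ => ?_)
      rw [← Finset.sum_coe_sort T]
      simp only [Matrix.mulVec, dotProduct, Finset.mul_sum, Pi.star_apply, star_trivial,
        Matrix.submatrix_apply, Matrix.of_apply]
      exact Finset.sum_congr rfl fun b _ => by ring
  · rintro ⟨h1, h2⟩
    refine ⟨Matrix.IsHermitian.ext fun a b => by simpa using h1 b a, fun x => ?_⟩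
    refine (h2 x.support x).trans_eq ?_
    simp only [Finsupp.sum, star_trivial, Matrix.of_apply]
    exact Finset.sum_congr rfl fun a _ => Finset.sum_congr rfl fun b _ => by ring

theorem PSD.symm (h : PSD K) (a b : I) : K a b = K b a := (psd_iff.1 h).1 a b

theorem PSD.sum_nonneg (h : PSD K) (T : Finset I) (x : I → ℝ) :
    0 ≤ ∑ a ∈ T, ∑ b ∈ T, x a * x b * K a b := (psd_iff.1 h).2 T x

theorem PSD.congr (h : PSD K) (e : ∀ a b, K' a b = K a b) : PSD K' := by
  rwa [show K' = K from funext fun a => funext (e a)]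

theorem PSD.comp (h : PSD K) (φ : J → I) : PSD fun a b => K (φ a) (φ b) := h.submatrix φ

theorem PSD.mul (h : PSD K) (h' : PSD K') : PSD fun a b => K a b * K' a b := h.hadamard h'

theorem PSD.add (h : PSD K) (h' : PSD K') : PSD fun a b => K a b + K' a b :=
  Matrix.PosSemidef.add h h'

theorem psd_rank (u : I → ℝ) : PSD fun a b => u a * u b :=
  psd_iff.2 ⟨fun a b => mul_comm _ _, fun T x => by
    have : ∑ a ∈ T, ∑ b ∈ T, x a * x b * (u a * u b) = (∑ a ∈ T, x a * u a) ^ 2 := by
      rw [sq, Finset.sum_mul_sum]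
      exact Finset.sum_congr rfl fun a _ => Finset.sum_congr rfl fun b _ => by ring
    rw [this]
    positivity⟩

theorem psd_const {c : ℝ} (hc : 0 ≤ c) : PSD fun _ _ : I => c :=
  (psd_rank fun _ => √c).congr fun _ _ => (Real.mul_self_sqrt hc).symm

theorem psd_zero : PSD fun _ _ : I => (0 : ℝ) := psd_const le_rfl

theorem psd_one : PSD fun _ _ : I => (1 : ℝ) := psd_const zero_le_one

theorem PSD.const_mul (h : PSD K) {c : ℝ} (hc : 0 ≤ c) : PSD fun a b => c * K a b :=
  (psd_const hc).mul h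

theorem PSD.mul_const (h : PSD K) {c : ℝ} (hc : 0 ≤ c) : PSD fun a b => K a b * c :=
  h.mul (psd_const hc)

/-- conjugation by a function -/
theorem PSD.conj (h : PSD K) (u : I → ℝ) : PSD fun a b => u a * u b * K a b := (psd_rank u).mul h

theorem PSD.sum {ι : Type*} {T : Finset ι} {F : ι → I → I → ℝ} (h : ∀ i ∈ T, PSD (F i)) :
    PSD fun a b => ∑ i ∈ T, F i a b := by
  classical
  induction T using Finset.induction_on with
  | empty => simpa using psd_zero
  | insert j T hj ih =>
    simp only [Finset.sum_insert hj]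
    exact (h j (mem_insert_self _ _)).add (ih fun i hi => h i (mem_insert_of_mem hi))

theorem PSD.prod {ι : Type*} {T : Finset ι} {F : ι → I → I → ℝ} (h : ∀ i ∈ T, PSD (F i)) :
    PSD fun a b => ∏ i ∈ T, F i a b := by
  classical
  induction T using Finset.induction_on with
  | empty => simpa using psd_one
  | insert j T hj ih =>
    simp only [Finset.prod_insert hj]
    exact (h j (mem_insert_self _ _)).mul (ih fun i hi => h i (mem_insert_of_mem hi))

theorem PSD.pow (h : PSD K) (n : ℕ) : PSD fun a b => K a b ^ n := by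
  simpa using PSD.prod (T := Finset.range n) (F := fun _ => K) fun _ _ => h

theorem PSD.of_tendsto {ι : Type*} {l : Filter ι} [l.NeBot] {F : ι → I → I → ℝ}
    (h : ∀ᶠ i in l, PSD (F i)) (ht : ∀ a b, Tendsto (fun i => F i a b) l (𝓝 (K a b))) : PSD K :=
  psd_iff.2 ⟨fun a b => tendsto_nhds_unique_of_eventuallyEq (ht a b) (ht b a)
    (h.mono fun _ hi => hi.symm a b), fun T x => ge_of_tendsto
      (tendsto_finsetSum T fun a _ => tendsto_finsetSum T fun b _ => (ht a b).const_mul (x a * x b))
      (h.mono fun _ hi => hi.sum_nonneg T x)⟩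

theorem PSD.of_hasSum {ι : Type*} {F : ι → I → I → ℝ} (h : ∀ i, PSD (F i))
    (hs : ∀ a b, HasSum (fun i => F i a b) (K a b)) : PSD K :=
  PSD.of_tendsto (l := atTop) (F := fun (T : Finset ι) a b => ∑ i ∈ T, F i a b)
    (Eventually.of_forall fun _ => PSD.sum fun i _ => h i) hs

theorem PSD.tsum {ι : Type*} {F : ι → I → I → ℝ} (h : ∀ i, PSD (F i))
    (hs : ∀ a b, Summable fun i => F i a b) : PSD fun a b => ∑' i, F i a b :=
  PSD.of_hasSum h fun a b => (hs a b).hasSum

theorem PSD.integral {X : Type*} [MeasurableSpace X] {μ : MeasureTheory.Measure X}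
    {F : X → I → I → ℝ} (h : ∀ᵐ t ∂μ, PSD (F t))
    (hi : ∀ a b, MeasureTheory.Integrable (fun t => F t a b) μ) :
    PSD fun a b => ∫ t, F t a b ∂μ :=
  psd_iff.2 ⟨fun a b => MeasureTheory.integral_congr_ae (h.mono fun _ ht => ht.symm a b),
    fun T x => by
      simp only [← MeasureTheory.integral_const_mul]
      rw [Finset.sum_congr rfl fun a _ => (MeasureTheory.integral_finsetSum T fun b _ =>
        (hi a b).const_mul (x a * x b)).symm, ← MeasureTheory.integral_finsetSum T fun a _ =>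
          MeasureTheory.integrable_finsetSum T fun b _ => (hi a b).const_mul (x a * x b)]
      exact MeasureTheory.integral_nonneg_of_ae (h.mono fun _ ht => ht.sum_nonneg T x)⟩

theorem PSD.exp (h : PSD K) : PSD fun a b => Real.exp (K a b) :=
  PSD.of_hasSum (F := fun (n : ℕ) a b => K a b ^ n / n.factorial)
    (fun n => (h.pow n).mul_const (inv_nonneg.2 (Nat.cast_nonneg _))) fun a b => by
      rw [Real.exp_eq_exp_ℝ]
      exact NormedSpace.expSeries_div_hasSum_exp (K a b)

theorem psd_ind (φ : I → J) : PSD fun a b => ind (φ a = φ b) := by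
  classical
  have h := (Matrix.PosSemidef.one (n := J) (R := ℝ)).submatrix φ
  refine PSD.congr (K := fun a b => (1 : Matrix J J ℝ) (φ a) (φ b)) h fun a b => ?_
  simp [ind, Matrix.one_apply]

theorem PSD.diag_nonneg (h : PSD K) (a : I) : 0 ≤ K a a := Matrix.PosSemidef.diag_nonneg h

/-- contraction of one factor of the index set -/
theorem PSD.contract {K : I × J → I × J → ℝ} (h : PSD K) (T : Finset J) (x : J → ℝ) :
    PSD fun s s' => ∑ a ∈ T, ∑ b ∈ T, x a * x b * K (s, a) (s', b) :=
  psd_iff.2 ⟨fun s s' => by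
      rw [Finset.sum_comm]
      exact Finset.sum_congr rfl fun a _ => Finset.sum_congr rfl fun b _ => by
        rw [h.symm, mul_comm (x b)],
    fun S y => by
      refine (h.sum_nonneg (S ×ˢ T) fun p => y p.1 * x p.2).trans_eq ?_
      simp only [Finset.sum_product, Finset.mul_sum]
      refine Finset.sum_congr rfl fun s _ => ?_
      rw [Finset.sum_comm]
      exact Finset.sum_congr rfl fun s' _ => Finset.sum_congr rfl fun a _ =>
        Finset.sum_congr rfl fun b _ => by ring⟩

/-- Cauchy-Schwarz, finite form -/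
theorem PSD.sum_sq_le (h : PSD K) (T : Finset I) (x y : I → ℝ) :
    (∑ a ∈ T, ∑ b ∈ T, x a * y b * K a b) ^ 2 ≤
      (∑ a ∈ T, ∑ b ∈ T, x a * x b * K a b) * ∑ a ∈ T, ∑ b ∈ T, y a * y b * K a b := by
  have e : ∑ a ∈ T, ∑ b ∈ T, y a * x b * K a b = ∑ a ∈ T, ∑ b ∈ T, x a * y b * K a b := by
    rw [Finset.sum_comm]
    exact Finset.sum_congr rfl fun a _ => Finset.sum_congr rfl fun b _ => by
      rw [h.symm, mul_comm (y b)]
  have h1 := discrim_le_zero (a := ∑ a ∈ T, ∑ b ∈ T, x a * x b * K a b)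
    (b := 2 * ∑ a ∈ T, ∑ b ∈ T, x a * y b * K a b) (c := ∑ a ∈ T, ∑ b ∈ T, y a * y b * K a b)
    fun t => by
      refine (h.sum_nonneg T fun a => t * x a + y a).trans_eq ?_
      rw [two_mul]
      nth_rewrite 2 [← e]
      simp only [Finset.sum_mul, add_mul, ← Finset.sum_add_distrib]
      exact Finset.sum_congr rfl fun a _ => Finset.sum_congr rfl fun b _ => by ring
  rw [discrim] at h1
  nlinarith

theorem PSD.sq_le (h : PSD K) (a b : I) : K a b ^ 2 ≤ K a a * K b b := by
  have h1 := (h.comp ![a, b]).sum_sq_le univ ![1, 0] ![0, 1]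
  simpa using h1

theorem PSD.abs_le (h : PSD K) (a b : I) : |K a b| ≤ (K a a + K b b) / 2 :=
  abs_le_of_sq_le_sq' ((h.sq_le a b).trans (by nlinarith [sq_nonneg (K a a - K b b)]))
    (by linarith [h.diag_nonneg a, h.diag_nonneg b]) |> _root_.abs_le.2

theorem tendsto_sq_atTop : Tendsto (fun T : Finset I => T ×ˢ T) atTop atTop := by
  classical
  refine Monotone.tendsto_atTop_atTop (fun S T h => Finset.product_subset_product h h) fun U => ?_
  exact ⟨U.image Prod.fst ∪ U.image Prod.snd, fun p hp => Finset.mem_product.2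
    ⟨mem_union_left _ (mem_image_of_mem _ hp), mem_union_right _ (mem_image_of_mem _ hp)⟩⟩

theorem tendsto_sum_sq {f : I × I → ℝ} (hs : Summable f) :
    Tendsto (fun T : Finset I => ∑ a ∈ T, ∑ b ∈ T, f (a, b)) atTop (𝓝 (∑' p, f p)) := by
  have h := Tendsto.comp hs.hasSum (tendsto_sq_atTop (I := I))
  refine h.congr fun T => ?_
  exact Finset.sum_product _ _ _

/-- **infinite psd sums** -/
theorem PSD.tsum_nonneg (h : PSD K) (x : I → ℝ)
    (hs : Summable fun p : I × I => x p.1 * x p.2 * K p.1 p.2) :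
    0 ≤ ∑' p : I × I, x p.1 * x p.2 * K p.1 p.2 :=
  ge_of_tendsto' (tendsto_sum_sq hs) fun T => h.sum_nonneg T x

theorem PSD.tsum_nonneg' (h : PSD K) (hs : Summable fun p : I × I => K p.1 p.2) :
    0 ≤ ∑' p : I × I, K p.1 p.2 := by
  simpa using h.tsum_nonneg (fun _ => 1) (by simpa using hs)

/-- Cauchy-Schwarz, infinite form -/
theorem PSD.tsum_sq_le (h : PSD K) (x y : I → ℝ)
    (hxy : Summable fun p : I × I => x p.1 * y p.2 * K p.1 p.2)
    (hx : Summable fun p : I × I => x p.1 * x p.2 * K p.1 p.2)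
    (hy : Summable fun p : I × I => y p.1 * y p.2 * K p.1 p.2) :
    (∑' p : I × I, x p.1 * y p.2 * K p.1 p.2) ^ 2 ≤
      (∑' p : I × I, x p.1 * x p.2 * K p.1 p.2) * ∑' p : I × I, y p.1 * y p.2 * K p.1 p.2 :=
  le_of_tendsto_of_tendsto' ((tendsto_sum_sq hxy).pow 2)
    ((tendsto_sum_sq hx).mul (tendsto_sum_sq hy)) fun T => h.sum_sq_le T x y

theorem PSD.abs_tsum_le (h : PSD K) (x y : I → ℝ)
    (hxy : Summable fun p : I × I => x p.1 * y p.2 * K p.1 p.2)
    (hx : Summable fun p : I × I => x p.1 * x p.2 * K p.1 p.2)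
    (hy : Summable fun p : I × I => y p.1 * y p.2 * K p.1 p.2) :
    |∑' p : I × I, x p.1 * y p.2 * K p.1 p.2| ≤
      ((∑' p : I × I, x p.1 * x p.2 * K p.1 p.2) + ∑' p : I × I, y p.1 * y p.2 * K p.1 p.2) / 2 := by
  have h1 := h.tsum_sq_le x y hxy hx hy
  have h2 := h.tsum_nonneg x hx
  have h3 := h.tsum_nonneg y hy
  refine _root_.abs_le.2 (abs_le_of_sq_le_sq' (h1.trans ?_) (by linarith))
  nlinarith [sq_nonneg ((∑' p : I × I, x p.1 * x p.2 * K p.1 p.2) -
    ∑' p : I × I, y p.1 * y p.2 * K p.1 p.2)]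

/-- infinite contraction of one factor of the index set -/
theorem PSD.tcontract {K : I × J → I × J → ℝ} (h : PSD K)
    (hs : ∀ s s', Summable fun p : J × J => K (s, p.1) (s', p.2)) :
    PSD fun s s' => ∑' p : J × J, K (s, p.1) (s', p.2) :=
  PSD.of_tendsto (l := atTop)
    (F := fun (T : Finset J) s s' => ∑ a ∈ T, ∑ b ∈ T, K (s, a) (s', b))
    (Eventually.of_forall fun T => by simpa using h.contract T fun _ => 1)
    fun s s' => tendsto_sum_sq (hs s s')

/-- the `2 × 2` block form: the off-diagonal block sum is bounded by the diagonal ones -/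
theorem PSD.block_sq_le (h : PSD K) (φ ψ : J → I)
    (h1 : Summable fun p : J × J => K (φ p.1) (ψ p.2))
    (h2 : Summable fun p : J × J => K (φ p.1) (φ p.2))
    (h3 : Summable fun p : J × J => K (ψ p.1) (ψ p.2)) :
    (∑' p : J × J, K (φ p.1) (ψ p.2)) ^ 2 ≤
      (∑' p : J × J, K (φ p.1) (φ p.2)) * ∑' p : J × J, K (ψ p.1) (ψ p.2) := by
  have h4 : Summable fun p : J × J => K (ψ p.1) (φ p.2) :=
    (h1.prod_symm).congr fun p => h.symm _ _
  have h5 := (h.comp fun q : Bool × J => if q.1 then φ q.2 else ψ q.2).tcontract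
    (fun s s' => by cases s <;> cases s' <;> simpa)
  simpa using h5.sq_le true false

end psd

section pd
variable {L L' : Type*} [AddCommGroup L] [AddCommGroup L'] {G G' : L → ℝ}

theorem PD.mul (h : PD G) (h' : PD G') : PD fun s => G s * G' s := PSD.mul h h'

theorem PD.add (h : PD G) (h' : PD G') : PD fun s => G s + G' s := PSD.add h h'

theorem pd_const {c : ℝ} (hc : 0 ≤ c) : PD fun _ : L => c := psd_const hc

theorem pd_one : PD fun _ : L => (1 : ℝ) := psd_one

theorem PD.const_mul (h : PD G) {c : ℝ} (hc : 0 ≤ c) : PD fun s => c * G s := PSD.const_mul h hc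

theorem PD.sum {ι : Type*} {T : Finset ι} {F : ι → L → ℝ} (h : ∀ i ∈ T, PD (F i)) :
    PD fun s => ∑ i ∈ T, F i s := PSD.sum (F := fun i a b => F i (a - b)) h

theorem PD.prod {ι : Type*} {T : Finset ι} {F : ι → L → ℝ} (h : ∀ i ∈ T, PD (F i)) :
    PD fun s => ∏ i ∈ T, F i s := PSD.prod (F := fun i a b => F i (a - b)) h

theorem PD.tsum {ι : Type*} {F : ι → L → ℝ} (h : ∀ i, PD (F i))
    (hs : ∀ s, Summable fun i => F i s) : PD fun s => ∑' i, F i s :=
  PSD.tsum (F := fun i a b => F i (a - b)) h fun _ _ => hs _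

theorem PD.of_tendsto {ι : Type*} {l : Filter ι} [l.NeBot] {F : ι → L → ℝ}
    (h : ∀ᶠ i in l, PD (F i)) (ht : ∀ s, Tendsto (fun i => F i s) l (𝓝 (G s))) : PD G :=
  PSD.of_tendsto (F := fun i a b => F i (a - b)) h fun _ _ => ht _

theorem PD.integral {X : Type*} [MeasurableSpace X] {μ : MeasureTheory.Measure X}
    {F : X → L → ℝ} (h : ∀ᵐ t ∂μ, PD (F t))
    (hi : ∀ s, MeasureTheory.Integrable (fun t => F t s) μ) : PD fun s => ∫ t, F t s ∂μ :=
  PSD.integral (F := fun t a b => F t (a - b)) h fun _ _ => hi _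

theorem PD.comp {G : L' → ℝ} (h : PD G) (φ : L →+ L') : PD fun s => G (φ s) :=
  (PSD.comp h φ).congr fun a b => by simp only [map_sub]

theorem pd_ind (φ : L →+ L') : PD fun s => ind (φ s = 0) :=
  (psd_ind φ).congr fun a b => by simp only [map_sub, sub_eq_zero]

theorem pd_cos (ξ : L →+ ℝ) : PD fun s => Real.cos (ξ s) :=
  ((psd_rank fun a => Real.cos (ξ a)).add (psd_rank fun a => Real.sin (ξ a))).congr fun a b => by
    simp only [map_sub, Real.cos_sub]

theorem pd_gq {ι : Type*} (T : Finset ι) (ℓ : ι → L →+ ℝ) : PD (gq T ℓ) :=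
  ((PSD.sum (T := T) fun j _ => psd_rank fun a => ℓ j a).exp.conj (gq T ℓ)).congr fun a b => by
    simp only [gq, ← Real.exp_add, map_sub]
    congr 1
    simp only [neg_div, Finset.sum_div, ← Finset.sum_neg_distrib, ← Finset.sum_add_distrib]
    exact Finset.sum_congr rfl fun j _ => by ring

theorem PD.even (h : PD G) (s : L) : G (-s) = G s := by simpa using PSD.symm h 0 s

theorem PD.nonneg0 (h : PD G) : 0 ≤ G 0 := by simpa using PSD.diag_nonneg h 0

theorem PD.abs_le (h : PD G) (s : L) : |G s| ≤ G 0 := by simpa using PSD.abs_le h s 0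

theorem PD.le (h : PD G) (s : L) : G s ≤ G 0 := (le_abs_self _).trans (h.abs_le s)

/-- Foelner sets in an abelian group -/
theorem exists_foelner [DecidableEq L] (T : Finset L) {ε : ℝ} (hε : 0 < ε) :
    ∃ F : Finset L, F.Nonempty ∧
      ∀ s ∈ T, (1 - ε) * F.card ≤ ((F.filter fun a => a - s ∈ F).card : ℝ) := by
  obtain ⟨F, hF⟩ : ∃ F : ℕ → Finset L, ∀ n, F n = (Fintype.piFinset fun _ : T => range (n + 1)).image
    fun u => ∑ t : T, u t • (t : L) := ⟨_, fun _ => rfl⟩
  have h0 : ∀ n, (F n).Nonempty := fun n => hF n ▸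
    ⟨_, mem_image_of_mem _ (Fintype.mem_piFinset.2 fun _ => mem_range.2 n.succ_pos)⟩
  have h1 : ∀ n, ((F n).card : ℝ) ≤ ((n + 1 : ℕ) : ℝ) ^ T.card := fun n => by
    rw [hF]
    exact_mod_cast card_image_le.trans (by simp)
  have h2 : ∀ n, F n ⊆ F (n + 1) := fun n => by
    rw [hF, hF]
    exact image_subset_image (Fintype.piFinset_subset _ _ fun _ => range_mono (by omega))
  have h3 : ∀ n, ∀ s ∈ T, (F n).image (· + s) ⊆ F (n + 1) := fun n s hs => by
    rw [hF, hF]
    intro a ha
    simp only [mem_image, Fintype.mem_piFinset, mem_range] at ha ⊢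
    obtain ⟨_, ⟨u, hu, rfl⟩, rfl⟩ := ha
    refine ⟨u + Pi.single ⟨s, hs⟩ 1, fun t => ?_, ?_⟩
    · have := hu t
      by_cases ht : t = ⟨s, hs⟩
      · subst ht; simp; omega
      · simp [Pi.single_eq_of_ne ht]; omega
    · simp [add_smul, Finset.sum_add_distrib, Pi.single_apply]
  have h4 : ∃ n, ((F (n + 1)).card : ℝ) ≤ (1 + ε) * (F n).card := by
    by_contra hc
    push Not at hc
    have h5 : ∀ n, (1 + ε) ^ n ≤ ((F n).card : ℝ) := fun n => by
      induction n with
      | zero => simpa using (h0 0).card_pos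
      | succ n ih => rw [pow_succ']; exact (mul_le_mul_of_nonneg_left ih (by linarith)).trans (hc n).le
    have h6 := (tendsto_pow_const_div_const_pow_of_one_lt T.card
      (r := 1 + ε) (by linarith)).comp (tendsto_add_atTop_nat 1)
    obtain ⟨n, hn⟩ := (h6.eventually (gt_mem_nhds (a := 1 / (1 + ε)) (by positivity))).exists
    have h7 := (h5 n).trans (h1 n)
    simp only [Function.comp] at hn
    rw [div_lt_div_iff₀ (by positivity) (by positivity), pow_succ, one_mul] at hn
    nlinarith
  obtain ⟨n, hn⟩ := h4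
  refine ⟨F n, h0 n, fun s hs => ?_⟩
  have e : ((F n).filter fun a => a - s ∈ F n) = F n ∩ (F n).image (· + s) := by
    ext a
    simp only [mem_filter, mem_inter, mem_image, and_congr_right_iff]
    exact fun _ => ⟨fun h => ⟨_, h, sub_add_cancel _ _⟩, fun ⟨b, hb, e⟩ => by simpa [← e] using hb⟩
  have h8 := card_union_add_card_inter (F n) ((F n).image (· + s))
  rw [card_image_of_injective _ (add_left_injective s)] at h8
  have h9 : ((F n ∪ (F n).image (· + s)).card : ℝ) ≤ (F (n + 1)).card := by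
    exact_mod_cast card_le_card (union_subset (h2 n) (h3 n s hs))
  have h10 : ((F n ∪ (F n).image (· + s)).card : ℝ) + (F n ∩ (F n).image (· + s)).card =
      (F n).card + (F n).card := by exact_mod_cast h8
  rw [e]
  linarith

/-- a summable positive definite function has a nonnegative sum -/
theorem PD.tsum_nonneg (h : PD G) (hs : Summable G) : 0 ≤ ∑' s, G s := by
  classical
  choose F hF1 hF2 using fun p : Finset L × ℕ =>
    exists_foelner p.1 (ε := 1 / ((p.2 : ℝ) + 1)) (by positivity)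
  have hc : ∀ p, (0 : ℝ) < (F p).card := fun p => by exact_mod_cast (hF1 p).card_pos
  obtain ⟨r, hr⟩ : ∃ r : Finset L × ℕ → L → ℝ, ∀ p s,
    r p s = (((F p).filter fun a => a - s ∈ F p).card : ℝ) / (F p).card := ⟨_, fun _ _ => rfl⟩
  have r0 : ∀ p s, 0 ≤ r p s := fun p s => by rw [hr]; positivity
  have r1 : ∀ p s, r p s ≤ 1 := fun p s => by
    rw [hr, div_le_one (hc p)]
    exact_mod_cast card_filter_le _ _
  have ht : Tendsto (fun p => ∑' s, r p s * G s) atTop (𝓝 (∑' s, G s)) := by
    refine tendsto_tsum_of_dominated_convergence (bound := fun s => |G s|) hs.abs (fun s => ?_)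
      (Eventually.of_forall fun p s => ?_)
    · have h1 : Tendsto (fun p : Finset L × ℕ => 1 - 1 / ((p.2 : ℝ) + 1)) atTop (𝓝 (1 - 0)) :=
        tendsto_const_nhds.sub (tendsto_one_div_add_atTop_nhds_zero_nat.comp
          (by rw [← prod_atTop_atTop_eq]; exact tendsto_snd))
      rw [sub_zero] at h1
      have h2 : Tendsto (fun p => r p s) atTop (𝓝 1) := by
        refine tendsto_of_tendsto_of_tendsto_of_le_of_le' h1 tendsto_const_nhds ?_
          (Eventually.of_forall fun p => r1 p s)
        filter_upwards [eventually_ge_atTop (({s}, 0) : Finset L × ℕ)] with p hp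
        rw [hr, le_div_iff₀ (hc p)]
        exact hF2 p s (hp.1 (mem_singleton_self s))
      simpa using h2.mul_const (G s)
    · rw [Real.norm_eq_abs, abs_mul, abs_of_nonneg (r0 p s)]
      exact mul_le_of_le_one_left (abs_nonneg _) (r1 p s)
  refine ge_of_tendsto' ht fun p => ?_
  have h1 : ∀ a, HasSum (fun s => (if a - s ∈ F p then 1 else 0) * G s) (∑ b ∈ F p, G (a - b)) := by
    intro a
    have h2 : HasSum (fun b => if b ∈ F p then G (a - b) else 0) (∑ b ∈ F p, G (a - b)) := by
      have := hasSum_sum_of_ne_finset_zero (s := F p) (L := SummationFilter.unconditional L)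
        (f := fun b => if b ∈ F p then G (a - b) else 0) fun b hb => if_neg hb
      rwa [Finset.sum_congr rfl fun b hb => if_pos hb] at this
    have h3 := (Equiv.subLeft a).hasSum_iff.2 h2
    convert h3 using 2 with s
    simp only [Function.comp, Equiv.subLeft_apply, sub_sub_cancel, ite_mul, one_mul, zero_mul]
  have h4 := (hasSum_sum (s := F p) fun a _ => h1 a).div_const ((F p).card : ℝ)
  have h5 : 0 ≤ ∑ a ∈ F p, ∑ b ∈ F p, G (a - b) := by
    simpa using PSD.sum_nonneg h (F p) fun _ => 1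
  refine (div_nonneg h5 (hc p).le).trans_eq (h4.tsum_eq.symm.trans (tsum_congr fun s => ?_))
  rw [← Finset.sum_mul, Finset.sum_boole, hr]
  ring

theorem PD.mg {G : L × L' → ℝ} (h : PD G) (hs : ∀ q, Summable (sl G q)) : PD (mg G) :=
  psd_iff.2 ⟨fun a b => by
      unfold T145.mg
      rw [← (Equiv.neg L).tsum_eq]
      exact tsum_congr fun s => by rw [← h.even]; simp,
    fun T x => by
      have h1 : PD fun s => ∑ a ∈ T, ∑ b ∈ T, x a * x b * G (s, a - b) := PSD.contract h T x
      have h2 := hasSum_sum (s := T) fun a _ => hasSum_sum (s := T) fun b _ =>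
        (hs (a - b)).hasSum.mul_left (x a * x b)
      exact (h1.tsum_nonneg h2.summable).trans_eq h2.tsum_eq⟩

end pd

theorem pdStmt : PDStmt := fun _ _ _ _ =>
  ⟨fun _ _ => PD.mul, fun _ φ h => h.comp φ, pd_ind, pd_cos, fun _ => pd_gq,
    fun _ h s => ⟨h.even s, h.abs_le s⟩, fun _ => PD.mg⟩

end Crest.Agent.T145
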