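import Mathlib

/-!
# Row 145 (BKT): the model class and the T0 toolbox, definitions and target Props (helper97)

Layer A: weights on an abelian group `L` (tsum expectations `Ex`), psd kernels, `PD`, `RSD`.
Layer B: edge kernels on `ℤ` (`gau`, `bes`), `IsKer`, `Short`.
Layer C: finite height models `Mdl V` on configurations `Cfg V = V →₀ ℤ` (heights are INTEGERS; the
factor `2π` of the DG statements is put in only at the bridge), bonds at a level, clusters.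
The `…Stmt` Props are the tasks.
-/

set_option autoImplicit false

namespace Crest.Agent.T145

open Finset

/-! ## Layer 0: weights and expectations (any type) -/
section wt
variable {α : Type*}

/-- total mass -/
noncomputable def Zs (W : α → ℝ) : ℝ := ∑' a, W a

/-- expectation of `F` under the normalised weight `W` -/
noncomputable def Ex (W F : α → ℝ) : ℝ := (∑' a, W a * F a) / ∑' a, W a

open Classical in
/-- indicator of a predicate -/
noncomputable def ind (p : Prop) : ℝ := if p then 1 else 0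

/-- probability of an event -/
noncomputable def Pr (W : α → ℝ) (p : α → Prop) : ℝ := Ex W fun a => ind (p a)

/-- covariance -/
noncomputable def Cv (W F G : α → ℝ) : ℝ := Ex W (fun a => F a * G a) - Ex W F * Ex W G

/-- `W` is a weight: nonnegative, summable, not identically zero -/
structure Wt (W : α → ℝ) : Prop where
  nonneg : ∀ a, 0 ≤ W a
  summ : Summable W
  pos : 0 < Zs W

/-- `F` is integrable for `W` -/
def Ig (W F : α → ℝ) : Prop := Summable fun a => W a * F a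

/-- the probability measure of a weight (bridge to Mathlib's integrals) -/
noncomputable def law [MeasurableSpace α] (W : α → ℝ) : MeasureTheory.Measure α :=
  (ENNReal.ofReal (Zs W))⁻¹ •
    MeasureTheory.Measure.count.withDensity fun a => ENNReal.ofReal (W a)

/-- push-forward of a weight -/
noncomputable def push {β : Type*} (W : α → ℝ) (π : α → β) : β → ℝ :=
  fun b => ∑' a, ind (π a = b) * W a

/-- total variation distance of the normalised weights -/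
noncomputable def TV (W W' : α → ℝ) : ℝ := (∑' a, |W a / Zs W - W' a / Zs W'|) / 2

/-- `W'` lies in the cone of the class `P`: every linear inequality valid on `P` holds for `W'` -/
def InCone (P : (α → ℝ) → Prop) (W' : α → ℝ) : Prop :=
  ∀ F : α → ℝ, Ig W' F → (∀ W, P W → Ig W F → 0 ≤ ∑' a, W a * F a) → 0 ≤ ∑' a, W' a * F a

/-- log-supermodular weight -/
def LSM [Lattice α] (W : α → ℝ) : Prop :=
  (∀ a, 0 ≤ W a) ∧ ∀ a b, W a * W b ≤ W (a ⊓ b) * W (a ⊔ b)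

/-- Holley's condition (`W'` below `W`) -/
def Dom [Lattice α] (W' W : α → ℝ) : Prop :=
  (∀ a, 0 ≤ W' a) ∧ (∀ a, 0 ≤ W a) ∧ ∀ a b, W' a * W b ≤ W' (a ⊓ b) * W (a ⊔ b)

end wt

/-! ## Layer A: RSD and positive definite functions on an abelian group -/
section grp
variable {L : Type*} [AddCommGroup L]

/-- real positive semidefinite kernel (Mathlib's notion; `PosSemidef.hadamard` = Schur product) -/
def PSD {I : Type*} (K : I → I → ℝ) : Prop := (Matrix.of K).PosSemidef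

/-- positive definite function -/
def PD (G : L → ℝ) : Prop := PSD fun a b => G (a - b)

/-- rotation-positive weight: `(a, b) ↦ ρ (c + a + b) ρ (a - b)` is psd for every `c` -/
structure RSD (ρ : L → ℝ) : Prop where
  nonneg : ∀ s, 0 ≤ ρ s
  even : ∀ s, ρ (-s) = ρ s
  psd : ∀ c, PSD fun a b => ρ (c + a + b) * ρ (a - b)

/-- all exponential moments -/
def SE (ρ : L → ℝ) : Prop := ∀ f : L →+ ℝ, Summable fun s => ρ s * Real.exp (f s)

/-- centred weight -/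
structure Cen (ρ : L → ℝ) : Prop extends RSD ρ where
  pos0 : 0 < ρ 0
  se : SE ρ

/-- at most exponential growth (closed under `+`, `*`; integrable for every `SE` weight) -/
def Tame (F : L → ℝ) : Prop :=
  ∃ (C : ℝ) (T : Finset (L →+ ℝ)), ∀ s, |F s| ≤ C * ∑ f ∈ T, Real.exp (f s)

/-- weight with a force -/
noncomputable def tilt (W : L → ℝ) (f : L →+ ℝ) : L → ℝ := fun s => W s * Real.exp (f s)

/-- log moment generating function -/
noncomputable def M (W : L → ℝ) (f : L →+ ℝ) : ℝ := Real.log (Ex W fun s => Real.exp (f s))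

/-- characteristic function of an even weight -/
noncomputable def Ph (W : L → ℝ) (ξ : L →+ ℝ) : ℝ := Ex W fun s => Real.cos (ξ s)

/-- covariance form -/
noncomputable def Vr (W : L → ℝ) (f g : L →+ ℝ) : ℝ := Cv W (fun s => f s) (fun s => g s)

/-- Gaussian factor `exp (-∑ ℓ_j² / 2)` -/
noncomputable def gq {ι : Type*} (T : Finset ι) (ℓ : ι → L →+ ℝ) : L → ℝ :=
  fun s => Real.exp (-(∑ j ∈ T, ℓ j s ^ 2) / 2)

/-- slice (coset) of a weight on `L × Q` -/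
def sl {Q : Type*} (ρ : L × Q → ℝ) (q : Q) : L → ℝ := fun s => ρ (s, q)

/-- marginal on `Q` -/
noncomputable def mg {Q : Type*} (ρ : L × Q → ℝ) : Q → ℝ := fun q => ∑' s, ρ (s, q)

/-- complex Laplace transform -/
noncomputable def th (W : L → ℝ) (f ξ : L →+ ℝ) : ℂ :=
  ∑' s, (W s : ℂ) * Complex.exp ((f s : ℂ) + (ξ s : ℂ) * Complex.I)

/-- `ρ'` is more localised than `ρ` -/
def Loc (ρ' ρ : L → ℝ) : Prop :=
  (∀ f : L →+ ℝ, M ρ' f ≤ M ρ f) ∧ ∀ G : L → ℝ, PD G → Ex ρ G ≤ Ex ρ' G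

end grp

/-! ## Layer B: edge kernels -/

/-- discrete Gaussian kernel of length `τ` -/
noncomputable def gau (τ : ℝ) (k : ℤ) : ℝ := Real.exp (-(k : ℝ) ^ 2 / (2 * τ))

/-- modified Bessel kernel `I_k(τ)` -/
noncomputable def bes (τ : ℝ) (k : ℤ) : ℝ :=
  ∑' n : ℕ, (τ / 2) ^ (2 * n + k.natAbs) / ((n.factorial : ℝ) * ((n + k.natAbs).factorial : ℝ))

/-- the two families -/
noncomputable def kern (xy : Bool) (τ : ℝ) : ℤ → ℝ := if xy then bes τ else gau τ

/-- `u` is an edge of the same family as `w`, not longer -/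
def Short (u w : ℤ → ℝ) : Prop :=
  ∃ (xy : Bool) (τ' τ : ℝ), 0 < τ' ∧ τ' ≤ τ ∧ u = kern xy τ' ∧ w = kern xy τ

/-- `w` belongs to one of the families -/
def Fam (w : ℤ → ℝ) : Prop := ∃ (xy : Bool) (τ : ℝ), 0 < τ ∧ w = kern xy τ

/-- positive log-concave kernel (enough for FKG) -/
def LC (w : ℤ → ℝ) : Prop := (∀ k, 0 < w k) ∧ ∀ k, w (k - 1) * w (k + 1) ≤ w k ^ 2

/-- the structural properties of an edge kernel -/
structure IsKer (w : ℤ → ℝ) : Prop where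
  lc : LC w
  tp2 : ∀ a b : ℤ, 0 ≤ a → 0 ≤ b →
    (w (a + 1 - b) * w (a + 1 + b)) * (w (a - (b + 1)) * w (a + (b + 1))) ≤
      (w (a - b) * w (a + b)) * (w (a - b) * w (a + b + 2))
  cen : Cen w
  pd : PD w

/-! ## Layer C: finite height models -/

/-- integer height configurations -/
abbrev Cfg (V : Type*) : Type _ := V →₀ ℤ

instance {V : Type*} : MeasurableSpace (Cfg V) := ⊤
instance {V : Type*} : DiscreteMeasurableSpace (Cfg V) := ⟨fun _ => trivial⟩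

noncomputable instance {V : Type*} : DistribLattice (Cfg V) :=
  { (inferInstance : Lattice (V →₀ ℤ)) with
    le_sup_inf := fun a b c x => by
      simp only [Finsupp.inf_apply, Finsupp.sup_apply]; exact le_sup_inf }

/-- `A` = free sites, `ed` = edges (ordered pairs), `w` = edge kernels, `site` = site weights -/
structure Mdl (V : Type*) where
  A : Finset V
  ed : Finset (V × V)
  w : V × V → ℤ → ℝ
  site : V → ℤ → ℝ

section mdl
variable {V : Type*} [DecidableEq V]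

/-- pairing `⟨f, s⟩ = ∑ f x * s x` -/
noncomputable def pr (f : V → ℝ) : Cfg V →+ ℝ :=
  Finsupp.liftAddHom fun x => (AddMonoidHom.mulLeft (f x)).comp (Int.castAddHom ℝ)

/-- gradient along an edge -/
def dE (e : V × V) (s : Cfg V) : ℤ := s e.2 - s e.1

/-- `|s|` -/
noncomputable def ab (s : Cfg V) : Cfg V := s.mapRange (fun k => |k|) (by simp)

/-- the constant `h` on `U` -/
noncomputable def cst (U : Finset V) (h : ℤ) : Cfg V := ∑ x ∈ U, Finsupp.single x h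

/-- `s` on `U`, `t` elsewhere -/
noncomputable def pw (U : Finset V) (s t : Cfg V) : Cfg V :=
  s.filter (· ∈ U) + t.filter (· ∉ U)

namespace Mdl
variable (m : Mdl V)

/-- weight with boundary condition `η` off `A` and seam `σ` -/
noncomputable def Ws (η : Cfg V) (σ : V × V → ℤ) (s : Cfg V) : ℝ :=
  ind (∀ x, x ∉ m.A → s x = η x) * (∏ e ∈ m.ed, m.w e (dE e s + σ e)) * ∏ x ∈ m.A, m.site x (s x)

/-- weight with boundary condition `η` off `A` -/
noncomputable def W (η : Cfg V) (s : Cfg V) : ℝ :=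
  ind (∀ x, x ∉ m.A → s x = η x) * (∏ e ∈ m.ed, m.w e (dE e s)) * ∏ x ∈ m.A, m.site x (s x)

/-- change the set of free sites (pin / Gibbs specification) -/
def free (A' : Finset V) : Mdl V := { m with A := A' }

/-- keep only the edges of `ed'` (cut) -/
def keep (ed' : Finset (V × V)) : Mdl V := { m with ed := ed' }

/-- add the force `f` -/
noncomputable def force (f : V → ℝ) : Mdl V :=
  { m with site := fun x k => m.site x k * Real.exp (f x * k) }

/-- multiply the site weights -/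
def mulSite (u : V → ℤ → ℝ) : Mdl V := { m with site := fun x k => m.site x k * u x k }

/-- recentre the site weights at level `h` -/
def shift (h : ℤ) : Mdl V := { m with site := fun x k => m.site x (k + h) }

/-- all edge kernels belong to the families -/
def Fm : Prop := ∀ e ∈ m.ed, Fam (m.w e)

/-- nonnegative site weights -/
def Nn : Prop := ∀ x ∈ m.A, ∀ k, 0 ≤ m.site x k

/-- even nonnegative site weights -/
def Ev : Prop := ∀ x ∈ m.A, ∀ k, 0 ≤ m.site x k ∧ m.site x (-k) = m.site x k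

/-- centred model: family kernels; site weights RSD, PD, positive at `0` (masses, `1`, pins) -/
def Ctr : Prop := m.Fm ∧ ∀ x ∈ m.A, RSD (m.site x) ∧ PD (m.site x) ∧ 0 < m.site x 0

/-- no zero mode: every free site is joined along `ed` to a pinned site or to a site whose weight has all
exponential moments -/
def Anch : Prop := ∀ x ∈ m.A, ∃ y, Relation.ReflTransGen
  (fun u v => (u, v) ∈ m.ed ∨ (v, u) ∈ m.ed) x y ∧ (y ∉ m.A ∨ SE (m.site y))

/-- weight of the bond `e` (open iff `o`) at level `h` -/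
noncomputable def bw (h : ℤ) (s : Cfg V) (e : V × V) (o : Prop) [Decidable o] : ℝ :=
  if o then m.w e (dE e s) - m.w e (|s e.1 - h| + |s e.2 - h|)
  else m.w e (|s e.1 - h| + |s e.2 - h|)

/-- joint weight of heights and open bonds at level `h` -/
noncomputable def J (h : ℤ) (η : Cfg V) (p : Cfg V × Finset (V × V)) : ℝ :=
  ind (∀ x, x ∉ m.A → p.1 x = η x) * ind (p.2 ⊆ m.ed) *
    (∏ e ∈ m.ed, m.bw h p.1 e (e ∈ p.2)) * ∏ x ∈ m.A, m.site x (p.1 x)

/-- the model left after the set `C`, carrying the heights `ζ`, has been explored at level `h`: sites of `C`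
pinned, edges meeting `C` removed, each edge from `C` to `y ∉ C` becomes the site weight
`k ↦ w (|ζ x - h| + |k - h|)` at `y` -/
noncomputable def rest (h : ℤ) (C : Finset V) (ζ : Cfg V) : Mdl V where
  A := m.A \ C
  ed := m.ed.filter fun e => e.1 ∉ C ∧ e.2 ∉ C
  w := m.w
  site := fun y k => m.site y k *
    (∏ e ∈ m.ed.filter (fun e => e.1 ∈ C ∧ e.2 = y), m.w e (|ζ e.1 - h| + |k - h|)) *
    ∏ e ∈ m.ed.filter (fun e => e.2 ∈ C ∧ e.1 = y), m.w e (|ζ e.2 - h| + |k - h|)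

/-- `m'` is `m` with `C` pinned and the edges meeting `C` shortened -/
def Shr (C : Finset V) (m' : Mdl V) : Prop :=
  m'.A = m.A \ C ∧ m'.ed = m.ed ∧ m'.site = m.site ∧
    ∀ e ∈ m.ed, Short (m'.w e) (m.w e) ∧ (e.1 ∉ C → e.2 ∉ C → m'.w e = m.w e)

end Mdl

/-- connection along the bonds `ω` -/
def Conn (ω : Finset (V × V)) (x y : V) : Prop :=
  Relation.ReflTransGen (fun u v => (u, v) ∈ ω ∨ (v, u) ∈ ω) x y

open Classical in
/-- the cluster of the source set `S` (contains `S`) -/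
noncomputable def cl (S : Finset V) (ω : Finset (V × V)) : Finset V :=
  (S ∪ ω.image Prod.fst ∪ ω.image Prod.snd).filter fun y => ∃ x ∈ S, Conn ω x y

/-- the bonds with both ends in `C` -/
def inn (C : Finset V) (ω : Finset (V × V)) : Finset (V × V) :=
  ω.filter fun e => e.1 ∈ C ∧ e.2 ∈ C

/-- GKS class: `F (s, ω) = ∑_T g_T (|s|, ω) ∏_{x ∈ T} sign (s x)`, `g_T ≥ 0` monotone on `|s| ≥ 0` -/
def Gks (F : Cfg V × Finset (V × V) → ℝ) : Prop :=
  ∃ (𝒯 : Finset (Finset V)) (g : Finset V → Cfg V × Finset (V × V) → ℝ),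
    (∀ T p, 0 ≤ p.1 → 0 ≤ g T p) ∧ (∀ T p p', 0 ≤ p.1 → p ≤ p' → g T p ≤ g T p') ∧
      ∀ p, F p = ∑ T ∈ 𝒯, g T (ab p.1, p.2) * ∏ x ∈ T, ((p.1 x).sign : ℝ)

/-- the N-cut projection: on each block `B i` subtract the height of the root `r i`; `0` off the blocks -/
noncomputable def prj {ι : Type*} (I : Finset ι) (B : ι → Finset V) (r : ι → V) (s : Cfg V) : Cfg V :=
  ∑ i ∈ I, (s.filter (· ∈ B i) - cst (B i) (s (r i)))

/-- the N-cut model: blocks `B i` pinned at their roots, only the edges inside a block, no site weights -/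
noncomputable def Mdl.ncut {ι : Type*} (m : Mdl V) (I : Finset ι) (B : ι → Finset V) (r : ι → V) :
    Mdl V where
  A := I.biUnion fun i => (B i).erase (r i)
  ed := I.biUnion fun i => inn (B i) m.ed
  w := m.w
  site := fun _ _ => 1

end mdl

/-! ## The T0 Props -/

/-- bridge to Mathlib integrals and elementary calculus of `Ex` -/
def LawStmt : Prop := ∀ (α : Type) [MeasurableSpace α] [DiscreteMeasurableSpace α] [Countable α]
  (W : α → ℝ), Wt W → MeasureTheory.IsProbabilityMeasure (law W) ∧ ∀ F : α → ℝ,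
    (Ig W F ↔ MeasureTheory.Integrable F (law W)) ∧ Ex W F = ∫ a, F a ∂law W

/-- closure properties of `PD` -/
def PDStmt : Prop := ∀ (L L' : Type) [AddCommGroup L] [AddCommGroup L'],
  (∀ G G' : L → ℝ, PD G → PD G' → PD fun s => G s * G' s) ∧
  (∀ (G : L' → ℝ) (φ : L →+ L'), PD G → PD fun s => G (φ s)) ∧
  (∀ φ : L →+ L', PD fun s => ind (φ s = 0)) ∧
  (∀ ξ : L →+ ℝ, PD fun s => Real.cos (ξ s)) ∧
  (∀ (ι : Type) (T : Finset ι) (ℓ : ι → L →+ ℝ), PD (gq T ℓ)) ∧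
  (∀ G : L → ℝ, PD G → ∀ s, G (-s) = G s ∧ |G s| ≤ G 0) ∧
  (∀ G : L × L' → ℝ, PD G → (∀ q, Summable (sl G q)) → PD (mg G))

/-- closure properties of `RSD` -/
def RSDStmt : Prop := ∀ (L L' : Type) [AddCommGroup L] [AddCommGroup L'],
  (∀ ρ ρ' : L → ℝ, RSD ρ → RSD ρ' → RSD fun s => ρ s * ρ' s) ∧
  (∀ (ρ : L' → ℝ) (φ : L →+ L'), RSD ρ → RSD fun s => ρ (φ s)) ∧
  (∀ φ : L →+ L', RSD fun s => ind (φ s = 0)) ∧
  (∀ (ι : Type) (T : Finset ι) (ℓ : ι → L →+ ℝ), RSD (gq T ℓ)) ∧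
  (∀ [IsAddTorsionFree L] (ρ : L × L' → ℝ), RSD ρ → (∀ q, Summable (sl ρ q)) → RSD (mg ρ))

/-- (A) the RSD inequality on cosets, with forces -/
def RsdAStmt : Prop := ∀ (L Q : Type) [AddCommGroup L] [AddCommGroup Q] [IsAddTorsionFree L]
  (ρ : L × Q → ℝ), RSD ρ → (∀ q, SE (sl ρ q)) → ∀ (q₁ q₂ : Q) (f₁ f₂ : L →+ ℝ),
    Zs (tilt (sl ρ q₁) f₁) ^ 2 * Zs (tilt (sl ρ q₂) f₂) ^ 2 ≤
      Zs (tilt (sl ρ (q₁ + q₂)) (f₁ + f₂)) * Zs (tilt (sl ρ (q₁ - q₂)) (f₁ - f₂)) * Zs (sl ρ 0) ^ 2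

/-- (C) complex form of (A) -/
def RsdCStmt : Prop := ∀ (L Q : Type) [AddCommGroup L] [AddCommGroup Q] [IsAddTorsionFree L]
  (ρ : L × Q → ℝ), RSD ρ → (∀ q, SE (sl ρ q)) → ∀ (q₁ q₂ : Q) (f₁ f₂ ξ₁ ξ₂ : L →+ ℝ),
    ‖th (sl ρ q₁) f₁ ξ₁‖ ^ 2 * ‖th (sl ρ q₂) f₂ ξ₂‖ ^ 2 ≤
      (Zs (tilt (sl ρ (q₁ + q₂)) (f₁ + f₂)) * ∑' s, ρ (s, 0) * Real.cos ((ξ₁ + ξ₂) s)) *
        (Zs (tilt (sl ρ (q₁ - q₂)) (f₁ - f₂)) * ∑' s, ρ (s, 0) * Real.cos ((ξ₁ - ξ₂) s))

/-- (B) = inequality (1): a PD function has its largest mean in the centred state -/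
def RsdBStmt : Prop := ∀ (L Q : Type) [AddCommGroup L] [AddCommGroup Q] [IsAddTorsionFree L]
  (ρ G : L × Q → ℝ), RSD ρ → PD G → ∀ (q : Q) (f : L →+ ℝ),
    Summable (sl ρ 0) → Summable (tilt (sl ρ q) f) →
    |∑' s, tilt (sl ρ q) f s * G (s, q)| * Zs (sl ρ 0) ≤
      Zs (tilt (sl ρ q) f) * ∑' s, ρ (s, 0) * G (s, 0)

/-- (P) PD functions are positively correlated -/
def RsdPStmt : Prop := ∀ (L : Type) [AddCommGroup L] [IsAddTorsionFree L] (ρ G G' : L → ℝ),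
  RSD ρ → Summable ρ → PD G → PD G' →
    (∑' s, ρ s * G s) * (∑' s, ρ s * G' s) ≤ Zs ρ * ∑' s, ρ s * (G s * G' s)

/-- Gaussian comparison corollaries for a centred weight -/
def CorStmt : Prop := ∀ (L : Type) [AddCommGroup L] [IsAddTorsionFree L] (ρ : L → ℝ), Cen ρ →
  (∀ f g : L →+ ℝ, 2 * M ρ f + 2 * M ρ g ≤ M ρ (f + g) + M ρ (f - g)) ∧
  (∀ f : L →+ ℝ, Vr ρ f f / 2 ≤ M ρ f) ∧
  (∀ ξ η : L →+ ℝ, Ph ρ ξ ^ 2 * Ph ρ η ^ 2 ≤ Ph ρ (ξ + η) * Ph ρ (ξ - η)) ∧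
  (∀ ξ : L →+ ℝ, Real.exp (-Vr ρ ξ ξ / 2) ≤ Ph ρ ξ) ∧
  (∀ f g : L →+ ℝ, Vr ρ g g ≤ Vr (tilt ρ f) g g) ∧
  (∀ f g : L →+ ℝ, Vr ρ f f * Vr ρ g g + 2 * Vr ρ f g ^ 2 ≤ Ex ρ fun s => f s ^ 2 * g s ^ 2) ∧
  (∀ f g : L →+ ℝ, ConvexOn ℝ Set.univ fun t : ℝ =>
    M ρ (f + t • g) - Vr ρ (f + t • g) (f + t • g) / 2)

/-- coset version of the variance bound -/
def CorQStmt : Prop := ∀ (L Q : Type) [AddCommGroup L] [AddCommGroup Q] [IsAddTorsionFree L]
  (ρ : L × Q → ℝ), RSD ρ → (∀ q, SE (sl ρ q)) → 0 < ρ 0 → ∀ (q : Q) (f g : L →+ ℝ),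
    0 < Zs (sl ρ q) →
    Vr (sl ρ 0) g g ≤ Vr (tilt (sl ρ q) f) g g ∧
      2 * M (sl ρ 0) g ≤ M (tilt (sl ρ q) f) g + M (tilt (sl ρ q) f) (-g)

/-- monotonicity in the form: a nonnegative PD factor localises; inf-convolution bound -/
def MonoStmt : Prop := ∀ (L : Type) [AddCommGroup L] [IsAddTorsionFree L] (ρ : L → ℝ), Cen ρ →
  (∀ G : L → ℝ, PD G → (∀ s, 0 ≤ G s) → 0 < G 0 → Loc (fun s => ρ s * G s) ρ) ∧
  (∀ ρ' : L → ℝ, Wt ρ' → SE ρ' → (∀ s, ρ' (-s) = ρ' s) → Loc ρ' ρ →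
    ∀ f : L →+ ℝ, Vr ρ' f f ≤ Vr ρ f f) ∧
  (∀ (ι : Type) (T : Finset ι) (ℓ : ι → L →+ ℝ) (t : ι → ℝ) (f : L →+ ℝ),
    M (fun s => ρ s * gq T ℓ s) (f + ∑ j ∈ T, t j • ℓ j) ≤ M ρ f + (∑ j ∈ T, t j ^ 2) / 2)

/-- the Gaussian kernel -/
def GauStmt : Prop := ∀ τ : ℝ, 0 < τ → IsKer (gau τ) ∧
  ∀ a : ℝ, ∑' k : ℤ, gau τ k * Real.exp (a * k) ≤ Real.exp (τ * a ^ 2 / 2) * ∑' k : ℤ, gau τ k

/-- the Bessel kernel; generating function and semigroup -/
def BesStmt : Prop := ∀ τ : ℝ, 0 < τ → IsKer (bes τ) ∧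
  (∀ a : ℝ, HasSum (fun k : ℤ => bes τ k * Real.exp (a * k)) (Real.exp (τ * Real.cosh a))) ∧
  (∀ θ : ℝ, HasSum (fun k : ℤ => bes τ k * Real.cos (k * θ)) (Real.exp (τ * Real.cos θ))) ∧
  ∀ τ' : ℝ, 0 < τ' → ∀ k : ℤ, HasSum (fun j : ℤ => bes τ j * bes τ' (k - j)) (bes (τ + τ') k)

/-- every family kernel is a kernel -/
def KerStmt : Prop := ∀ w, Fam w → IsKer w

/-- shortening one edge localises -/
def ShortStmt : Prop := ∀ (L : Type) [AddCommGroup L] [IsAddTorsionFree L] (ρ : L → ℝ)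
  (d : L →+ ℤ) (u w : ℤ → ℝ), RSD ρ → Short u w → Cen (fun s => ρ s * w (d s)) →
    Loc (fun s => ρ s * u (d s)) (fun s => ρ s * w (d s))

/-- the cut edge is a mixture of shorter edges -/
def MixKStmt : Prop := ∀ (xy : Bool) (τ : ℝ), 0 < τ → ∀ c : ℤ, 0 ≤ c →
  ∃ ν : MeasureTheory.Measure ℝ, ν (Set.Ioc 0 τ)ᶜ = 0 ∧ ∀ y : ℤ,
    MeasureTheory.Integrable (fun t => kern xy t y) ν ∧
      kern xy τ (c + |y|) = ∫ t, kern xy t y ∂ν

/-- models: RSD in (heights, boundary condition, seam), exponential moments -/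
def MdlStmt : Prop := ∀ (V : Type) [DecidableEq V] (m : Mdl V),
  (m.Ctr → RSD fun p : Cfg V × (Cfg V × (V × V → ℤ)) => m.Ws p.2.1 p.2.2 p.1) ∧
  (m.Fm → m.Anch → (∀ x ∈ m.A, ∃ C a : ℝ, ∀ k : ℤ, |m.site x k| ≤ C * Real.exp (a * |(k : ℝ)|)) →
    ∀ η σ, SE (m.Ws η σ)) ∧
  (m.Ctr → m.Anch → Cen (m.W 0))

/-- Gibbs (DLR) tower property -/
def DlrStmt : Prop := ∀ (V : Type) [DecidableEq V] (m : Mdl V) (η : Cfg V) (A' : Finset V)
  (F : Cfg V → ℝ), A' ⊆ m.A → Wt (m.W η) → Ig (m.W η) F →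
    Ig (m.W η) (fun s => Ex ((m.free A').W s) F) ∧
      Ex (m.W η) F = Ex (m.W η) fun s => Ex ((m.free A').W s) F

/-- four functions / Holley / FKG for summable weights on a distributive lattice -/
def FkgStmt : Prop := ∀ (α : Type) [DistribLattice α],
  (∀ f₁ f₂ f₃ f₄ : α → ℝ, (∀ a, 0 ≤ f₁ a) → (∀ a, 0 ≤ f₂ a) → (∀ a, 0 ≤ f₃ a) → (∀ a, 0 ≤ f₄ a) →
    Summable f₁ → Summable f₂ → Summable f₃ → Summable f₄ →
    (∀ a b, f₁ a * f₂ b ≤ f₃ (a ⊓ b) * f₄ (a ⊔ b)) → Zs f₁ * Zs f₂ ≤ Zs f₃ * Zs f₄) ∧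
  (∀ W' W F : α → ℝ, Wt W' → Wt W → Dom W' W → Monotone F → Ig W' F → Ig W F →
    Ex W' F ≤ Ex W F) ∧
  (∀ W F G : α → ℝ, Wt W → LSM W → Monotone F → Monotone G → Ig W F → Ig W G →
    Ig W (fun a => F a * G a) → 0 ≤ Cv W F G)

/-- models with log-concave kernels: lattice condition jointly in heights and boundary condition -/
def LsmStmt : Prop := ∀ (V : Type) [DecidableEq V] (m : Mdl V), (∀ e ∈ m.ed, LC (m.w e)) → m.Nn →
  ∀ (η η' s s' : Cfg V), m.W η s * m.W η' s' ≤ m.W (η ⊓ η') (s ⊓ s') * m.W (η ⊔ η') (s ⊔ s')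

/-- bonds: marginal, and monotonicity of the bonds above the level -/
def BondStmt : Prop := ∀ (V : Type) [DecidableEq V] (m : Mdl V) (h : ℤ) (η : Cfg V), m.Fm → m.Nn →
  (∀ p, 0 ≤ m.J h η p) ∧ (∀ s, ∑ ω ∈ m.ed.powerset, m.J h η (s, ω) = m.W η s) ∧
  (∀ s ω, m.J h η (s, ω) ≠ 0 → ∀ e ∈ ω, 0 < (s e.1 - h) * (s e.2 - h) ) ∧
  ∀ Φ : Finset (V × V) → ℝ, Monotone Φ → Monotone fun s : Cfg V =>
    (∑ ω ∈ m.ed.powerset, (∏ e ∈ m.ed, m.bw h s e (e ∈ ω)) * Φ (ω.filter fun e => h < s e.1)) /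
      ∏ e ∈ m.ed, m.w e (dE e s)

/-- strong Markov property of the exploration of the cluster of `S` at level `h` -/
def ExplStmt : Prop := ∀ (V : Type) [DecidableEq V] (m : Mdl V) (h : ℤ) (η : Cfg V) (S : Finset V)
  (F : Cfg V × Finset (V × V) → ℝ), m.Fm → m.Nn → Wt (m.J h η) → Ig (m.J h η) F →
    let G : Cfg V × Finset (V × V) → ℝ := fun p =>
      Ex ((m.rest h (cl S p.2) p.1).J h p.1) fun p' => F (p'.1, p'.2 ∪ inn (cl S p.2) p.2)
    Ig (m.J h η) G ∧ Ex (m.J h η) F = Ex (m.J h η) G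

/-- the rest model is a mixture of models with `C` pinned at the level and shorter boundary edges
(heights alone, and heights with bonds) -/
def MixStmt : Prop := ∀ (V : Type) [DecidableEq V] [Countable V] (m : Mdl V) (h : ℤ) (C : Finset V) (ζ η : Cfg V),
  m.Fm → m.Nn → (∀ x ∈ C, η x = h) →
    InCone (fun W => ∃ m', m.Shr C m' ∧ W = m'.W η) ((m.rest h C ζ).W η) ∧
      InCone (fun W => ∃ m', m.Shr C m' ∧ W = m'.J h η) ((m.rest h C ζ).J h η)

/-- GKS-II + absolute-value FKG with bonds, one-signed sources -/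
def GksStmt : Prop := ∀ (V : Type) [DecidableEq V] (m : Mdl V) (η : Cfg V) (f : V → ℝ)
  (F G : Cfg V × Finset (V × V) → ℝ), m.Fm → m.Ev → 0 ≤ η → (∀ x, 0 ≤ f x) →
    Wt ((m.force f).J 0 η) → Gks F → Gks G → Ig ((m.force f).J 0 η) F → Ig ((m.force f).J 0 η) G →
    Ig ((m.force f).J 0 η) (fun p => F p * G p) → 0 ≤ Cv ((m.force f).J 0 η) F G

/-- N-cut with zero modes: the projected law has a PD density with respect to the cut model -/
def CutStmt : Prop := ∀ (V ι : Type) [DecidableEq V] (m : Mdl V) (I : Finset ι) (B : ι → Finset V)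
  (r : ι → V), m.Ctr → m.Anch → (∀ i ∈ I, r i ∈ B i) →
    (∀ i ∈ I, ∀ j ∈ I, i ≠ j → Disjoint (B i) (B j)) →
    ∃ G : Cfg V → ℝ, PD G ∧ (∀ t, 0 ≤ G t) ∧ 0 < G 0 ∧ ∀ F : Cfg V → ℝ,
      Ig (m.W 0) (fun s => F (prj I B r s)) →
        Ig (fun t => (m.ncut I B r).W 0 t * G t) F ∧
          Ex (m.W 0) (fun s => F (prj I B r s)) = Ex (fun t => (m.ncut I B r).W 0 t * G t) F

/-- BARE bound: a flow representation of the force bounds `M` by independent edges -/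
def BareStmt : Prop := ∀ (V : Type) [DecidableEq V] (m : Mdl V) (φ : V × V → ℝ) (f : V → ℝ),
  m.Ctr → m.Anch → (∀ s : Cfg V, (∀ x, x ∉ m.A → s x = 0) →
    pr f s = ∑ e ∈ m.ed, φ e * (dE e s : ℝ)) →
    M (m.W 0) (pr f) ≤ ∑ e ∈ m.ed,
      Real.log (Ex (m.w e) fun k => Real.exp (φ e * k))

/-- determinant bounds for Gaussian observables -/
def DetStmt : Prop := ∀ (L ι : Type) [AddCommGroup L] [Fintype ι] [DecidableEq ι] (W : L → ℝ)
  (ℓ : ι → L →+ ℝ) (C : Matrix ι ι ℝ), Wt W → C.PosSemidef →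
    ((∀ z : ι → ℝ, Real.exp (-(z ⬝ᵥ C.mulVec z) / 2) ≤ Ph W (∑ j, z j • ℓ j)) →
      1 / Real.sqrt (1 + C).det ≤ Ex W (gq univ ℓ)) ∧
    (SE W → (1 - C).PosDef → (∀ z : ι → ℝ, M W (∑ j, z j • ℓ j) ≤ (z ⬝ᵥ C.mulVec z) / 2) →
      Ig W (fun s => (gq univ ℓ s)⁻¹) ∧ Ex W (fun s => (gq univ ℓ s)⁻¹) ≤ 1 / Real.sqrt (1 - C).det)

/-- recentring, gauge invariance of the seam, irrelevant boundary values -/
def GaugeStmt : Prop := ∀ (V : Type) [DecidableEq V] (m : Mdl V),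
  (∀ (U : Finset V) (h : ℤ) (η s : Cfg V), m.A ⊆ U → (∀ e ∈ m.ed, e.1 ∈ U ∧ e.2 ∈ U) →
    m.W (η + cst U h) (s + cst U h) = (m.shift h).W η s ∧
      ∀ h' ω, m.J (h' + h) (η + cst U h) (s + cst U h, ω) = (m.shift h).J h' η (s, ω)) ∧
  (∀ (η u s : Cfg V) (σ : V × V → ℤ), (∀ x ∈ m.A, ∀ k, m.site x (k + u x) = m.site x k) →
    m.Ws (η + u) σ (s + u) = m.Ws η (fun e => σ e + dE e u) s) ∧
  (∀ (η u s : Cfg V), (∀ x ∈ m.A, u x = 0) → (∀ e ∈ m.ed, u e.1 = 0 ∧ u e.2 = 0) →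
    m.W (η + u) (s + u) = m.W η s ∧ ∀ h ω, m.J h (η + u) (s + u, ω) = m.J h η (s, ω))

/-- `m'` is the image of `m` under the vertex bijection `φ` (edges may be reoriented by `ψ`) -/
def Mdl.Iso {V V' : Type*} (m : Mdl V) (m' : Mdl V') (φ : V ≃ V') (ψ : V × V ≃ V' × V') : Prop :=
  m'.A = m.A.map φ.toEmbedding ∧ m'.ed = m.ed.map ψ.toEmbedding ∧
    (∀ e, ψ e = (φ e.1, φ e.2) ∨ ψ e = (φ e.2, φ e.1)) ∧
    (∀ e ∈ m.ed, m'.w (ψ e) = m.w e) ∧ ∀ x ∈ m.A, m'.site (φ x) = m.site x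

/-- transport along a bijection of the vertices (translations, symmetries of the square) -/
def IsoStmt : Prop := ∀ (V V' : Type) [DecidableEq V] [DecidableEq V'] (m : Mdl V) (m' : Mdl V')
  (φ : V ≃ V') (ψ : V × V ≃ V' × V'), m.Fm → m.Iso m' φ ψ → ∀ η s : Cfg V,
    m'.W (Finsupp.equivMapDomain φ η) (Finsupp.equivMapDomain φ s) = m.W η s ∧
      ∀ h ω, m'.J h (Finsupp.equivMapDomain φ η)
        (Finsupp.equivMapDomain φ s, ω.map ψ.toEmbedding) = m.J h η (s, ω)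

/-- the root of a free (N) model is irrelevant for functions of the gradients -/
def RootStmt : Prop := ∀ (V : Type) [DecidableEq V] (m : Mdl V) (B : Finset V) (r r' : V),
  r ∈ B → r' ∈ B → (∀ e ∈ m.ed, e.1 ∈ B ∧ e.2 ∈ B) → (∀ x k, m.site x k = 1) →
    ∀ F : Cfg V → ℝ, (∀ s h, F (s + cst B h) = F s) →
      Zs ((m.free (B.erase r)).W 0) = Zs ((m.free (B.erase r')).W 0) ∧
      (Ig ((m.free (B.erase r)).W 0) F ↔ Ig ((m.free (B.erase r')).W 0) F) ∧
      Ex ((m.free (B.erase r)).W 0) F = Ex ((m.free (B.erase r')).W 0) F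

end Crest.Agent.T145
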