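import Mathlib
import Crest.Agent.T145.Def_97

/-!
# Row 145: the RSD core (helper63)

`rsdStmt`, `rsdAStmt`, `rsdBStmt`, `rsdCStmt`, `rsdPStmt`, all unconditional.
The master lemma is `Rsd63.psd_rot`: a family of double sums `∑ (s, s')` is a psd matrix as soon as, for
every `c`, the summands at `(c + a + b, a - b)` form a psd kernel.
-/

set_option autoImplicit false

namespace Crest.Agent.T145

open Finset

namespace Rsd63

section psd
variable {I J : Type*}

theorem psd_iff {K : I → I → ℝ} : PSD K ↔ (∀ a b, K a b = K b a) ∧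
    ∀ (T : Finset I) (x : I → ℝ), 0 ≤ ∑ a ∈ T, ∑ b ∈ T, x a * K a b * x b := by
  classical
  constructor
  · intro h
    refine ⟨fun a b => ?_, fun T x => ?_⟩
    · simpa using h.1.apply b a
    · have h1 := (Matrix.PosSemidef.submatrix h ((↑) : T → I)).dotProduct_mulVec_nonneg
        (fun a : T => x a)
      simp only [dotProduct, Matrix.mulVec, Matrix.submatrix_apply, Matrix.of_apply, star_trivial,
        Finset.mul_sum] at h1
      rw [← Finset.sum_coe_sort T]
      refine h1.trans_eq (Finset.sum_congr rfl fun a _ => ?_)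
      rw [← Finset.sum_coe_sort T]
      exact Finset.sum_congr rfl fun b _ => by ring
  · rintro ⟨h1, h2⟩
    refine ⟨?_, fun x => ?_⟩
    · ext a b
      simpa using h1 b a
    · simpa [Finsupp.sum] using h2 x.support x

theorem psd_symm {K : I → I → ℝ} (h : PSD K) (a b : I) : K a b = K b a := (psd_iff.1 h).1 a b

theorem psd_congr {K K' : I → I → ℝ} (h : PSD K) (e : ∀ a b, K a b = K' a b) : PSD K' := by
  have : K = K' := funext fun a => funext fun b => e a b
  exact this ▸ h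

theorem psd_comp {K : I → I → ℝ} (h : PSD K) (e : J → I) : PSD fun a b => K (e a) (e b) :=
  Matrix.PosSemidef.submatrix h e

theorem psd_mul {K K' : I → I → ℝ} (h : PSD K) (h' : PSD K') : PSD fun a b => K a b * K' a b :=
  Matrix.PosSemidef.hadamard h h'

theorem psd_add {K K' : I → I → ℝ} (h : PSD K) (h' : PSD K') : PSD fun a b => K a b + K' a b :=
  Matrix.PosSemidef.add h h'

theorem psd_rank1 (u : I → ℝ) : PSD fun a b => u a * u b := by
  refine psd_iff.2 ⟨fun a b => mul_comm _ _, fun T x => ?_⟩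
  have : ∑ a ∈ T, ∑ b ∈ T, x a * (u a * u b) * x b = (∑ a ∈ T, x a * u a) * ∑ b ∈ T, x b * u b := by
    rw [Finset.sum_mul_sum]
    exact Finset.sum_congr rfl fun a _ => Finset.sum_congr rfl fun b _ => by ring
  rw [this]
  exact mul_self_nonneg _

theorem psd_one : PSD fun _ _ : I => (1 : ℝ) := psd_congr (psd_rank1 fun _ => 1) fun _ _ => one_mul _

theorem psd_cos (α : I → ℝ) : PSD fun a b => Real.cos (α a - α b) :=
  psd_congr (psd_add (psd_rank1 fun a => Real.cos (α a)) (psd_rank1 fun a => Real.sin (α a)))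
    fun _ _ => (Real.cos_sub _ _).symm

theorem psd_ind (φ : I → J) : PSD fun a b => ind (φ a = φ b) := by
  classical
  refine psd_congr (K := fun a b => (1 : Matrix J J ℝ) (φ a) (φ b))
    (Matrix.PosSemidef.submatrix Matrix.PosSemidef.one φ) fun a b => ?_
  simp only [Matrix.one_apply, ind]

theorem psd_diag {K : I → I → ℝ} (h : PSD K) (a : I) : 0 ≤ K a a :=
  Matrix.PosSemidef.diag_nonneg h

theorem psd_minor {K : I → I → ℝ} (h : PSD K) (a b : I) : K a b ^ 2 ≤ K a a * K b b := by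
  have h2 := (psd_iff.1 (psd_comp h fun i : Bool => bif i then a else b)).2 univ
  have := discrim_le_zero (a := K a a) (b := 2 * K a b) (c := K b b) fun t => by
    have h3 := h2 fun i => bif i then t else 1
    simp only [Fintype.sum_bool, cond_true, cond_false] at h3
    rw [psd_symm h b a] at h3
    linarith
  rw [discrim] at this
  nlinarith

theorem psd_tsum {ι : Type*} {K : ι → I → I → ℝ} (h : ∀ c, PSD (K c))
    (hs : ∀ a b, Summable fun c => K c a b) : PSD fun a b => ∑' c, K c a b := by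
  refine psd_iff.2 ⟨fun a b => tsum_congr fun c => psd_symm (h c) a b, fun T x => ?_⟩
  have : HasSum (fun c => ∑ a ∈ T, ∑ b ∈ T, x a * K c a b * x b)
      (∑ a ∈ T, ∑ b ∈ T, x a * (∑' c, K c a b) * x b) :=
    hasSum_sum fun a _ => hasSum_sum fun b _ => ((hs a b).hasSum.mul_left _).mul_right _
  exact this.nonneg fun c => (psd_iff.1 (h c)).2 T x

theorem psd_marg {A : Type*} {K : A × J → A × J → ℝ} (h : PSD K)
    (hs : ∀ i j, Summable fun p : A × A => K (p.1, i) (p.2, j)) :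
    PSD fun i j => ∑' p : A × A, K (p.1, i) (p.2, j) := by
  refine psd_iff.2 ⟨fun i j => ?_, fun T x => ?_⟩
  · rw [← (Equiv.prodComm A A).tsum_eq]
    exact tsum_congr fun p => psd_symm h _ _
  have h1 : HasSum (fun p : A × A => ∑ i ∈ T, ∑ j ∈ T, x i * K (p.1, i) (p.2, j) * x j)
      (∑ i ∈ T, ∑ j ∈ T, x i * (∑' p : A × A, K (p.1, i) (p.2, j)) * x j) :=
    hasSum_sum fun a _ => hasSum_sum fun b _ => ((hs a b).hasSum.mul_left _).mul_right _
  have h2 : Filter.Tendsto (fun S : Finset A => S ×ˢ S) Filter.atTop Filter.atTop :=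
    Filter.tendsto_finsetProd_atTop.comp Filter.tendsto_atTop_diagonal
  refine ge_of_tendsto' (Filter.Tendsto.comp h1 h2) fun S => ?_
  have h3 := (psd_iff.1 h).2 (S ×ˢ T) fun p => x p.2
  simp only [Finset.sum_product, Function.comp] at h3 ⊢
  refine h3.trans_eq (Finset.sum_congr rfl fun a _ => ?_)
  rw [Finset.sum_comm]

end psd

section rot
variable {L : Type*} [AddCommGroup L] [IsAddTorsionFree L]

/-- the subgroup `2 L` -/
def dbl (L : Type*) [AddCommGroup L] : AddSubgroup L := (nsmulAddMonoidHom 2 : L →+ L).range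

/-- `(c, a, b) ↦ (c + a + b, a - b)`, `c` in a section of `L / 2 L` -/
noncomputable def rot (L : Type*) [AddCommGroup L] [IsAddTorsionFree L] :
    (L ⧸ dbl L) × (L × L) ≃ L × L :=
  Equiv.ofBijective (fun w => (w.1.out + w.2.1 + w.2.2, w.2.1 - w.2.2)) <| by
    constructor
    · rintro ⟨c, a, b⟩ ⟨c', a', b'⟩ h
      simp only [Prod.mk.injEq] at h
      obtain ⟨h1, h2⟩ := h
      have h3 : c.out + 2 • a = c'.out + 2 • a' := by
        have : c.out + 2 • a = (c.out + a + b) + (a - b) := by rw [two_nsmul]; abel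
        rw [this, h1, h2, two_nsmul]; abel
      have hc : c = c' := by
        rw [← c.out_eq', ← c'.out_eq']
        refine QuotientAddGroup.eq.2 ⟨a - a', ?_⟩
        simp only [nsmulAddMonoidHom_apply]
        have : c'.out = c.out + 2 • a - 2 • a' := by rw [h3]; abel
        rw [this, smul_sub]; abel
      subst hc
      have ha : a = a' := nsmul_right_injective two_ne_zero (add_left_cancel h3)
      subst ha
      have hb : b = b' := sub_right_injective h2
      subst hb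
      rfl
    · rintro ⟨s, s'⟩
      obtain ⟨⟨h, k, rfl⟩, hk⟩ := QuotientAddGroup.mk_out_eq_add (dbl L) (s + s')
      refine ⟨(QuotientAddGroup.mk (s + s'), -k, -k - s'), ?_⟩
      simp only [Prod.mk.injEq]
      rw [hk]
      simp only [nsmulAddMonoidHom_apply, two_nsmul]
      constructor <;> abel

/-- the master lemma -/
theorem psd_rot {J : Type*} (F : J → J → L × L → ℝ) (hs : ∀ i j, Summable (F i j))
    (h : ∀ c : L, PSD fun p p' : L × J => F p.2 p'.2 (c + p.1 + p'.1, p.1 - p'.1)) :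
    PSD fun i j => ∑' z, F i j z := by
  have hs' : ∀ i j, Summable fun w : (L ⧸ dbl L) × (L × L) => F i j (rot L w) := fun i j =>
    (rot L).summable_iff.2 (hs i j)
  refine psd_congr (psd_tsum (K := fun (c : L ⧸ dbl L) i j => ∑' p : L × L, F i j (rot L (c, p)))
    (fun c => psd_marg (h c.out) fun i j => (hs' i j).prod_factor c)
    fun i j => (hs' i j).prod) fun i j => ?_
  rw [← (hs' i j).tsum_prod, (rot L).tsum_eq]

/-- two-block form of the master lemma -/
theorem cs_rot {F₁ F₂ F₃ : L × L → ℝ} (h₁ : Summable F₁) (h₂ : Summable F₂) (h₃ : Summable F₃)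
    (h : ∀ c : L, ∃ K : L × Bool → L × Bool → ℝ, PSD K ∧
      (∀ a b, K (a, true) (b, true) = F₁ (c + a + b, a - b)) ∧
      (∀ a b, K (a, true) (b, false) = F₂ (c + a + b, a - b)) ∧
      ∀ a b, K (a, false) (b, false) = F₃ (c + a + b, a - b)) :
    (∑' z, F₂ z) ^ 2 ≤ (∑' z, F₁ z) * (∑' z, F₃ z) ∧ 0 ≤ ∑' z, F₁ z ∧ 0 ≤ ∑' z, F₃ z := by
  have h₄ : Summable fun z : L × L => F₂ (z.1, -z.2) :=
    ((Equiv.refl L).prodCongr (Equiv.neg L)).summable_iff.2 h₂
  have := psd_rot (fun i j : Bool => bif i then (bif j then F₁ else F₂)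
    else (bif j then fun z => F₂ (z.1, -z.2) else F₃)) (fun i j => by
      cases i <;> cases j <;> assumption) fun c => by
    obtain ⟨K, hK, e₁, e₂, e₃⟩ := h c
    refine psd_congr hK ?_
    rintro ⟨a, i⟩ ⟨b, j⟩
    cases i <;> cases j
    · exact e₃ a b
    · rw [psd_symm hK, e₂]
      simp only [cond_true, cond_false, neg_sub]
      rw [add_right_comm]
    · exact e₂ a b
    · exact e₁ a b
  exact ⟨psd_minor this true false, psd_diag this true, psd_diag this false⟩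

end rot

section grp
variable {L : Type*} [AddCommGroup L]

theorem pd_even {G : L → ℝ} (h : PD G) (s : L) : G (-s) = G s := by
  simpa using psd_symm h 0 s

theorem pd_abs_le {G : L → ℝ} (h : PD G) (s : L) : |G s| ≤ G 0 := by
  have h1 := psd_minor h s 0
  have h2 := psd_diag h s
  simp only [sub_zero, sub_self] at h1 h2
  exact abs_le_of_sq_le_sq' (by rw [sq (G 0)]; exact h1) h2 |> abs_le.2

theorem rsd_mul {ρ ρ' : L → ℝ} (h : RSD ρ) (h' : RSD ρ') : RSD fun s => ρ s * ρ' s :=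
  ⟨fun s => mul_nonneg (h.nonneg s) (h'.nonneg s), fun s => by rw [h.even, h'.even],
    fun c => psd_congr (psd_mul (h.psd c) (h'.psd c)) fun a b => by ring⟩

theorem rsd_comp {L' : Type*} [AddCommGroup L'] {ρ : L' → ℝ} (h : RSD ρ) (φ : L →+ L') :
    RSD fun s => ρ (φ s) :=
  ⟨fun s => h.nonneg _, fun s => by rw [map_neg, h.even],
    fun c => psd_congr (psd_comp (h.psd (φ c)) φ) fun a b => by simp only [map_add, map_sub]⟩

theorem rsd_one : RSD fun _ : L => (1 : ℝ) :=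
  ⟨fun _ => zero_le_one, fun _ => rfl, fun _ => psd_rank1 fun _ => 1⟩

theorem rsd_ind {L' : Type*} [AddCommGroup L'] (φ : L →+ L') : RSD fun s => ind (φ s = 0) := by
  refine ⟨fun s => by unfold ind; split_ifs <;> norm_num, fun s => by simp, fun c => ?_⟩
  refine psd_congr (psd_mul (psd_ind φ) (psd_rank1 fun a => ind (φ (c + a + a) = 0))) fun a b => ?_
  by_cases hab : φ a = φ b
  · simp only [map_add, map_sub, hab, sub_self]
    by_cases h : φ c + φ b + φ b = 0 <;> simp [ind, h]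
  · simp [ind, hab, sub_eq_zero]

theorem rsd_gq {ι : Type*} (T : Finset ι) (ℓ : ι → L →+ ℝ) : RSD (gq T ℓ) := by
  refine ⟨fun s => (Real.exp_pos _).le, fun s => by simp [gq], fun c => ?_⟩
  refine psd_congr (psd_rank1 fun a => Real.exp (-∑ j ∈ T, (ℓ j c / 2 + ℓ j a) ^ 2)) fun a b => ?_
  simp only [gq, ← Real.exp_add]
  congr 1
  rw [← neg_add, ← add_div, ← neg_add, ← Finset.sum_add_distrib, ← Finset.sum_add_distrib,
    neg_div, Finset.sum_div]
  congr 1
  exact Finset.sum_congr rfl fun j _ => by simp only [map_add, map_sub]; ring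

/-- the pairing `(s, f) ↦ exp (f s)` is RSD -/
theorem rsd_exp : RSD fun p : L × (L →+ ℝ) => Real.exp (p.2 p.1) := by
  refine ⟨fun s => (Real.exp_pos _).le, fun s => by simp, fun c => ?_⟩
  refine psd_congr (psd_rank1 fun a : L × (L →+ ℝ) =>
    Real.exp (c.2 c.1 / 2 + c.2 a.1 + a.2 c.1 + 2 * a.2 a.1)) fun a b => ?_
  simp only [← Real.exp_add, Prod.fst_add, Prod.snd_add, Prod.fst_sub, Prod.snd_sub,
    AddMonoidHom.add_apply, AddMonoidHom.sub_apply, map_add, map_sub]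
  congr 1
  ring

theorem rsd_mg [IsAddTorsionFree L] {Q : Type*} [AddCommGroup Q] {ρ : L × Q → ℝ} (h : RSD ρ)
    (hs : ∀ q, Summable (sl ρ q)) : RSD (mg ρ) := by
  refine ⟨fun q => tsum_nonneg fun s => h.nonneg _, fun q => ?_, fun c => ?_⟩
  · unfold mg
    rw [← (Equiv.neg L).tsum_eq]
    exact tsum_congr fun s => h.even (s, q)
  · have hs2 : ∀ q q' : Q, Summable fun z : L × L => ρ (z.1, q) * ρ (z.2, q') := fun q q' =>
      (hs q).mul_of_nonneg (hs q') (fun s => h.nonneg _) fun s => h.nonneg _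
    refine psd_congr (psd_rot (fun i j (z : L × L) => ρ (z.1, c + i + j) * ρ (z.2, i - j))
      (fun i j => hs2 _ _) fun c' => h.psd (c', c)) fun i j => ?_
    exact ((hs _).tsum_mul_tsum (hs _) (hs2 _ _)).symm

/-- the `2 × 2` minor of an RSD weight -/
theorem rsd_minor {ρ : L → ℝ} (h : RSD ρ) (x y : L) :
    ρ x ^ 2 * ρ y ^ 2 ≤ ρ (x + y) * ρ (x - y) * ρ 0 ^ 2 := by
  have := psd_minor (h.psd (x - y)) y 0
  simp only [sub_add_cancel, add_zero, sub_zero, sub_self] at this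
  calc ρ x ^ 2 * ρ y ^ 2 = (ρ x * ρ y) ^ 2 := by ring
    _ ≤ _ := this
    _ = _ := by ring

/-- the Laplace transform of an RSD weight is RSD jointly in the coset and the force -/
theorem rsd_laplace [IsAddTorsionFree L] {Q : Type*} [AddCommGroup Q] {ρ : L × Q → ℝ} (h : RSD ρ)
    (hs : ∀ q, SE (sl ρ q)) : RSD fun p : Q × (L →+ ℝ) => Zs (tilt (sl ρ p.1) p.2) :=
  rsd_mg (ρ := fun w : L × (Q × (L →+ ℝ)) => ρ (w.1, w.2.1) * Real.exp (w.2.2 w.1))
    (rsd_mul
      (rsd_comp h ((AddMonoidHom.id L).prodMap (AddMonoidHom.fst Q (L →+ ℝ))))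
      (rsd_comp rsd_exp ((AddMonoidHom.id L).prodMap (AddMonoidHom.snd Q (L →+ ℝ)))))
    fun p => hs p.1 p.2

theorem summable_mul_bdd {α : Type*} {W G : α → ℝ} (h0 : ∀ a, 0 ≤ W a) (hW : Summable W) {C : ℝ}
    (hG : ∀ a, |G a| ≤ C) : Summable fun a => W a * G a :=
  Summable.of_norm_bounded (hW.mul_right C) fun a => by
    rw [Real.norm_eq_abs, abs_mul, abs_of_nonneg (h0 a)]
    exact mul_le_mul_of_nonneg_left (hG a) (h0 a)

theorem summable_prod {α β : Type*} {f : α → ℝ} {g : β → ℝ} (hf : Summable f) (hg : Summable g) :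
    Summable fun z : α × β => f z.1 * g z.2 :=
  summable_mul_of_summable_norm hf.norm hg.norm

theorem tsum_prod_eq {α β : Type*} {f : α → ℝ} {g : β → ℝ} (hf : Summable f) (hg : Summable g) :
    ∑' z : α × β, f z.1 * g z.2 = (∑' a, f a) * ∑' b, g b :=
  (hf.tsum_mul_tsum hg (summable_prod hf hg)).symm

theorem hasSum_prod {α β : Type*} {f : α → ℝ} {g : β → ℝ} {a b : ℝ} (hf : HasSum f a)
    (hg : HasSum g b) : HasSum (fun z : α × β => f z.1 * g z.2) (a * b) :=
  hf.mul hg (summable_prod hf.summable hg.summable)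

/-- common generalisation of (B) and (P) -/
theorem rsd_bp [IsAddTorsionFree L] {Q : Type*} [AddCommGroup Q] {ρ G : L × Q → ℝ} {G' : L → ℝ}
    (h : RSD ρ) (hG : PD G) (hG' : PD G') (q : Q) (f : L →+ ℝ) (h0 : Summable (sl ρ 0))
    (hq : Summable (tilt (sl ρ q) f)) :
    |(∑' s, tilt (sl ρ q) f s * G (s, q)) * ∑' s, ρ (s, 0) * G' s| ≤
      Zs (tilt (sl ρ q) f) * ∑' s, ρ (s, 0) * (G (s, 0) * G' s) := by
  have n0 : ∀ s, 0 ≤ sl ρ 0 s := fun s => h.nonneg _
  have nq : ∀ s, 0 ≤ tilt (sl ρ q) f s := fun s => mul_nonneg (h.nonneg _) (Real.exp_pos _).le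
  have s1 : Summable fun s => tilt (sl ρ q) f s * G (s, q) :=
    summable_mul_bdd nq hq fun s => pd_abs_le hG _
  have s2 : Summable fun s => ρ (s, 0) * G' s := summable_mul_bdd n0 h0 fun s => pd_abs_le hG' _
  have s3 : Summable fun s => ρ (s, 0) * (G (s, 0) * G' s) :=
    summable_mul_bdd n0 h0 (C := G 0 * G' 0) fun s => by
      rw [abs_mul]
      exact mul_le_mul (pd_abs_le hG _) (pd_abs_le hG' _) (abs_nonneg _)
        ((abs_nonneg _).trans (pd_abs_le hG 0))
  have key := cs_rot (summable_prod hq s3) (summable_prod s1 s2) (summable_prod hq s3) fun c => by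
    refine ⟨_, psd_mul (psd_mul (psd_mul (psd_comp (h.psd (c, q)) fun p : L × Bool => (p.1, 0))
      (psd_rank1 fun p : L × Bool => Real.exp (f c / 2 + f p.1)))
      (psd_comp hG fun p : L × Bool => bif p.2 then (p.1, 0) else -((c, q) + (p.1, 0))))
      (psd_comp hG' fun p : L × Bool => p.1), fun a b => ?_, fun a b => ?_, fun a b => ?_⟩
    · simp only [tilt, sl, cond_true, Prod.mk_add_mk, Prod.mk_sub_mk, add_zero, sub_zero, map_add,
        ← Real.exp_add]
      rw [show f c / 2 + f a + (f c / 2 + f b) = f c + f a + f b by ring]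
      ring
    · simp only [tilt, sl, cond_true, cond_false, Prod.mk_add_mk, Prod.mk_sub_mk, add_zero,
        sub_zero, map_add, ← Real.exp_add, sub_neg_eq_add, zero_add]
      rw [show f c / 2 + f a + (f c / 2 + f b) = f c + f a + f b by ring,
        show a + (c + b) = c + a + b by abel]
      ring
    · have e : -(((c, q) : L × Q) + (a, 0)) - -((c, q) + (b, 0)) = -(a - b, 0) := by
        ext
        · simp only [Prod.fst_sub, Prod.fst_neg, Prod.fst_add]; abel
        · simp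
      simp only [tilt, sl, cond_false, e, pd_even hG]
      simp only [Prod.mk_add_mk, Prod.mk_sub_mk, add_zero, sub_zero, map_add, ← Real.exp_add]
      rw [show f c / 2 + f a + (f c / 2 + f b) = f c + f a + f b by ring]
      ring
  rw [tsum_prod_eq hq s3, tsum_prod_eq s1 s2] at key
  exact abs_le.2 (abs_le_of_sq_le_sq' (by rw [sq (Zs _ * _)]; exact key.1) key.2.1)

/-- polar form of the complex Laplace transform -/
theorem th_polar {W : L → ℝ} (f ξ : L →+ ℝ) (hs : Summable (tilt W f)) : ∃ φ : ℝ,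
    HasSum (fun s => tilt W f s * Real.cos (ξ s - φ)) ‖th W f ξ‖ ∧
      HasSum (fun s => tilt W f s * Real.sin (ξ s - φ)) 0 := by
  have s1 : Summable fun s => (W s : ℂ) * Complex.exp ((f s : ℂ) + (ξ s : ℂ) * Complex.I) :=
    Summable.of_norm_bounded hs.abs fun s => by
      simp [tilt, Complex.norm_exp, abs_mul]
  set φ := (th W f ξ).arg
  have s2 := s1.hasSum.mul_right (Complex.exp (-(φ : ℂ) * Complex.I))
  have e : th W f ξ * Complex.exp (-(φ : ℂ) * Complex.I) = (‖th W f ξ‖ : ℂ) := by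
    conv_lhs => rw [← Complex.norm_mul_exp_arg_mul_I (th W f ξ)]
    rw [mul_assoc, ← Complex.exp_add]
    simp [φ]
  have e2 : ∀ s, (W s : ℂ) * Complex.exp ((f s : ℂ) + (ξ s : ℂ) * Complex.I) *
      Complex.exp (-(φ : ℂ) * Complex.I) =
      ((tilt W f s : ℝ) : ℂ) * Complex.exp (((ξ s - φ : ℝ) : ℂ) * Complex.I) := fun s => by
    simp only [tilt, Complex.ofReal_mul, Complex.ofReal_exp, mul_assoc, ← Complex.exp_add,
      Complex.ofReal_sub]
    congr 2
    ring
  change HasSum _ (th W f ξ * _) at s2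
  rw [e] at s2
  simp only [e2] at s2
  refine ⟨φ, ?_, ?_⟩
  · simpa only [Complex.re_ofReal_mul, Complex.exp_ofReal_mul_I_re, Complex.ofReal_re] using
      Complex.hasSum_re s2
  · simpa only [Complex.im_ofReal_mul, Complex.exp_ofReal_mul_I_im, Complex.ofReal_im] using
      Complex.hasSum_im s2

theorem se_summable {W : L → ℝ} (h : SE W) : Summable W := by simpa using h 0

theorem rsd_c [IsAddTorsionFree L] {Q : Type*} [AddCommGroup Q] {ρ : L × Q → ℝ} (h : RSD ρ)
    (q₁ q₂ : Q) (f₁ f₂ ξ₁ ξ₂ : L →+ ℝ) (h0 : Summable (sl ρ 0))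
    (h₁ : Summable (tilt (sl ρ q₁) f₁)) (h₂ : Summable (tilt (sl ρ q₂) f₂))
    (hp : Summable (tilt (sl ρ (q₁ + q₂)) (f₁ + f₂)))
    (hm : Summable (tilt (sl ρ (q₁ - q₂)) (f₁ - f₂))) :
    ‖th (sl ρ q₁) f₁ ξ₁‖ ^ 2 * ‖th (sl ρ q₂) f₂ ξ₂‖ ^ 2 ≤
      (Zs (tilt (sl ρ (q₁ + q₂)) (f₁ + f₂)) * ∑' s, ρ (s, 0) * Real.cos ((ξ₁ + ξ₂) s)) *
        (Zs (tilt (sl ρ (q₁ - q₂)) (f₁ - f₂)) * ∑' s, ρ (s, 0) * Real.cos ((ξ₁ - ξ₂) s)) := by
  have n0 : ∀ s, 0 ≤ sl ρ 0 s := fun s => h.nonneg _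
  obtain ⟨φ₁, c₁, s₁⟩ := th_polar f₁ ξ₁ h₁
  obtain ⟨φ₂, c₂, s₂⟩ := th_polar f₂ ξ₂ h₂
  have sp : Summable fun s => ρ (s, 0) * Real.cos ((ξ₁ + ξ₂) s) :=
    summable_mul_bdd n0 h0 fun s => Real.abs_cos_le_one _
  have sm : Summable fun s => ρ (s, 0) * Real.cos ((ξ₁ - ξ₂) s) :=
    summable_mul_bdd n0 h0 fun s => Real.abs_cos_le_one _
  have hx : HasSum (fun z : L × L => tilt (sl ρ q₁) f₁ z.1 * tilt (sl ρ q₂) f₂ z.2 *
      Real.cos (ξ₁ z.1 - φ₁ + (ξ₂ z.2 - φ₂))) (‖th (sl ρ q₁) f₁ ξ₁‖ * ‖th (sl ρ q₂) f₂ ξ₂‖) := by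
    have := (hasSum_prod c₁ c₂).sub (hasSum_prod s₁ s₂)
    rw [mul_zero, sub_zero] at this
    have e : ∀ {u v : L × L → ℝ} {x : ℝ}, HasSum u x → (∀ z, v z = u z) → HasSum v x :=
      fun hu e => by rwa [funext e]
    refine e this fun z => ?_
    rw [Real.cos_add]
    ring
  have key := cs_rot (summable_prod hp sp) hx.summable (summable_prod hm sm) fun c => by
    refine ⟨_, psd_mul (psd_mul
      (psd_comp (h.psd (c, q₁ - q₂)) fun p : L × Bool => (p.1, bif p.2 then q₂ else 0))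
      (psd_rank1 fun p : L × Bool => Real.exp (bif p.2 then (f₁ c + f₂ c) / 2 + f₁ p.1 + f₂ p.1
        else (f₁ c - f₂ c) / 2 + f₁ p.1 - f₂ p.1)))
      (psd_cos fun p : L × Bool => bif p.2 then ξ₁ c + ξ₁ p.1 + ξ₂ p.1 - φ₁ - φ₂
        else ξ₂ p.1 - ξ₁ p.1), fun a b => ?_, fun a b => ?_, fun a b => ?_⟩
    · simp only [tilt, sl, cond_true, Prod.mk_add_mk, Prod.mk_sub_mk, sub_add_cancel, sub_self,
        map_add, map_sub, AddMonoidHom.add_apply, ← Real.exp_add]
      rw [show (f₁ c + f₂ c) / 2 + f₁ a + f₂ a + ((f₁ c + f₂ c) / 2 + f₁ b + f₂ b) =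
          f₁ c + f₂ c + (f₁ a + f₂ a) + (f₁ b + f₂ b) by ring,
        show ξ₁ c + ξ₁ a + ξ₂ a - φ₁ - φ₂ - (ξ₁ c + ξ₁ b + ξ₂ b - φ₁ - φ₂) =
          ξ₁ a + ξ₂ a - (ξ₁ b + ξ₂ b) by ring]
      ring
    · simp only [tilt, sl, cond_true, cond_false, Prod.mk_add_mk, Prod.mk_sub_mk, sub_add_cancel,
        add_zero, sub_zero, map_add, map_sub, ← Real.exp_add]
      rw [show (f₁ c + f₂ c) / 2 + f₁ a + f₂ a + ((f₁ c - f₂ c) / 2 + f₁ b - f₂ b) =
          (f₁ c + f₁ a + f₁ b) + (f₂ a - f₂ b) by ring,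
        show ξ₁ c + ξ₁ a + ξ₂ a - φ₁ - φ₂ - (ξ₂ b - ξ₁ b) =
          ξ₁ c + ξ₁ a + ξ₁ b - φ₁ + (ξ₂ a - ξ₂ b - φ₂) by ring, Real.exp_add]
      ring
    · simp only [tilt, sl, cond_false, Prod.mk_add_mk, Prod.mk_sub_mk, add_zero, sub_self,
        map_add, map_sub, AddMonoidHom.sub_apply, ← Real.exp_add]
      rw [show (f₁ c - f₂ c) / 2 + f₁ a - f₂ a + ((f₁ c - f₂ c) / 2 + f₁ b - f₂ b) =
          f₁ c - f₂ c + (f₁ a - f₂ a) + (f₁ b - f₂ b) by ring,
        show ξ₂ a - ξ₁ a - (ξ₂ b - ξ₁ b) = -(ξ₁ a - ξ₂ a - (ξ₁ b - ξ₂ b)) by ring, Real.cos_neg]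
      ring
  rw [tsum_prod_eq hp sp, tsum_prod_eq hm sm, hx.tsum_eq, mul_pow] at key
  exact key.1

end grp

end Rsd63

open Rsd63

theorem rsdStmt : RSDStmt := fun _ _ _ _ =>
  ⟨fun _ _ => rsd_mul, fun _ φ h => rsd_comp h φ, rsd_ind, fun _ => rsd_gq,
    fun _ h hs => rsd_mg h hs⟩

theorem rsdAStmt : RsdAStmt := by
  intro L Q _ _ _ ρ h hs q₁ q₂ f₁ f₂
  have := rsd_minor (rsd_laplace h hs) (q₁, f₁) (q₂, f₂)
  have e : tilt (sl ρ 0) 0 = sl ρ 0 := funext fun s => by simp [tilt]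
  simpa only [Prod.mk_add_mk, Prod.mk_sub_mk, Prod.fst_zero, Prod.snd_zero, e] using this

theorem rsdCStmt : RsdCStmt := fun _ _ _ _ _ _ h hs q₁ q₂ f₁ f₂ ξ₁ ξ₂ =>
  rsd_c h q₁ q₂ f₁ f₂ ξ₁ ξ₂ (se_summable (hs 0)) (hs _ _) (hs _ _) (hs _ _) (hs _ _)

theorem rsdBStmt : RsdBStmt := by
  intro L Q _ _ _ ρ G h hG q f h0 hq
  have := rsd_bp h hG (G' := fun _ => 1) psd_one q f h0 hq
  simp only [mul_one] at this
  rwa [abs_mul, abs_of_nonneg (tsum_nonneg fun s => h.nonneg (s, 0))] at this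

theorem rsdPStmt : RsdPStmt := by
  intro L _ _ ρ G G' h hs hG hG'
  have e : tilt (sl (fun p : L × Unit => ρ p.1) 0) 0 = ρ := funext fun s => by simp [tilt, sl]
  have := rsd_bp (rsd_comp h (AddMonoidHom.fst L Unit)) (G := fun p => G p.1)
    (psd_comp hG Prod.fst) hG' 0 0 hs (by rw [← e] at hs; exact hs)
  simp only [AddMonoidHom.coe_fst] at this
  rw [e] at this
  exact (le_abs_self _).trans this

end Crest.Agent.T145
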