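import Crest.Agent.T145.Cor_59
import Crest.Agent.T145.Pd_77
import Crest.Agent.T145.Rsd_63

/-!
# Row 145 (helper59): `corStmt`, `corQStmt`, `monoStmt`, unconditional
-/

namespace Crest.Agent.T145

theorem corQStmt : CorQStmt := corQ_of rsdAStmt

theorem corStmt : CorStmt := cor_of rsdAStmt rsdCStmt

theorem monoStmt : MonoStmt := mono_of rsdBStmt rsdPStmt pdStmt

end Crest.Agent.T145
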