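import Crest.Agent.T145.XyA_48
import Crest.Prelude.Def_SpinON

/-!
# Row 145, XY duality, part B (helper48): random-current representation

* `cz s` the complex number of a spin, `int_zpow : ∫ cz^k = if k = 0 then mS else 0`
* `besI_conv` : semigroup property of `I_k`
* `current` : `∫ ∏ z_v^{a_v} exp (∑ b_e s·s') = mS^|ι| ∑_{a + div k = 0} ∏ I_{k_e}(b_e)`
-/

set_option autoImplicit false
set_option linter.unusedSectionVars false

open Finset MeasureTheory
open scoped Nat

noncomputable section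

namespace Crest.Agent.T145.Xy48

/-- the plane -/
abbrev E2 : Type := EuclideanSpace ℝ (Fin 2)

/-- the circle of spins -/
abbrev S1 : Type := Metric.sphere (0 : E2) 1

/-- the single spin law -/
def muS : Measure S1 := (volume : Measure E2).toSphere

instance : IsFiniteMeasure muS := by unfold muS; infer_instance

/-- its total mass -/
def mS : ℝ := muS.real Set.univ

theorem mS_pos : 0 < mS := by
  have : NeZero muS := ⟨Measure.toSphere_ne_zero _⟩
  exact measureReal_univ_pos

/-- the isometry of the plane with `ℂ` -/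
def iso : E2 ≃ₗᵢ[ℝ] ℂ := Complex.orthonormalBasisOneI.repr.symm

/-- a spin as a complex number -/
def cz (s : S1) : ℂ := iso s

theorem norm_cz (s : S1) : ‖cz s‖ = 1 := by
  rw [cz, iso.norm_map]; simp

theorem cz_ne (s : S1) : cz s ≠ 0 := by
  rw [← norm_ne_zero_iff, norm_cz]; exact one_ne_zero

theorem continuous_cz : Continuous cz := iso.continuous.comp continuous_subtype_val

theorem continuous_cz_zpow (k : ℤ) : Continuous fun s => cz s ^ k :=
  continuous_cz.zpow₀ k fun s => Or.inl (cz_ne s)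

theorem norm_cz_zpow (s : S1) (k : ℤ) : ‖cz s ^ k‖ = 1 := by rw [norm_zpow, norm_cz, one_zpow]

theorem inner_eq (s t : S1) :
    ((inner ℝ (s : E2) (t : E2) : ℝ) : ℂ) = (cz s * (cz t)⁻¹ + (cz s * (cz t)⁻¹)⁻¹) / 2 := by
  have h1 : ‖cz s * (cz t)⁻¹‖ = 1 := by rw [norm_mul, norm_inv, norm_cz, norm_cz]; simp
  rw [← iso.inner_map_map, Complex.inv_eq_conj h1, Complex.add_conj,
    Complex.inv_eq_conj (norm_cz t), Complex.inner]
  push_cast
  simp only [cz, Complex.mul_re, Complex.conj_re, Complex.conj_im]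
  push_cast
  ring

/-- an isometry of the plane acts on the circle -/
def isoS (g : E2 ≃ₗᵢ[ℝ] E2) (s : S1) : S1 := ⟨g s, by simp⟩

theorem continuous_isoS (g : E2 ≃ₗᵢ[ℝ] E2) : Continuous (isoS g) :=
  Continuous.subtype_mk (g.continuous.comp continuous_subtype_val) _

open scoped Pointwise in
theorem mp_isoS (g : E2 ≃ₗᵢ[ℝ] E2) : MeasurePreserving (isoS g) muS muS := by
  refine ⟨(continuous_isoS g).measurable, ?_⟩
  ext s hs
  unfold muS
  rw [Measure.map_apply (continuous_isoS g).measurable hs,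
    Measure.toSphere_apply' _ ((continuous_isoS g).measurable hs), Measure.toSphere_apply' _ hs]
  congr 1
  have h1 : (Set.Ioo (0 : ℝ) 1 • ((↑) '' (isoS g ⁻¹' s) : Set E2))
      = g ⁻¹' (Set.Ioo (0 : ℝ) 1 • ((↑) '' s : Set E2)) := by
    ext x
    simp only [Set.mem_smul, Set.mem_image, Set.mem_preimage]
    constructor
    · rintro ⟨r, hr, _, ⟨y, hy, rfl⟩, rfl⟩
      exact ⟨r, hr, _, ⟨isoS g y, hy, rfl⟩, by simp [isoS]⟩
    · rintro ⟨r, hr, _, ⟨y, hy, rfl⟩, hx⟩
      refine ⟨r, hr, _, ⟨isoS g.symm y, ?_, rfl⟩, ?_⟩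
      · have : isoS g (isoS g.symm y) = y := by
          ext1; simp [isoS]
        rwa [this]
      · apply g.injective
        simp only [isoS, map_smul, LinearIsometryEquiv.apply_symm_apply]
        exact hx
  rw [h1]
  exact (g.measurePreserving).measure_preimage_equiv (f := g.toHomeomorph.toMeasurableEquiv) _

theorem int_zpow (k : ℤ) : ∫ s, cz s ^ k ∂muS = if k = 0 then (mS : ℂ) else 0 := by
  split_ifs with hk
  · simp [hk, mS]
  · set a : Circle := Circle.exp (Real.pi / k) with ha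
    set g : E2 ≃ₗᵢ[ℝ] E2 := iso.trans ((rotation a).trans iso.symm) with hg
    have h1 : ∀ s, cz (isoS g s) = a * cz s := fun s => by simp [cz, isoS, hg]
    have h2 : (a : ℂ) ^ k = -1 := by
      have hk' : (k : ℂ) ≠ 0 := by exact_mod_cast hk
      rw [ha, Circle.coe_exp, ← Complex.exp_int_mul, ← Complex.exp_pi_mul_I]
      congr 1
      push_cast
      field_simp
    have h3 : ∫ s, cz (isoS g s) ^ k ∂muS = ∫ s, cz s ^ k ∂muS := by
      rw [← integral_map (continuous_isoS g).measurable.aemeasurable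
        (f := fun s => cz s ^ k) (continuous_cz_zpow k).aestronglyMeasurable, (mp_isoS g).map_eq]
    simp only [h1, mul_zpow, h2, neg_mul, one_mul, integral_neg] at h3
    linear_combination (-1 / 2 : ℂ) * h3

/-- integrating an absolutely convergent series of bounded continuous functions -/
theorem hasSum_int {X κ : Type} [TopologicalSpace X] [MeasurableSpace X] [OpensMeasurableSpace X]
    [Countable κ] (μ : Measure X) [IsFiniteMeasure μ] {F : κ → X → ℂ} {c : κ → ℝ} {G : X → ℂ}
    (hF : ∀ k, Continuous (F k)) (hc : Summable c) (hb : ∀ k x, ‖F k x‖ ≤ c k)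
    (hG : ∀ x, HasSum (F · x) (G x)) : HasSum (fun k => ∫ x, F k x ∂μ) (∫ x, G x ∂μ) := by
  have h1 : ∀ k, Integrable (F k) μ := fun k =>
    (integrable_const (c k)).mono' (hF k).aestronglyMeasurable (ae_of_all _ (hb k))
  have h2 := hasSum_integral_of_summable_integral_norm h1
    ((hc.mul_left (μ.real Set.univ)).of_nonneg_of_le
      (fun k => integral_nonneg fun _ => norm_nonneg _) fun k => by
        have h3 := integral_mono (h1 k).norm (integrable_const (c k)) (hb k)
        simpa using h3)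
  simpa only [(hG _).tsum_eq] using h2

theorem norm_besI_le (b : ℝ) (k : ℤ) : ‖(besI b k : ℂ)‖ = |besI b k| := by simp

theorem summable_abs_besI (b : ℝ) : Summable fun k => |besI b k| := (summable_besI b).abs

/-- Fourier coefficients of `exp (b cos)` -/
theorem int_exp (b : ℝ) (k : ℤ) :
    ∫ s, cz s ^ k * Complex.exp ((b / 2 : ℂ) * (cz s + (cz s)⁻¹)) ∂muS = mS * besI b k := by
  have h1 := hasSum_int muS (F := fun (j : ℤ) s => cz s ^ k * ((besI b j : ℂ) * cz s ^ j))
    (c := fun j => |besI b j|)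
    (fun j => (continuous_cz_zpow k).mul (continuous_const.mul (continuous_cz_zpow j)))
    (summable_abs_besI b) (fun j s => by simp [norm_cz])
    fun s => (hasSum_gen b (cz_ne s)).mul_left _
  have h2 : ∀ j : ℤ, ∫ s, cz s ^ k * ((besI b j : ℂ) * cz s ^ j) ∂muS =
      if j = -k then (mS * besI b k : ℂ) else 0 := by
    intro j
    have h3 : ∀ s, cz s ^ k * ((besI b j : ℂ) * cz s ^ j) = besI b j * cz s ^ (k + j) := fun s => by
      rw [zpow_add₀ (cz_ne s)]; ring
    simp only [h3]
    rw [integral_const_mul, int_zpow]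
    by_cases h : j = -k
    · simp [h, besI_neg, mul_comm]
    · rw [if_neg h, if_neg (by omega), mul_zero]
  simp only [h2] at h1
  exact h1.unique (hasSum_ite_eq _ _)

/-- semigroup property -/
theorem besI_conv (a b : ℝ) (k : ℤ) :
    HasSum (fun j : ℤ => besI a j * besI b (k - j)) (besI (a + b) k) := by
  have hE : Continuous fun s => Complex.exp ((b / 2 : ℂ) * (cz s + (cz s)⁻¹)) :=
    (continuous_const.mul (continuous_cz.add (continuous_cz.inv₀ cz_ne))).cexp
  have hB : ∀ s, ‖Complex.exp ((b / 2 : ℂ) * (cz s + (cz s)⁻¹))‖ ≤ Real.exp |b| := fun s => by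
    refine (Complex.norm_exp_le_exp_norm _).trans (Real.exp_le_exp.2 ?_)
    have h1 : ‖cz s + (cz s)⁻¹‖ ≤ 2 := by
      refine (norm_add_le _ _).trans ?_
      rw [norm_inv, norm_cz]; norm_num
    rw [norm_mul, norm_div, Complex.norm_real, Real.norm_eq_abs, Complex.norm_two]
    nlinarith [abs_nonneg b]
  have h1 := hasSum_int muS
    (F := fun (j : ℤ) s => cz s ^ (-k) * Complex.exp ((b / 2 : ℂ) * (cz s + (cz s)⁻¹)) *
      ((besI a j : ℂ) * cz s ^ j))
    (c := fun j => Real.exp |b| * |besI a j|)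
    (fun j => ((continuous_cz_zpow _).mul hE).mul (continuous_const.mul (continuous_cz_zpow j)))
    ((summable_abs_besI a).mul_left _)
    (fun j s => by
      simp only [norm_mul, norm_cz_zpow, one_mul, mul_one, norm_besI_le]
      exact mul_le_mul_of_nonneg_right (hB s) (abs_nonneg _))
    fun s => (hasSum_gen a (cz_ne s)).mul_left _
  have h2 : ∀ j : ℤ, ∫ s, cz s ^ (-k) * Complex.exp ((b / 2 : ℂ) * (cz s + (cz s)⁻¹)) *
      ((besI a j : ℂ) * cz s ^ j) ∂muS = mS * (besI a j * besI b (k - j)) := by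
    intro j
    have h3 : ∀ s, cz s ^ (-k) * Complex.exp ((b / 2 : ℂ) * (cz s + (cz s)⁻¹)) *
        ((besI a j : ℂ) * cz s ^ j) =
        besI a j * (cz s ^ (j - k) * Complex.exp ((b / 2 : ℂ) * (cz s + (cz s)⁻¹))) := fun s => by
      rw [sub_eq_add_neg, zpow_add₀ (cz_ne s)]; ring
    simp only [h3]
    rw [integral_const_mul, int_exp, besI_sub_comm]
    ring
  have h3 : ∀ s, cz s ^ (-k) * Complex.exp ((b / 2 : ℂ) * (cz s + (cz s)⁻¹)) *
      Complex.exp ((a / 2 : ℂ) * (cz s + (cz s)⁻¹)) =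
      cz s ^ (-k) * Complex.exp ((((a + b : ℝ) : ℂ) / 2) * (cz s + (cz s)⁻¹)) := fun s => by
    rw [mul_assoc, ← Complex.exp_add]
    congr 2
    push_cast
    ring
  simp only [h2, h3, int_exp, besI_neg] at h1
  have h4 : (mS : ℂ) ≠ 0 := by exact_mod_cast mS_pos.ne'
  have h5 := h1.mul_left (mS : ℂ)⁻¹
  simp only [inv_mul_cancel_left₀ h4] at h5
  rw [← Complex.hasSum_ofReal]
  push_cast
  exact h5

section graph

variable {ι E : Type} [Fintype ι] [DecidableEq ι] [Fintype E]

/-- divergence of the current `k` -/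
def dv (src tgt : E → ι) (k : E → ℤ) (v : ι) : ℤ :=
  ∑ e, ((if src e = v then k e else 0) - (if tgt e = v then k e else 0))

theorem dv_add (src tgt : E → ι) (k l : E → ℤ) :
    dv src tgt (k + l) = dv src tgt k + dv src tgt l := by
  funext v
  simp only [dv, Pi.add_apply, ← sum_add_distrib]
  refine sum_congr rfl fun e _ => ?_
  split_ifs <;> ring

theorem dv_neg (src tgt : E → ι) (k : E → ℤ) : dv src tgt (-k) = -dv src tgt k := by
  funext v
  simp only [dv, Pi.neg_apply, ← sum_neg_distrib]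
  refine sum_congr rfl fun e _ => ?_
  split_ifs <;> ring

theorem zpow_sum' {z : ℂ} (hz : z ≠ 0) (s : Finset E) (f : E → ℤ) :
    z ^ (∑ e ∈ s, f e) = ∏ e ∈ s, z ^ f e := by
  classical
  induction s using Finset.induction_on with
  | empty => simp
  | insert a s ha ih => rw [sum_insert ha, prod_insert ha, zpow_add₀ hz, ih]

theorem prod_dv (src tgt : E → ι) (k : E → ℤ) {z : ι → ℂ} (hz : ∀ v, z v ≠ 0) :
    ∏ e, (z (src e) * (z (tgt e))⁻¹) ^ k e = ∏ v, z v ^ dv src tgt k v := by
  simp only [dv, zpow_sum' (hz _)]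
  rw [prod_comm]
  refine prod_congr rfl fun e _ => ?_
  have h : ∀ w : ι, ∏ x, z x ^ (if w = x then k e else 0) = z w ^ k e := fun w => by
    rw [prod_eq_single w (fun x _ hx => by rw [if_neg (Ne.symm hx), zpow_zero]) (by simp), if_pos rfl]
  simp only [zpow_sub₀ (hz _), prod_div_distrib, h]
  rw [mul_zpow, inv_zpow, div_eq_mul_inv]

/-- the weight of a current -/
def wt (b : E → ℝ) (k : E → ℤ) : ℝ := ∏ e, besI (b e) (k e)

theorem wt_neg (b : E → ℝ) (k : E → ℤ) : wt b (-k) = wt b k := by simp [wt, besI_neg]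

theorem wt_pos {b : E → ℝ} (hb : ∀ e, 0 < b e) (k : E → ℤ) : 0 < wt b k :=
  prod_pos fun e _ => besI_pos (hb e) _

theorem summable_wt (b : E → ℝ) : Summable (wt b) :=
  (hasSum_piR (fun e => besI (b e)) _ fun e => hasSum_besI_one (b e)).summable

/-- the sum over the currents with source `-a` -/
def cur (src tgt : E → ι) (b : E → ℝ) (a : ι → ℤ) : ℝ :=
  ∑' k : E → ℤ, if a + dv src tgt k = 0 then wt b k else 0

theorem summable_cur (src tgt : E → ι) (b : E → ℝ) (a : ι → ℤ) :
    Summable fun k : E → ℤ => if a + dv src tgt k = 0 then wt b k else 0 := by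
  refine (summable_wt b).abs.of_norm_bounded fun k => ?_
  split_ifs <;> simp

theorem cur_neg (src tgt : E → ι) (b : E → ℝ) (a : ι → ℤ) :
    cur src tgt b (-a) = cur src tgt b a := by
  unfold cur
  rw [← (Equiv.neg (E → ℤ)).tsum_eq]
  refine tsum_congr fun k => ?_
  simp only [Equiv.neg_apply, dv_neg, wt_neg, ← neg_add, neg_eq_zero]

/-- random-current representation -/
theorem current (src tgt : E → ι) (b : E → ℝ) (a : ι → ℤ) :
    ∫ σ : ι → S1, (∏ v, cz (σ v) ^ a v) *
        (Real.exp (∑ e, b e * inner ℝ (σ (src e) : E2) (σ (tgt e) : E2)) : ℂ)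
      ∂(Measure.pi fun _ => muS) = mS ^ Fintype.card ι * cur src tgt b a := by
  have hz : ∀ (σ : ι → S1) e, cz (σ (src e)) * (cz (σ (tgt e)))⁻¹ ≠ 0 := fun σ e =>
    mul_ne_zero (cz_ne _) (inv_ne_zero (cz_ne _))
  have h0 : ∀ σ : ι → S1, HasSum (fun k : E → ℤ => (wt b k : ℂ) *
      ∏ v, cz (σ v) ^ (a + dv src tgt k) v) ((∏ v, cz (σ v) ^ a v) *
        (Real.exp (∑ e, b e * inner ℝ (σ (src e) : E2) (σ (tgt e) : E2)) : ℂ)) := by
    intro σ
    have h1 := (hasSum_pi _ _ fun e => hasSum_gen (b e) (hz σ e)).mul_left (∏ v, cz (σ v) ^ a v)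
    have e1 : ∀ k : E → ℤ, (∏ v, cz (σ v) ^ a v) *
        ∏ e, (besI (b e) (k e) : ℂ) * (cz (σ (src e)) * (cz (σ (tgt e)))⁻¹) ^ k e =
        (wt b k : ℂ) * ∏ v, cz (σ v) ^ (a + dv src tgt k) v := fun k => by
      rw [prod_mul_distrib, prod_dv src tgt k fun v => cz_ne (σ v)]
      simp only [Pi.add_apply, zpow_add₀ (cz_ne _), prod_mul_distrib, wt]
      push_cast
      ring
    have e2 : ∏ e, Complex.exp ((b e / 2 : ℂ) * (cz (σ (src e)) * (cz (σ (tgt e)))⁻¹ +
        (cz (σ (src e)) * (cz (σ (tgt e)))⁻¹)⁻¹)) =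
        (Real.exp (∑ e, b e * inner ℝ (σ (src e) : E2) (σ (tgt e) : E2)) : ℂ) := by
      rw [← Complex.exp_sum]
      push_cast
      congr 1
      refine sum_congr rfl fun e _ => ?_
      rw [inner_eq]
      ring
    simp only [e1, e2] at h1
    exact h1
  have h1 := hasSum_int (Measure.pi fun _ : ι => muS) (c := fun k => |wt b k|)
    (F := fun (k : E → ℤ) σ => (wt b k : ℂ) * ∏ v, cz (σ v) ^ (a + dv src tgt k) v)
    (fun k => continuous_const.mul (continuous_finsetProd _ fun v _ =>
      (continuous_cz_zpow _).comp (continuous_apply v)))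
    (summable_wt b).abs (fun k σ => by simp [norm_cz]) h0
  have h2 : ∀ k : E → ℤ, ∫ σ : ι → S1, (wt b k : ℂ) * ∏ v, cz (σ v) ^ (a + dv src tgt k) v
      ∂(Measure.pi fun _ => muS) =
      (mS : ℂ) ^ Fintype.card ι * ((if a + dv src tgt k = 0 then wt b k else 0 : ℝ) : ℂ) := by
    intro k
    rw [integral_const_mul,
      integral_fintype_prod_eq_prod (fun v (s : S1) => cz s ^ (a + dv src tgt k) v)]
    simp only [int_zpow]
    split_ifs with h
    · rw [h]; simp [mul_comm]
    · obtain ⟨v, hv⟩ := Function.ne_iff.1 h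
      rw [prod_eq_zero (mem_univ v) (if_neg hv)]
      simp
  simp only [h2] at h1
  exact h1.unique ((Complex.hasSum_ofReal.2 (summable_cur src tgt b a).hasSum).mul_left _)

end graph

end Crest.Agent.T145.Xy48
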