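import Crest.Agent.T145.Def_97
import Crest.Agent.T145.XyB_48

/-!
# Row 145, T0 (helper66): the edge kernels, `besStmt`, `gauStmt`, `kerStmt`

`ph N k` = number of `±1` walks with `N` steps ending at `k`; `I_k(t) = ∑ (t/2)^N / N! * ph N k` and
`I_p(t) I_q(t) = ∑ (t/2)^N / N! * ph N (p + q) * ph N (p - q)`.
-/

set_option autoImplicit false

open Finset
open scoped Nat

namespace Crest.Agent.T145

namespace Bes66

theorem hs_congr {ι : Type*} {f g : ι → ℝ} {a b : ℝ} (h : HasSum f a) (e : ∀ n, g n = f n)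
    (e' : b = a) : HasSum g b := by rwa [funext e, e']

/-- a (possibly infinite) nonnegative combination of rank one kernels is psd -/
theorem psd_of_hasSum {ι I : Type*} {ν : ι → ℝ} {f : ι → I → ℝ} {K : I → I → ℝ}
    (hν : ∀ n, 0 ≤ ν n) (h : ∀ a b, HasSum (fun n => ν n * (f n a * f n b)) (K a b)) : PSD K := by
  refine ⟨?_, fun x => ?_⟩
  · ext a b
    have h1 := h b a
    simp only [mul_comm (f _ b)] at h1
    simpa using h1.unique (h a b)
  · have h1 := hasSum_sum fun a (_ : a ∈ x.support) => hasSum_sum fun b (_ : b ∈ x.support) =>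
      ((h a b).mul_left (x a)).mul_right (x b)
    refine le_of_le_of_eq (h1.nonneg fun n => ?_) (by simp [Finsupp.sum])
    have e : ∑ a ∈ x.support, ∑ b ∈ x.support, x a * (ν n * (f n a * f n b)) * x b =
        ν n * ((∑ a ∈ x.support, x a * f n a) * ∑ a ∈ x.support, x a * f n a) := by
      rw [Finset.sum_mul_sum, Finset.mul_sum]
      refine sum_congr rfl fun a _ => ?_
      rw [Finset.mul_sum]
      exact sum_congr rfl fun b _ => by ring
    rw [e]
    exact mul_nonneg (hν n) (mul_self_nonneg _)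

theorem psd_rank_one {I : Type*} (f : I → ℝ) : PSD fun a b => f a * f b :=
  psd_of_hasSum (ι := Unit) (ν := fun _ => 1) (f := fun _ => f) (fun _ => zero_le_one) fun a b => by
    simp

/-- Cauchy-Binet for `2 × 2` minors -/
theorem cauchy_binet {ι : Type*} {ν f f' g g' : ι → ℝ} {A B C D : ℝ} (hν : ∀ n, 0 ≤ ν n)
    (hA : HasSum (fun n => ν n * (f n * g n)) A) (hB : HasSum (fun n => ν n * (f' n * g' n)) B)
    (hC : HasSum (fun n => ν n * (f' n * g n)) C) (hD : HasSum (fun n => ν n * (f n * g' n)) D)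
    (h : ∀ n m, 0 ≤ (f n * f' m - f' n * f m) * (g n * g' m - g' n * g m)) : C * D ≤ A * B := by
  have m : ∀ {u v : ι → ℝ} {a b : ℝ}, HasSum u a → HasSum v b →
      HasSum (fun p : ι × ι => u p.1 * v p.2) (a * b) := fun h1 h2 =>
    h1.mul h2 (summable_mul_of_summable_norm h1.summable.norm h2.summable.norm)
  have h1 := ((((m hA hB).add (m hB hA)).sub (m hC hD)).sub (m hD hC)).nonneg fun p => by
    have := mul_nonneg (mul_nonneg (hν p.1) (hν p.2)) (h p.1 p.2)
    linarith
  linarith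

/-- number of walks -/
def ph : ℕ → ℤ → ℝ
  | 0, k => if k = 0 then 1 else 0
  | N + 1, k => ph N (k - 1) + ph N (k + 1)

theorem ph_succ (N : ℕ) (k : ℤ) : ph (N + 1) k = ph N (k - 1) + ph N (k + 1) := rfl

theorem ph_nonneg : ∀ (N : ℕ) (k : ℤ), 0 ≤ ph N k
  | 0, k => by unfold ph; split_ifs <;> norm_num
  | N + 1, k => add_nonneg (ph_nonneg N _) (ph_nonneg N _)

theorem ph_neg : ∀ (N : ℕ) (k : ℤ), ph N (-k) = ph N k
  | 0, k => by simp [ph]
  | N + 1, k => by
    rw [ph_succ, ph_succ, ← ph_neg N (k - 1), ← ph_neg N (k + 1), add_comm]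
    congr 2 <;> ring

theorem ph_zero : ∀ (N : ℕ) (k : ℤ), (∀ j : ℕ, 2 * j + k.natAbs ≠ N) → ph N k = 0
  | 0, k, h => if_neg fun e => h 0 (by simp [e])
  | N + 1, k, h => by
    rw [ph_succ, ph_zero N _ fun j e => ?_, ph_zero N _ fun j e => ?_, add_zero]
    · rcases lt_or_ge k 0 with hk | hk
      · exact h j (by omega)
      · exact h (j + 1) (by omega)
    · rcases le_or_gt k 0 with hk | hk
      · exact h (j + 1) (by omega)
      · exact h j (by omega)

theorem ph_eq : ∀ (N i j : ℕ), i + j = N → ph N ((i : ℤ) - j) = N.choose i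
  | 0, i, j, h => by
    obtain ⟨rfl, rfl⟩ : i = 0 ∧ j = 0 := by omega
    simp [ph]
  | N + 1, 0, j, h => by
    have h1 := ph_eq N 0 N (by omega)
    rw [ph_succ, ph_zero N _ fun j e => by omega, show ((0 : ℕ) : ℤ) - j + 1 = (0 : ℕ) - N by omega, h1]
    simp
  | N + 1, i + 1, 0, h => by
    have h1 := ph_eq N N 0 (by omega)
    obtain rfl : i = N := by omega
    rw [ph_succ, ph_zero i (_ + 1) fun j e => by omega,
      show ((i + 1 : ℕ) : ℤ) - (0 : ℕ) - 1 = i - (0 : ℕ) by omega, h1]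
    simp
  | N + 1, i + 1, j + 1, h => by
    have h1 := ph_eq N i (j + 1) (by omega)
    have h2 := ph_eq N (i + 1) j (by omega)
    rw [ph_succ, show ((i + 1 : ℕ) : ℤ) - (j + 1 : ℕ) - 1 = i - (j + 1 : ℕ) by omega,
      show ((i + 1 : ℕ) : ℤ) - (j + 1 : ℕ) + 1 = (i + 1 : ℕ) - j by omega, h1, h2,
      Nat.choose_succ_succ', Nat.cast_add]

theorem ph_abs (N : ℕ) (k : ℤ) : ph N (-(k.natAbs : ℤ)) = ph N k := by
  rcases Int.natAbs_eq k with h | h
  · rw [← h, ph_neg]
  · rw [← h]

/-- the ratio of consecutive binomial coefficients -/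
theorem ph_ratio : ∀ (N : ℕ) (k : ℤ), ph N (k + 2) * (N + k + 2) = ph N k * (N - k)
  | 0, k => by
    unfold ph
    split_ifs with h1 h2 h2
    · omega
    · have : (k : ℝ) + 2 = 0 := by exact_mod_cast h1
      simp [this]
    · simp [h2]
    · simp
  | N + 1, k => by
    have h1 := ph_ratio N (k + 1)
    have h2 := ph_ratio N (k - 1)
    rw [show k - 1 + 2 = k + 1 by ring] at h2
    rw [ph_succ, ph_succ, show k + 2 - 1 = k + 1 by ring, show k + 2 + 1 = k + 1 + 2 by ring]
    push_cast at h1 h2 ⊢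
    linear_combination h1 + h2

theorem ph_tp {N M : ℕ} (h : N ≤ M) {k : ℤ} (hk : 0 ≤ k) :
    ph N (k + 2) * ph M k ≤ ph N k * ph M (k + 2) := by
  have h1 := ph_ratio N k
  have h2 := ph_ratio M k
  have hk' : (0 : ℝ) ≤ k := by exact_mod_cast hk
  have h' : (N : ℝ) ≤ M := by exact_mod_cast h
  have p : (0 : ℝ) < (N + k + 2) * (M + k + 2) := by positivity
  refine le_of_mul_le_mul_right ?_ p
  have h3 : 0 ≤ ph N k * ph M k * ((M - N) * (2 * k + 2)) :=
    mul_nonneg (mul_nonneg (ph_nonneg _ _) (ph_nonneg _ _)) (mul_nonneg (by linarith) (by linarith))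
  have e : ph N k * ph M (k + 2) * ((N + k + 2) * (M + k + 2)) -
      ph N (k + 2) * ph M k * ((N + k + 2) * (M + k + 2)) =
      ph N k * ph M k * ((M - N) * (2 * k + 2)) := by
    linear_combination (ph N k * (N + k + 2)) * h2 - (ph M k * (M + k + 2)) * h1
  linarith

theorem ph_anti (N : ℕ) {k : ℤ} (hk : 0 ≤ k) : ph N (k + 2) ≤ ph N k := by
  have h1 := ph_ratio N k
  have hk' : (0 : ℝ) ≤ k := by exact_mod_cast hk
  have p : (0 : ℝ) < N + k + 2 := by positivity
  refine le_of_mul_le_mul_right ?_ p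
  rw [h1]
  exact mul_le_mul_of_nonneg_left (by linarith) (ph_nonneg _ _)

/-- two independent walks = one planar walk, rotated -/
theorem ph_mul : ∀ (N : ℕ) (p q : ℤ), ∑ ij ∈ antidiagonal N,
    (N.choose ij.1 : ℝ) * (ph ij.1 p * ph ij.2 q) = ph N (p + q) * ph N (p - q)
  | 0, p, q => by
    simp only [Finset.Nat.antidiagonal_zero, sum_singleton, Nat.choose_self, Nat.cast_one, one_mul, ph]
    split_ifs <;> first | omega | norm_num
  | N + 1, p, q => by
    rw [sum_antidiagonal_choose_succ_mul fun i j => ph i p * ph j q,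
      sum_congr rfl fun ij (h : ij ∈ antidiagonal N) => show (N.choose ij.2 : ℝ) * _ =
        (N.choose ij.1 : ℝ) * (ph (ij.1 + 1) p * ph ij.2 q) by
          rw [Nat.choose_symm_of_eq_add (mem_antidiagonal.1 h).symm]]
    simp only [ph_succ _ p, ph_succ _ q, mul_add, add_mul, sum_add_distrib, ph_mul N]
    rw [ph_succ, ph_succ, show p + (q - 1) = p + q - 1 by ring, show p - (q - 1) = p - q + 1 by ring,
      show p + (q + 1) = p + q + 1 by ring, show p - (q + 1) = p - q - 1 by ring,
      show p - 1 + q = p + q - 1 by ring, show p - 1 - q = p - q - 1 by ring,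
      show p + 1 + q = p + q + 1 by ring, show p + 1 - q = p - q + 1 by ring]
    ring

/-- Poisson type weights -/
noncomputable def nu (t : ℝ) (N : ℕ) : ℝ := (t / 2) ^ N / N !

theorem nu_nonneg {t : ℝ} (ht : 0 ≤ t) (N : ℕ) : 0 ≤ nu t N := by unfold nu; positivity

theorem bes_eq (t : ℝ) (k : ℤ) : bes t k = Xy48.besI t k := rfl

theorem hasSum_bes (t : ℝ) (k : ℤ) : HasSum (fun N => nu t N * ph N k) (bes t k) := by
  have hi : Function.Injective fun j : ℕ => 2 * j + k.natAbs := fun a b h => by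
    simp only at h; omega
  rw [← hi.hasSum_iff fun N hN => by rw [ph_zero N k fun j e => hN ⟨j, e⟩, mul_zero]]
  refine hs_congr (Xy48.hasSum_besI t k) (fun j => ?_) rfl
  have h1 := ph_eq (2 * j + k.natAbs) j (j + k.natAbs) (by ring)
  rw [show (j : ℤ) - (j + k.natAbs : ℕ) = -(k.natAbs : ℤ) by omega, ph_abs] at h1
  have h2 := Nat.add_choose_mul_factorial_mul_factorial (j + k.natAbs) j
  rw [show j + k.natAbs + j = 2 * j + k.natAbs by ring] at h2
  simp only [Function.comp, nu, Xy48.bt, h1]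
  rw [← h2]
  have h3 : (((2 * j + k.natAbs).choose j : ℕ) : ℝ) ≠ 0 := by
    exact_mod_cast (Nat.choose_pos (by omega)).ne'
  push_cast
  field_simp

/-- the product formula -/
theorem hasSum_mul (t : ℝ) (p q : ℤ) :
    HasSum (fun N => nu t N * (ph N (p + q) * ph N (p - q))) (bes t p * bes t q) := by
  have h1 := hasSum_bes t p
  have h2 := hasSum_bes t q
  have h3 := (summable_norm_sum_mul_antidiagonal_of_summable_norm h1.summable.norm
    h2.summable.norm).of_norm.hasSum
  rw [← tsum_mul_tsum_eq_tsum_sum_antidiagonal_of_summable_norm h1.summable.norm h2.summable.norm,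
    h1.tsum_eq, h2.tsum_eq] at h3
  refine hs_congr h3 (fun N => ?_) rfl
  rw [← ph_mul, mul_sum]
  refine sum_congr rfl fun ij h => ?_
  obtain ⟨i, j⟩ := ij
  obtain rfl : i + j = N := mem_antidiagonal.1 h
  have h2 := Nat.add_choose_mul_factorial_mul_factorial j i
  rw [add_comm j i] at h2
  have h3 : (((i + j).choose i : ℕ) : ℝ) ≠ 0 := by
    exact_mod_cast (Nat.choose_pos (by omega)).ne'
  simp only [nu]
  rw [← h2, pow_add]
  push_cast
  field_simp

theorem hasSum_mul' (t : ℝ) {p q r s : ℤ} (h1 : p + q = r) (h2 : p - q = s ∨ q - p = s) :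
    HasSum (fun N => nu t N * (ph N r * ph N s)) (bes t p * bes t q) := by
  have h := hasSum_mul t p q
  rcases h2 with h2 | h2
  · rwa [h1, h2] at h
  · simp only [← ph_neg _ (p - q), neg_sub] at h
    rwa [h1, h2] at h

theorem addHom_eq (f : ℤ →+ ℝ) (k : ℤ) : f k = f 1 * k := by
  rw [← mul_one k, ← smul_eq_mul, map_zsmul, zsmul_eq_mul, mul_comm, smul_eq_mul, mul_one]

theorem isKer_bes {t : ℝ} (ht : 0 < t) : IsKer (bes t) where
  lc := ⟨Xy48.besI_pos ht, fun k => by
    rw [sq]
    refine hasSum_le (fun N => ?_)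
      (hasSum_mul' t (r := 2 * k) (s := 0 + 2) (by ring) (Or.inr (by ring)))
      (hasSum_mul' t (r := 2 * k) (s := 0) (by ring) (Or.inr (by ring)))
    exact mul_le_mul_of_nonneg_left (mul_le_mul_of_nonneg_left (ph_anti N le_rfl) (ph_nonneg _ _))
      (nu_nonneg ht.le N)⟩
  tp2 a b ha hb := by
    refine cauchy_binet (nu_nonneg ht.le) (f := fun N => ph N (2 * a)) (g := fun N => ph N (2 * b))
      (f' := fun N => ph N (2 * a + 2)) (g' := fun N => ph N (2 * b + 2))
      (hasSum_mul' t (by ring) (Or.inr (by ring))) (hasSum_mul' t (by ring) (Or.inr (by ring)))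
      (hasSum_mul' t (by ring) (Or.inr (by ring))) (hasSum_mul' t (by ring) (Or.inr (by ring)))
      fun n m => ?_
    rcases le_total n m with h | h
    · exact mul_nonneg (sub_nonneg.2 (ph_tp h (by omega))) (sub_nonneg.2 (ph_tp h (by omega)))
    · have h1 := ph_tp h (k := 2 * a) (by omega)
      have h2 := ph_tp h (k := 2 * b) (by omega)
      exact mul_nonneg_of_nonpos_of_nonpos (by linarith) (by linarith)
  cen :=
    { nonneg := Xy48.besI_nonneg ht.le
      even := Xy48.besI_neg t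
      psd := fun c => psd_of_hasSum (f := fun N a => ph N (c + 2 * a)) (nu_nonneg ht.le)
        fun a b => hasSum_mul' t (by ring) (Or.inl (by ring))
      pos0 := Xy48.besI_pos ht 0
      se := fun f => (Xy48.hasSum_besI_exp t (f 1)).summable.congr fun k => by
        rw [← addHom_eq f, bes_eq] }
  pd := psd_of_hasSum (ι := ℤ) (ν := fun _ => 1) (f := fun m a => bes (t / 2) (a - m))
    (fun _ => zero_le_one) fun a b => by
      have h := (Equiv.subLeft a).hasSum_iff.2 (Xy48.besI_conv (t / 2) (t / 2) (a - b))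
      rw [add_halves] at h
      refine hs_congr h (fun m => ?_) rfl
      rw [Function.comp, Equiv.subLeft_apply, one_mul, bes_eq, bes_eq, Xy48.besI_sub_comm _ b m]
      congr 2; ring

theorem summable_exp_neg_abs : Summable fun k : ℤ => Real.exp (-|(k : ℝ)|) := by
  have h : Summable fun n : ℕ => Real.exp (-(n : ℝ)) := by
    simpa using Real.summable_exp_neg_nat
  exact Summable.of_nat_of_neg (by simpa using h) (by simpa using h)

theorem summable_gau {τ : ℝ} (hτ : 0 < τ) (a : ℝ) :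
    Summable fun k : ℤ => gau τ k * Real.exp (a * k) := by
  refine Summable.of_nonneg_of_le (fun k => mul_nonneg (Real.exp_nonneg _) (Real.exp_nonneg _))
    (fun k => ?_) (summable_exp_neg_abs.mul_left (Real.exp (τ * (|a| + 1) ^ 2 / 2)))
  rw [gau, ← Real.exp_add, ← Real.exp_add, Real.exp_le_exp]
  have h1 : a * k ≤ |a| * |(k : ℝ)| := by rw [← abs_mul]; exact le_abs_self _
  have h2 : -(k : ℝ) ^ 2 / (2 * τ) = τ * (|a| + 1) ^ 2 / 2 - (|a| + 1) * |(k : ℝ)| -
      (|(k : ℝ)| - τ * (|a| + 1)) ^ 2 / (2 * τ) := by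
    rw [← sq_abs (k : ℝ)]; field_simp; ring
  have h3 : 0 ≤ (|(k : ℝ)| - τ * (|a| + 1)) ^ 2 / (2 * τ) := by positivity
  linarith

theorem isKer_gau {τ : ℝ} (hτ : 0 < τ) : IsKer (gau τ) where
  lc := ⟨fun k => Real.exp_pos _, fun k => by
    rw [sq, gau, gau, gau, ← Real.exp_add, ← Real.exp_add, Real.exp_le_exp, ← add_div, ← add_div]
    refine div_le_div_of_nonneg_right ?_ (by positivity)
    push_cast; nlinarith⟩
  tp2 a b _ _ := by
    simp only [gau, ← Real.exp_add, ← add_div]
    refine le_of_eq ?_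
    congr 2; push_cast; ring
  cen :=
    { nonneg := fun _ => Real.exp_nonneg _
      even := fun k => by simp [gau]
      psd := fun c => by
        have e : ∀ a b : ℤ, gau τ (c + a + b) * gau τ (a - b) =
            Real.exp (-((c : ℝ) + 2 * a) ^ 2 / 2 / (2 * τ)) *
              Real.exp (-((c : ℝ) + 2 * b) ^ 2 / 2 / (2 * τ)) := fun a b => by
          rw [gau, gau, ← Real.exp_add, ← Real.exp_add, ← add_div, ← add_div]
          congr 2; push_cast; ring
        simp only [e]
        exact psd_rank_one _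
      pos0 := Real.exp_pos _
      se := fun f => (summable_gau hτ (f 1)).congr fun k => by rw [← addHom_eq f] }
  pd := psd_of_hasSum (ν := fun n : ℕ => (1 / τ) ^ n / n !) (f := fun n a => gau τ a * (a : ℝ) ^ n)
    (fun _ => by positivity) fun a b => by
      have h := (NormedSpace.expSeries_div_hasSum_exp (1 / τ * a * b : ℝ)).mul_left (gau τ a * gau τ b)
      rw [← Real.exp_eq_exp_ℝ] at h
      refine hs_congr h (fun n => ?_) ?_
      · simp only [mul_pow]; ring
      · simp only [gau, ← Real.exp_add]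
        congr 1; push_cast; field_simp; ring

open Real in
/-- the theta function is largest at the lattice points (Poisson summation) -/
theorem gau_mgf {τ : ℝ} (hτ : 0 < τ) (a : ℝ) :
    ∑' k : ℤ, gau τ k * exp (a * k) ≤ exp (τ * a ^ 2 / 2) * ∑' k : ℤ, gau τ k := by
  obtain ⟨α, hα⟩ : ∃ α : ℝ, α = 1 / (2 * π * τ) := ⟨_, rfl⟩
  have hα0 : 0 < α := by rw [hα]; positivity
  have h0 := Real.tsum_exp_neg_mul_int_sq hα0
  have h1 := Complex.tsum_exp_neg_quadratic (a := (α : ℂ)) (by simpa using hα0) ((a / (2 * π) : ℝ) : ℂ)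
  have e0 : ∀ k : ℤ, exp (-π * α * (k : ℝ) ^ 2) = gau τ k := fun k => by
    rw [gau, hα]; congr 1; field_simp
  have e1 : ∀ k : ℤ, Complex.exp (-π * α * k ^ 2 + 2 * π * ((a / (2 * π) : ℝ) : ℂ) * k) =
      ((gau τ k * exp (a * k) : ℝ) : ℂ) := fun k => by
    rw [← e0, ← Real.exp_add, Complex.ofReal_exp]
    congr 1
    have : (π : ℂ) ≠ 0 := by exact_mod_cast pi_ne_zero
    push_cast; field_simp
  have e2 : ∀ k : ℤ, ‖Complex.exp (-π / α * (k + Complex.I * ((a / (2 * π) : ℝ) : ℂ)) ^ 2)‖ =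
      exp (τ * a ^ 2 / 2) * exp (-π / α * (k : ℝ) ^ 2) := fun k => by
    rw [Complex.norm_exp, ← Real.exp_add, ← Complex.ofReal_neg, ← Complex.ofReal_div,
      Complex.re_ofReal_mul]
    congr 1
    simp only [sq, Complex.mul_re, Complex.add_re, Complex.add_im, Complex.mul_im, Complex.I_re,
      Complex.I_im, Complex.ofReal_re, Complex.ofReal_im, Complex.intCast_re, Complex.intCast_im]
    rw [hα]; field_simp; ring
  have s2 : Summable fun k : ℤ => exp (-π / α * (k : ℝ) ^ 2) := by
    have := summable_gau (τ := α / (2 * π)) (by positivity) 0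
    simp only [zero_mul, exp_zero, mul_one, gau] at this
    convert this using 3 with k
    field_simp
  simp only [e0] at h0
  simp only [e1, ← Complex.ofReal_tsum] at h1
  have h2 := congrArg norm h1
  rw [Complex.norm_real, norm_mul] at h2
  have h3 : ‖1 / (α : ℂ) ^ (1 / 2 : ℂ)‖ = 1 / α ^ (1 / 2 : ℝ) := by
    rw [norm_div, norm_one, Complex.norm_cpow_eq_rpow_re_of_pos hα0]
    norm_num
  have h4 := norm_tsum_le_tsum_norm (f := fun k : ℤ =>
    Complex.exp (-π / α * (k + Complex.I * ((a / (2 * π) : ℝ) : ℂ)) ^ 2))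
    (by simp only [e2]; exact s2.mul_left _)
  simp only [e2, tsum_mul_left] at h4
  calc _ ≤ _ := le_abs_self _
    _ = _ := h2
    _ ≤ 1 / α ^ (1 / 2 : ℝ) * (exp (τ * a ^ 2 / 2) * ∑' k : ℤ, exp (-π / α * (k : ℝ) ^ 2)) := by
      rw [h3]; exact mul_le_mul_of_nonneg_left h4 (by positivity)
    _ = _ := by rw [h0]; ring

end Bes66

open Bes66

theorem gauStmt : GauStmt := fun _ hτ => ⟨isKer_gau hτ, gau_mgf hτ⟩

theorem besStmt : BesStmt := fun τ hτ => ⟨isKer_bes hτ, Xy48.hasSum_besI_exp τ, fun θ => by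
  have h := Complex.hasSum_re (Xy48.hasSum_besI_cexp τ θ)
  rw [Complex.ofReal_re] at h
  refine hs_congr h (fun k => ?_) rfl
  rw [Complex.re_ofReal_mul, ← Complex.ofReal_intCast, ← Complex.ofReal_mul,
    Complex.exp_ofReal_mul_I_re, bes_eq], fun τ' _ k => Xy48.besI_conv τ τ' k⟩

theorem kerStmt : KerStmt := by
  rintro w ⟨xy, τ, hτ, rfl⟩
  cases xy
  · exact isKer_gau hτ
  · exact isKer_bes hτ

end Crest.Agent.T145
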