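import Crest.Agent.T145.Slit_46
import Crest.Agent.T145.Loc_51

/-!
# Row 145: pins lower a seam ratio; comparison with a bulk model (helper28)
-/

set_option autoImplicit false

namespace Crest.Agent.T145.Es28

open Finset

variable {V : Type} [DecidableEq V] {m b : Mdl V} {A : Finset V}

/-- only `A` is free, only the edges meeting `A` are kept -/
def pc (m : Mdl V) (A : Finset V) : Mdl V :=
  (m.free A).keep (m.ed.filter fun e => e.1 ∈ A ∨ e.2 ∈ A)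

theorem pc_ctr (hm : m.Ctr) (hA : A ⊆ m.A) : (pc m A).Ctr :=
  ⟨fun e he => hm.1 e (mem_filter.1 he).1, fun x hx => hm.2 x (hA hx)⟩

theorem pc_anch (ha : m.Anch) (hA : A ⊆ m.A) : (pc m A).Anch := fun x hx => by
  obtain ⟨y, c, hy⟩ := ha x (hA hx)
  clear hx
  induction c using Relation.ReflTransGen.head_induction_on with
  | refl => exact ⟨y, .refl, hy.imp_left fun h k => h (hA k)⟩
  | @head u v huv _ ih =>
    by_cases k : u ∈ A
    · obtain ⟨z, c, hz⟩ := ih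
      exact ⟨z, .head (huv.imp (fun h => mem_filter.2 ⟨h, .inl k⟩)
        fun h => mem_filter.2 ⟨h, .inr k⟩) c, hz⟩
    · exact ⟨u, .refl, .inl k⟩

theorem Ws_pc (hA : A ⊆ m.A) {σ : V × V → ℤ} (hσ : ∀ e ∈ m.ed, e.1 ∉ A → e.2 ∉ A → σ e = 0)
    (s : Cfg V) : m.Ws 0 σ s * ind (∀ x, x ∉ A → s x = 0) =
      ((∏ e ∈ m.ed.filter fun e => ¬ (e.1 ∈ A ∨ e.2 ∈ A), m.w e 0) * ∏ x ∈ m.A \ A, m.site x 0) *
        (pc m A).Ws 0 σ s := by
  by_cases h : ∀ x, x ∉ A → s x = 0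
  · have h' : ∀ x, x ∉ m.A → s x = (0 : Cfg V) x := fun x hx => h x fun k => hx (hA k)
    have h'' : ∀ x, x ∉ (pc m A).A → s x = (0 : Cfg V) x := h
    have e1 : ∏ x ∈ m.A \ A, m.site x (s x) = ∏ x ∈ m.A \ A, m.site x 0 :=
      prod_congr rfl fun x hx => by rw [h x (mem_sdiff.1 hx).2]
    have e2 : ∏ e ∈ m.ed.filter fun e => ¬ (e.1 ∈ A ∨ e.2 ∈ A), m.w e (dE e s + σ e) =
        ∏ e ∈ m.ed.filter fun e => ¬ (e.1 ∈ A ∨ e.2 ∈ A), m.w e 0 :=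
      prod_congr rfl fun e he => by
        obtain ⟨a, c⟩ := mem_filter.1 he
        rw [not_or] at c
        rw [hσ e a c.1 c.2, dE, h _ c.1, h _ c.2, sub_self, add_zero]
    rw [Mdl.Ws, Mdl.Ws, ind_pos h, ind_pos h', ind_pos h'',
      ← prod_filter_mul_prod_filter_not m.ed fun e => e.1 ∈ A ∨ e.2 ∈ A, ← prod_sdiff hA, e1, e2]
    simp only [pc, Mdl.keep, Mdl.free]
    ring
  · have h'' : ¬ ∀ x, x ∉ (pc m A).A → s x = (0 : Cfg V) x := h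
    rw [ind_neg h, mul_zero, Mdl.Ws, ind_neg h'']
    simp

/-- pins lower the seam ratio -/
theorem pin_le (hm : m.Ctr) (ha : m.Anch) (hA : A ⊆ m.A) {σ : V × V → ℤ}
    (hσ : ∀ e ∈ m.ed, e.1 ∉ A → e.2 ∉ A → σ e = 0) :
    Zs ((pc m A).Ws 0 σ) / Zs ((pc m A).W 0) ≤ Zs (m.Ws 0 σ) / Zs (m.W 0) := by
  have t0 : ∀ W : Cfg V → ℝ, tilt W 0 = W := fun W => funext fun s => by simp [tilt]
  have h := Sl46.bp2 (ρ := m.Ws 0) (G := fun _ s => ind (∀ x, x ∉ A → s x = 0))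
    (Md.ctr_rsd_seam hm) ((pd_off A).comp (AddMonoidHom.fst (Cfg V) (V × V → ℤ))) σ 0
    (Md.ctr_ses hm ha 0 0).summable (Md.ctr_ses hm ha 0 σ 0)
  rw [t0] at h
  simp only [Ws_pc hA hσ, Ws_pc hA (σ := 0) fun _ _ _ _ => rfl, tsum_mul_left] at h
  have k : 0 < (∏ e ∈ m.ed.filter fun e => ¬ (e.1 ∈ A ∨ e.2 ∈ A), m.w e 0) *
      ∏ x ∈ m.A \ A, m.site x 0 :=
    mul_pos (prod_pos fun e he => Md.fm_pos hm.1 (mem_filter.1 he).1 _)
      (prod_pos fun x hx => (hm.2 x (mem_sdiff.1 hx).1).2.2)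
  rw [div_le_div_iff₀ (Md.ctr_wt (pc_ctr hm hA) (pc_anch ha hA) 0).pos (Md.ctr_wt hm ha 0).pos,
    Mdl.W_eq_Ws, Mdl.W_eq_Ws]
  refine le_of_mul_le_mul_left ?_ k
  simp only [Zs] at h ⊢
  linarith

/-- the seam ratio of `m` is at least the price of lowering the pins `U` of the bulk model `b` -/
theorem bulk_le (hm : m.Ctr) (ha : m.Anch) (hb : b.Ctr) (hba : b.Anch) (hb1 : ∀ x k, b.site x k = 1)
    (hA : A ⊆ m.A) (h1 : ∀ x ∈ A, ∀ k, m.site x k = 1) {U : Finset V}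
    {σ : V × V → ℤ} (hσ : ∀ e ∈ m.ed, e.1 ∉ A → e.2 ∉ A → σ e = 0)
    (hE : ∀ e ∈ m.ed, e.1 ∈ A ∨ e.2 ∈ A → e ∈ b.ed ∧ m.w e = b.w e ∧ (e.1 ∉ A → e.1 ∉ b.A) ∧
      (e.2 ∉ A → e.2 ∉ b.A) ∧ σ e = dE e (cst U (-1))) :
    Zs (b.W (cst U (-1))) / Zs (b.W 0) ≤ Zs (m.Ws 0 σ) / Zs (m.W 0) := by
  have t0 : ∀ W : Cfg V → ℝ, tilt W 0 = W := fun W => funext fun s => by simp [tilt]
  refine le_trans ?_ (pin_le hm ha hA hσ)
  have h := Sl46.cut_proj (m' := pc m A) hb hba (pc_anch ha hA) (resH A)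
    (fun e he => (hE e (mem_filter.1 he).1 (mem_filter.1 he).2).1)
    (fun e he => (hE e (mem_filter.1 he).1 (mem_filter.1 he).2).2.1) h1
    (fun s hs => ⟨fun x hx => (resH_apply A s x).trans (if_neg hx), fun e he => by
      obtain ⟨-, -, a, c, -⟩ := hE e (mem_filter.1 he).1 (mem_filter.1 he).2
      simp only [dE, resH_apply]
      congr 1 <;> split_ifs with k
      exacts [rfl, (hs _ (c k)).symm, rfl, (hs _ (a k)).symm]⟩)
    (fun e => 0 + dE e (cst U (-1))) 0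
  rw [AddMonoidHom.zero_comp, t0, t0, ← Md.zs_gauge b 0 _ (fun _ => 0) fun x _ k => by
    rw [hb1, hb1], zero_add, Sl46.Ws_congr (pc m A) 0 (σ' := σ) fun e he => by
      rw [(hE e (mem_filter.1 he).1 (mem_filter.1 he).2).2.2.2.2, zero_add]] at h
  rw [div_le_div_iff₀ (Md.ctr_wt hb hba 0).pos (Md.ctr_wt (pc_ctr hm hA) (pc_anch ha hA) 0).pos,
    Mdl.W_eq_Ws b (cst U (-1))]
  exact h

end Crest.Agent.T145.Es28
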