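import Crest.Agent.T145.Def_97

/-!
# Row 145: elementary calculus of `Ex`, `Pr`, `Cv`, `Ig`, `Wt` (helper98)
-/

set_option autoImplicit false
set_option linter.unusedVariables false

namespace Crest.Agent.T145

open Finset

section ind
@[simp] theorem ind_true : ind True = 1 := by simp [ind]
@[simp] theorem ind_false : ind False = 0 := by simp [ind]
theorem ind_pos {p : Prop} (h : p) : ind p = 1 := by simp [ind, h]
theorem ind_neg {p : Prop} (h : ¬ p) : ind p = 0 := by simp [ind, h]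
theorem ind_nonneg (p : Prop) : 0 ≤ ind p := by unfold ind; split_ifs <;> norm_num
theorem ind_le_one (p : Prop) : ind p ≤ 1 := by unfold ind; split_ifs <;> norm_num
theorem abs_ind_le (p : Prop) : |ind p| ≤ 1 := by
  rw [abs_of_nonneg (ind_nonneg p)]; exact ind_le_one p
theorem ind_eq_ite (p : Prop) [Decidable p] : ind p = if p then 1 else 0 := by
  by_cases h : p <;> simp [ind, h]
theorem ind_congr {p q : Prop} (h : p ↔ q) : ind p = ind q := by rw [propext h]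
theorem ind_and (p q : Prop) : ind (p ∧ q) = ind p * ind q := by
  by_cases hp : p <;> by_cases hq : q <;> simp [ind, hp, hq]
theorem ind_not (p : Prop) : ind (¬ p) = 1 - ind p := by
  by_cases hp : p <;> simp [ind, hp]
theorem ind_mul_self (p : Prop) : ind p * ind p = ind p := by
  by_cases hp : p <;> simp [ind, hp]
theorem ind_mono {p q : Prop} (h : p → q) : ind p ≤ ind q := by
  by_cases hp : p
  · rw [ind_pos hp, ind_pos (h hp)]
  · rw [ind_neg hp]; exact ind_nonneg q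
theorem ind_or_le (p q : Prop) : ind (p ∨ q) ≤ ind p + ind q := by
  by_cases hp : p <;> by_cases hq : q <;> simp [ind, hp, hq]
theorem ind_ne_zero {p : Prop} : ind p ≠ 0 ↔ p := by
  by_cases hp : p <;> simp [ind, hp]
theorem ind_eq_zero {p : Prop} : ind p = 0 ↔ ¬ p := by
  by_cases hp : p <;> simp [ind, hp]
theorem ind_forall {ι : Type*} (T : Finset ι) (p : ι → Prop) :
    ind (∀ i ∈ T, p i) = ∏ i ∈ T, ind (p i) := by
  by_cases h : ∀ i ∈ T, p i
  · rw [ind_pos h, prod_eq_one fun i hi => ind_pos (h i hi)]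
  · rw [ind_neg h]
    push Not at h
    obtain ⟨i, hi, hp⟩ := h
    exact (prod_eq_zero hi (ind_neg hp)).symm
theorem ind_exists_le {ι : Type*} (T : Finset ι) (p : ι → Prop) :
    ind (∃ i ∈ T, p i) ≤ ∑ i ∈ T, ind (p i) := by
  by_cases h : ∃ i ∈ T, p i
  · rw [ind_pos h]
    obtain ⟨i, hi, hp⟩ := h
    exact (ind_pos hp).symm.le.trans (single_le_sum (fun j _ => ind_nonneg (p j)) hi)
  · rw [ind_neg h]; exact sum_nonneg fun j _ => ind_nonneg _
end ind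

section ex
variable {α : Type*} {W W' F G : α → ℝ}

theorem Ex_def (W F : α → ℝ) : Ex W F = (∑' a, W a * F a) / Zs W := rfl

theorem Wt.ne (hW : Wt W) : Zs W ≠ 0 := hW.pos.ne'

theorem Wt.tsum_eq (hW : Wt W) (F : α → ℝ) : ∑' a, W a * F a = Zs W * Ex W F := by
  rw [Ex_def, mul_div_cancel₀ _ hW.ne]

theorem Zs_nonneg (h : ∀ a, 0 ≤ W a) : 0 ≤ Zs W := tsum_nonneg h

theorem Wt.of_pos (h0 : ∀ a, 0 ≤ W a) (hs : Summable W) {a : α} (ha : 0 < W a) : Wt W :=
  ⟨h0, hs, hs.tsum_pos h0 a ha⟩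

theorem Wt.exists_pos (hW : Wt W) : ∃ a, 0 < W a := by
  by_contra h
  push Not at h
  have : W = fun _ => 0 := funext fun a => le_antisymm (h a) (hW.nonneg a)
  have h2 := hW.pos
  rw [this] at h2
  simp [Zs] at h2

theorem Wt.le_Zs (hW : Wt W) (a : α) : W a ≤ Zs W := hW.summ.le_tsum a fun b _ => hW.nonneg b

theorem Wt.smul (hW : Wt W) {c : ℝ} (hc : 0 < c) : Wt fun a => c * W a :=
  ⟨fun a => mul_nonneg hc.le (hW.nonneg a), hW.summ.mul_left c, by
    unfold Zs; rw [tsum_mul_left]; exact mul_pos hc hW.pos⟩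

theorem Zs_smul (W : α → ℝ) (c : ℝ) : Zs (fun a => c * W a) = c * Zs W := tsum_mul_left

/-! ### integrability -/

theorem Ig.const (hW : Summable W) (c : ℝ) : Ig W fun _ => c := hW.mul_right c
theorem Wt.ig_const (hW : Wt W) (c : ℝ) : Ig W fun _ => c := Ig.const hW.summ c
theorem Ig.add (hF : Ig W F) (hG : Ig W G) : Ig W fun a => F a + G a :=
  (Summable.add hF hG).congr fun a => by ring
theorem Ig.sub (hF : Ig W F) (hG : Ig W G) : Ig W fun a => F a - G a :=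
  (Summable.sub hF hG).congr fun a => by ring
theorem Ig.neg (hF : Ig W F) : Ig W fun a => -F a := (Summable.neg hF).congr fun a => by ring
theorem Ig.const_mul (hF : Ig W F) (c : ℝ) : Ig W fun a => c * F a :=
  (Summable.mul_left c hF).congr fun a => by ring
theorem Ig.mul_const (hF : Ig W F) (c : ℝ) : Ig W fun a => F a * c :=
  (Summable.mul_right c hF).congr fun a => by ring
theorem Ig.div_const (hF : Ig W F) (c : ℝ) : Ig W fun a => F a / c :=
  (Summable.div_const hF c).congr fun a => by ring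
theorem Ig.sum {ι : Type*} (T : Finset ι) {F : ι → α → ℝ} (h : ∀ i ∈ T, Ig W (F i)) :
    Ig W fun a => ∑ i ∈ T, F i a :=
  (summable_sum h).congr fun a => by rw [mul_sum]
theorem Ig.congr (hF : Ig W F) (h : ∀ a, W a ≠ 0 → F a = G a) : Ig W G :=
  Summable.congr hF fun a => by
    by_cases ha : W a = 0
    · simp [ha]
    · rw [h a ha]
theorem Ig.abs (h0 : ∀ a, 0 ≤ W a) (hF : Ig W F) : Ig W fun a => |F a| :=
  (Summable.abs hF).congr fun a => by rw [abs_mul, abs_of_nonneg (h0 a)]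
theorem Ig.of_abs_le (h0 : ∀ a, 0 ≤ W a) (hG : Ig W G) (h : ∀ a, W a ≠ 0 → |F a| ≤ G a) :
    Ig W F :=
  Summable.of_norm_bounded hG fun a => by
    rw [Real.norm_eq_abs, abs_mul, abs_of_nonneg (h0 a)]
    by_cases ha : W a = 0
    · simp [ha]
    · exact mul_le_mul_of_nonneg_left (h a ha) (h0 a)
theorem Ig.of_abs (h0 : ∀ a, 0 ≤ W a) (hF : Ig W fun a => |F a|) : Ig W F :=
  Ig.of_abs_le h0 hF fun _ _ => le_rfl
theorem Ig.of_le (h0 : ∀ a, 0 ≤ W a) (hG : Ig W G) (hF : ∀ a, 0 ≤ F a) (h : ∀ a, F a ≤ G a) :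
    Ig W F := Ig.of_abs_le h0 hG fun a _ => by rw [abs_of_nonneg (hF a)]; exact h a
theorem Wt.ig_bdd (hW : Wt W) {C : ℝ} (h : ∀ a, |F a| ≤ C) : Ig W F :=
  Ig.of_abs_le hW.nonneg (hW.ig_const C) fun a _ => h a
theorem Wt.ig_ind (hW : Wt W) (p : α → Prop) : Ig W fun a => ind (p a) :=
  hW.ig_bdd fun a => abs_ind_le (p a)
theorem Ig.mul_bdd (h0 : ∀ a, 0 ≤ W a) (hF : Ig W F) {C : ℝ} (h : ∀ a, |G a| ≤ C) :
    Ig W fun a => F a * G a :=
  Ig.of_abs_le h0 ((hF.abs h0).mul_const C) fun a _ => by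
    rw [abs_mul]; exact mul_le_mul_of_nonneg_left (h a) (abs_nonneg _)
theorem Ig.bdd_mul (h0 : ∀ a, 0 ≤ W a) (hF : Ig W F) {C : ℝ} (h : ∀ a, |G a| ≤ C) :
    Ig W fun a => G a * F a := (hF.mul_bdd h0 h).congr fun a _ => mul_comm _ _
theorem Ig.mul_ind (h0 : ∀ a, 0 ≤ W a) (hF : Ig W F) (p : α → Prop) :
    Ig W fun a => F a * ind (p a) := hF.mul_bdd h0 fun a => abs_ind_le (p a)
theorem Ig.ind_mul (h0 : ∀ a, 0 ≤ W a) (hF : Ig W F) (p : α → Prop) :
    Ig W fun a => ind (p a) * F a := hF.bdd_mul h0 fun a => abs_ind_le (p a)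
theorem Ig.max (h0 : ∀ a, 0 ≤ W a) (hF : Ig W F) (hG : Ig W G) : Ig W fun a => max (F a) (G a) :=
  Ig.of_abs_le h0 ((hF.abs h0).add (hG.abs h0)) fun a _ => abs_max_le_max_abs_abs.trans
    (max_le (le_add_of_nonneg_right (abs_nonneg _)) (le_add_of_nonneg_left (abs_nonneg _)))
theorem ig_mul_iff : Ig (fun a => W a * G a) F ↔ Ig W fun a => G a * F a := by
  simp only [Ig, mul_assoc]
theorem ig_smul_iff {c : ℝ} (hc : c ≠ 0) : Ig (fun a => c * W a) F ↔ Ig W F := by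
  simp only [Ig, mul_assoc]; exact summable_mul_left_iff hc
theorem Ig.mul_of_sq (h0 : ∀ a, 0 ≤ W a) (hF : Ig W fun a => F a ^ 2) (hG : Ig W fun a => G a ^ 2) :
    Ig W fun a => F a * G a :=
  Ig.of_abs_le h0 (hF.add hG) fun a _ => by
    rw [abs_le]; constructor <;> nlinarith [sq_nonneg (F a + G a), sq_nonneg (F a - G a)]
theorem Wt.ig_of_sq (hW : Wt W) (hF : Ig W fun a => F a ^ 2) : Ig W F :=
  (Ig.mul_of_sq (G := fun _ => 1) hW.nonneg hF (hW.ig_const _)).congr fun a _ => mul_one _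

/-! ### linearity -/

theorem Ex_congr (h : ∀ a, W a ≠ 0 → F a = G a) : Ex W F = Ex W G := by
  unfold Ex
  congr 1
  refine tsum_congr fun a => ?_
  by_cases ha : W a = 0
  · simp [ha]
  · rw [h a ha]
theorem Wt.ex_const (hW : Wt W) (c : ℝ) : Ex W (fun _ => c) = c := by
  rw [Ex_def, tsum_mul_right]; exact mul_div_cancel_left₀ _ hW.ne
@[simp] theorem Ex_zero (W : α → ℝ) : Ex W (fun _ => 0) = 0 := by simp [Ex]
theorem Ex_add (hF : Ig W F) (hG : Ig W G) : Ex W (fun a => F a + G a) = Ex W F + Ex W G := by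
  simp only [Ex_def, mul_add]; rw [Summable.tsum_add hF hG, add_div]
theorem Ex_sub (hF : Ig W F) (hG : Ig W G) : Ex W (fun a => F a - G a) = Ex W F - Ex W G := by
  simp only [Ex_def, mul_sub]; rw [Summable.tsum_sub hF hG, sub_div]
theorem Ex_neg (W F : α → ℝ) : Ex W (fun a => -F a) = -Ex W F := by
  simp only [Ex_def, mul_neg]; rw [tsum_neg, neg_div]
theorem Ex_const_mul (W F : α → ℝ) (c : ℝ) : Ex W (fun a => c * F a) = c * Ex W F := by
  simp only [Ex_def, mul_left_comm _ c]; rw [tsum_mul_left, mul_div_assoc]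
theorem Ex_mul_const (W F : α → ℝ) (c : ℝ) : Ex W (fun a => F a * c) = Ex W F * c := by
  simp only [mul_comm _ c]; exact Ex_const_mul W F c
theorem Ex_div_const (W F : α → ℝ) (c : ℝ) : Ex W (fun a => F a / c) = Ex W F / c := by
  simp only [div_eq_mul_inv]; exact Ex_mul_const W F _
theorem Ex_sum {ι : Type*} (T : Finset ι) {F : ι → α → ℝ} (h : ∀ i ∈ T, Ig W (F i)) :
    Ex W (fun a => ∑ i ∈ T, F i a) = ∑ i ∈ T, Ex W (F i) := by
  simp only [Ex_def, mul_sum]; rw [Summable.tsum_finsetSum h, sum_div]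
theorem Wt.ex_add_const (hW : Wt W) (hF : Ig W F) (c : ℝ) :
    Ex W (fun a => F a + c) = Ex W F + c := by rw [Ex_add hF (hW.ig_const c), hW.ex_const]
theorem Wt.ex_sub_const (hW : Wt W) (hF : Ig W F) (c : ℝ) :
    Ex W (fun a => F a - c) = Ex W F - c := by rw [Ex_sub hF (hW.ig_const c), hW.ex_const]
theorem Ex_smul (W F : α → ℝ) {c : ℝ} (hc : c ≠ 0) : Ex (fun a => c * W a) F = Ex W F := by
  simp only [Ex, mul_assoc]; rw [tsum_mul_left, tsum_mul_left, mul_div_mul_left _ _ hc]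
theorem Wt.Zs_mul (hW : Wt W) (G : α → ℝ) : Zs (fun a => W a * G a) = Zs W * Ex W G :=
  hW.tsum_eq G
/-- reweighting -/
theorem Wt.ex_mul (hW : Wt W) (G F : α → ℝ) :
    Ex (fun a => W a * G a) F = Ex W (fun a => G a * F a) / Ex W G := by
  rw [Ex_def, hW.Zs_mul]
  simp only [mul_assoc]
  rw [hW.tsum_eq, mul_div_mul_left _ _ hW.ne]

/-! ### order -/

theorem Ex_nonneg (h0 : ∀ a, 0 ≤ W a) (hF : ∀ a, W a ≠ 0 → 0 ≤ F a) : 0 ≤ Ex W F :=
  div_nonneg (tsum_nonneg fun a => by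
    by_cases ha : W a = 0
    · simp [ha]
    · exact mul_nonneg (h0 a) (hF a ha)) (tsum_nonneg h0)
theorem Ex_mono' (h0 : ∀ a, 0 ≤ W a) (hF : Ig W F) (hG : Ig W G) (h : ∀ a, W a ≠ 0 → F a ≤ G a) :
    Ex W F ≤ Ex W G := by
  have := Ex_nonneg (F := fun a => G a - F a) h0 fun a ha => sub_nonneg.2 (h a ha)
  rw [Ex_sub hG hF] at this; linarith
theorem Ex_mono (h0 : ∀ a, 0 ≤ W a) (hF : Ig W F) (hG : Ig W G) (h : ∀ a, F a ≤ G a) :
    Ex W F ≤ Ex W G := Ex_mono' h0 hF hG fun a _ => h a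
theorem Wt.ex_le (hW : Wt W) (hF : Ig W F) {C : ℝ} (h : ∀ a, W a ≠ 0 → F a ≤ C) : Ex W F ≤ C :=
  (Ex_mono' hW.nonneg hF (hW.ig_const C) h).trans_eq (hW.ex_const C)
theorem Wt.le_ex (hW : Wt W) (hF : Ig W F) {C : ℝ} (h : ∀ a, W a ≠ 0 → C ≤ F a) : C ≤ Ex W F :=
  (hW.ex_const C).symm.trans_le (Ex_mono' hW.nonneg (hW.ig_const C) hF h)
theorem abs_Ex_le (h0 : ∀ a, 0 ≤ W a) (hF : Ig W F) : |Ex W F| ≤ Ex W fun a => |F a| := by
  rw [abs_le]
  constructor
  · rw [← Ex_neg]; exact Ex_mono h0 (hF.abs h0).neg hF fun a => neg_abs_le _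
  · exact Ex_mono h0 hF (hF.abs h0) fun a => le_abs_self _
theorem Wt.abs_ex_le (hW : Wt W) {C : ℝ} (h : ∀ a, W a ≠ 0 → |F a| ≤ C) : |Ex W F| ≤ C := by
  have hF : Ig W F := Ig.of_abs_le hW.nonneg (hW.ig_const C) h
  exact (abs_Ex_le hW.nonneg hF).trans (hW.ex_le (hF.abs hW.nonneg) h)
theorem Wt.ex_pos (hW : Wt W) (hF : Ig W F) (h0 : ∀ a, 0 ≤ F a) {a : α} (ha : 0 < W a)
    (hFa : 0 < F a) : 0 < Ex W F :=
  div_pos (Summable.tsum_pos hF (fun b => mul_nonneg (hW.nonneg b) (h0 b)) a (mul_pos ha hFa)) hW.pos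
theorem Wt.ex_pos' (hW : Wt W) (hF : Ig W F) (h0 : ∀ a, 0 < F a) : 0 < Ex W F := by
  obtain ⟨a, ha⟩ := hW.exists_pos
  exact hW.ex_pos hF (fun b => (h0 b).le) ha (h0 a)
theorem Wt.mul (hW : Wt W) (hG : Ig W G) (h0 : ∀ a, 0 ≤ G a) (hp : 0 < Ex W G) :
    Wt fun a => W a * G a :=
  ⟨fun a => mul_nonneg (hW.nonneg a) (h0 a), hG, by rw [hW.Zs_mul]; exact mul_pos hW.pos hp⟩
theorem Wt.mul_of_pos (hW : Wt W) (hG : Ig W G) (h0 : ∀ a, 0 < G a) : Wt fun a => W a * G a :=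
  hW.mul hG (fun a => (h0 a).le) (hW.ex_pos' hG h0)

/-! ### probabilities -/

variable {p q : α → Prop}

theorem Pr_nonneg (h0 : ∀ a, 0 ≤ W a) (p : α → Prop) : 0 ≤ Pr W p :=
  Ex_nonneg h0 fun a _ => ind_nonneg _
theorem Wt.pr_le_one (hW : Wt W) (p : α → Prop) : Pr W p ≤ 1 :=
  hW.ex_le (hW.ig_ind p) fun a _ => ind_le_one _
theorem Wt.pr_mono (hW : Wt W) (h : ∀ a, W a ≠ 0 → p a → q a) : Pr W p ≤ Pr W q :=
  Ex_mono' hW.nonneg (hW.ig_ind p) (hW.ig_ind q) fun a ha => ind_mono (h a ha)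
theorem Pr_congr (h : ∀ a, W a ≠ 0 → (p a ↔ q a)) : Pr W p = Pr W q :=
  Ex_congr fun a ha => ind_congr (h a ha)
theorem Wt.pr_not (hW : Wt W) (p : α → Prop) : Pr W (fun a => ¬ p a) = 1 - Pr W p := by
  simp only [Pr, ind_not]; rw [Ex_sub (hW.ig_const 1) (hW.ig_ind p), hW.ex_const]
theorem Wt.pr_of_forall (hW : Wt W) (h : ∀ a, W a ≠ 0 → p a) : Pr W p = 1 :=
  (Ex_congr fun a ha => ind_pos (h a ha)).trans (hW.ex_const 1)
theorem Pr_of_forall_not (h : ∀ a, W a ≠ 0 → ¬ p a) : Pr W p = 0 :=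
  (Ex_congr fun a ha => ind_neg (h a ha)).trans (Ex_zero W)
theorem Wt.pr_or_le (hW : Wt W) (p q : α → Prop) :
    Pr W (fun a => p a ∨ q a) ≤ Pr W p + Pr W q := by
  unfold Pr
  rw [← Ex_add (hW.ig_ind p) (hW.ig_ind q)]
  exact Ex_mono hW.nonneg (hW.ig_ind _) ((hW.ig_ind p).add (hW.ig_ind q)) fun a => ind_or_le _ _
theorem Wt.pr_exists_le (hW : Wt W) {ι : Type*} (T : Finset ι) (p : ι → α → Prop) :
    Pr W (fun a => ∃ i ∈ T, p i a) ≤ ∑ i ∈ T, Pr W (p i) := by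
  unfold Pr
  rw [← Ex_sum T fun i _ => hW.ig_ind (p i)]
  exact Ex_mono hW.nonneg (hW.ig_ind _) (Ig.sum T fun i _ => hW.ig_ind (p i))
    fun a => ind_exists_le T fun i => p i a
theorem Ex_split (h0 : ∀ a, 0 ≤ W a) (hF : Ig W F) (p : α → Prop) :
    Ex W F = Ex W (fun a => F a * ind (p a)) + Ex W fun a => F a * ind (¬ p a) := by
  rw [← Ex_add (hF.mul_ind h0 p) (hF.mul_ind h0 fun a => ¬ p a)]
  exact Ex_congr fun a _ => by rw [ind_not]; ring
/-- Markov, general form -/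
theorem Wt.markov (hW : Wt W) (hF : Ig W F) (h0 : ∀ a, 0 ≤ F a) {t : ℝ} (h : ∀ a, p a → t ≤ F a) :
    t * Pr W p ≤ Ex W F := by
  unfold Pr
  rw [← Ex_const_mul]
  refine Ex_mono hW.nonneg ((hW.ig_ind p).const_mul t) hF fun a => ?_
  by_cases ha : p a
  · rw [ind_pos ha, mul_one]; exact h a ha
  · rw [ind_neg ha, mul_zero]; exact h0 a
theorem Wt.pr_le_div (hW : Wt W) (hF : Ig W F) (h0 : ∀ a, 0 ≤ F a) {t : ℝ} (ht : 0 < t) :
    Pr W (fun a => t ≤ F a) ≤ Ex W F / t := by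
  rw [le_div_iff₀' ht]; exact hW.markov hF h0 fun a h => h
/-- exponential Markov -/
theorem Wt.pr_le_exp (hW : Wt W) (hF : Ig W fun a => Real.exp (F a)) (t : ℝ) :
    Pr W (fun a => t ≤ F a) ≤ Real.exp (-t) * Ex W fun a => Real.exp (F a) := by
  have := hW.markov (p := fun a => t ≤ F a) hF (fun a => (Real.exp_pos _).le) (t := Real.exp t)
    fun a h => Real.exp_le_exp.2 h
  rw [Real.exp_neg, ← div_eq_inv_mul, le_div_iff₀' (Real.exp_pos t)]; exact this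

/-! ### covariance, Cauchy-Schwarz -/

theorem Cv_comm (W F G : α → ℝ) : Cv W F G = Cv W G F := by
  simp only [Cv, mul_comm]
theorem Cv_add_left {H : α → ℝ} (hF : Ig W F) (hG : Ig W G) (hFH : Ig W fun a => F a * H a)
    (hGH : Ig W fun a => G a * H a) :
    Cv W (fun a => F a + G a) H = Cv W F H + Cv W G H := by
  simp only [Cv, add_mul]; rw [Ex_add hF hG, Ex_add hFH hGH]; ring
theorem Cv_const_mul_left (W F G : α → ℝ) (c : ℝ) :
    Cv W (fun a => c * F a) G = c * Cv W F G := by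
  simp only [Cv, mul_assoc]; rw [Ex_const_mul, Ex_const_mul]; ring
theorem Cv_const_mul_right (W F G : α → ℝ) (c : ℝ) :
    Cv W F (fun a => c * G a) = c * Cv W F G := by
  rw [Cv_comm, Cv_const_mul_left, Cv_comm]
theorem Cv_neg_left (W F G : α → ℝ) : Cv W (fun a => -F a) G = -Cv W F G := by
  simp only [Cv, neg_mul]; rw [Ex_neg, Ex_neg]; ring
theorem Cv_neg_right (W F G : α → ℝ) : Cv W F (fun a => -G a) = -Cv W F G := by
  rw [Cv_comm, Cv_neg_left, Cv_comm]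
theorem Cv_sum_left {ι : Type*} (T : Finset ι) {F : ι → α → ℝ} (hF : ∀ i ∈ T, Ig W (F i))
    (hFG : ∀ i ∈ T, Ig W fun a => F i a * G a) :
    Cv W (fun a => ∑ i ∈ T, F i a) G = ∑ i ∈ T, Cv W (F i) G := by
  simp only [Cv, sum_mul]; rw [Ex_sum T hF, Ex_sum T hFG, sum_sub_distrib, sum_mul]
theorem Wt.cv_const_left (hW : Wt W) (c : ℝ) (G : α → ℝ) : Cv W (fun _ => c) G = 0 := by
  simp only [Cv]; rw [Ex_const_mul, hW.ex_const, sub_self]
theorem Wt.cv_eq (hW : Wt W) (hF : Ig W F) (hG : Ig W G) (hFG : Ig W fun a => F a * G a)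
    (c d : ℝ) : Cv W F G = Ex W (fun a => (F a - c) * (G a - d)) - (Ex W F - c) * (Ex W G - d) := by
  have : Ex W (fun a => (F a - c) * (G a - d)) =
      Ex W (fun a => F a * G a) - d * Ex W F - c * Ex W G + c * d := by
    rw [← Ex_const_mul, ← Ex_const_mul, ← Ex_sub hFG (hF.const_mul d),
      ← Ex_sub (hFG.sub (hF.const_mul d)) (hG.const_mul c),
      ← hW.ex_add_const ((hFG.sub (hF.const_mul d)).sub (hG.const_mul c))]
    exact Ex_congr fun a _ => by ring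
  rw [this, Cv]; ring
theorem Wt.cv_centred (hW : Wt W) (hF : Ig W F) (hG : Ig W G) (hFG : Ig W fun a => F a * G a) :
    Cv W F G = Ex W fun a => (F a - Ex W F) * (G a - Ex W G) := by
  rw [hW.cv_eq hF hG hFG (Ex W F) (Ex W G)]; simp
theorem Wt.cv_self_nonneg (hW : Wt W) (hF : Ig W fun a => F a ^ 2) : 0 ≤ Cv W F F := by
  have h1 := hW.ig_of_sq hF
  rw [hW.cv_centred h1 h1 (hF.congr fun a _ => sq _)]
  exact Ex_nonneg hW.nonneg fun a _ => mul_self_nonneg _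
/-- Cauchy-Schwarz -/
theorem Ex_mul_sq_le (h0 : ∀ a, 0 ≤ W a) (hF : Ig W fun a => F a ^ 2) (hG : Ig W fun a => G a ^ 2) :
    Ex W (fun a => F a * G a) ^ 2 ≤ Ex W (fun a => F a ^ 2) * Ex W fun a => G a ^ 2 := by
  have hFG := Ig.mul_of_sq h0 hF hG
  have key : ∀ t : ℝ, 0 ≤ Ex W (fun a => F a ^ 2) * (t * t) +
      2 * Ex W (fun a => F a * G a) * t + Ex W fun a => G a ^ 2 := by
    intro t
    rw [← Ex_mul_const, mul_assoc, ← Ex_mul_const, ← Ex_const_mul,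
      ← Ex_add (hF.mul_const _) ((hFG.mul_const _).const_mul _),
      ← Ex_add ((hF.mul_const _).add ((hFG.mul_const _).const_mul _)) hG]
    exact Ex_nonneg h0 fun a _ => by nlinarith [sq_nonneg (F a * t + G a)]
  have := discrim_le_zero key
  unfold discrim at this
  nlinarith
theorem abs_Ex_mul_le (h0 : ∀ a, 0 ≤ W a) (hF : Ig W fun a => F a ^ 2)
    (hG : Ig W fun a => G a ^ 2) : |Ex W fun a => F a * G a| ≤
      Real.sqrt (Ex W fun a => F a ^ 2) * Real.sqrt (Ex W fun a => G a ^ 2) := by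
  rw [← Real.sqrt_mul (Ex_nonneg h0 fun a _ => sq_nonneg _)]
  exact Real.abs_le_sqrt (Ex_mul_sq_le h0 hF hG)
theorem Wt.ex_sq_le (hW : Wt W) (hF : Ig W fun a => F a ^ 2) :
    Ex W F ^ 2 ≤ Ex W fun a => F a ^ 2 := by
  have := Ex_mul_sq_le (G := fun _ => 1) hW.nonneg hF (hW.ig_const _)
  simpa [hW.ex_const] using this
theorem Wt.abs_ex_ind_le (hW : Wt W) (hF : Ig W fun a => F a ^ 2) (p : α → Prop) :
    |Ex W fun a => F a * ind (p a)| ≤ Real.sqrt (Ex W fun a => F a ^ 2) * Real.sqrt (Pr W p) := by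
  have e : (fun a => ind (p a) ^ 2) = fun a => ind (p a) := funext fun a => by
    rw [sq, ind_mul_self]
  have := abs_Ex_mul_le (G := fun a => ind (p a)) hW.nonneg hF (by rw [e]; exact hW.ig_ind p)
  rwa [e] at this
theorem Wt.cv_sq_le (hW : Wt W) (hF : Ig W fun a => F a ^ 2) (hG : Ig W fun a => G a ^ 2) :
    Cv W F G ^ 2 ≤ Cv W F F * Cv W G G := by
  have h1 := hW.ig_of_sq hF
  have h2 := hW.ig_of_sq hG
  have sq' : ∀ {H : α → ℝ}, (Ig W fun a => H a ^ 2) → ∀ c, Ig W fun a => (H a - c) ^ 2 := by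
    intro H hH c
    exact (((hH.sub ((hW.ig_of_sq hH).const_mul (2 * c))).add (hW.ig_const (c ^ 2))).congr
      fun a _ => by ring)
  rw [hW.cv_centred h1 h2 (Ig.mul_of_sq hW.nonneg hF hG),
    hW.cv_centred h1 h1 (hF.congr fun a _ => sq _), hW.cv_centred h2 h2 (hG.congr fun a _ => sq _)]
  simpa only [sq] using Ex_mul_sq_le hW.nonneg (sq' hF (Ex W F)) (sq' hG (Ex W G))
/-- Chebyshev -/
theorem Wt.chebyshev (hW : Wt W) (hF : Ig W fun a => F a ^ 2) {t : ℝ} (ht : 0 < t) :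
    Pr W (fun a => t ≤ |F a|) ≤ Ex W (fun a => F a ^ 2) / t ^ 2 := by
  rw [le_div_iff₀' (by positivity)]
  exact hW.markov hF (fun a => sq_nonneg _) fun a h => by
    rw [← sq_abs (F a)]; exact pow_le_pow_left₀ ht.le h 2

end ex

end Crest.Agent.T145
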