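import Crest.Agent.T145.Geo_97
import Crest.Agent.T145.Api_98
import Crest.Agent.T145.Pd_77

/-!
# Row 145 (helper51): geometry of `ℤ²`, edge sets, `GeoStmt`, symmetries, tilings, path flows
-/

set_option autoImplicit false
set_option linter.unusedVariables false

namespace Crest.Agent.T145

open Finset Crest.ProbabilityR.HeightModel

/-! ## squares and balls -/

theorem mem_sq {a x : Pt} {n : ℕ} :
    x ∈ sq a n ↔ (a.1 ≤ x.1 ∧ x.1 < a.1 + n) ∧ a.2 ≤ x.2 ∧ x.2 < a.2 + n := by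
  simp only [sq, mem_product, mem_Ico]

theorem mem_bl {z x : Pt} {r : ℕ} :
    x ∈ bl z r ↔ (z.1 - r ≤ x.1 ∧ x.1 ≤ z.1 + r) ∧ z.2 - r ≤ x.2 ∧ x.2 ≤ z.2 + r := by
  simp only [bl, mem_product, mem_Icc]

theorem mem_bl_abs {z x : Pt} {r : ℕ} : x ∈ bl z r ↔ |x.1 - z.1| ≤ r ∧ |x.2 - z.2| ≤ r := by
  rw [mem_bl, abs_le, abs_le]; omega

theorem card_sq (a : Pt) (n : ℕ) : (sq a n).card = n ^ 2 := by
  simp [sq, pow_two]

theorem bl_eq_sq (z : Pt) (r : ℕ) : bl z r = sq (z.1 - r, z.2 - r) (2 * r + 1) := by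
  ext x; rw [mem_bl, mem_sq]; push_cast; omega

theorem card_bl (z : Pt) (r : ℕ) : (bl z r).card = (2 * r + 1) ^ 2 := by rw [bl_eq_sq, card_sq]

theorem self_mem_bl (z : Pt) (r : ℕ) : z ∈ bl z r := by rw [mem_bl]; omega

theorem self_mem_sq (a : Pt) {n : ℕ} (hn : 0 < n) : a ∈ sq a n := by rw [mem_sq]; omega

theorem bl_mono (z : Pt) {r r' : ℕ} (h : r ≤ r') : bl z r ⊆ bl z r' := fun x => by
  rw [mem_bl, mem_bl]; omega

theorem bl_subset_bl {z z' : Pt} {r r' d : ℕ} (hz : z ∈ bl z' d) (h : r + d ≤ r') :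
    bl z r ⊆ bl z' r' := fun x => by
  rw [mem_bl] at hz; rw [mem_bl, mem_bl]; omega

theorem sq_subset_sq {a a' : Pt} {n n' : ℕ} (h1 : a'.1 ≤ a.1) (h2 : a'.2 ≤ a.2)
    (h3 : a.1 + n ≤ a'.1 + n') (h4 : a.2 + n ≤ a'.2 + n') : sq a n ⊆ sq a' n' := fun x => by
  rw [mem_sq, mem_sq]; omega

theorem bl_zero_eq_box (R : ℕ) : bl 0 R = ProbabilityR.HeightModel.box R := by
  simp [bl, ProbabilityR.HeightModel.box]

theorem mem_bl_comm {z x : Pt} {r : ℕ} : x ∈ bl z r ↔ z ∈ bl x r := by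
  rw [mem_bl, mem_bl]; omega

theorem exists_subset_bl (D : Finset Pt) (z : Pt) : ∃ R : ℕ, D ⊆ bl z R := by
  refine ⟨D.sup fun x => max (x.1 - z.1).natAbs (x.2 - z.2).natAbs, fun x hx => ?_⟩
  have h := le_sup (f := fun x : Pt => max (x.1 - z.1).natAbs (x.2 - z.2).natAbs) hx
  rw [mem_bl]
  omega

/-- corner of the tile `i` -/
def tile (a : Pt) (l : ℕ) (i : Pt) : Pt := (a.1 + l * i.1, a.2 + l * i.2)

/-- index of the tile containing `x` -/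
def tileOf (a : Pt) (l : ℕ) (x : Pt) : Pt := ((x.1 - a.1) / l, (x.2 - a.2) / l)

theorem mem_tile_iff {a i x : Pt} {l : ℕ} (hl : 0 < l) :
    x ∈ sq (tile a l i) l ↔ tileOf a l x = i := by
  have h0 : (0 : ℤ) < l := by exact_mod_cast hl
  have key : ∀ u v : ℤ, u / l = v ↔ l * v ≤ u ∧ u < l * v + l := fun u v => by
    rw [Int.ediv_eq_iff_of_pos h0, mul_comm]
  rw [mem_sq, tile, tileOf, Prod.ext_iff, key, key]
  simp only
  omega

theorem tile_disjoint (a : Pt) (l : ℕ) {i j : Pt} (h : i ≠ j) :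
    Disjoint (sq (tile a l i) l) (sq (tile a l j) l) := by
  rcases Nat.eq_zero_or_pos l with rfl | hl
  · simp [sq]
  · exact disjoint_left.2 fun x hi hj => h (((mem_tile_iff hl).1 hi).symm.trans ((mem_tile_iff hl).1 hj))

theorem tileOf_mem {a x : Pt} {k l : ℕ} (hl : 0 < l) : tileOf a l x ∈ sq 0 k ↔ x ∈ sq a (k * l) := by
  have h0 : (0 : ℤ) < l := by exact_mod_cast hl
  rw [mem_sq, mem_sq, tileOf]
  simp only [Prod.fst_zero, Prod.snd_zero, zero_add, Int.le_ediv_iff_mul_le h0,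
    Int.ediv_lt_iff_lt_mul h0, zero_mul]
  push_cast
  omega

/-- the square of side `k l` is tiled by `k²` squares of side `l` -/
theorem sq_tiling (a : Pt) (k l : ℕ) :
    sq a (k * l) = (sq 0 k).biUnion fun i => sq (tile a l i) l := by
  rcases Nat.eq_zero_or_pos l with rfl | hl
  · ext x; simp [sq]
  · ext x
    simp only [mem_biUnion, mem_tile_iff hl, exists_eq_right', tileOf_mem hl]

theorem tile_subset (a : Pt) {k : ℕ} (l : ℕ) {i : Pt} (hi : i ∈ sq 0 k) :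
    sq (tile a l i) l ⊆ sq a (k * l) := by
  rw [sq_tiling]; exact subset_biUnion_of_mem (fun i => sq (tile a l i) l) hi

theorem sum_tiling {M : Type*} [AddCommMonoid M] (a : Pt) (k l : ℕ) (f : Pt → M) :
    ∑ x ∈ sq a (k * l), f x = ∑ i ∈ sq 0 k, ∑ x ∈ sq (tile a l i) l, f x := by
  rw [sq_tiling, sum_biUnion fun i _ j _ h => tile_disjoint a l h]

/-! ## steps and edges -/

theorem posD_neg {y : Pt} (hy : y ≠ 0) : posD (-y) ↔ ¬ posD y := by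
  have : ¬ (y.1 = 0 ∧ y.2 = 0) := fun h => hy (Prod.ext h.1 h.2)
  simp only [posD, Prod.fst_neg, Prod.snd_neg]
  omega

theorem not_posD_zero : ¬ posD 0 := by simp [posD]

theorem posD_ne {y : Pt} (h : posD y) : y ≠ 0 := fun e => not_posD_zero (e ▸ h)

theorem mem_inn {V : Type*} [DecidableEq V] {C : Finset V} {ω : Finset (V × V)} {e : V × V} :
    e ∈ inn C ω ↔ e ∈ ω ∧ e.1 ∈ C ∧ e.2 ∈ C := mem_filter

namespace Lat
variable {Λ : Lat}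

theorem mem_Jp {y : Pt} : y ∈ Λ.Jp ↔ y ∈ Λ.J ∧ posD y := mem_filter

theorem Ok.pos (h : Λ.Ok) : 0 < Λ.τ := h.2

theorem Ok.zero_not_mem (h : Λ.Ok) : (0 : Pt) ∉ Λ.J := h.1.1

theorem Ok.rot (h : Λ.Ok) {y : Pt} (hy : y ∈ Λ.J) : (-y.2, y.1) ∈ Λ.J := h.1.2.2.1 y hy

theorem Ok.swap (h : Λ.Ok) {y : Pt} (hy : y ∈ Λ.J) : (y.2, y.1) ∈ Λ.J := h.1.2.2.2 y hy

theorem Ok.neg (h : Λ.Ok) {y : Pt} (hy : y ∈ Λ.J) : -y ∈ Λ.J := h.rot (h.rot hy)

theorem Ok.neg_iff (h : Λ.Ok) {y : Pt} : -y ∈ Λ.J ↔ y ∈ Λ.J :=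
  ⟨fun hy => neg_neg y ▸ h.neg hy, h.neg⟩

theorem Ok.fl1 (h : Λ.Ok) {y : Pt} (hy : y ∈ Λ.J) : (-y.1, y.2) ∈ Λ.J := h.rot (h.swap hy)

theorem Ok.fl2 (h : Λ.Ok) {y : Pt} (hy : y ∈ Λ.J) : (y.1, -y.2) ∈ Λ.J := h.swap (h.rot hy)

theorem Ok.e1 (h : Λ.Ok) : ((1, 0) : Pt) ∈ Λ.Jp := mem_Jp.2 ⟨h.1.2.1, by simp [posD]⟩

theorem Ok.e2 (h : Λ.Ok) : ((0, 1) : Pt) ∈ Λ.Jp := mem_Jp.2 ⟨h.swap h.1.2.1, by simp [posD]⟩

theorem Ok.mem_or (h : Λ.Ok) {y : Pt} : y ∈ Λ.J ↔ y ∈ Λ.Jp ∨ -y ∈ Λ.Jp := by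
  rw [mem_Jp, mem_Jp, h.neg_iff]
  refine ⟨fun hy => ?_, fun hy => hy.elim And.left And.left⟩
  rw [posD_neg fun e => h.zero_not_mem (e ▸ hy)]
  tauto

theorem Ok.at' (h : Λ.Ok) {τ : ℝ} (hτ : 0 < τ) : (Λ.at' τ).Ok := ⟨h.1, hτ⟩

theorem Ok.fam (h : Λ.Ok) : Fam Λ.w := ⟨Λ.xy, Λ.τ, h.2, rfl⟩

theorem Ok.card_pos (h : Λ.Ok) : 0 < Λ.J.card := Finset.card_pos.2 ⟨_, h.1.2.1⟩

/-- sums over `J` of even functions -/
theorem Ok.sum_J (h : Λ.Ok) (f : Pt → ℝ) : ∑ y ∈ Λ.J, f y = ∑ y ∈ Λ.Jp, (f y + f (-y)) := by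
  rw [sum_add_distrib, ← sum_filter_add_sum_filter_not Λ.J posD f]
  congr 1
  refine (sum_bij (fun y _ => -y) (fun y hy => ?_) (fun _ _ _ _ e => neg_injective e)
    (fun y hy => ⟨-y, ?_, neg_neg y⟩) fun _ _ => rfl).symm
  · rw [mem_Jp] at hy
    rw [mem_filter, h.neg_iff, posD_neg (posD_ne hy.2)]
    exact ⟨hy.1, not_not.2 hy.2⟩
  · rw [mem_filter] at hy
    rw [mem_Jp, h.neg_iff, posD_neg fun e => h.zero_not_mem (e ▸ hy.1)]
    exact hy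

theorem le_rg {y : Pt} (hy : y ∈ Λ.J) : |y.1| ≤ Λ.rg ∧ |y.2| ≤ Λ.rg := by
  have h : max y.1.natAbs y.2.natAbs ≤ Λ.rg :=
    le_sup (f := fun y : Pt => max y.1.natAbs y.2.natAbs) hy
  rw [abs_le, abs_le]
  omega

theorem Ok.one_le_rg (h : Λ.Ok) : 1 ≤ Λ.rg := by
  have := (le_rg h.1.2.1).1
  simpa using this

theorem Ok.one_le_a (h : Λ.Ok) : 1 ≤ Λ.a := by
  have := single_le_sum (f := fun y : Pt => (y.1 : ℝ) ^ 2) (fun _ _ => sq_nonneg _) h.e1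
  simpa [a] using this

theorem Ok.a_eq (h : Λ.Ok) : Λ.a = Λ.J.card * varianceConst Λ.J := by
  have h0 : (Λ.J.card : ℝ) ≠ 0 := Nat.cast_ne_zero.2 h.card_pos.ne'
  rw [varianceConst, h.sum_J, a]
  simp only [Prod.fst_neg, Int.cast_neg, neg_sq, sum_add_distrib]
  field_simp
  ring

theorem Ok.a_eq_snd (h : Λ.Ok) : Λ.a = ∑ y ∈ Λ.Jp, (y.2 : ℝ) ^ 2 := by
  have h1 := h.sum_J fun y => (y.1 : ℝ) ^ 2
  have h2 := h.sum_J fun y => (y.2 : ℝ) ^ 2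
  have h3 : ∑ y ∈ Λ.J, (y.1 : ℝ) ^ 2 = ∑ y ∈ Λ.J, (y.2 : ℝ) ^ 2 :=
    sum_bij (fun y _ => y.swap) (fun y hy => h.swap hy) (fun _ _ _ _ e => Prod.swap_injective e)
      (fun y hy => ⟨y.swap, h.swap hy, rfl⟩) fun _ _ => rfl
  simp only [Prod.fst_neg, Prod.snd_neg, Int.cast_neg, neg_sq, sum_add_distrib] at h1 h2
  rw [a]
  linarith

theorem Ok.sum_mixed (h : Λ.Ok) : ∑ y ∈ Λ.Jp, (y.1 : ℝ) * y.2 = 0 := by
  have h1 := h.sum_J fun y => (y.1 : ℝ) * y.2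
  have h3 : ∑ y ∈ Λ.J, (y.1 : ℝ) * y.2 = ∑ y ∈ Λ.J, -((y.1 : ℝ) * y.2) :=
    sum_bij (fun y _ => (-y.1, y.2)) (fun y hy => h.fl1 hy)
      (fun _ _ _ _ e => Prod.ext (neg_injective (Prod.ext_iff.1 e).1) (Prod.ext_iff.1 e).2)
      (fun y hy => ⟨(-y.1, y.2), h.fl1 hy, by simp⟩) fun _ _ => by simp
  simp only [Prod.fst_neg, Prod.snd_neg, Int.cast_neg, neg_mul_neg, sum_add_distrib,
    sum_neg_distrib] at h1 h3
  linarith

theorem mem_edT {D : Finset Pt} {e : Pt × Pt} :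
    e ∈ Λ.edT D ↔ e.2 - e.1 ∈ Λ.Jp ∧ (e.1 ∈ D ∨ e.2 ∈ D) := by
  simp only [edT, mem_union, mem_image, mem_product]
  constructor
  · rintro (⟨p, hp, rfl⟩ | ⟨p, hp, rfl⟩)
    · simp [hp.1, hp.2]
    · simp [hp.1, hp.2]
  · rintro ⟨h, h1 | h2⟩
    · exact Or.inl ⟨(e.1, e.2 - e.1), ⟨h1, h⟩, by simp⟩
    · exact Or.inr ⟨(e.2, e.2 - e.1), ⟨h2, h⟩, by simp⟩

theorem mem_edI {B : Finset Pt} {e : Pt × Pt} :
    e ∈ Λ.edI B ↔ e.2 - e.1 ∈ Λ.Jp ∧ e.1 ∈ B ∧ e.2 ∈ B := by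
  rw [edI, mem_inn, mem_edT]; tauto

theorem edT_mono {D D' : Finset Pt} (h : D ⊆ D') : Λ.edT D ⊆ Λ.edT D' := fun e => by
  rw [mem_edT, mem_edT]
  exact fun he => ⟨he.1, he.2.imp (@h _) (@h _)⟩

theorem edI_mono {B B' : Finset Pt} (h : B ⊆ B') : Λ.edI B ⊆ Λ.edI B' := fun e => by
  rw [mem_edI, mem_edI]
  exact fun he => ⟨he.1, h he.2.1, h he.2.2⟩

theorem edI_subset_edT (B : Finset Pt) : Λ.edI B ⊆ Λ.edT B := filter_subset _ _

theorem inn_edT {B D : Finset Pt} (h : B ⊆ D) : inn B (Λ.edT D) = Λ.edI B := by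
  ext e; rw [mem_inn, mem_edT, mem_edI]
  exact ⟨fun h => ⟨h.1.1, h.2⟩, fun h' => ⟨⟨h'.1, Or.inl (h h'.2.1)⟩, h'.2⟩⟩

theorem inn_edI {B D : Finset Pt} (h : B ⊆ D) : inn B (Λ.edI D) = Λ.edI B := by
  ext e; rw [mem_inn, mem_edI, mem_edI]
  exact ⟨fun h => ⟨h.1.1, h.2⟩, fun h' => ⟨⟨h'.1, h h'.2.1, h h'.2.2⟩, h'.2⟩⟩

theorem edT_union (D D' : Finset Pt) : Λ.edT (D ∪ D') = Λ.edT D ∪ Λ.edT D' := by
  ext e; simp only [mem_union, mem_edT]; tauto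

theorem edge_ne {e : Pt × Pt} (h : e.2 - e.1 ∈ Λ.Jp) : e.1 ≠ e.2 := fun h' =>
  posD_ne (mem_Jp.1 h).2 (by rw [h', sub_self])

theorem edge_near {e : Pt × Pt} (h : e.2 - e.1 ∈ Λ.Jp) : e.2 ∈ bl e.1 Λ.rg :=
  mem_bl_abs.2 (le_rg (mem_Jp.1 h).1)

theorem edge_near' {e : Pt × Pt} (h : e.2 - e.1 ∈ Λ.Jp) : e.1 ∈ bl e.2 Λ.rg :=
  mem_bl_comm.1 (edge_near h)

/-- the edges meeting `D` lie inside `B` when `B` contains the `rg`-neighbourhood of `D` -/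
theorem edT_subset_edI {D B : Finset Pt} (h : ∀ x ∈ D, bl x Λ.rg ⊆ B) : Λ.edT D ⊆ Λ.edI B := by
  intro e he
  rw [mem_edT] at he
  rw [mem_edI]
  rcases he.2 with h1 | h2
  · exact ⟨he.1, h _ h1 (self_mem_bl _ _), h _ h1 (edge_near he.1)⟩
  · exact ⟨he.1, h _ h2 (edge_near' he.1), h _ h2 (self_mem_bl _ _)⟩

theorem edT_bl_subset (z : Pt) {r R : ℕ} (h : r + Λ.rg ≤ R) :
    Λ.edT (bl z r) ⊆ Λ.edI (bl z R) :=
  edT_subset_edI fun x hx => bl_subset_bl hx (by omega)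

theorem disjoint_edI {B B' : Finset Pt} (h : Disjoint B B') : Disjoint (Λ.edI B) (Λ.edI B') :=
  disjoint_left.2 fun e h1 h2 => disjoint_left.1 h (mem_edI.1 h1).2.1 (mem_edI.1 h2).2.1

theorem card_edT_le (D : Finset Pt) : (Λ.edT D).card ≤ 2 * (D.card * Λ.Jp.card) := by
  refine (card_union_le _ _).trans ?_
  have h1 := card_image_le (s := D ×ˢ Λ.Jp) (f := fun p => (p.1, p.1 + p.2))
  have h2 := card_image_le (s := D ×ˢ Λ.Jp) (f := fun p => (p.1 - p.2, p.1))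
  rw [card_product] at h1 h2
  omega

/-- sums over the edges, by the step -/
theorem sum_edI {M : Type*} [AddCommMonoid M] (B : Finset Pt) (f : Pt × Pt → M) :
    ∑ e ∈ Λ.edI B, f e = ∑ y ∈ Λ.Jp, ∑ x ∈ B.filter (fun x => x + y ∈ B), f (x, x + y) := by
  rw [sum_sigma']
  refine (sum_bij (fun p _ => (p.2, p.2 + p.1)) (fun p hp => ?_) (fun p _ q _ e => ?_)
    (fun e he => ⟨⟨e.2 - e.1, e.1⟩, ?_, by simp⟩) fun _ _ => rfl).symm
  · simp only [mem_sigma, mem_filter] at hp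
    simp [mem_edI, hp.1, hp.2.1, hp.2.2]
  · have h1 : p.2 = q.2 := congrArg Prod.fst e
    have h2 : p.2 + p.1 = q.2 + q.1 := congrArg Prod.snd e
    rw [h1] at h2
    exact Sigma.ext (add_left_cancel h2) (heq_of_eq h1)
  · rw [mem_edI] at he
    simp [he.1, he.2.1, he.2.2]

@[simp] theorem D_A (D : Finset Pt) : (Λ.D D).A = D := rfl
@[simp] theorem D_ed (D : Finset Pt) : (Λ.D D).ed = Λ.edT D := rfl
@[simp] theorem D_w (D : Finset Pt) (e : Pt × Pt) : (Λ.D D).w e = Λ.w := rfl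
@[simp] theorem D_site (D : Finset Pt) (x : Pt) (k : ℤ) : (Λ.D D).site x k = 1 := rfl
@[simp] theorem N_A (B : Finset Pt) : (Λ.N B).A = B := rfl
@[simp] theorem N_ed (B : Finset Pt) : (Λ.N B).ed = Λ.edI B := rfl
@[simp] theorem N_w (B : Finset Pt) (e : Pt × Pt) : (Λ.N B).w e = Λ.w := rfl
@[simp] theorem N_site (B : Finset Pt) (x : Pt) (k : ℤ) : (Λ.N B).site x k = 1 := rfl
@[simp] theorem Nr_A (B : Finset Pt) (r : Pt) : (Λ.Nr B r).A = B.erase r := rfl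
@[simp] theorem Nr_ed (B : Finset Pt) (r : Pt) : (Λ.Nr B r).ed = Λ.edI B := rfl
@[simp] theorem Nr_w (B : Finset Pt) (r : Pt) (e : Pt × Pt) : (Λ.Nr B r).w e = Λ.w := rfl
@[simp] theorem Nr_site (B : Finset Pt) (r x : Pt) (k : ℤ) : (Λ.Nr B r).site x k = 1 := rfl
@[simp] theorem T_A (n : ℕ) : (Λ.T n).A = (sq 0 n).erase 0 := rfl
@[simp] theorem T_w (n : ℕ) (e : Pt × Pt) : (Λ.T n).w e = Λ.w := rfl
@[simp] theorem T_site (n : ℕ) (x : Pt) (k : ℤ) : (Λ.T n).site x k = 1 := rfl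
@[simp] theorem at'_J (τ : ℝ) : (Λ.at' τ).J = Λ.J := rfl
@[simp] theorem at'_Jp (τ : ℝ) : (Λ.at' τ).Jp = Λ.Jp := rfl
@[simp] theorem at'_τ (τ : ℝ) : (Λ.at' τ).τ = τ := rfl
@[simp] theorem at'_xy (τ : ℝ) : (Λ.at' τ).xy = Λ.xy := rfl
@[simp] theorem at'_a (τ : ℝ) : (Λ.at' τ).a = Λ.a := rfl
@[simp] theorem at'_rg (τ : ℝ) : (Λ.at' τ).rg = Λ.rg := rfl
@[simp] theorem at'_edT (τ : ℝ) (D : Finset Pt) : (Λ.at' τ).edT D = Λ.edT D := rfl
@[simp] theorem at'_edI (τ : ℝ) (D : Finset Pt) : (Λ.at' τ).edI D = Λ.edI D := rfl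
@[simp] theorem at'_at' (τ τ' : ℝ) : (Λ.at' τ).at' τ' = Λ.at' τ' := rfl
@[simp] theorem at'_self : Λ.at' Λ.τ = Λ := rfl

theorem mem_T_ed {n : ℕ} {e : Pt × Pt} : e ∈ (Λ.T n).ed ↔
    e.1 ∈ sq 0 n ∧ ∃ y ∈ Λ.Jp, e.2 = ((e.1.1 + y.1) % n, (e.1.2 + y.2) % n) := by
  simp only [T, mem_image, mem_product]
  constructor
  · rintro ⟨p, hp, rfl⟩
    exact ⟨hp.1, p.2, hp.2, rfl⟩
  · rintro ⟨h, y, hy, e2⟩
    exact ⟨(e.1, y), ⟨h, hy⟩, Prod.ext rfl e2.symm⟩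

theorem T_ed_mem {n : ℕ} {e : Pt × Pt} (h : e ∈ (Λ.T n).ed) : e.1 ∈ sq 0 n ∧ e.2 ∈ sq 0 n := by
  obtain ⟨h1, y, -, e2⟩ := mem_T_ed.1 h
  refine ⟨h1, ?_⟩
  have hn : (0 : ℤ) < n := by rw [mem_sq] at h1; simp only [Prod.fst_zero] at h1; omega
  rw [e2, mem_sq]
  simp only [Prod.fst_zero, Prod.snd_zero, zero_add]
  exact ⟨⟨Int.emod_nonneg _ hn.ne', Int.emod_lt_of_pos _ hn⟩, Int.emod_nonneg _ hn.ne',
    Int.emod_lt_of_pos _ hn⟩

/-- the edges of the free square are edges of the torus -/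
theorem edI_subset_T (n : ℕ) : Λ.edI (sq 0 n) ⊆ (Λ.T n).ed := fun e he => by
  rw [mem_edI] at he
  refine mem_T_ed.2 ⟨he.2.1, _, he.1, ?_⟩
  have h2 := mem_sq.1 he.2.2
  simp only [Prod.fst_zero, Prod.snd_zero, zero_add] at h2
  simp only [Prod.fst_sub, Prod.snd_sub, add_sub_cancel]
  rw [Int.emod_eq_of_lt h2.1.1 h2.1.2, Int.emod_eq_of_lt h2.2.1 h2.2.2]

theorem emod_cases {u n : ℤ} (hn : 0 < n) (h1 : -n ≤ u) (h2 : u < 2 * n) :
    (u < 0 ∧ u % n = u + n) ∨ (0 ≤ u ∧ u < n ∧ u % n = u) ∨ (n ≤ u ∧ u % n = u - n) := by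
  rcases lt_or_ge u 0 with h | h
  · exact Or.inl ⟨h, by rw [← Int.add_emod_right, Int.emod_eq_of_lt (by omega) (by omega)]⟩
  rcases lt_or_ge u n with h' | h'
  · exact Or.inr (Or.inl ⟨h, h', Int.emod_eq_of_lt h h'⟩)
  · exact Or.inr (Or.inr ⟨h', by
      rw [← Int.sub_emod_right, Int.emod_eq_of_lt (by omega) (by omega)]⟩)

/-- a torus edge is a lattice edge or it is long -/
theorem T_ed_cases {n : ℕ} {e : Pt × Pt} (h : e ∈ (Λ.T n).ed) (hn : Λ.rg ≤ n) :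
    e ∈ Λ.edI (sq 0 n) ∨
      ((e.1.1 < Λ.rg ∧ n ≤ e.2.1 + Λ.rg ∨ e.2.1 < Λ.rg ∧ n ≤ e.1.1 + Λ.rg) ∧
          (n : ℤ) ≤ |e.2.1 - e.1.1| + Λ.rg ∨
        (e.1.2 < Λ.rg ∧ n ≤ e.2.2 + Λ.rg ∨ e.2.2 < Λ.rg ∧ n ≤ e.1.2 + Λ.rg) ∧
          (n : ℤ) ≤ |e.2.2 - e.1.2| + Λ.rg) := by
  have hm := T_ed_mem h
  obtain ⟨h1, y, hy, e2⟩ := mem_T_ed.1 h
  have hr := le_rg (mem_Jp.1 hy).1
  rw [abs_le, abs_le] at hr
  rw [mem_sq] at h1
  simp only [Prod.fst_zero, Prod.snd_zero, zero_add] at h1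
  have a1 := emod_cases (u := e.1.1 + y.1) (n := n) (by omega) (by omega) (by omega)
  have a2 := emod_cases (u := e.1.2 + y.2) (n := n) (by omega) (by omega) (by omega)
  have b1 : e.2.1 = (e.1.1 + y.1) % n := congrArg Prod.fst e2
  have b2 : e.2.2 = (e.1.2 + y.2) % n := congrArg Prod.snd e2
  rw [← b1] at a1
  rw [← b2] at a2
  by_cases hc : e.2.1 = e.1.1 + y.1 ∧ e.2.2 = e.1.2 + y.2
  · refine Or.inl (mem_edI.2 ⟨?_, hm⟩)
    rwa [show e.2 - e.1 = y from Prod.ext (by simp [hc.1]) (by simp [hc.2])]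
  · right
    rcases abs_cases (e.2.1 - e.1.1) with c1 | c1 <;> rcases abs_cases (e.2.2 - e.1.2) with c2 | c2 <;>
      omega

/-- a small square of the torus carries only lattice edges -/
theorem inn_T {n l : ℕ} {a : Pt} (h : sq a l ⊆ sq 0 n) (hl : l + Λ.rg ≤ n) :
    inn (sq a l) (Λ.T n).ed = Λ.edI (sq a l) := by
  ext e
  rw [mem_inn]
  refine ⟨fun he => ?_, fun he => ⟨edI_subset_T n (edI_mono h he), (mem_edI.1 he).2⟩⟩
  rcases T_ed_cases he.1 (by omega) with h1 | h1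
  · exact mem_edI.2 ⟨(mem_edI.1 h1).1, he.2⟩
  · have h2 := mem_sq.1 he.2.1
    have h3 := mem_sq.1 he.2.2
    rcases abs_cases (e.2.1 - e.1.1) with c1 | c1 <;> rcases abs_cases (e.2.2 - e.1.2) with c2 | c2 <;>
      omega

/-- the torus edges meeting a set deep inside the square are lattice edges -/
theorem T_ed_touch {n : ℕ} {D : Finset Pt} (h : ∀ x ∈ D, bl x Λ.rg ⊆ sq 0 n) {e : Pt × Pt}
    (he : e ∈ (Λ.T n).ed) (hD : e.1 ∈ D ∨ e.2 ∈ D) : e ∈ Λ.edT D := by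
  have key : ∀ x ∈ D, (Λ.rg : ℤ) ≤ x.1 ∧ x.1 + Λ.rg < n ∧ (Λ.rg : ℤ) ≤ x.2 ∧ x.2 + Λ.rg < n := by
    intro x hx
    have h1 := mem_sq.1 (h x hx (show (x.1 - Λ.rg, x.2 - Λ.rg) ∈ _ by rw [mem_bl]; simp only; omega))
    have h2 := mem_sq.1 (h x hx (show (x.1 + Λ.rg, x.2 + Λ.rg) ∈ _ by rw [mem_bl]; simp only; omega))
    simp only [Prod.fst_zero, Prod.snd_zero, zero_add] at h1 h2
    omega
  have hn : Λ.rg ≤ n := by
    rcases hD with h1 | h1 <;> have := key _ h1 <;> omega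
  rcases T_ed_cases he hn with h1 | h1
  · exact mem_edT.2 ⟨(mem_edI.1 h1).1, hD⟩
  · rcases hD with h2 | h2 <;> have := key _ h2 <;> omega

end Lat

/-! ## connectivity and path flows -/

section conn
variable {V : Type*} [DecidableEq V] {ω ω' : Finset (V × V)} {x y z : V}

omit [DecidableEq V] in
theorem Conn.refl (ω : Finset (V × V)) (x : V) : Conn ω x x := Relation.ReflTransGen.refl

omit [DecidableEq V] in
theorem Conn.trans (h : Conn ω x y) (h' : Conn ω y z) : Conn ω x z :=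
  Relation.ReflTransGen.trans h h'

omit [DecidableEq V] in
theorem Conn.edge (h : (x, y) ∈ ω) : Conn ω x y := Relation.ReflTransGen.single (Or.inl h)

omit [DecidableEq V] in
theorem Conn.edge' (h : (y, x) ∈ ω) : Conn ω x y := Relation.ReflTransGen.single (Or.inr h)

omit [DecidableEq V] in
theorem Conn.symm (h : Conn ω x y) : Conn ω y x := by
  induction h with
  | refl => exact Conn.refl _ _
  | tail _ h ih => exact Relation.ReflTransGen.head h.symm ih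

omit [DecidableEq V] in
theorem Conn.mono (hω : ω ⊆ ω') (h : Conn ω x y) : Conn ω' x y := by
  induction h with
  | refl => exact Conn.refl _ _
  | tail _ h ih => exact Relation.ReflTransGen.tail ih (h.imp (@hω _) (@hω _))

end conn

/-- `ℓ¹` distance -/
def d1 (x y : Pt) : ℕ := (x.1 - y.1).natAbs + (x.2 - y.2).natAbs

/-- one nearest neighbour step from `x` towards `y` -/
theorem exists_step {x y : Pt} {d : ℕ} (h : d1 x y = d + 1) : ∃ x' : Pt, d1 x' y = d ∧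
    (min x.1 y.1 ≤ x'.1 ∧ x'.1 ≤ max x.1 y.1 ∧ min x.2 y.2 ≤ x'.2 ∧ x'.2 ≤ max x.2 y.2) ∧
    (x' - x = (1, 0) ∨ x' - x = (0, 1) ∨ x - x' = (1, 0) ∨ x - x' = (0, 1)) := by
  unfold d1 at *
  rcases lt_trichotomy x.1 y.1 with h1 | h1 | h1
  · exact ⟨(x.1 + 1, x.2), by simp only; omega, by simp only; omega,
      Or.inl (Prod.ext (by simp) (by simp))⟩
  · rcases lt_trichotomy x.2 y.2 with h2 | h2 | h2
    · exact ⟨(x.1, x.2 + 1), by simp only; omega, by simp only; omega,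
        Or.inr (Or.inl (Prod.ext (by simp) (by simp)))⟩
    · omega
    · exact ⟨(x.1, x.2 - 1), by simp only; omega, by simp only; omega,
        Or.inr (Or.inr (Or.inr (Prod.ext (by simp) (by simp))))⟩
  · exact ⟨(x.1 - 1, x.2), by simp only; omega, by simp only; omega,
      Or.inr (Or.inr (Or.inl (Prod.ext (by simp) (by simp))))⟩

/-- `B` contains the rectangle spanned by `x` and `y` -/
def Rect (B : Finset Pt) (x y : Pt) : Prop := ∀ z : Pt,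
  min x.1 y.1 ≤ z.1 → z.1 ≤ max x.1 y.1 → min x.2 y.2 ≤ z.2 → z.2 ≤ max x.2 y.2 → z ∈ B

theorem rect_sq {a x y : Pt} {n : ℕ} (hx : x ∈ sq a n) (hy : y ∈ sq a n) : Rect (sq a n) x y :=
  fun z => by rw [mem_sq] at *; omega

theorem rect_bl {a x y : Pt} {n : ℕ} (hx : x ∈ bl a n) (hy : y ∈ bl a n) : Rect (bl a n) x y :=
  fun z => by rw [mem_bl] at *; omega

theorem d1_lt_sq {a x y : Pt} {n : ℕ} (hx : x ∈ sq a n) (hy : y ∈ sq a n) : d1 x y ≤ 2 * n := by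
  rw [mem_sq] at *; unfold d1; omega

/-- a unit flow along a monotone nearest neighbour path from `x` to `y` -/
theorem Lat.Ok.exists_flow {Λ : Lat} (h : Λ.Ok) {B : Finset Pt} {y : Pt} : ∀ (d : ℕ) (x : Pt),
    d1 x y = d → Rect B x y → ∃ φ : Pt × Pt → ℤ, (∀ e, |φ e| ≤ 1) ∧
      (∀ e, φ e ≠ 0 → e ∈ Λ.edI B ∧ (e.2 - e.1 = (1, 0) ∨ e.2 - e.1 = (0, 1)) ∧
        d1 e.1 y ≤ d ∧ d1 e.2 y ≤ d) ∧
      ∑ e ∈ Λ.edI B, |φ e| = d ∧ Conn (Λ.edI B) x y ∧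
      ∀ {M : Type} [AddCommGroup M] (u : Pt → M),
        u y - u x = ∑ e ∈ Λ.edI B, φ e • (u e.2 - u e.1) := by
  intro d
  induction d with
  | zero =>
    intro x hx _
    obtain rfl : x = y := by unfold d1 at hx; exact Prod.ext (by omega) (by omega)
    exact ⟨0, by simp, by simp, by simp, Conn.refl _ _, by simp⟩
  | succ d ih =>
    intro x hx hB
    obtain ⟨x', h1, h2, h3⟩ := exists_step hx
    obtain ⟨φ, a1, a2, a3, a4, a5⟩ := ih x' h1 fun z b1 b2 b3 b4 =>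
      hB z (by omega) (by omega) (by omega) (by omega)
    have hxB : x ∈ B := hB x (by omega) (by omega) (by omega) (by omega)
    have hx'B : x' ∈ B := hB x' h2.1 h2.2.1 h2.2.2.1 h2.2.2.2
    obtain ⟨e0, c, hc, he0, hs, hd, hu, hC⟩ : ∃ (e0 : Pt × Pt) (c : ℤ), |c| = 1 ∧ e0 ∈ Λ.edI B ∧
        (e0.2 - e0.1 = (1, 0) ∨ e0.2 - e0.1 = (0, 1)) ∧
        ((e0.1 = x ∧ e0.2 = x') ∨ (e0.2 = x ∧ e0.1 = x')) ∧
        (∀ {M : Type} [AddCommGroup M] (u : Pt → M), u x' - u x = c • (u e0.2 - u e0.1)) ∧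
        Conn (Λ.edI B) x x' := by
      have f1 : x' - x = (1, 0) ∨ x' - x = (0, 1) → (x, x') ∈ Λ.edI B := fun hh =>
        Lat.mem_edI.2 ⟨hh.elim (fun e => e ▸ h.e1) fun e => e ▸ h.e2, hxB, hx'B⟩
      have f2 : x - x' = (1, 0) ∨ x - x' = (0, 1) → (x', x) ∈ Λ.edI B := fun hh =>
        Lat.mem_edI.2 ⟨hh.elim (fun e => e ▸ h.e1) fun e => e ▸ h.e2, hx'B, hxB⟩
      rcases or_assoc.2 h3 with h4 | h4
      · exact ⟨(x, x'), 1, abs_one, f1 h4, h4, Or.inl ⟨rfl, rfl⟩, fun u => by simp,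
          Conn.edge (f1 h4)⟩
      · exact ⟨(x', x), -1, by simp, f2 h4, h4, Or.inr ⟨rfl, rfl⟩, fun u => by simp,
          Conn.edge' (f2 h4)⟩
    have h0 : φ e0 = 0 := by
      by_contra hne
      have := (a2 e0 hne).2.2
      rcases hd with hd | hd <;> rw [← hd.1] at hx <;> omega
    refine ⟨Function.update φ e0 c, fun e => ?_, fun e he => ?_, ?_, hC.trans a4, fun u => ?_⟩
    · by_cases he : e = e0
      · rw [he, Function.update_self, hc]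
      · rw [Function.update_of_ne he]; exact a1 e
    · by_cases he' : e = e0
      · subst he'
        refine ⟨he0, hs, ?_⟩
        rcases hd with hd | hd <;> rw [hd.1, hd.2] <;> omega
      · rw [Function.update_of_ne he'] at he
        have := a2 e he
        exact ⟨this.1, this.2.1, by omega, by omega⟩
    · rw [← add_sum_erase _ _ he0, h0] at a3
      rw [← add_sum_erase _ _ he0, Function.update_self, hc,
        sum_congr rfl fun e he => by rw [Function.update_of_ne (ne_of_mem_erase he)]]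
      push_cast
      simp only [abs_zero, zero_add] at a3
      rw [a3, add_comm]
    · have a6 := a5 u
      rw [← add_sum_erase _ _ he0, h0, zero_smul, zero_add] at a6
      rw [← add_sum_erase _ _ he0, Function.update_self, ← hu,
        sum_congr rfl fun e he => by rw [Function.update_of_ne (ne_of_mem_erase he)], ← a6]
      abel

theorem Lat.Ok.conn_rect {Λ : Lat} (h : Λ.Ok) {B : Finset Pt} {x y : Pt} (hB : Rect B x y) :
    Conn (Λ.edI B) x y := by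
  obtain ⟨φ, -, -, -, h4, -⟩ := h.exists_flow _ x rfl hB
  exact h4

theorem Lat.Ok.conn_sq {Λ : Lat} (h : Λ.Ok) {a x y : Pt} {n : ℕ} (hx : x ∈ sq a n)
    (hy : y ∈ sq a n) : Conn (Λ.edI (sq a n)) x y := h.conn_rect (rect_sq hx hy)

/-! ## `GeoStmt` -/

theorem rsd_one51 {L : Type*} [AddCommGroup L] : RSD fun _ : L => (1 : ℝ) :=
  ⟨fun _ => zero_le_one, fun _ => rfl, fun _ => by simpa only [mul_one] using psd_one⟩

theorem ctr_of_site_one {V : Type*} {m : Mdl V} (h : m.Fm) (hs : m.site = fun _ _ => 1) :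
    m.Ctr := ⟨h, fun x _ => by rw [hs]; exact ⟨rsd_one51, pd_one, one_pos⟩⟩

namespace Lat
variable {Λ : Lat}

theorem Ok.ctr_D (h : Λ.Ok) (D : Finset Pt) : (Λ.D D).Ctr := ctr_of_site_one (fun _ _ => h.fam) rfl

theorem Ok.ctr_N (h : Λ.Ok) (B : Finset Pt) : (Λ.N B).Ctr := ctr_of_site_one (fun _ _ => h.fam) rfl

theorem Ok.ctr_Nr (h : Λ.Ok) (B : Finset Pt) (r : Pt) : (Λ.Nr B r).Ctr :=
  ctr_of_site_one (fun _ _ => h.fam) rfl

theorem Ok.ctr_T (h : Λ.Ok) (n : ℕ) : (Λ.T n).Ctr := ctr_of_site_one (fun _ _ => h.fam) rfl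

theorem Ok.anch_D (h : Λ.Ok) (D : Finset Pt) : (Λ.D D).Anch := by
  have key : ∀ (k : ℕ) (x : Pt), (D.filter fun z => x.1 ≤ z.1).card ≤ k →
      ∃ y, Conn (Λ.edT D) x y ∧ y ∉ D := by
    intro k
    induction k with
    | zero =>
      intro x hx
      refine ⟨x, Conn.refl _ _, fun hD => ?_⟩
      have : x ∈ D.filter fun z => x.1 ≤ z.1 := mem_filter.2 ⟨hD, le_rfl⟩
      rw [Nat.le_zero, card_eq_zero] at hx
      simp [hx] at this
    | succ k ih =>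
      intro x hx
      by_cases hD : x ∈ D
      · have hss : (D.filter fun z => (x + (1, 0)).1 ≤ z.1) ⊂ D.filter fun z => x.1 ≤ z.1 := by
          refine ⟨fun z hz => ?_, fun hz => ?_⟩
          · have h1 : x.1 + 1 ≤ z.1 := (mem_filter.1 hz).2
            exact mem_filter.2 ⟨(mem_filter.1 hz).1, by omega⟩
          · have : x.1 + 1 ≤ x.1 := (mem_filter.1 (hz (mem_filter.2 ⟨hD, le_rfl⟩))).2
            omega
        obtain ⟨y, h1, h2⟩ := ih (x + (1, 0)) (Nat.le_of_lt_succ ((card_lt_card hss).trans_le hx))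
        exact ⟨y, (Conn.edge (mem_edT.2 ⟨by simpa using h.e1, Or.inl hD⟩)).trans h1, h2⟩
      · exact ⟨x, Conn.refl _ _, hD⟩
  intro x _
  obtain ⟨y, h1, h2⟩ := key _ x le_rfl
  exact ⟨y, h1, Or.inl h2⟩

theorem anch_Nr {B : Finset Pt} {r : Pt} (h : ∀ x ∈ B, Conn (Λ.edI B) x r) : (Λ.Nr B r).Anch :=
  fun x hx => ⟨r, h x (mem_of_mem_erase hx), Or.inl (notMem_erase _ _)⟩

theorem Ok.anch_Nr (h : Λ.Ok) {a r : Pt} {n : ℕ} (hr : r ∈ sq a n) : (Λ.Nr (sq a n) r).Anch :=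
  Lat.anch_Nr fun x hx => h.conn_sq hx hr

theorem Ok.anch_Nr_bl (h : Λ.Ok) {a r : Pt} {n : ℕ} (hr : r ∈ bl a n) : (Λ.Nr (bl a n) r).Anch :=
  Lat.anch_Nr fun x hx => h.conn_rect (rect_bl hx hr)

theorem Ok.anch_T (h : Λ.Ok) (n : ℕ) : (Λ.T n).Anch := fun x hx => by
  have h1 := mem_of_mem_erase hx
  have h0 : (0 : Pt) ∈ sq 0 n := by rw [mem_sq] at *; omega
  exact ⟨0, (h.conn_sq h1 h0).mono (edI_subset_T n), Or.inl (notMem_erase _ _)⟩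

end Lat

theorem geoStmt : GeoStmt := fun Λ h =>
  ⟨fun D => ⟨h.ctr_D D, h.anch_D D⟩, fun a n r hr => ⟨h.ctr_Nr _ _, h.anch_Nr hr⟩,
    fun n => ⟨h.ctr_T n, h.anch_T n⟩, h.one_le_a, h.a_eq⟩

theorem admissible_nn : IsAdmissible nn := by
  refine ⟨by decide, by decide, by decide, by decide⟩

theorem xyL_ok {b : ℝ} (hb : 0 < b) : (xyL b).Ok := ⟨admissible_nn, hb⟩

theorem dg_ok {J : Finset Pt} {β : ℝ} (hJ : IsAdmissible J) (hβ : 0 < β) : (dg J β).Ok :=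
  ⟨hJ, by
    have : (0 : ℝ) < J.card := Nat.cast_pos.2 (card_pos.2 ⟨_, hJ.2.1⟩)
    have := Real.pi_pos
    simp only [dg]
    positivity⟩

theorem xyL_Jp (b : ℝ) : (xyL b).Jp = {(1, 0), (0, 1)} := by
  show nn.filter posD = _
  decide

theorem xyL_a (b : ℝ) : (xyL b).a = 1 := by
  rw [Lat.a, xyL_Jp, sum_pair (by decide)]; simp

theorem xyL_rg (b : ℝ) : (xyL b).rg = 1 := by
  show interactionRange nn = 1
  decide

/-! ## symmetries -/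

/-- the action of a vertex bijection on oriented edges -/
def oriF (φ : Pt → Pt) (e : Pt × Pt) : Pt × Pt :=
  if (posD (e.2 - e.1) ↔ posD (φ e.2 - φ e.1)) then (φ e.1, φ e.2) else (φ e.2, φ e.1)

theorem oriF_inv (φ : Pt ≃ Pt) (e : Pt × Pt) : oriF φ.symm (oriF φ e) = e := by
  by_cases h : posD (e.2 - e.1) ↔ posD (φ e.2 - φ e.1)
  · rw [show oriF φ e = (φ e.1, φ e.2) from if_pos h, oriF]
    simp only [Equiv.symm_apply_apply]
    rw [if_pos h.symm]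
  · have h1 : e.2 - e.1 ≠ 0 := fun h' => h (by rw [sub_eq_zero.1 h']; simp)
    have h2 : φ e.2 - φ e.1 ≠ 0 := fun h' => h1 (by rw [φ.injective (sub_eq_zero.1 h'), sub_self])
    rw [show oriF φ e = (φ e.2, φ e.1) from if_neg h, oriF]
    simp only [Equiv.symm_apply_apply]
    rw [if_neg]
    rw [← neg_sub (φ e.2), ← neg_sub e.2, posD_neg h1, posD_neg h2]
    tauto

/-- the bijection of oriented edges -/
def ori (φ : Pt ≃ Pt) : Pt × Pt ≃ Pt × Pt := ⟨oriF φ, oriF φ.symm, oriF_inv φ, oriF_inv φ.symm⟩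

theorem ori_cases (φ : Pt ≃ Pt) (e : Pt × Pt) :
    ori φ e = (φ e.1, φ e.2) ∨ ori φ e = (φ e.2, φ e.1) := by
  show oriF φ e = _ ∨ oriF φ e = _
  unfold oriF
  split_ifs <;> simp

/-- `φ` preserves the graph of `Λ` -/
def Lat.Sym (Λ : Lat) (φ : Pt ≃ Pt) : Prop := ∀ x y, φ y - φ x ∈ Λ.J ↔ y - x ∈ Λ.J

namespace Lat
variable {Λ : Lat} {φ φ' : Pt ≃ Pt}

theorem Sym.symm (h : Λ.Sym φ) : Λ.Sym φ.symm := fun x y => by
  rw [← h, φ.apply_symm_apply, φ.apply_symm_apply]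

theorem Sym.trans (h : Λ.Sym φ) (h' : Λ.Sym φ') : Λ.Sym (φ.trans φ') := fun x y =>
  (h' _ _).trans (h _ _)

theorem sym_of (h : ∀ x y, y - x ∈ Λ.J → φ y - φ x ∈ Λ.J)
    (h' : ∀ x y, y - x ∈ Λ.J → φ.symm y - φ.symm x ∈ Λ.J) : Λ.Sym φ := fun x y =>
  ⟨fun hh => by simpa using h' _ _ hh, h x y⟩

theorem sym_add (Λ : Lat) (t : Pt) : Λ.Sym (Equiv.addRight t) := fun x y => by simp

theorem Ok.sym_neg (h : Λ.Ok) : Λ.Sym (Equiv.neg Pt) := fun x y => by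
  rw [← h.neg_iff]; simp [neg_add_eq_sub]

theorem Ok.sym_swap (h : Λ.Ok) : Λ.Sym (Equiv.prodComm ℤ ℤ) :=
  sym_of (fun _ _ hh => h.swap hh) fun _ _ hh => h.swap hh

/-- `(x₁, x₂) ↦ (c - x₁, x₂)` -/
def rf1 (c : ℤ) : Pt ≃ Pt := (Equiv.subLeft c).prodCongr (Equiv.refl ℤ)

/-- `(x₁, x₂) ↦ (x₁, c - x₂)` -/
def rf2 (c : ℤ) : Pt ≃ Pt := (Equiv.refl ℤ).prodCongr (Equiv.subLeft c)

@[simp] theorem rf1_apply (c : ℤ) (x : Pt) : rf1 c x = (c - x.1, x.2) := rfl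

@[simp] theorem rf2_apply (c : ℤ) (x : Pt) : rf2 c x = (x.1, c - x.2) := rfl

theorem Ok.sym_rf1 (h : Λ.Ok) (c : ℤ) : Λ.Sym (rf1 c) := fun x y => by
  have e : rf1 c y - rf1 c x = (-(y - x).1, (y - x).2) := Prod.ext (by simp) (by simp)
  rw [e]
  exact ⟨fun hh => by simpa only [neg_neg] using h.fl1 hh, h.fl1⟩

theorem Ok.sym_rf2 (h : Λ.Ok) (c : ℤ) : Λ.Sym (rf2 c) := fun x y => by
  have e : rf2 c y - rf2 c x = ((y - x).1, -(y - x).2) := Prod.ext (by simp) (by simp)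
  rw [e]
  exact ⟨fun hh => by simpa only [neg_neg] using h.fl2 hh, h.fl2⟩

theorem Sym.ori_Jp (hΛ : Λ.Ok) (h : Λ.Sym φ) {e : Pt × Pt} (he : e.2 - e.1 ∈ Λ.Jp) :
    (ori φ e).2 - (ori φ e).1 ∈ Λ.Jp := by
  rw [mem_Jp] at he
  have h1 := (h _ _).2 he.1
  show (oriF φ e).2 - (oriF φ e).1 ∈ _
  unfold oriF
  split_ifs with hc
  · exact mem_Jp.2 ⟨h1, hc.1 he.2⟩
  · rw [← neg_sub, mem_Jp, hΛ.neg_iff, posD_neg fun e => hΛ.zero_not_mem (e ▸ h1)]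
    exact ⟨h1, fun hh => hc ⟨fun _ => hh, fun _ => he.2⟩⟩

theorem Sym.ori_Jp_iff (hΛ : Λ.Ok) (h : Λ.Sym φ) {e : Pt × Pt} :
    (ori φ e).2 - (ori φ e).1 ∈ Λ.Jp ↔ e.2 - e.1 ∈ Λ.Jp :=
  ⟨fun he => by
    have := h.symm.ori_Jp hΛ he
    rwa [show ori φ.symm (ori φ e) = e from oriF_inv φ e] at this, h.ori_Jp hΛ⟩

theorem Sym.edT_map (hΛ : Λ.Ok) (h : Λ.Sym φ) (D : Finset Pt) :
    Λ.edT (D.map φ.toEmbedding) = (Λ.edT D).map (ori φ).toEmbedding := by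
  ext e
  obtain ⟨e, rfl⟩ := (ori φ).surjective e
  rw [mem_edT, h.ori_Jp_iff hΛ, mem_map_equiv (f := ori φ), Equiv.symm_apply_apply, mem_edT]
  rcases ori_cases φ e with h1 | h1 <;> rw [h1] <;> simp [or_comm]

theorem Sym.edI_map (hΛ : Λ.Ok) (h : Λ.Sym φ) (D : Finset Pt) :
    Λ.edI (D.map φ.toEmbedding) = (Λ.edI D).map (ori φ).toEmbedding := by
  ext e
  obtain ⟨e, rfl⟩ := (ori φ).surjective e
  rw [mem_edI, h.ori_Jp_iff hΛ, mem_map_equiv (f := ori φ), Equiv.symm_apply_apply, mem_edI]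
  rcases ori_cases φ e with h1 | h1 <;> rw [h1] <;> simp [and_comm]

theorem Sym.iso_D (hΛ : Λ.Ok) (h : Λ.Sym φ) (D : Finset Pt) :
    (Λ.D D).Iso (Λ.D (D.map φ.toEmbedding)) φ (ori φ) :=
  ⟨rfl, h.edT_map hΛ D, ori_cases φ, fun _ _ => rfl, fun _ _ => rfl⟩

theorem Sym.iso_N (hΛ : Λ.Ok) (h : Λ.Sym φ) (B : Finset Pt) :
    (Λ.N B).Iso (Λ.N (B.map φ.toEmbedding)) φ (ori φ) :=
  ⟨rfl, h.edI_map hΛ B, ori_cases φ, fun _ _ => rfl, fun _ _ => rfl⟩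

theorem Sym.iso_Nr (hΛ : Λ.Ok) (h : Λ.Sym φ) (B : Finset Pt) (r : Pt) :
    (Λ.Nr B r).Iso (Λ.Nr (B.map φ.toEmbedding) (φ r)) φ (ori φ) :=
  ⟨(map_erase φ.toEmbedding B r).symm, h.edI_map hΛ B, ori_cases φ, fun _ _ => rfl, fun _ _ => rfl⟩

end Lat

theorem map_sq_add (a t : Pt) (n : ℕ) :
    (sq a n).map (Equiv.addRight t).toEmbedding = sq (a + t) n := by
  ext x; rw [mem_map_equiv, mem_sq, mem_sq]; simp; omega

theorem map_bl_add (z t : Pt) (r : ℕ) :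
    (bl z r).map (Equiv.addRight t).toEmbedding = bl (z + t) r := by
  ext x; rw [mem_map_equiv, mem_bl, mem_bl]; simp; omega

theorem map_sq_swap (a : Pt) (n : ℕ) :
    (sq a n).map (Equiv.prodComm ℤ ℤ).toEmbedding = sq a.swap n := by
  ext x; rw [mem_map_equiv, mem_sq, mem_sq]; simp; omega

theorem map_bl_swap (a : Pt) (n : ℕ) :
    (bl a n).map (Equiv.prodComm ℤ ℤ).toEmbedding = bl a.swap n := by
  ext x; rw [mem_map_equiv, mem_bl, mem_bl]; simp; omega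

theorem map_sq_rf1 (a : Pt) (n : ℕ) :
    (sq a n).map (Lat.rf1 (2 * a.1 + n - 1)).toEmbedding = sq a n := by
  ext x; rw [mem_map_equiv, mem_sq, mem_sq]; simp [Lat.rf1]; omega

theorem map_sq_rf2 (a : Pt) (n : ℕ) :
    (sq a n).map (Lat.rf2 (2 * a.2 + n - 1)).toEmbedding = sq a n := by
  ext x; rw [mem_map_equiv, mem_sq, mem_sq]; simp [Lat.rf2]; omega

theorem map_bl_rf1 (a : Pt) (n : ℕ) : (bl a n).map (Lat.rf1 (2 * a.1)).toEmbedding = bl a n := by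
  ext x; rw [mem_map_equiv, mem_bl, mem_bl]; simp [Lat.rf1]; omega

theorem map_bl_rf2 (a : Pt) (n : ℕ) : (bl a n).map (Lat.rf2 (2 * a.2)).toEmbedding = bl a n := by
  ext x; rw [mem_map_equiv, mem_bl, mem_bl]; simp [Lat.rf2]; omega

end Crest.Agent.T145
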