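import Crest.Agent.T145.Def_97

/-!
# Row 145, T0: fibre (tower) lemma, DLR, cluster API, exploration, gauge / iso / root (helper73)
-/

set_option autoImplicit false

namespace Crest.Agent.T145

open Finset

namespace Md

theorem ind_pos {p : Prop} (h : p) : ind p = 1 := by simp [ind, h]
theorem ind_neg {p : Prop} (h : ¬ p) : ind p = 0 := by simp [ind, h]
theorem ind_iff {p q : Prop} (h : p ↔ q) : ind p = ind q := by rw [propext h]
theorem ind_nn (p : Prop) : 0 ≤ ind p := by unfold ind; split_ifs <;> norm_num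
theorem ind_le (p : Prop) : ind p ≤ 1 := by unfold ind; split_ifs <;> norm_num
theorem of_ind_ne {p : Prop} (h : ind p ≠ 0) : p := by
  by_contra hp; exact h (ind_neg hp)
theorem ind_and (p q : Prop) : ind (p ∧ q) = ind p * ind q := by
  by_cases hp : p <;> by_cases hq : q <;> simp [ind, hp, hq]

section fib
variable {α β : Type*}

theorem ex_cmul {W : α → ℝ} {c : ℝ} (hc : c ≠ 0) (F : α → ℝ) :
    Ex (fun a => c * W a) F = Ex W F := by
  unfold Ex
  simp_rw [mul_assoc]
  rw [tsum_mul_left, tsum_mul_left, mul_div_mul_left _ _ hc]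

theorem ex_congr {W F G : α → ℝ} (h : ∀ a, W a ≠ 0 → F a = G a) : Ex W F = Ex W G := by
  unfold Ex
  congr 1
  refine tsum_congr fun a => ?_
  by_cases ha : W a = 0
  · simp [ha]
  · rw [h a ha]

theorem ig_congr {W F G : α → ℝ} (h : ∀ a, W a ≠ 0 → F a = G a) : Ig W F ↔ Ig W G := by
  unfold Ig
  have : (fun a => W a * F a) = fun a => W a * G a := by
    funext a
    by_cases ha : W a = 0
    · simp [ha]
    · rw [h a ha]
  rw [this]

theorem ex_mul_const (W F : α → ℝ) (c : ℝ) : Ex W (fun a => c * F a) = c * Ex W F := by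
  unfold Ex
  have : ∀ a, W a * (c * F a) = c * (W a * F a) := fun a => by ring
  simp_rw [this]
  rw [tsum_mul_left, mul_div_assoc]

/-- transport along an equivalence -/
theorem zs_equiv (e : α ≃ β) (W : β → ℝ) : Zs (fun a => W (e a)) = Zs W := e.tsum_eq W

theorem ex_equiv (e : α ≃ β) (W F : β → ℝ) :
    Ex (fun a => W (e a)) (fun a => F (e a)) = Ex W F := by
  unfold Ex
  rw [e.tsum_eq (fun b => W b * F b), e.tsum_eq W]

theorem ig_equiv (e : α ≃ β) (W F : β → ℝ) :
    Ig (fun a => W (e a)) (fun a => F (e a)) ↔ Ig W F :=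
  e.summable_iff (f := fun b => W b * F b)

theorem wt_equiv (e : α ≃ β) (W : β → ℝ) : Wt (fun a => W (e a)) ↔ Wt W := by
  constructor
  · intro h
    refine ⟨fun b => ?_, e.summable_iff.1 h.summ, ?_⟩
    · simpa using h.nonneg (e.symm b)
    · rw [← zs_equiv e]; exact h.pos
  · intro h
    exact ⟨fun a => h.nonneg _, e.summable_iff.2 h.summ, by rw [zs_equiv e]; exact h.pos⟩

theorem tsum_fib (π : α → β) (u : α → ℝ) (b : β) :
    ∑' a : π ⁻¹' {b}, u a = ∑' a, ind (π a = b) * u a := by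
  rw [_root_.tsum_subtype]
  refine tsum_congr fun a => ?_
  by_cases h : π a = b
  · rw [Set.indicator_of_mem (by simpa using h), ind_pos h, one_mul]
  · rw [Set.indicator_of_notMem (by simpa using h), ind_neg h, zero_mul]

/-- fibre sums of a summable family -/
theorem hasSum_fib (π : α → β) {u : α → ℝ} (hu : Summable u) :
    HasSum (fun b => ∑' a, ind (π a = b) * u a) (∑' a, u a) := by
  have := hu.hasSum.tsum_fiberwise π
  simpa only [tsum_fib] using this

theorem summable_ind_mul (p : α → Prop) {u : α → ℝ} (hu : Summable u) :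
    Summable fun a => ind (p a) * u a := by
  refine Summable.of_norm_bounded hu.norm fun a => ?_
  rw [norm_mul, Real.norm_of_nonneg (ind_nn _)]
  exact mul_le_of_le_one_left (norm_nonneg _) (ind_le _)

/-- the tower property along the fibres of `π` -/
theorem tower {W F G : α → ℝ} (π : α → β) (h0 : ∀ a, 0 ≤ W a) (hs : Summable W) (hF : Ig W F)
    (hG : ∀ a, W a ≠ 0 → G a = Ex (fun a' => ind (π a' = π a) * W a') F) :
    Ig W G ∧ Ex W F = Ex W G := by
  set Z : β → ℝ := fun b => ∑' a, ind (π a = b) * W a with hZ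
  set S : β → ℝ := fun b => ∑' a, ind (π a = b) * (W a * F a) with hS
  have hG' : ∀ a, W a ≠ 0 → G a = S (π a) / Z (π a) := by
    intro a ha
    rw [hG a ha]; unfold Ex; simp only [hS, hZ, mul_assoc]
  have hSs : HasSum S (∑' a, W a * F a) := hasSum_fib π hF
  have hZ0 : ∀ b, 0 ≤ Z b := fun b => tsum_nonneg fun a => mul_nonneg (ind_nn _) (h0 a)
  have hSZ : ∀ b, Z b = 0 → S b = 0 := by
    intro b hb
    have h1 : ∀ a, ind (π a = b) * W a = 0 := by
      intro a
      have := (summable_ind_mul (fun a => π a = b) hs).le_tsum a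
        (fun a' _ => mul_nonneg (ind_nn _) (h0 a'))
      exact le_antisymm (this.trans hb.le) (mul_nonneg (ind_nn _) (h0 a))
    simp only [hS, ← mul_assoc, h1, zero_mul, tsum_zero]
  have hfib : ∀ (φ : ℝ → ℝ) (b : β), ∑' a, ind (π a = b) * (W a * φ (S (π a) / Z (π a))) =
      Z b * φ (S b / Z b) := by
    intro φ b
    simp only [hZ]
    rw [← tsum_mul_right]
    refine tsum_congr fun a => ?_
    by_cases h : π a = b
    · rw [h]; ring
    · rw [ind_neg h]; ring
  have hZS : ∀ b, Z b * (S b / Z b) = S b := by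
    intro b
    by_cases hb : Z b = 0
    · rw [hb, hSZ b hb]; simp
    · field_simp
  have hI : Summable fun a => W a * (S (π a) / Z (π a)) := by
    refine Summable.of_abs ?_
    have e1 : ∀ a, |W a * (S (π a) / Z (π a))| = W a * |S (π a) / Z (π a)| := fun a => by
      rw [abs_mul, abs_of_nonneg (h0 a)]
    simp_rw [e1]
    rw [summable_partition (s := fun b => π ⁻¹' {b})
      (fun a => mul_nonneg (h0 a) (abs_nonneg _)) (fun a => ⟨π a, rfl, fun b hb => hb.symm⟩)]
    constructor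
    · intro b
      refine ((hs.mul_right |S b / Z b|).subtype (π ⁻¹' {b})).congr fun a => ?_
      have : π a.1 = b := a.2
      simp only [Function.comp, this]
    · have : ∀ b, ∑' a : π ⁻¹' {b}, W a * |S (π a) / Z (π a)| = |S b| := by
        intro b
        rw [tsum_fib π (fun a => W a * |S (π a) / Z (π a)|), hfib (fun t => |t|) b]
        conv_rhs => rw [← hZS b, abs_mul, abs_of_nonneg (hZ0 b)]
      simp_rw [this]
      exact hSs.summable.abs
  have hI' : Ig W fun a => S (π a) / Z (π a) := hI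
  refine ⟨(ig_congr hG').2 hI', ?_⟩
  rw [ex_congr hG']
  unfold Ex
  congr 1
  have h2 := hasSum_fib π hI
  have : ∀ b, ∑' a, ind (π a = b) * (W a * (S (π a) / Z (π a))) = S b := fun b => by
    rw [hfib (fun t => t) b, hZS]
  simp_rw [this] at h2
  exact hSs.unique h2

end fib

section cfg
variable {V : Type*} [DecidableEq V]

theorem cst_apply (U : Finset V) (h : ℤ) (x : V) : cst U h x = if x ∈ U then h else 0 := by
  unfold cst
  rw [Finsupp.finsetSum_apply]
  simp only [Finsupp.single_apply]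
  rw [Finset.sum_ite_eq']

theorem cst_mem {U : Finset V} {x : V} (hx : x ∈ U) (h : ℤ) : cst U h x = h := by
  rw [cst_apply, if_pos hx]

theorem cst_not {U : Finset V} {x : V} (hx : x ∉ U) (h : ℤ) : cst U h x = 0 := by
  rw [cst_apply, if_neg hx]

theorem cst_neg (U : Finset V) (h : ℤ) : cst U (-h) = -cst U h := by
  ext x; simp only [cst_apply, Finsupp.neg_apply]; split_ifs <;> simp

theorem cst_add (U : Finset V) (h h' : ℤ) : cst U (h + h') = cst U h + cst U h' := by
  ext x; simp only [cst_apply, Finsupp.add_apply]; split_ifs <;> simp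

theorem cst_zero (U : Finset V) : cst U 0 = 0 := by
  ext x; simp [cst_apply]

theorem pw_apply (U : Finset V) (s t : Cfg V) (x : V) :
    pw U s t x = if x ∈ U then s x else t x := by
  unfold pw
  simp only [Finsupp.add_apply, Finsupp.filter_apply]
  by_cases h : x ∈ U <;> simp [h]

theorem pw_mem {U : Finset V} {x : V} (hx : x ∈ U) (s t : Cfg V) : pw U s t x = s x := by
  rw [pw_apply, if_pos hx]

theorem pw_not {U : Finset V} {x : V} (hx : x ∉ U) (s t : Cfg V) : pw U s t x = t x := by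
  rw [pw_apply, if_neg hx]

omit [DecidableEq V] in
theorem dE_add (e : V × V) (s t : Cfg V) : dE e (s + t) = dE e s + dE e t := by
  simp only [dE, Finsupp.add_apply]; ring

omit [DecidableEq V] in
theorem dE_zero (e : V × V) : dE e (0 : Cfg V) = 0 := by simp [dE]

omit [DecidableEq V] in
theorem dE_congr {e : V × V} {s t : Cfg V} (h1 : s e.1 = t e.1) (h2 : s e.2 = t e.2) :
    dE e s = dE e t := by simp only [dE, h1, h2]

theorem filter_not_eq_iff (U : Finset V) (s t : Cfg V) :
    s.filter (· ∉ U) = t.filter (· ∉ U) ↔ ∀ x, x ∉ U → s x = t x := by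
  constructor
  · intro h x hx
    have := DFunLike.congr_fun h x
    simpa [Finsupp.filter_apply, hx] using this
  · intro h; ext x
    by_cases hx : x ∈ U
    · simp [hx]
    · simp [hx, h x hx]

theorem filter_mem_eq_iff (U : Finset V) (s t : Cfg V) :
    s.filter (· ∈ U) = t.filter (· ∈ U) ↔ ∀ x, x ∈ U → s x = t x := by
  constructor
  · intro h x hx
    have := DFunLike.congr_fun h x
    simpa [Finsupp.filter_apply, hx] using this
  · intro h; ext x
    by_cases hx : x ∈ U
    · simp [hx, h x hx]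
    · simp [hx]

omit [DecidableEq V] in
theorem W_off {m : Mdl V} {η s : Cfg V} (h : m.W η s ≠ 0) : ∀ x, x ∉ m.A → s x = η x :=
  of_ind_ne (left_ne_zero_of_mul (left_ne_zero_of_mul h))

theorem J_off {m : Mdl V} {h : ℤ} {η : Cfg V} {p : Cfg V × Finset (V × V)} (hp : m.J h η p ≠ 0) :
    ∀ x, x ∉ m.A → p.1 x = η x :=
  of_ind_ne (left_ne_zero_of_mul (left_ne_zero_of_mul (left_ne_zero_of_mul hp)))

theorem J_sub {m : Mdl V} {h : ℤ} {η : Cfg V} {p : Cfg V × Finset (V × V)} (hp : m.J h η p ≠ 0) :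
    p.2 ⊆ m.ed :=
  of_ind_ne (right_ne_zero_of_mul (left_ne_zero_of_mul (left_ne_zero_of_mul hp)))

omit [DecidableEq V] in
theorem W_eq_Ws (m : Mdl V) (η s : Cfg V) : m.W η s = m.Ws η 0 s := by
  simp [Mdl.W, Mdl.Ws]

/-- pinning more sites = conditioning (`t = η` off `A`) -/
theorem W_free {m : Mdl V} {A' : Finset V} (hA : A' ⊆ m.A) {η t : Cfg V}
    (ht : ∀ x, x ∉ m.A → t x = η x) (s : Cfg V) :
    ind (∀ x, x ∉ A' → s x = t x) * m.W η s =
      (∏ x ∈ m.A \ A', m.site x (t x)) * (m.free A').W t s := by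
  by_cases h : ∀ x, x ∉ A' → s x = t x
  · have h2 : ∀ x, x ∉ m.A → s x = η x := fun x hx => by
      rw [h x fun hx' => hx (hA hx'), ht x hx]
    simp only [Mdl.W, Mdl.free]
    rw [ind_pos h, ind_pos h2, ← Finset.prod_sdiff hA]
    have : ∏ x ∈ m.A \ A', m.site x (s x) = ∏ x ∈ m.A \ A', m.site x (t x) :=
      Finset.prod_congr rfl fun x hx => by rw [h x (Finset.mem_sdiff.1 hx).2]
    rw [this]; ring
  · simp only [Mdl.W, Mdl.free]
    rw [ind_neg h]; ring

theorem Ws_free {m : Mdl V} {A' : Finset V} (hA : A' ⊆ m.A) {η t : Cfg V}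
    (ht : ∀ x, x ∉ m.A → t x = η x) (σ : V × V → ℤ) (s : Cfg V) :
    ind (∀ x, x ∉ A' → s x = t x) * m.Ws η σ s =
      (∏ x ∈ m.A \ A', m.site x (t x)) * (m.free A').Ws t σ s := by
  by_cases h : ∀ x, x ∉ A' → s x = t x
  · have h2 : ∀ x, x ∉ m.A → s x = η x := fun x hx => by
      rw [h x fun hx' => hx (hA hx'), ht x hx]
    simp only [Mdl.Ws, Mdl.free]
    rw [ind_pos h, ind_pos h2, ← Finset.prod_sdiff hA]
    have : ∏ x ∈ m.A \ A', m.site x (s x) = ∏ x ∈ m.A \ A', m.site x (t x) :=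
      Finset.prod_congr rfl fun x hx => by rw [h x (Finset.mem_sdiff.1 hx).2]
    rw [this]; ring
  · simp only [Mdl.Ws, Mdl.free]
    rw [ind_neg h]; ring

theorem site_ne {m : Mdl V} {A' : Finset V} (hA : A' ⊆ m.A) {s : Cfg V}
    (h : ∏ x ∈ m.A, m.site x (s x) ≠ 0) : ∏ x ∈ m.A \ A', m.site x (s x) ≠ 0 := by
  rw [← Finset.prod_sdiff hA] at h
  exact left_ne_zero_of_mul h

/-- the conditional expectation given the heights off `A'` -/
theorem cond_free {m : Mdl V} {A' : Finset V} (hA : A' ⊆ m.A) {η t : Cfg V} (ht : m.W η t ≠ 0)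
    (F : Cfg V → ℝ) :
    Ex ((m.free A').W t) F = Ex (fun s => ind (∀ x, x ∉ A' → s x = t x) * m.W η s) F := by
  simp_rw [W_free hA (W_off ht)]
  rw [ex_cmul (site_ne hA (right_ne_zero_of_mul ht))]

/-- DLR -/
theorem dlr (m : Mdl V) (η : Cfg V) {A' : Finset V} {F : Cfg V → ℝ} (hA : A' ⊆ m.A)
    (hW : Wt (m.W η)) (hF : Ig (m.W η) F) :
    Ig (m.W η) (fun s => Ex ((m.free A').W s) F) ∧
      Ex (m.W η) F = Ex (m.W η) fun s => Ex ((m.free A').W s) F := by
  refine tower (fun s : Cfg V => s.filter (· ∉ A')) hW.nonneg hW.summ hF fun t ht => ?_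
  rw [cond_free hA ht]
  simp_rw [filter_not_eq_iff]

/-- DLR with a factor `H` depending only on the heights off `A'` -/
theorem dlr_mul (m : Mdl V) (η : Cfg V) {A' : Finset V} {F H : Cfg V → ℝ} (hA : A' ⊆ m.A)
    (hW : Wt (m.W η)) (hH : ∀ s t : Cfg V, (∀ x, x ∉ A' → s x = t x) → H s = H t)
    (hF : Ig (m.W η) fun s => H s * F s) :
    Ig (m.W η) (fun s => H s * Ex ((m.free A').W s) F) ∧
      Ex (m.W η) (fun s => H s * F s) = Ex (m.W η) fun s => H s * Ex ((m.free A').W s) F := by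
  have h := dlr m η hA hW hF
  have e : ∀ s, Ex ((m.free A').W s) (fun t => H t * F t) = H s * Ex ((m.free A').W s) F := by
    intro s
    rw [← ex_mul_const]
    exact ex_congr fun t ht => by rw [hH t s (W_off ht)]
  simpa only [e] using h

/-- DLR with a seam -/
theorem dlrs (m : Mdl V) (η : Cfg V) (σ : V × V → ℤ) {A' : Finset V} {F : Cfg V → ℝ}
    (hA : A' ⊆ m.A) (hW : Wt (m.Ws η σ)) (hF : Ig (m.Ws η σ) F) :
    Ig (m.Ws η σ) (fun s => Ex ((m.free A').Ws s σ) F) ∧
      Ex (m.Ws η σ) F = Ex (m.Ws η σ) fun s => Ex ((m.free A').Ws s σ) F := by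
  refine tower (fun s : Cfg V => s.filter (· ∉ A')) hW.nonneg hW.summ hF fun t ht => ?_
  simp_rw [filter_not_eq_iff]
  have h1 : ∀ x, x ∉ m.A → t x = η x := of_ind_ne (left_ne_zero_of_mul (left_ne_zero_of_mul ht))
  simp_rw [Ws_free hA h1]
  rw [ex_cmul (site_ne hA (right_ne_zero_of_mul ht))]

end cfg

/-! ## clusters -/
section clu
variable {V : Type*} [DecidableEq V]

omit [DecidableEq V] in
theorem conn_refl (ω : Finset (V × V)) (x : V) : Conn ω x x := Relation.ReflTransGen.refl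

omit [DecidableEq V] in
theorem conn_trans {ω : Finset (V × V)} {x y z : V} (h : Conn ω x y) (h' : Conn ω y z) :
    Conn ω x z := Relation.ReflTransGen.trans h h'

omit [DecidableEq V] in
theorem conn_symm {ω : Finset (V × V)} {x y : V} (h : Conn ω x y) : Conn ω y x := by
  induction h with
  | refl => exact Relation.ReflTransGen.refl
  | tail _ h2 ih => exact Relation.ReflTransGen.head h2.symm ih

omit [DecidableEq V] in
theorem conn_mono {ω ω' : Finset (V × V)} (hω : ω ⊆ ω') {x y : V} (h : Conn ω x y) :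
    Conn ω' x y := by
  induction h with
  | refl => exact Relation.ReflTransGen.refl
  | tail _ h2 ih => exact Relation.ReflTransGen.tail ih (h2.imp (fun h => hω h) fun h => hω h)

omit [DecidableEq V] in
theorem conn_edge {ω : Finset (V × V)} {e : V × V} (he : e ∈ ω) : Conn ω e.1 e.2 :=
  Relation.ReflTransGen.single (Or.inl he)

omit [DecidableEq V] in
/-- a set closed under the bonds contains everything connected to it -/
theorem conn_ind {ω : Finset (V × V)} {P : V → Prop} (hP : ∀ e ∈ ω, P e.1 ↔ P e.2) {x y : V}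
    (h : Conn ω x y) (hx : P x) : P y := by
  induction h with
  | refl => exact hx
  | tail _ h2 ih =>
    rcases h2 with h2 | h2
    · exact (hP _ h2).1 ih
    · exact (hP _ h2).2 ih

theorem mem_cl {S : Finset V} {ω : Finset (V × V)} {y : V} :
    y ∈ cl S ω ↔ ∃ x ∈ S, Conn ω x y := by
  classical
  unfold cl
  rw [Finset.mem_filter]
  refine ⟨fun h => h.2, fun h => ⟨?_, h⟩⟩
  obtain ⟨x, hx, hc⟩ := h
  simp only [Finset.mem_union, Finset.mem_image]
  rcases Relation.ReflTransGen.cases_tail hc with h | ⟨z, -, h | h⟩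
  · exact Or.inl (Or.inl (h ▸ hx))
  · exact Or.inr ⟨_, h, rfl⟩
  · exact Or.inl (Or.inr ⟨_, h, rfl⟩)

theorem subset_cl (S : Finset V) (ω : Finset (V × V)) : S ⊆ cl S ω :=
  fun x hx => mem_cl.2 ⟨x, hx, conn_refl _ _⟩

theorem cl_mono {S S' : Finset V} {ω ω' : Finset (V × V)} (hS : S ⊆ S') (hω : ω ⊆ ω') :
    cl S ω ⊆ cl S' ω' := fun _ hy =>
  let ⟨x, hx, h⟩ := mem_cl.1 hy
  mem_cl.2 ⟨x, hS hx, conn_mono hω h⟩

theorem cl_conn {S : Finset V} {ω : Finset (V × V)} {x y : V} (hx : x ∈ cl S ω)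
    (h : Conn ω x y) : y ∈ cl S ω :=
  let ⟨z, hz, h'⟩ := mem_cl.1 hx
  mem_cl.2 ⟨z, hz, conn_trans h' h⟩

theorem cl_closed {S : Finset V} {ω : Finset (V × V)} {e : V × V} (he : e ∈ ω) :
    e.1 ∈ cl S ω ↔ e.2 ∈ cl S ω :=
  ⟨fun h => cl_conn h (conn_edge he), fun h => cl_conn h (conn_symm (conn_edge he))⟩

theorem cl_subset {S C : Finset V} {ω : Finset (V × V)} (hS : S ⊆ C)
    (hC : ∀ e ∈ ω, e.1 ∈ C ↔ e.2 ∈ C) : cl S ω ⊆ C := fun _ hy =>
  let ⟨_, hx, h⟩ := mem_cl.1 hy
  conn_ind (P := fun v => v ∈ C) hC h (hS hx)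

theorem cl_union (S S' : Finset V) (ω : Finset (V × V)) :
    cl (S ∪ S') ω = cl S ω ∪ cl S' ω := by
  ext y
  simp only [mem_cl, Finset.mem_union, or_and_right, exists_or]

theorem cl_cl (S : Finset V) (ω : Finset (V × V)) : cl (cl S ω) ω = cl S ω :=
  Finset.Subset.antisymm (cl_subset le_rfl fun _ he => cl_closed he) (subset_cl _ _)

theorem cl_empty (S : Finset V) : cl S ∅ = S :=
  Finset.Subset.antisymm (cl_subset le_rfl fun _ he => absurd he (Finset.notMem_empty _))
    (subset_cl _ _)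

theorem mem_inn {C : Finset V} {ω : Finset (V × V)} {e : V × V} :
    e ∈ inn C ω ↔ e ∈ ω ∧ e.1 ∈ C ∧ e.2 ∈ C := Finset.mem_filter

theorem inn_subset (C : Finset V) (ω : Finset (V × V)) : inn C ω ⊆ ω := Finset.filter_subset _ _

theorem inn_mono {C C' : Finset V} {ω ω' : Finset (V × V)} (hC : C ⊆ C') (hω : ω ⊆ ω') :
    inn C ω ⊆ inn C' ω' := fun _ he =>
  let ⟨h, h1, h2⟩ := mem_inn.1 he
  mem_inn.2 ⟨hω h, hC h1, hC h2⟩

/-- the cluster is the cluster of its inner bonds -/
theorem cl_inn (S : Finset V) (ω : Finset (V × V)) : cl S (inn (cl S ω) ω) = cl S ω := by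
  refine Finset.Subset.antisymm (cl_mono le_rfl (inn_subset _ _)) fun y hy => ?_
  obtain ⟨x, hx, h⟩ := mem_cl.1 hy
  clear hy
  induction h with
  | refl => exact subset_cl _ _ hx
  | tail h1 h2 ih =>
    have hb := mem_cl.2 ⟨x, hx, h1⟩
    rcases h2 with h2 | h2
    · exact (cl_closed (mem_inn.2 ⟨h2, hb, (cl_closed h2).1 hb⟩)).1 ih
    · exact (cl_closed (mem_inn.2 ⟨h2, (cl_closed h2).2 hb, hb⟩)).2 ih

/-- the bonds away from the cluster do not matter -/
theorem cl_union_inn {S : Finset V} {ω ω' : Finset (V × V)}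
    (h : ∀ e ∈ ω', e.1 ∉ cl S ω ∧ e.2 ∉ cl S ω) : cl S (ω' ∪ inn (cl S ω) ω) = cl S ω := by
  refine Finset.Subset.antisymm (cl_subset (subset_cl _ _) fun e he => ?_) ?_
  · rcases Finset.mem_union.1 he with he | he
    · exact iff_of_false (h e he).1 (h e he).2
    · exact iff_of_true (mem_inn.1 he).2.1 (mem_inn.1 he).2.2
  · conv_lhs => rw [← cl_inn S ω]
    exact cl_mono le_rfl Finset.subset_union_right

end clu

end Md

theorem dlrStmt : DlrStmt := fun _ _ m η _ _ hA hW hF => Md.dlr m η hA hW hF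

end Crest.Agent.T145
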