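import Crest.Agent.T145.Api_98
import Crest.Agent.T145.MdlA_73

/-!
# Row 145, T0 toolbox (helper7): `cutStmt : CutStmt`, `bareStmt : BareStmt`

`Cut7.dens`: if `W = H · (ρ ∘ π)` with `H ≥ 0` PD then the law of `π` has the PD density `push H π`
with respect to `ρ`.
-/

set_option autoImplicit false

namespace Crest.Agent.T145

open Finset

namespace Cut7

section grp
variable {L L' : Type} [AddCommGroup L] [AddCommGroup L']

theorem pd_one (hPD : PDStmt) : PD fun _ : L => (1 : ℝ) := by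
  simpa using (hPD L L).2.2.1 0

theorem pd_mul (hPD : PDStmt) {G G' : L → ℝ} (h : PD G) (h' : PD G') : PD fun s => G s * G' s :=
  (hPD L L).1 G G' h h'

theorem pd_comp (hPD : PDStmt) {G : L' → ℝ} (h : PD G) (φ : L →+ L') : PD fun s => G (φ s) :=
  (hPD L L').2.1 G φ h

theorem pd_prod (hPD : PDStmt) {ι : Type*} (T : Finset ι) {G : ι → L → ℝ} (h : ∀ i ∈ T, PD (G i)) :
    PD fun s => ∏ i ∈ T, G i s := by
  classical
  induction T using Finset.induction_on with
  | empty => simpa using pd_one hPD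
  | insert a T ha ih =>
    simp only [prod_insert ha]
    exact pd_mul hPD (h a (mem_insert_self _ _)) (ih fun i hi => h i (mem_insert_of_mem hi))

theorem rsd_one (hR : RSDStmt) : RSD fun _ : L => (1 : ℝ) := by
  simpa using (hR L L).2.2.1 0

theorem rsd_prod (hR : RSDStmt) {ι : Type*} (T : Finset ι) {G : ι → L → ℝ}
    (h : ∀ i ∈ T, RSD (G i)) : RSD fun s => ∏ i ∈ T, G i s := by
  classical
  induction T using Finset.induction_on with
  | empty => simpa using rsd_one hR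
  | insert a T ha ih =>
    simp only [prod_insert ha]
    exact (hR L L).1 _ _ (h a (mem_insert_self _ _)) (ih fun i hi => h i (mem_insert_of_mem hi))

theorem se_summable {ρ : L → ℝ} (h : SE ρ) : Summable ρ := by simpa using h 0

theorem cen_wt {ρ : L → ℝ} (h : Cen ρ) : Wt ρ := Wt.of_pos h.nonneg (se_summable h.se) h.pos0

/-- the law of `π` under `W = H · (ρ ∘ π)` -/
theorem dens_hasSum {α β : Type*} (π : α → β) {ρ : β → ℝ} {H W : α → ℝ}
    (hW : ∀ s, W s = H s * ρ (π s)) {F : β → ℝ} (hF : Ig W fun s => F (π s)) :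
    HasSum (fun t => ρ t * push H π t * F t) (∑' s, W s * F (π s)) := by
  convert Md.hasSum_fib π hF using 2 with t
  rw [push, ← tsum_mul_left, ← tsum_mul_right]
  refine tsum_congr fun s => ?_
  by_cases h : π s = t
  · subst h; rw [hW]; ring
  · rw [ind_neg h]; ring

theorem dens_ex {α β : Type*} (π : α → β) {ρ : β → ℝ} {H W : α → ℝ}
    (hW : ∀ s, W s = H s * ρ (π s)) (hs : Summable W) {F : β → ℝ} (hF : Ig W fun s => F (π s)) :
    Ig (fun t => ρ t * push H π t) F ∧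
      Ex W (fun s => F (π s)) = Ex (fun t => ρ t * push H π t) F := by
  refine ⟨(dens_hasSum π hW hF).summable, ?_⟩
  have h1 := (dens_hasSum π hW (F := fun _ => 1) (Ig.const hs 1)).tsum_eq
  simp only [mul_one] at h1
  rw [Ex, Ex, (dens_hasSum π hW hF).tsum_eq, h1]

theorem dens_slice {α β : Type*} (π : α → β) {ρ : β → ℝ} {H W : α → ℝ}
    (hρ : ∀ s, ρ (π s) ≠ 0) (hW : ∀ s, W s = H s * ρ (π s)) (hs : Summable W) (t : β) :
    Summable fun s => ind (π s = t) * H s := by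
  refine ((Md.summable_ind_mul (fun s => π s = t) hs).mul_right (ρ t)⁻¹).congr fun s => ?_
  by_cases h : π s = t
  · rw [hW, ← h, mul_assoc, mul_assoc, mul_inv_cancel₀ (hρ s), mul_one]
  · rw [ind_neg h]; ring

theorem dens (hPD : PDStmt) (π : L →+ L') {ρ : L' → ℝ} {H W : L → ℝ} (hH : PD H)
    (h0 : ∀ s, 0 ≤ H s) (hp : 0 < H 0) (hρ : ∀ s, ρ (π s) ≠ 0) (hW : ∀ s, W s = H s * ρ (π s))
    (hs : Summable W) :
    PD (push H π) ∧ (∀ t, 0 ≤ push H π t) ∧ 0 < push H π 0 := by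
  have hsl := dens_slice π hρ hW hs
  have hn : ∀ t s, 0 ≤ ind (π s = t) * H s := fun t s => mul_nonneg (ind_nonneg _) (h0 s)
  refine ⟨?_, fun t => tsum_nonneg (hn t), (hsl 0).tsum_pos (hn 0) 0 ?_⟩
  · have h1 := pd_mul hPD ((hPD (L × L') L').2.2.1 (π.comp (AddMonoidHom.fst L L') -
      AddMonoidHom.snd L L')) (pd_comp hPD hH (AddMonoidHom.fst L L'))
    simp only [AddMonoidHom.sub_apply, AddMonoidHom.comp_apply, AddMonoidHom.coe_fst,
      AddMonoidHom.coe_snd, sub_eq_zero] at h1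
    exact (hPD L L').2.2.2.2.2.2 _ h1 hsl
  · rw [ind_pos (map_zero π), one_mul]; exact hp

end grp

section mdl
variable {V : Type} [DecidableEq V]

/-- gradient along an edge as a homomorphism -/
noncomputable def dH (e : V × V) : Cfg V →+ ℤ := Finsupp.applyAddHom e.2 - Finsupp.applyAddHom e.1

omit [DecidableEq V] in
@[simp] theorem dH_apply (e : V × V) (s : Cfg V) : dH e s = dE e s := rfl

theorem pd_off (hPD : PDStmt) (A : Finset V) : PD fun s : Cfg V => ind (∀ x, x ∉ A → s x = 0) := by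
  have h := (hPD (Cfg V) (Cfg V)).2.2.1 (Finsupp.filterAddHom (· ∉ A))
  have e : ∀ s : Cfg V, Finsupp.filterAddHom (· ∉ A) s = 0 ↔ ∀ x, x ∉ A → s x = 0 := fun s =>
    Finsupp.filter_eq_zero_iff _ _
  simpa only [e] using h

/-- the part of the weight that does not come from the edges of `E` -/
noncomputable def rem (m : Mdl V) (E : Finset (V × V)) (s : Cfg V) : ℝ :=
  ind (∀ x, x ∉ m.A → s x = 0) * (∏ e ∈ m.ed \ E, m.w e (dE e s)) * ∏ x ∈ m.A, m.site x (s x)

theorem W_eq {m : Mdl V} {E : Finset (V × V)} (hE : E ⊆ m.ed) (s : Cfg V) :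
    m.W 0 s = rem m E s * ∏ e ∈ E, m.w e (dE e s) := by
  simp only [Mdl.W, rem, Finsupp.coe_zero, Pi.zero_apply]
  rw [← prod_sdiff hE]; ring

omit [DecidableEq V] in
theorem w_pos (hK : KerStmt) {m : Mdl V} (hm : m.Fm) {e : V × V} (he : e ∈ m.ed) (k : ℤ) :
    0 < m.w e k := (hK _ (hm e he)).lc.1 k

omit [DecidableEq V] in
theorem pd_edges (hPD : PDStmt) (hK : KerStmt) {m : Mdl V} (hm : m.Fm) {E : Finset (V × V)}
    (hE : E ⊆ m.ed) : PD fun s : Cfg V => ∏ e ∈ E, m.w e (dE e s) :=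
  pd_prod hPD _ fun e he => pd_comp hPD (hK _ (hm e (hE he))).pd (dH e)

theorem rem_pd (hPD : PDStmt) (hK : KerStmt) {m : Mdl V} (hm : m.Ctr) (E : Finset (V × V)) :
    PD (rem m E) ∧ (∀ s, 0 ≤ rem m E s) ∧ 0 < rem m E 0 := by
  refine ⟨pd_mul hPD (pd_mul hPD (pd_off hPD m.A) (pd_edges hPD hK hm.1 sdiff_subset))
    (pd_prod hPD _ fun x hx => pd_comp hPD (hm.2 x hx).2.1 (Finsupp.applyAddHom x)),
    fun s => mul_nonneg (mul_nonneg (ind_nonneg _)
      (prod_nonneg fun e he => (w_pos hK hm.1 (sdiff_subset he) _).le))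
      (prod_nonneg fun x hx => (hm.2 x hx).1.nonneg _), ?_⟩
  rw [rem, ind_pos (p := ∀ x, x ∉ m.A → (0 : Cfg V) x = 0) fun _ _ => rfl, one_mul]
  exact mul_pos (prod_pos fun e he => w_pos hK hm.1 (sdiff_subset he) _)
    (prod_pos fun x hx => (hm.2 x hx).2.2)

variable {ι : Type*} {I : Finset ι} {B : ι → Finset V} {r : ι → V}

theorem prj_apply (I : Finset ι) (B : ι → Finset V) (r : ι → V) (s : Cfg V) (x : V) :
    prj I B r s x = ∑ i ∈ I, if x ∈ B i then s x - s (r i) else 0 := by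
  rw [prj, Finsupp.finsetSum_apply]
  refine sum_congr rfl fun i _ => ?_
  rw [Finsupp.sub_apply, Finsupp.filter_apply, Md.cst_apply]
  split_ifs <;> simp

theorem prj_mem (hB : ∀ i ∈ I, ∀ j ∈ I, i ≠ j → Disjoint (B i) (B j)) {i : ι} (hi : i ∈ I) {x : V}
    (hx : x ∈ B i) (s : Cfg V) : prj I B r s x = s x - s (r i) := by
  rw [prj_apply, sum_eq_single_of_mem i hi, if_pos hx]
  intro j hj hji
  exact if_neg fun h => disjoint_left.1 (hB j hj i hi hji) h hx

theorem prj_not {x : V} (hx : ∀ i ∈ I, x ∉ B i) (s : Cfg V) : prj I B r s x = 0 := by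
  rw [prj_apply]
  exact sum_eq_zero fun i hi => if_neg (hx i hi)

/-- the projection as a homomorphism -/
noncomputable def prjH (I : Finset ι) (B : ι → Finset V) (r : ι → V) : Cfg V →+ Cfg V :=
  AddMonoidHom.mk' (prj I B r) fun s t => by
    ext x
    simp only [prj_apply, Finsupp.add_apply, ← sum_add_distrib]
    refine sum_congr rfl fun i _ => ?_
    split_ifs <;> ring

@[simp] theorem prjH_apply (s : Cfg V) : prjH I B r s = prj I B r s := rfl

theorem ncut_sub (m : Mdl V) : (m.ncut I B r).ed ⊆ m.ed :=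
  biUnion_subset.2 fun _ _ => Md.inn_subset _ _

theorem prj_off (hB : ∀ i ∈ I, ∀ j ∈ I, i ≠ j → Disjoint (B i) (B j)) (m : Mdl V) (s : Cfg V)
    (x : V) (hx : x ∉ (m.ncut I B r).A) : prj I B r s x = 0 := by
  by_cases h : ∃ i ∈ I, x ∈ B i
  · obtain ⟨i, hi, h⟩ := h
    have : x = r i := by
      by_contra hne
      exact hx (mem_biUnion.2 ⟨i, hi, mem_erase.2 ⟨hne, h⟩⟩)
    rw [prj_mem hB hi h, this, sub_self]
  · exact prj_not (fun i hi hx => h ⟨i, hi, hx⟩) s

theorem ncut_W (hB : ∀ i ∈ I, ∀ j ∈ I, i ≠ j → Disjoint (B i) (B j)) (m : Mdl V) (s : Cfg V) :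
    (m.ncut I B r).W 0 (prj I B r s) = ∏ e ∈ (m.ncut I B r).ed, m.w e (dE e s) := by
  rw [Mdl.W, ind_pos (p := ∀ x, x ∉ (m.ncut I B r).A → prj I B r s x = (0 : Cfg V) x)
    (prj_off hB m s), one_mul]
  change (∏ e ∈ _, m.w e _) * ∏ _x ∈ _, (1 : ℝ) = _
  rw [prod_const_one, mul_one]
  refine prod_congr rfl fun e he => ?_
  obtain ⟨i, hi, he⟩ := mem_biUnion.1 he
  obtain ⟨-, h1, h2⟩ := Md.mem_inn.1 he
  rw [dE, dE, prj_mem hB hi h1, prj_mem hB hi h2, sub_sub_sub_cancel_right]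

end mdl

theorem hs_fin {α : Type} (n : ℕ) : ∀ {g : Fin n → α → ℝ}, (∀ i, Summable (g i)) →
    HasSum (fun k : Fin n → α => ∏ i, g i (k i)) (∏ i, ∑' a, g i a) := by
  induction n with
  | zero =>
    intro g _
    simp only [univ_eq_empty, prod_empty]
    exact hasSum_unique fun _ : Fin 0 → α => (1 : ℝ)
  | succ n ih =>
    intro g h
    have h1 : HasSum (fun k : Fin n → α => ∏ i : Fin n, g i.succ (k i)) (∏ i : Fin n, ∑' a, g i.succ a) :=
      ih (g := fun i => g i.succ) fun i => h i.succ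
    have h3 : Summable fun x : α × (Fin n → α) => g 0 x.1 * ∏ i : Fin n, g i.succ (x.2 i) :=
      summable_mul_of_summable_norm (f := g 0) (g := fun k : Fin n → α => ∏ i : Fin n, g i.succ (k i))
        (h 0).norm h1.summable.norm
    have h2 := (h 0).hasSum.mul h1 h3
    refine (Fin.consEquiv fun _ => α).hasSum_iff.1 ?_
    have e : (fun k : Fin (n + 1) → α => ∏ i, g i (k i)) ∘ (Fin.consEquiv fun _ => α) =
        fun x : α × (Fin n → α) => g 0 x.1 * ∏ i : Fin n, g i.succ (x.2 i) := by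
      funext k
      simp only [Function.comp_apply, Fin.prod_univ_succ]
      rfl
    rw [e, Fin.prod_univ_succ]
    exact h2

theorem hs_eq {ι κ : Type} [Fintype ι] [Fintype κ] (e : ι ≃ κ) {α : Type} {g : κ → α → ℝ} {c : ℝ}
   (h1 : HasSum (fun k : ι → α => ∏ i, g (e i) (k i)) c) :
    HasSum (fun k : κ → α => ∏ i, g i (k i)) c := by
  refine (Equiv.arrowCongr e (Equiv.refl α)).hasSum_iff.1 ?_
  have e' : (fun k : κ → α => ∏ i, g i (k i)) ∘ (Equiv.arrowCongr e (Equiv.refl α)) =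
      fun k : ι → α => ∏ i, g (e i) (k i) := by
    funext k
    simp only [Function.comp_apply]
    rw [← e.prod_comp]
    simp
  rw [e']
  exact h1

/-- independent coordinates -/
theorem hasSum_pi {ι : Type} [Fintype ι] {α : Type} {g : ι → α → ℝ} (h : ∀ i, Summable (g i)) :
    HasSum (fun k : ι → α => ∏ i, g i (k i)) (∏ i, ∑' a, g i a) := by
  have h1 := hs_fin _ (g := fun i => g ((Fintype.equivFin ι).symm i)) fun i => h _
  rw [(Fintype.equivFin ι).symm.prod_comp fun i => ∑' a, g i a] at h1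
  exact hs_eq _ h1

/-- a real character of `ℤ^ι` -/
theorem hom_pi {ι : Type} [Fintype ι] [DecidableEq ι] (f : (ι → ℤ) →+ ℝ) (k : ι → ℤ) :
    f k = ∑ i, f (Pi.single i 1) * k i := by
  conv_lhs => rw [← univ_sum_single k, map_sum]
  refine sum_congr rfl fun i _ => ?_
  rw [mul_comm, ← zsmul_eq_mul, ← map_zsmul, ← Pi.single_smul, smul_eq_mul, mul_one]

theorem se_int {w : ℤ → ℝ} (h : SE w) (a : ℝ) : Summable fun k : ℤ => w k * Real.exp (a * k) :=
  h ((AddMonoidHom.mulLeft a).comp (Int.castAddHom ℝ))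

theorem cen_pi (hR : RSDStmt) {ι : Type} [Fintype ι] {w : ι → ℤ → ℝ} (h : ∀ i, Cen (w i)) :
    Cen fun k : ι → ℤ => ∏ i, w i (k i) := by
  classical
  refine ⟨rsd_prod hR _ fun i _ =>
    (hR (ι → ℤ) ℤ).2.1 _ (Pi.evalAddMonoidHom (fun _ => ℤ) i) (h i).toRSD,
    prod_pos fun i _ => (h i).pos0, fun f => ?_⟩
  refine (hasSum_pi fun i => se_int (h i).se (f (Pi.single i 1))).summable.congr fun k => ?_
  rw [hom_pi f k, Real.exp_sum, prod_mul_distrib]

end Cut7

open Cut7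

/-- N-cut with zero modes -/
theorem cutStmt (hPD : PDStmt) (hK : KerStmt) (hM : MdlStmt) : CutStmt := by
  intro V ι _ m I B r hc ha _ hB
  obtain ⟨h1, h2, h3⟩ := rem_pd hPD hK hc (m.ncut I B r).ed
  have hs := se_summable ((hM V m).2.2 hc ha).se
  have hW : ∀ s, m.W 0 s = rem m (m.ncut I B r).ed s * (m.ncut I B r).W 0 (prjH I B r s) :=
    fun s => by rw [prjH_apply, ncut_W hB, ← W_eq (ncut_sub m)]
  obtain ⟨h4, h5, h6⟩ := dens hPD (prjH I B r) h1 h2 h3 (fun s => by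
    rw [prjH_apply, ncut_W hB]
    exact (prod_pos fun e he => w_pos hK hc.1 (ncut_sub m he) _).ne') hW hs
  exact ⟨_, h4, h5, h6, fun F hF => dens_ex (prjH I B r) hW hs hF⟩

/-- BARE bound -/
theorem bareStmt (hPD : PDStmt) (hR : RSDStmt) (hK : KerStmt) (hM : MdlStmt) (hMo : MonoStmt) :
    BareStmt := by
  intro V _ m φ f hc ha hf
  obtain ⟨h1, h2, h3⟩ := rem_pd hPD hK hc m.ed
  have hC := (hM V m).2.2 hc ha
  have hs := se_summable hC.se
  let π : Cfg V →+ (m.ed → ℤ) := AddMonoidHom.pi fun e => dH e.1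
  let ξ : (m.ed → ℤ) →+ ℝ := ∑ e : m.ed, ((AddMonoidHom.mulLeft (φ e)).comp
    (Int.castAddHom ℝ)).comp (Pi.evalAddMonoidHom (fun _ => ℤ) e)
  have hξ : ∀ k, ξ k = ∑ e : m.ed, φ e * k e := fun k => by
    rw [AddMonoidHom.finsetSum_apply]; rfl
  have hk : ∀ e : m.ed, Cen (m.w e) := fun e => (hK _ (hc.1 e e.2)).cen
  have hρ := cen_pi hR hk
  have hW : ∀ s, m.W 0 s = rem m m.ed s * (fun k : m.ed → ℤ => ∏ e : m.ed, m.w e (k e)) (π s) :=
    fun s => by
      rw [W_eq (Subset.refl _), ← prod_coe_sort m.ed]; rfl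
  obtain ⟨h4, h5, h6⟩ := dens hPD π (ρ := fun k : m.ed → ℤ => ∏ e : m.ed, m.w e (k e)) h1 h2 h3
    (fun s => (prod_pos fun e _ => w_pos hK hc.1 e.2 _).ne') hW hs
  have h7 : Ex (m.W 0) (fun s => Real.exp (pr f s)) = Ex (m.W 0) fun s => Real.exp (ξ (π s)) :=
    Ex_congr fun s h => by
      rw [hf s (Md.W_off h), hξ, ← sum_coe_sort m.ed]; rfl
  have h8 := (dens_ex π (ρ := fun k : m.ed → ℤ => ∏ e : m.ed, m.w e (k e)) hW hs
    (F := fun k => Real.exp (ξ k)) (hC.se (ξ.comp π))).2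
  have h9 := ((hMo _ _ hρ).1 _ h4 h5 h6).1 ξ
  rw [M, h7, h8]
  refine h9.trans_eq ?_
  have e1 := (hasSum_pi fun e : m.ed => se_int (hk e).se (φ e)).tsum_eq
  have e2 := (hasSum_pi fun e : m.ed => se_summable (hk e).se).tsum_eq
  have e3 : ∀ k : m.ed → ℤ, (∏ e : m.ed, m.w e (k e)) * Real.exp (ξ k) =
      ∏ e : m.ed, m.w e (k e) * Real.exp (φ e * k e) := fun k => by
    rw [hξ, Real.exp_sum, prod_mul_distrib]
  rw [M, Ex]
  simp only [e3]
  rw [e1, e2, ← prod_div_distrib, Real.log_prod fun e _ => ?_, ← sum_coe_sort m.ed]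
  · rfl
  · exact ((cen_wt (hk e)).ex_pos' (se_int (hk e).se (φ e)) fun _ => Real.exp_pos _).ne'

end Crest.Agent.T145
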