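import Crest.Agent.T145.MdlC_73
import Crest.Agent.T145.ApiC_98
import Crest.Agent.T145.CorU_59
import Crest.Agent.T145.Cut_7

/-!
# Row 145 (helper46): cutting with seams and forces, the slit lemma (renormalised McBryan-Spencer)
-/

set_option autoImplicit false
set_option linter.unusedSectionVars false

namespace Crest.Agent.T145.Sl46

open Finset

section grp
variable {L : Type*} [AddCommGroup L] {W : L → ℝ}

/-- Hoelder's inequality for `M` -/
theorem M_holder (hW : Wt W) (h : SE W) (f g : L →+ ℝ) {p q : ℝ} (hp : 0 < p) (hq : 0 < q)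
    (hpq : 1 / p + 1 / q = 1) : M W (f + g) ≤ M W (p • f) / p + M W (q • g) / q := by
  have h1 := (hW.convexOn_M h).2 (Set.mem_univ (p • f)) (Set.mem_univ (q • g))
    (one_div_pos.2 hp).le (one_div_pos.2 hq).le hpq
  rw [smul_smul, smul_smul, one_div_mul_cancel hp.ne', one_div_mul_cancel hq.ne', one_smul,
    one_smul, smul_eq_mul, smul_eq_mul] at h1
  calc _ ≤ _ := h1
    _ = _ := by ring

theorem M_congr {f g : L →+ ℝ} (h : ∀ s, W s ≠ 0 → f s = g s) : M W f = M W g :=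
  congrArg Real.log (Ex_congr fun s hs => by rw [h s hs])

theorem cosh_mul_le {t : ℝ} (ht : |t| ≤ 1) (x : ℝ) :
    Real.cosh (t * x) ≤ 1 + t ^ 2 * (x * x) / 2 + t ^ 4 * Real.cosh x := by
  have h1 := Real.hasSum_cosh (t * x)
  have h2 := (Real.hasSum_cosh x).mul_left (t ^ 4)
  have h3 : HasSum (fun n : ℕ => if n ∈ ({0, 1} : Finset ℕ) then (t * x) ^ (2 * n) / (2 * n).factorial
      else 0) (1 + t ^ 2 * (x * x) / 2) := by
    have h4 : HasSum (fun n : ℕ => if n ∈ ({0, 1} : Finset ℕ) then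
        (t * x) ^ (2 * n) / ((2 * n).factorial : ℝ) else 0) _ :=
      hasSum_sum_of_ne_finset_zero (s := ({0, 1} : Finset ℕ)) fun n hn => if_neg hn
    convert h4 using 1
    simp [Nat.factorial]
    ring
  refine hasSum_le (fun n => ?_) h1 (h3.add h2)
  have hx : 0 ≤ x ^ (2 * n) := by rw [pow_mul]; positivity
  split_ifs with hn
  · exact le_add_of_nonneg_right (by positivity)
  · have h4 : 2 ≤ n := by
      simp only [mem_insert, mem_singleton] at hn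
      omega
    have h5 : t ^ (2 * n) ≤ t ^ 4 := by
      rw [pow_mul, show t ^ 4 = (t ^ 2) ^ 2 by ring]
      exact pow_le_pow_of_le_one (sq_nonneg t) ((sq_le_one_iff_abs_le_one t).2 ht) h4
    rw [zero_add, mul_pow, mul_div_assoc]
    exact mul_le_mul_of_nonneg_right h5 (by positivity)

theorem ex_cosh (h : SE W) (he : ∀ s, W (-s) = W s) (f : L →+ ℝ) :
    Ex W (fun s => Real.exp (f s)) = Ex W fun s => Real.cosh (f s) := by
  have h1 := Ex_even he fun s => Real.exp (f s)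
  simp only [map_neg] at h1
  have h2 : Ig W fun s => Real.exp (-f s) := h (-f)
  simp only [Real.cosh_eq, Ex_div_const]
  rw [Ex_add (h f) h2, h1]
  ring

/-- Gaussian behaviour of an even weight for small forces -/
theorem M_quart (hW : Wt W) (h : SE W) (he : ∀ s, W (-s) = W s) (f : L →+ ℝ) {t : ℝ}
    (ht : |t| ≤ 1) : M W (t • f) ≤ t ^ 2 * Vr W f f / 2 + t ^ 4 * Real.exp (M W f) := by
  have h1 : Ig W fun s => f s * f s := h.ig ((Tame.hom f).mul (Tame.hom f))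
  have h2 : Ig W fun s => Real.cosh (f s) := h.ig (Tame.cosh f)
  have h3 : Real.exp (M W (t • f)) ≤ 1 + t ^ 2 * Vr W f f / 2 + t ^ 4 * Real.exp (M W f) := by
    rw [hW.exp_M h, hW.exp_M h, ex_cosh h he, ex_cosh h he, Vr_even he]
    refine (Ex_mono hW.nonneg (h.ig (Tame.cosh _))
      (((hW.ig_const 1).add ((h1.const_mul _).div_const 2)).add (h2.const_mul _))
      fun s => cosh_mul_le ht (f s)).trans_eq ?_
    rw [Ex_add ((hW.ig_const 1).add ((h1.const_mul _).div_const 2)) (h2.const_mul _),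
      Ex_add (hW.ig_const 1) ((h1.const_mul _).div_const 2), hW.ex_const, Ex_div_const,
      Ex_const_mul, Ex_const_mul]
  linarith [Real.add_one_le_exp (M W (t • f))]

end grp

/-- inequality (1) in curried form -/
theorem bp2 {L Q : Type*} [AddCommGroup L] [AddCommGroup Q] [IsAddTorsionFree L]
    {ρ G : Q → L → ℝ} (hρ : RSD fun p : L × Q => ρ p.2 p.1) (hG : PD fun p : L × Q => G p.2 p.1)
    (q : Q) (f : L →+ ℝ) (h0 : Summable (ρ 0)) (h1 : Summable (tilt (ρ q) f)) :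
    (∑' s, tilt (ρ q) f s * G q s) * Zs (ρ 0) ≤ Zs (tilt (ρ q) f) * ∑' s, ρ 0 s * G 0 s := by
  have h := Rsd63.rsd_bp hρ hG pd_one q f h0 h1
  simp only [mul_one] at h
  exact (le_abs_self _).trans h

/-- cutting along a projection, group form -/
theorem cut_gen {L L' Q : Type} [AddCommGroup L] [AddCommGroup L'] [AddCommGroup Q]
    [IsAddTorsionFree L'] (π : L →+ L') {ρ : Q → L' → ℝ} {H W : Q → L → ℝ}
    (hρ : RSD fun p : L' × Q => ρ p.2 p.1) (hH : PD fun p : L × Q => H p.2 p.1)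
    (hne : ∀ q s, H q s ≠ 0 → ρ q (π s) ≠ 0) (hW : ∀ q s, W q s = H q s * ρ q (π s))
    (hs : ∀ q, Summable (W q)) (q : Q) (f : L' →+ ℝ) (h0 : Summable (ρ 0))
    (h1 : Summable (tilt (ρ q) f)) (h2 : Summable (tilt (W q) (f.comp π))) :
    Zs (tilt (W q) (f.comp π)) * Zs (ρ 0) ≤ Zs (tilt (ρ q) f) * Zs (W 0) := by
  let H' : L × (L' × Q) → ℝ := fun p => ind (π p.1 = p.2.1) * H p.2.2 p.1
  have hP : PD H' := by
    have a1 := pd_ind (π.comp (AddMonoidHom.fst L (L' × Q)) -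
      (AddMonoidHom.fst L' Q).comp (AddMonoidHom.snd L (L' × Q)))
    have a2 := hH.comp ((AddMonoidHom.fst L (L' × Q)).prod
      ((AddMonoidHom.snd L' Q).comp (AddMonoidHom.snd L (L' × Q))))
    convert a1.mul a2 using 2 with p
    exact congrArg (· * H p.2.2 p.1) (ind_congr (by simp [sub_eq_zero]))
  have hS : ∀ p, Summable (sl H' p) := fun p => by
    by_cases hp : ρ p.2 p.1 = 0
    · refine summable_zero.congr fun s => ?_
      by_cases h3 : π s = p.1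
      · by_contra h4
        exact hne p.2 s (right_ne_zero_of_mul (Ne.symm h4)) (by rw [h3]; exact hp)
      · simp [sl, H', ind_neg h3]
    · refine ((Md.summable_ind_mul (fun s => π s = p.1) (hs p.2)).mul_right (ρ p.2 p.1)⁻¹).congr
        fun s => ?_
      by_cases h3 : π s = p.1
      · simp only [sl, H', hW, h3]
        field_simp
      · simp [sl, H', ind_neg h3]
  have h3 := bp2 (G := fun q => push (H q) π) hρ (hP.mg hS) q f h0 h1
  have e1 := (Cut7.dens_hasSum π (hW q) (F := fun t => Real.exp (f t)) h2).tsum_eq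
  have e2 := (Cut7.dens_hasSum π (hW 0) (F := fun _ => 1) (Ig.const (hs 0) 1)).tsum_eq
  simp only [mul_one] at e2
  have e3 : ∑' s, tilt (ρ q) f s * push (H q) π s = Zs (tilt (W q) (f.comp π)) :=
    (tsum_congr fun t => mul_right_comm _ _ _).trans e1
  rw [e3, e2] at h3
  exact h3

section mdl
variable {V : Type} [DecidableEq V]

/-- the pairing of the flow `ψ` on `E` with the gradient -/
noncomputable def fl (E : Finset (V × V)) (ψ : V × V → ℝ) : Cfg V →+ ℝ := ∑ e ∈ E, ψ e • dR e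

theorem fl_apply (E : Finset (V × V)) (ψ : V × V → ℝ) (s : Cfg V) :
    fl E ψ s = ∑ e ∈ E, ψ e * (dE e s : ℝ) := by
  rw [fl, AddMonoidHom.finsetSum_apply]
  rfl

theorem fl_smul (E : Finset (V × V)) (c : ℝ) (ψ : V × V → ℝ) :
    fl E (fun e => c * ψ e) = c • fl E ψ := AddMonoidHom.ext fun s => by
  simp only [fl_apply, AddMonoidHom.smul_apply, smul_eq_mul, mul_sum, mul_assoc]

theorem fl_add (E : Finset (V × V)) (ψ φ : V × V → ℝ) :
    fl E (fun e => ψ e + φ e) = fl E ψ + fl E φ := AddMonoidHom.ext fun s => by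
  simp only [fl_apply, AddMonoidHom.add_apply, add_mul, sum_add_distrib]

theorem fl_congr {E : Finset (V × V)} {ψ φ : V × V → ℝ} (h : ∀ e ∈ E, ψ e = φ e) :
    fl E ψ = fl E φ := sum_congr rfl fun e he => by rw [h e he]

theorem fl_subset {E E' : Finset (V × V)} (h : E ⊆ E') {ψ : V × V → ℝ}
    (h0 : ∀ e ∈ E', e ∉ E → ψ e = 0) : fl E ψ = fl E' ψ :=
  sum_subset h fun e he he' => by rw [h0 e he he', zero_smul]

theorem fl_sdiff {E E' : Finset (V × V)} (h : E ⊆ E') (ψ : V × V → ℝ) :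
    fl (E' \ E) ψ + fl E ψ = fl E' ψ := sum_sdiff h

theorem pd_seam {m : Mdl V} (hm : m.Fm) {E : Finset (V × V)} (hE : E ⊆ m.ed) :
    PD fun p : Cfg V × (V × V → ℤ) => ∏ e ∈ E, m.w e (dE e p.1 + p.2 e) :=
  PD.prod fun e he => (Md.fm_ker hm (hE he)).pd.comp ((dH e).comp (AddMonoidHom.fst _ _) +
    (Pi.evalAddMonoidHom (fun _ : V × V => ℤ) e).comp (AddMonoidHom.snd _ _))

theorem ctr_keep {m : Mdl V} (hm : m.Ctr) {E : Finset (V × V)} (hE : E ⊆ m.ed) : (m.keep E).Ctr :=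
  ⟨fun e he => hm.1 e (hE he), hm.2⟩

theorem anch_of_keep {m : Mdl V} {E : Finset (V × V)} (hE : E ⊆ m.ed) (h : (m.keep E).Anch) :
    m.Anch := fun x hx =>
  let ⟨y, h1, h2⟩ := h x hx
  ⟨y, Md.conn_mono hE h1, h2⟩

theorem Ws_keep (m : Mdl V) {E : Finset (V × V)} (hE : E ⊆ m.ed) (η : Cfg V) (σ : V × V → ℤ)
    (s : Cfg V) : m.Ws η σ s = (m.keep E).Ws η σ s * ∏ e ∈ m.ed \ E, m.w e (dE e s + σ e) := by
  simp only [Mdl.Ws, Mdl.keep, ← prod_sdiff hE]
  ring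

theorem Ws_congr (m : Mdl V) (η : Cfg V) {σ σ' : V × V → ℤ} (h : ∀ e ∈ m.ed, σ e = σ' e) :
    m.Ws η σ = m.Ws η σ' := funext fun s => by
  rw [Mdl.Ws, Mdl.Ws, prod_congr rfl fun e he => by rw [h e he]]

theorem Ws_eq_W (m : Mdl V) (η : Cfg V) {σ : V × V → ℤ} (h : ∀ e ∈ m.ed, σ e = 0) :
    m.Ws η σ = m.W η := (Ws_congr m η h).trans (m.W_eq_Ws η).symm

/-- (L1.1 with a force) removing edges -/
theorem cut_keep {m : Mdl V} (hm : m.Ctr) {E : Finset (V × V)} (hE : E ⊆ m.ed)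
    (hA : (m.keep E).Anch) (σ : V × V → ℤ) (f : Cfg V →+ ℝ) :
    Zs (tilt (m.Ws 0 σ) f) * Zs ((m.keep E).W 0) ≤
      Zs (tilt ((m.keep E).Ws 0 σ) f) * Zs (m.W 0) := by
  have hk := ctr_keep hm hE
  have h := bp2 (ρ := (m.keep E).Ws 0) (G := fun q s => ∏ e ∈ m.ed \ E, m.w e (dE e s + q e))
    (Md.ctr_rsd_seam hk) (pd_seam hm.1 sdiff_subset) σ f (Md.ctr_ses hk hA 0 0).summable
    (Md.ctr_ses hk hA 0 σ f)
  have e1 : ∑' s, tilt ((m.keep E).Ws 0 σ) f s * ∏ e ∈ m.ed \ E, m.w e (dE e s + σ e) =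
      Zs (tilt (m.Ws 0 σ) f) := tsum_congr fun s => by
    rw [tilt, tilt, Ws_keep m hE, mul_right_comm]
  have e2 : ∑' s, (m.keep E).Ws 0 0 s * ∏ e ∈ m.ed \ E, m.w e (dE e s + (0 : V × V → ℤ) e) =
      Zs (m.Ws 0 0) := tsum_congr fun s => (Ws_keep m hE 0 0 s).symm
  rw [e1, e2] at h
  rwa [Mdl.W_eq_Ws, Mdl.W_eq_Ws]

/-- (L1.1 with zero modes) passing to a submodel `m'` without site weights, read through `π` -/
theorem cut_proj {m m' : Mdl V} (hm : m.Ctr) (hA : m.Anch) (hA' : m'.Anch) (π : Cfg V →+ Cfg V)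
    (hE : m'.ed ⊆ m.ed) (hw : ∀ e ∈ m'.ed, m'.w e = m.w e) (hs : ∀ x ∈ m'.A, ∀ k, m'.site x k = 1)
    (hπ : ∀ s : Cfg V, (∀ x, x ∉ m.A → s x = 0) →
      (∀ x, x ∉ m'.A → π s x = 0) ∧ ∀ e ∈ m'.ed, dE e (π s) = dE e s)
    (σ : V × V → ℤ) (f : Cfg V →+ ℝ) :
    Zs (tilt (m.Ws 0 σ) (f.comp π)) * Zs (m'.W 0) ≤ Zs (tilt (m'.Ws 0 σ) f) * Zs (m.W 0) := by
  have hc : m'.Ctr := ⟨fun e he => hw e he ▸ hm.1 e (hE he), fun x hx => by
    rw [show m'.site x = fun _ => 1 from funext (hs x hx)]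
    exact ⟨Md.rsd_one, pd_one, one_pos⟩⟩
  have hH : PD fun p : Cfg V × (V × V → ℤ) => (m.keep (m.ed \ m'.ed)).Ws 0 p.2 p.1 := by
    have a1 := (Cut7.pd_off pdStmt m.A).comp (AddMonoidHom.fst (Cfg V) (V × V → ℤ))
    have a2 := pd_seam hm.1 (sdiff_subset (t := m'.ed))
    have a3 : PD fun p : Cfg V × (V × V → ℤ) => ∏ x ∈ m.A, m.site x (p.1 x) :=
      PD.prod fun x hx => (hm.2 x hx).2.1.comp
        ((evZ x).comp (AddMonoidHom.fst (Cfg V) (V × V → ℤ)))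
    exact (a1.mul a2).mul a3
  have h1 : ∀ q s, (∀ x, x ∉ m.A → s x = 0) →
      m'.Ws 0 q (π s) = ∏ e ∈ m'.ed, m.w e (dE e s + q e) := fun q s h => by
    rw [Mdl.Ws, ind_pos (p := ∀ x, x ∉ m'.A → π s x = (0 : Cfg V) x) (hπ s h).1, one_mul,
      prod_eq_one fun x hx => hs x hx _, mul_one]
    exact prod_congr rfl fun e he => by rw [hw e he, (hπ s h).2 e he]
  rw [Mdl.W_eq_Ws, Mdl.W_eq_Ws]
  refine cut_gen π (ρ := m'.Ws 0) (H := (m.keep (m.ed \ m'.ed)).Ws 0) (W := m.Ws 0)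
    (Md.ctr_rsd_seam hc) hH (fun q s h => ?_) (fun q s => ?_)
    (fun q => (Md.ctr_ses hm hA 0 q).summable) σ f (Md.ctr_ses hc hA' 0 0).summable
    (Md.ctr_ses hc hA' 0 σ f) (Md.ctr_ses hm hA 0 σ _)
  · rw [h1 q s fun x hx => Mdl.Ws_ne_zero (m := m.keep (m.ed \ m'.ed)) h hx]
    exact (prod_pos fun e he => Md.fm_pos hm.1 (hE he) _).ne'
  · by_cases h : ∀ x, x ∉ m.A → s x = 0
    · rw [h1 q s h, Ws_keep m (sdiff_subset (t := m'.ed)), Finset.sdiff_sdiff_eq_self hE]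
    · simp only [Mdl.Ws, Mdl.keep, Finsupp.coe_zero, Pi.zero_apply, ind_neg h, zero_mul]

/-- (L2.1 a) a seam supported on the removed edges -/
theorem seam_force {m : Mdl V} (hm : m.Ctr) {E : Finset (V × V)} (hE : E ⊆ m.ed)
    (hA : (m.keep E).Anch) {σ : V × V → ℤ} (hσ : ∀ e ∈ E, σ e = 0) (f : Cfg V →+ ℝ) :
    M (m.Ws 0 σ) f + Real.log (Zs (m.Ws 0 σ) / Zs (m.W 0)) ≤ M ((m.keep E).W 0) f := by
  have hk := ctr_keep hm hE
  have hA0 := anch_of_keep hE hA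
  have h := cut_keep hm hE hA σ f
  have h1 := Md.ctr_wts hm hA0 0 σ
  have h2 := Md.ctr_wt hm hA0 0
  have h3 := Md.ctr_wt hk hA 0
  rw [Ws_eq_W (m.keep E) 0 hσ, h1.Zs_tilt (Md.ctr_ses hm hA0 0 σ), h3.Zs_tilt (Md.ctr_se hk hA 0),
    mul_comm (Zs ((m.keep E).W 0)), mul_right_comm _ (Zs ((m.keep E).W 0))] at h
  have h4 := le_of_mul_le_mul_right h h3.pos
  rw [← Real.exp_le_exp, Real.exp_add, Real.exp_log (div_pos h1.pos h2.pos), ← mul_div_assoc,
    div_le_iff₀ h2.pos, mul_comm]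
  exact h4

/-- (L2.1) the slit lemma.  `E`, `E'` : the edges kept in the two slit models; `σ' = σ + ∇ u` -/
theorem slit {m : Mdl V} (hm : m.Ctr) {E E' : Finset (V × V)} (hE : E ⊆ m.ed) (hE' : E' ⊆ m.ed)
    (hA : (m.keep E).Anch) (hA' : (m.keep E').Anch) {σ : V × V → ℤ} {u : Cfg V}
    (hu : ∀ x, x ∉ m.A → u x = 0) (hs : ∀ x ∈ m.A, ∀ k, m.site x (k + u x) = m.site x k)
    (hσ : ∀ e ∈ E, σ e = 0) (hσ' : ∀ e ∈ E', σ e + dE e u = 0) {f g : Cfg V →+ ℝ}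
    (hfg : ∀ s : Cfg V, (∀ x, x ∉ m.A → s x = 0) → f s + g s = 0) {p q : ℝ} (hp : 0 < p)
    (hq : 0 < q) (hpq : 1 / p + 1 / q = 1) :
    Real.log (Zs (m.Ws 0 σ) / Zs (m.W 0)) ≤
      g u + M ((m.keep E).W 0) (p • f) / p + M ((m.keep E').W 0) (q • g) / q := by
  have hA0 := anch_of_keep hE hA
  have h1 := Md.ctr_wts hm hA0 0 σ
  have h2 := M_holder h1 (Md.ctr_ses hm hA0 0 σ) f g hp hq hpq
  rw [M_congr (g := 0) fun s h => hfg s fun x hx => Mdl.Ws_ne_zero h hx, h1.M_zero] at h2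
  have h3 := seam_force hm hE hA hσ (p • f)
  have h4 := seam_force hm hE' hA' hσ' (q • g)
  have e0 : m.Ws (0 + u) σ = m.Ws 0 σ := funext fun s => by
    have e : (∀ x, x ∉ m.A → s x = (0 + u) x) ↔ ∀ x, x ∉ m.A → s x = (0 : Cfg V) x :=
      forall₂_congr fun x hx => by rw [zero_add, hu x hx, Finsupp.coe_zero, Pi.zero_apply]
    rw [Mdl.Ws, Mdl.Ws, ind_congr e]
  have e1 := Md.zs_gauge m 0 u σ hs
  have e2 := Md.ex_gauge m 0 u σ hs fun s => Real.exp ((q • g) s)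
  rw [e0] at e1 e2
  have e3 : M (m.Ws 0 σ) (q • g) = q * g u + M (m.Ws 0 fun e => σ e + dE e u) (q • g) := by
    rw [M, e2]
    simp only [map_add, Real.exp_add]
    rw [Ex_mul_const, Real.log_mul ((Md.ctr_wts hm hA0 0 _).ex_exp_pos
      (Md.ctr_ses hm hA0 0 _) _).ne' (Real.exp_pos _).ne', Real.log_exp, add_comm]
    rfl
  rw [← e1] at h4
  have h5 := div_le_div_of_nonneg_right h3 hp.le
  have h6 := div_le_div_of_nonneg_right h4 hq.le
  rw [e3, add_div, mul_div_cancel_left₀ _ hq.ne'] at h2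
  rw [add_div] at h5 h6
  have h7 : Real.log (Zs (m.Ws 0 σ) / Zs (m.W 0)) / p + Real.log (Zs (m.Ws 0 σ) / Zs (m.W 0)) / q =
      Real.log (Zs (m.Ws 0 σ) / Zs (m.W 0)) := by
    rw [div_eq_mul_one_div _ p, div_eq_mul_one_div _ q, ← mul_add, hpq, mul_one]
  linarith

end mdl

end Crest.Agent.T145.Sl46
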