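import Mathlib

/-! Row 145, part (d) §3: model-free analysis (almost monotone sequences, the function `I`). -/

set_option autoImplicit false
open Filter Topology Real

namespace Crest.Agent.T145.VxAn

/-- `I ℓ = ℓ/8 - (log ℓ)/16`. -/
noncomputable def I (l : ℝ) : ℝ := l / 8 - Real.log l / 16

/-- almost monotone and bounded below ⇒ convergent -/
theorem almost_mono {ι : Type*} [Nonempty ι] [SemilatticeSup ι] (u ε : ι → ℝ)
    (hε : Tendsto ε atTop (𝓝 0))
    (h : ∀ᶠ ρ in atTop, ∀ ρ', ρ ≤ ρ' → u ρ' ≤ u ρ + ε ρ)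
    (hb : ∃ c, ∀ᶠ ρ in atTop, c ≤ u ρ) : ∃ l, Tendsto u atTop (𝓝 l) := by
  obtain ⟨c, hc⟩ := hb
  have hbd : IsBoundedUnder (· ≥ ·) atTop u := ⟨c, by simpa using hc⟩
  obtain ⟨ρ0, hρ0⟩ := h.exists
  have hbu : IsBoundedUnder (· ≤ ·) atTop u :=
    ⟨u ρ0 + ε ρ0, by
      simp only [eventually_map]
      exact (eventually_ge_atTop ρ0).mono fun ρ' h' => hρ0 ρ' h'⟩
  refine ⟨liminf u atTop, ?_⟩
  rw [tendsto_order]
  refine ⟨fun a ha => eventually_lt_of_lt_liminf ha hbd, fun a ha => ?_⟩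
  set d := (a - liminf u atTop) / 2 with hd
  have hd0 : 0 < d := by rw [hd]; linarith
  have h1 : ∃ᶠ ρ in atTop, u ρ < liminf u atTop + d :=
    frequently_lt_of_liminf_lt hbu.isCoboundedUnder_ge (by linarith)
  have h2 : ∀ᶠ ρ in atTop, ε ρ < d := (tendsto_order.1 hε).2 d hd0
  obtain ⟨ρ, hρ, hρ1, hρ2⟩ := (h1.and_eventually (h2.and h)).exists
  filter_upwards [eventually_ge_atTop ρ] with ρ' h'
  have := hρ2 ρ' h'
  linarith

/-- chaining one-step bounds along doublings -/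
theorem chain (u g : ℕ → ℝ) (hg : Summable g) (hg0 : ∀ j, 0 ≤ g j) (ρ0 : ℕ)
    (h : ∀ ρ, ρ0 ≤ ρ → ∀ ρ', ρ ≤ ρ' → ρ' ≤ 2 * ρ → u ρ' ≤ u ρ + g (Nat.log 2 ρ))
    (ρ : ℕ) (h0 : ρ0 ≤ ρ) (h1 : 1 ≤ ρ) (ρ' : ℕ) (h2 : ρ ≤ ρ') :
    u ρ' ≤ u ρ + ∑' k, g (k + Nat.log 2 ρ) := by
  have key : ∀ n : ℕ, ∀ ρ', ρ ≤ ρ' → ρ' ≤ 2 ^ n * ρ →
      u ρ' ≤ u ρ + ∑ k ∈ Finset.range n, g (k + Nat.log 2 ρ) := by
    intro n
    induction n with
    | zero => intro ρ' a b; have : ρ' = ρ := by omega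
              simp [this]
    | succ n ih =>
      intro ρ' a b
      rw [Finset.sum_range_succ]
      by_cases hc : ρ' ≤ 2 ^ n * ρ
      · have := ih ρ' a hc
        have := hg0 (n + Nat.log 2 ρ)
        linarith
      · have hp : 1 ≤ 2 ^ n := Nat.one_le_two_pow
        have e1 : ρ ≤ 2 ^ n * ρ := Nat.le_mul_of_pos_left _ hp
        have i1 := ih (2 ^ n * ρ) e1 le_rfl
        have i2 := h (2 ^ n * ρ) (h0.trans e1) ρ' (by omega) (by rw [pow_succ] at b; linarith)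
        have e2 : Nat.log 2 (2 ^ n * ρ) = n + Nat.log 2 ρ := by
          clear i1 i2 ih hc b e1 hp
          induction n with
          | zero => simp
          | succ m ihm =>
            rw [pow_succ, mul_assoc, mul_comm 2 ρ, ← mul_assoc,
              Nat.log_mul_base (by norm_num) (by positivity), ihm]
            ring
        rw [e2] at i2
        linarith
  have hs : Summable fun k => g (k + Nat.log 2 ρ) := (summable_nat_add_iff _).2 hg
  have hn : ρ' ≤ 2 ^ ρ' * ρ := by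
    have : ρ' ≤ 2 ^ ρ' := Nat.lt_two_pow_self.le
    nlinarith
  exact (key ρ' ρ' h2 hn).trans (by
    have := hs.sum_le_tsum (Finset.range ρ') (fun k _ => hg0 _)
    linarith)

theorem tendsto_log2 : Tendsto (fun ρ : ℕ => Nat.log 2 ρ) atTop atTop := by
  refine tendsto_atTop.2 fun n => ?_
  filter_upwards [eventually_ge_atTop (2 ^ n)] with ρ hρ
  exact Nat.le_log_of_pow_le (by norm_num) hρ

/-- the error of `chain` tends to zero -/
theorem tail_tendsto (g : ℕ → ℝ) :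
    Tendsto (fun ρ : ℕ => ∑' k, g (k + Nat.log 2 ρ)) atTop (𝓝 0) :=
  (tendsto_sum_nat_add g).comp tendsto_log2

/-- L3.1 + L3.2 in abstract form -/
theorem conv_of_step (u g : ℕ → ℝ) (hg : Summable g) (hg0 : ∀ j, 0 ≤ g j) (ρ0 : ℕ)
    (h : ∀ ρ, ρ0 ≤ ρ → ∀ ρ', ρ ≤ ρ' → ρ' ≤ 2 * ρ → u ρ' ≤ u ρ + g (Nat.log 2 ρ))
    (hb : ∃ c, ∀ᶠ ρ in atTop, c ≤ u ρ) : ∃ l, Tendsto u atTop (𝓝 l) := by
  refine almost_mono u _ (tail_tendsto g) ?_ hb
  filter_upwards [eventually_ge_atTop ρ0, eventually_ge_atTop 1] with ρ a b ρ' c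
  exact chain u g hg hg0 ρ0 h ρ a b ρ' c

/-- `I (b) - I (a) → d/8` when `a → ∞`, `b - a → d` -/
theorem I_shift {ι : Type*} {F : Filter ι} {a b : ι → ℝ} {d : ℝ} (ha : Tendsto a F atTop)
    (hd : Tendsto (fun i => b i - a i) F (𝓝 d)) :
    Tendsto (fun i => I (b i) - I (a i)) F (𝓝 (d / 8)) := by
  have h1 : Tendsto (fun i => 1 + (b i - a i) / a i) F (𝓝 1) := by
    simpa using (hd.div_atTop ha).const_add 1
  have h2 : Tendsto (fun i => Real.log (1 + (b i - a i) / a i)) F (𝓝 0) := by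
    simpa using h1.log one_ne_zero
  have h3 : Tendsto (fun i => (b i - a i) / 8 - Real.log (1 + (b i - a i) / a i) / 16) F
      (𝓝 (d / 8)) := by
    simpa using (hd.div_const 8).sub (h2.div_const 16)
  refine h3.congr' ?_
  filter_upwards [ha.eventually_gt_atTop 0, h1.eventually (lt_mem_nhds zero_lt_one)] with i h0 h4
  have e : 1 + (b i - a i) / a i = b i / a i := by field_simp; ring
  rw [e] at h4 ⊢
  have hb : 0 < b i := by
    have := mul_pos h4 h0
    rwa [div_mul_cancel₀ _ h0.ne'] at this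
  rw [Real.log_div hb.ne' h0.ne']
  unfold I; ring

theorem exp_two_I {r : ℝ} (hr : 1 < r) :
    Real.exp (2 * I (Real.log r)) = r ^ ((1 : ℝ) / 4) / Real.log r ^ ((1 : ℝ) / 8) := by
  have h0 : 0 < r := by linarith
  have hl : 0 < Real.log r := Real.log_pos hr
  rw [Real.rpow_def_of_pos h0, Real.rpow_def_of_pos hl, ← Real.exp_sub]
  congr 1; unfold I; ring

/-- the final squeeze: the conclusion of S0198 -/
theorem final (C : ℕ → ℝ) (v : ℝ)
    (hup : ∀ η : ℝ, 0 < η → ∀ᶠ r : ℕ in atTop, C r ≤ Real.exp (v + η - 2 * I (Real.log r)))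
    (hlo : ∀ η : ℝ, 0 < η → ∀ᶠ r : ℕ in atTop, Real.exp (v - η - 2 * I (Real.log r)) ≤ C r) :
    Tendsto (fun r : ℕ => C r * (r : ℝ) ^ ((1 : ℝ) / 4) / Real.log r ^ ((1 : ℝ) / 8))
      atTop (𝓝 (Real.exp v)) := by
  have key : ∀ r : ℕ, 2 ≤ r → C r * (r : ℝ) ^ ((1 : ℝ) / 4) / Real.log r ^ ((1 : ℝ) / 8)
      = C r * Real.exp (2 * I (Real.log r)) := by
    intro r hr
    have : (1 : ℝ) < r := by exact_mod_cast hr
    rw [exp_two_I this]; ring
  have hc : Tendsto (fun η : ℝ => Real.exp (v + η)) (𝓝[>] 0) (𝓝 (Real.exp v)) := by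
    have : Tendsto (fun η : ℝ => Real.exp (v + η)) (𝓝 0) (𝓝 (Real.exp (v + 0))) :=
      (by fun_prop : Continuous fun η : ℝ => Real.exp (v + η)).tendsto 0
    simpa using this.mono_left nhdsWithin_le_nhds
  have hc' : Tendsto (fun η : ℝ => Real.exp (v - η)) (𝓝[>] 0) (𝓝 (Real.exp v)) := by
    have : Tendsto (fun η : ℝ => Real.exp (v - η)) (𝓝 0) (𝓝 (Real.exp (v - 0))) :=
      (by fun_prop : Continuous fun η : ℝ => Real.exp (v - η)).tendsto 0
    simpa using this.mono_left nhdsWithin_le_nhds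
  rw [tendsto_order]
  refine ⟨fun a ha => ?_, fun a ha => ?_⟩
  · obtain ⟨η, h1, h2⟩ := (((tendsto_order.1 hc').1 a ha).and self_mem_nhdsWithin).exists
    filter_upwards [hlo η h2, eventually_ge_atTop 2] with r h3 h4
    rw [key r h4]
    have := mul_le_mul_of_nonneg_right h3 (Real.exp_pos (2 * I (Real.log r))).le
    rw [← Real.exp_add] at this
    have e : v - η - 2 * I (Real.log r) + 2 * I (Real.log r) = v - η := by ring
    rw [e] at this
    linarith
  · obtain ⟨η, h1, h2⟩ := (((tendsto_order.1 hc).2 a ha).and self_mem_nhdsWithin).exists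
    filter_upwards [hup η h2, eventually_ge_atTop 2] with r h3 h4
    rw [key r h4]
    have := mul_le_mul_of_nonneg_right h3 (Real.exp_pos (2 * I (Real.log r))).le
    rw [← Real.exp_add] at this
    have e : v + η - 2 * I (Real.log r) + 2 * I (Real.log r) = v + η := by ring
    rw [e] at this
    linarith

end Crest.Agent.T145.VxAn
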