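import Crest.Agent.T145.GffDef_8
import Crest.Agent.T145.PotL_17
import Crest.Agent.T145.Slit_46
import Crest.Agent.T145.VxAn_27

/-!
# Row 145, part (d) §1–§3 (text: helper28, `docs/T145_d.md`): S0198 from (A1), (A2), (N).  Definitions and Props
(helper27).

Spins live on `ℤ²`, heights on the faces (named by the lower left corner).  `wir b U` = only the spins of `U` are
free, every other connected set of spins is wired.  `K_N (l) = (xyL b).gN l`.  The trial functions are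
`φ ∘ G`, `G` = a combination of potential kernels, `φ` = a clamp.
-/

set_option autoImplicit false

namespace Crest.Agent.T145.Vd

open Finset Filter Topology Crest.ProbabilityR.SpinModel
open Sl46 (fl)
open Pot (eu disc lg nL eD lap dif pk)
open VxAn (I)

/-- end points of the edges of `E` -/
def vx (E : Finset (Pt × Pt)) : Finset Pt := E.image Prod.fst ∪ E.image Prod.snd

open Classical in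
/-- free model on the edge set `E`; the lexicographically least point of every component is pinned -/
noncomputable def NE (Λ : Lat) (E : Finset (Pt × Pt)) : Mdl Pt :=
  ⟨(vx E).filter fun x => ∃ y, Conn E x y ∧ toLex y < toLex x, E, fun _ => Λ.w, fun _ _ => 1⟩

/-- `Z (σ; f) / Z (0)` -/
noncomputable def zt (m : Mdl Pt) (σ : Pt × Pt → ℤ) (f : Cfg Pt →+ ℝ) : ℝ :=
  Zs (tilt (m.Ws 0 σ) f) / Zs (m.W 0)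

/-- `Z (σ) / Z (0)` -/
noncomputable def rat (m : Mdl Pt) (σ : Pt × Pt → ℤ) : ℝ := Zs (m.Ws 0 σ) / Zs (m.W 0)

/-- translate an edge -/
def sh (t : Pt) (e : Pt × Pt) : Pt × Pt := (e.1 + t, e.2 + t)

/-- the height edge that crosses the spin edge `p` -/
def dual (p : Pt × Pt) : Pt × Pt := (p.1 - (p.2 - p.1).swap, p.1)

/-- the height edges that cross a spin edge meeting `U` -/
noncomputable def dU (U : Finset Pt) : Finset (Pt × Pt) := (nL.edT U).image dual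

/-- rotated gradient of a function of the spin sites -/
def rot (F : Pt → ℝ) (e : Pt × Pt) : ℝ :=
  ((e.2.2 - e.1.2 - (e.2.1 - e.1.1) : ℤ) : ℝ) * (F (e.1 + (1, 1)) - F e.2)

/-- the seam from the spin site `z` to `+∞` along the first axis -/
def ray (z : Pt) (e : Pt × Pt) : ℤ :=
  if e.1.2 = z.2 - 1 ∧ e.2.2 = z.2 ∧ e.1.1 = e.2.1 ∧ z.1 ≤ e.1.1 then 1 else 0

/-- charge `1` at `0`, charge `ε` at `(r, 0)` -/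
def ray2 (ε : ℤ) (r : ℕ) (e : Pt × Pt) : ℤ := ray 0 e + ε * ray (r, 0) e

/-- the spins of `U` are free, the rest is wired -/
noncomputable def wir (b : ℝ) (U : Finset Pt) : Mdl Pt := NE (xyL b) (dU U)

/-- `M (ρ)` -/
noncomputable def Mv (b : ℝ) (ρ : ℕ) : ℝ := rat (wir b (disc 0 ρ)) (ray 0)

/-- `T (ρ, ρ')` -/
noncomputable def Tv (b : ℝ) (ρ ρ' : ℕ) : ℝ := rat (wir b (disc 0 ρ' \ disc 0 ρ)) (ray 0)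

/-- `C^w_{+ε}` in the wired disc of radius `R` -/
noncomputable def Cw (b : ℝ) (ε : ℤ) (r R : ℕ) : ℝ := rat (wir b (disc 0 R)) (ray2 ε r)

/-- `T_{+ε}`: two wired holes of radius `ρ` -/
noncomputable def T2 (b : ℝ) (ε : ℤ) (ρ r R : ℕ) : ℝ :=
  rat (wir b ((disc 0 R \ disc 0 ρ) \ disc (r, 0) ρ)) (ray2 ε r)

/-- the free box (`= xyBoxCorrelation b R r` by `xyStmt`) -/
noncomputable def Cb (b : ℝ) (R r : ℕ) : ℝ := rat ((xyL b).D (faces R)) (seam r)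

/-- the constant vector field `c` -/
def cv (c : ℝ × ℝ) (e : Pt × Pt) : ℝ :=
  c.1 * ((e.2.1 - e.1.1 : ℤ) : ℝ) + c.2 * ((e.2.2 - e.1.2 : ℤ) : ℝ)

/-- squared length -/
def n2 (c : ℝ × ℝ) : ℝ := c.1 ^ 2 + c.2 ^ 2

/-- the field equal to `c a` inside the square `sq a l`, `a ∈ Q` -/
noncomputable def chi (l : ℕ) (Q : Finset Pt) (c : Pt → ℝ × ℝ) (e : Pt × Pt) : ℝ :=
  ∑ a ∈ Q, if e ∈ nL.edI (sq a l) then cv (c a) e else 0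

/-- monotone and `1`-Lipschitz -/
def Lp (φ : ℝ → ℝ) : Prop := ∀ x y, x ≤ y → 0 ≤ φ y - φ x ∧ φ y - φ x ≤ y - x

/-- `F` is constant along the spin edges that do not meet `U` -/
def Wr (U : Finset Pt) (F : Pt → ℝ) : Prop :=
  ∀ y, ∀ d ∈ nL.Jp, y ∉ U → y + d ∉ U → F (y + d) = F y

/-- data of a trial function `φ ∘ G`: kinks `𝒦`, oscillation `ω`, gradient `g₁`, oscillation of the gradient
`g₂` at scale `l` near `U`, energy `η` near a kink -/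
structure Tri (U : Finset Pt) (G : Pt → ℝ) (φ : ℝ → ℝ) (𝒦 : Finset ℝ) (l R : ℕ) (ω g₁ g₂ η : ℝ) :
    Prop where
  lp : Lp φ
  aff : ∀ a b : ℝ, (∀ k ∈ 𝒦, k ∉ Set.Icc a b) →
    (∀ x ∈ Set.Icc a b, ∀ y ∈ Set.Icc a b, φ y - φ x = y - x) ∨
      ∀ x ∈ Set.Icc a b, ∀ y ∈ Set.Icc a b, φ y = φ x
  off : ∀ y, y ∉ U → ∀ a b : ℝ, G y ∈ Set.Icc a b → (∀ k ∈ 𝒦, k ∉ Set.Icc a b) →
    ∀ x ∈ Set.Icc a b, φ x = φ (G y)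
  reg : ∀ u ∈ U, ∀ y ∈ bl u (l + 1), ∀ y' ∈ bl u (l + 1), |G y - G y'| ≤ ω ∧
    ∀ d ∈ nL.Jp, |dif d G y| ≤ g₁ ∧ |dif d G y - dif d G y'| ≤ g₂
  kink : ∀ k ∈ 𝒦, ∀ S ⊆ nL.edT U, (∀ p ∈ S, |G p.1 - k| ≤ ω ∧ |G p.2 - k| ≤ ω) →
    ∑ p ∈ S, (G p.2 - G p.1) ^ 2 ≤ η
  box : U ⊆ bl 0 R

/-! ## Interface with the flow -/

/-- (A1): upper bound on the stiffness of free squares, for one `l` in every `[n / D, n]` -/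
def A1 (b : ℝ) : Prop := ∃ (C δ : ℝ) (D : ℕ), 0 < δ ∧ ∀ᶠ n : ℕ in atTop, ∃ l : ℕ, l ≤ n ∧ n ≤ D * l ∧
  (xyL b).gN l ≤ 2 / Real.pi * (1 + 1 / (2 * Real.log n)) + C / Real.log n ^ (1 + δ)

/-- (A2): `T (ρ₀, R) ≥ c R^{-1/8} (log R)^{1/16}` -/
def A2 (b : ℝ) : Prop := ∃ (ρ₀ : ℕ) (c : ℝ), 0 < c ∧ ∀ᶠ R : ℕ in atTop,
  c * Real.exp (-I (Real.log R)) ≤ Tv b ρ₀ R

/-- (N) for the seam observable: free box against wired disc -/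
def NF (b : ℝ) : Prop := ∀ η : ℝ, 0 < η → ∀ᶠ W : ℕ in atTop, ∀ᶠ r : ℕ in atTop, ∀ R' : ℕ,
  W * r + 1 ≤ R' → Cw b (-1) r (W * r) - Cb b R' r ≤ η * Mv b (r / 4) ^ 2

/-! ## The tasks -/

/-- the free model on an edge set -/
def NeStmt : Prop := ∀ Λ : Lat, Λ.Ok → (∀ E : Finset (Pt × Pt),
  ((NE Λ E).Ctr ∧ (NE Λ E).Anch) ∧
  (∃ π : Cfg Pt →+ Cfg Pt, ∀ s, (∀ x, x ∉ (NE Λ E).A → π s x = 0) ∧
    (∀ e ∈ E, dE e (π s) = dE e s) ∧ ((∀ x, x ∉ (NE Λ E).A → s x = 0) → π s = s)) ∧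
  (∀ (σ σ' : Pt × Pt → ℤ) (u : Cfg Pt) (ψ : Pt × Pt → ℝ), (∀ e ∈ E, σ' e = σ e + dE e u) →
    zt (NE Λ E) σ' (fl E ψ) * Real.exp (fl E ψ u) = zt (NE Λ E) σ (fl E ψ)) ∧
  ∀ (t : Pt) (σ : Pt × Pt → ℤ) (ψ : Pt × Pt → ℝ),
    zt (NE Λ (E.image (sh t))) σ (fl (E.image (sh t)) ψ) =
      zt (NE Λ E) (fun e => σ (sh t e)) (fl E fun e => ψ (sh t e))) ∧
  (∀ (a : Pt) (l : ℕ), 2 ≤ l → NE Λ (Λ.edI (sq a l)) = Λ.Nr (sq a l) a) ∧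
  ∀ m : Mdl Pt, m.Ctr → m.Anch → ∀ σ : Pt × Pt → ℤ,
    (∀ f, 0 < zt m σ f) ∧ 0 < rat m σ ∧ rat m σ ≤ 1 ∧ rat m (fun e => -σ e) = rat m σ

/-- product over edge sets without common end points -/
def ProdStmt : Prop := ∀ Λ : Lat, Λ.Ok → ∀ (ι : Type) (J : Finset ι) (E : ι → Finset (Pt × Pt)),
  (∀ i ∈ J, ∀ j ∈ J, i ≠ j → Disjoint (vx (E i)) (vx (E j))) →
    ∀ (σ : Pt × Pt → ℤ) (ψ : Pt × Pt → ℝ), zt (NE Λ (J.biUnion E)) σ (fl (J.biUnion E) ψ) =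
      ∏ i ∈ J, zt (NE Λ (E i)) σ (fl (E i) ψ)

/-- L1.1: cutting, with any seam and a gradient force -/
def CutSStmt : Prop := ∀ Λ : Lat, Λ.Ok → ∀ (m : Mdl Pt) (E : Finset (Pt × Pt)), m.Ctr → m.Anch →
  E ⊆ m.ed → (∀ e ∈ E, m.w e = Λ.w) → ∀ (σ : Pt × Pt → ℤ) (ψ : Pt × Pt → ℝ),
    zt m σ (fl E ψ) ≤ zt (NE Λ E) σ (fl E ψ)

/-- BARE with a seam -/
def BareSStmt : Prop := ∀ (b : ℝ) (m : Mdl Pt), 0 < b → m.Ctr → m.Anch → (∀ e ∈ m.ed, m.w e = bes b) →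
  ∀ (σ : Pt × Pt → ℤ) (ψ : Pt × Pt → ℝ),
    zt m σ (fl m.ed ψ) * Real.exp (∑ e ∈ m.ed, ψ e * σ e) ≤
      Real.exp (∑ e ∈ m.ed, b * (Real.cosh (ψ e) - 1))

/-- one free square -/
def SqStmt : Prop := ∀ (b : ℝ) (l : ℕ) (c : ℝ × ℝ), 0 < b → 1 ≤ b * (l : ℝ) ^ 2 →
  b * (n2 c * (l : ℝ) ^ 2) ≤ 1 →
    M ((xyL b).WN l) (fl (nL.edI (sq 0 l)) (cv c)) ≤
      (xyL b).gN l * (n2 c * (l : ℝ) ^ 2) / 2 + 3 * b ^ 2 * (n2 c * (l : ℝ) ^ 2) ^ 2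

/-- L2.1 + L2.2: renormalised McBryan–Spencer bound -/
def MsStmt : Prop := ∀ (b : ℝ) (m : Mdl Pt) (σ : Pt × Pt → ℤ) (ψ : Pt × Pt → ℝ) (l : ℕ)
  (Q : Finset Pt) (c : Pt → ℝ × ℝ) (p q K A : ℝ), 0 < b → m.Ctr → m.Anch →
    (∀ e ∈ m.ed, m.w e = bes b) →
    (∀ s : Cfg Pt, (∀ x, x ∉ m.A → s x = 0) → fl m.ed ψ s = 0) →
    2 ≤ l → 1 ≤ b * (l : ℝ) ^ 2 → (xyL b).gN l ≤ K → 1 < p → 1 / p + 1 / q = 1 →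
    (∀ a ∈ Q, nL.edI (sq a l) ⊆ m.ed ∧ (∀ e ∈ nL.edI (sq a l), σ e = 0) ∧
      n2 (c a) * (l : ℝ) ^ 2 ≤ A) →
    (∀ a ∈ Q, ∀ a' ∈ Q, a ≠ a' → Disjoint (sq a l) (sq a' l)) → b * (p ^ 2 * A) ≤ 1 →
    (∀ e ∈ m.ed, q * |ψ e - chi l Q c e| ≤ 1) →
    Real.log (rat m σ) ≤ -(∑ e ∈ m.ed, ψ e * σ e) +
      p * (K / 2 + 3 * b ^ 2 * p ^ 2 * A) * ∑ a ∈ Q, n2 (c a) * (l : ℝ) ^ 2 +
        b * q * ∑ e ∈ m.ed, (ψ e - chi l Q c e) ^ 2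

/-- planar duality for trial functions; the energy of a clamped potential -/
def RotStmt : Prop :=
  (∀ (U : Finset Pt) (F : Pt → ℝ), ∑ e ∈ dU U, rot F e ^ 2 = eD nL U F F ∧ (Wr U F →
    (∀ s, fl (dU U) (rot F) s = 0) ∧
    ∀ (z : Pt) (n : ℕ), (∀ k : ℕ, n ≤ k → z + ((k : ℤ), 0) ∉ U) →
      ∑ e ∈ dU U, rot F e * ray z e = F (z + ((n : ℤ), 0)) - F z)) ∧
  ∀ (G : Pt → ℝ) (φ : ℝ → ℝ) (D : Finset Pt) (c : ℝ) (S : Finset (Pt × Pt)), Lp φ →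
    (∀ y, y ∉ D → φ (G y) = c) → (∀ p ∈ S, p.2 - p.1 ∈ nL.Jp) →
      ∑ p ∈ S, (φ (G p.2) - φ (G p.1)) ^ 2 ≤ ∑ y ∈ D, lap G y * (c - φ (G y))

/-- tiling by the squares of the grid `l ℤ²` -/
def TileStmt : Prop := ∀ (U : Finset Pt) (G : Pt → ℝ) (φ : ℝ → ℝ) (𝒦 : Finset ℝ) (l R : ℕ)
  (ω g₁ g₂ η : ℝ), 2 ≤ l → 0 ≤ η → Tri U G φ 𝒦 l R ω g₁ g₂ η →
    ∃ (Q : Finset Pt) (c : Pt → ℝ × ℝ),
      (∀ a ∈ Q, nL.edI (sq a l) ⊆ dU U ∧ (l : ℤ) ∣ a.1 ∧ (l : ℤ) ∣ a.2 ∧ n2 (c a) ≤ 2 * g₁ ^ 2) ∧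
      ((l : ℝ) - 1) * ∑ a ∈ Q, n2 (c a) * (l : ℝ) ^ 2 ≤
        l * ∑ e ∈ dU U, rot (fun y => φ (G y)) e ^ 2 ∧
      (∀ e ∈ dU U, |rot (fun y => φ (G y)) e - chi l Q c e| ≤ 2 * g₁) ∧
      ∑ e ∈ dU U, (rot (fun y => φ (G y)) e - chi l Q c e) ^ 2 ≤
        𝒦.card * η + 40 * ((R : ℝ) + l) ^ 2 / l * g₁ ^ 2 + 40 * ((R : ℝ) + 1) ^ 2 * g₂ ^ 2

/-- the bound produced by a trial function whose energy is at most its pairing `𝓛` with the seam -/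
def GenStmt : Prop := ∀ b κ₀ : ℝ, 0 < b → 0 < κ₀ → ∃ C : ℝ, 0 ≤ C ∧ ∀ (U : Finset Pt) (G : Pt → ℝ)
  (φ : ℝ → ℝ) (𝒦 : Finset ℝ) (l R : ℕ) (ω g₁ g₂ η K 𝓛 ε : ℝ) (σ : Pt × Pt → ℤ),
    1 ≤ l → 0 ≤ η → 0 ≤ g₁ → Tri U G φ 𝒦 l R ω g₁ g₂ η → Wr U (fun y => φ (G y)) →
    (∀ e, σ e ≠ 0 → e.1.2 = -1 ∧ e.2.2 = 0) →
    ∑ e ∈ dU U, rot (fun y => φ (G y)) e * σ e = 𝓛 →
    ∑ e ∈ dU U, rot (fun y => φ (G y)) e ^ 2 ≤ 𝓛 → κ₀ ≤ K → (xyL b).gN l ≤ K → 0 < ε →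
    𝒦.card * η + 40 * ((R : ℝ) + l) ^ 2 / l * g₁ ^ 2 + 40 * ((R : ℝ) + 1) ^ 2 * g₂ ^ 2 ≤ ε ^ 2 →
    1 / (l : ℝ) ≤ ε ^ 2 → l * g₁ ≤ ε →
    Real.log (rat (wir b U) σ) ≤ -𝓛 / (2 * K) + C * ε * (1 + 𝓛)

/-- L2.4: one annulus of bounded ratio -/
def AnnStmt : Prop := ∀ b κ₀ : ℝ, 0 < b → 0 < κ₀ → ∃ C : ℝ, ∀ (ρ ρ' l : ℕ) (K : ℝ), 1 ≤ l → l ≤ ρ →
  ρ ≤ ρ' → ρ' ≤ 4 * ρ → κ₀ ≤ K → (xyL b).gN l ≤ K →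
    Real.log (Tv b ρ ρ') ≤
      -Real.log ((ρ' : ℝ) / ρ) / (4 * Real.pi * K) + C * √((l : ℝ) / ρ + 1 / l)

/-- L2.5: two holes, charges `+-` -/
def TwoMStmt : Prop := ∀ b κ₀ : ℝ, 0 < b → 0 < κ₀ → ∃ C : ℝ, ∀ W : ℕ, 4 ≤ W → ∃ C' : ℝ,
  ∀ (ρ r R l : ℕ) (K : ℝ), 1 ≤ l → l ≤ ρ → W * ρ ≤ r → r ≤ 2 * W * ρ → W * r ≤ R → R ≤ 2 * W * r →
    κ₀ ≤ K → (xyL b).gN l ≤ K →
    Real.log (T2 b (-1) ρ r R) ≤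
      -Real.log ((r : ℝ) / ρ) / (2 * Real.pi * K) + C / W + C' * √((l : ℝ) / ρ + 1 / l)

/-- L2.5: two holes, charges `++` -/
def TwoPStmt : Prop := ∀ b κ₀ : ℝ, 0 < b → 0 < κ₀ → ∃ C : ℝ, ∀ W : ℕ, 4 ≤ W → ∃ C' : ℝ,
  ∀ (ρ r R l : ℕ) (K : ℝ), 1 ≤ l → l ≤ ρ → W * ρ ≤ r → r ≤ 2 * W * ρ → W * r ≤ R → R ≤ 2 * W * r →
    κ₀ ≤ K → (xyL b).gN l ≤ K →
    Real.log (T2 b 1 ρ r R) ≤
      -(Real.log ((R : ℝ) / ρ) + Real.log ((R : ℝ) / r)) / (2 * Real.pi * K) + C / W +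
        C' * √((l : ℝ) / ρ + 1 / l)

/-- L1.3: one centre -/
def SubStmt : Prop := ∀ b : ℝ, 0 < b →
  (∀ ρ ρ', ρ ≤ ρ' → Mv b ρ' ≤ Mv b ρ) ∧
  (∀ ρ ρ', ρ + 2 ≤ ρ' → Mv b ρ' ≤ Mv b ρ * Tv b (ρ + 2) ρ') ∧
  (∀ ρ₁ ρ₂ ρ₃ ρ₄, ρ₁ ≤ ρ₂ → ρ₃ ≤ ρ₄ → Tv b ρ₁ ρ₄ ≤ Tv b ρ₂ ρ₃) ∧
  ∀ ρ ρ' ρ'', ρ ≤ ρ' → ρ' + 2 ≤ ρ'' → Tv b ρ ρ'' ≤ Tv b ρ ρ' * Tv b (ρ' + 2) ρ''

/-- L1.1, L1.3, L1.4: two centres -/
def Sub2Stmt : Prop := ∀ b : ℝ, 0 < b →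
  (∀ (ε : ℤ) (ρ r R : ℕ), ε = 1 ∨ ε = -1 → 2 * ρ + 6 ≤ r → r + ρ + 2 ≤ R →
    Cw b ε r R ≤ Mv b ρ ^ 2 * T2 b ε (ρ + 2) r R) ∧
  (∀ r R R', R + 1 ≤ R' → Cb b R' r ≤ Cw b (-1) r R) ∧
  ∀ r R, Mv b R ^ 2 * Mv b (R + r) ^ 2 ≤ Cw b 1 r R * Cw b (-1) r R

/-- L3.2: the core costs a constant -/
def CoreStmt : Prop := ∀ (b c : ℝ) (ρ₀ ρ₁ : ℕ), 0 < b → 0 < c → 2 * ρ₀ + 3 ≤ ρ₁ →
  ∃ c' : ℝ, 0 < c' ∧ ∀ R, ρ₁ + 2 ≤ R → c * Tv b (ρ₁ + 2) R ≤ Tv b ρ₀ R → c' * Tv b ρ₀ R ≤ Mv b R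

/-- L3.1 + L3.2: `u (ρ) = log M (ρ) + I (log ρ)` converges -/
def ConvStmt : Prop := ∀ b : ℝ, 0 < b → A1 b → A2 b →
  ∃ u : ℝ, Tendsto (fun ρ : ℕ => Real.log (Mv b ρ) + I (Real.log ρ)) atTop (𝓝 u)

/-- the output: the conclusion of S0198 at `b` -/
def OutStmt : Prop := ∀ b : ℝ, 0 < b → A1 b → A2 b → NF b → ∀ C : ℕ → ℝ,
  (∀ r, Tendsto (fun R : ℕ => xyBoxCorrelation b R r) atTop (𝓝 (C r))) →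
    ∃ B : ℝ, 0 < B ∧ Tendsto
      (fun r : ℕ => C r * (r : ℝ) ^ ((1 : ℝ) / 4) / Real.log r ^ ((1 : ℝ) / 8)) atTop (𝓝 B)

/-! ## Unfolding lemmas -/

theorem zt_zero (m : Mdl Pt) (σ : Pt × Pt → ℤ) : zt m σ 0 = rat m σ := by
  simp [zt, rat, Zs, tilt]

theorem fl_zero (E : Finset (Pt × Pt)) : fl E (fun _ => 0) = 0 := by simp [fl]

theorem zt_fl_zero (m : Mdl Pt) (σ : Pt × Pt → ℤ) (E : Finset (Pt × Pt)) :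
    zt m σ (fl E fun _ => 0) = rat m σ := by rw [fl_zero, zt_zero]

theorem mem_vx {E : Finset (Pt × Pt)} {x : Pt} : x ∈ vx E ↔ ∃ e ∈ E, e.1 = x ∨ e.2 = x := by
  simp only [vx, mem_union, mem_image]
  constructor
  · rintro (⟨e, he, h⟩ | ⟨e, he, h⟩)
    exacts [⟨e, he, .inl h⟩, ⟨e, he, .inr h⟩]
  · rintro ⟨e, he, h | h⟩
    exacts [.inl ⟨e, he, h⟩, .inr ⟨e, he, h⟩]

theorem mem_Jp {d : Pt} : d ∈ nL.Jp ↔ d = (1, 0) ∨ d = (0, 1) := by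
  rw [Pot.nL_Jp]; simp

theorem mem_dU {U : Finset Pt} {e : Pt × Pt} :
    e ∈ dU U ↔ e.2 - e.1 ∈ nL.Jp ∧ (e.2 ∈ U ∨ e.1 + (1, 1) ∈ U) := by
  obtain ⟨⟨a, b⟩, ⟨c, d⟩⟩ := e
  simp only [dU, mem_image, Lat.mem_edT, mem_Jp, dual]
  constructor
  · rintro ⟨⟨⟨x, y⟩, ⟨z, w⟩⟩, ⟨h1, h2⟩, h3⟩
    simp only [Prod.mk_sub_mk, Prod.mk.injEq, Prod.swap_prod_mk, Prod.mk_add_mk] at h1 h2 h3 ⊢
    obtain ⟨⟨rfl, rfl⟩, rfl, rfl⟩ := h3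
    refine ⟨by omega, h2.imp id fun h => ?_⟩
    convert h using 2 <;> omega
  · rintro ⟨h1, h2⟩
    refine ⟨((c, d), (a + 1, b + 1)), ⟨?_, h2⟩, ?_⟩
    · simp only [Prod.mk_sub_mk, Prod.mk.injEq] at h1 ⊢
      omega
    · simp only [Prod.mk_sub_mk, Prod.mk.injEq, Prod.swap_prod_mk, and_true] at h1 ⊢
      omega

theorem dU_mono {U U' : Finset Pt} (h : U ⊆ U') : dU U ⊆ dU U' := fun _ he =>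
  mem_dU.2 ⟨(mem_dU.1 he).1, (mem_dU.1 he).2.imp (@h _) (@h _)⟩

theorem edI_xyL (b : ℝ) (B : Finset Pt) : (xyL b).edI B = nL.edI B := rfl

theorem edT_xyL (b : ℝ) (B : Finset Pt) : (xyL b).edT B = nL.edT B := rfl

theorem xyL_w (b : ℝ) : (xyL b).w = bes b := rfl

theorem seam_eq (r : ℕ) : seam r = ray2 (-1) r := by
  funext e
  simp only [seam, ray2, ray, Prod.fst_zero, Prod.snd_zero]
  split_ifs <;> omega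

end Crest.Agent.T145.Vd
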