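import Crest.Agent.T145.EsD_28
import Crest.Agent.T145.EsP_28
import Crest.Agent.T145.VdDef_27

/-!
# Row 145: (H), the polynomial lower bound for a seam between two free slits (helper28)
-/

set_option autoImplicit false

namespace Crest.Agent.T145.Es28

open Finset

/-- the seam on the vertical edges `((i, a₂ - 1), (i, a₂))`, `a₁ ≤ i < a₁ + r` -/
def sm (a : Pt) (r : ℕ) (e : Pt × Pt) : ℤ :=
  if e.1.2 = a.2 - 1 ∧ e.2.2 = a.2 ∧ e.1.1 = e.2.1 ∧ a.1 ≤ e.1.1 ∧ e.1.1 < a.1 + r then 1 else 0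

/-- the region above the seam: height `ρ` at the two ends, slope `1` -/
def Roof (a : Pt) (r ρ : ℕ) (z : Pt) : Prop :=
  a.1 ≤ z.1 ∧ z.1 < a.1 + r ∧ a.2 ≤ z.2 ∧ z.2 - a.2 < ρ + min (z.1 - a.1) (a.1 + r - 1 - z.1)

/-- the edges of `m` that meet the roof are lattice edges, do not leave it sideways, and their ends in the
roof are free sites without site weight -/
def Slit (Λ : Lat) (m : Mdl Pt) (a : Pt) (r ρ : ℕ) : Prop :=
  (∀ e ∈ m.ed, Roof a r ρ e.1 ∨ Roof a r ρ e.2 → e.2 - e.1 ∈ Λ.Jp ∧ m.w e = Λ.w ∧ a.1 ≤ e.1.1 ∧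
    e.2.1 < a.1 + r ∧ (Roof a r ρ e.1 → e.1 ∈ m.A) ∧ (Roof a r ρ e.2 → e.2 ∈ m.A)) ∧
  ∀ x ∈ m.A, Roof a r ρ x → ∀ k, m.site x k = 1

/-- (H) -/
def HStmt : Prop := ∀ (F : Fa) (θ₀ : ℝ), 0 < θ₀ → ∃ (C : ℕ) (δ : ℝ), 0 < δ ∧ ∀ Λ, F.Mem Λ → Λ.J = nn →
  ∀ l L, Λ.Win θ₀ δ l L → ∀ ρ r : ℕ, (l : ℝ) ≤ δ * ρ → ρ + r ≤ 16 * L →
    ∀ (m : Mdl Pt) (a : Pt) (σ : Pt × Pt → ℤ), m.Ctr → m.Anch → Slit Λ m a r ρ →
      (∀ e ∈ m.ed, σ e = sm a r e) → ((ρ : ℝ) / (2 * (ρ + r))) ^ C ≤ Vd.rat m σ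

theorem sm_zero (r : ℕ) : sm 0 r = seam r := funext fun e => by simp [sm, seam]

variable {Λ : Lat} {a : Pt} {r ρ : ℕ}

/-- distance to the row below the seam -/
def tt (a : Pt) (r : ℕ) (z : Pt) : ℤ :=
  max (max (z.2 - a.2 + 1) (a.2 - 1 - z.2)) (max (a.1 - z.1) (z.1 - (a.1 + r - 1)))

/-- local scale -/
def dd (a : Pt) (r ρ : ℕ) (z : Pt) : ℤ := ρ + max 0 (min (z.1 - a.1) (a.1 + r - 1 - z.1))

/-- the row below the seam -/
noncomputable def UU (a : Pt) (r : ℕ) : Finset Pt := Ico a.1 (a.1 + r) ×ˢ {a.2 - 1}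

/-- the bulk domain -/
noncomputable def DD (a : Pt) (r ρ : ℕ) : Finset Pt :=
  (bl a (ρ + r + 1)).filter fun z => 0 < tt a r z ∧ tt a r z ≤ dd a r ρ z

theorem mem_UU {z : Pt} : z ∈ UU a r ↔ a.1 ≤ z.1 ∧ z.1 < a.1 + r ∧ z.2 = a.2 - 1 := by
  simp only [UU, mem_product, mem_Ico, mem_singleton, and_assoc]

theorem mem_DD {z : Pt} : z ∈ DD a r ρ ↔ 0 < tt a r z ∧ tt a r z ≤ dd a r ρ z := by
  rw [DD, mem_filter, and_iff_right_iff_imp, mem_bl, tt, dd]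
  push_cast
  omega

theorem jp_nn (hJ : Λ.J = nn) {e : Pt × Pt} (h : e.2 - e.1 ∈ Λ.Jp) :
    (e.2.1 = e.1.1 + 1 ∧ e.2.2 = e.1.2) ∨ (e.2.1 = e.1.1 ∧ e.2.2 = e.1.2 + 1) := by
  have : Λ.Jp = {(1, 0), (0, 1)} := by rw [Lat.Jp, hJ]; decide
  simp only [this, mem_insert, mem_singleton, Prod.ext_iff, Prod.fst_sub, Prod.snd_sub] at h
  omega

/-- comparison with the bulk model -/
theorem slit_le (h : Λ.Ok) (hJ : Λ.J = nn) (hρ : 1 ≤ ρ) {m : Mdl Pt} {σ : Pt × Pt → ℤ} (hm : m.Ctr)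
    (ha : m.Anch) (hS : Slit Λ m a r ρ) (hσ : ∀ e ∈ m.ed, σ e = sm a r e) :
    Zs ((Λ.D (DD a r ρ)).W (cst (UU a r) (-1))) / Zs ((Λ.D (DD a r ρ)).W 0) ≤ Vd.rat m σ := by
  classical
  refine bulk_le (A := m.A.filter (Roof a r ρ)) hm ha (h.ctr_D _) (h.anch_D _) (fun _ _ => rfl)
    (filter_subset _ _) (fun x hx => hS.2 x (mem_filter.1 hx).1 (mem_filter.1 hx).2)
    (fun e he _ c => ?_) fun e he c => ?_
  · rw [hσ e he, sm, if_neg fun k => ?_]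
    have : Roof a r ρ e.2 := by unfold Roof; omega
    exact c (mem_filter.2 ⟨(hS.1 e he (.inr this)).2.2.2.2.2 this, this⟩)
  · have c' := c.imp (fun k => (mem_filter.1 k).2) fun k => (mem_filter.1 k).2
    obtain ⟨b1, b2, b3, b4, b5, b6⟩ := hS.1 e he c'
    have j := jp_nn hJ b1
    refine ⟨Lat.mem_edT.2 ⟨b1, c'.imp (fun k => ?_) fun k => ?_⟩, b2, fun k k' => ?_,
      fun k k' => ?_, ?_⟩
    · rw [mem_DD]; unfold Roof at k; unfold tt dd; omega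
    · rw [mem_DD]; unfold Roof at k; unfold tt dd; omega
    · have n : ¬ Roof a r ρ e.1 := fun q => k (mem_filter.2 ⟨b5 q, q⟩)
      have k' := mem_DD.1 k'
      unfold Roof at n c'; unfold tt dd at k'; omega
    · have n : ¬ Roof a r ρ e.2 := fun q => k (mem_filter.2 ⟨b6 q, q⟩)
      have k' := mem_DD.1 k'
      unfold Roof at n c'; unfold tt dd at k'; omega
    · rw [hσ e he, sm, dE, cst_apply, cst_apply]
      simp only [mem_UU]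
      unfold Roof at c'
      split_ifs <;> omega

/-- a path from the row to the outside passes through the middle of the bulk domain -/
theorem mid (hJ : Λ.J = nn) (hρ : 1 ≤ ρ) {D : Finset Pt} {ω : Finset (Pt × Pt)} (hω : ω ⊆ Λ.edT D)
    {x y : Pt} (hy : y ∈ UU a r) (c : Conn ω y x) (hx : dd a r ρ x ≤ 2 * tt a r x) :
    ∃ z, Conn ω y z ∧ dd a r ρ z ≤ 2 * tt a r z ∧ 2 * tt a r z ≤ dd a r ρ z + 2 := by
  induction c with
  | refl => rw [mem_UU] at hy; unfold tt dd at hx; omega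
  | @tail u v hu huv ih =>
    by_cases k : dd a r ρ u ≤ 2 * tt a r u
    · exact ih k
    · refine ⟨v, .tail hu huv, hx, ?_⟩
      rcases huv with q | q <;> have := jp_nn hJ (Lat.mem_edT.1 (hω q)).1 <;>
        simp only at this <;> unfold tt dd at k ⊢ <;> omega

/-- centre of a ball of the cover -/
def ct (p : ℕ × Pt × Pt) : Pt := (p.2.1.1 + 2 ^ p.1 * p.2.2.1, p.2.1.2 + 2 ^ p.1 * p.2.2.2)

/-- the cover -/
noncomputable def TT (a : Pt) (r ρ k : ℕ) : Finset (ℕ × Pt × Pt) :=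
  (Icc (Nat.log 2 (ρ / (16 * 2 ^ k))) (Nat.log 2 ((ρ + r) / (16 * 2 ^ k))) ×ˢ
    ({(a.1, a.2 - 1), (a.1 + r - 1, a.2 - 1)} ×ˢ bl 0 (32 * 2 ^ k))).filter
      fun p => bl (ct p) (2 ^ (k + p.1)) ⊆ DD a r ρ

theorem grid {u κ N : ℤ} (h0 : 0 < κ) (h1 : -(N * κ) ≤ u) (h2 : u ≤ N * κ) :
    -N ≤ u / κ ∧ u / κ ≤ N ∧ κ * (u / κ) ≤ u ∧ u ≤ κ * (u / κ) + κ := by
  have a1 := Int.mul_ediv_add_emod u κ
  have a2 := Int.emod_nonneg u h0.ne'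
  have a3 := Int.emod_lt_of_pos u h0
  refine ⟨(Int.le_ediv_iff_mul_le h0).2 (by linarith), Int.ediv_le_of_le_mul h0 h2, by linarith,
    by linarith⟩

theorem cover {k : ℕ} (hρ : 16 * 2 ^ k ≤ ρ) {z : Pt} (h1 : dd a r ρ z ≤ 2 * tt a r z)
    (h2 : 2 * tt a r z ≤ dd a r ρ z + 2) : ∃ p ∈ TT a r ρ k, z ∈ bl (ct p) (2 ^ p.1) := by
  have M0 : 0 < 16 * 2 ^ k := by positivity
  obtain ⟨d, hd⟩ : ∃ d : ℕ, dd a r ρ z = d := ⟨(dd a r ρ z).toNat, by unfold dd; omega⟩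
  have d1 : ρ ≤ d := by unfold dd at hd; omega
  have d2 : d ≤ ρ + r := by unfold dd at hd; omega
  set i := Nat.log 2 (d / (16 * 2 ^ k)) with hi
  have e1 : 2 ^ i * (16 * 2 ^ k) ≤ d := (Nat.le_div_iff_mul_le M0).1
    (Nat.pow_log_le_self 2 (Nat.div_pos (hρ.trans d1) M0).ne')
  have e2 : d < 2 ^ (i + 1) * (16 * 2 ^ k) :=
    (Nat.div_lt_iff_lt_mul M0).1 (Nat.lt_pow_succ_log_self one_lt_two _)
  obtain ⟨L, hL⟩ : ∃ L : ℕ, 2 ^ k * 2 ^ i = L := ⟨_, rfl⟩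
  have e3 : 16 * L ≤ d := by rw [← hL]; linarith
  have e4 : d < 32 * L := by rw [← hL, pow_succ] at *; linarith
  have e5 : 2 ^ i ≤ L := hL ▸ Nat.le_mul_of_pos_left _ (by positivity)
  have e6 : ((32 * 2 ^ k : ℕ) : ℤ) * 2 ^ i = 32 * L := by rw [← hL]; push_cast; ring
  obtain ⟨τ, hτ, h3⟩ : ∃ τ ∈ ({(a.1, a.2 - 1), (a.1 + r - 1, a.2 - 1)} : Finset Pt),
      z ∈ bl τ (32 * L) := by
    simp only [mem_insert, mem_singleton, exists_eq_or_imp, exists_eq_left, mem_bl]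
    unfold tt dd at *
    omega
  rw [mem_bl] at h3
  have g1 := grid (u := z.1 - τ.1) (κ := 2 ^ i) (N := (32 * 2 ^ k : ℕ)) (by positivity)
    (by rw [e6]; omega) (by rw [e6]; omega)
  have g2 := grid (u := z.2 - τ.2) (κ := 2 ^ i) (N := (32 * 2 ^ k : ℕ)) (by positivity)
    (by rw [e6]; omega) (by rw [e6]; omega)
  have hz : z ∈ bl (ct (i, τ, (z.1 - τ.1) / 2 ^ i, (z.2 - τ.2) / 2 ^ i)) (2 ^ i) := by
    rw [mem_bl]
    simp only [ct]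
    push_cast
    refine ⟨⟨?_, ?_⟩, ?_, ?_⟩ <;> linarith [g1.2.2.1, g1.2.2.2, g2.2.2.1, g2.2.2.2,
      (by positivity : (0 : ℤ) < 2 ^ i)]
  have i1 : Nat.log 2 (ρ / (16 * 2 ^ k)) ≤ i := Nat.log_mono_right (Nat.div_le_div_right d1)
  have i2 : i ≤ Nat.log 2 ((ρ + r) / (16 * 2 ^ k)) := Nat.log_mono_right (Nat.div_le_div_right d2)
  refine ⟨(i, τ, (z.1 - τ.1) / 2 ^ i, (z.2 - τ.2) / 2 ^ i), mem_filter.2 ⟨mem_product.2
    ⟨mem_Icc.2 ⟨i1, i2⟩, mem_product.2 ⟨hτ, ?_⟩⟩, ?_⟩, hz⟩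
  · rw [mem_bl]
    simp only [Prod.fst_zero, Prod.snd_zero, zero_sub, zero_add]
    exact ⟨⟨g1.1, g1.2.1⟩, g2.1, g2.2.1⟩
  · refine (bl_subset_bl (mem_bl_comm.1 hz) (r' := 2 * L) (by rw [pow_add, hL]; omega)).trans
      fun w hw => ?_
    rw [mem_bl] at hw
    rw [mem_DD]
    have : 0 < L := (by positivity : 0 < 2 ^ i).trans_le e5
    unfold tt dd at *
    omega

theorem card_TT (k : ℕ) (hρ : 16 * 2 ^ k ≤ ρ) : ((ρ : ℝ) / (2 * (ρ + r))) ^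
    (8 * (2 * (2 * (32 * 2 ^ k) + 1) ^ 2)) ≤ (1 / 12) ^ (TT a r ρ k).card := by
  have M0 : 0 < 16 * 2 ^ k := by positivity
  set i₀ := Nat.log 2 (ρ / (16 * 2 ^ k))
  set i₁ := Nat.log 2 ((ρ + r) / (16 * 2 ^ k))
  set N₀ := 2 * (2 * (32 * 2 ^ k) + 1) ^ 2
  have e0 : i₀ ≤ i₁ := Nat.log_mono_right (Nat.div_le_div_right (by omega))
  have e1 : 2 ^ i₁ * (16 * 2 ^ k) ≤ ρ + r := (Nat.le_div_iff_mul_le M0).1
    (Nat.pow_log_le_self 2 (Nat.div_pos (by omega) M0).ne')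
  have e2 : ρ < 2 ^ (i₀ + 1) * (16 * 2 ^ k) :=
    (Nat.div_lt_iff_lt_mul M0).1 (Nat.lt_pow_succ_log_self one_lt_two _)
  obtain ⟨n, hn⟩ := Nat.exists_eq_add_of_le e0
  have e3 : (TT a r ρ k).card ≤ (n + 1) * N₀ := (card_filter_le _ _).trans (by
    rw [card_product, card_product, card_bl, Nat.card_Icc, show i₁ + 1 - i₀ = n + 1 by omega]
    exact Nat.mul_le_mul_left _ (Nat.mul_le_mul_right _ card_le_two))
  have e4 : 2 ^ (n + 1) * ρ ≤ 4 * (ρ + r) :=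
    calc 2 ^ (n + 1) * ρ ≤ 2 ^ (n + 1) * (2 ^ (i₀ + 1) * (16 * 2 ^ k)) := Nat.mul_le_mul_left _ e2.le
      _ = 4 * (2 ^ i₁ * (16 * 2 ^ k)) := by rw [hn]; ring
      _ ≤ _ := Nat.mul_le_mul_left _ e1
  have r0 : (0 : ℝ) < ρ := by exact_mod_cast M0.trans_le hρ
  have e5 : ((ρ : ℝ) / (2 * (ρ + r))) ^ 2 ≤ (1 / 2) ^ (n + 1) := by
    have : (2 : ℝ) ^ (n + 1) * ρ ≤ 4 * (ρ + r) := by exact_mod_cast e4
    rw [div_pow, one_div_pow, div_le_div_iff₀ (by positivity) (by positivity)]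
    have q : (0 : ℝ) ≤ r := by positivity
    nlinarith [mul_le_mul_of_nonneg_left this r0.le]
  calc _ = (((ρ : ℝ) / (2 * (ρ + r))) ^ 2) ^ (4 * N₀) := by rw [← pow_mul]; congr 1; ring
    _ ≤ ((1 / 2) ^ (n + 1)) ^ (4 * N₀) := pow_le_pow_left₀ (by positivity) e5 _
    _ = (1 / 16) ^ ((n + 1) * N₀) := by
      rw [← pow_mul, show (1 / 16 : ℝ) = (1 / 2) ^ 4 by norm_num, ← pow_mul]; congr 1; ring
    _ ≤ (1 / 12) ^ ((n + 1) * N₀) := pow_le_pow_left₀ (by positivity) (by norm_num) _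
    _ ≤ _ := pow_le_pow_of_le_one (by norm_num) (by norm_num) e3

theorem hStmt_of (hL : LocStmt) (hm : T1mStmt) : HStmt := fun F θ₀ h0 => by
  obtain ⟨k, δ₁, p1, H1⟩ := hL F (θ₀ / 2) (by positivity)
  obtain ⟨δ₂, p2, H2⟩ := hm.2.2 F θ₀ δ₁ 0 h0 p1
  refine ⟨8 * (2 * (2 * (32 * 2 ^ k) + 1) ^ 2), min δ₂ (min (δ₁ / 32) (1 / (16 * 2 ^ k))), by positivity,
    fun Λ hΛ hJ l L hw ρ r hl hr m a σ hc ha hS hσ => ?_⟩
  have h := hΛ.ok
  have s : Sep _ l ρ := ⟨hw.sep.1, hl⟩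
  have hρ : 16 * 2 ^ k ≤ ρ := by
    have s' := s.mono ((min_le_right _ _).trans (min_le_right _ _))
    exact (Nat.le_mul_of_pos_right _ s'.one_le_l).trans (s'.large (n := 16 * 2 ^ k) (by
      push_cast; rw [mul_one_div, div_self (by positivity)])).2
  have M0 : 0 < 16 * 2 ^ k := by positivity
  have ρ1 : 1 ≤ ρ := M0.trans_le hρ
  refine (card_TT (a := a) k hρ).trans (le_trans ?_ (slit_le h hJ ρ1 hc ha hS hσ))
  have hU : Disjoint (UU a r) (DD a r ρ) := disjoint_left.2 fun x hx k => by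
    rw [mem_UU] at hx; rw [mem_DD] at k; unfold tt at k; omega
  have sc := screen (h.ctr_D (DD a r ρ)).1 (fun _ _ _ => rfl) hU (h.wt_D _ 0) (h.wt_D _ _).summ
    (TT a r ρ k) (Φ := fun p ω => ind (¬ Cross (pins Λ (DD a r ρ)) (bl (ct p) (2 ^ p.1)) ω))
    (fun _ _ => cross_anti _ _) (fun _ _ _ => ind_nonneg _) (fun _ _ _ => ind_le_one _)
    fun ω hω hg => by
      simp only [Good, not_forall, not_not] at hg
      obtain ⟨y, hy, x, hx, hx', c⟩ := hg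
      obtain ⟨z, c', z1, z2⟩ := mid (ρ := ρ) hJ ρ1 hω hy c (by
        have : x ∉ DD a r ρ := hx
        rw [mem_DD] at this; rw [mem_UU] at hx'; unfold tt dd at *; omega)
      obtain ⟨p, hp, hz⟩ := cover hρ z1 z2
      refine ⟨p, hp, ind_neg (not_not.2 ⟨y, ?_, z, hz, c'⟩)⟩
      refine ((pins_D Λ _).2 (y, y + (0, 1)) (Lat.mem_edT.2 ⟨by simpa using h.e2, .inr ?_⟩)).1
        (disjoint_left.1 hU hy)
      rw [mem_UU] at hy; rw [mem_DD]; unfold tt dd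
      simp only [Prod.fst_add, Prod.snd_add]; omega
  rw [le_div_iff₀' (h.wt_D _ 0).pos]
  refine le_trans (mul_le_mul_of_nonneg_left ?_ (h.wt_D _ 0).pos.le) sc
  rw [← prod_const]
  refine prod_le_prod (fun _ _ => by norm_num) fun p hp => ?_
  obtain ⟨a1, a2⟩ := mem_filter.1 hp
  obtain ⟨a3, a4⟩ := mem_Icc.1 (mem_product.1 a1).1
  refine H1 Λ hΛ l p.1 ((H2 Λ hΛ l L (hw.mono le_rfl (min_le_left _ _))).2.2 _ ?_ (.inr ?_)) _ _ a2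
  · have e1 : 2 ^ Nat.log 2 ((ρ + r) / (16 * 2 ^ k)) * (16 * 2 ^ k) ≤ ρ + r :=
      (Nat.le_div_iff_mul_le M0).1 (Nat.pow_log_le_self 2 (Nat.div_pos (by omega) M0).ne')
    have e2 := Nat.mul_le_mul_right (16 * 2 ^ k) (Nat.pow_le_pow_right two_pos a4)
    have : 16 * 2 ^ (k + p.1) ≤ 16 * L := by rw [pow_add]; linarith
    omega
  · have e1 : ρ < 2 ^ (Nat.log 2 (ρ / (16 * 2 ^ k)) + 1) * (16 * 2 ^ k) :=
      (Nat.div_lt_iff_lt_mul M0).1 (Nat.lt_pow_succ_log_self one_lt_two _)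
    have e2 := Nat.mul_le_mul_right (16 * 2 ^ k)
      (Nat.pow_le_pow_right two_pos (Nat.add_le_add_right a3 1))
    have e3 : ρ ≤ 32 * 2 ^ (k + p.1) := by rw [pow_add]; rw [pow_succ 2 p.1] at e2; linarith
    have s' := s.mono ((min_le_right _ _).trans (min_le_left _ _))
    have e4 : (ρ : ℝ) ≤ 32 * ((2 ^ (k + p.1) : ℕ) : ℝ) := by exact_mod_cast e3
    exact ⟨(s'.mono (by linarith)).1, s'.2.trans (by nlinarith)⟩

/-- (H) from the Dirichlet free field windows -/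
theorem hStmt (hG : GffDStmt) (hm : T1mStmt) : HStmt := hStmt_of (locStmt hG hm) hm

end Crest.Agent.T145.Es28
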