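import Crest.Agent.T145.KrB_90

/-!
# Row 145, design N: theta function, from (K0) to the sector structure (helper90)
-/

set_option autoImplicit false

namespace Crest.Agent.T145.KrA

open Finset Real

variable {X Y : Type*}

/-- Poisson summation for the theta function -/
theorem thf_eq {κ : ℝ} (hκ : 0 < κ) (u : ℝ) :
    thf κ u = √(2 * π / κ) * ∑' n : ℤ, exp (-(2 * π ^ 2 / κ) * n ^ 2) * cos (2 * π * n * u) := by
  have ha : 0 < 2 * π / κ := by positivity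
  have h := Complex.tsum_exp_neg_quadratic (a := ((2 * π / κ : ℝ) : ℂ)) (by simpa using ha)
    (Complex.I * u)
  have e1 : ∀ n : ℤ, Complex.exp (-π / ((2 * π / κ : ℝ) : ℂ) * (n + Complex.I * (Complex.I * u)) ^ 2) =
      ((exp (-κ * (u - n) ^ 2 / 2) : ℝ) : ℂ) := fun n => by
    rw [Complex.ofReal_exp]; congr 1
    have : (π : ℂ) ≠ 0 := by exact_mod_cast pi_ne_zero
    have : (κ : ℂ) ≠ 0 := by exact_mod_cast hκ.ne'
    rw [← mul_assoc, Complex.I_mul_I]; push_cast; field_simp; ring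
  have e2 : ∀ n : ℤ, (Complex.exp (-π * ((2 * π / κ : ℝ) : ℂ) * n ^ 2 + 2 * π * (Complex.I * u) * n)).re =
      exp (-(2 * π ^ 2 / κ) * n ^ 2) * cos (2 * π * n * u) := fun n => by
    have : -π * ((2 * π / κ : ℝ) : ℂ) * n ^ 2 + 2 * π * (Complex.I * u) * n =
        ((-(2 * π ^ 2 / κ) * n ^ 2 : ℝ) : ℂ) + ((2 * π * n * u : ℝ) : ℂ) * Complex.I := by
      push_cast; ring
    rw [this, Complex.exp_add, ← Complex.ofReal_exp, Complex.re_ofReal_mul, Complex.exp_ofReal_mul_I_re]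
  have s2 : Summable fun n : ℤ =>
      Complex.exp (-π * ((2 * π / κ : ℝ) : ℂ) * n ^ 2 + 2 * π * (Complex.I * u) * n) := by
    refine Summable.of_norm ((summ_thf (κ := 4 * π ^ 2 / κ) (by positivity) 0).congr fun n => ?_)
    rw [Complex.norm_exp]; congr 1
    have : -π * ((2 * π / κ : ℝ) : ℂ) * n ^ 2 + 2 * π * (Complex.I * u) * n =
        ((-(2 * π ^ 2 / κ) * n ^ 2 : ℝ) : ℂ) + ((2 * π * n * u : ℝ) : ℂ) * Complex.I := by
      push_cast; ring
    rw [this, Complex.add_re, Complex.ofReal_re, Complex.re_ofReal_mul, Complex.I_re]; ring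
  have e3 : ((2 * π / κ : ℝ) : ℂ) ^ (1 / 2 : ℂ) = ((√(2 * π / κ) : ℝ) : ℂ) := by
    rw [sqrt_eq_rpow, Complex.ofReal_cpow ha.le]; push_cast; rfl
  simp only [e1] at h
  rw [e3, ← Complex.ofReal_tsum] at h
  have h2 := congrArg Complex.re h
  rw [Complex.re_tsum s2] at h2
  simp only [e2] at h2
  rw [h2, ← Complex.ofReal_one, ← Complex.ofReal_div, ← Complex.ofReal_mul, Complex.ofReal_re, thf]
  have : 0 < √(2 * π / κ) := sqrt_pos.2 ha
  field_simp

/-- first harmonic of the theta function -/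
theorem thf_near {κ : ℝ} (hκ : 0 < κ) (hl : exp (-(2 * π ^ 2 / κ)) ≤ 1 / 2) (u : ℝ) :
    |thf κ u / √(2 * π / κ) - (1 + 2 * exp (-(2 * π ^ 2 / κ)) * cos (2 * π * u))| ≤
      4 * exp (-(2 * π ^ 2 / κ)) ^ 4 := by
  set l := exp (-(2 * π ^ 2 / κ)) with hl'
  have l0 : 0 < l := exp_pos _
  have c0 : 0 < 2 * π ^ 2 / κ := by positivity
  rw [thf_eq hκ, mul_div_cancel_left₀ _ (sqrt_pos.2 (by positivity)).ne']
  set f : ℤ → ℝ := fun n => exp (-(2 * π ^ 2 / κ) * n ^ 2) * cos (2 * π * n * u) with hf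
  have hb : ∀ n : ℕ, ∀ m : ℤ, |m| = n + 2 → |f m| ≤ l ^ 4 * (1 / 2) ^ n := fun n m hm => by
    rw [hf, abs_mul, abs_of_pos (exp_pos _)]
    refine (mul_le_of_le_one_right (exp_pos _).le (abs_cos_le_one _)).trans ?_
    have h1 : (m : ℝ) ^ 2 = (n + 2) ^ 2 := by
      rw [← sq_abs]; congr 1; exact_mod_cast hm
    calc exp (-(2 * π ^ 2 / κ) * m ^ 2) ≤ exp (((4 + n : ℕ) : ℝ) * -(2 * π ^ 2 / κ)) := by
          refine exp_le_exp.2 ?_
          rw [h1]; push_cast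
          nlinarith [mul_nonneg c0.le (by positivity : (0 : ℝ) ≤ n ^ 2 + 3 * n)]
      _ = l ^ 4 * l ^ n := by rw [exp_nat_mul, pow_add]
      _ ≤ _ := mul_le_mul_of_nonneg_left (pow_le_pow_left₀ l0.le hl n) (by positivity)
  have g := hasSum_geometric_two.mul_left (l ^ 4)
  have s1 : Summable fun n : ℕ => f ((n + 2 : ℕ) : ℤ) :=
    Summable.of_norm_bounded g.summable fun n => hb n _ (by push_cast; exact abs_of_nonneg (by positivity))
  have s2 : Summable fun n : ℕ => f (-(((n + 1 : ℕ) : ℤ) + 1)) :=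
    Summable.of_norm_bounded g.summable fun n => hb n _ (by
      rw [abs_neg, abs_of_nonneg (by positivity)]; push_cast; ring)
  have b1 : |∑' n : ℕ, f ((n + 2 : ℕ) : ℤ)| ≤ l ^ 4 * 2 :=
    tsum_of_norm_bounded (f := fun n : ℕ => f ((n + 2 : ℕ) : ℤ)) g fun n =>
      hb n _ (by push_cast; exact abs_of_nonneg (by positivity))
  have b2 : |∑' n : ℕ, f (-(((n + 1 : ℕ) : ℤ) + 1))| ≤ l ^ 4 * 2 :=
    tsum_of_norm_bounded (f := fun n : ℕ => f (-(((n + 1 : ℕ) : ℤ) + 1))) g fun n => hb n _ (by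
      rw [abs_neg, abs_of_nonneg (by positivity)]; push_cast; ring)
  have t1 : Summable fun n : ℕ => f n := (summable_nat_add_iff 2).1 s1
  have t2 : Summable fun n : ℕ => f (-((n : ℤ) + 1)) := (summable_nat_add_iff 1).1 s2
  rw [tsum_of_nat_of_neg_add_one t1 t2, ← t1.sum_add_tsum_nat_add 2, ← t2.sum_add_tsum_nat_add 1]
  have f0 : f 0 = 1 := by simp [hf]
  have f1 : f 1 = l * cos (2 * π * u) := by simp [hf, hl']
  have f2 : f (-1) = l * cos (2 * π * u) := by simp [hf, hl']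
  simp only [sum_range_succ, range_zero, sum_empty, Nat.cast_zero, Nat.cast_one, zero_add, f0, f1, f2]
  rw [abs_le] at *
  constructor <;> linarith [b1.1, b1.2, b2.1, b2.2]

theorem thf_tail {κ : ℝ} (hκ : 0 < κ) (hl : exp (-(2 * π ^ 2 / κ)) ≤ 1 / 2) (K : ℕ) {u : ℝ} (hu : |u| ≤ 2) :
    ∑' j : ℤ, (if j ∈ Icc (-(K + 1) : ℤ) (K + 1) then 0 else exp (-κ * (u - j) ^ 2 / 2)) ≤
      3 * √(4 * π / κ) * exp (-κ * K ^ 2 / 4) := by
  have h2 : 0 < κ / 2 := by positivity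
  have s := (summ_thf h2 u).mul_right (exp (-κ * K ^ 2 / 4))
  have b : ∀ j : ℤ, (if j ∈ Icc (-(K + 1) : ℤ) (K + 1) then 0 else exp (-κ * (u - j) ^ 2 / 2)) ≤
      exp (-(κ / 2) * (u - j) ^ 2 / 2) * exp (-κ * K ^ 2 / 4) := fun j => by
    split_ifs with hj
    · positivity
    · rw [← exp_add]
      refine exp_le_exp.2 ?_
      rw [mem_Icc] at hj; rw [abs_le] at hu
      have : (K : ℝ) ^ 2 ≤ (u - j) ^ 2 := by
        rw [← sq_abs (u - j)]
        refine pow_le_pow_left₀ (by positivity) ?_ 2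
        rcases (by omega : (K + 2 : ℤ) ≤ j ∨ j ≤ -(K + 2 : ℤ)) with h' | h'
        · have : (K + 2 : ℝ) ≤ j := by exact_mod_cast h'
          exact le_abs.2 (Or.inr (by linarith))
        · have : (j : ℝ) ≤ -(K + 2 : ℝ) := by exact_mod_cast h'
          exact le_abs.2 (Or.inl (by linarith))
      nlinarith
  refine ((Summable.of_nonneg_of_le (fun j => by split_ifs; exacts [le_rfl, (exp_pos _).le]) b
    s).tsum_le_tsum b s).trans ?_
  rw [tsum_mul_right]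
  refine mul_le_mul_of_nonneg_right ?_ (exp_pos _).le
  have l2 : exp (-(2 * π ^ 2 / (κ / 2))) ≤ 1 / 2 := (exp_le_exp.2 (by
    have : 2 * π ^ 2 / κ ≤ 2 * π ^ 2 / (κ / 2) := div_le_div_of_nonneg_left (by positivity) h2 (by linarith)
    linarith)).trans hl
  have h := (abs_le.1 (thf_near h2 l2 u)).2
  rw [show 2 * π / (κ / 2) = 4 * π / κ by field_simp; ring] at h
  have sp : 0 < √(4 * π / κ) := sqrt_pos.2 (by positivity)
  have l0 := exp_pos (-(2 * π ^ 2 / (κ / 2)))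
  have l4 : exp (-(2 * π ^ 2 / (κ / 2))) ^ 4 ≤ (1 / 2) ^ 4 := pow_le_pow_left₀ l0.le l2 4
  have c1 := mul_le_mul_of_nonneg_left (cos_le_one (2 * π * u)) l0.le
  have : thf (κ / 2) u / √(4 * π / κ) ≤ 3 := by linarith
  rwa [div_le_iff₀ sp] at this

/-- packaging: (K#) gives the sector structure -/
theorem sec_of (A : Act X) (B : Act Y) {μ : X × Y → ℝ} {p : X → ℝ} {q : Y → ℝ} {y : X → Y → ℝ}
    {κ η β₁ : ℝ} (hκ : 0 < κ) (μ0 : ∀ z, 0 ≤ μ z) (μ1 : HasSum (fun z : X × Y => tw (A.H z.1) * μ z) 1)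
    (p0 : ∀ a, 0 ≤ p a) (q0 : ∀ b, 0 ≤ q b) (pe : ∀ a, p (A.ng a) = p a)
    (sp : Summable (A.pib p)) (sq : Summable (B.pib q))
    (yng : ∀ a b, y (A.ng a) b = -y a b) (β0 : 0 ≤ β₁) (y1 : ∀ a b, A.T a → B.T b → |y a b| ≤ β₁)
    (cl : ∑' z : X × Y, |mub A B μ z - A.pib p z.1 * B.pib q z.2 *
      (thf κ (A.H z.1 - B.H z.2) * exp (y z.1 z.2))| ≤ η) (hη : η ≤ 1 / 2)
    (hβ : β₁ ≤ 1 / 20) (hl : exp (-(2 * π ^ 2 / κ)) ≤ 1 / 20) :
    Sec (mub A B μ) (fun a => √(2 * π / κ) * A.pib p a) (B.pib q)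
      (fun a b => thf κ (A.H a - B.H b) / √(2 * π / κ) * exp (y a b)) A.H B.H y A.ng
      (exp (-(2 * π ^ 2 / κ))) η (3 * β₁ + 3 * exp (-(2 * π ^ 2 / κ)))
      (β₁ ^ 3 + 4 * exp (-(2 * π ^ 2 / κ)) * β₁ + 12 * exp (-(2 * π ^ 2 / κ)) ^ 4) β₁ := by
  set l := exp (-(2 * π ^ 2 / κ)) with hl'
  have l0 : 0 < l := exp_pos _
  have s0 : 0 < √(2 * π / κ) := sqrt_pos.2 (by positivity)
  have ex : ∀ a b, √(2 * π / κ) * A.pib p a ≠ 0 → B.pib q b ≠ 0 →
      |thf κ (A.H a - B.H b) / √(2 * π / κ) * exp (y a b) - k2 l (A.H a) (B.H b) (y a b)| ≤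
        β₁ ^ 3 + 4 * l * β₁ + 12 * l ^ 4 := fun a b ha hb =>
    (k2_near l0.le (y1 a b (A.pib_ne (right_ne_zero_of_mul ha)).1 (B.pib_ne hb).1) (by linarith)
      (thf_near hκ (hl.trans (by norm_num)) _)).trans (le_of_eq (by ring))
  refine ⟨⟨mub_nonneg A B μ0, hasSum_mub_one A B μ0 μ1, fun a => mul_nonneg s0.le (A.pib_nonneg p0 a),
    sp.mul_left _, B.pib_nonneg q0, sq, le_of_eq_of_le (tsum_congr fun z => ?_) cl, fun a b ha hb => ?_,
    hη, by positivity, by linarith⟩, l0.le, by positivity, β0, ex,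
    fun a b ha hb => y1 a b (A.pib_ne (right_ne_zero_of_mul ha)).1 (B.pib_ne hb).1,
    fun a => by rw [A.pib_ng pe], A.H_ng, yng⟩
  · congr 2; field_simp
  · have h1 := ex a b ha hb
    have h2 := k2_sub_one (H := A.H a) (t := B.H b) l0.le
      (y1 a b (A.pib_ne (right_ne_zero_of_mul ha)).1 (B.pib_ne hb).1) (by linarith)
    have h3 : β₁ ^ 3 ≤ β₁ / 2 := by nlinarith [mul_nonneg β0 β0]
    have h4 : l ^ 4 ≤ l / 12 := by
      have : l ^ 3 ≤ (1 / 20) ^ 3 := pow_le_pow_left₀ l0.le hl 3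
      nlinarith
    have h5 : 4 * l * β₁ ≤ β₁ / 2 := by nlinarith
    rw [abs_le] at *
    constructor <;> linarith [h1.1, h1.2, h2.1, h2.2]

/-- folding the diagonal shifts -/
theorem fold_diag (A : Act X) (B : Act Y) {μ f : X × Y → ℝ} (μ0 : ∀ z, 0 ≤ μ z) (f0 : ∀ z, 0 ≤ f z)
    (μs : ∀ i a b, μ (A.s i a, B.s i b) = μ (a, b)) (μ1 : HasSum (fun z : X × Y => tw (A.H z.1) * μ z) 1)
    {C : ℝ} (hs : ∀ z : X × Y, Summable fun j : ℤ => f (A.s j z.1, B.s j z.2))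
    (hC : ∀ z : X × Y, ∑' j : ℤ, f (A.s j z.1, B.s j z.2) ≤ C) :
    Summable (fun z => μ z * f z) ∧ ∑' z, μ z * f z ≤ C := by
  let E : (X × Y) × ℤ ≃ (X × Y) × ℤ :=
    { toFun := fun w => ((A.s w.2 w.1.1, B.s w.2 w.1.2), w.2)
      invFun := fun w => (((A.s w.2).symm w.1.1, (B.s w.2).symm w.1.2), w.2)
      left_inv := fun w => by simp
      right_inv := fun w => by simp }
  have n0 : ∀ w : (X × Y) × ℤ, 0 ≤ tw (A.H w.1.1) * μ w.1 * f (A.s w.2 w.1.1, B.s w.2 w.1.2) := fun w =>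
    mul_nonneg (mul_nonneg (tw_nonneg _) (μ0 _)) (f0 _)
  have n1 : ∀ z : X × Y, HasSum (fun j : ℤ => tw (A.H z.1) * μ z * f (A.s j z.1, B.s j z.2))
      (tw (A.H z.1) * μ z * ∑' j : ℤ, f (A.s j z.1, B.s j z.2)) := fun z => (hs z).hasSum.mul_left _
  have b : ∀ z : X × Y, tw (A.H z.1) * μ z * ∑' j : ℤ, f (A.s j z.1, B.s j z.2) ≤ tw (A.H z.1) * μ z * C :=
    fun z => mul_le_mul_of_nonneg_left (hC z) (mul_nonneg (tw_nonneg _) (μ0 _))
  have s1 : Summable fun z : X × Y => tw (A.H z.1) * μ z * ∑' j : ℤ, f (A.s j z.1, B.s j z.2) :=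
    Summable.of_nonneg_of_le (fun z => mul_nonneg (mul_nonneg (tw_nonneg _) (μ0 _))
      (tsum_nonneg fun _ => f0 _)) b (μ1.summable.mul_right C)
  have g0 : Summable fun w : (X × Y) × ℤ => tw (A.H w.1.1) * μ w.1 * f (A.s w.2 w.1.1, B.s w.2 w.1.2) := by
    rw [summable_prod_of_nonneg n0]
    exact ⟨fun z => (n1 z).summable, s1.congr fun z => (n1 z).tsum_eq.symm⟩
  have g1 : HasSum (fun w : (X × Y) × ℤ => μ w.1 * f w.1 * tw (A.H w.1.1 - w.2))
      (∑' z : X × Y, tw (A.H z.1) * μ z * ∑' j : ℤ, f (A.s j z.1, B.s j z.2)) := by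
    rw [← E.hasSum_iff]
    have := g0.hasSum
    rw [g0.tsum_prod, tsum_congr fun z => (n1 z).tsum_eq] at this
    convert this using 1
    funext w
    simp only [Function.comp, E, Equiv.coe_fn_mk, A.H_s, add_sub_cancel_right, μs]; ring
  have g2 := g1.prod_fiberwise (g := fun z => μ z * f z) fun z => by
    simpa only [mul_one] using (hasSum_tw' (A.H z.1)).mul_left (μ z * f z)
  refine ⟨g2.summable, g2.tsum_eq.le.trans ((s1.tsum_le_tsum b (μ1.summable.mul_right C)).trans ?_)⟩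
  rw [tsum_mul_right, μ1.tsum_eq, one_mul]

/-- a weight close to a product of probability weights is close to the product of its marginals -/
theorem marg_prod {ρ : X × Y → ℝ} {p : X → ℝ} {q : Y → ℝ} {ε : ℝ} (sρ : Summable ρ)
    (p0 : ∀ a, 0 ≤ p a) (q0 : ∀ b, 0 ≤ q b) (p1 : HasSum p 1) (q1 : HasSum q 1)
    (cl : n1 (fun z : X × Y => ρ z - p z.1 * q z.2) ≤ ε) :
    1 - ε ≤ ∑' z, ρ z ∧ n1 (fun a => ∑' b, ρ (a, b)) ≤ 1 + ε ∧ n1 (fun b => ∑' a, ρ (a, b)) ≤ 1 + ε ∧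
    n1 (fun z : X × Y => ρ z - (∑' b, ρ (z.1, b)) * ∑' a, ρ (a, z.2)) ≤ (3 + ε) * ε := by
  have spq := summ_tens p1.summable q1.summable
  have sρ' : Summable fun z : Y × X => ρ (z.2, z.1) := (Equiv.prodComm Y X).summable_iff.2 sρ
  have sa : Summable fun a => ∑' b, ρ (a, b) := sρ.prod
  have sb : Summable fun b => ∑' a, ρ (a, b) := sρ'.prod
  have m1 : n1 (fun a => (∑' b, ρ (a, b)) - p a) ≤ ε := by
    refine le_of_eq_of_le ?_ ((n1_marg (sρ.sub spq)).trans cl)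
    congr 1; funext a
    dsimp only
    rw [(sρ.prod_factor a).tsum_sub (q1.summable.mul_left _), tsum_mul_left, q1.tsum_eq, mul_one]
  have m2 : n1 (fun b => (∑' a, ρ (a, b)) - q b) ≤ ε := by
    have h := n1_marg (sρ'.sub (summ_tens q1.summable p1.summable))
    have h2 : n1 (fun z : Y × X => ρ (z.2, z.1) - q z.1 * p z.2) =
        n1 (fun z : X × Y => ρ z - p z.1 * q z.2) := by
      rw [n1, n1, ← (Equiv.prodComm X Y).tsum_eq]
      exact tsum_congr fun z => by simp [mul_comm]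
    refine le_of_eq_of_le ?_ (h.trans (h2.le.trans cl))
    congr 1; funext b
    have sb' : Summable fun a => ρ (a, b) := sρ'.prod_factor b
    dsimp only
    rw [sb'.tsum_sub (p1.summable.mul_left _), tsum_mul_left, p1.tsum_eq, mul_one]
  have np : n1 p = 1 := by rw [n1_of_nonneg p0, p1.tsum_eq]
  have nq : n1 q = 1 := by rw [n1_of_nonneg q0, q1.tsum_eq]
  have na : n1 (fun a => ∑' b, ρ (a, b)) ≤ 1 + ε := by
    have := n1_add (sa.sub p1.summable) p1.summable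
    simp only [sub_add_cancel] at this; linarith
  have nb : n1 (fun b => ∑' a, ρ (a, b)) ≤ 1 + ε := by
    have := n1_add (sb.sub q1.summable) q1.summable
    simp only [sub_add_cancel] at this; linarith
  refine ⟨?_, na, nb, ?_⟩
  · have h := norm_tsum_le_tsum_norm (f := fun z : X × Y => ρ z - p z.1 * q z.2) (sρ.sub spq).abs
    rw [sρ.tsum_sub spq, tsum_prod_mul p1.summable q1.summable, p1.tsum_eq, q1.tsum_eq,
      Real.norm_eq_abs] at h
    have := (abs_le.1 (h.trans cl)).1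
    linarith
  · have t1 := n1_tri sρ spq (summ_tens sa sb)
    have t2 := n1_tri spq (summ_tens p1.summable sb) (summ_tens sa sb)
    have e1 : n1 (fun z : X × Y => p z.1 * q z.2 - p z.1 * ∑' a, ρ (a, z.2)) =
        n1 p * n1 fun b => (∑' a, ρ (a, b)) - q b := by
      rw [n1_comm _ q, ← n1_tens p1.summable (q1.summable.sub sb)]; congr 1; funext z; ring
    have e2 : n1 (fun z : X × Y => p z.1 * (∑' a, ρ (a, z.2)) - (∑' b, ρ (z.1, b)) * ∑' a, ρ (a, z.2)) =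
        n1 (fun a => (∑' b, ρ (a, b)) - p a) * n1 fun b => ∑' a, ρ (a, b) := by
      rw [n1_comm _ p, ← n1_tens (p1.summable.sub sa) sb]; congr 1; funext z; ring
    have := mul_le_mul m1 nb (n1_nonneg _) ((n1_nonneg _).trans m1)
    rw [e1, e2, np] at t2
    nlinarith

/-- from (K0) to the hypothesis of `ksharp`; `ρ = c μ e^{-Bq/2}`, `ρ₁, ρ₂` its marginals -/
theorem k0_cl (A : Act X) (B : Act Y) {μ ρ : X × Y → ℝ} {ρ₁ Ba : X → ℝ} {ρ₂ Bb : Y → ℝ}
    {Bab y : X → Y → ℝ} {c κ M Λ δ ε m : ℝ} (hc : 0 < c)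
    (hρ : ∀ z, ρ z = c * μ z * exp (-(Ba z.1 + Bb z.2 + 2 * Bab z.1 z.2) / 2)) (sρ : Summable ρ)
    (ρ0 : ∀ z, 0 ≤ ρ z) (s1 : Summable ρ₁) (s2 : Summable ρ₂) (r1 : ∀ a, 0 ≤ ρ₁ a) (r2 : ∀ b, 0 ≤ ρ₂ b)
    (hm : (∑' a, ρ₁ a) * ∑' b, ρ₂ b ≤ m)
    (cl : n1 (fun z : X × Y => ρ z - ρ₁ z.1 * ρ₂ z.2) ≤ ε) (hδ0 : 0 ≤ δ) (hδ1 : δ ≤ 1)
    (hA : ∀ a, A.T a → |A.H a| ≤ M → Ba a / 2 + κ * A.H a ^ 2 / 2 ≤ Λ)
    (hB : ∀ b, B.T b → |B.H b| ≤ M → Bb b / 2 + κ * B.H b ^ 2 / 2 ≤ Λ)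
    (hΛ : ∀ a b, A.T a → |A.H a| ≤ M → B.T b → |B.H b| ≤ M → (Ba a + Bb b + 2 * Bab a b) / 2 ≤ Λ)
    (hδ : ∀ a b, A.T a → |A.H a| ≤ M → B.T b → |B.H b| ≤ M →
      |Bab a b - (κ * A.H a * B.H b + y a b)| ≤ δ) :
    let p : X → ℝ := fun a => ρ₁ a * exp (Ba a / 2 + κ * A.H a ^ 2 / 2) / c
    let q : Y → ℝ := fun b => ρ₂ b * exp (Bb b / 2 + κ * B.H b ^ 2 / 2)
    Summable (fun a => A.bx M a * p a) ∧ Summable (fun b => B.bx M b * q b) ∧
    Summable (fun z : X × Y => A.bx M z.1 * B.bx M z.2 * μ z) ∧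
    ∑' z : X × Y, A.bx M z.1 * B.bx M z.2 *
      |μ z - p z.1 * q z.2 * exp (-κ * (A.H z.1 - B.H z.2) ^ 2 / 2 + y z.1 z.2)| ≤
      exp Λ / c * (ε + 2 * δ * m) := by
  intro p q
  have hμ : ∀ z, μ z = ρ z * (exp ((Ba z.1 + Bb z.2 + 2 * Bab z.1 z.2) / 2) / c) := fun z => by
    rw [hρ, neg_div, exp_neg]; field_simp
  refine ⟨?_, ?_, ?_, ?_⟩
  · refine (summ_bdd r1 s1 (u := fun a => A.bx M a * (exp (Ba a / 2 + κ * A.H a ^ 2 / 2) / c))
      (U := exp Λ / c) fun a _ => ?_).congr fun a => by simp only [p]; ring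
    by_cases h : A.bx M a = 0
    · rw [h]; simp; positivity
    · rw [A.bx_one (A.bx_ne h), one_mul, abs_of_pos (by positivity)]
      exact div_le_div_of_nonneg_right (exp_le_exp.2 (hA a (A.bx_ne h).1 (A.bx_ne h).2)) hc.le
  · refine (summ_bdd r2 s2 (u := fun b => B.bx M b * exp (Bb b / 2 + κ * B.H b ^ 2 / 2))
      (U := exp Λ) fun b _ => ?_).congr fun b => by simp only [q]; ring
    by_cases h : B.bx M b = 0
    · rw [h]; simp; positivity
    · rw [B.bx_one (B.bx_ne h), one_mul, abs_of_pos (by positivity)]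
      exact exp_le_exp.2 (hB b (B.bx_ne h).1 (B.bx_ne h).2)
  · refine (summ_bdd ρ0 sρ (u := fun z => A.bx M z.1 * B.bx M z.2 *
      (exp ((Ba z.1 + Bb z.2 + 2 * Bab z.1 z.2) / 2) / c)) (U := exp Λ / c) fun z _ => ?_).congr
      fun z => by rw [hμ]; ring
    by_cases h : A.bx M z.1 * B.bx M z.2 = 0
    · rw [h]; simp; positivity
    · have ha := A.bx_ne (left_ne_zero_of_mul h)
      have hb := B.bx_ne (right_ne_zero_of_mul h)
      rw [A.bx_one ha, B.bx_one hb, one_mul, one_mul, abs_of_pos (by positivity)]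
      exact div_le_div_of_nonneg_right (exp_le_exp.2 (hΛ _ _ ha.1 ha.2 hb.1 hb.2)) hc.le
  · have s := (((sρ.sub (summ_tens s1 s2)).abs.add ((summ_tens s1 s2).mul_left (2 * δ))).mul_left (exp Λ / c))
    have b : ∀ z : X × Y, A.bx M z.1 * B.bx M z.2 *
        |μ z - p z.1 * q z.2 * exp (-κ * (A.H z.1 - B.H z.2) ^ 2 / 2 + y z.1 z.2)| ≤
        exp Λ / c * (|ρ z - ρ₁ z.1 * ρ₂ z.2| + 2 * δ * (ρ₁ z.1 * ρ₂ z.2)) := fun z => by
      have rr := mul_nonneg (r1 z.1) (r2 z.2)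
      by_cases h : A.bx M z.1 * B.bx M z.2 = 0
      · rw [h, zero_mul]; positivity
      · have ha := A.bx_ne (left_ne_zero_of_mul h)
        have hb := B.bx_ne (right_ne_zero_of_mul h)
        rw [A.bx_one ha, B.bx_one hb, one_mul, one_mul]
        have d := hδ _ _ ha.1 ha.2 hb.1 hb.2
        rw [abs_sub_comm] at d
        have d2 := abs_exp_sub_one_le (d.trans hδ1)
        have e : μ z - p z.1 * q z.2 * exp (-κ * (A.H z.1 - B.H z.2) ^ 2 / 2 + y z.1 z.2) =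
            exp ((Ba z.1 + Bb z.2 + 2 * Bab z.1 z.2) / 2) / c * ((ρ z - ρ₁ z.1 * ρ₂ z.2) -
              ρ₁ z.1 * ρ₂ z.2 * (exp (κ * A.H z.1 * B.H z.2 + y z.1 z.2 - Bab z.1 z.2) - 1)) := by
          have : exp (Ba z.1 / 2 + κ * A.H z.1 ^ 2 / 2) * exp (Bb z.2 / 2 + κ * B.H z.2 ^ 2 / 2) *
              exp (-κ * (A.H z.1 - B.H z.2) ^ 2 / 2 + y z.1 z.2) =
              exp ((Ba z.1 + Bb z.2 + 2 * Bab z.1 z.2) / 2) *
                exp (κ * A.H z.1 * B.H z.2 + y z.1 z.2 - Bab z.1 z.2) := by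
            simp only [← exp_add]; congr 1; ring
          rw [hμ]; simp only [p, q]
          linear_combination (-(ρ₁ z.1 * ρ₂ z.2) / c) * this
        rw [e, abs_mul, abs_of_pos (by positivity)]
        refine mul_le_mul (div_le_div_of_nonneg_right (exp_le_exp.2 (hΛ _ _ ha.1 ha.2 hb.1 hb.2)) hc.le)
          ((abs_sub _ _).trans (add_le_add_right ?_ _)) (abs_nonneg _) (by positivity)
        rw [abs_mul, abs_of_nonneg rr, mul_comm]
        exact mul_le_mul_of_nonneg_right (by linarith) rr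
    refine ((Summable.of_nonneg_of_le (fun z => mul_nonneg (mul_nonneg (A.bx_nonneg _ _) (B.bx_nonneg _ _))
      (abs_nonneg _)) b s).tsum_le_tsum b s).trans ?_
    rw [tsum_mul_left, (sρ.sub (summ_tens s1 s2)).abs.tsum_add ((summ_tens s1 s2).mul_left _),
      tsum_mul_left, tsum_prod_mul s1 s2]
    refine mul_le_mul_of_nonneg_left (add_le_add cl ?_) (by positivity)
    exact mul_le_mul_of_nonneg_left hm (by positivity)

end Crest.Agent.T145.KrA
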