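import Crest.Agent.T145.GsQ_85
import Crest.Agent.T145.ApiL_98

/-!
# Row 145 (helper85): ring weights (dual tilt, quantitative Hubbard-Stratonovich transfer) and the
`Ex` forms of the soft Gaussianity lemmas
-/

set_option autoImplicit false
set_option linter.unusedSectionVars false

namespace Crest.Agent.T145.Gs

open MeasureTheory ProbabilityTheory Matrix
open scoped MatrixOrder

universe u

section
variable {ι : Type*} [Fintype ι] [DecidableEq ι] {B C : Matrix ι ι ℝ}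

theorem tl_dual (h : IsUnit (1 + B * C).det) : B - B * tl C B * B = tl B C := by
  have h' : IsUnit (1 + C * B).det := by rwa [det_one_add_mul_comm]
  have e : tl C B * B = C * tl B C := by
    rw [tl, tl, push B C h', Matrix.mul_assoc]
  rw [tl_res' h', Matrix.mul_assoc, e, Matrix.mul_assoc]

/-- `E gw B (φ + x) = det (1 + B C)^{-1/2} gw ((B⁻¹ + C)⁻¹) φ` -/
theorem integral_gw_add' (hC : C.PosSemidef) (hB : Bᵀ = B) (h : TOk C B) (φ : ι → ℝ) :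
    ∫ x, gw B (φ + x) ∂(gm C) = (Real.sqrt (1 + B * C).det)⁻¹ * gw (tl B C) φ := by
  rw [integral_gw_add hC hB h, tl_dual (h.unit hC)]

theorem one_le_det_mul (hB : B.PosSemidef) (hC : C.PosSemidef) : 1 ≤ (1 + B * C).det := by
  rw [← TOk.det_eq hC]
  have := psd_conj hB (CFC.sqrt C)
  rw [sqrt_transpose] at this
  exact one_le_det this

theorem unit_psd (hB : B.PosSemidef) (hC : C.PosSemidef) : IsUnit (1 + B * C).det :=
  (one_pos.trans_le (one_le_det_mul hB hC)).ne'.isUnit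

theorem tl_psd (hB : B.PosSemidef) (hC : C.PosSemidef) : (tl B C).PosSemidef :=
  (tOk_of_psd B hC).psd hB

theorem det_mul_le_exp (hB : B.PosSemidef) (hC : C.PosSemidef) :
    (1 + B * C).det ≤ Real.exp (B * C).trace := by
  have hM := psd_conj hB (CFC.sqrt C)
  rw [sqrt_transpose] at hM
  have e : (CFC.sqrt C * B * CFC.sqrt C).trace = (B * C).trace := by
    rw [trace_mul_cycle, sqrt_mul hC, trace_mul_comm]
  rw [← TOk.det_eq hC, ← e]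
  exact det_le_exp (psd_transpose hM) fun x => by linarith [psd_quad hM x, dot_self_nonneg x]

theorem det_sq_le {M : Matrix ι ι ℝ} (hM : M.PosSemidef) :
    (1 + M).det ^ 2 ≤ (1 + (2 : ℝ) • M).det * Real.exp (M * M).trace := by
  obtain ⟨U, h1, h2, h3⟩ := spec hM.1
  have e : 1 + (2 : ℝ) • M = U * (diagonal fun i => 1 + 2 * hM.1.eigenvalues i) * Uᵀ := by
    conv_lhs => rw [h3, ← h2]
    rw [← diagonal_add, diagonal_one, Matrix.mul_add, Matrix.add_mul, Matrix.mul_one,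
      ← Matrix.smul_mul, ← Matrix.mul_smul, ← diagonal_smul]
    rfl
  rw [e, det_mul, det_mul, mul_comm U.det, mul_assoc _ U.det, ← det_mul, h2, det_one, mul_one,
    det_diagonal, det_one_add_eq hM.1, trace_sq_eq hM.1, Real.exp_sum, ← Finset.prod_pow,
    ← Finset.prod_mul_distrib]
  refine Finset.prod_le_prod (fun i _ => sq_nonneg _) fun i _ => ?_
  have h4 := hM.eigenvalues_nonneg i
  set l := hM.1.eigenvalues i
  have h5 := Real.add_one_le_exp (l ^ 2)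
  nlinarith [mul_le_mul_of_nonneg_left h5 (by linarith : 0 ≤ 1 + 2 * l), mul_nonneg h4 (sq_nonneg l)]

/-- `det (1 + 2 B C)^{-1/2} ≤ c₀² exp (tr (B C B C) / 2)`, `c₀ = det (1 + B C)^{-1/2}` -/
theorem det_two (hB : B.PosSemidef) (hC : C.PosSemidef) :
    (Real.sqrt (1 + ((2 : ℝ) • B) * C).det)⁻¹ ≤
      ((Real.sqrt (1 + B * C).det)⁻¹) ^ 2 * Real.exp ((B * C * (B * C)).trace / 2) := by
  have hM := psd_conj hB (CFC.sqrt C)
  rw [sqrt_transpose] at hM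
  have h := det_sq_le hM
  have e1 : (CFC.sqrt C * B * CFC.sqrt C * (CFC.sqrt C * B * CFC.sqrt C)).trace =
      (B * C * (B * C)).trace := by
    have e : CFC.sqrt C * B * CFC.sqrt C * (CFC.sqrt C * B * CFC.sqrt C) =
        CFC.sqrt C * (B * (CFC.sqrt C * CFC.sqrt C) * B * CFC.sqrt C) := by
      simp only [Matrix.mul_assoc]
    rw [e, trace_mul_comm, Matrix.mul_assoc _ (CFC.sqrt C), sqrt_mul hC, Matrix.mul_assoc]
  have e2 : (2 : ℝ) • (CFC.sqrt C * B * CFC.sqrt C) = CFC.sqrt C * ((2 : ℝ) • B) * CFC.sqrt C := by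
    simp
  rw [e1, e2, TOk.det_eq hC, TOk.det_eq hC] at h
  have p1 := one_pos.trans_le (one_le_det_mul hB hC)
  have p2 := one_pos.trans_le (one_le_det_mul (hB.smul (zero_le_two (α := ℝ))) hC)
  rw [inv_pow, Real.sq_sqrt p1.le, inv_mul_eq_div, le_div_iff₀ p1, inv_mul_eq_div,
    div_le_iff₀ (Real.sqrt_pos.2 p2)]
  apply le_of_sq_le_sq _ (by positivity)
  rw [mul_pow, Real.sq_sqrt p2.le, ← Real.exp_nat_mul, mul_comm]
  refine h.trans_eq ?_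
  congr 2
  push_cast
  ring

theorem tl_mulVec_id (h : IsUnit (1 + C * B).det) (m : ι → ℝ) :
    tl B C *ᵥ m + B *ᵥ (C *ᵥ (tl B C *ᵥ m)) = B *ᵥ m := by
  have := tl_res' h
  rw [mulVec_mulVec, mulVec_mulVec, ← add_mulVec]
  congr 1
  rw [eq_sub_iff_add_eq] at this
  exact this

/-- primal variational bound: `tl B C (φ, φ) ≤ C (w, w) + B (φ - C w, φ - C w)` -/
theorem tl_le_primal (hB : B.PosSemidef) (hC : C.PosSemidef) (φ w : ι → ℝ) :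
    φ ⬝ᵥ tl B C *ᵥ φ ≤ w ⬝ᵥ C *ᵥ w + (φ - C *ᵥ w) ⬝ᵥ B *ᵥ (φ - C *ᵥ w) := by
  have hu := unit_psd hC hB
  set v := tl B C *ᵥ φ with hv
  have h1 := tl_mulVec_id hu φ
  rw [← hv] at h1
  have hv2 : B *ᵥ (φ - C *ᵥ v) = v := by rw [mulVec_sub, ← h1]; simp
  have h2 := psd_two_le hB (φ - C *ᵥ w) (φ - C *ᵥ v)
  have h3 := psd_two_le hC w v
  rw [hv2] at h2
  have h4 : (C *ᵥ w) ⬝ᵥ v = w ⬝ᵥ C *ᵥ v := by
    rw [dotProduct_comm, dot_symm (psd_transpose hC)]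
  have h5 : (C *ᵥ v) ⬝ᵥ v = v ⬝ᵥ C *ᵥ v := dotProduct_comm _ _
  simp only [sub_dotProduct] at h2 ⊢
  linarith

theorem tl_le (hB : B.PosSemidef) (hC : C.PosSemidef) (φ : ι → ℝ) :
    φ ⬝ᵥ tl B C *ᵥ φ ≤ φ ⬝ᵥ B *ᵥ φ := by simpa using tl_le_primal hB hC φ 0

/-- the value at the optimiser `v = tl B C φ` -/
theorem tl_eq_primal (hB : B.PosSemidef) (hC : C.PosSemidef) (φ : ι → ℝ) :
    φ ⬝ᵥ tl B C *ᵥ φ = (tl B C *ᵥ φ) ⬝ᵥ C *ᵥ (tl B C *ᵥ φ) +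
      (φ - C *ᵥ (tl B C *ᵥ φ)) ⬝ᵥ B *ᵥ (φ - C *ᵥ (tl B C *ᵥ φ)) := by
  have h1 := tl_mulVec_id (unit_psd hC hB) φ
  set v := tl B C *ᵥ φ
  have hv2 : B *ᵥ (φ - C *ᵥ v) = v := by rw [mulVec_sub, ← h1]; simp
  rw [hv2, sub_dotProduct, dotProduct_comm (C *ᵥ v) v]
  ring

/-- `C (B' φ, B' φ) ≤ B' (φ, φ)`, `B' = tl B C` -/
theorem tl_quad_le (hB : B.PosSemidef) (hC : C.PosSemidef) (φ : ι → ℝ) :
    (tl B C *ᵥ φ) ⬝ᵥ C *ᵥ (tl B C *ᵥ φ) ≤ φ ⬝ᵥ tl B C *ᵥ φ := by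
  rw [tl_eq_primal hB hC φ]
  linarith [psd_quad hB (φ - C *ᵥ (tl B C *ᵥ φ))]

/-- dual variational bound, with `w = B z`: `2 w·φ - C (w, w) - B (z, z) ≤ tl B C (φ, φ)` -/
theorem dual_le_tl (hB : B.PosSemidef) (hC : C.PosSemidef) (φ z : ι → ℝ) :
    2 * ((B *ᵥ z) ⬝ᵥ φ) - (B *ᵥ z) ⬝ᵥ C *ᵥ (B *ᵥ z) - z ⬝ᵥ B *ᵥ z ≤ φ ⬝ᵥ tl B C *ᵥ φ := by
  have h1 := tl_mulVec_id (unit_psd hC hB) φ
  have h0 := tl_eq_primal hB hC φ
  set v := tl B C *ᵥ φ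
  have h2 := psd_two_le hB (φ - C *ᵥ v) z
  have h3 := psd_two_le hC v (B *ᵥ z)
  have h4 : (C *ᵥ v) ⬝ᵥ B *ᵥ z = v ⬝ᵥ C *ᵥ (B *ᵥ z) := by
    rw [dotProduct_comm, dot_symm (psd_transpose hC)]
  rw [sub_dotProduct, h4, dotProduct_comm φ] at h2
  linarith

/-- an upper bound of the dual form: if `|w·φ|² ≤ e * C (w, w)` for all `w` then `tl B C (φ, φ) ≤ e` -/
theorem tl_le_of (hB : B.PosSemidef) (hC : C.PosSemidef) (φ : ι → ℝ) {e : ℝ} (he : 0 ≤ e)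
    (h : ∀ w, (w ⬝ᵥ φ) ^ 2 ≤ e * (w ⬝ᵥ C *ᵥ w)) : φ ⬝ᵥ tl B C *ᵥ φ ≤ e := by
  have h1 := h (tl B C *ᵥ φ)
  have h2 := tl_quad_le hB hC φ
  have h3 := psd_quad (tl_psd hB hC) φ
  rw [dotProduct_comm] at h1
  by_contra hc
  push Not at hc
  nlinarith [mul_le_mul_of_nonneg_left h2 he]

/-- quantitative Hubbard-Stratonovich transfer -/
theorem hs_le {Ω : Type*} [MeasurableSpace Ω] {P : Measure Ω} [IsProbabilityMeasure P]
    {Y a : Ω → ι → ℝ} {u : Ω → ℝ} (hB : B.PosSemidef) (hC : C.PosSemidef) {K R η : ℝ}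
    (hBK : ∀ i, B i i ≤ K) (hY : Measurable Y) (ha : Measurable a) (hu : Measurable u)
    (hu1 : ∀ ω, |u ω| ≤ 1) (hη : 0 ≤ η)
    (h : ∀ t : ι → ℝ, ‖t‖ ≤ R → |∫ ω, u ω * Real.cos (t ⬝ᵥ Y ω) ∂P -
      Real.exp (-(t ⬝ᵥ C *ᵥ t) / 2) * ∫ ω, u ω * Real.cos (t ⬝ᵥ a ω) ∂P| ≤ η) :
    |∫ ω, u ω * gw B (Y ω) ∂P -
      (Real.sqrt (1 + B * C).det)⁻¹ * ∫ ω, u ω * gw (tl B C) (a ω) ∂P| ≤
      η + 2 * Real.exp (-R) * (1 + 2 * Fintype.card ι * Real.exp (K / 2)) := by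
  have hE : ∀ t : ι → ℝ, |Real.exp (-(t ⬝ᵥ C *ᵥ t) / 2)| ≤ 1 := fun t => by
    rw [abs_of_pos (Real.exp_pos _)]; exact gw_le_one hC t
  have m1 : Measurable fun p : Ω × (ι → ℝ) => u p.1 * Real.cos (p.2 ⬝ᵥ Y p.1) :=
    (hu.comp measurable_fst).mul (Real.measurable_cos.comp
      (meas_dot measurable_snd (hY.comp measurable_fst)))
  have m2 : Measurable fun p : Ω × (ι → ℝ) =>
      u p.1 * (Real.exp (-(p.2 ⬝ᵥ C *ᵥ p.2) / 2) * Real.cos (p.2 ⬝ᵥ a p.1)) :=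
    (hu.comp measurable_fst).mul (((cont_gw C).measurable.comp measurable_snd).mul
      (Real.measurable_cos.comp (meas_dot measurable_snd (ha.comp measurable_fst))))
  have i1 := int_bdd (μ := P.prod (gm B)) m1 (c := 1)
    fun p => abs_mul_le_one (hu1 _) (Real.abs_cos_le_one _)
  have i2 := int_bdd (μ := P.prod (gm B)) m2 (c := 1)
    fun p => abs_mul_le_one (hu1 _) (abs_mul_le_one (hE _) (Real.abs_cos_le_one _))
  have e0 : (Real.sqrt (1 + B * C).det)⁻¹ * ∫ ω, u ω * gw (tl B C) (a ω) ∂P =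
      ∫ ω, u ω * ∫ x, gw B (a ω + x) ∂(gm C) ∂P := by
    simp_rw [integral_gw_add' hC (psd_transpose hB) (tOk_of_psd C hB)]
    rw [← integral_const_mul]
    congr 1; funext ω; ring
  rw [e0]
  simp_rw [integral_gw_cos hB hC, gw_eq_cos hB, ← integral_const_mul]
  have s1 := integral_integral_swap (f := fun ω t => u ω * Real.cos (t ⬝ᵥ Y ω)) i1
  have s2 := integral_integral_swap
    (f := fun ω t => u ω * (Real.exp (-(t ⬝ᵥ C *ᵥ t) / 2) * Real.cos (t ⬝ᵥ a ω))) i2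
  rw [s1, s2, ← integral_sub i1.integral_prod_right i2.integral_prod_right]
  have hb : ∀ t : ι → ℝ, ‖∫ ω, u ω * Real.cos (t ⬝ᵥ Y ω) ∂P -
      ∫ ω, u ω * (Real.exp (-(t ⬝ᵥ C *ᵥ t) / 2) * Real.cos (t ⬝ᵥ a ω)) ∂P‖ ≤
      η + 2 * Real.exp (-R) * Real.exp (1 * ‖t‖) := by
    intro t
    rw [Real.norm_eq_abs]
    rcases le_or_gt ‖t‖ R with ht | ht
    · have h1 := h t ht
      rw [← integral_const_mul] at h1
      simp_rw [mul_left_comm (u _)]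
      exact h1.trans (le_add_of_nonneg_right (by positivity))
    · have h1 : |∫ ω, u ω * Real.cos (t ⬝ᵥ Y ω) ∂P| ≤ 1 := by
        simpa using norm_integral_le_of_norm_le_const (μ := P) (C := 1)
          (f := fun ω => u ω * Real.cos (t ⬝ᵥ Y ω))
          (Filter.Eventually.of_forall fun ω => abs_mul_le_one (hu1 _) (Real.abs_cos_le_one _))
      have h2 : |∫ ω, u ω * (Real.exp (-(t ⬝ᵥ C *ᵥ t) / 2) * Real.cos (t ⬝ᵥ a ω)) ∂P| ≤ 1 := by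
        simpa using norm_integral_le_of_norm_le_const (μ := P) (C := 1)
          (f := fun ω => u ω * (Real.exp (-(t ⬝ᵥ C *ᵥ t) / 2) * Real.cos (t ⬝ᵥ a ω)))
          (Filter.Eventually.of_forall fun ω => abs_mul_le_one (hu1 _)
            (abs_mul_le_one (hE _) (Real.abs_cos_le_one _)))
      have h3 : 1 ≤ Real.exp (-R) * Real.exp (1 * ‖t‖) := by
        rw [← Real.exp_add]; exact Real.one_le_exp (by linarith)
      rw [abs_le] at h1 h2 ⊢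
      constructor <;> linarith [h1.1, h1.2, h2.1, h2.2]
  have i3 := (int_exp_norm B 1).const_mul (2 * Real.exp (-R))
  have h4 := norm_integral_le_of_norm_le ((integrable_const η).add i3)
    (Filter.Eventually.of_forall hb)
  rw [integral_add' (integrable_const _) i3, integral_const_mul] at h4
  have h5 := integral_exp_norm_le hB hBK 1
  simp only [integral_const, probReal_univ, smul_eq_mul, one_mul, Real.norm_eq_abs, one_pow] at h4 h5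
  refine h4.trans ?_
  gcongr

end

/-! ### `Ex` forms -/

section
variable {α : Type u} [Countable α] {W : α → ℝ}

theorem ae_law [MeasurableSpace α] [DiscreteMeasurableSpace α] (W : α → ℝ) {p : α → Prop}
    (h : ∀ a, W a ≠ 0 → p a) : ∀ᵐ a ∂law W, p a := by
  rw [ae_iff, law, Measure.smul_apply, withDensity_apply _ MeasurableSet.of_discrete,
    setLIntegral_congr_fun (g := fun _ => 0) MeasurableSet.of_discrete fun a ha => ?_]
  · simp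
  · have : W a = 0 := by by_contra h0; exact ha (h a h0)
    simp [this]

theorem hs_le_Ex {ι : Type*} [Fintype ι] [DecidableEq ι] {B C : Matrix ι ι ℝ} (hW : Wt W)
    (Y a : α → ι → ℝ) {u : α → ℝ} (hB : B.PosSemidef) (hC : C.PosSemidef) {K R η : ℝ}
    (hBK : ∀ i, B i i ≤ K) (hu1 : ∀ s, |u s| ≤ 1) (hη : 0 ≤ η)
    (h : ∀ t : ι → ℝ, ‖t‖ ≤ R → |Ex W (fun s => u s * Real.cos (t ⬝ᵥ Y s)) -
      Real.exp (-(t ⬝ᵥ C *ᵥ t) / 2) * Ex W fun s => u s * Real.cos (t ⬝ᵥ a s)| ≤ η) :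
    |Ex W (fun s => u s * gw B (Y s)) -
      (Real.sqrt (1 + B * C).det)⁻¹ * Ex W fun s => u s * gw (tl B C) (a s)| ≤
      η + 2 * Real.exp (-R) * (1 + 2 * Fintype.card ι * Real.exp (K / 2)) := by
  let _ : MeasurableSpace α := ⊤
  have : DiscreteMeasurableSpace α := ⟨fun _ => trivial⟩
  have := law_prob hW
  simp only [← law_integral hW] at h ⊢
  exact hs_le hB hC hBK Measurable.of_discrete Measurable.of_discrete Measurable.of_discrete hu1 hη h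

theorem amgm_Ex (hW : Wt W) {p q : α → ℝ} {g η : ℝ} (hg : 0 ≤ g) (hη : 0 < η) (hη1 : η ≤ 1)
    (hp : Ig W p) (hq : Ig W q)
    (h : ∀ s, W s ≠ 0 → 0 ≤ p s ∧ 0 ≤ q s ∧ g ^ 2 * Real.exp (-η ^ 2) ≤ p s * q s)
    (hs : Ex W p + Ex W q ≤ 2 * g * Real.exp (η ^ 2)) : Ex W (fun s => |p s - g|) ≤ 8 * η * g := by
  let _ : MeasurableSpace α := ⊤
  have : DiscreteMeasurableSpace α := ⟨fun _ => trivial⟩
  have := law_prob hW
  simp only [← law_integral hW] at hs ⊢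
  exact amgm hg hη hη1 ((law_integrable hW).2 hp) ((law_integrable hW).2 hq) (ae_law W h) hs

end

theorem soft_char_Ex {R : ℝ} (hR : 1 ≤ R) (M V : ℝ) {δ : ℝ} (hδ : 0 < δ) : ∃ ε > 0,
    ∀ (α : Type u) [Countable α] (W X v : α → ℝ) (w : ℝ), Wt W → (∀ s, |v s| ≤ 1) →
      (∀ c : ℝ, Ig W fun s => Real.exp (c * X s)) →
      Ex W (fun s => Real.exp (4 * R * X s)) + Ex W (fun s => Real.exp (-(4 * R) * X s)) ≤ M →
      |w| ≤ V → (∀ t : ℝ, |t| ≤ 1 →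
        |Ex W (fun s => v s * Real.exp (t * X s)) - Ex W v * Real.exp (t ^ 2 * w / 2)| ≤ ε) →
      ∀ θ : ℝ, |θ| ≤ R →
        |Ex W (fun s => v s * Real.cos (θ * X s)) - Ex W v * Real.exp (-(θ ^ 2 * w) / 2)| ≤ δ ∧
          |Ex W fun s => v s * Real.sin (θ * X s)| ≤ δ := by
  obtain ⟨ε, hε, H⟩ := soft_char.{u} hR M V hδ
  refine ⟨ε, hε, fun α _ W X v w hW h1 hi hM hw hs θ hθ => ?_⟩
  let _ : MeasurableSpace α := ⊤
  have : DiscreteMeasurableSpace α := ⟨fun _ => trivial⟩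
  have := law_prob hW
  simp only [← law_integral hW] at hM hs ⊢
  exact H α (law W) X v w Measurable.of_discrete Measurable.of_discrete h1
    (fun c => (law_integrable hW).2 (hi c)) hM hw hs θ hθ

theorem soft_vec_Ex (N : ℕ) (K R : ℝ) (Kf : ℝ → ℝ) {δ : ℝ} (hδ : 0 < δ) : ∃ ε > 0,
    ∀ (ι : Type) [Fintype ι] (α : Type u) [Countable α] (W : α → ℝ) (Z : α → ι → ℝ) (v : α → ℝ)
      (C : Matrix ι ι ℝ), Wt W → Fintype.card ι ≤ N → (∀ i j, |C i j| ≤ K) → (∀ s, |v s| ≤ 1) →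
      (∀ l : ι → ℝ, Ig W fun s => Real.exp (l ⬝ᵥ Z s)) →
      (∀ (r : ℝ) (l : ι → ℝ), ‖l‖ ≤ r → Ex W (fun s => Real.exp (l ⬝ᵥ Z s)) ≤ Kf r) →
      (∀ l : ι → ℝ, ‖l‖ ≤ 1 →
        |Ex W (fun s => v s * Real.exp (l ⬝ᵥ Z s)) - Ex W v * Real.exp (l ⬝ᵥ C *ᵥ l / 2)| ≤ ε) →
      ∀ t : ι → ℝ, ‖t‖ ≤ R →
        |Ex W (fun s => v s * Real.cos (t ⬝ᵥ Z s)) - Ex W v * Real.exp (-(t ⬝ᵥ C *ᵥ t) / 2)| ≤ δ ∧
          |Ex W fun s => v s * Real.sin (t ⬝ᵥ Z s)| ≤ δ := by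
  obtain ⟨ε, hε, H⟩ := soft_vec.{u} N K R Kf hδ
  refine ⟨ε, hε, fun ι _ α _ W Z v C hW hN hC h1 hi hK hs t ht => ?_⟩
  let _ : MeasurableSpace α := ⊤
  have : DiscreteMeasurableSpace α := ⟨fun _ => trivial⟩
  have := law_prob hW
  simp only [← law_integral hW] at hK hs ⊢
  exact H ι α (law W) Z v C hN hC Measurable.of_discrete Measurable.of_discrete h1
    (fun l => (law_integrable hW).2 (hi l)) hK hs t ht

/-- quenched Gaussianity from the real sandwich: `φ l` is the conditional MGF given the data `π` -/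
theorem softQ (N : ℕ) (K R : ℝ) (Kf : ℝ → ℝ) {δ : ℝ} (hδ : 0 < δ) : ∃ ε > 0,
    ∀ (ι : Type) [Fintype ι] (α : Type u) [Countable α] (W : α → ℝ) (Z : α → ι → ℝ) (v : α → ℝ)
      (φ : (ι → ℝ) → α → ℝ) (C : Matrix ι ι ℝ), Wt W → Fintype.card ι ≤ N → (∀ i j, |C i j| ≤ K) →
      (∀ s, |v s| ≤ 1) → (∀ l : ι → ℝ, Ig W fun s => Real.exp (l ⬝ᵥ Z s)) →
      (∀ (r : ℝ) (l : ι → ℝ), ‖l‖ ≤ r → Ex W (fun s => Real.exp (l ⬝ᵥ Z s)) ≤ Kf r) →
      (∀ l : ι → ℝ, ‖l‖ ≤ 1 → Ig W (φ l) ∧ Ex W (φ l) = Ex W (fun s => Real.exp (l ⬝ᵥ Z s)) ∧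
        Ex W (fun s => v s * φ l s) = Ex W (fun s => v s * Real.exp (l ⬝ᵥ Z s)) ∧
        (∀ s, W s ≠ 0 → 0 ≤ φ l s ∧ Real.exp (l ⬝ᵥ C *ᵥ l - ε) ≤ φ l s * φ (-l) s) ∧
        Ex W (fun s => Real.exp (l ⬝ᵥ Z s)) ≤ Real.exp (l ⬝ᵥ C *ᵥ l / 2 + ε)) →
      ∀ t : ι → ℝ, ‖t‖ ≤ R →
        |Ex W (fun s => v s * Real.cos (t ⬝ᵥ Z s)) - Ex W v * Real.exp (-(t ⬝ᵥ C *ᵥ t) / 2)| ≤ δ ∧
          |Ex W fun s => v s * Real.sin (t ⬝ᵥ Z s)| ≤ δ := by
  obtain ⟨ε, hε, H⟩ := soft_vec_Ex.{u} N K R Kf hδ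
  set G := Real.exp ((N : ℝ) ^ 2 * |K| / 2) with hG
  have hG0 : 0 < G := Real.exp_pos _
  set η := min 1 (ε / (8 * G)) with hη
  have hη0 : 0 < η := lt_min one_pos (by positivity)
  have hη2 : 8 * η * G ≤ ε := by
    have := min_le_right 1 (ε / (8 * G))
    rw [← hη, le_div_iff₀ (by positivity)] at this
    linarith
  refine ⟨η ^ 2, by positivity, fun ι _ α _ W Z v φ C hW hN hC h1 hi hK hs =>
    H ι α W Z v C hW hN hC h1 hi hK fun l hl => ?_⟩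
  obtain ⟨a1, a2, a3, a4, a5⟩ := hs l hl
  obtain ⟨b1, b2, -, b4, b5⟩ := hs (-l) (by simpa using hl)
  set g := Real.exp (l ⬝ᵥ C *ᵥ l / 2) with hg
  have hg0 : 0 < g := Real.exp_pos _
  have hgG : g ≤ G := by
    refine Real.exp_le_exp.2 ?_
    have h2 := (le_abs_self _).trans (abs_quad_le hC l)
    have : (Fintype.card ι : ℝ) ≤ N := by exact_mod_cast hN
    have h3 : (Fintype.card ι : ℝ) ^ 2 * |K| * ‖l‖ ^ 2 ≤ (N : ℝ) ^ 2 * |K| * 1 ^ 2 := by gcongr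
    linarith
  have h2 := amgm_Ex hW hg0.le hη0 (min_le_left _ _) a1 b1
    (fun s hs => ⟨(a4 s hs).1, (b4 s hs).1, le_of_eq_of_le ?_ (a4 s hs).2⟩) ?_
  · have i1 : Ig W fun s => φ l s - g := a1.sub (hW.ig_const g)
    have e : Ex W (fun s => v s * Real.exp (l ⬝ᵥ Z s)) - Ex W v * g =
        Ex W fun s => v s * (φ l s - g) := by
      rw [← a3, ← Ex_mul_const, ← Ex_sub (a1.bdd_mul hW.nonneg h1) ((hW.ig_bdd h1).mul_const g)]
      simp only [mul_sub]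
    rw [e]
    refine (abs_Ex_le hW.nonneg (i1.bdd_mul hW.nonneg h1)).trans ((Ex_mono hW.nonneg
      ((i1.bdd_mul hW.nonneg h1).abs hW.nonneg) (i1.abs hW.nonneg) fun s => ?_).trans
      (h2.trans (le_trans (by gcongr) hη2)))
    rw [abs_mul]
    exact mul_le_of_le_one_left (abs_nonneg _) (h1 s)
  · rw [hg, ← Real.exp_nat_mul, ← Real.exp_add]
    congr 1; push_cast; ring
  · rw [a2, b2]
    simp only [mulVec_neg, neg_dotProduct, dotProduct_neg, neg_neg] at b5 ⊢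
    rw [Real.exp_add, ← hg] at a5 b5
    linarith

end Crest.Agent.T145.Gs
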