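import Crest.Agent.T145.Pot_17

/-!
# Row 145: condensers (helper17): extension from a pinned set `K ⊆ A`, swept charge, capacity, equilibrium measure,
cross term of a condenser (K1), products with cut-offs
-/

set_option autoImplicit false

namespace Crest.Agent.T145.Pot

open Finset

variable {V : Type*} [DecidableEq V]

/-- `φ` on `K`, `0` elsewhere -/
def on (K : Finset V) (φ : V → ℝ) : V → ℝ := fun x => if x ∈ K then φ x else 0

/-- `0` on `K`, `φ` elsewhere -/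
def off (K : Finset V) (φ : V → ℝ) : V → ℝ := fun x => if x ∈ K then 0 else φ x

/-- `φ` on `K`, harmonic in `A \ K`, `0` off `A` -/
noncomputable def ex (K A : Finset V) (B : Bf V) (φ : V → ℝ) : V → ℝ := hx (A \ K) B (on K φ)

/-- `0` on `K`, harmonic in `A \ K`, `b` off `A` -/
noncomputable def exo (K A : Finset V) (B : Bf V) (b : V → ℝ) : V → ℝ := hx (A \ K) B (off K b)

/-- the charge on `K` whose potential in `A` is `φ` on `K` (`Σ⁻¹ φ`) -/
noncomputable def chg (K A : Finset V) (B : Bf V) (φ : V → ℝ) : V → ℝ := on K (op B (ex K A B φ))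

/-- capacity of `K` in `A` -/
noncomputable def cap (K A : Finset V) (B : Bf V) : ℝ := ∑ x ∈ K, chg K A B 1 x

/-- equilibrium measure of `K` in `A` -/
noncomputable def eqm (K A : Finset V) (B : Bf V) : V → ℝ := (cap K A B)⁻¹ • chg K A B 1

variable {K A : Finset V} {B : Bf V}

theorem on_of_mem {φ : V → ℝ} {x : V} (hx : x ∈ K) : on K φ x = φ x := if_pos hx
theorem on_of_not {φ : V → ℝ} {x : V} (hx : x ∉ K) : on K φ x = 0 := if_neg hx
theorem off_of_mem {φ : V → ℝ} {x : V} (hx : x ∈ K) : off K φ x = 0 := if_pos hx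
theorem off_of_not {φ : V → ℝ} {x : V} (hx : x ∉ K) : off K φ x = φ x := if_neg hx
theorem sup_on (K : Finset V) (φ : V → ℝ) : Sup K (on K φ) := fun _ hx => if_neg hx
theorem on_add_off (K : Finset V) (φ : V → ℝ) : on K φ + off K φ = φ := by
  funext x; by_cases hx : x ∈ K <;> simp [on, off, hx]
theorem on_add (K : Finset V) (φ ψ : V → ℝ) : on K (φ + ψ) = on K φ + on K ψ := by
  funext x; by_cases hx : x ∈ K <;> simp [on, hx]
theorem on_sub (K : Finset V) (φ ψ : V → ℝ) : on K (φ - ψ) = on K φ - on K ψ := by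
  funext x; by_cases hx : x ∈ K <;> simp [on, hx]
theorem on_smul (K : Finset V) (c : ℝ) (φ : V → ℝ) : on K (c • φ) = c • on K φ := by
  funext x; by_cases hx : x ∈ K <;> simp [on, hx]
theorem off_add (K : Finset V) (φ ψ : V → ℝ) : off K (φ + ψ) = off K φ + off K ψ := by
  funext x; by_cases hx : x ∈ K <;> simp [off, hx]
theorem off_sub (K : Finset V) (φ ψ : V → ℝ) : off K (φ - ψ) = off K φ - off K ψ := by
  funext x; by_cases hx : x ∈ K <;> simp [off, hx]
theorem off_smul (K : Finset V) (c : ℝ) (φ : V → ℝ) : off K (c • φ) = c • off K φ := by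
  funext x; by_cases hx : x ∈ K <;> simp [off, hx]
theorem on_congr {φ ψ : V → ℝ} (h : ∀ x ∈ K, φ x = ψ x) : on K φ = on K ψ := by
  funext x; by_cases hx : x ∈ K <;> simp [on, hx, h]
theorem ip_on (K : Finset V) (f u : V → ℝ) : ip K (on K f) u = ip K f u :=
  ip_congr (fun _ hx => on_of_mem hx) u
theorem ip_on_left (hK : K ⊆ A) (f u : V → ℝ) : ip A (on K f) u = ip K f u := by
  rw [ip_comm, ip_of_sup hK _ (sup_on K f), ip_comm, ip_on]

theorem Co.sd (h : Co A B) (K : Finset V) : Co (A \ K) B := h.mono sdiff_subset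

theorem Co.ex_on (h : Co A B) (φ : V → ℝ) {x : V} (hx' : x ∈ K) : ex K A B φ x = φ x := by
  rw [ex, (h.sd K).hx_off _ (by simp [hx']), on_of_mem hx']

theorem Co.ex_sup (h : Co A B) (hK : K ⊆ A) (φ : V → ℝ) : Sup A (ex K A B φ) := fun x hx' => by
  rw [ex, (h.sd K).hx_off _ (by simp [hx']), on_of_not fun h3 => hx' (hK h3)]

theorem Co.ex_hm (h : Co A B) (φ : V → ℝ) : Hm (A \ K) B (ex K A B φ) := (h.sd K).hx_hm _

theorem Co.ex_unique (h : Co A B) {φ u : V → ℝ} (h1 : ∀ x ∈ K, u x = φ x) (h2 : Sup A u)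
    (h3 : Hm (A \ K) B u) : ex K A B φ = u :=
  (h.sd K).hx_unique (fun x hx' => by
    by_cases hK : x ∈ K
    · rw [on_of_mem hK, h1 x hK]
    · rw [on_of_not hK, h2 x fun hA => hx' (mem_sdiff.2 ⟨hA, hK⟩)]) h3

theorem Co.exo_on (h : Co A B) (b : V → ℝ) {x : V} (hx' : x ∈ K) : exo K A B b x = 0 := by
  rw [exo, (h.sd K).hx_off _ (by simp [hx']), off_of_mem hx']

theorem Co.exo_off (h : Co A B) (hK : K ⊆ A) (b : V → ℝ) {x : V} (hx' : x ∉ A) :
    exo K A B b x = b x := by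
  rw [exo, (h.sd K).hx_off _ (by simp [hx']), off_of_not fun h3 => hx' (hK h3)]

theorem Co.exo_hm (h : Co A B) (b : V → ℝ) : Hm (A \ K) B (exo K A B b) := (h.sd K).hx_hm _

theorem Co.ex_add (h : Co A B) (φ ψ : V → ℝ) : ex K A B (φ + ψ) = ex K A B φ + ex K A B ψ := by
  rw [ex, on_add, (h.sd K).hx_add]; rfl
theorem Co.ex_sub (h : Co A B) (φ ψ : V → ℝ) : ex K A B (φ - ψ) = ex K A B φ - ex K A B ψ := by
  rw [ex, on_sub, (h.sd K).hx_sub]; rfl
theorem Co.ex_smul (h : Co A B) (c : ℝ) (φ : V → ℝ) : ex K A B (c • φ) = c • ex K A B φ := by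
  rw [ex, on_smul, (h.sd K).hx_smul]; rfl
theorem Co.exo_add (h : Co A B) (φ ψ : V → ℝ) : exo K A B (φ + ψ) = exo K A B φ + exo K A B ψ := by
  rw [exo, off_add, (h.sd K).hx_add]; rfl
theorem Co.exo_sub (h : Co A B) (φ ψ : V → ℝ) : exo K A B (φ - ψ) = exo K A B φ - exo K A B ψ := by
  rw [exo, off_sub, (h.sd K).hx_sub]; rfl
theorem Co.exo_smul (h : Co A B) (c : ℝ) (φ : V → ℝ) : exo K A B (c • φ) = c • exo K A B φ := by
  rw [exo, off_smul, (h.sd K).hx_smul]; rfl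
theorem ex_congr {φ ψ : V → ℝ} (h : ∀ x ∈ K, φ x = ψ x) : ex K A B φ = ex K A B ψ := by
  rw [ex, on_congr h]; rfl
theorem Co.exo_congr (h : Co A B) {φ ψ : V → ℝ} (h1 : ∀ x, x ∉ A → φ x = ψ x) :
    exo K A B φ = exo K A B ψ :=
  (h.sd K).hx_congr fun x hx' => by
    by_cases hK : x ∈ K
    · rw [off_of_mem hK, off_of_mem hK]
    · rw [off_of_not hK, off_of_not hK, h1 x fun hA => hx' (mem_sdiff.2 ⟨hA, hK⟩)]
theorem chg_congr {φ ψ : V → ℝ} (h : ∀ x ∈ K, φ x = ψ x) : chg K A B φ = chg K A B ψ := by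
  rw [chg, ex_congr h]; rfl
theorem Co.chg_add (h : Co A B) (φ ψ : V → ℝ) : chg K A B (φ + ψ) = chg K A B φ + chg K A B ψ := by
  rw [chg, h.ex_add, op_add, on_add]; rfl
theorem Co.chg_sub (h : Co A B) (φ ψ : V → ℝ) : chg K A B (φ - ψ) = chg K A B φ - chg K A B ψ := by
  rw [chg, h.ex_sub, op_sub, on_sub]; rfl
theorem Co.chg_smul (h : Co A B) (c : ℝ) (φ : V → ℝ) : chg K A B (c • φ) = c • chg K A B φ := by
  rw [chg, h.ex_smul, op_smul, on_smul]; rfl
theorem chg_sup (φ : V → ℝ) : Sup K (chg K A B φ) := sup_on _ _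

/-- the harmonic function in the condenser splits into inner and outer parts -/
theorem Co.hx_sd (h : Co A B) (η : V → ℝ) : hx (A \ K) B η = ex K A B η + exo K A B η := by
  rw [ex, exo, ← (h.sd K).hx_add, on_add_off]

theorem Co.hx_eq_ex_add (h : Co A B) (b : V → ℝ) :
    hx A B b = ex K A B (hx A B b) + exo K A B b := by
  rw [h.exo_congr (ψ := hx A B b) fun x hx' => (h.hx_off b hx').symm, ← h.hx_sd]
  exact ((h.sd K).hx_unique (fun _ _ => rfl) ((h.hx_hm b).mono sdiff_subset)).symm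

theorem Co.op_ex (h : Co A B) (φ : V → ℝ) {x : V} (hx' : x ∈ A) :
    op B (ex K A B φ) x = chg K A B φ x := by
  by_cases hK : x ∈ K
  · rw [chg, on_of_mem hK]
  · rw [chg, on_of_not hK, hm_iff.1 (h.ex_hm φ) x (mem_sdiff.2 ⟨hx', hK⟩)]

theorem Co.gr_chg (h : Co A B) (hK : K ⊆ A) (φ : V → ℝ) : gr A B (chg K A B φ) = ex K A B φ :=
  h.gr_unique' (h.ex_sup hK φ) fun _ hx' => h.op_ex φ hx'

/-- the swept charge pairs with `u` as the energy of `ex φ` with any function that equals `u` on `K` -/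
theorem Co.ip_chg (h : Co A B) (hK : K ⊆ A) (φ : V → ℝ) {u v : V → ℝ} (hv : Sup A v)
    (huv : ∀ x ∈ K, chg K A B φ x ≠ 0 → v x = u x) : ip K (chg K A B φ) u = B (ex K A B φ) v := by
  rw [← h.gr_chg hK, h.gr_spec _ hv, ip_comm A, ip_of_sup hK _ (chg_sup φ)]
  refine sum_congr rfl fun x hx' => ?_
  by_cases h0 : chg K A B φ x = 0
  · simp [h0]
  · rw [huv x hx' h0, mul_comm]

theorem Co.ip_chg_ex (h : Co A B) (hK : K ⊆ A) (φ ψ : V → ℝ) :
    ip K (chg K A B φ) ψ = B (ex K A B φ) (ex K A B ψ) :=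
  h.ip_chg hK φ (h.ex_sup hK ψ) fun _ hx' _ => h.ex_on ψ hx'

theorem Co.ip_chg_comm (h : Co A B) (hK : K ⊆ A) (φ ψ : V → ℝ) :
    ip K (chg K A B φ) ψ = ip K (chg K A B ψ) φ := by rw [h.ip_chg_ex hK, h.ip_chg_ex hK, h.symm]

theorem Co.G_chg (h : Co A B) (hK : K ⊆ A) (φ ψ : V → ℝ) :
    G A B (chg K A B φ) (chg K A B ψ) = B (ex K A B φ) (ex K A B ψ) := by
  rw [h.G_eq, h.gr_chg hK, h.gr_chg hK]

theorem Co.ex_min (h : Co A B) {φ u : V → ℝ} (h1 : ∀ x ∈ K, u x = φ x) (h2 : Sup A u) :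
    B (ex K A B φ) (ex K A B φ) ≤ B u u :=
  (h.sd K).hx_min fun x hx' => by
    by_cases hK : x ∈ K
    · rw [on_of_mem hK, h1 x hK]
    · rw [on_of_not hK, h2 x fun hA => hx' (mem_sdiff.2 ⟨hA, hK⟩)]

theorem Co.exo_min (h : Co A B) {b u : V → ℝ} (h1 : ∀ x ∈ K, u x = 0)
    (h2 : ∀ x, x ∉ A → x ∉ K → u x = b x) : B (exo K A B b) (exo K A B b) ≤ B u u :=
  (h.sd K).hx_min fun x hx' => by
    by_cases hK : x ∈ K
    · rw [off_of_mem hK, h1 x hK]
    · rw [off_of_not hK, h2 x (fun hA => hx' (mem_sdiff.2 ⟨hA, hK⟩)) hK]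

theorem Co.abs_ip_chg_le (h : Co A B) (hK : K ⊆ A) {φ w u v : V → ℝ} (hw : Sup A w)
    (hφ : ∀ x ∈ K, w x = φ x) (hv : Sup A v) (huv : ∀ x ∈ K, chg K A B φ x ≠ 0 → v x = u x) :
    |ip K (chg K A B φ) u| ≤ √(B w w) * √(B v v) := by
  rw [h.ip_chg hK φ hv huv]
  exact (h.toSy.abs_le _ _).trans
    (mul_le_mul_of_nonneg_right (Real.sqrt_le_sqrt (h.ex_min hφ hw)) (Real.sqrt_nonneg _))

/-- K1: the cross term of a condenser -/
theorem Co.cross (h : Co A B) (hK : K ⊆ A) (a b : V → ℝ) :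
    -B (ex K A B a) (exo K A B b) = ip K a (chg K A B (hx A B b)) := by
  have h1 := h.hx_hm b _ (h.ex_sup hK a)
  rw [h.hx_eq_ex_add (K := K) b, map_add, LinearMap.add_apply] at h1
  rw [ip_comm, h.ip_chg_ex hK, h.symm (ex K A B a)]
  linarith

/-- sweeping: the charge `ν` on `K` with the potential of `f` on `K` -/
theorem Co.G_sweep (h : Co A B) (hK : K ⊆ A) (f : V → ℝ) :
    gr A B (f - chg K A B (gr A B f)) = gr (A \ K) B f := by
  rw [h.gr_sub, h.gr_chg hK, h.gr_pin (A' := A \ K) sdiff_subset f, sub_eq_iff_eq_add,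
    add_right_inj, ← h.gr_pin sdiff_subset f]
  exact (h.ex_unique (fun x hx' => (h.sd K).hx_off _ (by simp [hx']))
    (fun x hx' => by rw [(h.sd K).hx_off _ (by simp [hx']), h.gr_sup f x hx']) ((h.sd K).hx_hm _)).symm

theorem Co.cap_eq (h : Co A B) (hK : K ⊆ A) : cap K A B = B (ex K A B 1) (ex K A B 1) := by
  rw [← h.ip_chg_ex hK]; simp [cap, ip]

theorem Co.cap_nonneg (h : Co A B) (hK : K ⊆ A) : 0 ≤ cap K A B := by
  rw [h.cap_eq hK]; exact h.nonneg _

theorem Co.cap_pos (h : Co A B) (hK : K ⊆ A) (hne : K.Nonempty) : 0 < cap K A B := by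
  refine (h.cap_nonneg hK).lt_of_ne fun h0 => ?_
  obtain ⟨x, hx'⟩ := hne
  have h1 := congrFun (h.defn _ (h.ex_sup hK 1) ((h.cap_eq hK).symm.trans h0.symm)) x
  rw [h.ex_on 1 hx'] at h1
  simp at h1

theorem Co.cap_le (h : Co A B) (hK : K ⊆ A) {u : V → ℝ} (h1 : ∀ x ∈ K, u x = 1) (h2 : Sup A u) :
    cap K A B ≤ B u u := by rw [h.cap_eq hK]; exact h.ex_min h1 h2

/-- lower bound for the capacity by a unit charge on `K` -/
theorem Co.le_cap (h : Co A B) (hK : K ⊆ A) {ν : V → ℝ} (h1 : Sup K ν) :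
    (∑ x ∈ K, ν x) ^ 2 ≤ G A B ν ν * cap K A B := by
  have := h.ip_sq_le ν (h.ex_sup hK 1)
  rwa [← h.cap_eq hK, ip_comm, ip_of_sup hK _ h1,
    ip_congr (g := 1) fun x hx' => h.ex_on 1 hx', show ip K 1 ν = ∑ x ∈ K, ν x by simp [ip]] at this

theorem Co.sum_chg (h : Co A B) (hK : K ⊆ A) (hne : K.Nonempty) (φ : V → ℝ) :
    ∑ x ∈ K, chg K A B φ x = cap K A B * ip K (eqm K A B) φ := by
  have := h.cap_pos hK hne
  rw [eqm, ip_smul_left, ← h.ip_chg_comm hK, ← mul_assoc, mul_inv_cancel₀ this.ne', one_mul]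
  simp [ip]

theorem Co.sum_eqm (h : Co A B) (hK : K ⊆ A) (hne : K.Nonempty) : ∑ x ∈ K, eqm K A B x = 1 := by
  have := h.cap_pos hK hne
  simp only [eqm, Pi.smul_apply, smul_eq_mul, ← mul_sum]
  exact inv_mul_cancel₀ this.ne'

theorem eqm_sup : Sup K (eqm K A B) := (chg_sup _).smul _

theorem Co.chg_one (h : Co A B) (hK : K ⊆ A) (hne : K.Nonempty) :
    chg K A B 1 = cap K A B • eqm K A B := by
  rw [eqm, smul_smul, mul_inv_cancel₀ (h.cap_pos hK hne).ne', one_smul]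

theorem Co.gr_eqm (h : Co A B) (hK : K ⊆ A) : gr A B (eqm K A B) = (cap K A B)⁻¹ • ex K A B 1 := by
  rw [eqm, h.gr_smul, h.gr_chg hK]

theorem Co.G_eqm (h : Co A B) (hK : K ⊆ A) (hne : K.Nonempty) :
    G A B (eqm K A B) (eqm K A B) = (cap K A B)⁻¹ := by
  have := h.cap_pos hK hne
  rw [eqm, h.G_smul, h.G_chg hK, ← h.cap_eq hK]; field_simp

/-- K1 with the zero mode split off: `b̂ = t + D`, `(e, D) = 0` -/
theorem Co.cross_split (h : Co A B) (hK : K ⊆ A) (hne : K.Nonempty) (a b : V → ℝ) :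
    -B (ex K A B a) (exo K A B b) =
      cap K A B * ip K (eqm K A B) a * ip K (eqm K A B) (hx A B b) +
        ip K a (chg K A B fun x => hx A B b x - ip K (eqm K A B) (hx A B b)) := by
  have h1 : (fun x => hx A B b x - ip K (eqm K A B) (hx A B b)) =
      hx A B b - ip K (eqm K A B) (hx A B b) • (1 : V → ℝ) := by funext x; simp
  rw [h.cross hK, h1, h.chg_sub, h.chg_smul, h.chg_one hK hne, ip_sub_right, ip_smul_right,
    ip_smul_right, ip_comm K a (eqm K A B)]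
  ring

theorem Co.ex_nonneg (h : Co A B) (hM : Mk B) {φ : V → ℝ} (h1 : ∀ x ∈ K, 0 ≤ φ x) (x : V) :
    0 ≤ ex K A B φ x := by
  have := (h.sd K).ge_of_super hM (u := ex K A B φ) le_rfl (fun y hy => by
    rw [ex, (h.sd K).hx_off _ hy, neg_zero]
    by_cases hK : y ∈ K
    · rw [on_of_mem hK]; exact h1 y hK
    · rw [on_of_not hK]) (fun v hv _ => (h.ex_hm φ v hv).ge) x
  simpa using this

theorem Co.abs_ex_le (h : Co A B) (hM : Mk B) {φ : V → ℝ} {M : ℝ} (h0 : 0 ≤ M)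
    (h1 : ∀ x ∈ K, |φ x| ≤ M) (x : V) : |ex K A B φ x| ≤ M :=
  (h.sd K).abs_hx_le hM h0 (fun y _ => by
    by_cases hK : y ∈ K
    · rw [on_of_mem hK]; exact h1 y hK
    · rw [on_of_not hK]; simpa using h0) x

/-- a supersolution `u ≥ 0` sweeps to a nonnegative charge -/
theorem Co.chg_nonneg (h : Co A B) (hM : Mk B) (hK : K ⊆ A) {u : V → ℝ} (h0 : ∀ x, x ∉ A → 0 ≤ u x)
    (hu : ∀ x ∈ A, 0 ≤ op B u x) (x : V) : 0 ≤ chg K A B u x := by
  by_cases hx' : x ∈ K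
  swap
  · rw [chg_sup u x hx']
  set w := u - ex K A B u with hw
  have h1 : ∀ y, 0 ≤ w y := fun y => sub_nonneg.2 <| (h.sd K).compare hM (fun z hz => by
      by_cases hz' : z ∈ K
      · rw [h.ex_on u hz']
      · have hA : z ∉ A := fun hA => hz (mem_sdiff.2 ⟨hA, hz'⟩)
        rw [h.ex_sup hK u z hA]; exact h0 z hA)
    (fun z hz => by rw [hm_iff.1 (h.ex_hm u) z hz]; exact hu z (mem_sdiff.1 hz).1) y
  have h2 : w x = 0 := by simp [hw, h.ex_on u hx']
  have h3 : ∀ t : ℝ, 0 < t → B w (dl x) ≤ 0 := fun t ht => by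
    have h4 := hM (w - t • dl x) (fun s => max s 0) (fun s => min s 0)
      (fun a b hab => max_le_max_right _ hab) (fun a b hab => min_le_min_right _ hab)
      fun s => by rcases le_total s 0 with hs | hs <;> simp [hs]
    have h5 : (fun y => max ((w - t • dl x) y) 0) = w := by
      funext y
      by_cases hy : y = x
      · subst hy; simp [h2, ht.le]
      · simp [Pi.single_eq_of_ne hy, h1 y]
    have h6 : (fun y => min ((w - t • dl x) y) 0) = (-t) • dl x := by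
      funext y
      by_cases hy : y = x
      · subst hy; simp [h2, ht.le]
      · simp [Pi.single_eq_of_ne hy, h1 y]
    rw [h5, h6, map_smul, smul_eq_mul] at h4
    by_contra h7
    nlinarith [mul_pos ht (not_le.1 h7)]
  have h8 := h3 1 one_pos
  rw [hw, map_sub, LinearMap.sub_apply] at h8
  have h9 := hu x (hK hx')
  rw [chg, on_of_mem hx', op]
  unfold op at h9
  linarith

theorem Mk.op_one (hM : Mk B) (x : V) : 0 ≤ op B 1 x := by
  have h4 := hM (dl x) (fun _ => 1) (fun s => max s 0) monotone_const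
    (fun a b hab => max_le_max_right _ hab) fun s => by simp
  have h5 : (fun y => max (dl x y) 0) = dl x := by
    funext y
    by_cases hy : y = x
    · subst hy; simp
    · simp [Pi.single_eq_of_ne hy]
  rwa [h5] at h4

theorem Co.chg_one_nonneg (h : Co A B) (hM : Mk B) (hK : K ⊆ A) (x : V) : 0 ≤ chg K A B 1 x :=
  h.chg_nonneg hM hK (fun _ _ => zero_le_one) (fun y _ => hM.op_one y) x

theorem Co.eqm_nonneg (h : Co A B) (hM : Mk B) (hK : K ⊆ A) (x : V) : 0 ≤ eqm K A B x :=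
  mul_nonneg (inv_nonneg.2 (h.cap_nonneg hK)) (h.chg_one_nonneg hM hK x)

theorem Co.abs_ip_eqm_le (h : Co A B) (hM : Mk B) (hK : K ⊆ A) (hne : K.Nonempty) {u : V → ℝ}
    {M : ℝ} (hu : ∀ x ∈ K, |u x| ≤ M) : |ip K (eqm K A B) u| ≤ M := by
  refine (abs_sum_le_sum_abs _ _).trans ?_
  rw [← one_mul M, ← h.sum_eqm hK hne, sum_mul]
  exact sum_le_sum fun x hx' => by
    rw [abs_mul, abs_of_nonneg (h.eqm_nonneg hM hK x)]
    exact mul_le_mul_of_nonneg_left (hu x hx') (h.eqm_nonneg hM hK x)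

/-- `1 / cap` is an average of the Green function -/
theorem Co.inv_cap_eq (h : Co A B) (hK : K ⊆ A) {x : V} (hx' : x ∈ K) :
    (cap K A B)⁻¹ = ∑ y ∈ K, eqm K A B y * G A B (dl x) (dl y) := by
  have h1 := congrFun (h.gr_eqm hK) x
  rw [Pi.smul_apply, h.ex_on 1 hx', h.gr_eq_sum] at h1
  simp only [Pi.one_apply, smul_eq_mul, mul_one] at h1
  rw [← h1]
  exact (sum_subset hK fun y _ hy => by rw [eqm_sup y hy, zero_mul]).symm

/-! ## transport along symmetries -/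
section sym
variable {V' : Type*} [DecidableEq V'] {B' : Bf V'} (σ : V ≃ V')

omit [DecidableEq V] [DecidableEq V'] in
theorem Co.gr_equiv (h : Co A B) (hB : ∀ u v, B' u v = B (u ∘ σ) (v ∘ σ)) (f : V' → ℝ) :
    gr (A.map σ.toEmbedding) B' f ∘ σ = gr A B (f ∘ σ) := by
  have h' : Co (A.map σ.toEmbedding) B' :=
    ⟨⟨fun u v => by rw [hB, hB, h.symm], fun u => by rw [hB]; exact h.nonneg _⟩, fun u hu h0 => by
      have := h.defn (u ∘ σ) (fun x hx' => hu _ (by simpa using hx')) (by rw [← hB, h0])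
      funext y; simpa using congrFun this (σ.symm y)⟩
  refine (h.gr_unique (fun x hx' => h'.gr_sup f _ (by simpa using hx')) fun v hv => ?_).symm
  have := h'.gr_spec f (v := v ∘ σ.symm) fun y hy => hv _ (by simpa using hy)
  rw [hB, show (v ∘ σ.symm) ∘ σ = v by funext x; simp] at this
  refine this.trans ?_
  rw [ip, ip, sum_map]; simp

theorem op_equiv (hB : ∀ u v, B' u v = B (u ∘ σ) (v ∘ σ)) (u : V' → ℝ) :
    op B' u ∘ σ = op B (u ∘ σ) := by
  funext x
  simp only [Function.comp_apply, op, hB]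
  congr 1
  funext y; simp [Pi.single_apply]

theorem Co.hx_equiv (h : Co A B) (hB : ∀ u v, B' u v = B (u ∘ σ) (v ∘ σ)) (η : V' → ℝ) :
    hx (A.map σ.toEmbedding) B' η ∘ σ = hx A B (η ∘ σ) := by
  rw [hx, hx, ← op_equiv σ hB, ← h.gr_equiv σ hB]; rfl

theorem on_equiv (K : Finset V) (φ : V' → ℝ) : on (K.map σ.toEmbedding) φ ∘ σ = on K (φ ∘ σ) := by
  funext x; simp [on]

theorem off_equiv (K : Finset V) (φ : V' → ℝ) :
    off (K.map σ.toEmbedding) φ ∘ σ = off K (φ ∘ σ) := by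
  funext x; simp [off]

theorem Co.ex_equiv (h : Co A B) (hB : ∀ u v, B' u v = B (u ∘ σ) (v ∘ σ)) (φ : V' → ℝ) :
    ex (K.map σ.toEmbedding) (A.map σ.toEmbedding) B' φ ∘ σ = ex K A B (φ ∘ σ) := by
  rw [ex, ex, ← Finset.map_sdiff, (h.sd K).hx_equiv σ hB, on_equiv]

theorem Co.exo_equiv (h : Co A B) (hB : ∀ u v, B' u v = B (u ∘ σ) (v ∘ σ)) (φ : V' → ℝ) :
    exo (K.map σ.toEmbedding) (A.map σ.toEmbedding) B' φ ∘ σ = exo K A B (φ ∘ σ) := by
  rw [exo, exo, ← Finset.map_sdiff, (h.sd K).hx_equiv σ hB, off_equiv]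

theorem Co.chg_equiv (h : Co A B) (hB : ∀ u v, B' u v = B (u ∘ σ) (v ∘ σ)) (φ : V' → ℝ) :
    chg (K.map σ.toEmbedding) (A.map σ.toEmbedding) B' φ ∘ σ = chg K A B (φ ∘ σ) := by
  rw [chg, chg, on_equiv, op_equiv σ hB, h.ex_equiv σ hB]

theorem Co.cap_equiv (h : Co A B) (hB : ∀ u v, B' u v = B (u ∘ σ) (v ∘ σ)) :
    cap (K.map σ.toEmbedding) (A.map σ.toEmbedding) B' = cap K A B := by
  rw [cap, cap, sum_map]
  exact sum_congr rfl fun x _ => congrFun (h.chg_equiv σ hB 1) x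

theorem Co.eqm_equiv (h : Co A B) (hB : ∀ u v, B' u v = B (u ∘ σ) (v ∘ σ)) :
    eqm (K.map σ.toEmbedding) (A.map σ.toEmbedding) B' ∘ σ = eqm K A B := by
  funext x
  simp only [Function.comp_apply, eqm, Pi.smul_apply, h.cap_equiv σ hB]
  exact congrArg _ (congrFun (h.chg_equiv σ hB 1) x)

end sym

/-! ## products with cut-offs -/
omit [DecidableEq V] in
theorem edF_mul_le (ed : Finset (V × V)) (ζ u : V → ℝ) (h1 : ∀ x, |ζ x| ≤ 1) :
    edF ed (fun x => ζ x * u x) (fun x => ζ x * u x) ≤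
      2 * ∑ e ∈ ed, ζ e.1 ^ 2 * (u e.2 - u e.1) ^ 2 + 2 * ∑ e ∈ ed, (ζ e.2 - ζ e.1) ^ 2 * u e.2 ^ 2 := by
  rw [edF_self, mul_sum, mul_sum, ← sum_add_distrib]
  refine sum_le_sum fun e _ => ?_
  nlinarith [sq_nonneg (ζ e.1 * (u e.2 - u e.1) - (ζ e.2 - ζ e.1) * u e.2), h1 e.1]

omit [DecidableEq V] in
/-- the identity behind Caccioppoli's inequality -/
theorem edF_cacc (ed : Finset (V × V)) (ζ u : V → ℝ) :
    edF ed (fun x => ζ x * u x) (fun x => ζ x * u x) =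
      edF ed u (fun x => ζ x ^ 2 * u x) + ∑ e ∈ ed, (ζ e.2 - ζ e.1) ^ 2 * (u e.1 * u e.2) := by
  rw [edF_apply, edF_apply, ← sum_add_distrib]
  exact sum_congr rfl fun e _ => by ring

omit [DecidableEq V] in
/-- Wronskian identity -/
theorem edF_wronski (ed : Finset (V × V)) (χ u v : V → ℝ) :
    edF ed (fun x => χ x * u x) v - edF ed u (fun x => χ x * v x) =
      ∑ e ∈ ed, (χ e.2 - χ e.1) * (u e.1 * (v e.2 - v e.1) - v e.1 * (u e.2 - u e.1)) := by
  rw [edF_apply, edF_apply, ← sum_sub_distrib]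
  exact sum_congr rfl fun e _ => by ring

end Crest.Agent.T145.Pot
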