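import Crest.Agent.T145.PotL_17

/-!
# Row 145 (helper59): Caccioppoli inequality and hole filling on `ℤ²`
-/

set_option autoImplicit false

namespace Crest.Agent.T145.Pot

open Finset

variable {Λ : Lat}

/-- Caccioppoli identity -/
theorem cacc_eq (h : Λ.Ok) {D : Finset Pt} {u χ : Pt → ℝ} (hχ : Sup D χ)
    (hu : ∀ x ∈ D, χ x ≠ 0 → u x ≠ 0 → lapJ Λ.J u x = 0) :
    eD Λ D (fun x => χ x * u x) (fun x => χ x * u x) =
      ∑ e ∈ Λ.edT D, u e.1 * u e.2 * (χ e.2 - χ e.1) ^ 2 := by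
  have h1 : eD Λ D u (fun x => χ x ^ 2 * u x) = 0 := by
    rw [eD_sbp h u fun x hx => by simp [hχ x hx], neg_eq_zero]
    refine sum_eq_zero fun x hx => ?_
    by_cases h2 : χ x = 0
    · simp [h2]
    by_cases h3 : u x = 0
    · simp [h3]
    rw [hu x hx h2 h3, zero_mul]
  rw [eD, edF_apply] at h1
  rw [eD, edF_self, ← sub_zero (∑ e ∈ _, _), ← h1, ← sum_sub_distrib]
  exact sum_congr rfl fun e _ => by ring

theorem sum_ends_le (B : Finset Pt) {f : Pt → ℝ} (hf : ∀ x, 0 ≤ f x) :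
    ∑ e ∈ Λ.edI B, (f e.1 + f e.2) ≤ 2 * Λ.Jp.card * ∑ x ∈ B, f x := by
  rw [Lat.sum_edI, mul_comm 2, mul_assoc, ← nsmul_eq_mul]
  refine sum_le_card_nsmul _ _ _ fun y _ => ?_
  rw [sum_add_distrib, two_mul]
  refine add_le_add (sum_le_sum_of_subset_of_nonneg (filter_subset _ _) fun x _ _ => hf x) ?_
  rw [← sum_image (g := fun x => x + y) (f := f) fun a _ b _ hab => add_right_cancel hab]
  refine sum_le_sum_of_subset_of_nonneg (fun x hx => ?_) fun x _ _ => hf x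
  obtain ⟨w, hw, rfl⟩ := mem_image.1 hx
  exact (mem_filter.1 hw).2

/-- Caccioppoli inequality: `χ = 1` near `D'`, `χ` varies by at most `δ` and only on edges inside `A` -/
theorem cacc_le (h : Λ.Ok) {D D' A : Finset Pt} {u χ : Pt → ℝ} {δ : ℝ} (hD : D' ⊆ D) (hχ : Sup D χ)
    (hu : ∀ x ∈ D, χ x ≠ 0 → u x ≠ 0 → lapJ Λ.J u x = 0)
    (h1 : ∀ e ∈ Λ.edT D', χ e.1 = 1 ∧ χ e.2 = 1)
    (h2 : ∀ e ∈ Λ.edT D, χ e.2 ≠ χ e.1 → e.1 ∈ A ∧ e.2 ∈ A ∧ |χ e.2 - χ e.1| ≤ δ) :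
    eD Λ D' u u ≤ δ ^ 2 * Λ.Jp.card * ∑ x ∈ A, u x ^ 2 := by
  calc eD Λ D' u u = eD Λ D' (fun x => χ x * u x) (fun x => χ x * u x) := by
        rw [eD, edF_self, edF_self]
        exact sum_congr rfl fun e he => by rw [(h1 e he).1, (h1 e he).2, one_mul, one_mul]
    _ ≤ _ := eD_mono hD _
    _ = ∑ e ∈ (Λ.edT D).filter fun e => χ e.2 ≠ χ e.1, u e.1 * u e.2 * (χ e.2 - χ e.1) ^ 2 := by
        rw [cacc_eq h hχ hu, sum_filter_of_ne (p := fun e : Pt × Pt => χ e.2 ≠ χ e.1)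
          fun e _ he h3 => he (by rw [h3]; ring)]
    _ ≤ ∑ e ∈ (Λ.edT D).filter fun e => χ e.2 ≠ χ e.1, δ ^ 2 / 2 * (u e.1 ^ 2 + u e.2 ^ 2) :=
        sum_le_sum fun e he => by
          have h3 := (h2 e (mem_filter.1 he).1 (mem_filter.1 he).2).2.2
          have h4 : (χ e.2 - χ e.1) ^ 2 ≤ δ ^ 2 := sq_le_sq' (abs_le.1 h3).1 (abs_le.1 h3).2
          nlinarith [mul_nonneg (sq_nonneg (u e.1 - u e.2)) (sq_nonneg (χ e.2 - χ e.1)),
            mul_nonneg (add_nonneg (sq_nonneg (u e.1)) (sq_nonneg (u e.2))) (sub_nonneg.2 h4)]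
    _ ≤ ∑ e ∈ Λ.edI A, δ ^ 2 / 2 * (u e.1 ^ 2 + u e.2 ^ 2) :=
        sum_le_sum_of_subset_of_nonneg (fun e he => by
          have h3 := h2 e (mem_filter.1 he).1 (mem_filter.1 he).2
          exact Lat.mem_edI.2 ⟨(Lat.mem_edT.1 (mem_filter.1 he).1).1, h3.1, h3.2.1⟩)
          fun _ _ _ => by positivity
    _ ≤ _ := by
        rw [← mul_sum]
        refine (mul_le_mul_of_nonneg_left (sum_ends_le A fun x => sq_nonneg (u x))
          (by positivity)).trans_eq (by ring)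

namespace H59

theorem sum_biUnion_le {ι α : Type*} [DecidableEq α] (T : Finset ι) (B : ι → Finset α) {f : α → ℝ}
    (hf : ∀ x, 0 ≤ f x) : ∑ x ∈ T.biUnion B, f x ≤ ∑ i ∈ T, ∑ x ∈ B i, f x := by
  classical
  induction T using Finset.induction_on with
  | empty => simp
  | insert i T hi ih =>
    rw [biUnion_insert, sum_insert hi]
    linarith [sum_union_inter (s₁ := B i) (s₂ := T.biUnion B) (f := f),
      sum_nonneg fun x (_ : x ∈ B i ∩ T.biUnion B) => hf x]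

/-- sup norm distance -/
def ds (z x : Pt) : ℤ := max |x.1 - z.1| |x.2 - z.2|

theorem mem_bl_ds {z x : Pt} {r : ℕ} : x ∈ bl z r ↔ ds z x ≤ r := by rw [mem_bl_abs, ds, max_le_iff]

theorem ds_lip (z : Pt) {x y : Pt} {r : ℕ} (h : y ∈ bl x r) : |ds z y - ds z x| ≤ r := by
  rw [mem_bl] at h
  simp only [ds, abs_eq_max_neg]
  omega

/-- cutoff: `1` on `bl z (k m)`, `0` off `bl z ((k + 1) m)` -/
noncomputable def cut (z : Pt) (k m : ℕ) (x : Pt) : ℝ := max 0 (min 1 (k + 1 - (ds z x : ℝ) / m))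

theorem cut_one {z x : Pt} {k m : ℕ} (hm : 0 < m) (h : x ∈ bl z (k * m)) : cut z k m x = 1 := by
  have h1 : (ds z x : ℝ) ≤ k * m := by exact_mod_cast mem_bl_ds.1 h
  have h2 : (ds z x : ℝ) / m ≤ k := by rwa [div_le_iff₀ (by positivity)]
  rw [cut, min_eq_left (by linarith), max_eq_right zero_le_one]

theorem cut_sup (z : Pt) (k : ℕ) {m : ℕ} (hm : 0 < m) : Sup (bl z ((k + 1) * m)) (cut z k m) :=
  fun x hx => by
  have h1 : ((k + 1) * m : ℝ) ≤ ds z x := by exact_mod_cast (not_le.1 (mt mem_bl_ds.2 hx)).le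
  have h2 : (k + 1 : ℝ) ≤ (ds z x : ℝ) / m := by rwa [le_div_iff₀ (by positivity)]
  exact max_eq_left ((min_le_right _ _).trans (by linarith))

theorem cut_lip (z : Pt) (k : ℕ) {m : ℕ} (hm : 0 < m) {x y : Pt} {r : ℕ} (h : y ∈ bl x r) :
    |cut z k m y - cut z k m x| ≤ r / m := by
  have h1 : |(ds z y : ℝ) - ds z x| ≤ r := by exact_mod_cast ds_lip z h
  rw [cut, cut, max_comm, max_comm 0, min_comm, min_comm 1]
  refine (abs_max_sub_max_le_abs _ _ _).trans ((abs_min_sub_min_le_max _ _ _ _).trans ?_)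
  rw [sub_self, abs_zero, sub_sub_sub_cancel_left, ← sub_div, abs_div, abs_sub_comm,
    abs_of_pos (show (0 : ℝ) < m by positivity)]
  exact max_le (div_le_div_of_nonneg_right h1 (by positivity)) (by positivity)

/-- a connected set leaves a ball through a thin shell -/
theorem exists_exit {K : Finset Pt} {z y : Pt} {t : ℕ} (h : Conn (Λ.edI K) z y) (hy : y ∉ bl z t) :
    ∃ x ∈ K, x ∉ bl z t ∧ x ∈ bl z (t + Λ.rg) ∧ Conn (Λ.edI K) x z := by
  induction h with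
  | refl => exact absurd (self_mem_bl _ _) hy
  | @tail b c h1 h2 ih =>
    by_cases hb : b ∈ bl z t
    · have h3 : c ∈ K ∧ c ∈ bl b Λ.rg := by
        rcases h2 with h2 | h2
        · exact ⟨(Lat.mem_edI.1 h2).2.2, Lat.edge_near (e := (b, c)) (Lat.mem_edI.1 h2).1⟩
        · exact ⟨(Lat.mem_edI.1 h2).2.1, Lat.edge_near' (e := (c, b)) (Lat.mem_edI.1 h2).1⟩
      exact ⟨c, h3.1, hy, bl_subset_bl hb (add_comm _ _).le h3.2,
        Conn.symm (Relation.ReflTransGen.tail h1 h2)⟩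
    · exact ih hb

/-- eight centres around `z` -/
def cen (z : Pt) (m : ℕ) : Fin 8 → Pt :=
  ![(z.1 + 4 * m, z.2), (z.1 + 4 * m, z.2 + 4 * m), (z.1, z.2 + 4 * m), (z.1 - 4 * m, z.2 + 4 * m),
    (z.1 - 4 * m, z.2), (z.1 - 4 * m, z.2 - 4 * m), (z.1, z.2 - 4 * m), (z.1 + 4 * m, z.2 - 4 * m)]

theorem cover {z x : Pt} {m : ℕ} (h : x ∈ bl z (6 * m)) (h' : x ∉ bl z (2 * m)) :
    ∃ k, x ∈ bl (cen z m k) (2 * m) := by
  simp only [mem_bl, Fin.exists_fin_succ, cen, Matrix.cons_val_zero, Matrix.cons_val_succ] at *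
  push_cast at *
  omega

theorem cen_in (z : Pt) (m : ℕ) (k : Fin 8) {x : Pt} (h : x ∈ bl (cen z m k) (3 * m)) :
    x ∈ bl z (7 * m) ∧ ∀ ρ : ℕ, ρ < m → x ∉ bl z ρ := by
  fin_cases k <;> simp only [mem_bl, cen] at * <;> simp at h <;> refine ⟨?_, fun ρ hρ => ?_⟩ <;> omega

theorem cen_adj (z : Pt) (m : ℕ) (k : Fin 8) :
    ∃ p, p ∈ bl (cen z m k) (2 * m) ∧ p ∈ bl (cen z m (k + 1)) (2 * m) := by
  refine ⟨(((cen z m k).1 + (cen z m (k + 1)).1) / 2, ((cen z m k).2 + (cen z m (k + 1)).2) / 2), ?_⟩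
  fin_cases k <;> simp [mem_bl, cen] <;> omega

theorem chain {S T : Finset Pt} (hT : T ⊆ S) (hc : (S.card : ℝ) ≤ 9 * T.card) (u : Pt → ℝ) (a : ℝ) :
    ∑ x ∈ S, u x ^ 2 ≤ 36 * ∑ x ∈ T, u x ^ 2 + 38 * ∑ x ∈ S, (u x - a) ^ 2 := by
  have h1 : ∑ x ∈ S, u x ^ 2 ≤ 2 * ∑ x ∈ S, (u x - a) ^ 2 + 2 * (S.card * a ^ 2) := by
    rw [← nsmul_eq_mul, ← sum_const, mul_sum, mul_sum, ← sum_add_distrib]
    exact sum_le_sum fun x _ => by nlinarith [sq_nonneg (u x - 2 * a)]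
  have h2 : T.card * a ^ 2 ≤ 2 * ∑ x ∈ T, u x ^ 2 + 2 * ∑ x ∈ T, (u x - a) ^ 2 := by
    rw [← nsmul_eq_mul, ← sum_const, mul_sum, mul_sum, ← sum_add_distrib]
    exact sum_le_sum fun x _ => by nlinarith [sq_nonneg (2 * u x - a)]
  have h3 : ∑ x ∈ T, (u x - a) ^ 2 ≤ ∑ x ∈ S, (u x - a) ^ 2 :=
    sum_le_sum_of_subset_of_nonneg hT fun _ _ _ => sq_nonneg _
  nlinarith [mul_le_mul_of_nonneg_right hc (sq_nonneg a)]

/-- iteration of a one step contraction -/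
theorem iter {E : ℕ → ℝ} (hE : Monotone E) (h0 : ∀ r, 0 ≤ E r) {M R : ℕ} (hM : 2 ≤ M) {θ : ℝ}
    (h1 : 0 < θ) (h2 : θ < 1) (h : ∀ r, 1 ≤ r → M * r ≤ R → E r ≤ θ * E (M * r)) :
    ∀ r, 1 ≤ r → r ≤ R →
      E r ≤ θ⁻¹ * ((r : ℝ) / R) ^ (-Real.log θ / Real.log M) * E R := by
  set c := -Real.log θ / Real.log M with hc
  have hM1 : (1 : ℝ) < M := by exact_mod_cast hM
  have hl := Real.log_pos hM1
  have hc0 : 0 ≤ c := div_nonneg (neg_nonneg.2 (Real.log_neg h1 h2).le) hl.le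
  have hMc : (M : ℝ) ^ c = θ⁻¹ := by
    rw [Real.rpow_def_of_pos (by positivity), hc, mul_div_cancel₀ _ hl.ne', Real.exp_neg,
      Real.exp_log h1]
  intro r
  induction hn : R - r using Nat.strong_induction_on generalizing r with
  | _ n ih =>
    intro hr hR
    have hr0 : (0 : ℝ) < r := by exact_mod_cast hr
    have hR0 : (0 : ℝ) < R := by exact_mod_cast hr.trans hR
    have e : (((M * r : ℕ) : ℝ) / R) ^ c = θ⁻¹ * ((r : ℝ) / R) ^ c := by
      rw [Nat.cast_mul, mul_div_assoc, Real.mul_rpow (by positivity) (by positivity), hMc]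
    by_cases h3 : M * r ≤ R
    · have h4 : r < M * r := by nlinarith
      have h5 := ih (R - M * r) (by omega) (M * r) rfl (by omega) h3
      refine (h r hr h3).trans ((mul_le_mul_of_nonneg_left h5 h1.le).trans_eq ?_)
      rw [e]
      field_simp
    · refine (hE hR).trans (le_mul_of_one_le_left (h0 R) ?_)
      rw [← e]
      refine Real.one_le_rpow ?_ hc0
      rw [le_div_iff₀ hR0, one_mul]
      exact_mod_cast (not_le.1 h3).le

end H59

open H59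

/-- Poincaré inequality on an annulus crossed by the zero set -/
theorem annulus_poin (hP : PoinStmt) (hR : RowStmt) (h : Λ.Ok) : ∃ C : ℝ, 0 ≤ C ∧
    ∀ (K : Finset Pt) (z y : Pt) (m ρ : ℕ) (u : Pt → ℝ), Λ.rg ≤ m → ρ < m → y ∉ bl z (4 * m) →
      Conn (Λ.edI K) z y → (∀ x ∈ K, u x = 0) →
      ∑ x ∈ bl z (6 * m) \ bl z (2 * m), u x ^ 2 ≤
        C * (m : ℝ) ^ 2 * (eD Λ (bl z (7 * m)) u u - eD Λ (bl z ρ) u u) := by
  obtain ⟨C₀, hP⟩ := hP
  set C := max C₀ 0 with hC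
  have hC0 : 0 ≤ C := le_max_right _ _
  refine ⟨8 * (37 ^ 7 * (343 * Λ.rg * C + 2000 * C)), by positivity, ?_⟩
  intro K z y m ρ u hm hρ hy hK hu
  have hm0 : (0 : ℝ) < m := by exact_mod_cast (Nat.zero_le ρ).trans_lt hρ
  set D := eD Λ (bl z (7 * m)) u u - eD Λ (bl z ρ) u u with hD
  have hE : ∀ k, eN nL (bl (cen z m k) (3 * m)) u u ≤ D := fun k => by
    refine (eN_nL_le h _ u).trans ?_
    rw [hD, eD, eD, eN, edF_self, edF_self, edF_self,
      ← sum_sdiff_eq_sub (Lat.edT_mono (bl_mono z (by omega)))]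
    refine sum_le_sum_of_subset_of_nonneg (fun e he => ?_) fun _ _ _ => sq_nonneg _
    rw [Lat.mem_edI] at he
    rw [mem_sdiff, Lat.mem_edT, Lat.mem_edT]
    exact ⟨⟨he.1, Or.inl (cen_in z m k he.2.1).1⟩, fun h3 => h3.2.elim
      ((cen_in z m k he.2.1).2 ρ hρ) ((cen_in z m k he.2.2).2 ρ hρ)⟩
  have hE0 : ∀ k, 0 ≤ eN nL (bl (cen z m k) (3 * m)) u u := fun k => (sy_eN _).nonneg u
  have hD0 : 0 ≤ D := (hE0 0).trans (hE 0)
  have hn : ((2 * (3 * m) + 1 : ℕ) : ℝ) ≤ 7 * m := by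
    have : 2 * (3 * m) + 1 ≤ 7 * m := by omega
    exact_mod_cast this
  have hb : ∀ (k : Fin 8) (j : ℕ), C₀ * ((2 * (3 * m) + 1 : ℕ) : ℝ) ^ j *
      eN nL (bl (cen z m k) (3 * m)) u u ≤ C * (7 * m) ^ j * D := fun k j =>
    mul_le_mul (mul_le_mul (le_max_left _ _) (pow_le_pow_left₀ (by positivity) hn j)
      (by positivity) hC0) (hE k) (hE0 k) (by positivity)
  set F : Fin 8 → ℝ := fun k => ∑ x ∈ bl (cen z m k) (3 * m), u x ^ 2 with hF
  have hF0 : ∀ k, 0 ≤ F k := fun k => sum_nonneg fun _ _ => sq_nonneg _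
  have hs : ∀ k, F (k + 1) ≤ 36 * F k + 2000 * C * (m ^ 2 * D) := fun k => by
    obtain ⟨p, h1, h2⟩ := cen_adj z m k
    have h3 := chain (bl_subset_bl (r := m) (r' := 3 * m) h2 (by omega)) (by
      rw [card_bl, card_bl]; push_cast; nlinarith) u (av (bl (cen z m (k + 1)) (3 * m)) u)
    have h4 : ∑ x ∈ bl p m, u x ^ 2 ≤ F k :=
      sum_le_sum_of_subset_of_nonneg (bl_subset_bl h1 (by omega)) fun _ _ _ => sq_nonneg _
    have h5 := (hP ((cen z m (k + 1)).1 - (3 * m : ℕ), (cen z m (k + 1)).2 - (3 * m : ℕ))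
      (2 * (3 * m) + 1) u).1
    rw [← bl_eq_sq] at h5
    have h6 := hb (k + 1) 2
    have h7 : 0 ≤ C * (m ^ 2 * D) := by positivity
    simp only [hF]
    nlinarith
  obtain ⟨x, hx, hx1, hx2, hx3⟩ := exists_exit hK hy
  obtain ⟨k, hk⟩ := cover (m := m) (bl_mono z (by omega) hx2) fun h1 => hx1 (bl_mono z (by omega) h1)
  have hk0 : F k ≤ 343 * Λ.rg * C * (m ^ 2 * D) := by
    have h1 := hR Λ h K x z m hx (fun h1 => hx1 (bl_mono z (by omega) (mem_bl_comm.1 h1))) hx3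
    have h2 := (hP ((cen z m k).1 - (3 * m : ℕ), (cen z m k).2 - (3 * m : ℕ))
      (2 * (3 * m) + 1) u).2.1 (K ∩ bl x m) (by
        rw [← bl_eq_sq]; exact inter_subset_right.trans (bl_subset_bl hk (by omega)))
      fun w hw => hu w (mem_inter.1 hw).1
    rw [← bl_eq_sq] at h2
    have h3 : ∀ N : ℕ, m + 1 ≤ Λ.rg * N → N * F k ≤ C * (7 * m) ^ 3 * D →
        F k ≤ 343 * Λ.rg * C * (m ^ 2 * D) := fun N h3 h4 => by
      have h5 : (m : ℝ) ≤ Λ.rg * N := by exact_mod_cast (Nat.le_succ m).trans h3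
      refine le_of_mul_le_mul_left ((mul_le_mul_of_nonneg_right h5 (hF0 k)).trans ?_) hm0
      rw [mul_assoc]
      exact (mul_le_mul_of_nonneg_left h4 (by positivity)).trans_eq (by ring)
    exact h1.elim (fun h4 => h3 _ h4 (h2.1.trans (hb k 3))) fun h4 => h3 _ h4 (h2.2.trans (hb k 3))
  set B := (343 * Λ.rg * C + 2000 * C) * (m ^ 2 * D) with hB
  have hB1 : 0 ≤ 343 * Λ.rg * C * (m ^ 2 * D) := by positivity
  have hB2 : 0 ≤ 2000 * C * (m ^ 2 * D) := by positivity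
  have hj : ∀ j : ℕ, F (k + Fin.ofNat 8 j) ≤ 37 ^ j * B := fun j => by
    induction j with
    | zero => simp only [Fin.ofNat_zero, add_zero, pow_zero]; linarith
    | succ j ih =>
      have e : k + Fin.ofNat 8 (j + 1) = k + Fin.ofNat 8 j + 1 := by
        rw [add_assoc]; congr 1; ext; simp [Fin.val_add]
      have h1 : B ≤ 37 ^ j * B := le_mul_of_one_le_left (by linarith) (one_le_pow₀ (by norm_num))
      rw [e, pow_succ]
      linarith [hs (k + Fin.ofNat 8 j)]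
  have ha : ∀ l, F l ≤ 37 ^ 7 * B := fun l => by
    have h1 := hj (l - k).val
    rw [Fin.ofNat_val_eq_self, add_sub_cancel] at h1
    exact h1.trans (mul_le_mul_of_nonneg_right (pow_le_pow_right₀ (by norm_num) (by omega))
      (by linarith))
  calc _ ≤ ∑ x ∈ univ.biUnion fun l => bl (cen z m l) (3 * m), u x ^ 2 :=
        sum_le_sum_of_subset_of_nonneg (fun w hw => by
          obtain ⟨l, hl⟩ := cover (mem_sdiff.1 hw).1 (mem_sdiff.1 hw).2
          exact mem_biUnion.2 ⟨l, mem_univ _, bl_mono _ (by omega) hl⟩) fun _ _ _ => sq_nonneg _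
    _ ≤ ∑ l, F l := sum_biUnion_le _ _ fun _ => sq_nonneg _
    _ ≤ ∑ _l : Fin 8, 37 ^ 7 * B := sum_le_sum fun l _ => ha l
    _ = _ := by rw [sum_const, card_univ, Fintype.card_fin, hB]; ring

theorem holeStmt (hP : PoinStmt) (hR : RowStmt) : HoleStmt := by
  intro Λ h
  obtain ⟨C, hC0, hC⟩ := annulus_poin hP hR h
  set C₁ := (Λ.rg : ℝ) ^ 2 * Λ.Jp.card * C + 1 with hC₁
  have h1 : 0 < C₁ := by positivity
  have h2 : 0 < C₁ / (1 + C₁) := by positivity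
  have h3 : C₁ / (1 + C₁) < 1 := by rw [div_lt_one (by positivity)]; linarith
  have hrg := h.one_le_rg
  have hM : 2 ≤ 7 * (1 + Λ.rg) := by omega
  refine ⟨_, _, div_pos (neg_pos.2 (Real.log_neg h2 h3)) (Real.log_pos (by exact_mod_cast hM)),
    fun K z y r R u hr hR _ hy hK hu hl => iter (E := fun r => eD Λ (bl z r) u u)
      (fun _ _ hh => eD_mono (bl_mono z hh) u) (fun _ => (sy_eD _).nonneg u) hM h2 h3 ?_ r hr hR⟩
  intro ρ hρ hρR
  set m := ρ + Λ.rg with hm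
  have h4 : 7 * m ≤ 7 * (1 + Λ.rg) * ρ := by nlinarith
  have hm0 : 0 < m := by omega
  have h5 := hC K z y m ρ u (by omega) (by omega) (fun hh => hy (bl_mono z (by omega) hh)) hK hu
  have h6 := cacc_le h (D := bl z ((3 + 1) * m)) (D' := bl z ρ) (A := bl z (6 * m) \ bl z (2 * m))
    (u := u) (δ := Λ.rg / m) (bl_mono z (by omega)) (cut_sup z 3 hm0)
    (fun x hx _ hx' => hl x (bl_mono z (by omega) hx) fun hh => hx' (hu x hh))
    (fun e he => by
      have := Lat.mem_edI.1 (Lat.edT_bl_subset z (R := 3 * m) (by omega) he)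
      exact ⟨cut_one hm0 this.2.1, cut_one hm0 this.2.2⟩)
    fun e he hne => by
      have h7 := Lat.mem_edI.1 (Lat.edT_bl_subset z (R := 6 * m) (by omega) he)
      have h8 : ∀ a b : Pt, a ∈ bl b Λ.rg → cut z 3 m a ≠ cut z 3 m b → b ∉ bl z (2 * m) :=
        fun a b h8 h9 h10 => h9 (by
          rw [cut_one hm0 (bl_subset_bl h10 (by omega) h8), cut_one hm0 (bl_mono z (by omega) h10)])
      exact ⟨mem_sdiff.2 ⟨h7.2.1, h8 _ _ (Lat.edge_near h7.1) hne⟩,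
        mem_sdiff.2 ⟨h7.2.2, h8 _ _ (Lat.edge_near' h7.1) hne.symm⟩,
        cut_lip z 3 hm0 (Lat.edge_near h7.1)⟩
  have h7 := h6.trans (mul_le_mul_of_nonneg_left h5 (by positivity))
  have h8 : eD Λ (bl z (7 * m)) u u ≤ eD Λ (bl z (7 * (1 + Λ.rg) * ρ)) u u := eD_mono (bl_mono z h4) u
  have h9 : eD Λ (bl z ρ) u u ≤ eD Λ (bl z (7 * m)) u u := eD_mono (bl_mono z (by omega)) u
  have e : ((Λ.rg : ℝ) / m) ^ 2 * Λ.Jp.card * (C * (m : ℝ) ^ 2 *
      (eD Λ (bl z (7 * m)) u u - eD Λ (bl z ρ) u u)) =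
      (C₁ - 1) * (eD Λ (bl z (7 * m)) u u - eD Λ (bl z ρ) u u) := by
    rw [hC₁]; field_simp; ring
  rw [e] at h7
  rw [div_mul_eq_mul_div, le_div_iff₀ (by positivity)]
  nlinarith

end Crest.Agent.T145.Pot
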