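import Crest.Agent.T145.PotL_17

/-!
# Row 145 (helper44): Poincaré inequalities, logarithmic resistance, rows (`PoinStmt`, `ResStmt`, `RowStmt`)
-/

set_option autoImplicit false

namespace Crest.Agent.T145.Pot

open Finset

namespace Po44

theorem tele (f : ℤ → ℝ) {i j : ℤ} (h : i ≤ j) :
    f j - f i = ∑ k ∈ Ico i j, (f (k + 1) - f k) := by
  induction j, h using Int.leInduction with
  | base => simp
  | succ j hj ih =>
    rw [← insert_Ico_right_eq_Ico_add_one hj, sum_insert (by simp), ← ih]; ring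

/-- the one dimensional inequality -/
theorem oneD (f : ℤ → ℝ) {p : ℤ} {n : ℕ} {i j : ℤ} (hi : i ∈ Ico p (p + n))
    (hj : j ∈ Ico p (p + n)) :
    (f i - f j) ^ 2 ≤ n * ∑ k ∈ Ico p (p + n - 1), (f (k + 1) - f k) ^ 2 := by
  wlog h : j ≤ i generalizing i j
  · rw [← neg_sub, neg_sq]; exact this hj hi (le_of_not_ge h)
  rw [mem_Ico] at hi hj
  rw [tele f h]
  refine sq_sum_le_card_mul_sum_sq.trans (mul_le_mul ?_ ?_ (by positivity) (by positivity))
  · have : (Ico j i).card ≤ n := by rw [Int.card_Ico]; omega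
    exact_mod_cast this
  · exact sum_le_sum_of_subset_of_nonneg (Ico_subset_Ico hj.1 (by omega)) fun _ _ _ => sq_nonneg _

/-- energy of a row -/
noncomputable def rw' (a : Pt) (n : ℕ) (u : Pt → ℝ) (j : ℤ) : ℝ :=
  ∑ k ∈ Ico a.1 (a.1 + n - 1), (u (k + 1, j) - u (k, j)) ^ 2

/-- energy of a column -/
noncomputable def cl' (a : Pt) (n : ℕ) (u : Pt → ℝ) (i : ℤ) : ℝ :=
  ∑ k ∈ Ico a.2 (a.2 + n - 1), (u (i, k + 1) - u (i, k)) ^ 2

theorem rw_nonneg (a : Pt) (n : ℕ) (u : Pt → ℝ) (j : ℤ) : 0 ≤ rw' a n u j :=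
  sum_nonneg fun _ _ => sq_nonneg _

theorem cl_nonneg (a : Pt) (n : ℕ) (u : Pt → ℝ) (j : ℤ) : 0 ≤ cl' a n u j :=
  sum_nonneg fun _ _ => sq_nonneg _

theorem eN_sq (a : Pt) (n : ℕ) (u : Pt → ℝ) : eN nL (sq a n) u u =
    ∑ j ∈ Ico a.2 (a.2 + n), rw' a n u j + ∑ i ∈ Ico a.1 (a.1 + n), cl' a n u i := by
  have h1 : (sq a n).filter (fun x => x + (1, 0) ∈ sq a n) =
      Ico a.1 (a.1 + n - 1) ×ˢ Ico a.2 (a.2 + n) := by
    ext x; simp only [mem_filter, mem_sq, mem_product, mem_Ico, Prod.fst_add, Prod.snd_add]; omega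
  have h2 : (sq a n).filter (fun x => x + (0, 1) ∈ sq a n) =
      Ico a.1 (a.1 + n) ×ˢ Ico a.2 (a.2 + n - 1) := by
    ext x; simp only [mem_filter, mem_sq, mem_product, mem_Ico, Prod.fst_add, Prod.snd_add]; omega
  rw [eN_apply, nL_Jp, sum_pair (by decide), h1, h2, sum_product_right, sum_product]
  simp only [rw', cl', dif, Prod.mk_add_mk, add_zero, pow_two]

section abstract
variable {I J : Finset ℤ} {v : ℤ → ℤ → ℝ} {R Cc : ℤ → ℝ} {n : ℕ}

theorem abs1 (hI : I.card = n) (hJ : J.card = n)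
    (hR : ∀ j ∈ J, ∀ i ∈ I, ∀ i' ∈ I, (v i j - v i' j) ^ 2 ≤ n * R j)
    (hC : ∀ i ∈ I, ∀ j ∈ J, ∀ j' ∈ J, (v i j - v i j') ^ 2 ≤ n * Cc i) :
    ∑ i ∈ I, ∑ j ∈ J, ∑ i' ∈ I, ∑ j' ∈ J, (v i j - v i' j') ^ 2 ≤
      2 * (n : ℝ) ^ 4 * (∑ j ∈ J, R j + ∑ i ∈ I, Cc i) := by
  calc _ ≤ ∑ i ∈ I, ∑ j ∈ J, ∑ i' ∈ I, ∑ j' ∈ J, (2 * n * R j + 2 * n * Cc i') := by
        refine sum_le_sum fun i hi => sum_le_sum fun j hj => sum_le_sum fun i' hi' =>
          sum_le_sum fun j' hj' => ?_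
        nlinarith [hR j hj i hi i' hi', hC i' hi' j hj j' hj',
          sq_nonneg (v i j - v i' j - (v i' j - v i' j'))]
    _ = _ := by
        simp only [sum_add_distrib, sum_const, hI, hJ, nsmul_eq_mul, ← mul_sum]
        ring

theorem abs2 (hI : I.card = n) (hJ : J.card = n) (hR0 : ∀ j, 0 ≤ R j) (hC0 : ∀ i, 0 ≤ Cc i)
    (hR : ∀ j ∈ J, ∀ i ∈ I, ∀ i' ∈ I, (v i j - v i' j) ^ 2 ≤ n * R j)
    (hC : ∀ i ∈ I, ∀ j ∈ J, ∀ j' ∈ J, (v i j - v i j') ^ 2 ≤ n * Cc i) {Z : Finset ℤ} (hZ : Z ⊆ I)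
    (h0 : ∀ i ∈ Z, ∃ j ∈ J, v i j = 0) :
    Z.card * ∑ i ∈ I, ∑ j ∈ J, v i j ^ 2 ≤ 2 * (n : ℝ) ^ 3 * (∑ j ∈ J, R j + ∑ i ∈ I, Cc i) := by
  have hZn : (Z.card : ℝ) ≤ n := by exact_mod_cast hI ▸ card_le_card hZ
  have h1 : ∑ i ∈ Z, Cc i ≤ ∑ i ∈ I, Cc i := sum_le_sum_of_subset_of_nonneg hZ fun _ _ _ => hC0 _
  have h2 : 0 ≤ ∑ j ∈ J, R j := sum_nonneg fun j _ => hR0 j
  calc _ = ∑ i' ∈ Z, ∑ i ∈ I, ∑ j ∈ J, v i j ^ 2 := by rw [sum_const, nsmul_eq_mul]
    _ ≤ ∑ i' ∈ Z, ∑ i ∈ I, ∑ j ∈ J, (2 * n * R j + 2 * n * Cc i') := by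
        refine sum_le_sum fun i' hi' => sum_le_sum fun i hi => sum_le_sum fun j hj => ?_
        obtain ⟨j', hj', h⟩ := h0 i' hi'
        have h3 := hC i' (hZ hi') j hj j' hj'
        rw [h, sub_zero] at h3
        nlinarith [hR j hj i hi i' (hZ hi'), sq_nonneg (v i j - v i' j - v i' j)]
    _ = 2 * (n : ℝ) ^ 2 * Z.card * ∑ j ∈ J, R j + 2 * (n : ℝ) ^ 3 * ∑ i ∈ Z, Cc i := by
        simp only [sum_add_distrib, sum_const, hI, hJ, nsmul_eq_mul, ← mul_sum]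
        ring
    _ ≤ 2 * (n : ℝ) ^ 2 * n * ∑ j ∈ J, R j + 2 * (n : ℝ) ^ 3 * ∑ i ∈ I, Cc i := by gcongr
    _ = _ := by ring

theorem abs3 (hI : I.card = n) (hR0 : ∀ j, 0 ≤ R j)
    (hR : ∀ j ∈ J, ∀ i ∈ I, ∀ i' ∈ I, (v i j - v i' j) ^ 2 ≤ n * R j) {S : Finset Pt}
    {f g : Pt → ℤ} (hS : ∀ x ∈ S, f x ∈ I ∧ g x ∈ J) {w : ℕ}
    (hw : ∀ j, (S.filter fun x => g x = j).card ≤ w) :
    (n : ℝ) * ∑ x ∈ S, v (f x) (g x) ^ 2 ≤
      2 * w * (∑ j ∈ J, ∑ i ∈ I, v i j ^ 2 + (n : ℝ) ^ 2 * ∑ j ∈ J, R j) := by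
  set F : ℤ → ℝ := fun j => 2 * ∑ i ∈ I, v i j ^ 2 + 2 * (n : ℝ) ^ 2 * R j with hF
  have hF0 : ∀ j, 0 ≤ F j := fun j => by have := hR0 j; positivity
  calc _ ≤ ∑ x ∈ S, F (g x) := by
        rw [mul_sum]
        refine sum_le_sum fun x hx => ?_
        calc _ = ∑ i ∈ I, v (f x) (g x) ^ 2 := by rw [sum_const, hI, nsmul_eq_mul]
          _ ≤ ∑ i ∈ I, (2 * v i (g x) ^ 2 + 2 * n * R (g x)) := sum_le_sum fun i hi => by
              nlinarith [hR _ (hS x hx).2 _ (hS x hx).1 i hi,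
                sq_nonneg (v (f x) (g x) - v i (g x) - v i (g x))]
          _ = _ := by
              simp only [hF, sum_add_distrib, sum_const, hI, nsmul_eq_mul, ← mul_sum]; ring
    _ = ∑ j ∈ J, ∑ x ∈ S.filter (fun x => g x = j), F (g x) :=
        (sum_fiberwise_of_maps_to (fun x hx => (hS x hx).2) _).symm
    _ ≤ ∑ j ∈ J, w * F j := sum_le_sum fun j _ => by
        rw [sum_congr rfl (g := fun _ => F j) fun x hx => by rw [(mem_filter.1 hx).2], sum_const,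
          nsmul_eq_mul]
        exact mul_le_mul_of_nonneg_right (by exact_mod_cast hw j) (hF0 j)
    _ = _ := by simp only [hF, sum_add_distrib, ← mul_sum]; ring

end abstract

theorem card_I (p : ℤ) (n : ℕ) : (Ico p (p + n)).card = n := by simp

theorem hRow (a : Pt) (n : ℕ) (u : Pt → ℝ) : ∀ j ∈ Ico a.2 (a.2 + n), ∀ i ∈ Ico a.1 (a.1 + n),
    ∀ i' ∈ Ico a.1 (a.1 + n), (u (i, j) - u (i', j)) ^ 2 ≤ n * rw' a n u j :=
  fun j _ _ hi _ hi' => oneD (fun i => u (i, j)) hi hi'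

theorem hCol (a : Pt) (n : ℕ) (u : Pt → ℝ) : ∀ i ∈ Ico a.1 (a.1 + n), ∀ j ∈ Ico a.2 (a.2 + n),
    ∀ j' ∈ Ico a.2 (a.2 + n), (u (i, j) - u (i, j')) ^ 2 ≤ n * cl' a n u i :=
  fun i _ _ hj _ hj' => oneD (fun j => u (i, j)) hj hj'

theorem eN_nonneg (Λ : Lat) (B : Finset Pt) (u : Pt → ℝ) : 0 ≤ eN Λ B u u := by
  rw [eN, edF_self]; positivity

/-- Jensen: the mean against a constant -/
theorem card_mul_av_sub (S : Finset Pt) (u : Pt → ℝ) (c : ℝ) :
    S.card * (av S u - c) ^ 2 ≤ ∑ x ∈ S, (u x - c) ^ 2 := by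
  rcases S.eq_empty_or_nonempty with rfl | hS
  · simp
  have h0 : (0 : ℝ) < S.card := by exact_mod_cast hS.card_pos
  have h1 : ∑ x ∈ S, (u x - c) = S.card * (av S u - c) := by
    rw [sum_sub_distrib, sum_const, nsmul_eq_mul, av]; field_simp
  have h2 := sq_sum_le_card_mul_sum_sq (s := S) (f := fun x => u x - c)
  rw [h1] at h2
  exact le_of_mul_le_mul_left (by nlinarith) h0

theorem poin1 (a : Pt) (n : ℕ) (u : Pt → ℝ) :
    ∑ x ∈ sq a n, (u x - av (sq a n) u) ^ 2 ≤ 2 * (n : ℝ) ^ 2 * eN nL (sq a n) u u := by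
  rcases n.eq_zero_or_pos with rfl | hn
  · simp [sq]
  have h0 : (0 : ℝ) < (n : ℝ) ^ 2 := by positivity
  have h1 := abs1 (v := fun i j => u (i, j)) (card_I a.1 n) (card_I a.2 n) (hRow a n u) (hCol a n u)
  rw [← eN_sq] at h1
  have h2 : (n : ℝ) ^ 2 * ∑ x ∈ sq a n, (u x - av (sq a n) u) ^ 2 ≤
      ∑ x ∈ sq a n, ∑ y ∈ sq a n, (u x - u y) ^ 2 := by
    rw [mul_sum]
    refine sum_le_sum fun x _ => ?_
    have := card_mul_av_sub (sq a n) u (u x)
    rw [card_sq] at this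
    push_cast at this
    rw [← neg_sub, neg_sq]
    exact this.trans (le_of_eq (sum_congr rfl fun y _ => by ring))
  refine le_of_mul_le_mul_left (h2.trans ?_) h0
  simp only [sq, sum_product] at h1 ⊢
  exact h1.trans (le_of_eq (by ring))

end Po44

open Po44

theorem poinStmt : PoinStmt := by
  refine ⟨2, fun a n u => ⟨poin1 a n u, fun K hK h0 => ⟨?_, ?_⟩, fun S hS w hw => ?_⟩⟩
  · have := abs2 (v := fun i j => u (i, j)) (card_I a.1 n) (card_I a.2 n) (rw_nonneg a n u)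
      (cl_nonneg a n u) (hRow a n u) (hCol a n u) (Z := K.image Prod.fst)
      (fun i hi => by
        obtain ⟨x, hx, rfl⟩ := mem_image.1 hi
        exact mem_Ico.2 (mem_sq.1 (hK hx)).1)
      (fun i hi => by
        obtain ⟨x, hx, rfl⟩ := mem_image.1 hi
        exact ⟨x.2, mem_Ico.2 (mem_sq.1 (hK hx)).2, h0 x hx⟩)
    rw [← eN_sq] at this
    simpa only [sq, sum_product] using this
  · have := abs2 (v := fun j i => u (i, j)) (card_I a.2 n) (card_I a.1 n) (cl_nonneg a n u)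
      (rw_nonneg a n u) (hCol a n u) (hRow a n u) (Z := K.image Prod.snd)
      (fun i hi => by
        obtain ⟨x, hx, rfl⟩ := mem_image.1 hi
        exact mem_Ico.2 (mem_sq.1 (hK hx)).2)
      (fun i hi => by
        obtain ⟨x, hx, rfl⟩ := mem_image.1 hi
        exact ⟨x.1, mem_Ico.2 (mem_sq.1 (hK hx)).1, h0 x hx⟩)
    rw [add_comm (∑ j ∈ _, cl' a n u j), ← eN_sq] at this
    simpa only [sq, sum_product_right] using this
  · have hR : 0 ≤ ∑ j ∈ Ico a.2 (a.2 + n), rw' a n u j := sum_nonneg fun _ _ => rw_nonneg _ _ _ _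
    have hC : 0 ≤ ∑ j ∈ Ico a.1 (a.1 + n), cl' a n u j := sum_nonneg fun _ _ => cl_nonneg _ _ _ _
    rcases hw with hw | hw
    · have := abs3 (v := fun i j => u (i, j)) (card_I a.1 n) (rw_nonneg a n u) (hRow a n u)
        (S := S) (f := Prod.fst) (g := Prod.snd)
        (fun x hx => ⟨mem_Ico.2 (mem_sq.1 (hS hx)).1, mem_Ico.2 (mem_sq.1 (hS hx)).2⟩) hw
      refine this.trans ?_
      rw [eN_sq, sq, sum_product_right]
      gcongr
      linarith
    · have := abs3 (v := fun j i => u (i, j)) (card_I a.2 n) (cl_nonneg a n u) (hCol a n u)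
        (S := S) (f := Prod.snd) (g := Prod.fst)
        (fun x hx => ⟨mem_Ico.2 (mem_sq.1 (hS hx)).2, mem_Ico.2 (mem_sq.1 (hS hx)).1⟩) hw
      refine this.trans ?_
      rw [eN_sq, sq, sum_product]
      gcongr
      linarith

theorem rowStmt : RowStmt := by
  intro Λ _ K x y r hx hy hc
  let Q : Pt → Prop := fun z => ∀ f : Pt → ℤ, (∀ p q, q ∈ bl p Λ.rg → f q ≤ f p + Λ.rg) →
    ∀ s, f x < s → s ≤ f z → ∃ t ∈ K ∩ bl x r, f t < s ∧ s ≤ f t + Λ.rg
  have key : ∀ z, Conn (Λ.edI K) x z → (z ∈ K ∧ Q z) ∨ ∃ z', z' ∉ bl x r ∧ Q z' := by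
    intro z hz
    induction hz with
    | refl => exact Or.inl ⟨hx, fun f _ s h1 h2 => by omega⟩
    | @tail b c _ hbc ih =>
      rcases ih with ⟨hb, hQ⟩ | h
      · by_cases hb' : b ∈ bl x r
        · have h1 : c ∈ K ∧ c ∈ bl b Λ.rg := by
            rcases hbc with h | h <;> rw [Lat.mem_edI] at h
            · exact ⟨h.2.2, Lat.edge_near (e := (b, c)) h.1⟩
            · exact ⟨h.2.1, Lat.edge_near' (e := (c, b)) h.1⟩
          refine Or.inl ⟨h1.1, fun f hf s h2 h3 => ?_⟩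
          by_cases h4 : s ≤ f b
          · exact hQ f hf s h2 h4
          · exact ⟨b, mem_inter.2 ⟨hb, hb'⟩, by omega, h3.trans (hf _ _ h1.2)⟩
        · exact Or.inr ⟨b, hb', hQ⟩
      · exact Or.inr h
  obtain ⟨z, hz, hQ⟩ : ∃ z', z' ∉ bl x r ∧ Q z' := (key y hc).elim (fun h => ⟨y, hy, h.2⟩) id
  have cnt : ∀ f : Pt → ℤ, (∀ p q, q ∈ bl p Λ.rg → f q ≤ f p + Λ.rg) → f x + r + 1 ≤ f z →
      r + 1 ≤ Λ.rg * ((K ∩ bl x r).image f).card := by
    intro f hf h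
    have h1 : Ioc (f x) (f x + (r + 1 : ℕ)) ⊆
        ((K ∩ bl x r).image f).biUnion fun t => Ioc t (t + Λ.rg) := by
      intro s hs
      rw [mem_Ioc] at hs
      obtain ⟨t, ht, h2⟩ := hQ f hf s hs.1 (by push_cast at hs; omega)
      exact mem_biUnion.2 ⟨f t, mem_image_of_mem f ht, mem_Ioc.2 h2⟩
    have h2 := (card_le_card h1).trans (card_biUnion_le_card_mul _ _ Λ.rg fun t _ => by simp)
    rw [Int.card_Ioc, mul_comm] at h2
    omega
  have hn : ∀ f : Pt → ℤ, ((K ∩ bl x r).image fun p => -f p).card ≤ ((K ∩ bl x r).image f).card := by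
    intro f
    rw [show (fun p => -f p) = Neg.neg ∘ f from rfl, ← image_image]
    exact card_image_le
  rw [mem_bl] at hz
  by_cases h1 : x.1 + r < z.1
  · exact Or.inl (cnt Prod.fst (fun p q h => (mem_bl.1 h).1.2) (by omega))
  by_cases h2 : z.1 < x.1 - r
  · exact Or.inl ((cnt (fun p => -p.1) (fun p q h => by have := (mem_bl.1 h).1.1; omega)
      (by omega)).trans (Nat.mul_le_mul_left _ (hn Prod.fst)))
  by_cases h3 : x.2 + r < z.2
  · exact Or.inr (cnt Prod.snd (fun p q h => (mem_bl.1 h).2.2) (by omega))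
  · exact Or.inr ((cnt (fun p => -p.2) (fun p q h => by have := (mem_bl.1 h).2.1; omega)
      (by omega)).trans (Nat.mul_le_mul_left _ (hn Prod.snd)))

namespace Po44

/-- a mean over a subset against the mean over the square -/
theorem av_sub_le {a : Pt} {n : ℕ} {S : Finset Pt} (hS : S ⊆ sq a n) (u : Pt → ℝ) :
    S.card * (av S u - av (sq a n) u) ^ 2 ≤ 2 * (n : ℝ) ^ 2 * eN nL (sq a n) u u :=
  (card_mul_av_sub S u _).trans
    ((sum_le_sum_of_subset_of_nonneg hS fun _ _ _ => sq_nonneg _).trans (poin1 a n u))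

theorem av_sq_sub_le {a b : Pt} {n m k : ℕ} (hS : sq b m ⊆ sq a n) (hm : 0 < m) (hk : n ≤ k * m)
    (u : Pt → ℝ) :
    (av (sq b m) u - av (sq a n) u) ^ 2 ≤ 2 * (k : ℝ) ^ 2 * eN nL (sq a n) u u := by
  have h1 := av_sub_le hS u
  rw [card_sq] at h1
  push_cast at h1
  have h0 : (0 : ℝ) < (m : ℝ) ^ 2 := by positivity
  have h2 : (n : ℝ) ≤ k * m := by exact_mod_cast hk
  have h3 := eN_nonneg nL (sq a n) u
  refine le_of_mul_le_mul_left (h1.trans ?_) h0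
  calc _ ≤ 2 * ((k : ℝ) * m) ^ 2 * eN nL (sq a n) u u := by gcongr
    _ = _ := by ring

theorem eN_add_le {Λ : Lat} {A B D : Finset Pt} (hA : A ⊆ D) (hB : B ⊆ D) (h : Disjoint A B)
    (u : Pt → ℝ) : eN Λ A u u + eN Λ B u u ≤ eN Λ D u u := by
  simp only [eN, edF_self]
  rw [← sum_union (Lat.disjoint_edI h)]
  exact sum_le_sum_of_subset_of_nonneg (union_subset (Lat.edI_mono hA) (Lat.edI_mono hB))
    fun _ _ _ => sq_nonneg _

/-- squares along a diagonal from `x` into the larger part of the square -/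
theorem exists_W {a x : Pt} {n : ℕ} (hx : x ∈ sq a n) : ∃ W : ℕ → ℕ → Pt,
    (∀ lo len lo' len', lo' ≤ lo → lo + len ≤ lo' + len' →
      sq (W lo len) len ⊆ sq (W lo' len') len') ∧
    (∀ lo len lo' len', lo + len ≤ lo' → Disjoint (sq (W lo len) len) (sq (W lo' len') len')) ∧
    W 0 1 = x ∧ ∀ len, 2 * len ≤ n + 1 → sq (W 0 len) len ⊆ sq a n := by
  rw [mem_sq] at hx
  by_cases h1 : 2 * (x.1 - a.1) < n <;> by_cases h2 : 2 * (x.2 - a.2) < n
  · refine ⟨fun lo len => (x.1 + lo, x.2 + lo), fun _ _ _ _ _ _ y => ?_,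
      fun _ _ _ _ _ => disjoint_left.2 fun y => ?_, by simp, fun _ _ y => ?_⟩ <;>
    simp only [mem_sq] <;> omega
  · refine ⟨fun lo len => (x.1 + lo, x.2 - lo - len + 1), fun _ _ _ _ _ _ y => ?_,
      fun _ _ _ _ _ => disjoint_left.2 fun y => ?_, by simp, fun _ _ y => ?_⟩ <;>
    simp only [mem_sq] <;> omega
  · refine ⟨fun lo len => (x.1 - lo - len + 1, x.2 + lo), fun _ _ _ _ _ _ y => ?_,
      fun _ _ _ _ _ => disjoint_left.2 fun y => ?_, by simp, fun _ _ y => ?_⟩ <;>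
    simp only [mem_sq] <;> omega
  · refine ⟨fun lo len => (x.1 - lo - len + 1, x.2 - lo - len + 1), fun _ _ _ _ _ _ y => ?_,
      fun _ _ _ _ _ => disjoint_left.2 fun y => ?_, by simp, fun _ _ y => ?_⟩ <;>
    simp only [mem_sq] <;> omega

theorem res2 {a x : Pt} {n : ℕ} (hx : x ∈ sq a n) (u : Pt → ℝ) :
    (u x - av (sq a n) u) ^ 2 ≤ 301 * (1 + Real.log n) * eN nL (sq a n) u u := by
  have hn : 0 < n := by rw [mem_sq] at hx; omega
  obtain ⟨W, hm, hd, h0, hs⟩ := exists_W hx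
  obtain ⟨K, hK1, hK2⟩ : ∃ K : ℕ, 2 ^ (K + 2) ≤ n + 3 ∧ n + 3 < 2 ^ (K + 3) := by
    have h1 : 2 ≤ Nat.log 2 (n + 3) := Nat.le_log_of_pow_le one_lt_two (by omega)
    refine ⟨Nat.log 2 (n + 3) - 2, ?_, ?_⟩
    · rw [Nat.sub_add_cancel h1]; exact Nat.pow_log_le_self 2 (by omega)
    · rw [show Nat.log 2 (n + 3) - 2 + 3 = (Nat.log 2 (n + 3)).succ by omega]
      exact Nat.lt_pow_succ_log_self one_lt_two _
  rw [pow_add] at hK1 hK2
  have hK0 : 0 < 2 ^ K := by positivity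
  set E := eN nL (sq a n) u u
  have hE : 0 ≤ E := eN_nonneg _ _ _
  set s : ℕ → ℝ := fun k => av (sq (W (2 ^ k - 1) (2 ^ k)) (2 ^ k)) u with hs'
  set e : ℕ → ℝ := fun k => eN nL (sq (W 0 (2 ^ k - 1)) (2 ^ k - 1)) u u with he
  have hp : ∀ k : ℕ, 0 < 2 ^ k := fun k => by positivity
  have step : ∀ k, (s k - s (k + 1)) ^ 2 ≤ 52 * (e (k + 2) - e k) := by
    intro k
    have := hp k
    have h22 : 2 ^ (k + 2) = 4 * 2 ^ k := by ring
    have h1 := av_sq_sub_le (hm (2 ^ k - 1) (2 ^ k) (2 ^ k - 1) (3 * 2 ^ k) le_rfl (by omega))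
      (hp k) le_rfl u
    have h2 := av_sq_sub_le (k := 2) (hm (2 ^ (k + 1) - 1) (2 ^ (k + 1)) (2 ^ k - 1) (3 * 2 ^ k)
      (by omega) (by omega)) (hp _) (by omega) u
    have h3 := eN_add_le (Λ := nL) (hm 0 (2 ^ k - 1) 0 (2 ^ (k + 2) - 1) le_rfl (by omega))
      (hm (2 ^ k - 1) (3 * 2 ^ k) 0 (2 ^ (k + 2) - 1) (by omega) (by omega))
      (hd _ _ _ _ (by omega)) u
    push_cast at h1 h2
    simp only [hs', he]
    nlinarith [sq_nonneg (av (sq (W (2 ^ k - 1) (2 ^ k)) (2 ^ k)) u +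
      av (sq (W (2 ^ (k + 1) - 1) (2 ^ (k + 1))) (2 ^ (k + 1))) u -
      2 * av (sq (W (2 ^ k - 1) (3 * 2 ^ k)) (3 * 2 ^ k)) u)]
  have he0 : ∀ k, 0 ≤ e k := fun k => eN_nonneg _ _ _
  have tel : ∀ k, ∑ i ∈ range k, (e (i + 2) - e i) ≤ e (k + 1) + e k := by
    intro k
    induction k with
    | zero => simpa using add_nonneg (he0 1) (he0 0)
    | succ k ih => rw [sum_range_succ]; linarith
  have hsub : sq (W 0 (2 ^ (K + 1) - 1)) (2 ^ (K + 1) - 1) ⊆ sq a n := hs _ (by omega)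
  have e1 : e (K + 1) ≤ E := eN_mono hsub u
  have e2 : e K ≤ E := eN_mono ((hm _ _ _ _ le_rfl (by omega)).trans hsub) u
  have s0 : s 0 = u x := by
    have : sq x 1 = {x} := by
      ext y; rw [mem_sq, mem_singleton, Prod.ext_iff]; omega
    simp [hs', h0, this, av]
  have h1 : (u x - s K) ^ 2 ≤ K * (104 * E) := by
    rw [← s0, ← sum_range_sub' s K]
    refine sq_sum_le_card_mul_sum_sq.trans ?_
    rw [card_range]
    refine mul_le_mul_of_nonneg_left ((sum_le_sum fun i _ => step i).trans ?_) (by positivity)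
    rw [← mul_sum]
    linarith [tel K]
  have h2 : (s K - av (sq a n) u) ^ 2 ≤ 128 * E := by
    have := hp K
    have h3 := av_sq_sub_le (k := 8)
      ((hm (2 ^ K - 1) (2 ^ K) 0 (2 ^ (K + 1) - 1) (by omega) (by omega)).trans hsub) (hp K)
      (by omega) u
    push_cast at h3
    simp only [hs']
    linarith
  have h3 : (K : ℝ) * Real.log 2 ≤ Real.log n := by
    rw [← Real.log_pow]
    refine Real.log_le_log (by positivity) ?_
    have : 2 ^ K ≤ n := by omega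
    exact_mod_cast this
  have h4 : (K : ℝ) * 0.6931471803 ≤ Real.log n :=
    le_trans (mul_le_mul_of_nonneg_left Real.log_two_gt_d9.le (by positivity)) h3
  have h5 : (K : ℝ) * 208 * E ≤ 301 * Real.log n * E :=
    mul_le_mul_of_nonneg_right (by linarith) hE
  nlinarith [sq_nonneg (u x - s K - (s K - av (sq a n) u))]

end Po44

theorem resStmt : ResStmt := by
  refine ⟨1204, fun a n u x hx => ⟨fun y hy => ?_, (res2 hx u).trans ?_⟩⟩
  · set m : ℕ := max (x.1 - y.1).natAbs (x.2 - y.2).natAbs + 1 with hm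
    rw [mem_sq] at hx hy
    set b : Pt := (min (min x.1 y.1) (a.1 + n - m), min (min x.2 y.2) (a.2 + n - m)) with hb
    have h1 : x ∈ sq b m := by rw [mem_sq, hb]; simp only; omega
    have h2 : y ∈ sq b m := by rw [mem_sq, hb]; simp only; omega
    have h3 : sq b m ⊆ sq a n := sq_subset_sq (by rw [hb]; simp only; omega)
      (by rw [hb]; simp only; omega) (by rw [hb]; simp only; omega) (by rw [hb]; simp only; omega)
    have h4 : (m : ℝ) ≤ 1 + eu (x - y) := by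
      have e1 := abs_fst_le_eu (x - y)
      have e2 := abs_snd_le_eu (x - y)
      rw [← Int.cast_abs, ← Nat.cast_natAbs] at e1 e2
      rw [hm]; push_cast
      simp only [Prod.fst_sub, Prod.snd_sub] at e1 e2
      linarith [max_le e1 e2]
    have h5 : Real.log m ≤ Real.log (1 + eu (x - y)) := Real.log_le_log (by positivity) h4
    have h6 : 0 ≤ Real.log m := Real.log_natCast_nonneg m
    have h7 : 301 * (1 + Real.log m) * eN nL (sq b m) u u ≤
        301 * (1 + Real.log (1 + eu (x - y))) * eN nL (sq a n) u u :=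
      mul_le_mul (by linarith) (eN_mono h3 u) (eN_nonneg _ _ _) (by linarith)
    nlinarith [res2 h1 u, res2 h2 u, sq_nonneg (u x + u y - 2 * av (sq b m) u)]
  · have := Real.log_natCast_nonneg n
    exact mul_le_mul_of_nonneg_right (by linarith) (eN_nonneg _ _ _)

end Crest.Agent.T145.Pot
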