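import Crest.Agent.T145.KrW_56
import Crest.Agent.T145.PotHl_59
import Crest.Agent.T145.PotPo_44
import Crest.Agent.T145.PotE_17
import Crest.Agent.T145.GsR_85

/-!
# Row 145: screening by a massive ring: dual form of the ring form, lower bound, lattice instance (helper56)
-/

set_option autoImplicit false
set_option linter.unusedSectionVars false

namespace Crest.Agent.T145.Kw56

open Finset Pot

section abstract
variable {V ι : Type*} [DecidableEq V] {ed : Finset (V × V)} {T : Finset ι} {β : ι → Finset V}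
  {A Γ : Finset V} {P c κ : ℝ}

theorem rgB_comm (hA : Co A (edF ed)) (hc : 0 < c) (hκ : 0 ≤ κ) (m m' : V → ℝ) :
    rgB A c ed T β κ m m' = rgB A c ed T β κ m' m := by
  rw [rgB, rgB, (co_scF hA hc hκ T β).symm, (sy_edF ed).symm]

theorem rgB_add_left (hA : Co A (edF ed)) (hc : 0 < c) (hκ : 0 ≤ κ) (m₁ m₂ m' : V → ℝ) :
    rgB A c ed T β κ (m₁ + m₂) m' = rgB A c ed T β κ m₁ m' + rgB A c ed T β κ m₂ m' := by
  simp only [rgB, (co_scF hA hc hκ T β).hx_add, map_add, LinearMap.add_apply]; ring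

theorem rgB_smul_left (hA : Co A (edF ed)) (hc : 0 < c) (hκ : 0 ≤ κ) (a : ℝ) (m m' : V → ℝ) :
    rgB A c ed T β κ (a • m) m' = a * rgB A c ed T β κ m m' := by
  simp only [rgB, (co_scF hA hc hκ T β).hx_smul, map_smul, LinearMap.smul_apply, smul_eq_mul]; ring

/-- the ring form as a bilinear form -/
noncomputable def rgF (hA : Co A (edF ed)) (hc : 0 < c) (hκ : 0 ≤ κ) (T : Finset ι)
    (β : ι → Finset V) : Bf V :=
  LinearMap.mk₂ ℝ (rgB A c ed T β κ) (rgB_add_left hA hc hκ) (rgB_smul_left hA hc hκ)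
    (fun m m₁ m₂ => by
      rw [rgB_comm hA hc hκ, rgB_add_left hA hc hκ, rgB_comm hA hc hκ m₁, rgB_comm hA hc hκ m₂])
    fun a m m' => by rw [rgB_comm hA hc hκ, rgB_smul_left hA hc hκ, rgB_comm hA hc hκ m']; rfl

theorem rgF_apply (hA : Co A (edF ed)) (hc : 0 < c) (hκ : 0 ≤ κ) (m m' : V → ℝ) :
    rgF hA hc hκ T β m m' = rgB A c ed T β κ m m' := rfl

theorem rgB_add_sq (hA : Co A (edF ed)) (hc : 0 < c) (hκ : 0 ≤ κ) (m m' : V → ℝ) :
    rgB A c ed T β κ (m + m') (m + m') =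
      rgB A c ed T β κ m m + 2 * rgB A c ed T β κ m m' + rgB A c ed T β κ m' m' := by
  rw [rgB_add_left hA hc hκ, rgB_comm hA hc hκ m, rgB_comm hA hc hκ m', rgB_add_left hA hc hκ,
    rgB_add_left hA hc hκ, rgB_comm hA hc hκ m' m]
  ring

theorem Hm.add' {F : Bf V} {m m' : V → ℝ} (h : Hm A F m) (h' : Hm A F m') : Hm A F (m + m') :=
  fun v hv => by rw [map_add, LinearMap.add_apply, h v hv, h' v hv, add_zero]

theorem Hm.smul' {F : Bf V} {m : V → ℝ} (h : Hm A F m) (a : ℝ) : Hm A F (a • m) :=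
  fun v hv => by rw [map_smul, LinearMap.smul_apply, h v hv, smul_zero]

/-- Cauchy-Schwarz on harmonic functions -/
theorem rgB_cs (hA : Co A (edF ed)) (hc : 0 < c) (hκ : 0 ≤ κ) {m m' : V → ℝ}
    (hm : Hm A (edF ed) m) (hm' : Hm A (edF ed) m') :
    rgB A c ed T β κ m m' ^ 2 ≤ rgB A c ed T β κ m m * rgB A c ed T β κ m' m' := by
  have := discrim_le_zero (a := rgB A c ed T β κ m m) (b := 2 * rgB A c ed T β κ m m')
    (c := rgB A c ed T β κ m' m') fun t => by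
      have h := rgB_nonneg (T := T) (β := β) hA hc hκ (Hm.add' (Hm.smul' hm t) hm')
      rw [rgB_add_sq hA hc hκ, rgB_smul_left hA hc hκ, rgB_smul_left hA hc hκ,
        rgB_comm hA hc hκ m (t • m), rgB_smul_left hA hc hκ] at h
      linarith
  rw [discrim] at this
  linarith

/-- dual form: `B (m, m') = Q (hx m, m')` -/
theorem rgB_eq_cell (hA : Co A (edF ed)) (hc : 0 < c) (hκ : 0 ≤ κ) (m : V → ℝ) {m' : V → ℝ}
    (hm' : Hm A (edF ed) m') :
    rgB A c ed T β κ m m' = cellF T β κ (hx A (scF c ed T β κ) m) m' := by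
  have hF := co_scF hA hc hκ T β
  have h1 := hF.hx_hm m _ (sup_hx_sub hF m')
  have h2 := hm' _ (sup_hx_sub hF m)
  rw [map_sub] at h1
  rw [(sy_edF ed).symm, map_sub, LinearMap.sub_apply] at h2
  rw [rgB, sub_eq_zero.1 h1, scF_apply, sub_eq_zero.1 h2]
  ring

/-- the charge carried by the ring: `κ` times the cell average of `v` -/
noncomputable def chC (T : Finset ι) (β : ι → Finset V) (κ : ℝ) (v : V → ℝ) : V → ℝ :=
  fun x => ∑ i ∈ T, if x ∈ β i then κ * avL (β i) v else 0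

theorem ip_chC (hβ : ∀ i ∈ T, β i ⊆ A) (κ : ℝ) (v φ : V → ℝ) :
    ip A (chC T β κ v) φ = cellF T β κ v φ := by
  simp only [ip, chC, sum_mul]
  rw [sum_comm, cellF_apply, mul_sum]
  refine sum_congr rfl fun i hi => ?_
  simp only [ite_mul, zero_mul]
  rw [← sum_filter, filter_mem_eq_inter, inter_eq_right.2 (hβ i hi), ← mul_sum, avL_apply]
  ring

/-- the screened extension is `m` minus the potential of the ring charge -/
theorem hx_scF (hA : Co A (edF ed)) (hc : 0 < c) (hκ : 0 ≤ κ) (hβ : ∀ i ∈ T, β i ⊆ A) {m : V → ℝ}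
    (hm : Hm A (edF ed) m) : hx A (scF c ed T β κ) m =
      m - c⁻¹ • gr A (edF ed) (chC T β κ (hx A (scF c ed T β κ) m)) := by
  have hF := co_scF hA hc hκ T β
  have : gr A (edF ed) (chC T β κ (hx A (scF c ed T β κ) m)) =
      c • (m - hx A (scF c ed T β κ) m) := by
    refine hA.gr_unique (Sup.smul (fun x hx' => by simp [hF.hx_off m hx']) c) fun φ hφ => ?_
    have h1 := hF.hx_hm m φ hφ
    rw [scF_apply] at h1
    rw [ip_chC hβ, map_smul, LinearMap.smul_apply, map_sub, LinearMap.sub_apply, hm φ hφ,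
      smul_eq_mul]
    linarith
  rw [this, smul_smul, inv_mul_cancel₀ hc.ne', one_smul, sub_sub_cancel]

/-- the ring charge has energy at most `c B (m, m)` -/
theorem G_chC_le (hA : Co A (edF ed)) (hc : 0 < c) (hκ : 0 ≤ κ) (hβ : ∀ i ∈ T, β i ⊆ A)
    {m : V → ℝ} (hm : Hm A (edF ed) m) :
    G A (edF ed) (chC T β κ (hx A (scF c ed T β κ) m)) (chC T β κ (hx A (scF c ed T β κ) m)) ≤
      c * rgB A c ed T β κ m m := by
  have h1 := hx_scF hA hc hκ hβ hm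
  have h2 := rgB_eq (T := T) (β := β) hA hc hκ hm
  set v := hx A (scF c ed T β κ) m
  have h3 : v - m = -(c⁻¹ • gr A (edF ed) (chC T β κ v)) := by
    conv_lhs => rw [h1]
    abel
  rw [h3] at h2
  simp only [map_neg, map_smul, LinearMap.neg_apply, LinearMap.smul_apply, smul_eq_mul] at h2
  rw [hA.G_eq, h2]
  have := mul_nonneg hc.le ((sy_cellF T β hκ).nonneg v)
  have e : c * (c * -(c⁻¹ * -(c⁻¹ * edF ed (gr A (edF ed) (chC T β κ v))
      (gr A (edF ed) (chC T β κ v))))) =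
      edF ed (gr A (edF ed) (chC T β κ v)) (gr A (edF ed) (chC T β κ v)) := by field_simp
  linarith [mul_add c (c * -(c⁻¹ * -(c⁻¹ * edF ed (gr A (edF ed) (chC T β κ v))
    (gr A (edF ed) (chC T β κ v))))) (cellF T β κ v v)]

/-- Jensen over the cells -/
theorem Cells.sq_sum_le (h : Cells ed T β Γ P) (hκ : 0 ≤ κ) (v : V → ℝ) :
    κ * (∑ x ∈ Γ, v x) ^ 2 ≤ Γ.card * cellF T β κ v v := by
  rw [cellF_apply, mul_left_comm]
  refine mul_le_mul_of_nonneg_left ?_ hκ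
  have e1 : ∑ x ∈ Γ, v x = ∑ i ∈ T, √((β i).card) * ((∑ x ∈ β i, v x) / √((β i).card)) := by
    conv_lhs => rw [← h.cover, sum_biUnion h.disj]
    refine sum_congr rfl fun i _ => ?_
    rcases (β i).eq_empty_or_nonempty with h0 | h0
    · simp [h0]
    · have : √((β i).card) ≠ 0 := Real.sqrt_ne_zero'.2 (by exact_mod_cast h0.card_pos)
      field_simp
  have e2 : (Γ.card : ℝ) = ∑ i ∈ T, √((β i).card) ^ 2 := by
    rw [← h.cover, card_biUnion h.disj, Nat.cast_sum]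
    exact sum_congr rfl fun i _ => (Real.sq_sqrt (Nat.cast_nonneg _)).symm
  rw [e1, e2]
  refine (sum_mul_sq_le_sq_mul_sq _ _ _).trans (le_of_eq ?_)
  congr 1
  exact sum_congr rfl fun i _ => by rw [div_pow, Real.sq_sqrt (Nat.cast_nonneg _), pow_two]

/-- lower bound: `(∑_Γ m)² ≤ 2 (K / c + |Γ| / κ) B (m, m)` if `(∑_Γ u)² ≤ K E u` on `A` -/
theorem Cells.le_rgB (h : Cells ed T β Γ P) (hA : Co A (edF ed)) (hc : 0 < c) (hκ : 0 < κ) {K : ℝ}
    (hK0 : 0 ≤ K) (hK : ∀ u, Sup A u → (∑ x ∈ Γ, u x) ^ 2 ≤ K * edF ed u u) {m : V → ℝ}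
    (hm : Hm A (edF ed) m) :
    (∑ x ∈ Γ, m x) ^ 2 ≤ 2 * (K / c + Γ.card / κ) * rgB A c ed T β κ m m := by
  have h1 := hK _ (sup_hx_sub (co_scF hA hc hκ.le T β) m)
  have h2 := h.sq_sum_le hκ.le (hx A (scF c ed T β κ) m)
  rw [rgB_eq hA hc hκ.le hm]
  set v := hx A (scF c ed T β κ) m
  have q0 := (sy_cellF T β hκ.le).nonneg v
  have e0 := (sy_edF ed).nonneg (v - m)
  set E := edF ed (v - m) (v - m)
  set Q := cellF T β κ v v
  have e : ∑ x ∈ Γ, m x = ∑ x ∈ Γ, v x - ∑ x ∈ Γ, (v - m) x := by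
    rw [← sum_sub_distrib]; simp
  have h3 : (∑ x ∈ Γ, v x) ^ 2 ≤ Γ.card / κ * Q := by
    rw [div_mul_eq_mul_div, le_div_iff₀ hκ]; linarith
  have h4 : K * E = K / c * (c * E) := by field_simp
  have a1 : 0 ≤ K / c * Q := mul_nonneg (div_nonneg hK0 hc.le) q0
  have a2 : 0 ≤ Γ.card / κ * (c * E) := mul_nonneg (div_nonneg (Nat.cast_nonneg _) hκ.le)
    (mul_nonneg hc.le e0)
  rw [e]
  nlinarith [sq_nonneg (∑ x ∈ Γ, v x + ∑ x ∈ Γ, (v - m) x)]

/-! ### matrix form -/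
section mat
open Matrix
variable [Fintype ι] [DecidableEq ι]

/-- uniform unit charge on a cell -/
noncomputable def unC (S : Finset V) : V → ℝ := fun x => if x ∈ S then (S.card : ℝ)⁻¹ else 0

theorem ip_unC {S : Finset V} (hS : S ⊆ A) (u : V → ℝ) : ip A (unC S) u = avL S u := by
  simp only [ip, unC, ite_mul, zero_mul]
  rw [← sum_filter, filter_mem_eq_inter, inter_eq_right.2 hS, ← mul_sum, avL_apply,
    div_eq_inv_mul]

/-- covariance matrix of the cell averages -/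
noncomputable def sgM (A : Finset V) (c : ℝ) (ed : Finset (V × V)) (β : ι → Finset V) :
    Matrix ι ι ℝ := Matrix.of fun i j => c⁻¹ * G A (edF ed) (unC (β i)) (unC (β j))

/-- mass matrix -/
noncomputable def msM (β : ι → Finset V) (κ : ℝ) : Matrix ι ι ℝ :=
  Matrix.diagonal fun i => κ * (β i).card

theorem msM_psd (β : ι → Finset V) (hκ : 0 ≤ κ) : (msM β κ).PosSemidef :=
  Matrix.PosSemidef.diagonal fun _ => mul_nonneg hκ (Nat.cast_nonneg _)

theorem sgM_quad (hA : Co A (edF ed)) (c : ℝ) (β : ι → Finset V) (x y : ι → ℝ) :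
    x ⬝ᵥ sgM A c ed β *ᵥ y =
      c⁻¹ * G A (edF ed) (∑ i, x i • unC (β i)) (∑ j, y j • unC (β j)) := by
  rw [← hA.GF_apply]
  simp only [map_sum, map_smul, LinearMap.sum_apply, LinearMap.smul_apply, smul_eq_mul,
    hA.GF_apply, dotProduct, mulVec, sgM, of_apply, mul_sum]
  rw [sum_comm]
  exact sum_congr rfl fun _ _ => sum_congr rfl fun _ _ => by ring

theorem sgM_psd (hA : Co A (edF ed)) (hc : 0 ≤ c) (β : ι → Finset V) :
    (sgM A c ed β).PosSemidef :=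
  Gs.psd_of (by ext i j; simp only [sgM, transpose_apply, of_apply, hA.G_comm (unC (β j))])
    fun x => by rw [sgM_quad hA]; exact mul_nonneg (inv_nonneg.2 hc) (hA.G_nonneg _)

theorem cellF_eq_dot (β : ι → Finset V) (κ : ℝ) (u v : V → ℝ) :
    cellF univ β κ u v = (fun i => avL (β i) u) ⬝ᵥ msM β κ *ᵥ fun i => avL (β i) v := by
  simp only [cellF, sqF_apply, dotProduct, msM, mulVec_diagonal]
  exact sum_congr rfl fun _ _ => by ring

theorem chC_eq_sum (β : ι → Finset V) (κ : ℝ) (v : V → ℝ) :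
    chC univ β κ v = ∑ i, (msM β κ *ᵥ fun i => avL (β i) v) i • unC (β i) := by
  funext x
  simp only [chC, Finset.sum_apply, Pi.smul_apply, msM, mulVec_diagonal, unC, smul_eq_mul]
  refine sum_congr rfl fun i _ => ?_
  split_ifs with h
  · have : ((β i).card : ℝ) ≠ 0 := by exact_mod_cast (card_pos.2 ⟨x, h⟩).ne'
    field_simp
  · simp

/-- the charges on the cells are `(Σ + S⁻¹)⁻¹ m̄` -/
theorem msM_av_hx (hA : Co A (edF ed)) (hc : 0 < c) (hκ : 0 ≤ κ) (hβ : ∀ i, β i ⊆ A) {m : V → ℝ}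
    (hm : Hm A (edF ed) m) :
    (msM β κ *ᵥ fun i => avL (β i) (hx A (scF c ed univ β κ) m)) =
      Gs.tl (msM β κ) (sgM A c ed β) *ᵥ fun i => avL (β i) m := by
  have h1 := hx_scF (T := univ) hA hc hκ (fun i _ => hβ i) hm
  set v := hx A (scF c ed univ β κ) m
  have h2 : ((1 + sgM A c ed β * msM β κ) *ᵥ fun i => avL (β i) v) = fun i => avL (β i) m := by
    funext i
    have h3 := congrArg (avL (β i)) h1
    rw [map_sub, map_smul, ← ip_unC (hβ i) (gr _ _ _), chC_eq_sum] at h3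
    have h4 := sgM_quad hA c β (Pi.single i 1) (msM β κ *ᵥ fun i => avL (β i) v)
    simp only [single_dotProduct, one_mul, Pi.single_apply, ite_smul, one_smul, zero_smul,
      sum_ite_eq', mem_univ, if_true] at h4
    rw [add_mulVec, one_mulVec, ← mulVec_mulVec, Pi.add_apply, h4, h3, G, smul_eq_mul]
    ring
  rw [← h2, Gs.tl, mulVec_mulVec, Matrix.mul_assoc, nonsing_inv_mul _
    (Gs.unit_psd (sgM_psd hA hc.le β) (msM_psd β hκ)), Matrix.mul_one]

/-- `B (m, m') = m̄ · (Σ + S⁻¹)⁻¹ m̄'` -/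
theorem rgB_eq_tl (hA : Co A (edF ed)) (hc : 0 < c) (hκ : 0 ≤ κ) (hβ : ∀ i, β i ⊆ A)
    {m m' : V → ℝ} (hm : Hm A (edF ed) m) (hm' : Hm A (edF ed) m') :
    rgB A c ed univ β κ m m' =
      (fun i => avL (β i) m) ⬝ᵥ Gs.tl (msM β κ) (sgM A c ed β) *ᵥ fun i => avL (β i) m' := by
  rw [rgB_comm hA hc hκ, rgB_eq_cell hA hc hκ m' hm, (sy_cellF univ β hκ).symm, cellF_eq_dot,
    msM_av_hx hA hc hκ hβ hm']

end mat

end abstract

/-! ## the lattice -/
open H59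

/-- `1` for `|x - z|_∞ ≤ a`, `0` for `|x - z|_∞ ≥ b`, linear in between -/
noncomputable def rmp (z : Pt) (a b : ℝ) (x : Pt) : ℝ := max 0 (min 1 ((b - ds z x) / (b - a)))

theorem rmp_one {z x : Pt} {a b : ℝ} (hab : a < b) (h : (ds z x : ℝ) ≤ a) : rmp z a b x = 1 := by
  rw [rmp, min_eq_left ((one_le_div (by linarith)).2 (by linarith)), max_eq_right zero_le_one]

theorem rmp_zero {z x : Pt} {a b : ℝ} (hab : a < b) (h : b ≤ (ds z x : ℝ)) : rmp z a b x = 0 :=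
  max_eq_left ((min_le_right _ _).trans (div_nonpos_of_nonpos_of_nonneg (by linarith) (by linarith)))

theorem rmp_lip (z : Pt) {a b : ℝ} (hab : a < b) {x y : Pt} {r : ℕ} (h : y ∈ bl x r) :
    |rmp z a b y - rmp z a b x| ≤ r / (b - a) := by
  have h1 : |(ds z y : ℝ) - ds z x| ≤ r := by exact_mod_cast ds_lip z h
  rw [rmp, rmp, max_comm, max_comm 0, min_comm, min_comm 1]
  refine (abs_max_sub_max_le_abs _ _ _).trans ((abs_min_sub_min_le_max _ _ _ _).trans ?_)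
  rw [sub_self, abs_zero, max_eq_left (abs_nonneg _), ← sub_div, abs_div,
    abs_of_pos (sub_pos.2 hab)]
  refine div_le_div_of_nonneg_right ?_ (sub_pos.2 hab).le
  rwa [sub_sub_sub_cancel_left, abs_sub_comm]

/-- where the ramp changes -/
theorem rmp_ne {z x y : Pt} {a b : ℝ} (hab : a < b) {r : ℕ} (h : y ∈ bl x r)
    (hne : rmp z a b x ≠ rmp z a b y) :
    (a - r < ds z x ∧ (ds z x : ℝ) < b + r) ∧ a - r < ds z y ∧ (ds z y : ℝ) < b + r := by
  have h1 : |(ds z y : ℝ) - ds z x| ≤ r := by exact_mod_cast ds_lip z h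
  rw [abs_le] at h1
  have h2 : a < ds z x ∨ a < ds z y := by
    by_contra h'
    push Not at h'
    exact hne (by rw [rmp_one hab h'.1, rmp_one hab h'.2])
  have h3 : (ds z x : ℝ) < b ∨ (ds z y : ℝ) < b := by
    by_contra h'
    push Not at h'
    exact hne (by rw [rmp_zero hab h'.1, rmp_zero hab h'.2])
  have : (0 : ℝ) ≤ r := Nat.cast_nonneg _
  rcases h2 with h2 | h2 <;> rcases h3 with h3 | h3 <;> refine ⟨⟨?_, ?_⟩, ?_, ?_⟩ <;> linarith

theorem mem_ring {z x : Pt} {p q : ℕ} :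
    x ∈ bl z q \ bl z p ↔ (p : ℝ) < ds z x ∧ (ds z x : ℝ) ≤ q := by
  rw [mem_sdiff, mem_bl_ds, mem_bl_ds, not_le, and_comm]
  exact and_congr (by exact_mod_cast Iff.rfl) (by exact_mod_cast Iff.rfl)

variable {Λ : Lat} {ι : Type*}

theorem deg_fst {ed : Finset (Pt × Pt)} (h : ∀ e ∈ ed, e.2 - e.1 ∈ Λ.Jp) (x : Pt) :
    ((ed.filter fun e => e.1 = x).card : ℝ) ≤ Λ.Jp.card := by
  norm_cast
  refine card_le_card_of_injOn (fun e => e.2 - e.1) (fun e he => h e (mem_filter.1 he).1) ?_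
  intro e he e' he' h'
  have h1 := (mem_filter.1 he).2
  have h2 := (mem_filter.1 he').2
  exact Prod.ext (h1.trans h2.symm) (by simpa [h1, h2] using h')

theorem deg_snd {ed : Finset (Pt × Pt)} (h : ∀ e ∈ ed, e.2 - e.1 ∈ Λ.Jp) (x : Pt) :
    ((ed.filter fun e => e.2 = x).card : ℝ) ≤ Λ.Jp.card := by
  norm_cast
  refine card_le_card_of_injOn (fun e => e.2 - e.1) (fun e he => h e (mem_filter.1 he).1) ?_
  intro e he e' he' h'
  have h1 := (mem_filter.1 he).2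
  have h2 := (mem_filter.1 he').2
  exact Prod.ext (by simpa [h1, h2] using h') (h1.trans h2.symm)

/-- square cells of side at most `n` -/
theorem cells_sq (h : Λ.Ok) {ed : Finset (Pt × Pt)} {T : Finset ι} {a : ι → Pt} {k : ι → ℕ} {n : ℕ}
    (hd : (T : Set ι).PairwiseDisjoint fun i => sq (a i) (k i)) (hk : ∀ i ∈ T, k i ≤ n)
    (he : ∀ i ∈ T, Λ.edI (sq (a i) (k i)) ⊆ ed) :
    Cells ed T (fun i => sq (a i) (k i)) (T.biUnion fun i => sq (a i) (k i)) (2 * (n : ℝ) ^ 2) := by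
  refine ⟨hd, rfl, by positivity, fun i hi u => (Po44.poin1 (a i) (k i) u).trans ?_⟩
  refine mul_le_mul (by gcongr; exact hk i hi) ((eN_nL_le h _ u).trans (edF_mono (fun e h' => ?_) u))
    (Po44.eN_nonneg _ _ _) (by positivity)
  exact mem_filter.2 ⟨he i hi h', (Lat.mem_edI.1 h').2⟩

theorem sq_diam {a x y : Pt} {k n : ℕ} (hk : k ≤ n) (hx : x ∈ sq a k) (hy : y ∈ sq a k) :
    x ∈ bl y n := by
  rw [mem_sq] at hx hy; rw [mem_bl]; omega

/-- the cut-off that is `1` on the ring `(p, q]` and lives in the ring `(p', q']` -/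
noncomputable def zt (Λ : Lat) (z : Pt) (p' p q q' : ℕ) (x : Pt) : ℝ :=
  rmp z q (q' - Λ.rg) x - rmp z (p' + Λ.rg) p x

section ring
variable {z : Pt} {p' p q q' w : ℕ}

theorem zt_one (hw : 4 * Λ.rg ≤ w) (h0 : 0 < w) (h1 : p' + w ≤ p) (h2 : q + w ≤ q') {x : Pt}
    (hx : x ∈ bl z q \ bl z p) : zt Λ z p' p q q' x = 1 := by
  have a1 : (4 * Λ.rg : ℝ) ≤ w := by exact_mod_cast hw
  have a2 : (p' + w : ℝ) ≤ p := by exact_mod_cast h1
  have a3 : (q + w : ℝ) ≤ q' := by exact_mod_cast h2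
  have a4 : (0 : ℝ) < w := by exact_mod_cast h0
  rw [mem_ring] at hx
  rw [zt, rmp_one (by linarith) hx.2, rmp_zero (by linarith) hx.1.le, sub_zero]

theorem zt_sup (hw : 4 * Λ.rg ≤ w) (h0 : 0 < w) (h1 : p' + w ≤ p) (hpq : p ≤ q) (h2 : q + w ≤ q') :
    Sup (bl z q' \ bl z p') (zt Λ z p' p q q') := fun x hx => by
  have a1 : (4 * Λ.rg : ℝ) ≤ w := by exact_mod_cast hw
  have a2 : (p' + w : ℝ) ≤ p := by exact_mod_cast h1
  have a3 : (q + w : ℝ) ≤ q' := by exact_mod_cast h2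
  have a4 : (0 : ℝ) < w := by exact_mod_cast h0
  have a5 : (p : ℝ) ≤ q := by exact_mod_cast hpq
  have a6 : (0 : ℝ) ≤ Λ.rg := Nat.cast_nonneg _
  rw [mem_ring, not_and_or, not_lt, not_le] at hx
  rcases hx with hx | hx
  · rw [zt, rmp_one (by linarith) (by linarith), rmp_one (by linarith) (by linarith), sub_self]
  · rw [zt, rmp_zero (by linarith) (by linarith), rmp_zero (by linarith) (by linarith), sub_self]

/-- Caccioppoli in a ring -/
theorem cacc_ring {A : Finset Pt} {ed : Finset (Pt × Pt)} (he : ∀ e ∈ ed, e.2 - e.1 ∈ Λ.Jp)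
    (hw : 4 * Λ.rg ≤ w) (h0 : 0 < w) (h1 : p' + w ≤ p) (hpq : p ≤ q) (h2 : q + w ≤ q')
    (hA : bl z q' \ bl z p' ⊆ A) {m : Pt → ℝ} (hm : Hm A (edF ed) m) :
    edF ed (fun x => zt Λ z p' p q q' x * m x) (fun x => zt Λ z p' p q q' x * m x) ≤
      (4 * Λ.rg / w) ^ 2 * Λ.Jp.card * ∑ x ∈ bl z q' \ bl z p', m x ^ 2 := by
  have a1 : (4 * Λ.rg : ℝ) ≤ w := by exact_mod_cast hw
  have a2 : (p' + w : ℝ) ≤ p := by exact_mod_cast h1
  have a3 : (q + w : ℝ) ≤ q' := by exact_mod_cast h2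
  have a4 : (0 : ℝ) < w := by exact_mod_cast h0
  have a5 : (p : ℝ) ≤ q := by exact_mod_cast hpq
  have a6 : (0 : ℝ) ≤ Λ.rg := Nat.cast_nonneg _
  have b1 : (q : ℝ) < q' - Λ.rg := by linarith
  have b2 : (p' + Λ.rg : ℝ) < p := by linarith
  refine cacc hm (fun x hx => mul_eq_zero_of_left
    (zt_sup hw h0 h1 hpq h2 x fun h' => hx (hA h')) _) (fun e h' => ?_) (fun e h' hne => ?_)
    (deg_fst he) (deg_snd he)
  · have c1 := rmp_lip z b1 (Lat.edge_near (he e h'))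
    have c2 := rmp_lip z b2 (Lat.edge_near (he e h'))
    have c3 : (Λ.rg : ℝ) / (q' - Λ.rg - q) ≤ 2 * Λ.rg / w := by
      rw [div_le_div_iff₀ (by linarith) a4]; nlinarith
    have c4 : (Λ.rg : ℝ) / (p - (p' + Λ.rg)) ≤ 2 * Λ.rg / w := by
      rw [div_le_div_iff₀ (by linarith) a4]; nlinarith
    rw [zt, zt, sub_sub_sub_comm]
    refine (abs_sub _ _).trans ?_
    exact (add_le_add (c1.trans c3) (c2.trans c4)).trans (le_of_eq (by ring))
  · by_cases d1 : rmp z q (q' - Λ.rg) e.1 = rmp z q (q' - Λ.rg) e.2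
    · have d2 : rmp z (p' + Λ.rg) p e.1 ≠ rmp z (p' + Λ.rg) p e.2 := fun d2 =>
        hne (by rw [zt, zt, d1, d2])
      have := rmp_ne b2 (Lat.edge_near (he e h')) d2
      rw [mem_ring, mem_ring]
      refine ⟨⟨?_, ?_⟩, ?_, ?_⟩ <;> linarith [this.1.1, this.1.2, this.2.1, this.2.2]
    · have := rmp_ne b1 (Lat.edge_near (he e h')) d1
      rw [mem_ring, mem_ring]
      refine ⟨⟨?_, ?_⟩, ?_, ?_⟩ <;> linarith [this.1.1, this.1.2, this.2.1, this.2.2]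

variable {A Γ : Finset Pt} {ed : Finset (Pt × Pt)} {T : Finset ι} {β : ι → Finset Pt} {c κ P : ℝ}

/-- `B (m, m) ≤ C c w⁻² ∑_mid m²` -/
theorem rgB_le_ring (he : ∀ e ∈ ed, e.2 - e.1 ∈ Λ.Jp) (hA : Co A (edF ed)) (hc : 0 < c)
    (hκ : 0 ≤ κ) (hw : 4 * Λ.rg ≤ w) (h0 : 0 < w) (h1 : p' + w ≤ p) (hpq : p ≤ q)
    (h2 : q + w ≤ q') (hM : bl z q' \ bl z p' ⊆ A) (hβ : ∀ i ∈ T, β i ⊆ bl z q \ bl z p)
    {m : Pt → ℝ} (hm : Hm A (edF ed) m) :
    rgB A c ed T β κ m m ≤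
      c * ((4 * Λ.rg / w) ^ 2 * Λ.Jp.card * ∑ x ∈ bl z q' \ bl z p', m x ^ 2) :=
  (rgB_le_cut hA hc hκ hm (fun x hx => mul_eq_zero_of_left
    (zt_sup hw h0 h1 hpq h2 x fun h' => hx (hM h')) _)
    fun i hi _ hx => zt_one hw h0 h1 h2 (hβ i hi hx)).trans
    (mul_le_mul_of_nonneg_left (cacc_ring he hw h0 h1 hpq h2 hM hm) hc.le)

/-- **K2 / P3 on the lattice.**  The cells (diameter `≤ d`, Poincaré constant `P`) tile a set `Γ` between the rings
`(p₁, q₁]` and `(p, q]`; `m` vanishes on the outer pinned sites, `m'` on the inner ones. -/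
theorem screen_ring {p₁ q₁ d : ℕ} (he : ∀ e ∈ ed, e.2 - e.1 ∈ Λ.Jp) (hA : Co A (edF ed))
    (hC : Cells ed T β Γ P) (hd : ∀ i ∈ T, ∀ x ∈ β i, ∀ y ∈ β i, x ∈ bl y d) (hc : 0 < c)
    (hκ : 0 < κ) (hw : 4 * Λ.rg ≤ w) (h0 : 0 < w) (h1 : p' + w ≤ p) (hp : p ≤ p₁)
    (h3 : p₁ + w ≤ q₁) (hq : q₁ ≤ q) (h2 : q + w ≤ q') (hM : bl z q' \ bl z p' ⊆ A)
    (hΓ : bl z q₁ \ bl z p₁ ⊆ Γ) (hΓ' : Γ ⊆ bl z q \ bl z p) {m m' : Pt → ℝ}
    (hm : Hm A (edF ed) m) (hm' : Hm A (edF ed) m') (ho : ∀ x, x ∉ A → x ∉ bl z q' → m x = 0)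
    (hi : ∀ x, x ∉ A → x ∈ bl z p' → m' x = 0) :
    |rgB A c ed T β κ m m' + c * edF ed m m'| ≤
      (8 * c * Λ.rg * √(Λ.Jp.card) * √((c + 4 * (κ * P)) / κ) + 2 * d * (c + 4 * (κ * P))) / w *
        ((4 * Λ.rg / w) ^ 2 * Λ.Jp.card) *
        (√(∑ x ∈ bl z q' \ bl z p', m x ^ 2) * √(∑ x ∈ bl z q' \ bl z p', m' x ^ 2)) := by
  have a1 : (4 * Λ.rg : ℝ) ≤ w := by exact_mod_cast hw
  have a2 : (p' + w : ℝ) ≤ p := by exact_mod_cast h1
  have a3 : (q + w : ℝ) ≤ q' := by exact_mod_cast h2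
  have a4 : (0 : ℝ) < w := by exact_mod_cast h0
  have a5 : (p₁ + w : ℝ) ≤ q₁ := by exact_mod_cast h3
  have a6 : (0 : ℝ) ≤ Λ.rg := Nat.cast_nonneg _
  have a7 : (p : ℝ) ≤ p₁ := by exact_mod_cast hp
  have a8 : (q₁ : ℝ) ≤ q := by exact_mod_cast hq
  have hpq : p ≤ q := by omega
  have b1 : (p₁ + Λ.rg : ℝ) < q₁ - Λ.rg := by linarith
  have lip : ∀ {x y : Pt} {r : ℕ}, y ∈ bl x r →
      |rmp z (p₁ + Λ.rg) (q₁ - Λ.rg) y - rmp z (p₁ + Λ.rg) (q₁ - Λ.rg) x| ≤ 2 * r / w := by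
    intro x y r h
    refine (rmp_lip z b1 h).trans ?_
    rw [div_le_div_iff₀ (by linarith) a4]
    nlinarith [mul_nonneg (Nat.cast_nonneg (α := ℝ) r)
      (show (0 : ℝ) ≤ 2 * (q₁ - Λ.rg - (p₁ + Λ.rg)) - w by linarith)]
  have nA : ∀ x, x ∉ A → x ∈ bl z p' ∨ x ∉ bl z q' := fun x hx => by
    by_contra h'
    push Not at h'
    exact hx (hM (mem_sdiff.2 ⟨h'.2, h'.1⟩))
  have sup : ∀ m : Pt → ℝ, Sup A fun x => zt Λ z p' p q q' x * m x := fun m x hx =>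
    mul_eq_zero_of_left (zt_sup hw h0 h1 hpq h2 x fun h' => hx (hM h')) _
  have key := hC.screen hA hc hκ hm hm' (sup m) (sup m') (fun x hx => zt_one hw h0 h1 h2 (hΓ' hx))
    (χ := rmp z (p₁ + Λ.rg) (q₁ - Λ.rg)) (lam := 2 * Λ.rg / w) (lam' := 2 * d / w)
    (D := Λ.Jp.card) (fun x hx => by
      rcases nA x hx with h' | h'
      · have : (ds z x : ℝ) ≤ p' := by exact_mod_cast mem_bl_ds.1 h'
        simp only [rmp_one b1 (show (ds z x : ℝ) ≤ p₁ + Λ.rg by linarith), sub_self, zero_mul]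
      · simp only [ho x hx h', mul_zero])
    (fun x hx => by
      rcases nA x hx with h' | h'
      · simp only [hi x hx h', mul_zero]
      · have : (q' : ℝ) < ds z x := by exact_mod_cast not_le.1 (mt mem_bl_ds.2 h')
        simp only [rmp_zero b1 (show (q₁ - Λ.rg : ℝ) ≤ ds z x by linarith), zero_mul])
    (by positivity) (by positivity) (Nat.cast_nonneg _) (fun e h' => lip (Lat.edge_near (he e h')))
    (fun e h' hne => by
      have := rmp_ne b1 (Lat.edge_near (he e h')) hne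
      refine ⟨hΓ (mem_ring.2 ⟨?_, ?_⟩), hΓ (mem_ring.2 ⟨?_, ?_⟩)⟩ <;>
        linarith [this.1.1, this.1.2, this.2.1, this.2.2])
    (fun i hi x hx y hy => lip (hd i hi x hx y hy)) (deg_fst he)
  refine key.trans ?_
  have hK : 0 ≤ c + 4 * (κ * P) := by have := hC.nn; positivity
  have s : ∀ {m : Pt → ℝ}, Hm A (edF ed) m →
      √(edF ed (fun x => zt Λ z p' p q q' x * m x) (fun x => zt Λ z p' p q q' x * m x)) ≤
        √((4 * Λ.rg / w) ^ 2 * Λ.Jp.card) * √(∑ x ∈ bl z q' \ bl z p', m x ^ 2) := fun hm => by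
    rw [← Real.sqrt_mul (by positivity)]
    exact Real.sqrt_le_sqrt (cacc_ring he hw h0 h1 hpq h2 hM hm)
  have t := mul_le_mul (s hm) (s hm') (Real.sqrt_nonneg _) (by positivity)
  rw [mul_mul_mul_comm, Real.mul_self_sqrt (by positivity)] at t
  calc _ ≤ (4 * c * (2 * Λ.rg / w) * √(Λ.Jp.card) * √((c + 4 * (κ * P)) / κ) +
        2 * d / w * (c + 4 * (κ * P))) * ((4 * Λ.rg / w) ^ 2 * Λ.Jp.card *
        (√(∑ x ∈ bl z q' \ bl z p', m x ^ 2) * √(∑ x ∈ bl z q' \ bl z p', m' x ^ 2))) :=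
        mul_le_mul_of_nonneg_left t (by positivity)
    _ = _ := by ring

end ring

/-- pinned Poincaré inequality in a ball -/
theorem poin_bl (h : Λ.Ok) (z : Pt) (R : ℕ) {u : Pt → ℝ} (hu : Sup (bl z R) u) :
    ∑ x ∈ bl z R, u x ^ 2 ≤ 2 * (2 * R + 2 : ℝ) ^ 2 * eD Λ (bl z R) u u := by
  let a : Pt := (z.1 - R, z.2 - R)
  let K : Finset Pt := Ico a.1 (a.1 + (2 * R + 2 : ℕ)) ×ˢ {z.2 + R + 1}
  have hK : K ⊆ sq a (2 * R + 2) := fun x hx => by
    simp only [K, a, mem_product, mem_Ico, mem_singleton] at hx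
    rw [mem_sq]; simp only [a]; omega
  have h0 : ∀ x ∈ K, u x = 0 := fun x hx => hu x fun h' => by
    simp only [K, mem_product, mem_singleton] at hx
    rw [mem_bl] at h'; omega
  have h1 := Po44.abs2 (v := fun i j => u (i, j)) (Po44.card_I a.1 (2 * R + 2))
    (Po44.card_I a.2 (2 * R + 2)) (Po44.rw_nonneg a _ u) (Po44.cl_nonneg a _ u) (Po44.hRow a _ u)
    (Po44.hCol a _ u) (Z := Ico a.1 (a.1 + (2 * R + 2 : ℕ))) subset_rfl fun i hi =>
      ⟨z.2 + R + 1, by simp only [a, mem_Ico]; omega, h0 _ (mem_product.2 ⟨hi, mem_singleton_self _⟩)⟩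
  rw [← Po44.eN_sq, Po44.card_I, ← sum_product' (f := fun i j => u (i, j) ^ 2)] at h1
  have h2 : ∑ x ∈ bl z R, u x ^ 2 ≤ ∑ x ∈ sq a (2 * R + 2), u x ^ 2 :=
    sum_le_sum_of_subset_of_nonneg (fun x hx => by
      rw [mem_bl] at hx; rw [mem_sq]; simp only [a]; omega) fun _ _ _ => sq_nonneg _
  have h3 : eN nL (sq a (2 * R + 2)) u u ≤ eD Λ (bl z R) u u := by
    refine (eN_nL_le h _ u).trans ?_
    rw [eN, eD, edF_self, edF_self, ← sum_filter_of_ne (p := fun e => e.1 ∈ bl z R ∨ e.2 ∈ bl z R)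
      fun e _ hne => by
        by_contra h'
        rw [not_or] at h'
        exact hne (by rw [hu _ h'.1, hu _ h'.2]; ring)]
    exact sum_le_sum_of_subset_of_nonneg (fun e he => Lat.mem_edT.2
      ⟨(Lat.mem_edI.1 (mem_filter.1 he).1).1, (mem_filter.1 he).2⟩) fun _ _ _ => sq_nonneg _
  have h4 : (0 : ℝ) < ((2 * R + 2 : ℕ) : ℝ) := by positivity
  refine h2.trans (le_of_mul_le_mul_left (h1.trans ?_) h4)
  push_cast
  nlinarith [mul_le_mul_of_nonneg_left h3 (show (0 : ℝ) ≤ 2 * (2 * R + 2) ^ 3 by positivity)]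

/-- crude lower bound on the lattice: `(∑_Γ m)² ≤ 2 |Γ| (2 (2R+2)² / c + 1 / κ) B (m, m)` -/
theorem le_rgB_bl (h : Λ.Ok) {z : Pt} {R : ℕ} {A D Γ : Finset Pt} {T : Finset ι}
    {β : ι → Finset Pt} {c κ P : ℝ} (hAD : A ⊆ D) (hA : A ⊆ bl z R) (hΓ : Γ ⊆ bl z R)
    (hC : Cells (Λ.edT D) T β Γ P) (hc : 0 < c) (hκ : 0 < κ) {m : Pt → ℝ}
    (hm : Hm A (eD Λ D) m) :
    (∑ x ∈ Γ, m x) ^ 2 ≤
      2 * (Γ.card * (2 * (2 * R + 2 : ℝ) ^ 2) / c + Γ.card / κ) * rgB A c (Λ.edT D) T β κ m m := by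
  refine hC.le_rgB ((co_eD h D).mono hAD) hc hκ (by positivity) (fun u hu => ?_) hm
  have h1 := poin_bl h z R (hu.mono hA)
  rw [eD_of_sup h hA u hu, ← eD_of_sup h hAD u hu] at h1
  have h2 : ∑ x ∈ Γ, u x ^ 2 ≤ ∑ x ∈ bl z R, u x ^ 2 :=
    sum_le_sum_of_subset_of_nonneg hΓ fun _ _ _ => sq_nonneg _
  rw [mul_assoc]
  exact sq_sum_le_card_mul_sum_sq.trans (mul_le_mul_of_nonneg_left (h2.trans h1) (Nat.cast_nonneg _))

end Crest.Agent.T145.Kw56
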