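import Crest.Agent.T145.ApiT_98

/-!
# Row 145: Jensen, Hölder, `push`, tower property, `TV`, products, `InCone` (helper98)
-/

set_option autoImplicit false
set_option linter.unusedVariables false

namespace Crest.Agent.T145

open Finset

section
variable {α β : Type*} {W W' W'' F G : α → ℝ}

/-! ### Hölder, Jensen -/

/-- Hölder in exponential form -/
theorem Wt.holder_exp (hW : Wt W) {ι : Type*} (T : Finset ι) (θ : ι → ℝ) (Φ : ι → α → ℝ)
    (h0 : ∀ i ∈ T, 0 ≤ θ i) (h1 : ∑ i ∈ T, θ i = 1)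
    (hE : ∀ i ∈ T, Ig W fun a => Real.exp (Φ i a)) :
    Ig W (fun a => Real.exp (∑ i ∈ T, θ i * Φ i a)) ∧
      Real.log (Ex W fun a => Real.exp (∑ i ∈ T, θ i * Φ i a)) ≤
        ∑ i ∈ T, θ i * Real.log (Ex W fun a => Real.exp (Φ i a)) := by
  set m : ι → ℝ := fun i => Real.log (Ex W fun a => Real.exp (Φ i a)) with hm
  have hp : ∀ i ∈ T, 0 < Ex W fun a => Real.exp (Φ i a) := fun i hi =>
    hW.ex_pos' (hE i hi) fun a => Real.exp_pos _
  have key : ∀ a, Real.exp (∑ i ∈ T, θ i * Φ i a) ≤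
      Real.exp (∑ i ∈ T, θ i * m i) * ∑ i ∈ T, θ i * Real.exp (-m i) * Real.exp (Φ i a) := by
    intro a
    have := convexOn_exp.map_sum_le (t := T) (w := θ) (p := fun i => Φ i a - m i) h0 h1
      fun i _ => Set.mem_univ _
    simp only [smul_eq_mul] at this
    calc _ = Real.exp (∑ i ∈ T, θ i * m i) * Real.exp (∑ i ∈ T, θ i * (Φ i a - m i)) := by
          rw [← Real.exp_add, ← sum_add_distrib]; congr 1; exact sum_congr rfl fun i _ => by ring
      _ ≤ _ := by
          refine mul_le_mul_of_nonneg_left (this.trans_eq ?_) (Real.exp_pos _).le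
          exact sum_congr rfl fun i _ => by rw [mul_assoc, ← Real.exp_add]; congr 2; ring
  have hI : Ig W fun a => Real.exp (∑ i ∈ T, θ i * m i) *
      ∑ i ∈ T, θ i * Real.exp (-m i) * Real.exp (Φ i a) :=
    (Ig.sum T fun i hi => (hE i hi).const_mul _).const_mul _
  have hI' := Ig.of_le hW.nonneg hI (fun a => (Real.exp_pos _).le) key
  refine ⟨hI', ?_⟩
  rw [Real.log_le_iff_le_exp (hW.ex_pos' hI' fun a => Real.exp_pos _)]
  refine (Ex_mono hW.nonneg hI' hI key).trans_eq ?_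
  have e : ∑ i ∈ T, Ex W (fun a => θ i * Real.exp (-m i) * Real.exp (Φ i a)) = 1 := by
    rw [← h1]
    refine sum_congr rfl fun i hi => ?_
    rw [Ex_const_mul, Real.exp_neg, hm, Real.exp_log (hp i hi), mul_assoc,
      inv_mul_cancel₀ (hp i hi).ne', mul_one]
  rw [Ex_const_mul, Ex_sum T fun i hi => (hE i hi).const_mul _, e, mul_one]

/-- Hölder, `n` factors: `E ∏ F_i^{θ_i} ≤ ∏ (E F_i)^{θ_i}` -/
theorem Wt.holder (hW : Wt W) {ι : Type*} (T : Finset ι) (θ : ι → ℝ) (Φ : ι → α → ℝ)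
    (h0 : ∀ i ∈ T, 0 < θ i) (h1 : ∑ i ∈ T, θ i = 1) (hΦ : ∀ i ∈ T, ∀ a, 0 ≤ Φ i a)
    (hE : ∀ i ∈ T, Ig W (Φ i)) :
    Ig W (fun a => ∏ i ∈ T, Φ i a ^ θ i) ∧
      Ex W (fun a => ∏ i ∈ T, Φ i a ^ θ i) ≤ ∏ i ∈ T, Ex W (Φ i) ^ θ i := by
  have hI : Ig W fun a => ∏ i ∈ T, Φ i a ^ θ i :=
    Ig.of_le hW.nonneg (Ig.sum T fun i hi => (hE i hi).const_mul (θ i))
      (fun a => prod_nonneg fun i hi => Real.rpow_nonneg (hΦ i hi a) _) fun a =>
      Real.geom_mean_le_arith_mean_weighted T θ (fun i => Φ i a) (fun i hi => (h0 i hi).le) h1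
        fun i hi => hΦ i hi a
  refine ⟨hI, ?_⟩
  have hn : ∀ i ∈ T, 0 ≤ Ex W (Φ i) := fun i hi => Ex_nonneg hW.nonneg fun a _ => hΦ i hi a
  by_cases hz : ∃ i ∈ T, Ex W (Φ i) = 0
  · obtain ⟨i, hi, hz⟩ := hz
    have : ∀ a, W a ≠ 0 → Φ i a = 0 := fun a ha => by
      by_contra hne
      exact (hW.ex_pos (hE i hi) (hΦ i hi) ((hW.nonneg a).lt_of_ne' ha)
        ((hΦ i hi a).lt_of_ne' hne)).ne' hz
    rw [Ex_congr (G := fun _ => 0) fun a ha => prod_eq_zero hi (by
      rw [this a ha, Real.zero_rpow (h0 i hi).ne']), Ex_zero]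
    exact prod_nonneg fun j hj => Real.rpow_nonneg (hn j hj) _
  push Not at hz
  have hp : ∀ i ∈ T, 0 < Ex W (Φ i) := fun i hi => (hn i hi).lt_of_ne' (hz i hi)
  have key : ∀ a, ∏ i ∈ T, Φ i a ^ θ i ≤
      (∏ i ∈ T, Ex W (Φ i) ^ θ i) * ∑ i ∈ T, θ i * (Φ i a / Ex W (Φ i)) := by
    intro a
    have := Real.geom_mean_le_arith_mean_weighted T θ (fun i => Φ i a / Ex W (Φ i))
      (fun i hi => (h0 i hi).le) h1 fun i hi => div_nonneg (hΦ i hi a) (hn i hi)
    refine le_trans (le_of_eq ?_) (mul_le_mul_of_nonneg_left this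
      (prod_nonneg fun j hj => Real.rpow_nonneg (hn j hj) _))
    rw [← prod_mul_distrib]
    refine prod_congr rfl fun i hi => ?_
    rw [← Real.mul_rpow (hn i hi) (div_nonneg (hΦ i hi a) (hn i hi)), mul_div_cancel₀ _ (hz i hi)]
  have hJ : ∀ i ∈ T, Ig W fun a => θ i * (Φ i a / Ex W (Φ i)) := fun i hi =>
    ((hE i hi).div_const _).const_mul _
  refine (Ex_mono hW.nonneg hI ((Ig.sum T hJ).const_mul _) key).trans_eq ?_
  rw [Ex_const_mul, Ex_sum T hJ, sum_congr rfl (g := θ) fun i hi => ?_, h1, mul_one]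
  rw [Ex_const_mul, Ex_div_const, div_self (hz i hi), mul_one]

/-- Hölder, two factors -/
theorem Wt.holder2 (hW : Wt W) {θ : ℝ} (h0 : 0 < θ) (h1 : θ < 1) (hF0 : ∀ a, 0 ≤ F a)
    (hG0 : ∀ a, 0 ≤ G a) (hF : Ig W F) (hG : Ig W G) :
    Ig W (fun a => F a ^ θ * G a ^ (1 - θ)) ∧
      Ex W (fun a => F a ^ θ * G a ^ (1 - θ)) ≤ Ex W F ^ θ * Ex W G ^ (1 - θ) := by
  simpa [Fin.prod_univ_two] using hW.holder (univ : Finset (Fin 2)) ![θ, 1 - θ] ![F, G]
    (by simp [Fin.forall_fin_two, h0, h1]) (by simp) (by simp [Fin.forall_fin_two, hF0, hG0])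
    (by simp [Fin.forall_fin_two, hF, hG])

/-- Jensen for a function lying above a tangent line at the mean -/
theorem Wt.jensen_of_tangent (hW : Wt W) {φ : ℝ → ℝ} (hF : Ig W F) (hφ : Ig W fun a => φ (F a))
    {c : ℝ} (h : ∀ a, W a ≠ 0 → φ (Ex W F) + c * (F a - Ex W F) ≤ φ (F a)) :
    φ (Ex W F) ≤ Ex W fun a => φ (F a) := by
  have hI := (hF.sub (hW.ig_const (Ex W F))).const_mul c
  refine le_trans (le_of_eq ?_) (Ex_mono' hW.nonneg ((hW.ig_const _).add hI) hφ h)
  rw [Ex_add (hW.ig_const _) hI, hW.ex_const, Ex_const_mul, hW.ex_sub_const hF]; simp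

/-- Jensen for a convex function on `ℝ` -/
theorem Wt.jensen (hW : Wt W) {φ : ℝ → ℝ} (hc : ConvexOn ℝ Set.univ φ) (hF : Ig W F)
    (hφ : Ig W fun a => φ (F a)) : φ (Ex W F) ≤ Ex W fun a => φ (F a) := by
  set m := Ex W F
  have hb : BddAbove ((fun x => (φ m - φ x) / (m - x)) '' Set.Iio m) :=
    ⟨(φ (m + 1) - φ m) / (m + 1 - m), by
      rintro _ ⟨x, hx, rfl⟩
      exact hc.slope_mono_adjacent trivial trivial hx (lt_add_one m)⟩
  refine hW.jensen_of_tangent hF hφ (c := sSup ((fun x => (φ m - φ x) / (m - x)) '' Set.Iio m))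
    fun a _ => ?_
  rcases lt_trichotomy (F a) m with h | h | h
  · have := le_csSup hb ⟨F a, h, rfl⟩
    rw [div_le_iff₀ (sub_pos.2 h)] at this
    change φ m + _ * (F a - m) ≤ _
    linarith
  · change φ m + _ * (F a - m) ≤ _
    simp [h]
  · have : sSup ((fun x => (φ m - φ x) / (m - x)) '' Set.Iio m) ≤ (φ (F a) - φ m) / (F a - m) :=
      csSup_le ⟨_, m - 1, by simp, rfl⟩ (by
        rintro _ ⟨x, hx, rfl⟩
        exact hc.slope_mono_adjacent trivial trivial hx h)
    rw [le_div_iff₀ (sub_pos.2 h)] at this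
    change φ m + _ * (F a - m) ≤ _
    linarith

/-! ### fibres, `push`, tower -/

theorem summable_ind_mul {u : α → ℝ} (hu : Summable u) (p : α → Prop) :
    Summable fun a => ind (p a) * u a :=
  Summable.of_norm_bounded hu.abs fun a => by
    rw [Real.norm_eq_abs, abs_mul]; exact mul_le_of_le_one_left (abs_nonneg _) (abs_ind_le _)
theorem hasSum_graph (π : α → β) (u : α → ℝ) (x : ℝ) :
    HasSum (fun p : β × α => ind (π p.2 = p.1) * u p.2) x ↔ HasSum u x := by
  rw [← Function.Injective.hasSum_iff (g := fun a => (π a, a))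
    (fun a b h => (Prod.ext_iff.1 h).2) fun p hp => ?_]
  · simp [Function.comp_def]
  · rw [ind_neg fun h => hp ⟨p.2, Prod.ext h rfl⟩, zero_mul]
theorem hasSum_push {u : α → ℝ} (hu : Summable u) (π : α → β) : HasSum (push u π) (∑' a, u a) :=
  ((hasSum_graph π u _).2 hu.hasSum).prod_fiberwise fun b => (summable_ind_mul hu _).hasSum
theorem summable_of_push {u : α → ℝ} (h0 : ∀ a, 0 ≤ u a) (π : α → β)
    (h1 : ∀ b, Summable fun a => ind (π a = b) * u a) (h2 : Summable (push u π)) : Summable u := by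
  obtain ⟨x, hx⟩ := (summable_prod_of_nonneg
    (f := fun p : β × α => ind (π p.2 = p.1) * u p.2)
    fun p => mul_nonneg (ind_nonneg _) (h0 _)).2 ⟨h1, h2⟩
  exact ((hasSum_graph π u x).1 hx).summable
theorem push_mul (W : α → ℝ) (π : α → β) (Φ : β → ℝ) (b : β) :
    push (fun a => W a * Φ (π a)) π b = push W π b * Φ b := by
  unfold push
  rw [← tsum_mul_right]
  refine tsum_congr fun a => ?_
  by_cases h : π a = b
  · subst h; simp
  · simp [ind_neg h]
theorem push_nonneg (h0 : ∀ a, 0 ≤ W a) (π : α → β) (b : β) : 0 ≤ push W π b :=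
  tsum_nonneg fun a => mul_nonneg (ind_nonneg _) (h0 a)
theorem summable_push (hW : Summable W) (π : α → β) : Summable (push W π) :=
  (hasSum_push hW π).summable
theorem Zs_push (hW : Summable W) (π : α → β) : Zs (push W π) = Zs W := (hasSum_push hW π).tsum_eq
theorem Wt.push (hW : Wt W) (π : α → β) : Wt (push W π) :=
  ⟨push_nonneg hW.nonneg π, summable_push hW.summ π, by rw [Zs_push hW.summ]; exact hW.pos⟩
theorem Ig.push {π : α → β} {Φ : β → ℝ} (h : Ig W fun a => Φ (π a)) : Ig (push W π) Φ :=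
  Summable.congr (summable_push h π) (push_mul W π Φ)
theorem tsum_push {π : α → β} {Φ : β → ℝ} (h : Ig W fun a => Φ (π a)) :
    ∑' b, push W π b * Φ b = ∑' a, W a * Φ (π a) := by
  rw [← (hasSum_push h π).tsum_eq]; exact tsum_congr fun b => (push_mul W π Φ b).symm
theorem Ig.of_push (h0 : ∀ a, 0 ≤ W a) (hs : Summable W) {π : α → β} {Φ : β → ℝ}
    (h : Ig (T145.push W π) Φ) : Ig W fun a => Φ (π a) := by
  refine Ig.of_abs h0 (summable_of_push (fun a => mul_nonneg (h0 a) (abs_nonneg _)) π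
    (fun b => ((summable_ind_mul hs fun a => π a = b).mul_right |Φ b|).congr fun a => ?_) ?_)
  · by_cases h : π a = b
    · subst h; simp
    · simp [ind_neg h]
  · exact Summable.congr (h.abs (push_nonneg h0 π)) fun b => (push_mul W π (fun b => |Φ b|) b).symm
theorem Wt.ig_push (hW : Wt W) {π : α → β} {Φ : β → ℝ} :
    Ig (T145.push W π) Φ ↔ Ig W fun a => Φ (π a) := ⟨Ig.of_push hW.nonneg hW.summ, Ig.push⟩
theorem Wt.ex_push (hW : Wt W) (π : α → β) (Φ : β → ℝ) :
    Ex (T145.push W π) Φ = Ex W fun a => Φ (π a) := by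
  by_cases h : Ig W fun a => Φ (π a)
  · rw [Ex_def, Ex_def, tsum_push h, Zs_push hW.summ]
  · rw [Ex_def, Ex_def, tsum_eq_zero_of_not_summable h,
      tsum_eq_zero_of_not_summable (mt hW.ig_push.1 h), zero_div, zero_div]
theorem Wt.pr_push (hW : Wt W) (π : α → β) (p : β → Prop) :
    Pr (T145.push W π) p = Pr W fun a => p (π a) := hW.ex_push π _
theorem Wt.push_eq (hW : Wt W) (π : α → β) (b : β) :
    T145.push W π b = Zs W * Pr W fun a => π a = b := by
  rw [Pr, ← hW.tsum_eq]; simp only [T145.push, mul_comm]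
theorem le_push (h0 : ∀ a, 0 ≤ W a) (hs : Summable W) (π : α → β) (a : α) :
    W a ≤ push W π (π a) := by
  have := (summable_ind_mul hs fun a' => π a' = π a).le_tsum a
    fun b _ => mul_nonneg (ind_nonneg _) (h0 b)
  rwa [ind_pos rfl, one_mul] at this
theorem push_push {γ : Type*} (hs : Summable W) (π : α → β) (π' : β → γ) :
    push (push W π) π' = push W fun a => π' (π a) := funext fun c => by
  have := tsum_push (W := W) (π := π) (Φ := fun b => ind (π' b = c))
    (Summable.congr (summable_ind_mul hs fun a => π' (π a) = c) fun a => mul_comm _ _)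
  simpa only [push, mul_comm] using this
theorem push_equiv (W : α → ℝ) (e : α ≃ β) (b : β) : push W e b = W (e.symm b) := by
  unfold push
  rw [tsum_eq_single (e.symm b) fun a ha => by
    rw [ind_neg fun h => ha (by rw [← h]; simp), zero_mul]]
  simp

/-- the weight restricted to an event -/
theorem Wt.restrict (hW : Wt W) {p : α → Prop} (hp : 0 < Pr W p) : Wt fun a => ind (p a) * W a := by
  simpa only [mul_comm] using hW.mul (hW.ig_ind p) (fun a => ind_nonneg _) hp
theorem Wt.ex_restrict (hW : Wt W) (p : α → Prop) (F : α → ℝ) :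
    Ex (fun a => ind (p a) * W a) F = Ex W (fun a => ind (p a) * F a) / Pr W p := by
  rw [Pr, ← hW.ex_mul (fun a => ind (p a)) F]; simp only [mul_comm]
theorem Wt.fibre (hW : Wt W) (π : α → β) {a : α} (ha : W a ≠ 0) :
    Wt fun a' => ind (π a' = π a) * W a' :=
  Wt.of_pos (fun b => mul_nonneg (ind_nonneg _) (hW.nonneg b)) (summable_ind_mul hW.summ _)
    (a := a) (by simpa using (hW.nonneg a).lt_of_ne' ha)
theorem push_mul_ex (h0 : ∀ a, 0 ≤ W a) (hs : Summable W) (π : α → β) (F : α → ℝ) (b : β) :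
    push W π b * Ex (fun a => ind (π a = b) * W a) F = push (fun a => W a * F a) π b := by
  by_cases h : push W π b = 0
  · rw [h, zero_mul]
    symm
    refine (tsum_congr fun a => ?_).trans tsum_zero
    by_cases ha : π a = b
    · have := le_push h0 hs π a
      rw [ha, h] at this
      simp [le_antisymm this (h0 a)]
    · simp [ind_neg ha]
  · rw [Ex_def]
    simp only [mul_assoc]
    exact mul_div_cancel₀ _ h
/-- tower property, abstract form -/
theorem Wt.tower' (hW : Wt W) (π : α → β) (hF : Ig W F) (Φ : β → ℝ)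
    (e : ∀ b, T145.push W π b * Φ b = T145.push (fun a => W a * F a) π b) :
    Ig W (fun a => Φ (π a)) ∧ Ex W F = Ex W fun a => Φ (π a) := by
  have h : HasSum (fun b => T145.push W π b * Φ b) (∑' a, W a * F a) := by
    simp only [e]; exact hasSum_push hF π
  refine ⟨Ig.of_push hW.nonneg hW.summ h.summable, ?_⟩
  rw [← hW.ex_push π Φ, Ex_def W F, Ex_def (T145.push W π), Zs_push hW.summ, h.tsum_eq]
/-- tower property for the conditional expectation given `π` -/
theorem Wt.tower (hW : Wt W) (π : α → β) (hF : Ig W F) :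
    Ig W (fun a => Ex (fun a' => ind (π a' = π a) * W a') F) ∧
      Ex W F = Ex W fun a => Ex (fun a' => ind (π a' = π a) * W a') F :=
  hW.tower' π hF (fun b => Ex (fun a' => ind (π a' = b) * W a') F)
    (push_mul_ex hW.nonneg hW.summ π F)
theorem Wt.tower_mul (hW : Wt W) (π : α → β) (Φ : β → ℝ) (hF : Ig W fun a => Φ (π a) * F a) :
    Ig W (fun a => Φ (π a) * Ex (fun a' => ind (π a' = π a) * W a') F) ∧
      Ex W (fun a => Φ (π a) * F a) =
        Ex W fun a => Φ (π a) * Ex (fun a' => ind (π a' = π a) * W a') F := by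
  have e : ∀ a, Ex (fun a' => ind (π a' = π a) * W a') (fun a' => Φ (π a') * F a') =
      Φ (π a) * Ex (fun a' => ind (π a' = π a) * W a') F := fun a => by
    rw [← Ex_const_mul]
    exact Ex_congr fun a' ha' => by rw [ind_ne_zero.1 (left_ne_zero_of_mul ha')]
  simpa only [e] using hW.tower π hF

/-! ### products -/

theorem Wt.prod {U : β → ℝ} (hW : Wt W) (hU : Wt U) : Wt fun p : α × β => W p.1 * U p.2 :=
  ⟨fun p => mul_nonneg (hW.nonneg _) (hU.nonneg _),
    hW.summ.mul_of_nonneg hU.summ hW.nonneg hU.nonneg, by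
    unfold Zs
    rw [← hW.summ.tsum_mul_tsum hU.summ (hW.summ.mul_of_nonneg hU.summ hW.nonneg hU.nonneg)]
    exact mul_pos hW.pos hU.pos⟩
theorem summable_prod_mul {u : α → ℝ} {v : β → ℝ} (hu : Summable u) (hv : Summable v) :
    Summable fun p : α × β => u p.1 * v p.2 :=
  summable_mul_of_summable_norm (by simpa using hu.abs) (by simpa using hv.abs)
theorem Zs_prod {U : β → ℝ} (hW : Summable W) (hU : Summable U) :
    Zs (fun p : α × β => W p.1 * U p.2) = Zs W * Zs U :=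
  (hW.tsum_mul_tsum hU (summable_prod_mul hW hU)).symm
theorem Ig.prod {U Φ : β → ℝ} (hF : Ig W F) (hΦ : Ig U Φ) :
    Ig (fun p : α × β => W p.1 * U p.2) fun p => F p.1 * Φ p.2 :=
  Summable.congr (summable_prod_mul hF hΦ) fun p => by ring
theorem Ex_prod_mul {U Φ : β → ℝ} (hW : Summable W) (hU : Summable U) (hF : Ig W F) (hΦ : Ig U Φ) :
    Ex (fun p : α × β => W p.1 * U p.2) (fun p => F p.1 * Φ p.2) = Ex W F * Ex U Φ := by
  rw [Ex_def, Zs_prod hW hU, Ex_def, Ex_def, div_mul_div_comm,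
    Summable.tsum_mul_tsum hF hΦ (summable_prod_mul hF hΦ)]
  congr 1
  exact tsum_congr fun p => by ring
theorem Ex_prod_fst {U : β → ℝ} (hW : Wt W) (hU : Wt U) (hF : Ig W F) :
    Ex (fun p : α × β => W p.1 * U p.2) (fun p => F p.1) = Ex W F := by
  simpa [hU.ex_const] using Ex_prod_mul hW.summ hU.summ hF (hU.ig_const 1)
theorem Ex_prod_snd {U Φ : β → ℝ} (hW : Wt W) (hU : Wt U) (hΦ : Ig U Φ) :
    Ex (fun p : α × β => W p.1 * U p.2) (fun p => Φ p.2) = Ex U Φ := by
  simpa [hW.ex_const] using Ex_prod_mul hW.summ hU.summ (hW.ig_const 1) hΦ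
theorem Ig.prod_fst {U : β → ℝ} (hF : Ig W F) (hU : Summable U) :
    Ig (fun p : α × β => W p.1 * U p.2) fun p => F p.1 := by
  simpa using hF.prod (Ig.const hU 1)
theorem Ig.prod_snd {U Φ : β → ℝ} (hΦ : Ig U Φ) (hW : Summable W) :
    Ig (fun p : α × β => W p.1 * U p.2) fun p => Φ p.2 := by
  simpa using (Ig.const hW 1).prod hΦ
/-- Fubini -/
theorem Ex_prod {U : β → ℝ} {H : α × β → ℝ} (hW : Wt W) (hU : Wt U)
    (hH : Ig (fun p : α × β => W p.1 * U p.2) H) :
    Ig W (fun a => Ex U fun b => H (a, b)) ∧ (∀ a, W a ≠ 0 → Ig U fun b => H (a, b)) ∧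
      Ex (fun p : α × β => W p.1 * U p.2) H = Ex W fun a => Ex U fun b => H (a, b) := by
  have e : ∀ a, ∑' b, W a * U b * H (a, b) = W a * (Ex U fun b => H (a, b)) * Zs U := fun a => by
    simp only [mul_assoc]
    rw [tsum_mul_left, hU.tsum_eq, mul_comm (Zs U)]
  have h1 : Summable fun a => W a * (Ex U fun b => H (a, b)) * Zs U :=
    (Summable.prod hH).congr e
  refine ⟨(summable_mul_right_iff hU.ne).1 h1, fun a ha => ?_, ?_⟩
  · have := Summable.prod_factor hH a
    simp only [mul_assoc] at this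
    exact (summable_mul_left_iff ha).1 this
  · rw [Ex_def, Zs_prod hW.summ hU.summ, Summable.tsum_prod hH, tsum_congr e, tsum_mul_right,
      mul_div_mul_right _ _ hU.ne, Ex_def]
/-- Tonelli -/
theorem ig_prod_of_nonneg {U : β → ℝ} {H : α × β → ℝ} (hW : Wt W) (hU : Wt U) (h0 : ∀ p, 0 ≤ H p)
    (h1 : ∀ a, W a ≠ 0 → Ig U fun b => H (a, b)) (h2 : Ig W fun a => Ex U fun b => H (a, b)) :
    Ig (fun p : α × β => W p.1 * U p.2) H := by
  refine (summable_prod_of_nonneg fun p =>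
    mul_nonneg (mul_nonneg (hW.nonneg _) (hU.nonneg _)) (h0 p)).2 ⟨fun a => ?_, ?_⟩
  · by_cases ha : W a = 0
    · simp [ha]
    · simpa only [mul_assoc] using Summable.mul_left (W a) (h1 a ha)
  · refine (Summable.mul_right (Zs U) h2).congr fun a => ?_
    simp only [mul_assoc]
    rw [tsum_mul_left, hU.tsum_eq, mul_comm (Zs U)]
/-- covariance by two replicas -/
theorem Wt.cv_two (hW : Wt W) (hF : Ig W F) (hG : Ig W G) (hFG : Ig W fun a => F a * G a) :
    2 * Cv W F G =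
      Ex (fun p : α × α => W p.1 * W p.2) fun p => (F p.1 - F p.2) * (G p.1 - G p.2) := by
  have h1 := hFG.prod_fst hW.summ
  have h2 := hFG.prod_snd hW.summ
  have h3 := hF.prod hG
  have h4 := hG.prod hF
  rw [Ex_congr (G := fun p : α × α => F p.1 * G p.1 + F p.2 * G p.2 - F p.1 * G p.2 - G p.1 * F p.2)
    fun p _ => by ring, Ex_sub ((h1.add h2).sub h3) h4, Ex_sub (h1.add h2) h3, Ex_add h1 h2,
    Ex_prod_fst hW hW hFG, Ex_prod_snd hW hW hFG, Ex_prod_mul hW.summ hW.summ hF hG,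
    Ex_prod_mul hW.summ hW.summ hG hF, Cv]
  ring

/-! ### total variation -/

theorem TV_nonneg (W W' : α → ℝ) : 0 ≤ TV W W' :=
  div_nonneg (tsum_nonneg fun a => abs_nonneg _) two_pos.le
theorem TV_comm (W W' : α → ℝ) : TV W W' = TV W' W := by simp only [TV, abs_sub_comm]
@[simp] theorem TV_self (W : α → ℝ) : TV W W = 0 := by simp [TV]
theorem summable_tv (h : Summable W) (h' : Summable W') :
    Summable fun a => |W a / Zs W - W' a / Zs W'| := ((h.div_const _).sub (h'.div_const _)).abs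
theorem TV_triangle (h : Summable W) (h' : Summable W') (h'' : Summable W'') :
    TV W W'' ≤ TV W W' + TV W' W'' := by
  unfold TV
  rw [← add_div, ← (summable_tv h h').tsum_add (summable_tv h' h'')]
  exact div_le_div_of_nonneg_right ((summable_tv h h'').tsum_le_tsum (fun a => abs_sub_le _ _ _)
    ((summable_tv h h').add (summable_tv h' h''))) two_pos.le
theorem TV_smul_left (W W' : α → ℝ) {c : ℝ} (hc : c ≠ 0) : TV (fun a => c * W a) W' = TV W W' := by
  simp only [TV, Zs_smul, mul_div_mul_left _ _ hc]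
theorem Ex_sub_Ex (hF : Ig W F) (hF' : Ig W' F) :
    HasSum (fun a => (W a / Zs W - W' a / Zs W') * F a) (Ex W F - Ex W' F) := by
  have := ((Summable.hasSum hF).div_const (Zs W)).sub ((Summable.hasSum hF').div_const (Zs W'))
  have e : (fun a => (W a / Zs W - W' a / Zs W') * F a) =
      fun a => W a * F a / Zs W - W' a * F a / Zs W' := funext fun a => by ring
  rw [e]; exact this
theorem abs_Ex_sub_le (h : Wt W) (h' : Wt W') {C : ℝ} (hC : ∀ a, |F a| ≤ C) :
    |Ex W F - Ex W' F| ≤ 2 * TV W W' * C := by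
  have hs := Ex_sub_Ex (h.ig_bdd hC) (h'.ig_bdd hC)
  have := hs.norm_le_of_bounded ((summable_tv h.summ h'.summ).hasSum.mul_right C) fun a => by
    rw [Real.norm_eq_abs, abs_mul]; exact mul_le_mul_of_nonneg_left (hC a) (abs_nonneg _)
  rw [TV, mul_div_cancel₀ _ two_ne_zero]; exact this
theorem abs_Ex_sub_le_osc (h : Wt W) (h' : Wt W') {lo hi : ℝ} (h1 : ∀ a, lo ≤ F a)
    (h2 : ∀ a, F a ≤ hi) : |Ex W F - Ex W' F| ≤ TV W W' * (hi - lo) := by
  have hb : ∀ a, |F a - (lo + hi) / 2| ≤ (hi - lo) / 2 := fun a =>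
    abs_le.2 ⟨by linarith [h1 a], by linarith [h2 a]⟩
  have hF : ∀ a, |F a| ≤ |lo| + |hi| := fun a => abs_le.2
    ⟨by linarith [h1 a, neg_abs_le lo, abs_nonneg hi], by linarith [h2 a, le_abs_self hi, abs_nonneg lo]⟩
  have := abs_Ex_sub_le h h' hb
  rw [h.ex_sub_const (h.ig_bdd hF), h'.ex_sub_const (h'.ig_bdd hF), sub_sub_sub_cancel_right] at this
  linarith
theorem abs_Pr_sub_le (h : Wt W) (h' : Wt W') (p : α → Prop) : |Pr W p - Pr W' p| ≤ TV W W' := by
  simpa [Pr] using abs_Ex_sub_le_osc h h' (fun a => ind_nonneg (p a)) fun a => ind_le_one (p a)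
theorem TV_eq_Pr (h : Wt W) (h' : Wt W') : TV W W' =
    Pr W (fun a => W' a / Zs W' ≤ W a / Zs W) - Pr W' fun a => W' a / Zs W' ≤ W a / Zs W := by
  have h1 := Ex_sub_Ex (h.ig_ind fun a => W' a / Zs W' ≤ W a / Zs W) (h'.ig_ind _)
  have h2 := Ex_sub_Ex (h.ig_const 1) (h'.ig_const 1)
  rw [h.ex_const, h'.ex_const] at h2
  have h3 := (h1.mul_left 2).sub h2
  have e : (fun a => 2 * ((W a / Zs W - W' a / Zs W') * ind (W' a / Zs W' ≤ W a / Zs W)) -
      (W a / Zs W - W' a / Zs W') * 1) = fun a => |W a / Zs W - W' a / Zs W'| := funext fun a => by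
    by_cases ha : W' a / Zs W' ≤ W a / Zs W
    · rw [ind_pos ha, abs_of_nonneg (sub_nonneg.2 ha)]; ring
    · rw [ind_neg ha, abs_of_neg (sub_neg.2 (not_le.1 ha))]; ring
  rw [e] at h3
  rw [TV, h3.tsum_eq, Pr, Pr]; ring
theorem TV_le_of_Pr (h : Wt W) (h' : Wt W') {ε : ℝ} (H : ∀ p : α → Prop, Pr W p - Pr W' p ≤ ε) :
    TV W W' ≤ ε := by rw [TV_eq_Pr h h']; exact H _
theorem TV_le_one (h : Wt W) (h' : Wt W') : TV W W' ≤ 1 :=
  TV_le_of_Pr h h' fun p => by linarith [h.pr_le_one p, Pr_nonneg h'.nonneg p]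
theorem TV_push_le (h : Wt W) (h' : Wt W') (π : α → β) : TV (push W π) (push W' π) ≤ TV W W' :=
  TV_le_of_Pr (h.push π) (h'.push π) fun p => by
    rw [h.pr_push, h'.pr_push]; exact (le_abs_self _).trans (abs_Pr_sub_le h h' _)
/-- minorisation -/
theorem TV_le_of_minor (h : Wt W) (h' : Wt W') {ε : ℝ} (hε : 0 ≤ ε)
    (H : ∀ a, (1 - ε) * (W a / Zs W) ≤ W' a / Zs W') : TV W W' ≤ ε := by
  refine TV_le_of_Pr h h' fun p => ?_
  have h1 := Ex_sub_Ex (h.ig_ind p) (h'.ig_ind p)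
  have h2 := ((Summable.hasSum (h.ig_ind p)).div_const (Zs W)).mul_left ε
  have h3 := hasSum_le (fun a => ?_) h1 h2
  · have := mul_le_mul_of_nonneg_left (h.pr_le_one p) hε
    exact h3.trans (by rw [mul_one] at this; exact this)
  · have := mul_le_mul_of_nonneg_right (H a) (ind_nonneg (p a))
    rw [mul_div_right_comm]; linarith
theorem TV_mul (h : Wt W) (G : α → ℝ) :
    TV (fun a => W a * G a) W = Ex W (fun a => |G a / Ex W G - 1|) / 2 := by
  rw [TV, Ex_def W fun a => |G a / Ex W G - 1|, h.Zs_mul, ← tsum_div_const (a := Zs W)]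
  congr 1
  refine tsum_congr fun a => ?_
  rw [← div_mul_div_comm, ← mul_sub_one, abs_mul, abs_of_nonneg (div_nonneg (h.nonneg a) h.pos.le),
    mul_div_right_comm]
theorem TV_restrict_le (h : Wt W) {p : α → Prop} (hp : 0 < Pr W p) :
    TV (fun a => ind (p a) * W a) W ≤ 1 - Pr W p := by
  refine TV_le_of_minor (h.restrict hp) h (by linarith [h.pr_le_one p]) fun a => ?_
  have e : Zs (fun a => ind (p a) * W a) = Zs W * Pr W p := by
    rw [Pr, ← h.Zs_mul fun a => ind (p a)]; simp only [mul_comm]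
  rw [e, sub_sub_cancel, mul_comm (Zs W), ← div_mul_div_comm, ← mul_assoc, mul_div_cancel₀ _ hp.ne']
  exact mul_le_of_le_one_left (div_nonneg (h.nonneg a) h.pos.le) (ind_le_one _)
/-- unbounded observables -/
theorem abs_Ex_sub_le_sqrt (h : Wt W) (h' : Wt W') (hF : Ig W fun a => F a ^ 2)
    (hF' : Ig W' fun a => F a ^ 2) : |Ex W F - Ex W' F| ≤
      Real.sqrt (2 * TV W W') * Real.sqrt (Ex W (fun a => F a ^ 2) + Ex W' fun a => F a ^ 2) := by
  set d : α → ℝ := fun a => |W a / Zs W - W' a / Zs W'| with hd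
  have d0 : ∀ a, 0 ≤ d a := fun a => abs_nonneg _
  have ds : Summable d := summable_tv h.summ h'.summ
  have hs := ((Summable.hasSum hF).div_const (Zs W)).add ((Summable.hasSum hF').div_const (Zs W'))
  have hle : ∀ a, d a * F a ^ 2 ≤ W a * F a ^ 2 / Zs W + W' a * F a ^ 2 / Zs W' := fun a => by
    rw [mul_div_right_comm, mul_div_right_comm, ← add_mul]
    refine mul_le_mul_of_nonneg_right (abs_le.2 ⟨?_, ?_⟩) (sq_nonneg _) <;>
      linarith [div_nonneg (h.nonneg a) h.pos.le, div_nonneg (h'.nonneg a) h'.pos.le]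
  have d2 : Summable fun a => d a * F a ^ 2 :=
    Summable.of_nonneg_of_le (fun a => mul_nonneg (d0 a) (sq_nonneg _)) hle hs.summable
  have d2' : Ig d fun a => |F a| ^ 2 := by simpa only [Ig, sq_abs] using d2
  have d1 : Ig d fun a => |F a| * 1 := Ig.mul_of_sq d0 d2' (Ig.const ds _)
  have h1 : |Ex W F - Ex W' F| ≤ ∑' a, d a * (|F a| * 1) :=
    (Ex_sub_Ex (h.ig_of_sq hF) (h'.ig_of_sq hF')).norm_le_of_bounded (Summable.hasSum d1) fun a => by
      rw [Real.norm_eq_abs, abs_mul, mul_one]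
  have h2 : 2 * TV W W' = Zs d := by rw [TV, mul_div_cancel₀ _ two_ne_zero]; rfl
  have h3 : ∑' a, d a * F a ^ 2 ≤ Ex W (fun a => F a ^ 2) + Ex W' fun a => F a ^ 2 :=
    hasSum_le hle d2.hasSum hs
  rw [h2]
  rcases (Zs_nonneg d0).eq_or_lt with hz | hz
  · have : ∀ a, d a = 0 := fun a => le_antisymm ((ds.le_tsum a fun b _ => d0 b).trans hz.ge) (d0 a)
    simp only [this, zero_mul, tsum_zero] at h1
    exact h1.trans (by positivity)
  · have hw : Wt d := ⟨d0, ds, hz⟩
    have h4 := Ex_mul_sq_le d0 d2' (hw.ig_const ((1 : ℝ) ^ 2))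
    rw [hw.ex_const] at h4
    simp only [sq_abs, one_pow] at h4
    rw [← Real.sqrt_mul hz.le]
    refine h1.trans (Real.le_sqrt_of_sq_le ?_)
    rw [hw.tsum_eq] at h3 ⊢
    calc _ = Zs d ^ 2 * Ex d (fun a => |F a| * 1) ^ 2 := by ring
      _ ≤ Zs d ^ 2 * (Ex d (fun a => F a ^ 2) * 1) := by gcongr
      _ = Zs d * (Zs d * Ex d fun a => F a ^ 2) := by ring
      _ ≤ _ := by gcongr

/-! ### cones -/

variable {P Q : (α → ℝ) → Prop}

theorem InCone.refl (h : P W) : InCone P W := fun F hF H => H W h hF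
theorem InCone.mono (h : InCone P W) (hPQ : ∀ U, P U → Q U) : InCone Q W :=
  fun F hF H => h F hF fun U hU => H U (hPQ U hU)
theorem InCone.trans (h : InCone P W) (hPQ : ∀ U, P U → InCone Q U) : InCone Q W :=
  fun F hF H => h F hF fun U hU hFU => hPQ U hU F hFU H
theorem InCone.mul (h : InCone P W) (G : α → ℝ) :
    InCone (fun U' => ∃ U, P U ∧ U' = fun a => U a * G a) fun a => W a * G a := fun F hF H => by
  have := h (fun a => G a * F a) (ig_mul_iff.1 hF) fun U hU hI => by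
    simpa only [mul_assoc] using H _ ⟨U, hU, rfl⟩ (ig_mul_iff.2 hI)
  simpa only [mul_assoc] using this
theorem InCone.smul (h : InCone P W) {c : ℝ} (hc : 0 ≤ c) : InCone P fun a => c * W a :=
  fun F hF H => by
    rcases hc.eq_or_lt with rfl | hc
    · simp
    · simp only [mul_assoc]
      rw [tsum_mul_left]
      exact mul_nonneg hc.le (h F ((ig_smul_iff hc.ne').1 hF) H)
theorem InCone.nonneg (h : InCone P W) (hP : ∀ U, P U → ∀ a, 0 ≤ U a) (a : α) : 0 ≤ W a := by
  have e : ∀ U : α → ℝ, HasSum (fun b => U b * ind (b = a)) (U a) := fun U => by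
    simpa using hasSum_single (f := fun b => U b * ind (b = a)) a fun b hb => by simp [ind_neg hb]
  rw [← (e W).tsum_eq]
  exact h _ (e W).summable fun U hU _ => by rw [(e U).tsum_eq]; exact hP U hU a
/-- an inequality between expectations passes to the cone -/
theorem InCone.ex_le_ex (h : InCone P W) (hW : Wt W) (hF : Ig W F) (hG : Ig W G)
    (H : ∀ U, P U → Wt U ∧ Ig U F ∧ Ig U G ∧ Ex U F ≤ Ex U G) : Ex W F ≤ Ex W G := by
  have := h (fun a => G a - F a) (hG.sub hF) fun U hU _ => by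
    obtain ⟨h1, h2, h3, h4⟩ := H U hU
    rw [h1.tsum_eq, Ex_sub h3 h2]
    exact mul_nonneg h1.pos.le (sub_nonneg.2 h4)
  rw [hW.tsum_eq, Ex_sub hG hF] at this
  exact sub_nonneg.1 (nonneg_of_mul_nonneg_right this hW.pos)
theorem InCone.ex_le (h : InCone P W) (hW : Wt W) (hF : Ig W F) {c : ℝ}
    (H : ∀ U, P U → Wt U ∧ (Ig U F → Ex U F ≤ c)) : Ex W F ≤ c := by
  have := h (fun a => c - F a) ((hW.ig_const c).sub hF) fun U hU hI => by
    obtain ⟨h1, h4⟩ := H U hU
    have h2 : Ig U F := ((h1.ig_const c).sub hI).congr fun a _ => by ring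
    rw [h1.tsum_eq, Ex_sub (h1.ig_const c) h2, h1.ex_const]
    exact mul_nonneg h1.pos.le (sub_nonneg.2 (h4 h2))
  rw [hW.tsum_eq, Ex_sub (hW.ig_const c) hF, hW.ex_const] at this
  exact sub_nonneg.1 (nonneg_of_mul_nonneg_right this hW.pos)
theorem InCone.le_ex (h : InCone P W) (hW : Wt W) (hF : Ig W F) {c : ℝ}
    (H : ∀ U, P U → Wt U ∧ (Ig U F → c ≤ Ex U F)) : c ≤ Ex W F := by
  have := h.ex_le hW hF.neg (c := -c) fun U hU => ⟨(H U hU).1, fun hI => by
    rw [Ex_neg]; exact neg_le_neg ((H U hU).2 (hI.neg.congr fun a _ => neg_neg _))⟩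
  rw [Ex_neg] at this; linarith

end

end Crest.Agent.T145
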