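import Crest.Agent.T145.CorU_59
import Crest.Agent.T145.ApiP_98

/-!
# Row 145 (helper59): dot-notation forms of the Gaussian comparison toolbox, H1, H4, `d = M - V/2`
-/

set_option autoImplicit false

namespace Crest.Agent.T145

open Finset

section tv
variable {α : Type*} {W W' R : α → ℝ}

/-- Hellinger bound for the total variation distance -/
theorem tv_sq_le (hW : Wt W) (hW' : Wt W') (hR : Summable R) (h : ∀ a, R a ^ 2 ≤ W a * W' a) :
    TV W W' ^ 2 ≤ 2 - 2 * (Zs R / Real.sqrt (Zs W * Zs W')) := by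
  have hc : 0 < Real.sqrt (Zs W * Zs W') := Real.sqrt_pos.2 (mul_pos hW.pos hW'.pos)
  set c := Real.sqrt (Zs W * Zs W') with hcd
  have hc2 : c ^ 2 = Zs W * Zs W' := Real.sq_sqrt (mul_pos hW.pos hW'.pos).le
  have hp : HasSum (fun a => W a / Zs W) 1 := div_self hW.ne ▸ hW.summ.hasSum.div_const (Zs W)
  have hq : HasSum (fun a => W' a / Zs W') 1 := div_self hW'.ne ▸ hW'.summ.hasSum.div_const (Zs W')
  have hr : HasSum (fun a => R a / c) (Zs R / c) := hR.hasSum.div_const c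
  have h1 : ∀ a, (R a / c) ^ 2 ≤ W a / Zs W * (W' a / Zs W') := fun a => by
    rw [div_pow, hc2, div_mul_div_comm]
    exact div_le_div_of_nonneg_right (h a) (mul_pos hW.pos hW'.pos).le
  have key : ∀ l : ℝ, 0 < l → 2 * TV W W' ≤ l / 2 * (1 + 1 - 2 * (Zs R / c)) + (1 + 1) / l :=
    fun l hl => by
    rw [TV, mul_div_cancel₀ _ (two_ne_zero)]
    refine hasSum_le (fun a => ?_) (hp.sub hq).summable.abs.hasSum
      ((((hp.add hq).sub (hr.mul_left 2)).mul_left (l / 2)).add ((hp.add hq).div_const l))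
    have h2 := h1 a
    have h3 := div_nonneg (hW.nonneg a) hW.pos.le
    have h4 := div_nonneg (hW'.nonneg a) hW'.pos.le
    generalize W a / Zs W = p at *
    generalize W' a / Zs W' = q at *
    generalize R a / c = r at *
    have h5 : 2 * r ≤ p + q := abs_le_of_sq_le_sq' (by nlinarith [sq_nonneg (p - q)]) (by positivity)
      |>.2
    have h6 : -(p + q) ≤ 2 * r :=
      abs_le_of_sq_le_sq' (by nlinarith [sq_nonneg (p - q)]) (by positivity) |>.1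
    refine abs_le_of_sq_le_sq' ?_ (by
      have := sub_nonneg.2 h5
      positivity) |>.2
    have e : (l / 2 * (p + q - 2 * r) + (p + q) / l) ^ 2 =
        (l / 2 * (p + q - 2 * r) - (p + q) / l) ^ 2 + 2 * (p + q - 2 * r) * (p + q) := by
      field_simp
      ring
    rw [sq_abs, e]
    nlinarith [sq_nonneg (l / 2 * (p + q - 2 * r) - (p + q) / l), mul_nonneg (sub_nonneg.2 h5)
      (sub_nonneg.2 h5)]
  have h0 : 0 ≤ TV W W' := div_nonneg (tsum_nonneg fun _ => abs_nonneg _) zero_le_two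
  rcases h0.eq_or_lt with h0 | h0
  · rw [← h0]
    have h7 : 2 * (Zs R / c) ≤ 1 + 1 := hasSum_le (fun a => by
      have h3 := div_nonneg (hW.nonneg a) hW.pos.le
      have h4 := div_nonneg (hW'.nonneg a) hW'.pos.le
      exact (abs_le_of_sq_le_sq' (by nlinarith [sq_nonneg (W a / Zs W - W' a / Zs W'), h1 a])
        (by positivity)).2) (hr.mul_left 2) (hp.add hq)
    linarith
  · have h7 := mul_le_mul_of_nonneg_left (key (2 / TV W W') (by positivity)) h0.le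
    have e : TV W W' * (2 / TV W W' / 2 * (1 + 1 - 2 * (Zs R / c)) + (1 + 1) / (2 / TV W W')) =
        2 - 2 * (Zs R / c) + TV W W' ^ 2 := by
      field_simp
      ring
    rw [e] at h7
    nlinarith

theorem tv_sq_le_log (hW : Wt W) (hW' : Wt W') (hR : Summable R) (h0 : 0 < Zs R)
    (h : ∀ a, R a ^ 2 ≤ W a * W' a) :
    TV W W' ^ 2 ≤ Real.log (Zs W) + Real.log (Zs W') - 2 * Real.log (Zs R) := by
  refine (tv_sq_le hW hW' hR h).trans ?_
  have hc : 0 < Real.sqrt (Zs W * Zs W') := Real.sqrt_pos.2 (mul_pos hW.pos hW'.pos)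
  have h1 := Real.log_le_sub_one_of_pos (div_pos h0 hc)
  rw [Real.log_div h0.ne' hc.ne', Real.log_sqrt (mul_pos hW.pos hW'.pos).le,
    Real.log_mul hW.ne hW'.ne] at h1
  linarith

end tv

/-- excess of the log moment generating function over the Gaussian value -/
noncomputable def dM {L : Type*} [AddCommGroup L] (W : L → ℝ) (f : L →+ ℝ) : ℝ :=
  M W f - Vr W f f / 2

section cen
variable {L : Type} [AddCommGroup L] [IsAddTorsionFree L] {ρ ρ' G G' : L → ℝ}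

theorem Cen.M_par (h : Cen ρ) (f g : L →+ ℝ) :
    2 * M ρ f + 2 * M ρ g ≤ M ρ (f + g) + M ρ (f - g) := (corStmt L ρ h).1 f g
theorem Cen.vr_le_M (h : Cen ρ) (f : L →+ ℝ) : Vr ρ f f / 2 ≤ M ρ f := (corStmt L ρ h).2.1 f
theorem Cen.ph_par (h : Cen ρ) (ξ η : L →+ ℝ) :
    Ph ρ ξ ^ 2 * Ph ρ η ^ 2 ≤ Ph ρ (ξ + η) * Ph ρ (ξ - η) := (corStmt L ρ h).2.2.1 ξ η
theorem Cen.ph_ge (h : Cen ρ) (ξ : L →+ ℝ) : Real.exp (-Vr ρ ξ ξ / 2) ≤ Ph ρ ξ :=
  (corStmt L ρ h).2.2.2.1 ξ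
theorem Cen.ph_pos (h : Cen ρ) (ξ : L →+ ℝ) : 0 < Ph ρ ξ := (Real.exp_pos _).trans_le (h.ph_ge ξ)
theorem Cen.vr_le_tilt (h : Cen ρ) (f g : L →+ ℝ) : Vr ρ g g ≤ Vr (tilt ρ f) g g :=
  (corStmt L ρ h).2.2.2.2.1 f g
theorem Cen.k4 (h : Cen ρ) (f g : L →+ ℝ) :
    Vr ρ f f * Vr ρ g g + 2 * Vr ρ f g ^ 2 ≤ Ex ρ fun s => f s ^ 2 * g s ^ 2 :=
  (corStmt L ρ h).2.2.2.2.2.1 f g
theorem Cen.convexOn_dM_line (h : Cen ρ) (f g : L →+ ℝ) :
    ConvexOn ℝ Set.univ fun t : ℝ => dM ρ (f + t • g) := (corStmt L ρ h).2.2.2.2.2.2 f g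

theorem Cen.M_nsmul (h : Cen ρ) (f : L →+ ℝ) (n : ℕ) : n ^ 2 * M ρ f ≤ M ρ ((n : ℝ) • f) := by
  have key : ∀ n : ℕ, M ρ ((n : ℝ) • f) + (2 * n + 1) * M ρ f ≤ M ρ (((n : ℝ) + 1) • f) := by
    intro n
    induction n with
    | zero => simp [h.wt.M_zero]
    | succ n ih =>
      have := h.M_par (((n : ℝ) + 1) • f) f
      rw [show ((n : ℝ) + 1) • f - f = (n : ℝ) • f by module,
        show ((n : ℝ) + 1) • f + f = ((n : ℝ) + 1 + 1) • f by module] at this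
      push_cast
      linarith
  induction n with
  | zero => simp [h.wt.M_zero]
  | succ n ih =>
    have := key n
    push_cast
    linarith

/-! ### `d = M - V / 2` -/

theorem Cen.dM_nonneg (h : Cen ρ) (f : L →+ ℝ) : 0 ≤ dM ρ f := sub_nonneg.2 (h.vr_le_M f)
omit [IsAddTorsionFree L] in
theorem Cen.dM_zero (h : Cen ρ) : dM ρ 0 = 0 := by simp [dM, h.wt.M_zero, h.Vr_eq]
omit [IsAddTorsionFree L] in
theorem Cen.dM_neg (h : Cen ρ) (f : L →+ ℝ) : dM ρ (-f) = dM ρ f := by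
  rw [dM, h.M_neg, Vr_neg_left, Vr_neg_right, neg_neg, dM]
theorem Cen.dM_par (h : Cen ρ) (f g : L →+ ℝ) :
    2 * dM ρ f + 2 * dM ρ g ≤ dM ρ (f + g) + dM ρ (f - g) := by
  have := h.M_par f g
  simp only [dM, h.se.Vr_add_left, h.se.Vr_add_right, h.se.Vr_sub_left, h.se.Vr_sub_right]
  linarith
theorem Cen.dM_nsmul (h : Cen ρ) (f : L →+ ℝ) (n : ℕ) : n ^ 2 * dM ρ f ≤ dM ρ ((n : ℝ) • f) := by
  have := h.M_nsmul f n
  simp only [dM, Vr_smul_left, Vr_smul_right]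
  linarith
theorem Cen.convexOn_dM (h : Cen ρ) : ConvexOn ℝ Set.univ (dM ρ) :=
  ⟨convex_univ, fun f _ g _ a b ha hb hab => by
    have := (h.convexOn_dM_line f (g - f)).2 (Set.mem_univ 0) (Set.mem_univ 1) ha hb hab
    simp only [zero_smul, add_zero, one_smul, add_sub_cancel, smul_eq_mul, mul_zero, zero_add,
      mul_one] at this
    rwa [show a • f + b • g = f + b • (g - f) by
      rw [show a = 1 - b by linarith, sub_smul, one_smul, smul_sub]; abel]⟩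
theorem Cen.dM_smul_le (h : Cen ρ) (f : L →+ ℝ) {t : ℝ} (ht : |t| ≤ 1) :
    dM ρ (t • f) ≤ |t| * dM ρ f := by
  have := h.convexOn_dM.2 (Set.mem_univ f) (Set.mem_univ 0) (abs_nonneg t) (sub_nonneg.2 ht)
    (by ring)
  simp only [smul_zero, add_zero, h.dM_zero, smul_eq_mul, mul_zero] at this
  rcases abs_choice t with e | e
  · rwa [e] at this ⊢
  · rwa [e, neg_smul, h.dM_neg, ← e] at this
/-- `d` is subadditive up to doubling -/
theorem Cen.dM_add_le (h : Cen ρ) (f g : L →+ ℝ) :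
    dM ρ (f + g) ≤ (dM ρ ((2 : ℝ) • f) + dM ρ ((2 : ℝ) • g)) / 2 := by
  have := h.convexOn_dM.2 (Set.mem_univ ((2 : ℝ) • f)) (Set.mem_univ ((2 : ℝ) • g))
    (show (0 : ℝ) ≤ 1 / 2 by norm_num) (show (0 : ℝ) ≤ 1 / 2 by norm_num) (by norm_num)
  simp only [smul_smul, smul_eq_mul, show (1 / 2 * 2 : ℝ) = 1 by norm_num, one_smul] at this
  linarith
/-- second order lower Taylor bound with the centred variance -/
theorem Cen.le_M_add (h : Cen ρ) (f g : L →+ ℝ) :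
    M ρ f + Ex (tilt ρ f) (fun s => g s) + Vr ρ g g / 2 ≤ M ρ (f + g) :=
  h.wt.le_M_add h.se f g fun _ _ => h.vr_le_tilt _ g
/-- the tilted mean is the Gaussian mean up to increments of `d` -/
theorem Cen.ex_tilt_le (h : Cen ρ) (f g : L →+ ℝ) :
    Ex (tilt ρ f) (fun s => g s) - Vr ρ f g ≤ dM ρ (f + g) - dM ρ f := by
  have := h.le_M_add f g
  simp only [dM, h.se.Vr_add_left, h.se.Vr_add_right, Vr_comm ρ g f]
  linarith
theorem Cen.abs_ex_tilt_le (h : Cen ρ) (f g : L →+ ℝ) :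
    |Ex (tilt ρ f) (fun s => g s) - Vr ρ f g| ≤ max (dM ρ (f + g)) (dM ρ (f - g)) - dM ρ f := by
  have h1 := h.ex_tilt_le f g
  have h2 := h.ex_tilt_le f (-g)
  simp only [AddMonoidHom.neg_apply, Ex_neg, Vr_neg_right, ← sub_eq_add_neg] at h2
  rw [abs_le]
  constructor <;> linarith [le_max_left (dM ρ (f + g)) (dM ρ (f - g)),
    le_max_right (dM ρ (f + g)) (dM ρ (f - g))]

/-! ### localisation -/

omit [IsAddTorsionFree L] in
theorem Cen.mul_rsd (h : Cen ρ) (hG : RSD G) (h0 : 0 < G 0) (hT : Tame G) :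
    Cen fun s => ρ s * G s :=
  { toRSD := Rsd63.rsd_mul h.toRSD hG, pos0 := mul_pos h.pos0 h0, se := h.se.mul hT }
omit [IsAddTorsionFree L] in
theorem Cen.pin (h : Cen ρ) {L' : Type*} [AddCommGroup L'] (φ : L →+ L') :
    Cen fun s => ρ s * ind (φ s = 0) :=
  h.mul_rsd (Rsd63.rsd_ind φ) (by simp) (Tame.ind _)
omit [IsAddTorsionFree L] in
theorem Cen.mul_gq (h : Cen ρ) {ι : Type*} (T : Finset ι) (ℓ : ι → L →+ ℝ) :
    Cen fun s => ρ s * gq T ℓ s :=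
  h.mul_rsd (Rsd63.rsd_gq T ℓ) (gq_pos T ℓ 0) (Tame.gq T ℓ)
theorem Cen.loc_mul (h : Cen ρ) (hG : PD G) (h0 : ∀ s, 0 ≤ G s) (h1 : 0 < G 0) :
    Loc (fun s => ρ s * G s) ρ := (monoStmt L ρ h).1 G hG h0 h1
theorem Cen.loc_pin (h : Cen ρ) {L' : Type*} [AddCommGroup L'] (φ : L →+ L') :
    Loc (fun s => ρ s * ind (φ s = 0)) ρ :=
  h.loc_mul (pd_ind φ) (fun _ => ind_nonneg _) (by simp)
theorem Cen.loc_gq (h : Cen ρ) {ι : Type*} (T : Finset ι) (ℓ : ι → L →+ ℝ) :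
    Loc (fun s => ρ s * gq T ℓ s) ρ :=
  h.loc_mul (pd_gq T ℓ) (fun s => (gq_pos T ℓ s).le) (gq_pos T ℓ 0)
theorem Cen.M_gq_le (h : Cen ρ) {ι : Type} (T : Finset ι) (ℓ : ι → L →+ ℝ) (t : ι → ℝ)
    (f : L →+ ℝ) :
    M (fun s => ρ s * gq T ℓ s) (f + ∑ j ∈ T, t j • ℓ j) ≤ M ρ f + (∑ j ∈ T, t j ^ 2) / 2 :=
  (monoStmt L ρ h).2.2 ι T ℓ t f
/-- (P) in expectation form -/
theorem Cen.ex_mul_ge (h : Cen ρ) (hG : PD G) (hG' : PD G') :
    Ex ρ G * Ex ρ G' ≤ Ex ρ fun s => G s * G' s := by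
  have h1 := rsdPStmt L ρ G G' h.toRSD h.wt.summ hG hG'
  rw [h.wt.tsum_eq, h.wt.tsum_eq, h.wt.tsum_eq] at h1
  refine le_of_mul_le_mul_left (a := Zs ρ * Zs ρ) (le_trans (le_of_eq ?_) (h1.trans_eq ?_))
    (mul_pos h.wt.pos h.wt.pos) <;> ring
theorem Cen.cv_nonneg (h : Cen ρ) (hG : PD G) (hG' : PD G') : 0 ≤ Cv ρ G G' :=
  sub_nonneg.2 (h.ex_mul_ge hG hG')
theorem Cen.ex_pd_nonneg (h : Cen ρ) (hG : PD G) : 0 ≤ Ex ρ G := by
  have := rsdBStmt L Unit _ _ (C59.rsd_comp h.toRSD (AddMonoidHom.fst L Unit))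
    (hG.comp (AddMonoidHom.fst L Unit)) () 0 h.wt.summ (h.se 0)
  exact div_nonneg (nonneg_of_mul_nonneg_right ((mul_nonneg (abs_nonneg _) h.wt.pos.le).trans this)
    (h.wt_tilt 0).pos) h.wt.pos.le
/-- supermodularity of the partition function in PD factors -/
theorem RSD.zs_supermod (h : RSD ρ) (hs : Summable ρ) (hG : PD G) (hG' : PD G') :
    Zs (fun s => ρ s * G s) * Zs (fun s => ρ s * G' s) ≤ Zs ρ * Zs fun s => ρ s * (G s * G' s) :=
  rsdPStmt L ρ G G' h hs hG hG'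

end cen

section loc
variable {L : Type*} [AddCommGroup L] {ρ ρ' : L → ℝ}

theorem vr_le_of_M_le (h' : Wt ρ') (hs' : SE ρ') (h : Wt ρ) (hs : SE ρ) {f : L →+ ℝ}
    (hM : ∀ t : ℝ, M ρ' (t • f) ≤ M ρ (t • f)) : Vr ρ' f f ≤ Vr ρ f f :=
  C59.vr_le_of_sd h' hs' h hs f fun t => add_le_add (hM t) (by simpa only [neg_smul] using hM (-t))
theorem Loc.vr_le (hl : Loc ρ' ρ) (h' : Wt ρ') (hs' : SE ρ') (h : Wt ρ) (hs : SE ρ) (f : L →+ ℝ) :
    Vr ρ' f f ≤ Vr ρ f f := vr_le_of_M_le h' hs' h hs fun _ => hl.1 _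
theorem Loc.vr_le' (hl : Loc ρ' ρ) (h' : Cen ρ') (h : Cen ρ) (f : L →+ ℝ) :
    Vr ρ' f f ≤ Vr ρ f f := hl.vr_le h'.wt h'.se h.wt h.se f
theorem Loc.pr_zero (hl : Loc ρ' ρ) {L' : Type*} [AddCommGroup L'] (φ : L →+ L') :
    Pr ρ (fun s => φ s = 0) ≤ Pr ρ' fun s => φ s = 0 := hl.2 _ (pd_ind φ)
theorem Loc.ex_gq (hl : Loc ρ' ρ) {ι : Type*} (T : Finset ι) (ℓ : ι → L →+ ℝ) :
    Ex ρ (gq T ℓ) ≤ Ex ρ' (gq T ℓ) := hl.2 _ (pd_gq T ℓ)
theorem Loc.ph (hl : Loc ρ' ρ) (ξ : L →+ ℝ) : Ph ρ ξ ≤ Ph ρ' ξ := hl.2 _ (pd_cos ξ)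
theorem Loc.congr {σ σ' : L → ℝ} (hl : Loc ρ' ρ) (h' : ∀ s, σ' s = ρ' s) (h : ∀ s, σ s = ρ s) :
    Loc σ' σ := by rw [funext h, funext h']; exact hl
theorem M_congr {f g : L →+ ℝ} (h : ∀ s, ρ s ≠ 0 → f s = g s) : M ρ f = M ρ g :=
  congrArg Real.log (Ex_congr fun s hs => by rw [h s hs])
theorem Vr_congr {f g f' g' : L →+ ℝ} (h : ∀ s, ρ s ≠ 0 → f s = f' s)
    (h' : ∀ s, ρ s ≠ 0 → g s = g' s) : Vr ρ f g = Vr ρ f' g' := by
  unfold Vr Cv
  rw [Ex_congr h, Ex_congr h', Ex_congr fun s hs => show f s * g s = f' s * g' s by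
    rw [h s hs, h' s hs]]
/-- H4, general form: forces that vanish on the support of the more localised weight are free -/
theorem Loc.M_le_sub (hl : Loc ρ' ρ) (f : L →+ ℝ) {ν : L →+ ℝ} (hν : ∀ s, ρ' s ≠ 0 → ν s = 0) :
    M ρ' f ≤ M ρ (f - ν) :=
  (M_congr fun s hs => by rw [AddMonoidHom.sub_apply, hν s hs, sub_zero]).trans_le (hl.1 _)
theorem Loc.vr_le_sub (hl : Loc ρ' ρ) (h' : Cen ρ') (h : Cen ρ) (f : L →+ ℝ) {ν : L →+ ℝ}
    (hν : ∀ s, ρ' s ≠ 0 → ν s = 0) : Vr ρ' f f ≤ Vr ρ (f - ν) (f - ν) := by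
  have e : ∀ s, ρ' s ≠ 0 → f s = (f - ν) s := fun s hs => by
    rw [AddMonoidHom.sub_apply, hν s hs, sub_zero]
  exact (Vr_congr e e).trans_le (hl.vr_le' h' h _)

end loc

section pin
variable {L : Type} [AddCommGroup L] [IsAddTorsionFree L] {ρ : L → ℝ}
  {L' : Type*} [AddCommGroup L']

/-- H4 (regression bound) -/
theorem Cen.M_pin_le (h : Cen ρ) (φ : L →+ L') (f : L →+ ℝ) {ν : L →+ ℝ}
    (hν : ∀ s, φ s = 0 → ν s = 0) : M (fun s => ρ s * ind (φ s = 0)) f ≤ M ρ (f - ν) :=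
  (h.loc_pin φ).M_le_sub f fun s hs => hν s (ind_ne_zero.1 (right_ne_zero_of_mul hs))
theorem Cen.vr_pin_le (h : Cen ρ) (φ : L →+ L') (f : L →+ ℝ) {ν : L →+ ℝ}
    (hν : ∀ s, φ s = 0 → ν s = 0) :
    Vr (fun s => ρ s * ind (φ s = 0)) f f ≤ Vr ρ (f - ν) (f - ν) :=
  (h.loc_pin φ).vr_le_sub (h.pin φ) h f fun s hs => hν s (ind_ne_zero.1 (right_ne_zero_of_mul hs))

end pin

section coset
variable {L Q : Type} [AddCommGroup L] [AddCommGroup Q] [IsAddTorsionFree L] {ρ : L × Q → ℝ}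

omit [IsAddTorsionFree L] in
theorem RSD.sl_zero (h : RSD ρ) : RSD (sl ρ 0) := C59.rsd_comp h (AddMonoidHom.inl L Q)
omit [IsAddTorsionFree L] in
theorem RSD.cen_sl (h : RSD ρ) (hs : SE (sl ρ 0)) (h0 : 0 < ρ 0) : Cen (sl ρ 0) :=
  { toRSD := h.sl_zero, pos0 := h0, se := hs }

/-- (B) in expectation form -/
theorem RSD.abs_ex_le (h : RSD ρ) {G : L × Q → ℝ} (hG : PD G) {q : Q} {f : L →+ ℝ}
    (h0 : Wt (sl ρ 0)) (hq : Wt (tilt (sl ρ q) f)) :
    |Ex (tilt (sl ρ q) f) fun s => G (s, q)| ≤ Ex (sl ρ 0) fun s => G (s, 0) := by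
  rw [Ex_def, Ex_def, abs_div, abs_of_pos hq.pos, div_le_div_iff₀ hq.pos h0.pos, mul_comm _ (Zs _)]
  exact (mul_comm _ _).trans_le (rsdBStmt L Q ρ G h hG q f h0.summ hq.summ) |>.trans_eq
    (mul_comm _ _)

/-- the characteristic function on a coset, with a force, is at most the centred one -/
theorem RSD.norm_th_le (h : RSD ρ) (hs : ∀ q, SE (sl ρ q)) (h0 : 0 < ρ 0) (q : Q) (f ξ : L →+ ℝ) :
    ‖th (sl ρ q) f ξ‖ ≤ Zs (tilt (sl ρ q) f) * Ph (sl ρ 0) ξ := by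
  have hc := h.cen_sl (hs 0) h0
  have h1 := rsdCStmt L Q ρ h hs q 0 f 0 ξ 0
  have e : ∑' s, ρ (s, 0) * Real.cos (ξ s) = Zs (sl ρ 0) * Ph (sl ρ 0) ξ := hc.wt.tsum_eq _
  rw [add_zero, sub_zero, add_zero, sub_zero, add_zero, sub_zero, C59.th_zero, tilt_zero,
    Complex.norm_real, Real.norm_of_nonneg hc.wt.pos.le, e] at h1
  have h2 : 0 ≤ Zs (tilt (sl ρ q) f) := Zs_nonneg (tilt_nonneg (fun _ => h.nonneg _) f)
  refine (abs_le_of_sq_le_sq' ?_ (mul_nonneg h2 (hc.ph_pos ξ).le)).2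
  refine le_of_mul_le_mul_right (h1.trans_eq ?_) (pow_pos hc.wt.pos 2)
  ring

theorem RSD.abs_ex_cos_le (h : RSD ρ) (hs : ∀ q, SE (sl ρ q)) (h0 : 0 < ρ 0) {q : Q}
    (hq : 0 < Zs (sl ρ q)) (f ξ : L →+ ℝ) (θ : ℝ) :
    |Ex (tilt (sl ρ q) f) fun s => Real.cos (ξ s + θ)| ≤ Ph (sl ρ 0) ξ := by
  have hW : Wt (tilt (sl ρ q) f) := Wt.tilt ⟨fun _ => h.nonneg _, (hs q).summable, hq⟩ (hs q) f
  have h1 := h.norm_th_le hs h0 q f ξ
  have hc := hW.ig_bdd fun s => Real.abs_cos_le_one (ξ s)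
  have hn := hW.ig_bdd fun s => Real.abs_sin_le_one (ξ s)
  have e : (Ex (tilt (sl ρ q) f) fun s => Real.cos (ξ s + θ)) =
      (th (sl ρ q) f ξ * Complex.exp (θ * Complex.I)).re / Zs (tilt (sl ρ q) f) := by
    simp only [Real.cos_add]
    rw [Ex_sub (hc.mul_const _) (hn.mul_const _), Ex_mul_const, Ex_mul_const, Complex.mul_re,
      C59.re_th (W := sl ρ q) (fun _ => h.nonneg _) hW.summ,
      C59.im_th (W := sl ρ q) (fun _ => h.nonneg _) hW.summ,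
      Complex.exp_ofReal_mul_I_re, Complex.exp_ofReal_mul_I_im, Ex_def, Ex_def]
    ring
  rw [e, abs_div, abs_of_pos hW.pos, div_le_iff₀' hW.pos]
  refine (Complex.abs_re_le_norm _).trans ?_
  rwa [norm_mul, Complex.norm_exp_ofReal_mul_I, mul_one]

/-- H1, pointwise form -/
theorem RSD.zs_mid (h : RSD ρ) (hs : ∀ q, SE (sl ρ q)) (h0 : 0 < ρ 0) (q : Q) (f y : L →+ ℝ) :
    (Zs (tilt (sl ρ q) f) * Real.exp (M (sl ρ 0) y)) ^ 2 ≤
      Zs (tilt (sl ρ q) (f + y)) * Zs (tilt (sl ρ q) (f - y)) := by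
  have hc := h.cen_sl (hs 0) h0
  have h1 := rsdAStmt L Q ρ h hs q 0 f y
  rw [add_zero, sub_zero, hc.wt.Zs_tilt hc.se] at h1
  refine le_of_mul_le_mul_right (le_trans (le_of_eq ?_) h1) (pow_pos hc.wt.pos 2)
  ring

/-- H1 with boundary data and forces: total variation of the inner laws -/
theorem RSD.tv_push_le {P : Type} [AddCommGroup P] (h : RSD ρ) (hs : ∀ q, SE (sl ρ q))
    (π : L →+ P) (q q' : Q) (f y : L →+ ℝ) (hq : 0 < Zs (sl ρ q))
    (hq' : 0 < Zs fun s => ρ (s, q') * ind (π s = 0)) :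
    TV (push (tilt (sl ρ (q + q')) (f + y)) π) (push (tilt (sl ρ (q - q')) (f - y)) π) ^ 2 ≤
      Real.log (Zs (tilt (sl ρ (q + q')) (f + y))) + Real.log (Zs (tilt (sl ρ (q - q')) (f - y))) -
        2 * Real.log (Zs (tilt (sl ρ q) f)) -
        2 * Real.log (Zs (tilt (fun s => ρ (s, q') * ind (π s = 0)) y)) +
        2 * Real.log (Zs fun s => ρ (s, 0) * ind (π s = 0)) := by
  let φ : L × (Q × P) →+ L × Q := (AddMonoidHom.id L).prodMap (AddMonoidHom.fst Q P)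
  let ψ : L × (Q × P) →+ P := π.comp (AddMonoidHom.fst _ _) -
    (AddMonoidHom.snd Q P).comp (AddMonoidHom.snd _ _)
  let σ : L × (Q × P) → ℝ := fun p => ρ (p.1, p.2.1) * ind (π p.1 = p.2.2)
  have hσ : RSD σ := by
    have := Rsd63.rsd_mul (C59.rsd_comp h φ) (Rsd63.rsd_ind ψ)
    convert this using 2 with p
    simp [σ, φ, ψ, sub_eq_zero, Prod.map]
  have hσs : ∀ r, SE (sl σ r) := fun r => (hs r.1).mul (Tame.ind fun s => π s = r.2)
  have e : ∀ (r : Q) (g : L →+ ℝ) (a : P), push (tilt (sl ρ r) g) π a = Zs (tilt (sl σ (r, a)) g) :=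
    fun r g a => tsum_congr fun s => by simp only [tilt, sl, σ]; ring
  have hA : ∀ a : P, Zs (tilt (sl σ (q, a)) f) ^ 2 * Zs (tilt (sl σ (q', 0)) y) ^ 2 ≤
      push (tilt (sl ρ (q + q')) (f + y)) π a * push (tilt (sl ρ (q - q')) (f - y)) π a *
        Zs (sl σ 0) ^ 2 := fun a => by
    have := rsdAStmt L (Q × P) σ hσ hσs (q, a) (q', 0) f y
    rwa [Prod.mk_add_mk, Prod.mk_sub_mk, add_zero, sub_zero, ← e (q + q'), ← e (q - q')] at this
  have hWq : Wt (tilt (sl ρ q) f) := Wt.tilt ⟨fun _ => h.nonneg _, (hs q).summable, hq⟩ (hs q) f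
  have hW' : Wt (tilt (sl σ (q', 0)) y) :=
    Wt.tilt ⟨fun _ => hσ.nonneg _, (hσs _).summable, hq'⟩ (hσs _) y
  obtain ⟨a, ha⟩ := (hWq.push π).exists_pos
  have h1 : 0 < push (tilt (sl ρ (q + q')) (f + y)) π a * push (tilt (sl ρ (q - q')) (f - y)) π a *
      Zs (sl σ 0) ^ 2 := lt_of_lt_of_le (mul_pos (pow_pos (e q f a ▸ ha) 2) (pow_pos hW'.pos 2)) (hA a)
  have hn : ∀ r g b, 0 ≤ push (tilt (sl ρ r) g) π b := fun r g b =>
    tsum_nonneg fun s => mul_nonneg (ind_nonneg _) (tilt_nonneg (fun _ => h.nonneg _) g s)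
  have hp : ∀ r g, push (tilt (sl ρ r) g) π a ≠ 0 → Wt (push (tilt (sl ρ r) g) π) := fun r g hh =>
    Wt.of_pos (hn r g) (hasSum_push (hs r g) π).summable ((hn r g a).lt_of_ne' hh)
  have hZ : ∀ r g, Zs (push (tilt (sl ρ r) g) π) = Zs (tilt (sl ρ r) g) := fun r g =>
    (hasSum_push (hs r g) π).tsum_eq
  have h2 : 0 < Zs (sl σ 0) := (Zs_nonneg (W := sl σ 0) fun _ => hσ.nonneg _).lt_of_ne' fun hh => by
    rw [hh, zero_pow two_ne_zero, mul_zero] at h1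
    exact h1.false
  have h3 := tv_sq_le_log (hp _ _ (left_ne_zero_of_mul (left_ne_zero_of_mul h1.ne')))
    (hp _ _ (right_ne_zero_of_mul (left_ne_zero_of_mul h1.ne')))
    (R := fun b => Zs (tilt (sl σ (q', 0)) y) / Zs (sl σ 0) * push (tilt (sl ρ q) f) π b)
    ((hWq.push π).summ.mul_left _)
    (by rw [Zs_smul]; exact mul_pos (div_pos hW'.pos h2) (hWq.push π).pos) fun b => by
      rw [mul_pow, div_pow, div_mul_eq_mul_div, div_le_iff₀ (pow_pos h2 2), mul_comm, e q f b]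
      exact hA b
  rw [Zs_smul, hZ, hZ, hZ, Real.log_mul (div_pos hW'.pos h2).ne' hWq.ne,
    Real.log_div hW'.ne h2.ne'] at h3
  exact h3.trans_eq (by
    rw [show sl σ 0 = fun s => ρ (s, 0) * ind (π s = 0) from rfl,
      show sl σ (q', 0) = fun s => ρ (s, q') * ind (π s = 0) from rfl]
    ring)

end coset

/-- H1 (Hellinger form of the RSD inequality): forces `f ± y`, law of `π s` -/
theorem Cen.tv_push_le {L P : Type} [AddCommGroup L] [AddCommGroup P] [IsAddTorsionFree L]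
    {ρ : L → ℝ} (h : Cen ρ) (π : L →+ P) (f y : L →+ ℝ) :
    TV (push (tilt ρ (f + y)) π) (push (tilt ρ (f - y)) π) ^ 2 ≤
      M ρ (f + y) + M ρ (f - y) - 2 * M ρ f - 2 * M (fun s => ρ s * ind (π s = 0)) y := by
  have h1 := RSD.tv_push_le (ρ := fun p : L × Unit => ρ p.1)
    (C59.rsd_comp h.toRSD (AddMonoidHom.fst L Unit)) (fun _ => h.se) π () () f y h.wt.pos
    (h.pin π).wt.pos
  rw [h.wt.M_eq h.se, h.wt.M_eq h.se, h.wt.M_eq h.se, (h.pin π).wt.M_eq (h.pin π).se]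
  simp only [show ∀ u : Unit, sl (fun p : L × Unit => ρ p.1) u = ρ from fun _ => rfl] at h1
  linarith

/-- H1 in terms of `d` and the variances -/
theorem Cen.tv_push_le' {L P : Type} [AddCommGroup L] [AddCommGroup P] [IsAddTorsionFree L]
    {ρ : L → ℝ} (h : Cen ρ) (π : L →+ P) (f y : L →+ ℝ) :
    TV (push (tilt ρ (f + y)) π) (push (tilt ρ (f - y)) π) ^ 2 ≤
      dM ρ (f + y) + dM ρ (f - y) + (Vr ρ y y - Vr (fun s => ρ s * ind (π s = 0)) y y) := by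
  refine (h.tv_push_le π f y).trans ?_
  have h1 := h.vr_le_M f
  have h2 := (h.pin π).vr_le_M y
  simp only [dM, h.se.Vr_add_left, h.se.Vr_add_right, h.se.Vr_sub_left, h.se.Vr_sub_right]
  linarith

end Crest.Agent.T145
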