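import Crest.Agent.T145.Api_98

/-!
# Row 145 (helper59): second order Taylor calculus for exponential moments
-/

set_option autoImplicit false

namespace Crest.Agent.T145.C59

open Filter Topology Asymptotics

/-- `φ t = a + b t + c t² + O(t³)` -/
def Ty (φ : ℝ → ℝ) (a b c : ℝ) : Prop :=
  (fun t => φ t - (a + b * t + c * t ^ 2)) =O[𝓝 0] fun t : ℝ => t ^ 3

theorem bigO_one {p : ℝ → ℝ} (hp : Continuous p) : p =O[𝓝 0] fun _ => (1 : ℝ) :=
  (hp.tendsto 0).isBigO_one ℝ

variable {φ ψ : ℝ → ℝ} {a b c a' b' c' : ℝ}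

theorem Ty.congr (h : Ty φ a b c) (h1 : ∀ t, φ t = ψ t) (ha : a = a') (hb : b = b') (hc : c = c') :
    Ty ψ a' b' c' := by
  obtain rfl : φ = ψ := funext h1
  subst ha hb hc
  exact h

theorem Ty.sub (h : Ty φ a b c) (h' : Ty ψ a' b' c') :
    Ty (fun t => φ t - ψ t) (a - a') (b - b') (c - c') :=
  (IsBigO.sub h h').congr_left fun t => by ring

theorem Ty.add (h : Ty φ a b c) (h' : Ty ψ a' b' c') :
    Ty (fun t => φ t + ψ t) (a + a') (b + b') (c + c') :=
  (IsBigO.add h h').congr_left fun t => by ring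

theorem Ty.const (a : ℝ) : Ty (fun _ => a) a 0 0 :=
  (isBigO_zero _ _).congr_left fun t => by ring

theorem Ty.mul (h : Ty φ a b c) (h' : Ty ψ a' b' c') :
    Ty (fun t => φ t * ψ t) (a * a') (a * b' + b * a') (a * c' + b * b' + c * a') := by
  have h1 := IsBigO.mul h (h'.trans (bigO_one (by fun_prop)))
  have h2 := IsBigO.mul h (bigO_one (p := fun t => a' + b' * t + c' * t ^ 2) (by fun_prop))
  have h3 := IsBigO.mul h' (bigO_one (p := fun t => a + b * t + c * t ^ 2) (by fun_prop))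
  have h4 := IsBigO.mul (isBigO_refl (fun t : ℝ => t ^ 3) (𝓝 0))
    (bigO_one (p := fun t => b * c' + c * b' + c * c' * t) (by fun_prop))
  simp only [mul_one] at h1 h2 h3 h4
  exact (((h1.add h2).add h3).add h4).congr_left fun t => by ring

theorem Ty.neg_arg (h : Ty φ a b c) : Ty (fun t => φ (-t)) a (-b) c := by
  have h1 : Tendsto (fun t : ℝ => -t) (𝓝 0) (𝓝 0) := by
    simpa using (continuous_neg (G := ℝ)).tendsto 0
  have h2 := IsBigO.comp_tendsto h h1
  refine ((h2.congr_left fun t => ?_).congr_right (g₂ := fun t => -t ^ 3) fun t => ?_).of_neg_right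
  · simp only [Function.comp]; ring
  · simp only [Function.comp]; ring

theorem Ty.nonneg (h : Ty φ 0 0 c) (h0 : ∀ t, 0 ≤ φ t) : 0 ≤ c := by
  obtain ⟨C, hC⟩ := h.bound
  have h1 : ∀ᶠ t : ℝ in 𝓝[>] 0, -(C * t) ≤ c := by
    filter_upwards [nhdsWithin_le_nhds hC, self_mem_nhdsWithin] with t ht (ht0 : 0 < t)
    rw [Real.norm_eq_abs, Real.norm_eq_abs, abs_of_pos (pow_pos ht0 3)] at ht
    have h2 := (abs_le.1 ht).2
    have h3 := h0 t
    refine le_of_mul_le_mul_right (a := t ^ 2) ?_ (pow_pos ht0 2)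
    nlinarith
  have h2 : Tendsto (fun t : ℝ => -(C * t)) (𝓝[>] 0) (𝓝 (-(C * 0))) :=
    (Continuous.tendsto (by fun_prop) 0).mono_left nhdsWithin_le_nhds
  simpa using le_of_tendsto h2 h1

theorem Ty.le (h : Ty φ a b c) (h' : Ty ψ a b c') (h0 : ∀ t, φ t ≤ ψ t) : c ≤ c' :=
  sub_nonneg.1 (((h'.sub h).congr (fun _ => rfl) (sub_self _) (sub_self _) rfl).nonneg
    fun t => sub_nonneg.2 (h0 t))

theorem Ty.hasDerivAt (h : Ty φ a b c) (h0 : φ 0 = a) : HasDerivAt φ b 0 := by
  rw [hasDerivAt_iff_isLittleO_nhds_zero]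
  have h1 : (fun t : ℝ => t ^ 3) =o[𝓝 0] fun t => t := isLittleO_pow_id (by norm_num)
  have h2 : (fun t : ℝ => c * t ^ 2) =o[𝓝 0] fun t => t :=
    (isLittleO_pow_id (𝕜 := ℝ) (n := 2) (by norm_num)).const_mul_left c
  refine ((IsBigO.trans_isLittleO h h1).add h2).congr_left fun t => ?_
  simp only [zero_add, h0, smul_eq_mul]
  ring

theorem abs_exp_sub_le (x : ℝ) :
    |Real.exp x - (1 + x + x ^ 2 / 2)| ≤ |x| ^ 3 * Real.exp |x| := by
  have h := Complex.norm_exp_sub_sum_le_norm_mul_exp (x : ℂ) 3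
  simp only [Finset.sum_range_succ, Finset.sum_range_zero, Complex.norm_real,
    Real.norm_eq_abs] at h
  refine le_trans (le_of_eq ?_) h
  rw [← Real.norm_eq_abs, ← Complex.norm_real]
  congr 1
  simp [Nat.factorial]

theorem exp_abs_le (x : ℝ) : Real.exp |x| ≤ Real.exp x + Real.exp (-x) := by
  rcases abs_cases x with h | h <;> rw [h.1]
  · exact le_add_of_nonneg_right (Real.exp_pos _).le
  · exact le_add_of_nonneg_left (Real.exp_pos _).le

variable {L : Type*} [AddCommGroup L] {W H : L → ℝ}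

/-- `H` has all exponential moments for `W` -/
def Tm (W H : L → ℝ) : Prop := ∀ f : L →+ ℝ, Ig W fun s => H s * Real.exp (f s)

theorem tm_one (h : SE W) : Tm W fun _ => 1 := fun f => by simpa [Ig] using h f

theorem Tm.ig (h : Tm W H) : Ig W H := by simpa using h 0

theorem Tm.exp (h : Tm W H) (g : L →+ ℝ) : Tm W fun s => H s * Real.exp (g s) := fun f =>
  (h (g + f)).congr fun s _ => by rw [AddMonoidHom.add_apply, Real.exp_add, mul_assoc]

theorem Tm.abs (h0 : ∀ s, 0 ≤ W s) (h : Tm W H) : Tm W fun s => |H s| := fun f =>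
  ((h f).abs h0).congr fun s _ => by rw [abs_mul, abs_of_pos (Real.exp_pos _)]

theorem Tm.expAbs (h0 : ∀ s, 0 ≤ W s) (h : Tm W H) (g : L →+ ℝ) :
    Tm W fun s => H s * Real.exp |g s| := fun f => by
  refine Ig.of_abs_le h0 ((((h.abs h0).exp g) f).add (((h.abs h0).exp (-g)) f)) fun s _ => ?_
  rw [abs_mul, abs_mul, abs_of_pos (Real.exp_pos _), abs_of_pos (Real.exp_pos _), ← add_mul,
    ← mul_add]
  gcongr
  exact exp_abs_le _

theorem Tm.mul (h0 : ∀ s, 0 ≤ W s) (h : Tm W H) (g : L →+ ℝ) : Tm W fun s => H s * g s :=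
  fun f => by
  refine Ig.of_abs_le h0 (((h.abs h0).expAbs h0 g) f) fun s _ => ?_
  rw [abs_mul, abs_mul, abs_of_pos (Real.exp_pos _)]
  exact mul_le_mul_of_nonneg_right (mul_le_mul_of_nonneg_left
    (by linarith [Real.add_one_le_exp |g s|]) (abs_nonneg _)) (Real.exp_pos _).le

theorem Tm.congr {H' : L → ℝ} (h : Tm W H) (h1 : ∀ s, H s = H' s) : Tm W H' := by
  obtain rfl : H = H' := funext h1
  exact h

theorem tm_lin (h0 : ∀ s, 0 ≤ W s) (h : SE W) (g : L →+ ℝ) : Tm W fun s => g s :=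
  ((tm_one h).mul h0 g).congr fun _ => one_mul _

theorem tm_mul (h0 : ∀ s, 0 ≤ W s) (h : SE W) (f g : L →+ ℝ) : Tm W fun s => f s * g s :=
  (tm_lin h0 h f).mul h0 g

theorem Tm.ty (h0 : ∀ s, 0 ≤ W s) (h : Tm W H) (g : L →+ ℝ) :
    Ty (fun t => Ex W fun s => H s * Real.exp (t * g s)) (Ex W H) (Ex W fun s => H s * g s)
      ((Ex W fun s => H s * g s * g s) / 2) := by
  have h1 := h.mul h0 g
  have h2 := h1.mul h0 g
  have h3 := (((h2.mul h0 g).abs h0).expAbs h0 g).ig
  refine IsBigO.of_bound (Ex W fun s => |H s * g s * g s * g s| * Real.exp |g s|) ?_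
  filter_upwards [Metric.closedBall_mem_nhds (0 : ℝ) one_pos] with t ht
  have ht1 : |t| ≤ 1 := by simpa using ht
  have h4 : Ig W fun s => H s * Real.exp (t * g s) := h (t • g)
  have h5 := (h.ig.add (h1.ig.mul_const t)).add ((h2.ig.div_const 2).mul_const (t ^ 2))
  rw [← Ex_div_const, ← Ex_mul_const, ← Ex_mul_const, ← Ex_add h.ig (h1.ig.mul_const t),
    ← Ex_add (h.ig.add (h1.ig.mul_const t)) ((h2.ig.div_const 2).mul_const (t ^ 2)),
    ← Ex_sub h4 h5, Real.norm_eq_abs, Real.norm_eq_abs, ← Ex_mul_const]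
  refine (abs_Ex_le h0 (h4.sub h5)).trans (Ex_mono h0 ((h4.sub h5).abs h0) (h3.mul_const _)
    fun s => ?_)
  have e : H s * Real.exp (t * g s) - (H s + H s * g s * t + H s * g s * g s / 2 * t ^ 2) =
      H s * (Real.exp (t * g s) - (1 + t * g s + (t * g s) ^ 2 / 2)) := by ring
  have h6 : Real.exp |t * g s| ≤ Real.exp |g s| := by
    rw [Real.exp_le_exp, abs_mul]
    exact mul_le_of_le_one_left (abs_nonneg _) ht1
  rw [e, abs_mul]
  refine (mul_le_mul_of_nonneg_left ((abs_exp_sub_le _).trans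
    (mul_le_mul_of_nonneg_left h6 (by positivity))) (abs_nonneg _)).trans_eq ?_
  simp only [abs_mul, abs_pow]
  ring

theorem Tm.hasDerivAt (h0 : ∀ s, 0 ≤ W s) (h : Tm W H) (g : L →+ ℝ) (t : ℝ) :
    HasDerivAt (fun t => Ex W fun s => H s * Real.exp (t * g s))
      (Ex W fun s => H s * g s * Real.exp (t * g s)) t := by
  have h1 := ((h.exp (t • g)).ty h0 g).hasDerivAt (by simp)
  rw [← sub_self t] at h1
  have h2 := h1.comp_sub_const t t
  have e1 : (fun x => Ex W fun s => H s * Real.exp ((t • g) s) * Real.exp ((x - t) * g s)) =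
      fun t => Ex W fun s => H s * Real.exp (t * g s) := by
    funext u
    congr 1
    funext s
    rw [AddMonoidHom.smul_apply, smul_eq_mul, mul_assoc, ← Real.exp_add]
    congr 2
    ring
  have e2 : (fun s => H s * Real.exp ((t • g) s) * g s) =
      fun s => H s * g s * Real.exp (t * g s) := by
    funext s
    rw [AddMonoidHom.smul_apply, smul_eq_mul]
    ring
  rwa [e1, e2] at h2

/-- the symmetric second difference of the moment generating function -/
theorem ty_sd (hW : Wt W) (h : SE W) (g : L →+ ℝ) :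
    Ty (fun t => Real.exp (M W (t • g) + M W (-(t • g)))) 1 0 (Vr W g g) := by
  have h1 := (tm_one h).ty hW.nonneg g
  refine (h1.mul h1.neg_arg).congr (fun t => ?_) ?_ ?_ ?_
  · rw [Real.exp_add, M, M, Real.exp_log (hW.ex_pos' (h _) fun _ => Real.exp_pos _),
      Real.exp_log (hW.ex_pos' (h _) fun _ => Real.exp_pos _)]
    simp
  · simp [hW.ex_const]
  · simp [hW.ex_const]
  · simp only [hW.ex_const, Vr, Cv, one_mul]
    ring

theorem vr_le_of_sd {W' : L → ℝ} (hW : Wt W) (h : SE W) (hW' : Wt W') (h' : SE W') (g : L →+ ℝ)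
    (hM : ∀ t : ℝ, M W (t • g) + M W (-(t • g)) ≤ M W' (t • g) + M W' (-(t • g))) :
    Vr W g g ≤ Vr W' g g :=
  (ty_sd hW h g).le (ty_sd hW' h' g) fun t => Real.exp_le_exp.2 (hM t)

end Crest.Agent.T145.C59
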