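import Crest.Agent.T145.Mix_53
import Crest.Agent.T145.MdlC_73
import Crest.Agent.T145.Rsd_63
import Crest.Agent.T145.CorA_59

/-!
# Row 145: shortening localises (`shortStmt`); comparison of the rest model with Dirichlet models
(helper53)
-/

set_option autoImplicit false
set_option linter.unusedVariables false

namespace Crest.Agent.T145.Mix53

open Finset

section grp
variable {L : Type*} [AddCommGroup L] {W W' : L → ℝ}

theorem hasSum_ext {α β : Type*} {ρ : α × β → ℝ} {W : α → ℝ} (h0 : ∀ p, 0 ≤ ρ p)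
    (hW : ∀ a, HasSum (fun b => ρ (a, b)) (W a)) {F : α → ℝ} (hF : Ig W F) :
    HasSum (fun p => ρ p * F p.1) (∑' a, W a * F a) := by
  have hW0 : ∀ a, 0 ≤ W a := fun a => (hW a).nonneg fun b => h0 _
  have h1 : Summable fun p : α × β => ρ p * |F p.1| := by
    have k : ∀ a, HasSum (fun b => ρ (a, b) * |F a|) (W a * |F a|) := fun a => (hW a).mul_right _
    have k2 : Summable fun a => ∑' b, ρ (a, b) * |F a| := by
      simp only [fun a => (k a).tsum_eq]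
      exact hF.abs hW0
    have k3 : (0 : α × β → ℝ) ≤ fun p : α × β => ρ p * |F p.1| :=
      fun p => mul_nonneg (h0 p) (abs_nonneg _)
    rw [summable_prod_of_nonneg k3]
    exact ⟨fun a => (k a).summable, k2⟩
  have h2 : Summable fun p : α × β => ρ p * F p.1 :=
    Summable.of_norm_bounded h1 fun p => by rw [Real.norm_eq_abs, abs_mul, abs_of_nonneg (h0 p)]
  have k : ∀ a, HasSum (fun b => (fun p : α × β => ρ p * F p.1) (a, b)) (W a * F a) :=
    fun a => (hW a).mul_right _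
  rw [(h2.hasSum.prod_fiberwise k).tsum_eq]
  exact h2.hasSum

theorem loc_of_ineq (hW : Wt W) (hs : SE W) (hW' : Wt W') (hs' : SE W')
    (h1 : ∀ f : L →+ ℝ, Zs (tilt W' f) * Zs W ≤ Zs (tilt W f) * Zs W')
    (h2 : ∀ G : L → ℝ, PD G → (∑' s, W s * G s) * Zs W' ≤ Zs W * ∑' s, W' s * G s) : Loc W' W := by
  refine ⟨fun f => Real.log_le_log (hW'.ex_exp_pos hs' f) ?_, fun G hG => ?_⟩
  · rw [Ex_exp_eq, Ex_exp_eq, div_le_div_iff₀ hW'.pos hW.pos]; exact h1 f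
  · rw [Ex_def, Ex_def, div_le_div_iff₀ hW.pos hW'.pos, mul_comm _ (Zs W)]; exact h2 G hG

/-- a nonnegative PD factor on an RSD extension localises the marginal -/
theorem loc_ext {Q : Type*} [AddCommGroup Q] [IsAddTorsionFree (L × Q)] {ρ G₀ : L × Q → ℝ}
    (hρ : RSD ρ) (hG : PD G₀) (hG0 : ∀ p, 0 ≤ G₀ p) (hW : ∀ s, HasSum (fun q => ρ (s, q)) (W s))
    (hW' : ∀ s, HasSum (fun q => ρ (s, q) * G₀ (s, q)) (W' s)) (hs : SE W) {a : L}
    (ha : 0 < W' a) : Wt W' ∧ SE W' ∧ Loc W' W := by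
  have n : ∀ s, 0 ≤ W s := fun s => (hW s).nonneg fun q => hρ.nonneg _
  have n0 : ∀ p, 0 ≤ ρ p * G₀ p := fun p => mul_nonneg (hρ.nonneg p) (hG0 p)
  have n' : ∀ s, 0 ≤ W' s := fun s => (hW' s).nonneg fun q => n0 _
  have hle : ∀ s, W' s ≤ G₀ 0 * W s := fun s =>
    hasSum_le (fun q => by rw [mul_comm]; exact mul_le_mul_of_nonneg_right (hG.le _) (hρ.nonneg _))
      (hW' s) ((hW s).mul_left (G₀ 0))
  have hs' : SE W' := hs.of_le (C := G₀ 0) fun s => by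
    rw [abs_of_nonneg (n s), abs_of_nonneg (n' s)]; exact hle s
  have w' : Wt W' := Wt.of_pos n' hs'.summable ha
  have w : Wt W := Wt.of_pos n hs.summable (a := a)
    (pos_of_mul_pos_right (ha.trans_le (hle a)) hG.nonneg0)
  have z : HasSum ρ (Zs W) := by
    simpa only [mul_one, Zs] using hasSum_ext hρ.nonneg hW (w.ig_const 1)
  have z' : HasSum (fun p => ρ p * G₀ p) (Zs W') := by
    simpa only [mul_one, Zs] using hasSum_ext n0 hW' (w'.ig_const 1)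
  have r := Md.rsd_comp hρ (AddMonoidHom.fst (L × Q) Unit)
  refine ⟨w', hs', loc_of_ineq w hs w' hs' (fun f => ?_) fun G hG' => ?_⟩
  · have t : HasSum (tilt ρ (f.comp (AddMonoidHom.fst L Q))) (Zs (tilt W f)) :=
      hasSum_ext hρ.nonneg hW (hs f)
    have t' : HasSum (fun p => tilt ρ (f.comp (AddMonoidHom.fst L Q)) p * G₀ p) (Zs (tilt W' f)) := by
      refine Bes66.hs_congr (hasSum_ext n0 hW' (hs' f)) (fun p => ?_) rfl
      simp only [tilt, AddMonoidHom.comp_apply, AddMonoidHom.coe_fst]; ring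
    have key : |(∑' p, tilt ρ (f.comp (AddMonoidHom.fst L Q)) p * G₀ p) * ∑' p, ρ p * 1| ≤
        Zs (tilt ρ (f.comp (AddMonoidHom.fst L Q))) * ∑' p, ρ p * (G₀ p * 1) :=
      Rsd63.rsd_bp r (hG.comp (AddMonoidHom.fst (L × Q) Unit)) pd_one ()
        (f.comp (AddMonoidHom.fst L Q)) z.summable t.summable
    simp only [mul_one] at key
    rw [t'.tsum_eq, z.tsum_eq, z'.tsum_eq, show Zs (tilt ρ _) = _ from t.tsum_eq] at key
    exact (le_abs_self _).trans key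
  · have e : tilt ρ 0 = ρ := funext fun s => by simp [tilt]
    have g := hasSum_ext hρ.nonneg hW (w.ig_bdd hG'.abs_le)
    have g' : HasSum (fun p => ρ p * (G p.1 * G₀ p)) (∑' s, W' s * G s) := by
      refine Bes66.hs_congr (hasSum_ext n0 hW' (w'.ig_bdd hG'.abs_le)) (fun p => ?_) rfl
      ring
    have key : |(∑' p, tilt ρ 0 p * G p.1) * ∑' p, ρ p * G₀ p| ≤
        Zs (tilt ρ 0) * ∑' p, ρ p * (G p.1 * G₀ p) :=
      Rsd63.rsd_bp r ((hG'.comp (AddMonoidHom.fst L Q)).comp (AddMonoidHom.fst (L × Q) Unit)) hG ()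
        0 z.summable (by rw [← e] at z; exact z.summable)
    rw [e, g.tsum_eq, z'.tsum_eq, g'.tsum_eq, show Zs ρ = _ from z.tsum_eq] at key
    exact (le_abs_self _).trans key

/-- a nonnegative PD factor localises (universe polymorphic form of `monoStmt.1`) -/
theorem loc_mul [IsAddTorsionFree L] {ρ G : L → ℝ} (hρ : RSD ρ) (hs : SE ρ) (hG : PD G)
    (hG0 : ∀ s, 0 ≤ G s) {a : L} (ha : 0 < ρ a * G a) :
    Wt (fun s => ρ s * G s) ∧ SE (fun s => ρ s * G s) ∧ Loc (fun s => ρ s * G s) ρ :=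
  loc_ext (Q := Unit) (Md.rsd_comp hρ (AddMonoidHom.fst L Unit))
    (hG.comp (AddMonoidHom.fst L Unit)) (fun p => hG0 _) (fun s => hasSum_unique _)
    (fun s => hasSum_unique _) hs ha

theorem loc_smul_left (h : Loc W' W) {c : ℝ} (hc : c ≠ 0) : Loc (fun s => c * W' s) W :=
  ⟨fun f => by rw [M_smul _ hc]; exact h.1 f, fun G hG => by rw [Ex_smul _ _ hc]; exact h.2 G hG⟩

theorem loc_smul_right (h : Loc W' W) {c : ℝ} (hc : c ≠ 0) : Loc W' fun s => c * W s :=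
  ⟨fun f => by rw [M_smul _ hc]; exact h.1 f, fun G hG => by rw [Ex_smul _ _ hc]; exact h.2 G hG⟩

theorem loc_vr (h : Loc W' W) (hW' : Wt W') (hs' : SE W') (hW : Wt W) (hs : SE W) (f : L →+ ℝ) :
    Vr W' f f ≤ Vr W f f :=
  C59.vr_le_of_sd hW' hs' hW hs f fun t => add_le_add (h.1 _) (h.1 _)

theorem loc_ph (h : Loc W' W) (ξ : L →+ ℝ) : Ph W ξ ≤ Ph W' ξ := h.2 _ (pd_cos ξ)

/-- `Loc` passes to the cone, on the left -/
theorem cone_loc_left {P : (L → ℝ) → Prop} (h : InCone P W') (hW' : Wt W') (hs' : SE W')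
    (hW : Wt W) (hs : SE W) (hP : ∀ U, P U → Wt U ∧ SE U ∧ Loc U W) : Loc W' W := by
  refine ⟨fun f => Real.exp_le_exp.1 ?_, fun G hG => ?_⟩
  · rw [hW'.exp_M hs']
    refine cone_ex_le h hW' (hs' f) fun U hU => ?_
    obtain ⟨h1, h2, h3⟩ := hP U hU
    exact ⟨h1, h2 f, by rw [← h1.exp_M h2]; exact Real.exp_le_exp.2 (h3.1 f)⟩
  · refine cone_le_ex h hW' (hW'.ig_bdd hG.abs_le) fun U hU => ?_
    obtain ⟨h1, h2, h3⟩ := hP U hU
    exact ⟨h1, h1.ig_bdd hG.abs_le, h3.2 G hG⟩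

/-- `Loc` passes to the cone, on the right -/
theorem cone_loc_right {P : (L → ℝ) → Prop} (h : InCone P W') (hW' : Wt W') (hs' : SE W')
    (hW : Wt W) (hs : SE W) (hP : ∀ U, P U → Wt U ∧ SE U ∧ Loc W U) : Loc W W' := by
  refine ⟨fun f => Real.exp_le_exp.1 ?_, fun G hG => ?_⟩
  · rw [hW'.exp_M hs']
    refine cone_le_ex h hW' (hs' f) fun U hU => ?_
    obtain ⟨h1, h2, h3⟩ := hP U hU
    exact ⟨h1, h2 f, by rw [← h1.exp_M h2]; exact Real.exp_le_exp.2 (h3.1 f)⟩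
  · refine cone_ex_le h hW' (hW'.ig_bdd hG.abs_le) fun U hU => ?_
    obtain ⟨h1, h2, h3⟩ := hP U hU
    exact ⟨h1, h1.ig_bdd hG.abs_le, h3.2 G hG⟩

theorem short_le {u w : ℤ → ℝ} (h : Short u w) (k : ℤ) : u k ≤ w k := by
  obtain ⟨xy, τ', τ, h1, h2, rfl, rfl⟩ := h
  cases xy
  · refine Real.exp_le_exp.2 ?_
    rw [neg_div, neg_div, neg_le_neg_iff]
    exact div_le_div_of_nonneg_left (sq_nonneg _) (by positivity) (by linarith)
  · exact Bes66.bes_mono k h1.le h2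

theorem fam_rsd {w : ℤ → ℝ} (h : Fam w) : RSD w := (kerStmt w h).cen.toRSD

theorem short_loc [IsAddTorsionFree L] {ρ : L → ℝ} (d : L →+ ℤ) {u w : ℤ → ℝ} (hρ : RSD ρ)
    (h : Short u w) (hs : SE fun s => ρ s * w (d s)) {a : L} (ha : 0 < ρ a) :
    Loc (fun s => ρ s * u (d s)) fun s => ρ s * w (d s) := by
  have hw := h.right
  have hu := h.left
  obtain ⟨xy, τ', τ, h1, h2, rfl, rfl⟩ := h
  have hτ := h1.trans_le h2
  cases xy
  · set ℓ : Unit → L →+ ℝ := fun _ => Real.sqrt (1 / τ' - 1 / τ) • (Int.castAddHom ℝ).comp d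
    have e : ∀ s, ρ s * kern false τ' (d s) = ρ s * kern false τ (d s) * gq univ ℓ s := by
      intro s
      have h3 : 0 ≤ 1 / τ' - 1 / τ := sub_nonneg.2 (one_div_le_one_div_of_le h1 h2)
      simp only [kern, Bool.false_eq_true, if_false, gau, gq, ℓ, mul_assoc, ← Real.exp_add,
        univ_unique, sum_singleton, AddMonoidHom.smul_apply, AddMonoidHom.comp_apply,
        Int.coe_castAddHom, smul_eq_mul, mul_pow, Real.sq_sqrt h3]
      congr 2
      field_simp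
      ring
    simp only [e]
    exact (loc_mul (Md.rsd_mul hρ (Md.rsd_comp (fam_rsd hw) d)) hs (pd_gq univ ℓ)
      (fun s => (gq_pos _ _ s).le) (a := a)
      (mul_pos (mul_pos ha (fam_pos hw _)) (gq_pos _ _ a))).2.2
  · rcases h2.eq_or_lt with rfl | h2
    · exact Loc.refl _
    have hδ : 0 < τ - τ' := sub_pos.2 h2
    have r : RSD fun p : L × ℤ => ρ p.1 * (bes (τ - τ') p.2 * bes τ' (d p.1 - p.2)) :=
      Md.rsd_mul (Md.rsd_comp hρ (AddMonoidHom.fst L ℤ)) (Md.rsd_mul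
        (Md.rsd_comp (Bes66.isKer_bes hδ).cen.toRSD (AddMonoidHom.snd L ℤ))
        (Md.rsd_comp (Bes66.isKer_bes h1).cen.toRSD
          (d.comp (AddMonoidHom.fst L ℤ) - AddMonoidHom.snd L ℤ)))
    have h3 := loc_ext r (pd_ind (AddMonoidHom.snd L ℤ)) (fun p => ind_nonneg _)
      (W := fun s => ρ s * kern true τ (d s))
      (W' := fun s => bes (τ - τ') 0 * (ρ s * kern true τ' (d s)))
      (fun s => by
        have := ((besStmt _ hδ).2.2.2 τ' h1 (d s)).mul_left (ρ s)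
        rwa [sub_add_cancel] at this)
      (fun s => by
        refine Bes66.hs_congr (hasSum_single (f := fun q : ℤ =>
          ρ s * (bes (τ - τ') q * bes τ' (d s - q)) * ind (q = 0)) 0
          fun q hq => by rw [ind_neg hq, mul_zero]) (fun q => rfl) ?_
        simp only [kern, if_true, sub_zero, ind_true]
        ring)
      hs (a := a) (mul_pos (Bes66.bes_pos hδ 0) (mul_pos ha (fam_pos hu _)))
    have h4 := loc_smul_left h3.2.2 (inv_ne_zero (Bes66.bes_pos hδ 0).ne')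
    simpa only [← mul_assoc, inv_mul_cancel₀ (Bes66.bes_pos hδ 0).ne', one_mul] using h4

/-- shortening finitely many edges -/
theorem short_loc_prod [IsAddTorsionFree L] {ι : Type*} (E : Finset ι) (d : ι → L →+ ℤ)
    {u w : ι → ℤ → ℝ} (h : ∀ e ∈ E, Short (u e) (w e)) {ρ : L → ℝ} (hρ : RSD ρ)
    (hs : SE fun s => ρ s * ∏ e ∈ E, w e (d e s)) {a : L} (ha : 0 < ρ a) :
    Loc (fun s => ρ s * ∏ e ∈ E, u e (d e s)) fun s => ρ s * ∏ e ∈ E, w e (d e s) := by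
  classical
  induction E using Finset.induction_on generalizing ρ with
  | empty => simpa using Loc.refl _
  | insert e₀ E he ih =>
    have h0 := h e₀ (mem_insert_self _ _)
    have h1 : ∀ e ∈ E, Short (u e) (w e) := fun e h' => h e (mem_insert_of_mem h')
    simp only [prod_insert he, ← mul_assoc] at hs ⊢
    have h2 := ih h1 (Md.rsd_mul hρ (Md.rsd_comp (fam_rsd h0.right) (d e₀))) hs
      (mul_pos ha (fam_pos h0.right _))
    refine Loc.trans ?_ h2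
    simp only [mul_right_comm _ _ (∏ e ∈ E, u e (d e _))]
    refine short_loc (d e₀) (Md.rsd_mul hρ (Md.rsd_prod fun e h' =>
      Md.rsd_comp (fam_rsd (h1 e h').left) (d e))) h0 (hs.of_le (C := 1) fun s => ?_) (a := a)
      (mul_pos ha (prod_pos fun e h' => fam_pos (h1 e h').left _))
    rw [one_mul, mul_right_comm, abs_mul, abs_mul _ (∏ e ∈ E, w e (d e s)),
      abs_of_nonneg (prod_nonneg fun e h' => (h1 e h').left.nonneg _),
      abs_of_nonneg (prod_nonneg fun e h' => (h1 e h').right.nonneg _)]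
    exact mul_le_mul_of_nonneg_left
      (prod_le_prod (fun e h' => (h1 e h').left.nonneg _) fun e h' => short_le (h1 e h') _)
      (abs_nonneg _)

end grp

section mdl
variable {V : Type*} [DecidableEq V] {m m' : Mdl V} {C : Finset V}

omit [DecidableEq V] in
theorem free_ctr (h : m.Ctr) {A' : Finset V} (hA : A' ⊆ m.A) : (m.free A').Ctr :=
  ⟨h.1, fun x hx => h.2 x (hA hx)⟩

omit [DecidableEq V] in
theorem free_anch (h : m.Anch) {A' : Finset V} (hA : A' ⊆ m.A) : (m.free A').Anch := fun x hx => by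
  obtain ⟨y, h1, h2⟩ := h x (hA hx)
  exact ⟨y, h1, h2.imp (fun h3 h4 => h3 (hA h4)) id⟩

theorem shr_ctr (h : m.Ctr) (hs : m.Shr C m') : m'.Ctr :=
  ⟨shr_fm hs, fun x hx => by
    rw [hs.2.2.1]; rw [hs.1] at hx; exact h.2 x (mem_sdiff.1 hx).1⟩

theorem shr_anch (h : (m.free (m.A \ C)).Anch) (hs : m.Shr C m') : m'.Anch := fun x hx => by
  rw [hs.1] at hx ⊢
  rw [hs.2.1, hs.2.2.1]
  exact h x hx

/-- shortening edges of a model localises -/
theorem short_mdl_loc (h : m.Ctr) (hA : m.Anch) (h1 : m'.A = m.A) (h2 : m'.ed = m.ed)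
    (h3 : m'.site = m.site) (h4 : ∀ e ∈ m.ed, Short (m'.w e) (m.w e)) : Loc (m'.W 0) (m.W 0) := by
  have hk : (m.keep ∅).Ctr := ⟨fun e he => absurd he (notMem_empty e), h.2⟩
  have e1 : m.W 0 = fun s => (m.keep ∅).W 0 s * ∏ e ∈ m.ed, m.w e (dH e s) := funext fun s => by
    simp only [Mdl.W, Mdl.keep, prod_empty, dH_apply]; ring
  have e2 : m'.W 0 = fun s => (m.keep ∅).W 0 s * ∏ e ∈ m.ed, m'.w e (dH e s) := funext fun s => by
    simp only [Mdl.W, Mdl.keep, prod_empty, dH_apply, h1, h2, h3]; ring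
  have hs := Md.ctr_se h hA 0
  rw [e1] at hs
  rw [e1, e2]
  exact short_loc_prod m.ed dH h4 (Md.ctr_rsd0 hk) hs (Md.W_pos hk.1 (s := 0) (fun _ _ => rfl)
    fun x hx => (h.2 x hx).2.2)

theorem shr_loc (h : m.Ctr) (hA : (m.free (m.A \ C)).Anch) (hs : m.Shr C m') :
    Loc (m'.W 0) ((m.free (m.A \ C)).W 0) :=
  short_mdl_loc (free_ctr h sdiff_subset) hA hs.1 hs.2.1 hs.2.2.1 fun e he => (hs.2.2.2 e he).1

/-- pinning localises -/
theorem pin_loc (h : m.Ctr) (hA : m.Anch) {A' : Finset V} (hA' : A' ⊆ m.A) :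
    Loc ((m.free A').W 0) (m.W 0) := by
  have hK : 0 < ∏ x ∈ m.A \ A', m.site x ((0 : Cfg V) x) :=
    prod_pos fun x hx => (h.2 x (mem_sdiff.1 hx).1).2.2
  have hG : PD fun s : Cfg V => ind (∀ x, x ∉ A' → s x = (0 : Cfg V) x) := by
    have := pd_ind (Finsupp.filterAddHom (M := ℤ) fun x => x ∉ A')
    refine PSD.congr this fun a b => ind_congr ?_
    exact (Finsupp.filter_eq_zero_iff _ _).symm
  have c := Md.ctr_cen h hA
  have h1 := (loc_mul c.toRSD c.se hG (fun s => ind_nonneg _) (a := 0)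
    (by rw [ind_pos fun _ _ => rfl, mul_one]; exact c.pos0)).2.2
  have h2 := loc_smul_left h1 (inv_ne_zero hK.ne')
  simp only [mul_comm (m.W 0 _), Md.W_free hA' (t := 0) (fun _ _ => rfl), ← mul_assoc,
    inv_mul_cancel₀ hK.ne', one_mul] at h2
  exact h2

/-- the rest model is dominated by the Dirichlet model -/
theorem rest_W_le (hF : m.Fm) (hN : m.Nn) (h : ℤ) (ζ : Cfg V) {η : Cfg V} (hη : ∀ x ∈ C, η x = h) :
    ∃ K : ℝ, 0 < K ∧ ∀ s, (m.rest h C ζ).W η s ≤ K * (m.free (m.A \ C)).W η s := by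
  set K : ℝ := ∏ e ∈ em m C \ eb m C, m.w e (dE e η) with hK
  have hK0 : 0 < K := prod_pos fun e he => fam_pos (hF e (mem_filter.1 (mem_sdiff.1 he).1).1) _
  refine ⟨K⁻¹, inv_pos.2 hK0, fun s => ?_⟩
  by_cases hs : ∀ x, x ∉ m.A \ C → s x = η x
  swap
  · have e1 : (m.rest h C ζ).W η s = 0 := by
      rw [Mdl.W, show (m.rest h C ζ).A = m.A \ C from rfl, ind_neg hs, zero_mul, zero_mul]
    have e2 : (m.free (m.A \ C)).W η s = 0 := by
      rw [Mdl.W, show (m.free (m.A \ C)).A = m.A \ C from rfl, ind_neg hs, zero_mul, zero_mul]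
    rw [e1, e2, mul_zero]
  have hC : ∀ x ∈ C, s x = h := fun x hx => by
    rw [hs x fun h' => (mem_sdiff.1 h').2 hx, hη x hx]
  have e1 : ∏ e ∈ em m C \ eb m C, m.w e (dE e s) = K := by
    refine prod_congr rfl fun e he => ?_
    obtain ⟨h1, h2⟩ := mem_sdiff.1 he
    obtain ⟨h3, h4⟩ := mem_filter.1 h1
    have h5 : e.1 ∉ m.A \ C ∧ e.2 ∉ m.A \ C := by
      simp only [eb, mem_filter, h3, true_and, not_or, not_and] at h2
      by_cases c1 : e.1 ∈ C
      · exact ⟨fun h' => (mem_sdiff.1 h').2 c1, h2.1 c1⟩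
      · have c2 : e.2 ∈ C := by
          by_contra c2; exact h4 ⟨c1, c2⟩
        exact ⟨h2.2 c2, fun h' => (mem_sdiff.1 h').2 c2⟩
    simp only [dE, hs _ h5.1, hs _ h5.2]
  have e2 : ∏ e ∈ eb m C, m.w e (|ζ (if e.1 ∈ C then e.1 else e.2) - h| +
      |s (if e.1 ∈ C then e.2 else e.1) - h|) ≤ ∏ e ∈ eb m C, m.w e (dE e s) := by
    refine prod_le_prod (fun e he => (hF e (mem_filter.1 he).1).nonneg _) fun e he => ?_
    refine (kerStmt _ (hF e (mem_filter.1 he).1)).anti ?_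
    rw [abs_of_nonneg (a := _ + _) (by positivity)]
    refine le_trans (le_of_eq ?_) (le_add_of_nonneg_left (abs_nonneg _))
    by_cases c1 : e.1 ∈ C
    · rw [if_pos c1, dE, hC _ c1]
    · have c2 : e.2 ∈ C := by
        by_contra c2; exact (mem_filter.1 (eb_subset m C he)).2 ⟨c1, c2⟩
      rw [if_neg c1, dE, hC _ c2, abs_sub_comm]
  rw [Mdl.W_of_eq _ hs, Mdl.W_of_eq _ hs]
  change (∏ e ∈ eo m C, m.w e (dE e s)) * ∏ y ∈ m.A \ C, (m.rest h C ζ).site y (s y) ≤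
    K⁻¹ * ((∏ e ∈ m.ed, m.w e (dE e s)) * ∏ y ∈ m.A \ C, m.site y (s y))
  rw [rest_site', prod_ed m C, ← prod_sdiff (eb_subset m C), e1]
  have p1 : 0 ≤ ∏ e ∈ eo m C, m.w e (dE e s) :=
    prod_nonneg fun e he => (hF e (mem_filter.1 he).1).nonneg _
  have p2 : 0 ≤ ∏ y ∈ m.A \ C, m.site y (s y) :=
    prod_nonneg fun y hy => hN y (mem_sdiff.1 hy).1 _
  refine (mul_le_mul_of_nonneg_left (mul_le_mul_of_nonneg_left e2 p2) p1).trans_eq ?_
  field_simp

theorem rest_fm (hF : m.Fm) (h : ℤ) (C : Finset V) (ζ : Cfg V) : (m.rest h C ζ).Fm :=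
  fun e he => hF e (mem_filter.1 he).1

theorem rest_nn (hF : m.Fm) (hN : m.Nn) (h : ℤ) (C : Finset V) (ζ : Cfg V) : (m.rest h C ζ).Nn :=
  fun y hy k => mul_nonneg (mul_nonneg (hN y (mem_sdiff.1 hy).1 k)
    (prod_nonneg fun e he => (hF e (mem_filter.1 he).1).nonneg _))
    (prod_nonneg fun e he => (hF e (mem_filter.1 he).1).nonneg _)

theorem rest_ev (hF : m.Fm) (hN : m.Ev) (C : Finset V) (ζ : Cfg V) : (m.rest 0 C ζ).Ev :=
  fun y hy k => ⟨rest_nn hF hN.nn 0 C ζ y hy k, by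
    simp only [Mdl.rest, sub_zero, abs_neg, (hN y (mem_sdiff.1 hy).1 k).2]⟩

theorem rest_site_pos (hF : m.Fm) (h : ℤ) (C : Finset V) (ζ : Cfg V) {y : V} {k : ℤ}
    (hy : 0 < m.site y k) : 0 < (m.rest h C ζ).site y k :=
  mul_pos (mul_pos hy (prod_pos fun e he => fam_pos (hF e (mem_filter.1 he).1) _))
    (prod_pos fun e he => fam_pos (hF e (mem_filter.1 he).1) _)

theorem rest_se (hF : m.Fm) (hN : m.Nn) (h : ℤ) (ζ : Cfg V) {η : Cfg V} (hη : ∀ x ∈ C, η x = h)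
    (hs : SE ((m.free (m.A \ C)).W η)) : SE ((m.rest h C ζ).W η) := by
  obtain ⟨K, hK, hle⟩ := rest_W_le hF hN h ζ hη
  refine hs.of_le (C := K) fun s => ?_
  rw [abs_of_nonneg ((rest_fm hF h C ζ).W_nonneg (rest_nn hF hN h C ζ) η s)]
  exact (hle s).trans (mul_le_mul_of_nonneg_left (le_abs_self _) hK.le)

theorem rest_se0 (h : m.Ctr) (hA : (m.free (m.A \ C)).Anch) (ζ : Cfg V) :
    SE ((m.rest 0 C ζ).W 0) :=
  rest_se h.1 h.nn 0 ζ (fun _ _ => rfl) (Md.ctr_se (free_ctr h sdiff_subset) hA 0)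

theorem rest_wt0 (h : m.Ctr) (hA : (m.free (m.A \ C)).Anch) (ζ : Cfg V) :
    Wt ((m.rest 0 C ζ).W 0) :=
  Wt.of_pos ((rest_fm h.1 0 C ζ).W_nonneg (rest_nn h.1 h.nn 0 C ζ) 0) (rest_se0 h hA ζ).summable
    (Md.W_pos (rest_fm h.1 0 C ζ) (s := 0) (fun _ _ => rfl)
      fun x hx => rest_site_pos h.1 0 C ζ (h.2 x (mem_sdiff.1 hx).1).2.2)

theorem rest_even (h : m.Ctr) (C : Finset V) (ζ s : Cfg V) :
    (m.rest 0 C ζ).W 0 (-s) = (m.rest 0 C ζ).W 0 s := by
  simpa using (rest_fm h.1 0 C ζ).W_neg (rest_ev h.1 h.ev C ζ) 0 s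

/-- **the rest model is more localised than the Dirichlet model** -/
theorem rest_loc [Countable V] (h : m.Ctr) (hA : (m.free (m.A \ C)).Anch) (ζ : Cfg V) :
    Loc ((m.rest 0 C ζ).W 0) ((m.free (m.A \ C)).W 0) := by
  have c := Md.ctr_cen (free_ctr h sdiff_subset) hA
  refine cone_loc_left (mix_W m 0 C ζ 0 h.1 fun _ _ => rfl) (rest_wt0 h hA ζ) (rest_se0 h hA ζ)
    c.wt c.se ?_
  rintro U ⟨m', hm, rfl⟩
  have c' := Md.ctr_cen (shr_ctr h hm) (shr_anch hA hm)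
  exact ⟨c'.wt, c'.se, shr_loc h hA hm⟩

/-- away from `C` a shortened model is the model -/
theorem shr_free (hF : m.Fm) (hm : m.Shr C m') {A' : Finset V} (hA' : A' ⊆ m.A \ C)
    (hE : ∀ e ∈ m.ed, (e.1 ∈ C → e.2 ∉ A') ∧ (e.2 ∈ C → e.1 ∉ A')) (η : Cfg V) :
    ∃ K : ℝ, 0 < K ∧ ∀ s, (m.free A').W η s = K * (m'.free A').W η s := by
  have hF' := shr_fm hm
  obtain ⟨h1, h2, h3, h4⟩ := hm
  have p1 : 0 < ∏ e ∈ em m C, m.w e (dE e η) :=
    prod_pos fun e he => fam_pos (hF e (mem_filter.1 he).1) _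
  have p2 : 0 < ∏ e ∈ em m C, m'.w e (dE e η) :=
    prod_pos fun e he => fam_pos (h4 e (mem_filter.1 he).1).1.left _
  refine ⟨(∏ e ∈ em m C, m.w e (dE e η)) / ∏ e ∈ em m C, m'.w e (dE e η), div_pos p1 p2,
    fun s => ?_⟩
  by_cases hs : ∀ x, x ∉ A' → s x = η x
  swap
  · simp only [Mdl.W, Mdl.free, ind_neg hs, zero_mul, mul_zero]
  have e0 : ∀ e ∈ em m C, dE e s = dE e η := fun e he => by
    obtain ⟨h5, h6⟩ := mem_filter.1 he
    have hC : ∀ x ∈ C, x ∉ A' := fun x hx h' => (mem_sdiff.1 (hA' h')).2 hx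
    by_cases c1 : e.1 ∈ C
    · simp only [dE, hs _ (hC _ c1), hs _ ((hE e h5).1 c1)]
    · have c2 : e.2 ∈ C := by
        by_contra c2; exact h6 ⟨c1, c2⟩
      simp only [dE, hs _ (hC _ c2), hs _ ((hE e h5).2 c2)]
  have e1 : ∏ e ∈ em m C, m.w e (dE e s) = ∏ e ∈ em m C, m.w e (dE e η) :=
    prod_congr rfl fun e he => by rw [e0 e he]
  have e2 : ∏ e ∈ em m C, m'.w e (dE e s) = ∏ e ∈ em m C, m'.w e (dE e η) :=
    prod_congr rfl fun e he => by rw [e0 e he]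
  have e3 : ∏ e ∈ eo m C, m'.w e (dE e s) = ∏ e ∈ eo m C, m.w e (dE e s) :=
    prod_congr rfl fun e he => by
      rw [(h4 e (mem_filter.1 he).1).2 (mem_filter.1 he).2.1 (mem_filter.1 he).2.2]
  simp only [Mdl.W, Mdl.free, h2, h3]
  rw [prod_ed m C, prod_ed m C, e1, e2, e3]
  field_simp

/-- **a Dirichlet model on `A'` not adjacent to `C` is more localised than the rest model** -/
theorem loc_rest [Countable V] (h : m.Ctr) (hA : (m.free (m.A \ C)).Anch) (ζ : Cfg V)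
    {A' : Finset V} (hA' : A' ⊆ m.A \ C)
    (hE : ∀ e ∈ m.ed, (e.1 ∈ C → e.2 ∉ A') ∧ (e.2 ∈ C → e.1 ∉ A')) :
    Loc ((m.free A').W 0) ((m.rest 0 C ζ).W 0) := by
  have c : Cen ((m.free A').W 0) :=
    Md.ctr_cen (free_ctr h (hA'.trans sdiff_subset)) (free_anch (m := m.free (m.A \ C)) hA hA')
  refine cone_loc_right (mix_W m 0 C ζ 0 h.1 fun _ _ => rfl) (rest_wt0 h hA ζ) (rest_se0 h hA ζ)
    c.wt c.se ?_
  rintro U ⟨m', hm, rfl⟩
  have c' := Md.ctr_cen (shr_ctr h hm) (shr_anch hA hm)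
  refine ⟨c'.wt, c'.se, ?_⟩
  obtain ⟨K, hK, e⟩ := shr_free h.1 hm hA' hE 0
  rw [funext e]
  exact loc_smul_left (pin_loc (shr_ctr h hm) (shr_anch hA hm) (hm.1 ▸ hA')) hK.ne'

theorem rest_vr_le [Countable V] (h : m.Ctr) (hA : (m.free (m.A \ C)).Anch) (ζ : Cfg V)
    (f : Cfg V →+ ℝ) : Vr ((m.rest 0 C ζ).W 0) f f ≤ Vr ((m.free (m.A \ C)).W 0) f f :=
  have c := Md.ctr_cen (free_ctr h sdiff_subset) hA
  loc_vr (rest_loc h hA ζ) (rest_wt0 h hA ζ) (rest_se0 h hA ζ) c.wt c.se f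

theorem le_rest_vr [Countable V] (h : m.Ctr) (hA : (m.free (m.A \ C)).Anch) (ζ : Cfg V)
    {A' : Finset V} (hA' : A' ⊆ m.A \ C)
    (hE : ∀ e ∈ m.ed, (e.1 ∈ C → e.2 ∉ A') ∧ (e.2 ∈ C → e.1 ∉ A')) (f : Cfg V →+ ℝ) :
    Vr ((m.free A').W 0) f f ≤ Vr ((m.rest 0 C ζ).W 0) f f :=
  have c : Cen ((m.free A').W 0) :=
    Md.ctr_cen (free_ctr h (hA'.trans sdiff_subset)) (free_anch (m := m.free (m.A \ C)) hA hA')
  loc_vr (loc_rest h hA ζ hA' hE) c.wt c.se (rest_wt0 h hA ζ) (rest_se0 h hA ζ) f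

end mdl

end Crest.Agent.T145.Mix53

namespace Crest.Agent.T145

theorem shortStmt : ShortStmt := fun _ _ _ ρ d _ _ hρ h hc =>
  Mix53.short_loc d hρ h hc.se (a := 0)
    (pos_of_mul_pos_left hc.pos0 (h.right.nonneg _))

end Crest.Agent.T145
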