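import Crest.Agent.T145.ExplU_56
import Crest.Agent.T145.ApiP_98
import Crest.Agent.T145.Short_53
import Crest.Agent.T145.Loc_51

/-!
# Row 145 (helper52): (D1) in group form, free against Dirichlet boxes
-/

set_option autoImplicit false

namespace Crest.Agent.T145

open Finset

namespace D52

section grp
variable {L Q : Type} [AddCommGroup L] [AddCommGroup Q]

theorem PD.ig {W G : L → ℝ} (hW : Wt W) (hG : PD G) : Ig W G := hW.ig_bdd hG.abs_le

theorem wt_mul {ρ G : L → ℝ} (hρ : Cen ρ) (hG : PD G) (h0 : ∀ s, 0 ≤ G s) (hp : 0 < G 0) :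
    Wt fun s => ρ s * G s :=
  Wt.of_pos (fun s => mul_nonneg (hρ.nonneg s) (h0 s)) (PD.ig hρ.wt hG) (mul_pos hρ.pos0 hp)

/-- unnormalised (D1) -/
theorem fib_le (hR : RSDStmt) (hB : RsdBStmt) [IsAddTorsionFree L] {ρ G : L → ℝ} (π : L →+ Q)
    (hρ : RSD ρ) (hs : Summable ρ) (hG : PD G) (q : Q) :
    |∑' s, ρ s * G s * ind (π s = q)| * (∑' s, ρ s * ind (π s = 0)) ≤
      (∑' s, ρ s * ind (π s = q)) * ∑' s, ρ s * G s * ind (π s = 0) := by
  let φ : L × Q →+ Q := π.comp (AddMonoidHom.fst L Q) - AddMonoidHom.snd L Q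
  have hφ : ∀ s q, φ (s, q) = 0 ↔ π s = q := fun s q => by simp [φ, sub_eq_zero]
  have h1 : RSD fun p : L × Q => ρ p.1 * ind (φ p = 0) :=
    (hR (L × Q) Q).1 _ _ ((hR (L × Q) L).2.1 ρ (AddMonoidHom.fst L Q) hρ) ((hR (L × Q) Q).2.2.1 φ)
  have h2 : PD fun p : L × Q => G p.1 := hG.comp (AddMonoidHom.fst L Q)
  have hsum : ∀ q : Q, Summable fun s => ρ s * ind (π s = q) := fun q =>
    (Md.summable_ind_mul (fun s => π s = q) hs).congr fun s => mul_comm _ _
  have e1 : ∀ q : Q, sl (fun p : L × Q => ρ p.1 * ind (φ p = 0)) q = fun s => ρ s * ind (π s = q) :=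
    fun q => funext fun s => by simp only [sl, ind_congr (hφ s q)]
  have := hB L Q _ _ h1 h2 q 0 (by rw [e1]; exact hsum 0) (by rw [tilt_zero, e1]; exact hsum q)
  simp only [tilt_zero, e1, Zs, ind_congr (hφ _ 0)] at this
  simpa only [mul_right_comm (ρ _) (G _)] using this

end grp

theorem hasSum_pair {α β : Type*} {J : α × β → ℝ} {W : α → ℝ} (h0 : ∀ p, 0 ≤ J p)
    (hs : ∀ a, HasSum (fun b => J (a, b)) (W a)) {F : α → ℝ} (hF : Ig W F) :
    HasSum (fun p => J p * F p.1) (∑' a, W a * F a) := by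
  have hW : ∀ a, 0 ≤ W a := fun a => (hs a).nonneg fun b => h0 _
  have h1 : Summable fun p : α × β => J p * |F p.1| :=
    (summable_prod_of_nonneg (f := fun p : α × β => J p * |F p.1|)
      fun p => mul_nonneg (h0 p) (abs_nonneg _)).2
      ⟨fun a => (hs a).summable.mul_right |F a|,
        Summable.congr (hF.abs hW) fun a => ((hs a).mul_right |F a|).tsum_eq.symm⟩
  have h2 : Summable fun p : α × β => J p * F p.1 := Ig.of_abs (W := J) (F := fun p => F p.1) h0 h1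
  have h3 : HasSum (fun a => W a * F a) (∑' p, J p * F p.1) :=
    h2.hasSum.prod_fiberwise fun a => (hs a).mul_right (F a)
  rw [h3.tsum_eq]
  exact h2.hasSum

theorem ex_pair {α β : Type*} {J : α × β → ℝ} {W : α → ℝ} (h0 : ∀ p, 0 ≤ J p)
    (hs : ∀ a, HasSum (fun b => J (a, b)) (W a)) (hW : Wt W) :
    Wt J ∧ ∀ F : α → ℝ, Ig W F → Ig J (fun p => F p.1) ∧ Ex J (fun p => F p.1) = Ex W F := by
  have h1 := hasSum_pair h0 hs (hW.ig_const 1)
  simp only [mul_one] at h1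
  have e : Zs J = Zs W := h1.tsum_eq
  refine ⟨⟨h0, h1.summable, e ▸ hW.pos⟩, fun F hF => ⟨(hasSum_pair h0 hs hF).summable, ?_⟩⟩
  rw [Ex_def, Ex_def, e, (hasSum_pair h0 hs hF).tsum_eq]

theorem wt_of_pair {α β : Type*} {J : α × β → ℝ} {W : α → ℝ}
    (hs : ∀ a, HasSum (fun b => J (a, b)) (W a)) (hJ : Wt J) : Wt W := by
  have h1 := hJ.summ.hasSum.prod_fiberwise hs
  exact ⟨fun a => (hs a).nonneg fun b => hJ.nonneg _, h1.summable,
    hJ.pos.trans_eq h1.tsum_eq.symm⟩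

section mdl
variable {V : Type} [DecidableEq V] {m : Mdl V}

omit [DecidableEq V] in
theorem bw_nonneg (hF : m.Fm) (h : ℤ) (s : Cfg V) {e : V × V} (he : e ∈ m.ed) (o : Prop)
    [Decidable o] : 0 ≤ m.bw h s e o := by
  unfold Mdl.bw
  split_ifs
  · refine sub_nonneg.2 ((kerStmt _ (hF e he)).anti ?_)
    rw [abs_of_nonneg (add_nonneg (abs_nonneg (s e.1 - h)) (abs_nonneg _)), dE,
      show s e.2 - s e.1 = (s e.2 - h) - (s e.1 - h) by ring, add_comm]
    exact abs_sub _ _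
  · exact (hF e he).nonneg _

theorem J_nonneg (hF : m.Fm) (hN : m.Nn) (h : ℤ) (η : Cfg V) (p : Cfg V × Finset (V × V)) :
    0 ≤ m.J h η p :=
  mul_nonneg (mul_nonneg (mul_nonneg (ind_nonneg _) (ind_nonneg _))
    (prod_nonneg fun _ he => bw_nonneg hF h _ he _)) (prod_nonneg fun x hx => hN x hx _)

theorem hasSum_J (m : Mdl V) (h : ℤ) (η s : Cfg V) :
    HasSum (fun ω => m.J h η (s, ω)) (m.W η s) := by
  have e : m.W η s = ∑ ω ∈ m.ed.powerset, m.J h η (s, ω) := by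
    have : ∏ e ∈ m.ed, m.w e (dE e s) = ∑ ω ∈ m.ed.powerset, ∏ e ∈ m.ed, m.bw h s e (e ∈ ω) := by
      rw [prod_congr rfl fun e _ => (sub_add_cancel (m.w e (dE e s))
        (m.w e (|s e.1 - h| + |s e.2 - h|))).symm, prod_add]
      refine sum_congr rfl fun ω hω => ?_
      simp only [Mdl.bw]
      rw [prod_ite, filter_mem_eq_inter, inter_eq_right.2 (mem_powerset.1 hω), sdiff_eq_filter]
    rw [Mdl.W, this, mul_sum, sum_mul]
    refine sum_congr rfl fun ω hω => ?_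
    rw [Mdl.J, ind_pos (mem_powerset.1 hω), mul_one]
  rw [e]
  refine hasSum_sum_of_ne_finset_zero fun ω hω => ?_
  simp [Mdl.J, ind_neg (mt mem_powerset.2 hω)]

theorem anch_free {A' A'' : Finset V} (h : (m.free A').Anch) (hA : A'' ⊆ A') :
    (m.free A'').Anch := h.free hA

omit [DecidableEq V] in
theorem rest_fm (hF : m.Fm) (h : ℤ) (C : Finset V) (ζ : Cfg V) [DecidableEq V] :
    (m.rest h C ζ).Fm := fun e he => hF e (mem_filter.1 he).1

theorem rest_nn (hF : m.Fm) (hN : m.Nn) (h : ℤ) (C : Finset V) (ζ : Cfg V) : (m.rest h C ζ).Nn :=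
  fun x hx k => mul_nonneg (mul_nonneg (hN x (sdiff_subset hx) k)
    (prod_nonneg fun e he => (hF e (mem_filter.1 he).1).nonneg _))
    (prod_nonneg fun e he => (hF e (mem_filter.1 he).1).nonneg _)

/-- the complement of an exploration at level `0` is more localised than the Dirichlet model -/
theorem rest_ge [Countable V] (hS : ShortStmt) (h : m.Ctr) {C : Finset V}
    (hA : (m.free (m.A \ C)).Anch) (ζ : Cfg V) (hW : Wt ((m.rest 0 C ζ).W 0)) {G : Cfg V → ℝ}
    (hG : PD G) : Ex ((m.free (m.A \ C)).W 0) G ≤ Ex ((m.rest 0 C ζ).W 0) G := by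
  refine (Mix53.mix_W m 0 C ζ 0 h.1 fun _ _ => rfl).le_ex hW (PD.ig hW hG) ?_
  rintro _ ⟨m', hm', rfl⟩
  exact ⟨Md.ctr_wt (hm'.ctr h) (hA.of_le hm'.1.subset hm'.2.1.superset fun y _ hy => hm'.2.2.1 ▸ hy) 0,
    fun _ => (hm'.loc_free hS h hA).2 G hG⟩

theorem wt_restU (hF : m.Fm) (hN : m.Nn) (h : ℤ) {η : Cfg V} (S : Finset V) {U : Cfg V → ℝ}
    (hU : Dep S U) (hW : Summable fun p : Cfg V × Finset (V × V) => U p.1 * m.J h η p)
    {p : Cfg V × Finset (V × V)} (hp : U p.1 * m.J h η p ≠ 0) :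
    Wt ((m.rest h (cl S p.2) p.1).J h p.1) := by
  have hJ := right_ne_zero_of_mul hp
  have h0 := J_nonneg (rest_fm hF h (cl S p.2) p.1) (rest_nn hF hN h (cl S p.2) p.1) h p.1
  have h3 := X56.fibre m h η S hU hJ ((X56.tog (inn (cl S p.2) p.2)).symm p)
  rw [Equiv.apply_symm_apply, ind_pos rfl, one_mul] at h3
  rw [h3] at hp
  have h1 := (X56.tog (inn (cl S p.2) p.2)).summable_iff.2
    (summable_ind_mul hW fun q => X56.rev S q = X56.rev S p)
  exact Wt.of_pos h0 ((summable_mul_left_iff (left_ne_zero_of_mul hp)).1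
    (h1.congr fun q => X56.fibre m h η S hU hJ q))
    (lt_of_le_of_ne (h0 _) (right_ne_zero_of_mul hp).symm)

end mdl

end D52

theorem dens_of (hR : RSDStmt) (hB : RsdBStmt) : DensStmt := by
  intro L Q _ _ _ ρ G π hρ hG h0 hp
  have hW := hρ.wt
  have hW' := D52.wt_mul hρ hG h0 hp
  have key := fun q => (mul_le_mul_of_nonneg_right (le_abs_self _)
    (tsum_nonneg fun s => mul_nonneg (hρ.nonneg s) (ind_nonneg (π s = 0)))).trans
    (D52.fib_le hR hB π hρ.toRSD hW.summ hG q)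
  refine ⟨fun q => ?_, fun F hF hI => ?_⟩
  · simp only [Pr, Ex_def]
    rw [div_mul_div_comm, div_mul_div_comm]
    exact div_le_div_of_nonneg_right ((key q).trans_eq (mul_comm _ _)) (mul_pos hW'.pos hW.pos).le
  · have hI' : Summable fun s => ρ s * G s * F (π s) :=
      Summable.congr (hI.bdd_mul hρ.nonneg hG.abs_le) fun s => by ring
    have s1 := Md.hasSum_fib π hI'
    have s2 := Md.hasSum_fib π hI
    have e1 : ∀ q, ∑' s, ind (π s = q) * (ρ s * G s * F (π s)) =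
        F q * ∑' s, ρ s * G s * ind (π s = q) := fun q => by
      rw [← tsum_mul_left]
      refine tsum_congr fun s => ?_
      by_cases h : π s = q
      · rw [h]; ring
      · simp [ind_neg h]
    have e2 : ∀ q, ∑' s, ind (π s = q) * (ρ s * F (π s)) = F q * ∑' s, ρ s * ind (π s = q) :=
      fun q => by
      rw [← tsum_mul_left]
      refine tsum_congr fun s => ?_
      by_cases h : π s = q
      · rw [h]; ring
      · simp [ind_neg h]
    simp only [e1] at s1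
    simp only [e2] at s2
    have h3 := hasSum_le (fun q => ?_) (s1.mul_right (∑' s, ρ s * ind (π s = 0)))
      (s2.mul_left (∑' s, ρ s * G s * ind (π s = 0)))
    · simp only [Pr, Ex_def]
      rw [div_mul_div_comm, div_mul_div_comm]
      exact div_le_div_of_nonneg_right h3 (mul_pos hW'.pos hW.pos).le
    · have := mul_le_mul_of_nonneg_left (key q) (hF q)
      linarith

theorem densStmt : DensStmt := dens_of rsdStmt rsdBStmt

theorem nd_of (hS : ShortStmt) : NDStmt := by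
  intro V _ _ m S B U G hc hA hU hU0 hW hG hG0 hB
  have hJ0 := D52.J_nonneg hc.1 hc.nn 0 0
  obtain ⟨hJ, hE⟩ := D52.ex_pair (J := fun p => U p.1 * m.J 0 0 p)
    (fun p => mul_nonneg (hU0 _) (hJ0 p)) (fun s => (D52.hasSum_J m 0 0 s).mul_left (U s)) hW
  obtain ⟨hI, hE⟩ := hE G (D52.PD.ig hW hG)
  obtain ⟨hI', hE'⟩ := X56.explU m 0 0 S hU hJ hI
  rw [← hE, hE', Pr, ← Ex_mul_const]
  refine Ex_mono' hJ.nonneg ((hJ.ig_ind _).mul_const _) hI' fun p hp => ?_
  have hF := D52.rest_fm hc.1 0 (cl S p.2) p.1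
  have hN := D52.rest_nn hc.1 hc.nn 0 (cl S p.2) p.1
  by_cases hx : Cross S B p.2
  · rw [ind_neg (not_not.2 hx), zero_mul]
    exact Ex_nonneg (D52.J_nonneg hF hN 0 _) fun _ _ => hG0 _
  rw [ind_pos hx, one_mul]
  set C := cl S p.2 with hC
  have hJp : m.J 0 0 p ≠ 0 := right_ne_zero_of_mul hp
  have hAC : (m.free (m.A \ C)).Anch :=
    D52.anch_free hA (sdiff_subset_sdiff subset_rfl (Md.subset_cl S p.2))
  set u : Cfg V := p.1.filter (· ∈ C) with hu
  have hu1 : ∀ x ∈ (m.rest 0 C p.1).A, u x = 0 := fun x hx => by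
    rw [hu, Finsupp.filter_apply, if_neg (mem_sdiff.1 hx).2]
  have hu2 : ∀ e ∈ (m.rest 0 C p.1).ed, u e.1 = 0 ∧ u e.2 = 0 := fun e he => by
    simp only [hu, Finsupp.filter_apply, if_neg (mem_filter.1 he).2.1,
      if_neg (mem_filter.1 he).2.2, and_self]
  have e1 : (m.rest 0 C p.1).W p.1 = (m.rest 0 C p.1).W (0 + u) := Mdl.W_congr _ fun x hx => by
    rw [zero_add, hu, Finsupp.filter_apply]
    split_ifs with h
    · rfl
    · exact Md.J_off hJp x fun h' => hx (mem_sdiff.2 ⟨h', h⟩)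
  have hR := D52.wt_of_pair (D52.hasSum_J _ 0 p.1) (D52.wt_restU hc.1 hc.nn 0 S hU hJ.summ hp)
  have hR0 : Wt ((m.rest 0 C p.1).W 0) := by
    have := (Md.wt_equiv (Equiv.addRight u) _).2 (e1 ▸ hR)
    simpa only [Equiv.coe_addRight, Md.W_far _ 0 u _ hu1 hu2] using this
  rw [((D52.ex_pair (D52.J_nonneg hF hN 0 p.1) (D52.hasSum_J _ 0 p.1) hR).2 G
    (D52.PD.ig hR hG)).2, e1, Md.ex_far _ 0 u hu1 hu2]
  have e2 : (fun s => G (s + u)) = G := funext fun s => hB _ _ fun x hxB => by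
    rw [Finsupp.add_apply, hu, Finsupp.filter_apply, if_neg, add_zero]
    intro h
    obtain ⟨y, hy, h⟩ := Md.mem_cl.1 h
    exact hx ⟨y, hy, x, hxB, h⟩
  rw [e2]
  refine le_trans ?_ (D52.rest_ge hS hc hAC p.1 hR0 hG)
  exact (loc_free (hc.free sdiff_subset) hA
    (sdiff_subset_sdiff subset_rfl (Md.subset_cl S p.2))).2 G hG

theorem ndStmt : NDStmt := nd_of shortStmt

end Crest.Agent.T145
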