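import Crest.Agent.T145.MdlC_73
import Crest.Agent.T145.ApiC_98
import Crest.Agent.T145.CorU_59

/-!
# Row 145, T0: model operations, `Loc` corollaries, Markov property, product formulas (helper73)
-/

set_option autoImplicit false

namespace Crest.Agent.T145

open Finset

namespace Md

section ops
variable {V : Type*} [DecidableEq V] {m : Mdl V}

omit [DecidableEq V] in
theorem fm_free (h : m.Fm) (A' : Finset V) : (m.free A').Fm := h
omit [DecidableEq V] in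
theorem fm_keep (h : m.Fm) {E : Finset (V × V)} (hE : E ⊆ m.ed) : (m.keep E).Fm :=
  fun e he => h e (hE he)
omit [DecidableEq V] in
theorem fm_force (h : m.Fm) (f : V → ℝ) : (m.force f).Fm := h
omit [DecidableEq V] in
theorem fm_mulSite (h : m.Fm) (u : V → ℤ → ℝ) : (m.mulSite u).Fm := h
omit [DecidableEq V] in
theorem fm_shift (h : m.Fm) (k : ℤ) : (m.shift k).Fm := h
theorem fm_rest (h : m.Fm) (k : ℤ) (C : Finset V) (ζ : Cfg V) : (m.rest k C ζ).Fm :=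
  fun e he => h e (Finset.mem_filter.1 he).1

omit [DecidableEq V] in
theorem nn_free (h : m.Nn) {A' : Finset V} (hA : A' ⊆ m.A) : (m.free A').Nn :=
  fun x hx => h x (hA hx)
omit [DecidableEq V] in
theorem nn_keep (h : m.Nn) (E : Finset (V × V)) : (m.keep E).Nn := h
omit [DecidableEq V] in
theorem nn_shift (h : m.Nn) (k : ℤ) : (m.shift k).Nn := fun x hx _ => h x hx _
omit [DecidableEq V] in
theorem nn_mulSite (h : m.Nn) {u : V → ℤ → ℝ} (hu : ∀ x ∈ m.A, ∀ k, 0 ≤ u x k) :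
    (m.mulSite u).Nn := fun x hx k => mul_nonneg (h x hx k) (hu x hx k)
theorem nn_rest (hF : m.Fm) (h : m.Nn) (k : ℤ) (C : Finset V) (ζ : Cfg V) : (m.rest k C ζ).Nn :=
  fun x hx _ => mul_nonneg (mul_nonneg (h x (Finset.mem_sdiff.1 hx).1 _)
    (Finset.prod_nonneg fun _ he => (fm_pos hF (Finset.mem_filter.1 he).1 _).le))
    (Finset.prod_nonneg fun _ he => (fm_pos hF (Finset.mem_filter.1 he).1 _).le)

omit [DecidableEq V] in
theorem ev_free (h : m.Ev) {A' : Finset V} (hA : A' ⊆ m.A) : (m.free A').Ev :=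
  fun x hx => h x (hA hx)
omit [DecidableEq V] in
theorem ev_keep (h : m.Ev) (E : Finset (V × V)) : (m.keep E).Ev := h
theorem ev_rest (hF : m.Fm) (h : m.Ev) (C : Finset V) (ζ : Cfg V) : (m.rest 0 C ζ).Ev :=
  fun x hx k => ⟨nn_rest hF h.nn 0 C ζ x hx k, by
    simp only [Mdl.rest, (h x (Finset.mem_sdiff.1 hx).1 k).2, sub_zero, abs_neg]⟩

omit [DecidableEq V] in
theorem ctr_free (h : m.Ctr) {A' : Finset V} (hA : A' ⊆ m.A) : (m.free A').Ctr :=
  ⟨h.1, fun x hx => h.2 x (hA hx)⟩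
omit [DecidableEq V] in
theorem ctr_keep (h : m.Ctr) {E : Finset (V × V)} (hE : E ⊆ m.ed) : (m.keep E).Ctr :=
  ⟨fm_keep h.1 hE, h.2⟩
omit [DecidableEq V] in
theorem ctr_mulSite (h : m.Ctr) {u : V → ℤ → ℝ}
    (hu : ∀ x ∈ m.A, RSD (u x) ∧ PD (u x) ∧ 0 < u x 0) : (m.mulSite u).Ctr :=
  ⟨h.1, fun x hx => ⟨rsd_mul (h.2 x hx).1 (hu x hx).1, (h.2 x hx).2.1.mul (hu x hx).2.1,
    mul_pos (h.2 x hx).2.2 (hu x hx).2.2⟩⟩

omit [DecidableEq V] in
theorem tm_free (h : Tm m) {A' : Finset V} (hA : A' ⊆ m.A) : Tm (m.free A') :=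
  fun x hx => h x (hA hx)
omit [DecidableEq V] in
theorem tm_keep (h : Tm m) (E : Finset (V × V)) : Tm (m.keep E) := h

theorem bd_mul {u v : ℤ → ℝ} (hu : ∃ C a : ℝ, ∀ k : ℤ, |u k| ≤ C * Real.exp (a * |(k : ℝ)|))
    (hv : ∃ C a : ℝ, ∀ k : ℤ, |v k| ≤ C * Real.exp (a * |(k : ℝ)|)) :
    ∃ C a : ℝ, ∀ k : ℤ, |u k * v k| ≤ C * Real.exp (a * |(k : ℝ)|) := by
  obtain ⟨C, a, hu⟩ := hu
  obtain ⟨D, b, hv⟩ := hv
  refine ⟨C * D, a + b, fun k => ?_⟩
  rw [abs_mul, add_mul, Real.exp_add, mul_mul_mul_comm]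
  exact mul_le_mul (hu k) (hv k) (abs_nonneg _) ((abs_nonneg _).trans (hu k))

theorem bd_tame {u : ℤ → ℝ} (hu : ∃ C a : ℝ, ∀ k : ℤ, |u k| ≤ C * Real.exp (a * |(k : ℝ)|)) :
    Tame u := by
  obtain ⟨C, a, hu⟩ := hu
  have hC : 0 ≤ C := by simpa using (abs_nonneg _).trans (hu 0)
  refine ((Tame.exp_abs (zH a)).const_mul C).of_le fun k => (hu k).trans ?_
  refine mul_le_mul_of_nonneg_left (Real.exp_le_exp.2 ?_) hC
  rw [zH_apply, abs_mul]
  exact mul_le_mul_of_nonneg_right (le_abs_self a) (abs_nonneg _)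

theorem tame_bd {u : ℤ → ℝ} (hu : Tame u) :
    ∃ C a : ℝ, ∀ k : ℤ, |u k| ≤ C * Real.exp (a * |(k : ℝ)|) := by
  obtain ⟨C, T, hC, hu⟩ := hu.exists_nonneg
  refine ⟨C * T.card, ∑ f ∈ T, |f 1|, fun k => (hu k).trans ?_⟩
  rw [mul_assoc]
  refine mul_le_mul_of_nonneg_left ?_ hC
  rw [← nsmul_eq_mul]
  refine Finset.sum_le_card_nsmul _ _ _ fun f hf => Real.exp_le_exp.2 ?_
  rw [Bes66.addHom_eq f k]
  refine (le_abs_self _).trans ?_
  rw [abs_mul]
  exact mul_le_mul_of_nonneg_right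
    (Finset.single_le_sum (f := fun f : ℤ →+ ℝ => |f 1|) (fun _ _ => abs_nonneg _) hf) (abs_nonneg _)

omit [DecidableEq V] in
theorem tm_iff : Tm m ↔ ∀ x ∈ m.A, Tame (m.site x) :=
  ⟨fun h x hx => bd_tame (h x hx), fun h x hx => tame_bd (h x hx)⟩

omit [DecidableEq V] in
theorem tm_mulSite (h : Tm m) {u : V → ℤ → ℝ} (hu : ∀ x ∈ m.A, Tame (u x)) : Tm (m.mulSite u) :=
  fun x hx => bd_mul (h x hx) (tame_bd (hu x hx))
omit [DecidableEq V] in
theorem tm_force (h : Tm m) (f : V → ℝ) : Tm (m.force f) :=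
  tm_mulSite h fun x _ => Tame.exp (zH (f x))
omit [DecidableEq V] in
theorem tm_shift (h : Tm m) (k : ℤ) : Tm (m.shift k) :=
  tm_iff.2 fun x hx => (tm_iff.1 h x hx).shift k

omit [DecidableEq V] in
theorem tame_w (hF : m.Fm) {e : V × V} (he : e ∈ m.ed) {α : Type*} [AddCommGroup α] (g : α → ℤ) :
    Tame fun a => m.w e (g a) := Tame.bdd fun _ => (fm_ker hF he).pd.abs_le _

theorem tm_rest (hF : m.Fm) (h : Tm m) (k : ℤ) (C : Finset V) (ζ : Cfg V) : Tm (m.rest k C ζ) :=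
  tm_iff.2 fun x hx => ((tm_iff.1 h x (Finset.mem_sdiff.1 hx).1).mul
    (Tame.prod _ fun _ he => tame_w hF (Finset.mem_filter.1 he).1 _)).mul
    (Tame.prod _ fun _ he => tame_w hF (Finset.mem_filter.1 he).1 _)

omit [DecidableEq V] in
theorem anch_free (h : m.Anch) {A' : Finset V} (hA : A' ⊆ m.A) : (m.free A').Anch :=
  fun x hx => let ⟨y, h1, h2⟩ := h x (hA hx); ⟨y, h1, h2.imp (fun h h' => h (hA h')) id⟩

omit [DecidableEq V] in
theorem anch_of_keep {E : Finset (V × V)} (hE : E ⊆ m.ed) (h : (m.keep E).Anch) : m.Anch :=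
  fun x hx => let ⟨y, h1, h2⟩ := h x hx; ⟨y, conn_mono hE h1, h2⟩

theorem anch_mulSite (h : m.Anch) {u : V → ℤ → ℝ} (hu : ∀ x ∈ m.A, Tame (u x)) :
    (m.mulSite u).Anch := fun x hx => by
  obtain ⟨y, h1, h2⟩ := h x hx
  refine ⟨y, h1, ?_⟩
  by_cases hy : y ∈ m.A
  · exact Or.inr ((h2.resolve_left fun h => h hy).mul (hu y hy))
  · exact Or.inl hy

theorem anch_force (h : m.Anch) (f : V → ℝ) : (m.force f).Anch :=
  anch_mulSite h fun x _ => Tame.exp (zH (f x))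

omit [DecidableEq V] in
theorem anch_shift (h : m.Anch) (k : ℤ) : (m.shift k).Anch :=
  fun x hx => let ⟨y, h1, h2⟩ := h x hx; ⟨y, h1, h2.imp id fun h => h.shift k⟩

omit [DecidableEq V] in
/-- a mass at every site anchors -/
theorem anch_of_se (h : ∀ x ∈ m.A, SE (m.site x)) : m.Anch :=
  fun x hx => ⟨x, Relation.ReflTransGen.refl, Or.inr (h x hx)⟩

theorem se_cut {w : ℤ → ℝ} (h : SE w) (c l : ℤ) : SE fun k => w (|c| + |k - l|) := by
  refine se_of_bound fun a => ?_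
  obtain ⟨C, hC, h1⟩ := se_bound h |a|
  refine ⟨C * Real.exp (|a| * |(l : ℝ)|), fun k => (h1 _).trans ?_⟩
  rw [mul_assoc, ← Real.exp_add]
  refine mul_le_mul_of_nonneg_left (Real.exp_le_exp.2 ?_) hC
  have h2 : |(k : ℝ)| ≤ |((|c| + |k - l| : ℤ) : ℝ)| + |(l : ℝ)| := by
    push_cast
    have h3 := abs_add_le ((k : ℝ) - l) l
    rw [sub_add_cancel] at h3
    linarith [le_abs_self (|(c : ℝ)| + |(k : ℝ) - l|), abs_nonneg (c : ℝ)]
  nlinarith [mul_le_mul_of_nonneg_left h2 (abs_nonneg a),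
    mul_le_mul_of_nonneg_right (le_abs_self a) (abs_nonneg (k : ℝ))]

theorem se_prod {ι : Type*} {T : Finset ι} {g : ι → ℤ → ℝ} (hT : ∀ i ∈ T, Tame (g i)) {i : ι}
    (hi : i ∈ T) (h : SE (g i)) : SE fun k => ∏ j ∈ T, g j k := by
  classical
  simp only [← Finset.mul_prod_erase T _ hi]
  exact h.mul (Tame.prod _ fun j hj => hT j (Finset.mem_of_mem_erase hj))

/-- the rest model is anchored as soon as the model with `C` pinned is -/
theorem anch_rest (hF : m.Fm) (hT : Tm m) (k : ℤ) {C : Finset V} (ζ : Cfg V)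
    (h : (m.free (m.A \ C)).Anch) : (m.rest k C ζ).Anch := by
  intro x hx
  obtain ⟨y, h1, h2⟩ := h x hx
  have hxC : x ∉ C := (Finset.mem_sdiff.1 hx).2
  clear hx
  have t1 : ∀ z, Tame fun l => ∏ e ∈ m.ed.filter (fun e => e.1 ∈ C ∧ e.2 = z),
      m.w e (|ζ e.1 - k| + |l - k|) :=
    fun z => Tame.prod _ fun _ he => tame_w hF (Finset.mem_filter.1 he).1 _
  have t2 : ∀ z, Tame fun l => ∏ e ∈ m.ed.filter (fun e => e.2 ∈ C ∧ e.1 = z),
      m.w e (|ζ e.2 - k| + |l - k|) :=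
    fun z => Tame.prod _ fun _ he => tame_w hF (Finset.mem_filter.1 he).1 _
  induction h1 using Relation.ReflTransGen.head_induction_on with
  | refl => exact ⟨y, Relation.ReflTransGen.refl, h2.imp id fun h => (h.mul (t1 y)).mul (t2 y)⟩
  | @head x z h3 _ ih =>
    by_cases hz : z ∈ C
    · refine ⟨x, Relation.ReflTransGen.refl, ?_⟩
      by_cases hxA : x ∈ m.A
      swap
      · exact Or.inl fun h => hxA (Finset.mem_sdiff.1 h).1
      refine Or.inr ?_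
      have t0 := tm_iff.1 hT x hxA
      rcases h3 with h3 | h3
      · have := se_prod (T := m.ed.filter fun e => e.2 ∈ C ∧ e.1 = x)
          (g := fun e l => m.w e (|ζ e.2 - k| + |l - k|))
          (fun _ he => tame_w hF (Finset.mem_filter.1 he).1 _) (i := (x, z))
          (Finset.mem_filter.2 ⟨h3, hz, rfl⟩) (se_cut (fm_ker hF h3).cen.se _ _)
        have h4 := this.mul (t0.mul (t1 x))
        simp only [Mdl.rest]
        convert h4 using 2
        ring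
      · have := se_prod (T := m.ed.filter fun e => e.1 ∈ C ∧ e.2 = x)
          (g := fun e l => m.w e (|ζ e.1 - k| + |l - k|))
          (fun _ he => tame_w hF (Finset.mem_filter.1 he).1 _) (i := (z, x))
          (Finset.mem_filter.2 ⟨h3, hz, rfl⟩) (se_cut (fm_ker hF h3).cen.se _ _)
        have h4 := this.mul (t0.mul (t2 x))
        simp only [Mdl.rest]
        convert h4 using 2
        ring
    · obtain ⟨y', h4, h5⟩ := ih hz
      refine ⟨y', Relation.ReflTransGen.head ?_ h4, h5⟩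
      exact h3.imp (fun h => Finset.mem_filter.2 ⟨h, hxC, hz⟩)
        fun h => Finset.mem_filter.2 ⟨h, hz, hxC⟩

theorem se_rest (hF : m.Fm) (hT : Tm m) (k : ℤ) {C : Finset V} (ζ η : Cfg V)
    (h : (m.free (m.A \ C)).Anch) : SE ((m.rest k C ζ).W η) :=
  se_W (fm_rest hF k C ζ) (anch_rest hF hT k ζ h) (tm_rest hF hT k C ζ) η

theorem wt_restW (hF : m.Fm) (hT : Tm m) (hN : m.Nn) (hp : ∀ x ∈ m.A, ∃ l, 0 < m.site x l) (k : ℤ)
    {C : Finset V} (ζ η : Cfg V) (h : (m.free (m.A \ C)).Anch) : Wt ((m.rest k C ζ).W η) :=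
  wt_W (fm_rest hF k C ζ) (anch_rest hF hT k ζ h) (tm_rest hF hT k C ζ) (nn_rest hF hN k C ζ)
    (fun x hx => let ⟨l, hl⟩ := hp x (Finset.mem_sdiff.1 hx).1
      ⟨l, mul_pos (mul_pos hl (Finset.prod_pos fun _ he => fm_pos hF (Finset.mem_filter.1 he).1 _))
        (Finset.prod_pos fun _ he => fm_pos hF (Finset.mem_filter.1 he).1 _)⟩) η

/-! ### weights of the modified models -/

theorem W_keep {E : Finset (V × V)} (hE : E ⊆ m.ed) (η s : Cfg V) :
    m.W η s = (m.keep E).W η s * ∏ e ∈ m.ed \ E, m.w e (dE e s) := by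
  simp only [Mdl.W, Mdl.keep]
  rw [← Finset.prod_sdiff hE]; ring

omit [DecidableEq V] in
theorem pd_edges (hF : m.Fm) {E : Finset (V × V)} (hE : E ⊆ m.ed) :
    PD fun s : Cfg V => ∏ e ∈ E, m.w e (dE e s) :=
  PD.prod fun e he => (fm_ker hF (hE he)).pd.comp (dH e)

theorem pd_pin (P : Finset V) : PD fun s : Cfg V => ind (∀ x ∈ P, s x = 0) := by
  have := pd_ind (Finsupp.filterAddHom (M := ℤ) (· ∈ P))
  convert this using 2 with s
  refine ind_iff ?_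
  have := filter_mem_eq_iff P s 0
  rw [Finsupp.filter_zero] at this
  exact this.symm

theorem pd_off (A : Finset V) : PD fun s : Cfg V => ind (∀ x, x ∉ A → s x = 0) := by
  have := pd_ind (Finsupp.filterAddHom (M := ℤ) (· ∉ A))
  convert this using 2 with s
  refine ind_iff ?_
  have := filter_not_eq_iff A s 0
  rw [Finsupp.filter_zero] at this
  exact this.symm

omit [DecidableEq V] in
theorem pd_sites {A : Finset V} {u : V → ℤ → ℝ} (hu : ∀ x ∈ A, PD (u x)) :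
    PD fun s : Cfg V => ∏ x ∈ A, u x (s x) := PD.prod fun x hx => (hu x hx).comp (evH x)

/-- the weight of a centred model is itself positive definite -/
theorem ctr_pd (h : m.Ctr) : PD (m.W 0) :=
  ((pd_off m.A).mul (pd_edges h.1 le_rfl)).mul (pd_sites fun x hx => (h.2 x hx).2.1)

theorem J_mulSite (u : V → ℤ → ℝ) (h : ℤ) (η : Cfg V) (p : Cfg V × Finset (V × V)) :
    (m.mulSite u).J h η p = m.J h η p * ∏ x ∈ m.A, u x (p.1 x) := by
  simp only [Mdl.J, Mdl.mulSite, Mdl.bw, Finset.prod_mul_distrib]; ring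

theorem J_force (f : V → ℝ) (h : ℤ) (η : Cfg V) (p : Cfg V × Finset (V × V)) :
    (m.force f).J h η p = m.J h η p * Real.exp (∑ x ∈ m.A, f x * p.1 x) := by
  rw [Mdl.force_eq, J_mulSite, Real.exp_sum]

theorem J_congr (h : ℤ) {η η' : Cfg V} (hη : ∀ x, x ∉ m.A → η x = η' x) : m.J h η = m.J h η' :=
  funext fun p => by
    rw [Mdl.J, Mdl.J, ind_iff (q := ∀ x, x ∉ m.A → p.1 x = η' x)
      ⟨fun H x hx => (H x hx).trans (hη x hx), fun H x hx => (H x hx).trans (hη x hx).symm⟩]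

/-- a force is a tilt, up to a constant -/
theorem tilt_eq_force (f : V → ℝ) (η : Cfg V) : tilt (m.W η) (pr f) = fun s =>
    Real.exp (∑ x ∈ η.support \ m.A, f x * η x) * (m.force f).W η s := by
  funext s
  rw [Mdl.W_force, tilt]
  by_cases h : m.W η s = 0
  · simp [h]
  have hs := W_off h
  rw [pr_eq f s (T := η.support \ m.A ∪ m.A) fun x hx => Or.inl (by
      simp only [Finset.mem_union, Finset.mem_sdiff, not_or, not_and, not_not] at hx
      rw [hs x hx.2]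
      by_contra h
      exact hx.2 (hx.1 (Finsupp.mem_support_iff.2 h))), Finset.sum_union Finset.sdiff_disjoint,
    Real.exp_add, Finset.sum_congr rfl fun x hx => by rw [hs x (Finset.mem_sdiff.1 hx).2]]
  ring

theorem ex_force (f : V → ℝ) (η : Cfg V) (F : Cfg V → ℝ) :
    Ex ((m.force f).W η) F = Ex (tilt (m.W η) (pr f)) F := by
  rw [tilt_eq_force, ex_cmul (Real.exp_pos _).ne']

omit [DecidableEq V] in
theorem force_force (f g : V → ℝ) : (m.force f).force g = m.force (f + g) := by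
  simp only [Mdl.force, mul_assoc, ← Real.exp_add, Pi.add_apply, add_mul]

omit [DecidableEq V] in
theorem force_zero : m.force 0 = m := by simp [Mdl.force]

omit [DecidableEq V] in
theorem shift_zero : m.shift 0 = m := by simp [Mdl.shift]

omit [DecidableEq V] in
theorem free_self : m.free m.A = m := rfl

omit [DecidableEq V] in
theorem keep_self : m.keep m.ed = m := rfl

end ops

section loc
variable {L : Type*} [AddCommGroup L]

theorem loc_congr {ρ ρ' W W' : L → ℝ} {c c' : ℝ} (h : Loc ρ' ρ) (hc : c ≠ 0) (hc' : c' ≠ 0)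
    (e : ∀ s, ρ s = c * W s) (e' : ∀ s, ρ' s = c' * W' s) : Loc W' W := by
  rw [funext e, funext e'] at h
  exact ⟨fun f => by simpa only [M_smul _ hc, M_smul _ hc'] using h.1 f,
    fun G hG => by simpa only [ex_cmul hc, ex_cmul hc'] using h.2 G hG⟩

variable {V : Type} [DecidableEq V] {m : Mdl V}

/-- pins localise -/
theorem loc_free (h : m.Ctr) (hA : m.Anch) {A' : Finset V} (hA' : A' ⊆ m.A) :
    Loc ((m.free A').W 0) (m.W 0) :=
  loc_congr ((monoStmt _ _ (ctr_cen h hA)).1 _ (pd_off A') (fun _ => ind_nn _)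
    (by simp [ind])) one_ne_zero
    (Finset.prod_pos fun x hx => (h.2 x (Finset.mem_sdiff.1 hx).1).2.2).ne'
    (fun _ => (one_mul _).symm) fun s => by
      rw [mul_comm]; exact W_free hA' (η := 0) (t := 0) (fun _ _ => rfl) s

/-- edges localise -/
theorem loc_keep (h : m.Ctr) {E : Finset (V × V)} (hE : E ⊆ m.ed) (hA : (m.keep E).Anch) :
    Loc (m.W 0) ((m.keep E).W 0) := by
  rw [funext (W_keep hE 0)]
  exact (monoStmt _ _ (ctr_cen (ctr_keep h hE) hA)).1 _ (pd_edges h.1 Finset.sdiff_subset)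
    (fun _ => Finset.prod_nonneg fun _ he => (fm_pos h.1 (Finset.mem_sdiff.1 he).1 _).le)
    (Finset.prod_pos fun _ he => fm_pos h.1 (Finset.mem_sdiff.1 he).1 _)

/-- PD site factors localise -/
theorem loc_mulSite (h : m.Ctr) (hA : m.Anch) {u : V → ℤ → ℝ}
    (hu : ∀ x ∈ m.A, PD (u x) ∧ (∀ k, 0 ≤ u x k) ∧ 0 < u x 0) :
    Loc ((m.mulSite u).W 0) (m.W 0) := by
  rw [funext (m.W_mulSite u 0)]
  exact (monoStmt _ _ (ctr_cen h hA)).1 _ (pd_sites fun x hx => (hu x hx).1)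
    (fun _ => Finset.prod_nonneg fun x hx => (hu x hx).2.1 _)
    (Finset.prod_pos fun x hx => (hu x hx).2.2)

/-- variances decrease under localisation -/
theorem loc_vr {m' : Mdl V} (h : m.Ctr) (hA : m.Anch) (h' : m'.Ctr) (hA' : m'.Anch)
    (hL : Loc (m'.W 0) (m.W 0)) (f : Cfg V →+ ℝ) : Vr (m'.W 0) f f ≤ Vr (m.W 0) f f :=
  (monoStmt _ _ (ctr_cen h hA)).2.1 _ (ctr_wt h' hA' 0) (ctr_se h' hA' 0) (ctr_cen h' hA').even hL f

end loc

section markov
variable {V : Type*} [DecidableEq V] {m : Mdl V}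

/-- edges that do not touch the free sites are constant factors -/
theorem W_keep_far {E : Finset (V × V)} (hE : E ⊆ m.ed)
    (hf : ∀ e ∈ m.ed, e ∉ E → e.1 ∉ m.A ∧ e.2 ∉ m.A) (η s : Cfg V) :
    m.W η s = (∏ e ∈ m.ed \ E, m.w e (dE e η)) * (m.keep E).W η s := by
  rw [W_keep hE, mul_comm]
  by_cases h : (m.keep E).W η s = 0
  · rw [h, mul_zero, mul_zero]
  · congr 1
    refine Finset.prod_congr rfl fun e he => ?_
    obtain ⟨h1, h2⟩ := hf e (Finset.mem_sdiff.1 he).1 (Finset.mem_sdiff.1 he).2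
    rw [dE_congr (W_off h _ h1) (W_off h _ h2)]

theorem ex_keep_far (hF : m.Fm) {E : Finset (V × V)} (hE : E ⊆ m.ed)
    (hf : ∀ e ∈ m.ed, e ∉ E → e.1 ∉ m.A ∧ e.2 ∉ m.A) (η : Cfg V) (F : Cfg V → ℝ) :
    Ex (m.W η) F = Ex ((m.keep E).W η) F := by
  rw [funext (W_keep_far hE hf η),
    ex_cmul (Finset.prod_pos fun _ he => fm_pos hF (Finset.mem_sdiff.1 he).1 _).ne']

theorem ig_keep_far (hF : m.Fm) {E : Finset (V × V)} (hE : E ⊆ m.ed)
    (hf : ∀ e ∈ m.ed, e ∉ E → e.1 ∉ m.A ∧ e.2 ∉ m.A) (η : Cfg V) (F : Cfg V → ℝ) :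
    Ig (m.W η) F ↔ Ig ((m.keep E).W η) F := by
  rw [funext (W_keep_far hE hf η),
    ig_smul_iff (Finset.prod_pos fun _ he => fm_pos hF (Finset.mem_sdiff.1 he).1 _).ne']

theorem wt_keep_far (hF : m.Fm) {E : Finset (V × V)} (hE : E ⊆ m.ed)
    (hf : ∀ e ∈ m.ed, e ∉ E → e.1 ∉ m.A ∧ e.2 ∉ m.A) (η : Cfg V) :
    Wt (m.W η) ↔ Wt ((m.keep E).W η) := by
  have hc : 0 < ∏ e ∈ m.ed \ E, m.w e (dE e η) :=
    Finset.prod_pos fun _ he => fm_pos hF (Finset.mem_sdiff.1 he).1 _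
  rw [funext (W_keep_far hE hf η)]
  refine ⟨fun h => ?_, fun h => h.smul hc⟩
  simpa only [← mul_assoc, inv_mul_cancel₀ hc.ne', one_mul] using h.smul (inv_pos.2 hc)

/-- `η` and `η'` agree on the outer boundary of the free set -/
def BdEq (m : Mdl V) (η η' : Cfg V) : Prop :=
  ∀ e ∈ m.ed, (e.1 ∈ m.A → e.2 ∉ m.A → η e.2 = η' e.2) ∧ (e.2 ∈ m.A → e.1 ∉ m.A → η e.1 = η' e.1)

theorem W_markov {η η' : Cfg V} (h : BdEq m η η') (s : Cfg V) :
    (∏ e ∈ m.ed with (e.1 ∉ m.A ∧ e.2 ∉ m.A), m.w e (dE e η')) *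
        m.W η (s + (η - η').filter (· ∉ m.A)) =
      (∏ e ∈ m.ed with (e.1 ∉ m.A ∧ e.2 ∉ m.A), m.w e (dE e η)) * m.W η' s := by
  have hE : (m.ed.filter fun e => ¬ (e.1 ∉ m.A ∧ e.2 ∉ m.A)) ⊆ m.ed := Finset.filter_subset _ _
  have hf : ∀ e ∈ m.ed, e ∉ (m.ed.filter fun e => ¬ (e.1 ∉ m.A ∧ e.2 ∉ m.A)) →
      e.1 ∉ m.A ∧ e.2 ∉ m.A := fun e he h => by
    by_contra h'; exact h (Finset.mem_filter.2 ⟨he, h'⟩)
  have hs : m.ed \ (m.ed.filter fun e => ¬ (e.1 ∉ m.A ∧ e.2 ∉ m.A)) =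
      m.ed.filter fun e => e.1 ∉ m.A ∧ e.2 ∉ m.A := by
    rw [← Finset.filter_not]; simp only [not_not]
  have h1 : (m.keep (m.ed.filter fun e => ¬ (e.1 ∉ m.A ∧ e.2 ∉ m.A))).W η =
      (m.keep (m.ed.filter fun e => ¬ (e.1 ∉ m.A ∧ e.2 ∉ m.A))).W
        (η' + (η - η').filter (· ∉ m.A)) :=
    Mdl.W_congr _ fun x hx => by
      have hx' : x ∉ m.A := hx
      simp [hx']
  rw [W_keep_far hE hf η, W_keep_far hE hf η', hs, h1, W_far]
  · ring
  · intro x hx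
    have hx' : x ∈ m.A := hx
    simp [hx']
  · intro e he
    obtain ⟨he1, he2⟩ := Finset.mem_filter.1 he
    obtain ⟨h2, h3⟩ := h e he1
    by_cases a1 : e.1 ∈ m.A <;> by_cases a2 : e.2 ∈ m.A
    · simp [a1, a2]
    · simp [a1, a2, h2 a1 a2]
    · simp [a1, a2, h3 a2 a1]
    · exact absurd ⟨a1, a2⟩ he2

theorem add_filter_eq {η η' s : Cfg V} (hs : ∀ x, x ∉ m.A → s x = η' x) :
    s + (η - η').filter (· ∉ m.A) = pw m.A s η := by
  ext x
  rw [pw_apply]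
  split_ifs with hx
  · simp [hx]
  · simp [hx, hs x hx]

/-- Markov property -/
theorem markov (hF : m.Fm) {η η' : Cfg V} (h : BdEq m η η') (F : Cfg V → ℝ) :
    Ex (m.W η) F = Ex (m.W η') fun s => F (pw m.A s η) := by
  have c1 : (∏ e ∈ m.ed with (e.1 ∉ m.A ∧ e.2 ∉ m.A), m.w e (dE e η')) ≠ 0 :=
    (Finset.prod_pos fun _ he => fm_pos hF (Finset.mem_filter.1 he).1 _).ne'
  have c2 : (∏ e ∈ m.ed with (e.1 ∉ m.A ∧ e.2 ∉ m.A), m.w e (dE e η)) ≠ 0 :=
    (Finset.prod_pos fun _ he => fm_pos hF (Finset.mem_filter.1 he).1 _).ne'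
  rw [← ex_equiv (Equiv.addRight ((η - η').filter (· ∉ m.A))) (m.W η) F, ← ex_cmul c1]
  simp only [Equiv.coe_addRight, W_markov h]
  rw [ex_cmul c2]
  exact ex_congr fun s hs => by rw [add_filter_eq (W_off hs)]

theorem ig_markov (hF : m.Fm) {η η' : Cfg V} (h : BdEq m η η') (F : Cfg V → ℝ) :
    Ig (m.W η) F ↔ Ig (m.W η') fun s => F (pw m.A s η) := by
  have c1 : (∏ e ∈ m.ed with (e.1 ∉ m.A ∧ e.2 ∉ m.A), m.w e (dE e η')) ≠ 0 :=
    (Finset.prod_pos fun _ he => fm_pos hF (Finset.mem_filter.1 he).1 _).ne'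
  have c2 : (∏ e ∈ m.ed with (e.1 ∉ m.A ∧ e.2 ∉ m.A), m.w e (dE e η)) ≠ 0 :=
    (Finset.prod_pos fun _ he => fm_pos hF (Finset.mem_filter.1 he).1 _).ne'
  rw [← ig_equiv (Equiv.addRight ((η - η').filter (· ∉ m.A))) (m.W η) F, ← ig_smul_iff c1]
  simp only [Equiv.coe_addRight, W_markov h]
  rw [ig_smul_iff c2]
  exact ig_congr fun s hs => by rw [add_filter_eq (W_off hs)]

/-- Markov property for an observable read on `S` -/
theorem markov_dep (hF : m.Fm) {η η' : Cfg V} (h : BdEq m η η') {S : Finset V} {F : Cfg V → ℝ}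
    (hS : ∀ s s' : Cfg V, (∀ x ∈ S, s x = s' x) → F s = F s')
    (hη : ∀ x ∈ S, x ∉ m.A → η x = η' x) : Ex (m.W η) F = Ex (m.W η') F := by
  rw [markov hF h]
  refine ex_congr fun s hs => hS _ _ fun x hx => ?_
  rw [pw_apply]
  split_ifs with hA
  · rfl
  · rw [hη x hx hA, W_off hs x hA]

/-- no edge joins `A₁` to `A₂` -/
def Sep (m : Mdl V) (A₁ A₂ : Finset V) : Prop :=
  Disjoint A₁ A₂ ∧ ∀ e ∈ m.ed, (e.1 ∈ A₁ → e.2 ∉ A₂) ∧ (e.2 ∈ A₁ → e.1 ∉ A₂)

theorem W_split {A₁ A₂ : Finset V} (hA : m.A = A₁ ∪ A₂) (hS : Sep m A₁ A₂) (η r : Cfg V) :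
    (m.free A₁).W η (pw A₁ r η) * (m.free A₂).W η (pw A₁ η r) =
      (∏ e ∈ m.ed, m.w e (dE e η)) * m.W η r := by
  have hd : ∀ x ∈ A₂, x ∉ A₁ := fun x hx h => Finset.disjoint_left.1 hS.1 h hx
  have hi : (∀ x, x ∉ A₂ → pw A₁ η r x = η x) ↔ ∀ x, x ∉ m.A → r x = η x := by
    simp only [hA, Finset.mem_union, not_or, pw_apply]
    constructor
    · intro h x hx
      simpa [hx.1] using h x hx.2
    · intro h x hx
      split_ifs with h1
      · rfl
      · exact h x ⟨h1, hx⟩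
  simp only [Mdl.W, Mdl.free]
  rw [ind_pos fun x hx => pw_not hx r η, ind_iff hi]
  by_cases hr : ∀ x, x ∉ m.A → r x = η x
  swap
  · rw [ind_neg hr]; ring
  have e1 : (∏ e ∈ m.ed, m.w e (dE e (pw A₁ r η))) * ∏ e ∈ m.ed, m.w e (dE e (pw A₁ η r)) =
      (∏ e ∈ m.ed, m.w e (dE e η)) * ∏ e ∈ m.ed, m.w e (dE e r) := by
    rw [← Finset.prod_mul_distrib, ← Finset.prod_mul_distrib]
    refine Finset.prod_congr rfl fun e he => ?_
    have k : ∀ x, x ∉ A₁ → x ∉ A₂ → r x = η x := fun x h1 h2 =>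
      hr x (by rw [hA, Finset.mem_union, not_or]; exact ⟨h1, h2⟩)
    obtain ⟨s1, s2⟩ := hS.2 e he
    by_cases a1 : e.1 ∈ A₁ <;> by_cases a2 : e.2 ∈ A₁
    · rw [dE_congr (pw_mem a1 r η) (pw_mem a2 r η), dE_congr (pw_mem a1 η r) (pw_mem a2 η r),
        mul_comm]
    · rw [dE_congr (pw_mem a1 r η) ((pw_not a2 r η).trans (k _ a2 (s1 a1)).symm),
        dE_congr (pw_mem a1 η r) ((pw_not a2 η r).trans (k _ a2 (s1 a1))), mul_comm]
    · rw [dE_congr ((pw_not a1 r η).trans (k _ a1 (s2 a2)).symm) (pw_mem a2 r η),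
        dE_congr ((pw_not a1 η r).trans (k _ a1 (s2 a2))) (pw_mem a2 η r), mul_comm]
    · rw [dE_congr (pw_not a1 r η) (pw_not a2 r η), dE_congr (pw_not a1 η r) (pw_not a2 η r)]
  have e2 : ∏ x ∈ A₁, m.site x (pw A₁ r η x) = ∏ x ∈ A₁, m.site x (r x) :=
    Finset.prod_congr rfl fun x hx => by rw [pw_mem hx]
  have e3 : ∏ x ∈ A₂, m.site x (pw A₁ η r x) = ∏ x ∈ A₂, m.site x (r x) :=
    Finset.prod_congr rfl fun x hx => by rw [pw_not (hd x hx)]
  rw [ind_pos hr, e2, e3, hA, Finset.prod_union hS.1]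
  linear_combination (∏ x ∈ A₁, m.site x (r x)) * (∏ x ∈ A₂, m.site x (r x)) * e1

/-- independence of two separated regions, `HasSum` form -/
theorem hasSum_split {A₁ A₂ : Finset V} (hA : m.A = A₁ ∪ A₂) (hS : Sep m A₁ A₂) (η : Cfg V)
    {F₁ F₂ : Cfg V → ℝ} (h₁ : ∀ s t : Cfg V, (∀ x, x ∉ A₂ → s x = t x) → F₁ s = F₁ t)
    (h₂ : ∀ s t : Cfg V, (∀ x, x ∉ A₁ → s x = t x) → F₂ s = F₂ t) {a b : ℝ}
    (ha : HasSum (fun s => (m.free A₁).W η s * F₁ s) a)
    (hb : HasSum (fun s => (m.free A₂).W η s * F₂ s) b) :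
    HasSum (fun r => (∏ e ∈ m.ed, m.w e (dE e η)) * (m.W η r * (F₁ r * F₂ r))) (a * b) := by
  have h := band_hasSum (pw_pw_left A₁) (pw_pw_right A₁) (pw_self A₁) η ha hb
    (fun s hs => pw_eq_left (W_off (left_ne_zero_of_mul hs)))
    (fun s hs => pw_eq_right fun x hx =>
      W_off (left_ne_zero_of_mul hs) x (Finset.disjoint_left.1 hS.1 hx))
  refine Bes66.hs_congr h (fun r => ?_) rfl
  rw [mul_mul_mul_comm, W_split hA hS, mul_assoc]
  by_cases hr : m.W η r = 0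
  · simp [hr]
  rw [h₁ (pw A₁ r η) r, h₂ (pw A₁ η r) r fun x hx => pw_not hx _ _]
  intro x hx
  rw [pw_apply]
  split_ifs with h1
  · rfl
  · exact (W_off hr x (by rw [hA, Finset.mem_union, not_or]; exact ⟨h1, hx⟩)).symm

theorem zs_split {A₁ A₂ : Finset V} (hA : m.A = A₁ ∪ A₂) (hS : Sep m A₁ A₂) {η : Cfg V}
    (h₁ : Summable ((m.free A₁).W η)) (h₂ : Summable ((m.free A₂).W η)) :
    HasSum (fun r => (∏ e ∈ m.ed, m.w e (dE e η)) * m.W η r)
      (Zs ((m.free A₁).W η) * Zs ((m.free A₂).W η)) := by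
  simpa only [mul_one] using hasSum_split hA hS η (F₁ := fun _ => 1) (F₂ := fun _ => 1)
    (fun _ _ _ => rfl) (fun _ _ _ => rfl) (by simp only [mul_one]; exact h₁.hasSum)
    (by simp only [mul_one]; exact h₂.hasSum)

/-- independence of two separated regions -/
theorem ex_split (hF : m.Fm) {A₁ A₂ : Finset V} (hA : m.A = A₁ ∪ A₂) (hS : Sep m A₁ A₂) {η : Cfg V}
    {F₁ F₂ : Cfg V → ℝ} (h₁ : ∀ s t : Cfg V, (∀ x, x ∉ A₂ → s x = t x) → F₁ s = F₁ t)
    (h₂ : ∀ s t : Cfg V, (∀ x, x ∉ A₁ → s x = t x) → F₂ s = F₂ t)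
    (w₁ : Summable ((m.free A₁).W η)) (w₂ : Summable ((m.free A₂).W η))
    (i₁ : Ig ((m.free A₁).W η) F₁) (i₂ : Ig ((m.free A₂).W η) F₂) :
    Ig (m.W η) (fun s => F₁ s * F₂ s) ∧
      Ex (m.W η) (fun s => F₁ s * F₂ s) = Ex ((m.free A₁).W η) F₁ * Ex ((m.free A₂).W η) F₂ := by
  have hc : (∏ e ∈ m.ed, m.w e (dE e η)) ≠ 0 := (Finset.prod_pos fun _ he => fm_pos hF he _).ne'
  have h := hasSum_split hA hS η h₁ h₂ i₁.hasSum i₂.hasSum
  have h' := zs_split hA hS w₁ w₂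
  refine ⟨(summable_mul_left_iff hc).1 h.summable, ?_⟩
  rw [← ex_cmul hc, Ex, Ex, Ex, div_mul_div_comm]
  simp only [mul_assoc]
  rw [h.tsum_eq, h'.tsum_eq]
  rfl

theorem summable_split (hF : m.Fm) {A₁ A₂ : Finset V} (hA : m.A = A₁ ∪ A₂) (hS : Sep m A₁ A₂)
    {η : Cfg V} (w₁ : Summable ((m.free A₁).W η)) (w₂ : Summable ((m.free A₂).W η)) :
    Summable (m.W η) :=
  (summable_mul_left_iff (Finset.prod_pos fun _ he => fm_pos hF he _).ne').1
    (zs_split hA hS w₁ w₂).summable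

/-- independence of finitely many pairwise separated regions -/
theorem ex_prod (hF : m.Fm) {ι : Type*} (I : Finset ι) (B : ι → Finset V) (η : Cfg V)
    {F : ι → Cfg V → ℝ} (hS : ∀ i ∈ I, ∀ j ∈ I, i ≠ j → Sep m (B i) (B j))
    (hD : ∀ i ∈ I, ∀ s t : Cfg V, (∀ x, (∀ j ∈ I, j ≠ i → x ∉ B j) → s x = t x) → F i s = F i t)
    (hW : ∀ i ∈ I, Summable ((m.free (B i)).W η)) (hI : ∀ i ∈ I, Ig ((m.free (B i)).W η) (F i)) :
    Summable ((m.free (I.biUnion B)).W η) ∧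
      Ig ((m.free (I.biUnion B)).W η) (fun s => ∏ i ∈ I, F i s) ∧
      Ex ((m.free (I.biUnion B)).W η) (fun s => ∏ i ∈ I, F i s) =
        ∏ i ∈ I, Ex ((m.free (B i)).W η) (F i) := by
  classical
  induction I using Finset.induction_on with
  | empty =>
    have h0 : ∀ s, s ≠ η → (m.free ∅).W η s = 0 := fun s hs => by
      by_contra h
      exact hs (Finsupp.ext fun x => W_off h x (Finset.notMem_empty x))
    have hs : Summable ((m.free ∅).W η) := (hasSum_single η h0).summable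
    simp only [Finset.biUnion_empty, Finset.prod_empty]
    refine ⟨hs, Ig.const hs 1, ?_⟩
    rw [Ex]
    simp only [mul_one]
    refine div_self ?_
    rw [tsum_eq_single η h0]
    exact (W_pos (m := m.free ∅) hF (fun _ _ => rfl) fun _ hx => absurd hx (Finset.notMem_empty _)).ne'
  | insert i I hi ih =>
    have mi := Finset.mem_insert_self i I
    have mj : ∀ j ∈ I, j ∈ insert i I := fun j hj => Finset.mem_insert_of_mem hj
    have nj : ∀ j ∈ I, j ≠ i := fun j hj h => hi (h ▸ hj)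
    obtain ⟨a1, a2, a3⟩ := ih (fun j hj k hk => hS j (mj j hj) k (mj k hk))
      (fun j hj s t h => hD j (mj j hj) s t fun x hx => h x fun k hk => hx k (mj k hk))
      (fun j hj => hW j (mj j hj)) fun j hj => hI j (mj j hj)
    have hsep : Sep (m.free ((insert i I).biUnion B)) (B i) (I.biUnion B) := by
      refine ⟨(Finset.disjoint_biUnion_right _ _ _).2 fun j hj =>
        (hS i mi j (mj j hj) (nj j hj).symm).1, fun e he => ⟨fun h h' => ?_, fun h h' => ?_⟩⟩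
      · obtain ⟨j, hj, h'⟩ := Finset.mem_biUnion.1 h'
        exact ((hS i mi j (mj j hj) (nj j hj).symm).2 e he).1 h h'
      · obtain ⟨j, hj, h'⟩ := Finset.mem_biUnion.1 h'
        exact ((hS i mi j (mj j hj) (nj j hj).symm).2 e he).2 h h'
    have hA : (m.free ((insert i I).biUnion B)).A = B i ∪ I.biUnion B := Finset.biUnion_insert
    have h := ex_split (m := m.free ((insert i I).biUnion B)) hF hA hsep (F₁ := F i)
      (F₂ := fun s => ∏ j ∈ I, F j s)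
      (fun s t h => hD i mi s t fun x hx => h x fun h' => by
        obtain ⟨j, hj, h'⟩ := Finset.mem_biUnion.1 h'
        exact hx j (mj j hj) (nj j hj) h')
      (fun s t h => Finset.prod_congr rfl fun j hj => hD j (mj j hj) s t fun x hx =>
        h x (hx i mi (nj j hj).symm))
      (hW i mi) a1 (hI i mi) a2
    simp only [Finset.prod_insert hi]
    exact ⟨summable_split (m := m.free ((insert i I).biUnion B)) hF hA hsep (hW i mi) a1, h.1,
      h.2.trans (by rw [← a3]; rfl)⟩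

end markov

section bonds
variable {V : Type*} [DecidableEq V] {m : Mdl V}

theorem J_sub_fib {A' : Finset V} {E : Finset (V × V)} (hA : A' ⊆ m.A) (hE : E ⊆ m.ed)
    (hf : ∀ e ∈ m.ed, e ∉ E → e.1 ∉ A' ∧ e.2 ∉ A') (h : ℤ) {η : Cfg V}
    {p : Cfg V × Finset (V × V)} (hp : m.J h η p ≠ 0) (p' : Cfg V × Finset (V × V)) :
    ind (((sdE (p.2 \ E) p').1.filter (· ∉ A'), (sdE (p.2 \ E) p').2 \ E) =
        (p.1.filter (· ∉ A'), p.2 \ E)) * m.J h η (sdE (p.2 \ E) p') =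
      ((∏ e ∈ m.ed \ E, m.bw h p.1 e (e ∈ p.2)) * ∏ x ∈ m.A \ A', m.site x (p.1 x)) *
        ((m.free A').keep E).J h p.1 p' := by
  obtain ⟨s, ω⟩ := p
  obtain ⟨s', ω'⟩ := p'
  have hs : ∀ x, x ∉ m.A → s x = η x := J_off hp
  have hω : ω ⊆ m.ed := J_sub hp
  simp only [sdE, Equiv.coe_fn_mk, Prod.mk.injEq, filter_not_eq_iff]
  by_cases hc : (∀ x, x ∉ A' → s' x = s x) ∧ ω' ⊆ E
  · have e0 : symmDiff ω' (ω \ E) = ω' ∪ ω \ E :=
      Disjoint.symmDiff_eq_sup (Finset.disjoint_left.2 fun e he he' =>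
        (Finset.mem_sdiff.1 he').2 (hc.2 he))
    have e1 : (ω' ∪ ω \ E) \ E = ω \ E := by
      ext e
      simp only [Finset.mem_sdiff, Finset.mem_union]
      exact ⟨fun h => h.1.resolve_left fun h' => h.2 (hc.2 h'), fun h => ⟨Or.inr h, h.2⟩⟩
    have h1 : ∀ x, x ∉ m.A → s' x = η x := fun x hx => by
      rw [hc.1 x fun h => hx (hA h), hs x hx]
    have h2 : ω' ∪ ω \ E ⊆ m.ed :=
      Finset.union_subset (hc.2.trans hE) (Finset.sdiff_subset.trans hω)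
    have e2 : ∏ e ∈ m.ed \ E, m.bw h s' e (e ∈ ω' ∪ ω \ E) = ∏ e ∈ m.ed \ E, m.bw h s e (e ∈ ω) := by
      refine Finset.prod_congr rfl fun e he => ?_
      obtain ⟨a1, a2⟩ := Finset.mem_sdiff.1 he
      refine bw_congr m h (hc.1 _ (hf e a1 a2).1) (hc.1 _ (hf e a1 a2).2) ?_
      simp only [Finset.mem_union, Finset.mem_sdiff]
      exact ⟨fun h => (h.resolve_left fun h' => a2 (hc.2 h')).1, fun h => Or.inr ⟨h, a2⟩⟩
    have e3 : ∏ e ∈ E, m.bw h s' e (e ∈ ω' ∪ ω \ E) = ∏ e ∈ E, m.bw h s' e (e ∈ ω') := by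
      refine Finset.prod_congr rfl fun e he => bw_congr m h rfl rfl ?_
      simp only [Finset.mem_union, Finset.mem_sdiff]
      exact ⟨fun h => h.resolve_right fun h' => h'.2 he, Or.inl⟩
    have e4 : ∏ x ∈ m.A \ A', m.site x (s' x) = ∏ x ∈ m.A \ A', m.site x (s x) :=
      Finset.prod_congr rfl fun x hx => by rw [hc.1 x (Finset.mem_sdiff.1 hx).2]
    have hb : ∀ e (o : Prop) [Decidable o], ((m.free A').keep E).bw h s' e o = m.bw h s' e o :=
      fun _ _ _ => rfl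
    rw [e0, ind_pos ⟨hc.1, e1⟩]
    simp only [Mdl.J, hb]
    simp only [Mdl.free, Mdl.keep]
    rw [ind_pos h1, ind_pos h2, ind_pos hc.1, ind_pos hc.2, ← Finset.prod_sdiff hE,
      ← Finset.prod_sdiff hA, e2, e3, e4]
    ring
  · have hR : ((m.free A').keep E).J h s (s', ω') = 0 := by
      by_contra hR
      exact hc ⟨J_off hR, J_sub hR⟩
    rw [hR, mul_zero, ind_neg, zero_mul]
    rintro ⟨h1, h2⟩
    refine hc ⟨h1, fun e he => ?_⟩
    by_contra heE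
    by_cases heI : e ∈ ω \ E
    · have : e ∈ symmDiff ω' (ω \ E) \ E := by rw [h2]; exact heI
      rcases Finset.mem_symmDiff.1 (Finset.mem_sdiff.1 this).1 with h | h
      · exact h.2 heI
      · exact h.2 he
    · exact heI (h2 ▸ Finset.mem_sdiff.2 ⟨Finset.mem_symmDiff.2 (Or.inl ⟨he, heI⟩), heE⟩)

/-- DLR for heights and bonds: resample the heights on `A'` and the bonds of `E` -/
theorem dlrJ {A' : Finset V} {E : Finset (V × V)} (hA : A' ⊆ m.A) (hE : E ⊆ m.ed)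
    (hf : ∀ e ∈ m.ed, e ∉ E → e.1 ∉ A' ∧ e.2 ∉ A') (h : ℤ) (η : Cfg V)
    {F : Cfg V × Finset (V × V) → ℝ} (hW : Wt (m.J h η)) (hF : Ig (m.J h η) F) :
    Ig (m.J h η) (fun p => Ex (((m.free A').keep E).J h p.1) fun p' => F (p'.1, p'.2 ∪ p.2 \ E)) ∧
      Ex (m.J h η) F = Ex (m.J h η) fun p =>
        Ex (((m.free A').keep E).J h p.1) fun p' => F (p'.1, p'.2 ∪ p.2 \ E) := by
  refine tower (fun p : Cfg V × Finset (V × V) => (p.1.filter (· ∉ A'), p.2 \ E)) hW.nonneg hW.summ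
    hF fun p hp => ?_
  have hc : ((∏ e ∈ m.ed \ E, m.bw h p.1 e (e ∈ p.2)) * ∏ x ∈ m.A \ A', m.site x (p.1 x)) ≠ 0 := by
    have := J_sub_fib hA hE hf h hp ((sdE (p.2 \ E)).symm p)
    rw [Equiv.apply_symm_apply, ind_pos rfl, one_mul] at this
    rw [this] at hp
    exact left_ne_zero_of_mul hp
  rw [← ex_equiv (sdE (p.2 \ E)) (fun q => ind ((q.1.filter (· ∉ A'), q.2 \ E) =
    (p.1.filter (· ∉ A'), p.2 \ E)) * m.J h η q) F, funext (J_sub_fib hA hE hf h hp), ex_cmul hc]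
  refine ex_congr fun p' hp' => ?_
  simp only [sdE, Equiv.coe_fn_mk]
  have h2 : p'.2 ⊆ E := J_sub hp'
  rw [Disjoint.symmDiff_eq_sup (Finset.disjoint_left.2 fun e he (he' : e ∈ p.2 \ E) =>
    (Finset.mem_sdiff.1 he').2 (h2 he))]
  rfl

/-- DLR for heights and bonds with a factor read outside -/
theorem dlrJ_mul {A' : Finset V} {E : Finset (V × V)} (hA : A' ⊆ m.A) (hE : E ⊆ m.ed)
    (hf : ∀ e ∈ m.ed, e ∉ E → e.1 ∉ A' ∧ e.2 ∉ A') (h : ℤ) (η : Cfg V)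
    {F H : Cfg V × Finset (V × V) → ℝ} (hW : Wt (m.J h η))
    (hH : ∀ p q, (∀ x, x ∉ A' → p.1 x = q.1 x) → p.2 \ E = q.2 \ E → H p = H q)
    (hF : Ig (m.J h η) fun p => H p * F p) :
    Ig (m.J h η) (fun p => H p *
        Ex (((m.free A').keep E).J h p.1) fun p' => F (p'.1, p'.2 ∪ p.2 \ E)) ∧
      Ex (m.J h η) (fun p => H p * F p) = Ex (m.J h η) fun p => H p *
        Ex (((m.free A').keep E).J h p.1) fun p' => F (p'.1, p'.2 ∪ p.2 \ E) := by
  have h1 := dlrJ hA hE hf h η hW hF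
  have e : ∀ p : Cfg V × Finset (V × V), (Ex (((m.free A').keep E).J h p.1) fun p' =>
      H (p'.1, p'.2 ∪ p.2 \ E) * F (p'.1, p'.2 ∪ p.2 \ E)) =
      H p * Ex (((m.free A').keep E).J h p.1) fun p' => F (p'.1, p'.2 ∪ p.2 \ E) := by
    intro p
    rw [← ex_mul_const]
    refine ex_congr fun p' hp' => ?_
    rw [hH (p'.1, p'.2 ∪ p.2 \ E) p (J_off hp')]
    have h2 : p'.2 ⊆ E := J_sub hp'
    ext e
    simp only [Finset.mem_sdiff, Finset.mem_union]
    exact ⟨fun h => h.1.resolve_left fun h' => h.2 (h2 h'), fun h => ⟨Or.inr h, h.2⟩⟩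
  simpa only [e] using h1

theorem J_split {A₁ A₂ : Finset V} {E : Finset (V × V)} (hA : m.A = A₁ ∪ A₂) (hd : Disjoint A₁ A₂)
    (hE : E ⊆ m.ed) (h₁ : ∀ e ∈ E, e.1 ∉ A₂ ∧ e.2 ∉ A₂)
    (h₂ : ∀ e ∈ m.ed, e ∉ E → e.1 ∉ A₁ ∧ e.2 ∉ A₁) (h : ℤ) (η s : Cfg V) (ω : Finset (V × V)) :
    ((m.free A₁).keep E).J h η (pw A₁ s η, ω ∩ E) *
      ((m.free A₂).keep (m.ed \ E)).J h η (pw A₁ η s, ω \ E) = m.J h η (s, ω) := by
  have hd' : ∀ x ∈ A₂, x ∉ A₁ := fun x hx h => Finset.disjoint_left.1 hd h hx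
  have hi : (∀ x, x ∉ A₂ → pw A₁ η s x = η x) ↔ ∀ x, x ∉ m.A → s x = η x := by
    simp only [hA, Finset.mem_union, not_or, pw_apply]
    constructor
    · intro h x hx
      simpa [hx.1] using h x hx.2
    · intro h x hx
      split_ifs with h1
      · rfl
      · exact h x ⟨h1, hx⟩
  have hj : ω \ E ⊆ m.ed \ E ↔ ω ⊆ m.ed := by
    refine ⟨fun h e he => ?_, fun h => Finset.sdiff_subset_sdiff h le_rfl⟩
    by_cases heE : e ∈ E
    · exact hE heE
    · exact (Finset.mem_sdiff.1 (h (Finset.mem_sdiff.2 ⟨he, heE⟩))).1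
  have hb : ∀ A' E' t e (o : Prop) [Decidable o],
      ((m.free A').keep E').bw h t e o = m.bw h t e o := fun _ _ _ _ _ _ => rfl
  simp only [Mdl.J, hb]
  simp only [Mdl.free, Mdl.keep]
  rw [ind_pos fun x hx => pw_not hx s η, ind_pos Finset.inter_subset_right, ind_iff hi, ind_iff hj]
  by_cases hr : ∀ x, x ∉ m.A → s x = η x
  swap
  · rw [ind_neg hr]; ring
  have k : ∀ x, x ∉ A₂ → pw A₁ s η x = s x := fun x hx => by
    rw [pw_apply]
    split_ifs with h1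
    · rfl
    · exact (hr x (by rw [hA, Finset.mem_union, not_or]; exact ⟨h1, hx⟩)).symm
  have e1 : ∏ e ∈ E, m.bw h (pw A₁ s η) e (e ∈ ω ∩ E) = ∏ e ∈ E, m.bw h s e (e ∈ ω) :=
    Finset.prod_congr rfl fun e he => bw_congr m h (k _ (h₁ e he).1) (k _ (h₁ e he).2)
      (by simp [he])
  have e2 : ∏ e ∈ m.ed \ E, m.bw h (pw A₁ η s) e (e ∈ ω \ E) =
      ∏ e ∈ m.ed \ E, m.bw h s e (e ∈ ω) :=
    Finset.prod_congr rfl fun e he => by
      obtain ⟨a1, a2⟩ := Finset.mem_sdiff.1 he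
      exact bw_congr m h (pw_not (h₂ e a1 a2).1 _ _) (pw_not (h₂ e a1 a2).2 _ _) (by simp [a2])
  have e3 : ∏ x ∈ A₁, m.site x (pw A₁ s η x) = ∏ x ∈ A₁, m.site x (s x) :=
    Finset.prod_congr rfl fun x hx => by rw [pw_mem hx]
  have e4 : ∏ x ∈ A₂, m.site x (pw A₁ η s x) = ∏ x ∈ A₂, m.site x (s x) :=
    Finset.prod_congr rfl fun x hx => by rw [pw_not (hd' x hx)]
  rw [e1, e2, e3, e4, ← Finset.prod_sdiff hE, hA, Finset.prod_union hd]
  ring

/-- independence of two separated regions, heights and bonds -/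
theorem hasSumJ_split {A₁ A₂ : Finset V} {E : Finset (V × V)} (hA : m.A = A₁ ∪ A₂)
    (hd : Disjoint A₁ A₂) (hE : E ⊆ m.ed) (h₁ : ∀ e ∈ E, e.1 ∉ A₂ ∧ e.2 ∉ A₂)
    (h₂ : ∀ e ∈ m.ed, e ∉ E → e.1 ∉ A₁ ∧ e.2 ∉ A₁) (h : ℤ) (η : Cfg V)
    {F₁ F₂ : Cfg V × Finset (V × V) → ℝ} {a b : ℝ}
    (ha : HasSum (fun p => ((m.free A₁).keep E).J h η p * F₁ p) a)
    (hb : HasSum (fun p => ((m.free A₂).keep (m.ed \ E)).J h η p * F₂ p) b) :
    HasSum (fun p => m.J h η p * (F₁ (pw A₁ p.1 η, p.2 ∩ E) * F₂ (pw A₁ η p.1, p.2 \ E)))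
      (a * b) := by
  have h0 := band_hasSum (p := fun p q : Cfg V × Finset (V × V) =>
      (pw A₁ p.1 q.1, p.2 ∩ E ∪ q.2 \ E))
    (fun a b c => Prod.ext (pw_pw_left _ _ _ _) (by
      ext e
      simp only [Finset.mem_union, Finset.mem_inter, Finset.mem_sdiff]
      by_cases he : e ∈ E <;> simp [he]))
    (fun a b c => Prod.ext (pw_pw_right _ _ _ _) (by
      ext e
      simp only [Finset.mem_union, Finset.mem_inter, Finset.mem_sdiff]
      by_cases he : e ∈ E <;> simp [he]))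
    (fun a => Prod.ext (pw_self _ _) (by
      ext e
      simp only [Finset.mem_union, Finset.mem_inter, Finset.mem_sdiff]
      by_cases he : e ∈ E <;> simp [he])) (η, ∅) ha hb
    (fun p hp => Prod.ext (pw_eq_left (J_off (left_ne_zero_of_mul hp))) (by
      have : p.2 ⊆ E := J_sub (left_ne_zero_of_mul hp)
      simp [this]))
    (fun p hp => Prod.ext (pw_eq_right fun x hx =>
      J_off (left_ne_zero_of_mul hp) x (Finset.disjoint_left.1 hd hx)) (by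
      have : p.2 ⊆ m.ed \ E := J_sub (left_ne_zero_of_mul hp)
      simp only [Finset.empty_inter, Finset.empty_union]
      exact Finset.sdiff_eq_self_of_disjoint (Finset.disjoint_left.2 fun e he =>
        (Finset.mem_sdiff.1 (this he)).2)))
  refine Bes66.hs_congr h0 (fun r => ?_) rfl
  simp only [Finset.empty_sdiff, Finset.union_empty, Finset.empty_inter, Finset.empty_union]
  rw [mul_mul_mul_comm, J_split hA hd hE h₁ h₂]

theorem exJ_split {A₁ A₂ : Finset V} {E : Finset (V × V)} (hA : m.A = A₁ ∪ A₂)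
    (hd : Disjoint A₁ A₂) (hE : E ⊆ m.ed) (h₁ : ∀ e ∈ E, e.1 ∉ A₂ ∧ e.2 ∉ A₂)
    (h₂ : ∀ e ∈ m.ed, e ∉ E → e.1 ∉ A₁ ∧ e.2 ∉ A₁) (h : ℤ) (η : Cfg V)
    {F₁ F₂ : Cfg V × Finset (V × V) → ℝ} (w₁ : Summable (((m.free A₁).keep E).J h η))
    (w₂ : Summable (((m.free A₂).keep (m.ed \ E)).J h η))
    (i₁ : Ig (((m.free A₁).keep E).J h η) F₁) (i₂ : Ig (((m.free A₂).keep (m.ed \ E)).J h η) F₂) :
    Summable (m.J h η) ∧
      Ig (m.J h η) (fun p => F₁ (pw A₁ p.1 η, p.2 ∩ E) * F₂ (pw A₁ η p.1, p.2 \ E)) ∧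
      Ex (m.J h η) (fun p => F₁ (pw A₁ p.1 η, p.2 ∩ E) * F₂ (pw A₁ η p.1, p.2 \ E)) =
        Ex (((m.free A₁).keep E).J h η) F₁ * Ex (((m.free A₂).keep (m.ed \ E)).J h η) F₂ := by
  have a1 := hasSumJ_split hA hd hE h₁ h₂ h η i₁.hasSum i₂.hasSum
  have a2 := hasSumJ_split hA hd hE h₁ h₂ h η (F₁ := fun _ => 1) (F₂ := fun _ => 1)
    (Ig.const w₁ 1).hasSum (Ig.const w₂ 1).hasSum
  simp only [mul_one] at a2
  refine ⟨a2.summable, a1.summable, ?_⟩
  rw [Ex, Ex, Ex, div_mul_div_comm, a1.tsum_eq, a2.tsum_eq]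

end bonds

end Md

end Crest.Agent.T145
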