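import Crest.Agent.T145.NcDef_78
import Crest.Agent.T145.Dens_52
import Crest.Agent.T145.CutP_7
import Crest.Agent.T145.CorB_59
import Crest.Agent.T145.MdlD_73
import Crest.Agent.T145.ApiL_98

/-!
# Row 145: API for the definitions of `NcDef_78` (helper78)
-/

set_option autoImplicit false
set_option linter.unusedSectionVars false

namespace Crest.Agent.T145.Nc

open Finset

section gen
variable {V : Type*} [DecidableEq V] {m m' : Mdl V} {U S K N T X B : Finset V} {r : V}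

/-! ### flatness -/

/-- the gradients inside `S` -/
noncomputable def flH (S : Finset V) : Cfg V →+ (V × V → ℤ) where
  toFun s p := if p.1 ∈ S ∧ p.2 ∈ S then s p.1 - s p.2 else 0
  map_zero' := by funext p; simp
  map_add' s t := by
    funext p; simp only [Finsupp.add_apply, Pi.add_apply]; split_ifs <;> ring

theorem flH_apply (S : Finset V) (s : Cfg V) (p : V × V) :
    flH S s p = if p.1 ∈ S ∧ p.2 ∈ S then s p.1 - s p.2 else 0 := rfl

theorem flH_eq_iff {s t : Cfg V} :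
    flH S s = flH S t ↔ ∀ x ∈ S, ∀ y ∈ S, s x - s y = t x - t y := by
  refine ⟨fun h x hx y hy => ?_, fun h => funext fun p => ?_⟩
  · have := congrFun h (x, y); simpa [flH_apply, hx, hy] using this
  · simp only [flH_apply]; split_ifs with hp
    exacts [h _ hp.1 _ hp.2, rfl]

theorem fl_iff {s : Cfg V} : Fl S s ↔ flH S s = 0 := by
  rw [← map_zero (flH S), flH_eq_iff]; simp [Fl, sub_eq_zero]

theorem pd_fl (S : Finset V) : PD fun s : Cfg V => ind (Fl S s) := by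
  simpa only [fl_iff] using pd_ind (flH S)

omit [DecidableEq V] in
theorem Fl.mono {s : Cfg V} (h : Fl S s) (hK : K ⊆ S) : Fl K s :=
  fun x hx y hy => h x (hK hx) y (hK hy)

omit [DecidableEq V] in
theorem fl_zero (S : Finset V) : Fl S 0 := fun _ _ _ _ => rfl

omit [DecidableEq V] in
theorem depG_Fl (S : Finset V) : DepG S (Fl S) := fun s s' h e => propext
  ⟨fun H x hx y hy => by rw [e x hx, e y hy, H x hx y hy],
    fun H x hx y hy => by have := H x hx y hy; rw [e x hx, e y hy] at this; omega⟩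

omit [DecidableEq V] in
theorem depG_fl (S : Finset V) : DepG S fun s : Cfg V => ind (Fl S s) := (depG_Fl S).comp ind

omit [DecidableEq V] in
theorem fl_iff_root (hr : r ∈ S) {s : Cfg V} : Fl S s ↔ ∀ x ∈ S, s x = s r :=
  ⟨fun h x hx => h x hx r hr, fun h x hx y hy => by rw [h x hx, h y hy]⟩

theorem depG_of_flH {β : Type*} {F : Cfg V → β} (hF : DepG S F) {s t : Cfg V}
    (h : flH S s = flH S t) : F s = F t := by
  rcases S.eq_empty_or_nonempty with rfl | ⟨r, hr⟩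
  · exact hF s t 0 (by simp)
  · refine hF s t (t r - s r) fun x hx => ?_
    have := flH_eq_iff.1 h x hx r hr; omega

/-- a function of the gradients inside `S` factors through `flH S` -/
theorem DepG.factor {F : Cfg V → ℝ} (hF : DepG S F) :
    ∃ F' : (V × V → ℤ) → ℝ, (∀ s, F s = F' (flH S s)) ∧ ((∀ s, 0 ≤ F s) → ∀ q, 0 ≤ F' q) := by
  classical
  refine ⟨fun q => if h : ∃ s, flH S s = q then F h.choose else 0, fun s => ?_, fun h0 q => ?_⟩
  · have h : ∃ t, flH S t = flH S s := ⟨s, rfl⟩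
    simp only [dif_pos h]; exact (depG_of_flH hF h.choose_spec).symm
  · dsimp only; split_ifs
    exacts [h0 _, le_rfl]

/-! ### the free models -/

@[simp] theorem pn_A : (pn m U S).A = U \ S := rfl
@[simp] theorem pn_ed : (pn m U S).ed = inn U m.ed := rfl
@[simp] theorem pn_w : (pn m U S).w = m.w := rfl
@[simp] theorem pn_site (x : V) (k : ℤ) : (pn m U S).site x k = 1 := rfl
@[simp] theorem hole_A : (hole m N).A = m.A \ N := rfl
@[simp] theorem hole_w : (hole m N).w = m.w := rfl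
@[simp] theorem hole_site : (hole m N).site = m.site := rfl
theorem mem_hole_ed {e : V × V} : e ∈ (hole m N).ed ↔ e ∈ m.ed ∧ e.1 ∉ N ∧ e.2 ∉ N := mem_filter
theorem mem_pn_ed {e : V × V} : e ∈ (pn m U S).ed ↔ e ∈ m.ed ∧ e.1 ∈ U ∧ e.2 ∈ U := mem_filter

theorem pn_free (S' : Finset V) : (pn m U S').free (U \ S) = pn m U S := rfl
theorem pn_root (S' : Finset V) (r : V) : (pn m U S').free (U.erase r) = pn m U {r} := by
  rw [← sdiff_singleton_eq_erase]; rfl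

theorem inn_inn (h : U ⊆ X) (E : Finset (V × V)) : inn U (inn X E) = inn U E := by
  ext e; simp only [inn, mem_filter]
  exact ⟨fun h => ⟨h.1.1, h.2⟩, fun h' => ⟨⟨h'.1, h h'.2.1, h h'.2.2⟩, h'.2⟩⟩

theorem pn_fm (h : m.Fm) (U S : Finset V) : (pn m U S).Fm := fun e he => h e (mem_pn_ed.1 he).1

theorem hole_fm (h : m.Fm) (N : Finset V) : (hole m N).Fm := fun e he => h e (mem_hole_ed.1 he).1

theorem pn_ctr (h : m.Fm) (U S : Finset V) : (pn m U S).Ctr :=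
  ⟨pn_fm h U S, fun _ _ => ⟨Rsd63.rsd_one, pd_one, one_pos⟩⟩

theorem hole_ctr (h : m.Ctr) (N : Finset V) : (hole m N).Ctr :=
  ⟨hole_fm h.1 N, fun x hx => h.2 x (mem_sdiff.1 hx).1⟩

theorem pn_anch (hU : Cn m U) (hr : r ∈ U) (hS : r ∈ S) : (pn m U S).Anch := fun x hx =>
  ⟨r, hU x (mem_sdiff.1 hx).1 r hr, Or.inl fun h => (mem_sdiff.1 h).2 hS⟩

theorem pn_W_pos (h : m.Fm) {η s : Cfg V} (hs : ∀ x, x ∉ U \ S → s x = η x) : 0 < (pn m U S).W η s := by
  simp only [Mdl.W, pn_site, prod_const_one, mul_one]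
  rw [ind_pos (by simpa using hs), one_mul]
  exact prod_pos fun e he => (pn_fm h U S e he).pos _

theorem rs_spec (hU : U.Nonempty) : ∃ r ∈ U, rs U = {r} := ⟨hU.choose, hU.choose_spec, dif_pos hU⟩

/-- the indicator form of pinning -/
theorem pn_cond (hr : r ∈ S) (s : Cfg V) :
    (pn m U S).W 0 s = (pn m U {r}).W 0 s * ind (Fl S s) := by
  simp only [Mdl.W, pn_site, prod_const_one, mul_one, pn_A, pn_ed, pn_w]
  rw [mul_right_comm, ← ind_and]
  congr 2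
  apply propext
  simp only [mem_sdiff, mem_singleton, Finsupp.coe_zero, Pi.zero_apply, fl_iff_root hr]
  constructor
  · intro h
    have h0 : s r = 0 := h r fun h' => h'.2 hr
    refine ⟨fun x hx => h x fun h' => hx ⟨h'.1, fun e => h'.2 (e ▸ hr)⟩, fun x hx => ?_⟩
    rw [h0]; exact h x fun h' => h'.2 hx
  · rintro ⟨h1, h2⟩ x hx
    have h0 : s r = 0 := h1 r fun h' => h'.2 rfl
    by_cases hxS : x ∈ S
    · rw [h2 x hxS, h0]
    · exact h1 x fun h' => hx ⟨h'.1, hxS⟩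

theorem root_all (hr : r ∈ U) {F : Cfg V → ℝ} (hF : ∀ s h, F (s + cst U h) = F s) :
    Zs (rW m U) = Zs ((pn m U {r}).W 0) ∧ (Ig (rW m U) F ↔ Ig ((pn m U {r}).W 0) F) ∧
      nE m U F = Ex ((pn m U {r}).W 0) F := by
  obtain ⟨r₀, h0, e⟩ := rs_spec ⟨r, hr⟩
  have := Md.root (pn m U ∅) h0 hr (fun e he => (mem_pn_ed.1 he).2) (fun _ _ => rfl) hF
  rw [pn_root, pn_root] at this
  simpa only [nE, rW, e] using this

theorem nE_root (hr : r ∈ U) {F : Cfg V → ℝ} (hF : DepG U F) : nE m U F = Ex ((pn m U {r}).W 0) F :=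
  (root_all hr (hF.shift Subset.rfl)).2.2

theorem nm_root (hr : r ∈ U) {F : Cfg V → ℝ} (hF : DepG U F) :
    nm m U F = Ex ((pn m U {r}).W 0) fun s => |F s| := nE_root hr (hF.comp fun a => |a|)

theorem ig_root (hr : r ∈ U) {F : Cfg V → ℝ} (hF : DepG U F) :
    Ig (rW m U) F ↔ Ig ((pn m U {r}).W 0) F := (root_all hr (hF.shift Subset.rfl)).2.1

theorem pr_root (hr : r ∈ U) (hK : K ⊆ U) : Pr (rW m U) (Fl K) = Pr ((pn m U {r}).W 0) (Fl K) :=
  nE_root hr ((depG_fl K).mono hK)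

/-! ### agreement of two models on a set -/

/-- `m` and `m'` have the same edges and kernels inside `U` -/
def Agr (m m' : Mdl V) (U : Finset V) : Prop :=
  inn U m.ed = inn U m'.ed ∧ ∀ e ∈ inn U m.ed, m.w e = m'.w e

theorem Agr.refl (m : Mdl V) (U : Finset V) : Agr m m U := ⟨rfl, fun _ _ => rfl⟩
theorem Agr.symm (h : Agr m m' U) : Agr m' m U := ⟨h.1.symm, fun e he => (h.2 e (h.1 ▸ he)).symm⟩
theorem Agr.trans {m'' : Mdl V} (h : Agr m m' U) (h' : Agr m' m'' U) : Agr m m'' U :=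
  ⟨h.1.trans h'.1, fun e he => (h.2 e he).trans (h'.2 e (h.1 ▸ he))⟩
theorem Agr.mono (h : Agr m m' X) (hU : U ⊆ X) : Agr m m' U :=
  ⟨by rw [← inn_inn hU, h.1, inn_inn hU], fun e he => h.2 e (by
    rw [← inn_inn hU] at he; exact (mem_filter.1 he).1)⟩
theorem Agr.mem (h : Agr m m' U) {e : V × V} (h1 : e.1 ∈ U) (h2 : e.2 ∈ U) : e ∈ m.ed ↔ e ∈ m'.ed := by
  have := Finset.ext_iff.1 h.1 e
  simpa only [inn, mem_filter, h1, h2, and_true] using this
theorem agr_pn (hU : U ⊆ X) (R : Finset V) : Agr (pn m X R) m U := ⟨inn_inn hU _, fun _ _ => rfl⟩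
theorem agr_hole (hd : Disjoint N U) : Agr (hole m N) m U := by
  refine ⟨?_, fun _ _ => rfl⟩
  ext e; simp only [inn, mem_filter, mem_hole_ed]
  exact ⟨fun h => ⟨h.1.1, h.2⟩, fun h => ⟨⟨h.1, disjoint_right.1 hd h.2.1,
    disjoint_right.1 hd h.2.2⟩, h.2⟩⟩
theorem agr_free (A' : Finset V) : Agr (m.free A') m U := ⟨rfl, fun _ _ => rfl⟩
theorem Agr.pnW (h : Agr m m' U) (S : Finset V) : (pn m U S).W = (pn m' U S).W :=
  Mdl.W_ext rfl h.1 h.2 fun _ _ _ => rfl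
theorem Agr.pnWs (h : Agr m m' U) (S : Finset V) : (pn m U S).Ws = (pn m' U S).Ws :=
  Mdl.Ws_ext rfl h.1 h.2 fun _ _ _ => rfl
theorem Agr.pnJ (h : Agr m m' U) (S : Finset V) : (pn m U S).J = (pn m' U S).J :=
  Mdl.J_ext rfl h.1 h.2 fun _ _ _ => rfl
theorem Agr.rW (h : Agr m m' U) : rW m U = rW m' U := by simp only [Nc.rW, h.pnW]
theorem Agr.nE (h : Agr m m' U) : nE m U = nE m' U := by funext F; simp only [Nc.nE, h.rW]
theorem Agr.nm (h : Agr m m' U) : nm m U = nm m' U := by funext F; simp only [Nc.nm, h.nE]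
theorem Agr.cr (h : Agr m m' U) (K S : Finset V) : cr m U K S = cr m' U K S := by
  simp only [Nc.cr, h.rW, h.pnW]
theorem Agr.cn (h : Agr m m' U) (hc : Cn m U) : Cn m' U := by
  simpa only [Cn, h.1] using hc

theorem Cl.mono (h : Cl m X) (hU : U ⊆ X) : Cl m U :=
  ⟨hU.trans h.1, fun x hx => h.2 x (hU hx)⟩

theorem cl_pn {R : Finset V} (hB : B ⊆ X) (hR : Disjoint B R) : Cl (pn m X R) B :=
  ⟨fun _ hx => mem_sdiff.2 ⟨hB hx, disjoint_left.1 hR hx⟩, fun _ _ _ => rfl⟩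

theorem bd_mono_ed (h : m'.ed ⊆ m.ed) (B : Finset V) : m'.bd B ⊆ m.bd B := fun _ hx => by
  obtain ⟨h1, e, he, h2⟩ := Mdl.mem_bd.1 hx
  exact Mdl.mem_bd.2 ⟨h1, e, h he, h2⟩

theorem bd_pn (R B : Finset V) : (pn m X R).bd B ⊆ m.bd B := bd_mono_ed (filter_subset _ _) B
theorem bd_hole (B : Finset V) : (hole m N).bd B ⊆ m.bd B \ N := fun x hx => by
  obtain ⟨h1, e, he, h2⟩ := Mdl.mem_bd.1 hx
  obtain ⟨he1, he2, he3⟩ := mem_hole_ed.1 he
  refine mem_sdiff.2 ⟨Mdl.mem_bd.2 ⟨h1, e, he1, h2⟩, ?_⟩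
  rcases h2 with ⟨rfl, _⟩ | ⟨rfl, _⟩ <;> assumption

theorem Agr.edM (h : Agr m m' X) (hB : B ⊆ X) (h1 : m.bd B ⊆ X) (h2 : m'.bd B ⊆ X) :
    m.edM B = m'.edM B ∧ ∀ e ∈ m.edM B, m.w e = m'.w e := by
  have k : ∀ {n : Mdl V}, n.bd B ⊆ X → ∀ e ∈ n.edM B, e.1 ∈ X ∧ e.2 ∈ X := fun hn e he =>
    ⟨(Mdl.ends_of_edM he).1.elim (@hB _) (@hn _), (Mdl.ends_of_edM he).2.elim (@hB _) (@hn _)⟩
  refine ⟨Finset.ext fun e => ⟨fun he => ?_, fun he => ?_⟩, fun e he => h.2 e ?_⟩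
  · exact Mdl.mem_edM.2 ⟨(h.mem (k h1 e he).1 (k h1 e he).2).1 (Mdl.mem_edM.1 he).1,
      (Mdl.mem_edM.1 he).2⟩
  · exact Mdl.mem_edM.2 ⟨(h.mem (k h2 e he).1 (k h2 e he).2).2 (Mdl.mem_edM.1 he).1,
      (Mdl.mem_edM.1 he).2⟩
  · exact mem_filter.2 ⟨(Mdl.mem_edM.1 he).1, k h1 e he⟩

theorem Agr.locW (h : Agr m m' X) (hB : B ⊆ X) (h1 : m.bd B ⊆ X) (h2 : m'.bd B ⊆ X)
    (hs : ∀ x ∈ B, ∀ k, m.site x k = 1) (hs' : ∀ x ∈ B, ∀ k, m'.site x k = 1) (s : Cfg V) :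
    (m.loc B).W s = (m'.loc B).W s :=
  Mdl.W_loc_congr (h.edM hB h1 h2).1 (h.edM hB h1 h2).2
    (fun x hx => funext fun k => by rw [hs x hx, hs' x hx]) s

theorem Agr.cE (h : Agr m m' X) (hF : m.Fm) (hF' : m'.Fm) (hB : B ⊆ X) (h1 : m.bd B ⊆ X)
    (h2 : m'.bd B ⊆ X) (hs : ∀ x ∈ B, ∀ k, m.site x k = 1) (hs' : ∀ x ∈ B, ∀ k, m'.site x k = 1) :
    m.cE B = m'.cE B :=
  Mdl.cE_congr_mdl (fun e he k => ((hF e he).pos k).ne') (fun e he k => ((hF' e he).pos k).ne')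
    (h.edM hB h1 h2).1 (h.edM hB h1 h2).2 fun x hx => funext fun k => by rw [hs x hx, hs' x hx]

theorem Agr.gl (h : Agr m m' X) (hB : N ⊆ X) (h1 : m.bd N ⊆ X) (h2 : m'.bd N ⊆ X)
    (hs : ∀ x ∈ N, ∀ k, m.site x k = 1) (hs' : ∀ x ∈ N, ∀ k, m'.site x k = 1) : gl m N = gl m' N :=
  funext fun s => by simp only [Nc.gl, h.locW hB h1 h2 hs hs']

theorem Agr.hole (h : Agr m m' X) (N : Finset V) : Agr (hole m N) (hole m' N) X := by
  refine ⟨Finset.ext fun e => ?_, fun e he => h.2 e ?_⟩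
  · simp only [inn, mem_filter, mem_hole_ed]
    exact ⟨fun k => ⟨⟨(h.mem k.2.1 k.2.2).1 k.1.1, k.1.2⟩, k.2⟩,
      fun k => ⟨⟨(h.mem k.2.1 k.2.2).2 k.1.1, k.1.2⟩, k.2⟩⟩
  · obtain ⟨a, b⟩ := mem_filter.1 he
    exact mem_filter.2 ⟨(mem_hole_ed.1 a).1, b⟩

/-! ### boxes and cuts -/

theorem Cut.clB (h : Cut m N S U K T) : Cl m (N ∪ U \ T) :=
  ⟨union_subset h.clN.1 h.clU.1, fun x hx => (mem_union.1 hx).elim (h.clN.2 x) (h.clU.2 x)⟩

theorem Cut.subB (_ : Cut m N S U K T) : N ∪ U \ T ⊆ N ∪ U := union_subset_union_right sdiff_subset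

theorem Cut.disjT (h : Cut m N S U K T) : Disjoint (N ∪ U \ T) T :=
  disjoint_union_left.2 ⟨h.disj.mono_right h.tsub, sdiff_disjoint⟩

theorem Cut.bd_hole (h : Cut m N S U K T) : (hole m N).bd (U \ T) ⊆ T := fun x hx => by
  obtain ⟨h1, h2⟩ := mem_sdiff.1 (Nc.bd_hole _ hx)
  obtain ⟨h3, e, he, h4⟩ := Mdl.mem_bd.1 h1
  exact h.tbd (Mdl.mem_bd.2 ⟨fun k => (mem_union.1 k).elim h2 h3, e, he,
    h4.imp (fun k => ⟨k.1, mem_union_right _ k.2⟩) fun k => ⟨k.1, mem_union_right _ k.2⟩⟩)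

/-- two models that agree on `N ∪ U` have the same hole density -/
theorem Cut.hd_congr {S' K' : Finset V} (h : Cut m N S U K T) (h' : Cut m' N S' U K' T)
    (ha : Agr m m' (N ∪ U)) : hd m N U T = hd m' N U T := by
  funext s
  have hT : T ⊆ N ∪ U := h.tsub.trans subset_union_right
  simp only [hd]
  rw [ha.gl subset_union_left (h.kbd.trans (h.ksub.trans subset_union_right))
      (h'.kbd.trans (h'.ksub.trans subset_union_right)) h.clN.2 h'.clN.2,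
    (ha.mono subset_union_right).nE,
    ha.locW h.subB (h.tbd.trans hT) (h'.tbd.trans hT) h.clB.2 h'.clB.2,
    (ha.hole N).locW (sdiff_subset.trans subset_union_right) (h.bd_hole.trans hT)
      (h'.bd_hole.trans hT) h.clU.2 h'.clU.2]

theorem Cut.cE_congr {S' K' : Finset V} (h : Cut m N S U K T) (h' : Cut m' N S' U K' T)
    (ha : Agr m m' (N ∪ U)) (hF : m.Fm) (hF' : m'.Fm) : m.cE (N ∪ U \ T) = m'.cE (N ∪ U \ T) :=
  have hT : T ⊆ N ∪ U := h.tsub.trans subset_union_right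
  ha.cE hF hF' h.subB (h.tbd.trans hT) (h'.tbd.trans hT) h.clB.2 h'.clB.2

theorem Box.pn (h : Box m N S) {R : Finset V} (hX : N ⊆ X) (hR : Disjoint (N \ S) R) :
    Box (pn m X R) N S :=
  ⟨(agr_pn hX R).symm.cn h.cn, h.sub, h.ne, cl_pn (sdiff_subset.trans hX) hR, (bd_pn _ _).trans h.bd⟩

theorem Cut.pn (h : Cut m N S U K T) {R : Finset V} (hX : N ∪ U ⊆ X) (hR : Disjoint (N ∪ U \ T) R) :
    Cut (pn m X R) N S U K T where
  toBox := h.toBox.pn (subset_union_left.trans hX)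
    (hR.mono_left (sdiff_subset.trans subset_union_left))
  clN := cl_pn (subset_union_left.trans hX) (hR.mono_left subset_union_left)
  disj := h.disj
  cnU := (agr_pn (subset_union_right.trans hX) R).symm.cn h.cnU
  clU := cl_pn (sdiff_subset.trans (subset_union_right.trans hX)) (hR.mono_left subset_union_right)
  ksub := h.ksub
  kne := h.kne
  kbd := (bd_pn _ _).trans h.kbd
  bne := by
    obtain ⟨x, hx⟩ := h.bne
    have hxX : x ∈ X := hX (mem_union_right _ (h.ksub (h.kbd hx)))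
    obtain ⟨h1, e, he, h2⟩ := Mdl.mem_bd.1 hx
    refine ⟨x, Mdl.mem_bd.2 ⟨h1, e, mem_pn_ed.2 ⟨he, ?_⟩, h2⟩⟩
    rcases h2 with ⟨rfl, k⟩ | ⟨rfl, k⟩
    exacts [⟨hxX, hX (mem_union_left _ k)⟩, ⟨hX (mem_union_left _ k), hxX⟩]
  tsub := h.tsub
  tne := h.tne
  tbd := (bd_pn _ _).trans h.tbd

theorem Cut.hole_box (h : Cut m N S U K T) : Box (hole m N) U T :=
  ⟨(agr_hole h.disj).symm.cn h.cnU, h.tsub, h.tne,
    ⟨fun _ hx => mem_sdiff.2 ⟨h.clU.1 hx, disjoint_right.1 h.disj (mem_sdiff.1 hx).1⟩, h.clU.2⟩,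
    h.bd_hole⟩

theorem Cut.cn_union (h : Cut m N S U K T) : Cn m (N ∪ U) := by
  obtain ⟨b, hb⟩ := h.bne
  have hbU : b ∈ U := h.ksub (h.kbd hb)
  obtain ⟨_, e, he, h2⟩ := Mdl.mem_bd.1 hb
  have mono : ∀ {Y : Finset V}, Y ⊆ N ∪ U → inn Y m.ed ⊆ inn (N ∪ U) m.ed := fun hY e he =>
    mem_filter.2 ⟨(mem_filter.1 he).1, hY (mem_filter.1 he).2.1, hY (mem_filter.1 he).2.2⟩
  have key : ∀ x ∈ N ∪ U, Conn (inn (N ∪ U) m.ed) x b := fun x hx => by
    rcases mem_union.1 hx with hx | hx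
    · rcases h2 with ⟨rfl, k⟩ | ⟨rfl, k⟩
      · exact ((h.cn x hx _ k).mono (mono subset_union_left)).trans (Conn.edge'
          (mem_filter.2 ⟨he, mem_union_right _ hbU, mem_union_left _ k⟩))
      · exact ((h.cn x hx _ k).mono (mono subset_union_left)).trans (Conn.edge
          (mem_filter.2 ⟨he, mem_union_left _ k, mem_union_right _ hbU⟩))
    · exact (h.cnU x hx b hbU).mono (mono subset_union_right)
  exact fun x hx y hy => (key x hx).trans (key y hy).symm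

theorem not_se_one : ¬ SE fun _ : ℤ => (1 : ℝ) := fun h => by
  have := h 0
  simp only [AddMonoidHom.zero_apply, Real.exp_zero, mul_one] at this
  exact one_ne_zero (summable_const_iff _ |>.1 this)

/-- removing a clean set whose boundary lies in a connected set keeps the model anchored -/
theorem hole_anch (ha : m.Anch) (hN : Cl m N) (hd : Disjoint N U) (hU : Cn m U) (hb : m.bd N ⊆ U) :
    (hole m N).Anch := by
  intro x hx
  obtain ⟨hxA, hxN⟩ := mem_sdiff.1 hx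
  obtain ⟨y, hp, hy⟩ := ha x hxA
  have hyN : y ∉ N := fun h => hy.elim (fun k => k (hN.1 h)) fun k =>
    not_se_one (by rwa [show m.site y = fun _ => 1 from funext (hN.2 y h)] at k)
  have hUc : ∀ a ∈ U, ∀ b ∈ U, Conn (hole m N).ed a b := fun a ha b hb =>
    (hU a ha b hb).mono fun e he => mem_hole_ed.2 ⟨(mem_filter.1 he).1,
      disjoint_right.1 hd (mem_filter.1 he).2.1, disjoint_right.1 hd (mem_filter.1 he).2.2⟩
  have key : ∀ z, Relation.ReflTransGen (fun u v => (u, v) ∈ m.ed ∨ (v, u) ∈ m.ed) x z →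
      (z ∉ N → Conn (hole m N).ed x z) ∧ (z ∈ N → ∃ b ∈ U, Conn (hole m N).ed x b) := by
    intro z hz
    induction hz with
    | refl => exact ⟨fun _ => Conn.refl _ _, fun h => absurd h hxN⟩
    | @tail u v _ huv ih =>
      by_cases hu : u ∈ N <;> refine ⟨fun hv => ?_, fun hv => ?_⟩
      · obtain ⟨b, hbU, hc⟩ := ih.2 hu
        refine hc.trans (hUc b hbU v (hb (Mdl.mem_bd.2 ⟨hv, ?_⟩)))
        rcases huv with k | k
        exacts [⟨_, k, Or.inr ⟨rfl, hu⟩⟩, ⟨_, k, Or.inl ⟨rfl, hu⟩⟩]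
      · exact ih.2 hu
      · refine (ih.1 hu).trans ?_
        rcases huv with k | k
        exacts [Conn.edge (mem_hole_ed.2 ⟨k, hu, hv⟩), Conn.edge' (mem_hole_ed.2 ⟨k, hv, hu⟩)]
      · refine ⟨u, hb (Mdl.mem_bd.2 ⟨hu, ?_⟩), ih.1 hu⟩
        rcases huv with k | k
        exacts [⟨_, k, Or.inl ⟨rfl, hv⟩⟩, ⟨_, k, Or.inr ⟨rfl, hv⟩⟩]
  exact ⟨y, (key y hp).1 hyN, hy.imp (fun k h => k (mem_sdiff.1 h).1) id⟩

theorem Cut.hole_anch (h : Cut m N S U K T) (ha : m.Anch) : (hole m N).Anch :=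
  Nc.hole_anch ha h.clN h.disj h.cnU (h.kbd.trans h.ksub)

/-- the hole of the free model on `N ∪ U` is the free model on `U` -/
theorem hole_pn (hd : Disjoint N U) (R : Finset V) : hole (pn m (N ∪ U) R) N = pn m U R := by
  simp only [hole, pn]
  congr 1
  · ext x; simp only [mem_sdiff, mem_union]
    exact ⟨fun h => ⟨h.1.1.resolve_left h.2, h.1.2⟩,
      fun h => ⟨⟨Or.inr h.1, h.2⟩, disjoint_right.1 hd h.1⟩⟩
  · ext e; simp only [inn, mem_filter, mem_union]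
    exact ⟨fun h => ⟨h.1.1, h.1.2.1.resolve_left h.2.1, h.1.2.2.resolve_left h.2.2⟩,
      fun h => ⟨⟨h.1, Or.inr h.2.1, Or.inr h.2.2⟩, disjoint_right.1 hd h.2.1,
        disjoint_right.1 hd h.2.2⟩⟩

/-- the Dirichlet model of a box is the pinned free model -/
theorem Box.pp (h : Box m N S) (hF : m.Fm) (η : Cfg V) :
    Pp ((m.free (N \ S)).W η) ((Nc.pn m N S).W η) := by
  have k : ∀ e ∈ m.ed, e.1 ∈ N \ S ∨ e.2 ∈ N \ S → e.1 ∈ N ∧ e.2 ∈ N := fun e he h' =>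
    have := Mdl.ends_of_edM (Mdl.mem_edM.2 ⟨he, h'⟩)
    ⟨this.1.elim (fun a => (mem_sdiff.1 a).1) fun a => h.sub (h.bd a),
      this.2.elim (fun a => (mem_sdiff.1 a).1) fun a => h.sub (h.bd a)⟩
  exact Mdl.pp_of_touch (hF.free _) (pn_fm hF N S) rfl (fun x hx => h.cl.2 x hx)
    (fun e he => ⟨fun a => mem_pn_ed.2 ⟨a, k e a he⟩, fun a => (mem_pn_ed.1 a).1⟩)
    (fun _ _ _ => rfl) η

end gen

section typ
variable {V : Type} [DecidableEq V] {m : Mdl V} {U S K : Finset V} {r : V}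

theorem pn_cen (h : m.Fm) (hU : Cn m U) (hr : r ∈ U) (hS : r ∈ S) : Cen ((pn m U S).W 0) :=
  (pn_ctr h U S).cen (pn_anch hU hr hS)

theorem pn_wt (h : m.Fm) (hU : Cn m U) (hr : r ∈ U) (hS : r ∈ S) (η : Cfg V) : Wt ((pn m U S).W η) :=
  (pn_ctr h U S).wt (pn_anch hU hr hS) η

theorem rW_cen (h : m.Fm) (hU : Cn m U) (hn : U.Nonempty) : Cen (rW m U) := by
  obtain ⟨r, hr, e⟩ := rs_spec hn
  rw [rW, e]; exact pn_cen h hU hr (mem_singleton_self r)

theorem rW_wt (h : m.Fm) (hU : Cn m U) (hn : U.Nonempty) : Wt (rW m U) := (rW_cen h hU hn).wt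

theorem pr_fl_pos {W : Cfg V → ℝ} (h : Cen W) (K : Finset V) : 0 < Pr W (Fl K) :=
  h.wt.ex_pos (h.wt.ig_ind _) (fun _ => ind_nonneg _) h.pos0 (by rw [ind_pos (fl_zero K)]; exact one_pos)

theorem cr_pos (h : m.Fm) (hU : Cn m U) (hS : S ⊆ U) (hn : S.Nonempty) (K : Finset V) :
    0 < cr m U K S := by
  obtain ⟨r, hr⟩ := hn
  exact div_pos (pr_fl_pos (pn_cen h hU (hS hr) hr) K) (pr_fl_pos (rW_cen h hU ⟨r, hS hr⟩) K)

theorem nm_nonneg (h : m.Fm) (hU : Cn m U) (hn : U.Nonempty) (F : Cfg V → ℝ) : 0 ≤ nm m U F :=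
  Ex_nonneg (rW_wt h hU hn).nonneg fun _ _ => abs_nonneg _

/-- N-cut with one block: the law of the gradients inside `U` has a PD density -/
theorem cut_one (hc : m.Ctr) (ha : m.Anch) (hn : U.Nonempty) :
    ∃ G : Cfg V → ℝ, PD G ∧ (∀ t, 0 ≤ G t) ∧ 0 < G 0 ∧ ∀ F : Cfg V → ℝ, DepG U F → Ig (m.W 0) F →
      Ig (fun t => rW m U t * G t) F ∧ Ex (m.W 0) F = Ex (fun t => rW m U t * G t) F := by
  obtain ⟨r, hr, e⟩ := rs_spec hn
  obtain ⟨G, h1, h2, h3, h4⟩ := cutStmt pdStmt kerStmt mdlStmt V Unit m {()} (fun _ => U)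
    (fun _ => r) hc ha (fun _ _ => hr) (fun _ _ _ _ h => absurd rfl h)
  have hm : m.ncut {()} (fun _ : Unit => U) (fun _ => r) = pn m U {r} := by
    simp only [Mdl.ncut, pn, singleton_biUnion, sdiff_singleton_eq_erase]
  refine ⟨G, h1, h2, h3, fun F hF hi => ?_⟩
  have hp : (fun s => F (prj {()} (fun _ : Unit => U) (fun _ => r) s)) = F := funext fun s =>
    (hF s _ (-s r) fun x hx => by
      rw [Cut7.prj_mem (fun _ _ _ _ h => absurd rfl h) (mem_singleton_self ()) hx]; ring).symm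
  have := h4 F (by rwa [hp])
  rwa [hp, hm, ← e] at this

/-- the free model on `U` is less localised than every centred model containing its edges -/
theorem le_ex (hc : m.Ctr) (ha : m.Anch) (hU : Cn m U) (hn : U.Nonempty) {G : Cfg V → ℝ} (hG : PD G)
    (hd : DepG U G) : nE m U G ≤ Ex (m.W 0) G := by
  obtain ⟨H, h1, h2, h3, h4⟩ := cut_one hc ha hn
  rw [(h4 G hd ((hc.wt ha 0).ig_bdd hG.abs_le)).2]
  exact ((rW_cen hc.1 hU hn).loc_mul h1 h2 h3).2 G hG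

theorem M_le_rW (hc : m.Ctr) (ha : m.Anch) (hU : Cn m U) (hn : U.Nonempty) {f : Cfg V →+ ℝ}
    (hd : DepG U fun s => f s) : M (m.W 0) f ≤ M (rW m U) f := by
  obtain ⟨H, h1, h2, h3, h4⟩ := cut_one hc ha hn
  refine le_trans (le_of_eq ?_) (((rW_cen hc.1 hU hn).loc_mul h1 h2 h3).1 f)
  simp only [M]
  rw [(h4 _ (hd.comp Real.exp) (hc.se ha 0 f)).2]

theorem Vr_le_rW (hc : m.Ctr) (ha : m.Anch) (hU : Cn m U) (hn : U.Nonempty) {f : Cfg V →+ ℝ}
    (hd : DepG U fun s => f s) : Vr (m.W 0) f f ≤ Vr (rW m U) f f :=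
  have h := hc.cen ha
  have h' := rW_cen hc.1 hU hn
  Vr_le_of_M_le h'.wt h'.se h'.even h.wt h.se h.even fun t =>
    M_le_rW hc ha hU hn (hd.comp fun a => t * a)

theorem pr_fl_le (hc : m.Ctr) (ha : m.Anch) (hU : Cn m U) (hn : U.Nonempty) (hK : K ⊆ U) :
    Pr (rW m U) (Fl K) ≤ Pr (m.W 0) (Fl K) := le_ex hc ha hU hn (pd_fl K) ((depG_fl K).mono hK)

end typ

end Crest.Agent.T145.Nc
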