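import Crest.Agent.T145.Def_97

/-!
# Row 145: second layer (design independent): densities, exploration with a floating level, two-replica
swap, Harnack lemma (helper97)
-/

set_option autoImplicit false

namespace Crest.Agent.T145

open Finset

section
variable {V : Type*} [DecidableEq V]

/-- `F` depends only on the heights on `S` -/
def Dep {β : Type*} (S : Finset V) (F : Cfg V → β) : Prop :=
  ∀ s s', (∀ x ∈ S, s x = s' x) → F s = F s'

/-- `F` depends only on the gradients inside `S` -/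
def DepG {β : Type*} (S : Finset V) (F : Cfg V → β) : Prop :=
  ∀ s s' (h : ℤ), (∀ x ∈ S, s' x = s x + h) → F s = F s'

/-- conditional expectation given the heights off `B` -/
noncomputable def Mdl.cE (m : Mdl V) (B : Finset V) (F : Cfg V → ℝ) : Cfg V → ℝ :=
  fun s => Ex ((m.free B).W s) F

/-- closed weight of a bond for two replicas (invariant under swapping the replicas at either end) -/
noncomputable def Mdl.c2 (m : Mdl V) (s s' : Cfg V) (e : V × V) : ℝ :=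
  min (m.w e (s e.2 - s e.1) * m.w e (s' e.2 - s' e.1))
    (m.w e (s e.2 - s' e.1) * m.w e (s' e.2 - s e.1))

/-- weight of the bond `e` (open iff `o`) for two replicas -/
noncomputable def Mdl.bw2 (m : Mdl V) (s s' : Cfg V) (e : V × V) (o : Prop) [Decidable o] : ℝ :=
  if o then m.w e (s e.2 - s e.1) * m.w e (s' e.2 - s' e.1) - m.c2 s s' e else m.c2 s s' e

/-- joint weight of two replicas and the swap bonds, no boundary condition -/
noncomputable def Mdl.J2c (m : Mdl V) (p : (Cfg V × Cfg V) × Finset (V × V)) : ℝ :=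
  ind (p.2 ⊆ m.ed) * (∏ e ∈ m.ed, m.bw2 p.1.1 p.1.2 e (e ∈ p.2)) *
    ∏ x ∈ m.A, m.site x (p.1.1 x) * m.site x (p.1.2 x)

/-- joint weight of two independent replicas (boundary conditions `η`, `η'`) and the swap bonds -/
noncomputable def Mdl.J2 (m : Mdl V) (η η' : Cfg V) (p : (Cfg V × Cfg V) × Finset (V × V)) : ℝ :=
  ind (∀ x, x ∉ m.A → p.1.1 x = η x) * ind (∀ x, x ∉ m.A → p.1.2 x = η' x) * m.J2c p

/-- `S` is joined to `I` by the bonds `ω` -/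
def Cross (S I : Finset V) (ω : Finset (V × V)) : Prop := ∃ x ∈ S, ∃ y ∈ I, Conn ω x y

end

/-- (D1), group form: a PD density is largest on the flat datum -/
def DensStmt : Prop := ∀ (L Q : Type) [AddCommGroup L] [AddCommGroup Q] [IsAddTorsionFree L]
  (ρ G : L → ℝ) (π : L →+ Q), Cen ρ → PD G → (∀ s, 0 ≤ G s) → 0 < G 0 →
    (∀ q, Pr (fun s => ρ s * G s) (fun s => π s = q) * Pr ρ (fun s => π s = 0) ≤
      Pr (fun s => ρ s * G s) (fun s => π s = 0) * Pr ρ (fun s => π s = q)) ∧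
    ∀ F : Q → ℝ, (∀ q, 0 ≤ F q) → Ig ρ (fun s => F (π s)) →
      Ex (fun s => ρ s * G s) (fun s => F (π s)) * Pr ρ (fun s => π s = 0) ≤
        Pr (fun s => ρ s * G s) (fun s => π s = 0) * Ex ρ fun s => F (π s)

/-- exploration with an extra weight `U` read on the sources (floating level of a free box) -/
def ExplUStmt : Prop := ∀ (V : Type) [DecidableEq V] (m : Mdl V) (h : ℤ) (η : Cfg V) (S : Finset V)
  (U : Cfg V → ℝ) (F : Cfg V × Finset (V × V) → ℝ), Dep S U →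
    Wt (fun p => U p.1 * m.J h η p) → Ig (fun p => U p.1 * m.J h η p) F →
    let G : Cfg V × Finset (V × V) → ℝ := fun p =>
      Ex ((m.rest h (cl S p.2) p.1).J h p.1) fun p' => F (p'.1, p'.2 ∪ inn (cl S p.2) p.2)
    Ig (fun p => U p.1 * m.J h η p) G ∧
      Ex (fun p => U p.1 * m.J h η p) F = Ex (fun p => U p.1 * m.J h η p) G

/-- a free box: the root may be replaced by any partition of unity along the zero mode -/
def RootUStmt : Prop := ∀ (V : Type) [DecidableEq V] (m : Mdl V) (r : V) (U : Cfg V → ℝ),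
  r ∈ m.A → (∀ e ∈ m.ed, e.1 ∈ m.A ∧ e.2 ∈ m.A) → (∀ x k, m.site x k = 1) → (∀ s, 0 ≤ U s) →
    (∀ s, HasSum (fun h : ℤ => U (s + cst m.A h)) 1) → Wt ((m.free (m.A.erase r)).W 0) →
    (Wt (fun s => U s * m.W 0 s) ∧ Zs (fun s => U s * m.W 0 s) = Zs ((m.free (m.A.erase r)).W 0)) ∧
    ∀ F : Cfg V → ℝ, (∀ s h, F (s + cst m.A h) = F s) → Ig ((m.free (m.A.erase r)).W 0) F →
      Ig (fun s => U s * m.W 0 s) F ∧
        Ex (fun s => U s * m.W 0 s) F = Ex ((m.free (m.A.erase r)).W 0) F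

/-- a free box against the Dirichlet box inside its collar `S`: for PD `G ≥ 0` read on `B`,
`E^N G ≥ P^N (S not joined to B) * E^D G` -/
def NDStmt : Prop := ∀ (V : Type) [DecidableEq V] [Countable V] (m : Mdl V) (S B : Finset V)
  (U G : Cfg V → ℝ), m.Ctr → (m.free (m.A \ S)).Anch → Dep S U → (∀ s, 0 ≤ U s) →
    Wt (fun s => U s * m.W 0 s) → PD G → (∀ s, 0 ≤ G s) → Dep B G →
    Pr (fun p => U p.1 * m.J 0 0 p) (fun p => ¬ Cross S B p.2) * Ex ((m.free (m.A \ S)).W 0) G ≤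
      Ex (fun s => U s * m.W 0 s) G

/-- the two-replica swap -/
def SwapStmt : Prop := ∀ (V : Type) [DecidableEq V] (m : Mdl V), (∀ e ∈ m.ed, LC (m.w e)) → m.Nn →
  (∀ η η' p, 0 ≤ m.J2 η η' p) ∧
  (∀ η η' s s', ∑ ω ∈ m.ed.powerset, m.J2 η η' ((s, s'), ω) = m.W η s * m.W η' s') ∧
  (∀ η η' s s' ω, m.J2 η η' ((s, s'), ω) ≠ 0 → ∀ e ∈ ω, 0 < (s e.1 - s' e.1) * (s e.2 - s' e.2)) ∧
  (∀ s s' ω (K : Finset V), (∀ e ∈ ω, e.1 ∈ K ↔ e.2 ∈ K) →
    m.J2c ((pw K s' s, pw K s s'), ω) = m.J2c ((s, s'), ω)) ∧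
  (∀ (η η' : Cfg V) (Gi Go : Finset V), Disjoint Gi Go → Disjoint Gi m.A → Disjoint Go m.A →
    (∀ x, x ∉ m.A → η x ≠ η' x → x ∈ Gi ∨ x ∈ Go) → η' ≤ η → Wt (m.W η) → Wt (m.W η') →
    Wt (m.W (pw Go η' η)) → Wt (m.W (pw Go η η')) →
    Pr (m.J2 η η') (fun p => ¬ Cross Go Gi p.2) * (Zs (m.W η) * Zs (m.W η')) =
      Zs (m.W (pw Go η' η)) * Zs (m.W (pw Go η η'))) ∧
  (∀ (η η' : Cfg V) (S I : Finset V) (F : Cfg V → ℝ), (∀ x, x ∉ m.A → η x ≠ η' x → x ∈ S) →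
    Wt (m.W η) → Wt (m.W η') → Dep I F → Ig (m.W η) F → Ig (m.W η') F →
    Ex (m.W η) F - Ex (m.W η') F =
      Ex (m.J2 η η') fun p => ind (Cross S I p.2) * (F p.1.1 - F p.1.2)) ∧
  ∀ Φ : Finset (V × V) → ℝ, Monotone Φ → ∀ s₁ s₂ s₁' s₂' : Cfg V, s₁ ≤ s₂ → s₂' ≤ s₁' →
    (∑ ω ∈ m.ed.powerset, (∏ e ∈ m.ed, m.bw2 s₁ s₁' e (e ∈ ω)) *
        Φ (ω.filter fun e => s₁' e.1 < s₁ e.1)) / ∏ e ∈ m.ed, m.w e (dE e s₁) * m.w e (dE e s₁') ≤
      (∑ ω ∈ m.ed.powerset, (∏ e ∈ m.ed, m.bw2 s₂ s₂' e (e ∈ ω)) *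
        Φ (ω.filter fun e => s₂' e.1 < s₂ e.1)) / ∏ e ∈ m.ed, m.w e (dE e s₂) * m.w e (dE e s₂')

/-- Harnack lemma: real and imaginary Gaussian defects control all cumulants under a tilt -/
def HarnStmt : Prop := ∃ d₀ : ℝ, 0 < d₀ ∧ ∀ n : ℕ, ∃ C : ℝ, ∀ (L : Type) [AddCommGroup L]
  [IsAddTorsionFree L] (ρ : L → ℝ) (f g : L →+ ℝ) (α v d R : ℝ), Cen ρ → 0 < R → 0 ≤ d → d ≤ d₀ →
    (∀ a : ℝ, |a| ≤ R → M ρ (f + a • g) - M ρ f ≤ α * a + v * a ^ 2 / 2 + d) →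
    (∀ b : ℝ, |b| ≤ R → Ph ρ (b • g) ≤ Real.exp (-v * b ^ 2 / 2 + d)) →
    ∀ t : ℝ, |t| ≤ R / 4 →
      |iteratedDeriv n (fun a : ℝ => M ρ (f + a • g) - M ρ f - (α * a + v * a ^ 2 / 2)) t| ≤
        C * d / R ^ n

end Crest.Agent.T145
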