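import Mathlib
import Crest.Prelude.Def_DGHeight

/-!
# Row 145, item (e): definitions and leaf statements (helper70)

A sup-norm multiscale Fröhlich–Spencer argument (sharp threshold `b > 8π`) and its consequences:
some `β` is rough, `β_c(J_ρ) ≤ (1+ε) 8π v²`, `|β_eff - β| ≤ C e^{-cβ}`.
Text: `docs/T145_e.md`.  Every `…Stmt : Prop` below is a leaf.
-/

set_option autoImplicit false

namespace Crest.Agent.T145.FS

open MeasureTheory Crest.ProbabilityR.HeightModel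

abbrev P := ℤ × ℤ
/-- Pairs `(φ, g)` of complex fields on `ℤ²`. -/
abbrev Fld := (P → ℂ) × (P → ℂ)

/-- Squared gradient at `x` (the two outgoing edges). -/
def w (g : P → ℝ) (x : P) : ℝ := (g (x + (1, 0)) - g x) ^ 2 + (g (x + (0, 1)) - g x) ^ 2
/-- Gradient energy of the edges starting in `Q`. -/
def En (Q : Finset P) (g : P → ℝ) : ℝ := ∑ x ∈ Q, w g x
/-- Starting points of all edges that meet `Λ`. -/
def halo (Λ : Finset P) : Finset P :=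
  Λ ∪ Λ.image (fun x => x - (1, 0)) ∪ Λ.image (fun x => x - (0, 1))
/-- Extension by zero. -/
def ext (Λ : Finset P) (φ : Λ → ℝ) : P → ℝ := fun x => if h : x ∈ Λ then φ ⟨x, h⟩ else 0
/-- Dirichlet energy of a field that vanishes outside `Λ`. -/
def D (Λ : Finset P) (g : P → ℝ) : ℝ := En (halo Λ) g
/-- `⟨∇a, ∇φ⟩` over the edges starting in `Q`. -/
def bil (Q : Finset P) (a : P → ℝ) (φ : P → ℂ) : ℂ :=
  ∑ x ∈ Q, (((a (x + (1, 0)) - a x : ℝ) : ℂ) * (φ (x + (1, 0)) - φ x) +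
    ((a (x + (0, 1)) - a x : ℝ) : ℂ) * (φ (x + (0, 1)) - φ x))
/-- Gaussian weight. -/
noncomputable def gw (Λ : Finset P) (b : ℝ) (φ : Λ → ℝ) : ℝ :=
  Real.exp (-(D Λ (ext Λ φ)) / (2 * b))
/-- Real fields. -/
def rl (φ g : P → ℝ) : Fld := (fun x => (φ x : ℂ), fun x => (g x : ℂ))
/-- `∫ Re W(φ, g) e^{-D(φ)/2b} dφ`. -/
noncomputable def Ig (Λ : Finset P) (b : ℝ) (W : Fld → ℂ) (g : P → ℝ) : ℝ :=
  ∫ φ : Λ → ℝ, (W (rl (ext Λ φ) g)).re * gw Λ b φ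
/-- The lower bound that is propagated through the scales. -/
def Low (Λ : Finset P) (b : ℝ) (u : P → ℝ) (κ : ℝ) (W : Fld → ℂ) : Prop :=
  2 * Real.exp (-κ) * Ig Λ b W 0 ≤ Ig Λ b W u + Ig Λ b W (-u)
/-- Measurable, bounded and real on real fields. -/
def Tame (X : Fld → ℂ) : Prop :=
  Measurable X ∧ (∃ C : ℝ, ∀ φ g, ‖X (rl φ g)‖ ≤ C) ∧ ∀ φ g, (X (rl φ g)).im = 0

/-- Scale `ℓ_j = L^j`, `L = 24 p`. -/
def el (p j : ℕ) : ℤ := (24 * (p : ℤ)) ^ j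
/-- `h = 2 s = b / π`. -/
noncomputable def hh (b : ℝ) : ℝ := b / Real.pi
/-- Half width of the strip. -/
noncomputable def h0 (b : ℝ) (p : ℕ) : ℝ := 6 * hh b + 6 * (24 * (p : ℝ) + 2)
/-- The block `m` of side `l`, enlarged by `ρ`. -/
noncomputable def enl (l : ℤ) (m : P) (ρ : ℤ) : Finset P :=
  Finset.Ico (l * m.1 - ρ) (l * m.1 + l + ρ) ×ˢ Finset.Ico (l * m.2 - ρ) (l * m.2 + l + ρ)
/-- The square of side `3 ℓ_j` around the block `m` of scale `j`. -/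
noncomputable def Q (p j : ℕ) (m : P) : Finset P := enl (el p j) m (el p j)
/-- Sup-norm ball. -/
noncomputable def sqb (z : P) (R : ℤ) : Finset P :=
  Finset.Icc (z.1 - R) (z.1 + R) ×ˢ Finset.Icc (z.2 - R) (z.2 + R)
/-- Index of the block of the next scale that contains the block `m`. -/
def up (p : ℕ) (m : P) : P := (m.1 / (24 * (p : ℤ)), m.2 / (24 * (p : ℤ)))
/-- Corner of the block `m` of scale `j`. -/
def cen (p j : ℕ) (m : P) : P := (el p j * m.1, el p j * m.2)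
/-- The complex domain of scale `j` over the set `X`. -/
def Om (b : ℝ) (p j : ℕ) (X : Finset P) : Set Fld :=
  {Φ | (∀ x ∈ X, |(Φ.1 x).im| ≤ h0 b p ∧ |(Φ.2 x).im| ≤ h0 b p ∧
      w (fun y => (Φ.1 y).im) x ≤ (hh b / (el p j : ℝ)) ^ 2) ∧
    En X (fun y => (Φ.2 y).im) ≤ (1 / 4 : ℝ) ^ j}
/-- The conjugate object. -/
noncomputable def cj (G : Fld → ℂ) : Fld → ℂ := fun Φ => star (G (star Φ))
/-- The factor `1 + G + Ḡ`. -/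
noncomputable def fac (G : Fld → ℂ) : Fld → ℂ := fun Φ => 1 + G Φ + cj G Φ
/-- `(φ + s a, g)`. -/
def sh (a : P → ℝ) (s : ℂ) (Φ : Fld) : Fld := (fun x => Φ.1 x + s * (a x : ℂ), Φ.2)

/-- An object of charge `q`, holomorphic along lines and bounded by `δ` on `Om j X`, depending only
on the fields in `Y`. -/
structure Ob (b : ℝ) (p j : ℕ) (X Y : Finset P) (q : ℤ) (δ : ℝ) (G : Fld → ℂ) : Prop where
  meas : Measurable G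
  lh : ∀ Φ ∈ Om b p j X, ∀ Ψ : Fld, DifferentiableAt ℂ (fun s : ℂ => G (Φ + s • Ψ)) 0
  bd : ∀ Φ ∈ Om b p j X, ‖G Φ‖ ≤ δ
  dep : ∀ Φ Φ' : Fld, (∀ x ∈ Y, Φ.1 x = Φ'.1 x ∧ Φ.2 x = Φ'.2 x) → G Φ = G Φ'
  cov1 : ∀ (Φ : Fld) (c : ℂ), G (fun x => Φ.1 x + c, Φ.2) = Complex.exp (Complex.I * q * c) * G Φ
  cov2 : ∀ (Φ : Fld) (c : ℂ), G (Φ.1, fun x => Φ.2 x + c) = Complex.exp (Complex.I * q * c) * G Φ

/-- Number of blocks in a block of the next scale. -/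
def NN (p : ℕ) : ℝ := (24 * (p : ℝ)) ^ 2
def KK (p : ℕ) : ℝ := 32 * 4 ^ 9 * NN p
/-- Activity at scale `j`. -/
noncomputable def dl (δ₀ : ℝ) (j : ℕ) : ℝ := δ₀ / 8 ^ j
noncomputable def al (p : ℕ) (δ₀ : ℝ) (j : ℕ) : ℝ := 4 * NN p * dl δ₀ j

/-- Frozen object: neutral, or its square is not inside `Λ`. -/
def Frz (b : ℝ) (p : ℕ) (δ₀ : ℝ) (Λ : Finset P) (k : ℕ) (m : P) (n : Fld → ℂ) : Prop :=
  ∃ q : ℤ, Ob b p k (Q p k m) (Q p k m) q (KK p * dl δ₀ k) n ∧ (q = 0 ∨ ¬ Q p k m ⊆ Λ)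
/-- Active object. -/
def Act (b : ℝ) (p : ℕ) (δ₀ : ℝ) (j : ℕ) (m : P) (G : Fld → ℂ) : Prop :=
  ∃ q : ℤ, 1 ≤ q ∧ Ob b p j (Q p j m) (Q p j m) q (dl δ₀ j) G
/-- A multiple of one object of scale `j`, sitting in the block `i` of scale `j+1`. -/
def Sing (b : ℝ) (p j : ℕ) (i : P) (δ : ℝ) (G : Fld → ℂ) : Prop :=
  ∃ (m : P) (q : ℤ), up p m = i ∧ 1 ≤ q ∧ Ob b p j (Q p j m) (Q p j m) q δ G
/-- An object of scale `j+1` that depends on the block `i` enlarged by `ρ`. -/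
def Big (b : ℝ) (p j : ℕ) (i : P) (ρ : ℤ) (δ : ℝ) (G : Fld → ℂ) : Prop :=
  ∃ q : ℤ, Ob b p (j + 1) (Q p (j + 1) i) (enl (el p (j + 1)) i ρ) q δ G
/-- Product of the frozen factors. -/
noncomputable def FW (S : Finset P) (j : ℕ) (F : ℕ → P → Fld → ℂ) : Fld → ℂ :=
  fun Φ => ∏ k ∈ Finset.range (j + 1), ∏ m ∈ S, fac (F k m) Φ

/-- The induction hypothesis at scale `j`. -/
def Claim (b : ℝ) (p : ℕ) (δ₀ : ℝ) (Λ S : Finset P) (u : P → ℝ) (κ : ℝ) (j : ℕ) : Prop :=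
  ∀ (F : ℕ → P → Fld → ℂ) (A : P → Fld → ℂ),
    (∀ k ≤ j, ∀ m ∈ S, Frz b p δ₀ Λ k m (F k m)) → (∀ m ∈ S, Act b p δ₀ j m (A m)) →
    Low Λ b u κ (fun Φ => FW S j F Φ * ∏ m ∈ S, fac (A m) Φ)
/-- The hypothesis after the objects inside each block of scale `j+1` have been combined. -/
def Mid (b : ℝ) (p : ℕ) (δ₀ : ℝ) (Λ S : Finset P) (u : P → ℝ) (κ : ℝ) (j : ℕ) : Prop :=
  ∀ (F : ℕ → P → Fld → ℂ) (O : P → Fld → ℂ),
    (∀ k ≤ j, ∀ m ∈ S, Frz b p δ₀ Λ k m (F k m)) →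
    (∀ i ∈ S, Sing b p j i (al p δ₀ j) (O i) ∨ Big b p j i (el p j) (al p δ₀ j ^ 2) (O i)) →
    Low Λ b u κ (fun Φ => FW S j F Φ * ∏ i ∈ S, fac (O i) Φ)
/-- The complex translation of one isolated charged object gains the factor `1 / KK p`. -/
def TrProp (b : ℝ) (p : ℕ) : Prop :=
  ∀ δ₀ : ℝ, 0 ≤ δ₀ → KK p ^ 2 * δ₀ ≤ 1 → ∀ (Λ S : Finset P) (j : ℕ) (F : ℕ → P → Fld → ℂ),
    (∀ k ≤ j, ∀ m ∈ S, Frz b p δ₀ Λ k m (F k m)) →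
    ∀ (m : P) (q : ℤ) (δ : ℝ) (G : Fld → ℂ), 1 ≤ q → Ob b p j (Q p j m) (Q p j m) q δ G →
    Q p (j + 1) (up p m) ⊆ Λ →
    ∃ G' : Fld → ℂ,
      Ob b p (j + 1) (Q p (j + 1) (up p m)) (sqb (cen p j m) ((p + 3) * el p j)) q (δ / KK p) G' ∧
      ∀ X : Fld → ℂ, Tame X →
        (∀ (Φ : Fld) (ψ : P → ℂ), (∀ x ∉ sqb (cen p j m) (p * el p j), ψ x = 0) →
          X (Φ.1 + ψ, Φ.2) = X Φ) →
        ∀ g : P → ℝ, Ig Λ b (fun Φ => FW S j F Φ * X Φ * fac G Φ) g =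
          Ig Λ b (fun Φ => FW S j F Φ * X Φ * fac G' Φ) g

/-- Periodised Gaussian. -/
noncomputable def th (γ ψ : ℝ) : ℝ :=
  ∑' k : ℤ, Real.exp (-(ψ - 2 * Real.pi * k) ^ 2 / (2 * γ))
/-- Partition function of the periodic-potential model with external field `g`. -/
noncomputable def Zf (Λ : Finset P) (b γ : ℝ) (g : P → ℝ) : ℝ :=
  ∫ φ : Λ → ℝ, (∏ x ∈ Λ, th γ (ext Λ φ x + g x)) * gw Λ b φ

/-! ## Leaves of the multiscale argument -/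

/-- OSC: oscillation on a square of side `N ≤ 2^k` (chain of averages over squares of halved
side), and the path bound from a sup bound on the gradient. -/
def OscStmt : Prop :=
  ∀ (a : P) (N : ℕ) (g : P → ℝ),
    ∀ x ∈ Finset.Ico a.1 (a.1 + N) ×ˢ Finset.Ico a.2 (a.2 + N),
    ∀ y ∈ Finset.Ico a.1 (a.1 + N) ×ˢ Finset.Ico a.2 (a.2 + N),
      (∀ k : ℕ, N ≤ 2 ^ k → |g x - g y| ≤
        6 * k * Real.sqrt (En (Finset.Ico a.1 (a.1 + N) ×ˢ Finset.Ico a.2 (a.2 + N)) g)) ∧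
      ∀ c : ℝ, 0 ≤ c →
        (∀ z ∈ Finset.Ico a.1 (a.1 + N) ×ˢ Finset.Ico a.2 (a.2 + N), w g z ≤ c ^ 2) →
        |g x - g y| ≤ 2 * N * c

/-- EXT: for neutral objects (or when the imaginary parts vanish somewhere on the square) only the
gradient conditions of `Om` are needed. -/
def ExtStmt : Prop :=
  ∀ (b : ℝ) (p k : ℕ) (m : P) (q : ℤ) (δ : ℝ) (n : Fld → ℂ), 0 < b → 1 ≤ p →
    Ob b p k (Q p k m) (Q p k m) q δ n → ∀ Φ : Fld,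
    (∀ y ∈ Q p k m, w (fun y => (Φ.1 y).im) y ≤ (hh b / (el p k : ℝ)) ^ 2) →
    En (Q p k m) (fun y => (Φ.2 y).im) ≤ (1 / 4 : ℝ) ^ k →
    (q = 0 ∨ ((∃ y ∈ Q p k m, (Φ.1 y).im = 0) ∧ ∃ y ∈ Q p k m, (Φ.2 y).im = 0)) →
    ‖n Φ‖ ≤ δ ∧ ∀ Ψ : Fld, DifferentiableAt ℂ (fun s : ℂ => n (Φ + s • Ψ)) 0

/-- ONE: second-order Schwarz estimate for one frozen factor. -/
def OneStmt : Prop :=
  ∀ (b : ℝ) (p k : ℕ) (m : P) (q : ℤ) (δ : ℝ) (n : Fld → ℂ), 0 < b → 1 ≤ p →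
    Ob b p k (Q p k m) (Q p k m) q δ n → δ ≤ 1 / 8 →
    ∀ (φ g ψ χ : P → ℝ) (x : ℝ), 0 ≤ x → x < 1 →
    (∀ y ∈ Q p k m, w ψ y ≤ x * (hh b / (el p k : ℝ)) ^ 2) →
    En (Q p k m) χ ≤ x * (1 / 4 : ℝ) ^ k →
    (q = 0 ∨ ((∃ y ∈ Q p k m, ψ y = 0) ∧ ∃ y ∈ Q p k m, χ y = 0)) →
    ∀ t : ℂ, ‖t‖ ≤ 1 →
      ‖fac n (rl φ g + t • rl ψ χ) * fac n (rl φ g - t • rl ψ χ) - fac n (rl φ g) ^ 2‖ ≤ 10 * δ * x

/-- LOG: the logarithmic profile, with the sharp constant `2π`. -/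
def LogStmt : Prop :=
  ∃ C₁ : ℝ, 0 ≤ C₁ ∧ ∀ (z : P) (r R : ℝ), 3 ≤ r → r ≤ R → ∃ a : P → ℝ,
    (∀ x : P, ((x.1 - z.1 : ℤ) : ℝ) ^ 2 + ((x.2 - z.2 : ℤ) : ℝ) ^ 2 ≤ r ^ 2 →
      a x = Real.log (R / r)) ∧
    (∀ x : P, R ^ 2 ≤ ((x.1 - z.1 : ℤ) : ℝ) ^ 2 + ((x.2 - z.2 : ℤ) : ℝ) ^ 2 → a x = 0) ∧
    (∀ x : P, w a x ≤ 2 / r ^ 2) ∧
    ∀ X : Finset P, En X a ≤ 2 * Real.pi * Real.log (R / r) + C₁

/-- SHIFT: complex Cameron–Martin translation. -/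
def ShiftStmt : Prop :=
  ∀ (Λ : Finset P) (b : ℝ) (a : P → ℝ) (H : (P → ℂ) → ℂ) (C : ℝ), 0 < b → (∀ x ∉ Λ, a x = 0) →
    Measurable H →
    (∀ φ : P → ℝ, DifferentiableOn ℂ (fun s : ℂ => H (fun x => (φ x : ℂ) + s * (a x : ℂ)))
      {s : ℂ | |s.im| < 3 / 2}) →
    (∀ (φ : P → ℝ) (s : ℂ), |s.im| < 3 / 2 → ‖H (fun x => (φ x : ℂ) + s * (a x : ℂ))‖ ≤ C) →
    ∫ φ : Λ → ℝ, H (fun x => (ext Λ φ x : ℂ)) * (gw Λ b φ : ℂ) =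
      ∫ φ : Λ → ℝ, H (fun x => (ext Λ φ x : ℂ) + Complex.I * (a x : ℂ)) *
        Complex.exp (-Complex.I * bil (halo Λ) a (fun x => (ext Λ φ x : ℂ)) / b +
          (D Λ a / (2 * b) : ℝ)) * (gw Λ b φ : ℂ)

/-- RAT: the product of the ratios of the touched neutral frozen factors is at most `2`. -/
def RatStmt : Prop :=
  ∀ (b : ℝ) (p j : ℕ) (δ₀ : ℝ) (i : P) (M : ℕ → Finset P) (F : ℕ → P → Fld → ℂ) (a : P → ℝ),
    0 < b → 1 ≤ p → 0 ≤ δ₀ → KK p ^ 2 * δ₀ ≤ 1 →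
    (∀ k ≤ j, ∀ m ∈ M k, Ob b p k (Q p k m) (Q p k m) 0 (KK p * dl δ₀ k) (F k m) ∧
      Q p k m ⊆ Q p (j + 1) i) →
    (∀ x, w a x ≤ (hh b / (el p j : ℝ)) ^ 2 / 18) →
    ∀ Φ ∈ Om b p (j + 1) (Q p (j + 1) i),
      ‖∏ k ∈ Finset.range (j + 1), ∏ m ∈ M k,
        fac (F k m) (sh a Complex.I Φ) / fac (F k m) Φ‖ ≤ 2

/-- GAIN: the choice of `p` (pure arithmetic; `s = b / 2π`). -/
def GainStmt : Prop :=
  ∀ b C₁ : ℝ, 8 * Real.pi < b → ∃ (p : ℕ) (θ : ℝ), 3 ≤ p ∧ 0 < θ ∧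
    2 * Real.exp (-(hh b / 2) * Real.log ((p : ℝ) / 3) +
      (1 + θ) * (hh b / 2) ^ 2 * (2 * Real.pi * Real.log ((p : ℝ) / 3) + C₁) / (2 * b) +
      hh b ^ 2 / (2 * θ * b)) * KK p ≤ 1

/-- TR: the translation step. -/
def TrStmt : Prop := ∀ b : ℝ, 8 * Real.pi < b → ∃ p : ℕ, 3 ≤ p ∧ TrProp b p

/-- PH1: combining the objects inside each block of the next scale. -/
def Ph1Stmt : Prop :=
  ∀ (b : ℝ) (p : ℕ) (δ₀ : ℝ) (Λ S : Finset P) (u : P → ℝ) (κ : ℝ) (j : ℕ),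
    0 < b → 3 ≤ p → 0 ≤ δ₀ → KK p ^ 2 * δ₀ ≤ 1 → (∀ m ∈ S, up p m ∈ S) →
    Mid b p δ₀ Λ S u κ j → Claim b p δ₀ Λ S u κ j

/-- PH2: resolving conflicts between neighbouring blocks and translating. -/
def Ph2Stmt : Prop :=
  ∀ (b : ℝ) (p : ℕ) (δ₀ : ℝ) (Λ S : Finset P) (u : P → ℝ) (κ : ℝ) (j : ℕ),
    0 < b → 3 ≤ p → 0 ≤ δ₀ → KK p ^ 2 * δ₀ ≤ 1 → TrProp b p →
    Claim b p δ₀ Λ S u κ (j + 1) → Mid b p δ₀ Λ S u κ j

/-- FIN: the last scale. -/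
def FinStmt : Prop :=
  ∀ (b : ℝ) (p : ℕ) (δ₀ : ℝ) (Λ S : Finset P) (u : P → ℝ) (j : ℕ),
    0 < b → 3 ≤ p → 0 ≤ δ₀ → KK p ^ 2 * δ₀ ≤ 1 → (∀ m ∈ S, ¬ Q p j m ⊆ Λ) →
    (∀ x ∉ Λ, u x = 0) → 4 ^ j * D Λ u ≤ 1 / 2 →
    Claim b p δ₀ Λ S u (700 * KK p * δ₀ * D Λ u) j

/-- INI: Poisson summation and the first convex splitting. -/
def IniStmt : Prop :=
  ∀ (b γ : ℝ) (p : ℕ) (Λ S : Finset P) (u : P → ℝ) (κ : ℝ),
    0 < b → 3 ≤ p → 2 * h0 b p + 1 ≤ γ / 2 → Λ ⊆ S →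
    Claim b p (Real.exp (-γ / 2 + 2 * h0 b p + 1)) Λ S u κ 0 →
    2 * Real.exp (-κ) * Zf Λ b γ 0 ≤ Zf Λ b γ u + Zf Λ b γ (-u)

/-- FS+: the core theorem. -/
def FSStmt : Prop :=
  ∀ b : ℝ, 8 * Real.pi < b → ∃ C γ₀ : ℝ, 0 ≤ C ∧ 0 < γ₀ ∧ ∀ γ : ℝ, γ₀ ≤ γ → ∀ Λ : Finset P,
    ∃ t₀ : ℝ, 0 < t₀ ∧ ∀ u : P → ℝ, (∀ x ∉ Λ, u x = 0) → D Λ u ≤ t₀ →
      2 * Real.exp (-(C * Real.exp (-γ / 2) * D Λ u)) * Zf Λ b γ 0 ≤ Zf Λ b γ u + Zf Λ b γ (-u)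

/-! ## Lattice Gaussians -/

/-- The point `2π h`. -/
noncomputable def lat {ι : Type} (h : ι → ℤ) : ι → ℝ := fun i => 2 * Real.pi * (h i : ℝ)
/-- Theta function of the shifted lattice. -/
noncomputable def thA {ι : Type} [Fintype ι] (A : QuadraticForm ℝ (ι → ℝ)) (u : ι → ℝ) : ℝ :=
  ∑' h : ι → ℤ, Real.exp (-(A (lat h - u)) / 2)
/-- Moment generating function. -/
noncomputable def mgf {ι : Type} [Fintype ι] (A : QuadraticForm ℝ (ι → ℝ)) (F : ι → ℝ) : ℝ :=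
  (∑' h : ι → ℤ, Real.exp (∑ i, F i * lat h i) * Real.exp (-(A (lat h)) / 2)) /
    ∑' h : ι → ℤ, Real.exp (-(A (lat h)) / 2)

/-- SUM: summability, the Riesz vector, and the moment generating function through `thA`. -/
def SumStmt : Prop :=
  ∀ (ι : Type) [Fintype ι] (A : QuadraticForm ℝ (ι → ℝ)), A.PosDef →
    (∀ u : ι → ℝ, Summable fun h : ι → ℤ => Real.exp (-(A (lat h - u)) / 2)) ∧
    (∃ C : ℝ, ∀ u : ι → ℝ, 0 < thA A u ∧ thA A u ≤ C) ∧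
    (∀ F : ι → ℝ, Summable fun h : ι → ℤ =>
      Real.exp (∑ i, F i * lat h i) * Real.exp (-(A (lat h)) / 2)) ∧
    (∀ F : ι → ℝ, ∃ v : ι → ℝ, ∀ x, ∑ i, F i * x i = QuadraticMap.polar A v x / 2) ∧
    ∀ F v : ι → ℝ, (∀ x, ∑ i, F i * x i = QuadraticMap.polar A v x / 2) →
      mgf A F = Real.exp (A v / 2) * thA A v / thA A 0

/-- RSD: the rotation inequality against a positive semidefinite Gaussian factor. -/
def RsdStmt : Prop :=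
  ∀ (ι : Type) [Fintype ι] (A B : QuadraticForm ℝ (ι → ℝ)), A.PosDef → (∀ x, 0 ≤ B x) →
    ∀ u v : ι → ℝ,
      (∑' h : ι → ℤ, Real.exp (-(A (lat h - u)) / 2) * Real.exp (-(B (lat h - v)) / 2)) * thA A 0 ≤
        thA A u * thA (A + B) 0

/-- DBL: doubling, and the theta function is largest at `0`. -/
def DblStmt : Prop :=
  ∀ (ι : Type) [Fintype ι] (A : QuadraticForm ℝ (ι → ℝ)), A.PosDef →
    (∀ u : ι → ℝ, thA A u ^ 4 ≤ thA A ((2 : ℝ) • u) * thA A 0 ^ 3) ∧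
    (∀ u : ι → ℝ, thA A u ≤ thA A 0) ∧
    ∀ F : ι → ℝ, mgf A F ^ 4 ≤ mgf A ((2 : ℝ) • F)

/-- PIN: pinning lowers the moment generating function. -/
def PinStmt : Prop :=
  ∀ (ι κ : Type) [Fintype ι] [Fintype κ] (e : κ → ι) (A : QuadraticForm ℝ (ι → ℝ))
    (A' : QuadraticForm ℝ (κ → ℝ)), Function.Injective e → A.PosDef →
    (∀ x : κ → ℝ, A' x = A (Function.extend e x 0)) →
    ∀ F : ι → ℝ, mgf A' (fun k => F (e k)) ≤ mgf A F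

/-- E0: lower bound on the moment generating function of every lattice Gaussian that is dominated
by the periodic-potential model. -/
def E0Stmt : Prop :=
  ∀ b : ℝ, 8 * Real.pi < b → ∃ C γ₀ : ℝ, 0 ≤ C ∧ 0 < γ₀ ∧ ∀ γ : ℝ, γ₀ ≤ γ →
    ∀ (Λ : Finset P) (A : QuadraticForm ℝ (Λ → ℝ)) (κ : ℝ), 0 < κ →
    (∀ σ φ : Λ → ℝ, A σ ≤ (∑ i, (σ i - φ i) ^ 2) / γ + D Λ (ext Λ φ) / b) →
    (∀ σ : Λ → ℝ, D Λ (ext Λ σ) ≤ κ * A σ) → C * Real.exp (-γ / 2) * κ ≤ 1 →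
    ∀ F g : Λ → ℝ, ∃ t₀ : ℝ, 0 < t₀ ∧ ∀ t : ℝ, |t| ≤ t₀ →
      Real.exp (t ^ 2 * (1 - C * Real.exp (-γ / 2) * κ) * (2 * ∑ i, F i * g i - A g) / 2) ≤
        mgf A (t • F)

/-- `Σ_x (σ(x+y) - σ(x))²` on any group. -/
noncomputable def NG {G : Type} [AddCommGroup G] (σ : G → ℝ) (y : G) : ℝ :=
  ∑' x : G, (σ (x + y) - σ x) ^ 2

/-- CMP: comparison of the `J` energy with the nearest-neighbour energy, on `ℤ²` and on tori. -/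
def CmpStmt : Prop :=
  ∀ (G : Type) [AddCommGroup G] (π : P →+ G) (J : Finset P), IsAdmissible J →
    ∀ σ : G → ℝ, (Function.support σ).Finite →
    2 * (NG σ (π (1, 0)) + NG σ (π (0, 1))) ≤ ∑ y ∈ J, NG σ (π y) ∧
    ∑ y ∈ J, NG σ (π y) ≤
      2 * J.card * varianceConst J * (NG σ (π (1, 0)) + NG σ (π (0, 1))) ∧
    ∀ φ : G → ℝ, (Function.support φ).Finite → ∀ θ : ℝ, 0 < θ →
      ∑ y ∈ J, NG σ (π y) ≤ (1 + 1 / θ) * (4 * J.card) * (∑' x : G, (σ x - φ x) ^ 2) +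
        (1 + θ) * (2 * J.card * varianceConst J) * (NG φ (π (1, 0)) + NG φ (π (0, 1)))

/-- ROUGH: a quantitative criterion for roughness. -/
def RoughStmt : Prop :=
  ∀ b : ℝ, 8 * Real.pi < b → ∃ C γ₀ : ℝ, 0 ≤ C ∧ 0 < γ₀ ∧
    ∀ (J : Finset P), IsAdmissible J → ∀ β θ : ℝ, 0 < β → 0 < θ →
      b * (1 + θ) * varianceConst J ≤ β → γ₀ ≤ β * θ / (2 * (1 + θ)) →
      C * Real.exp (-(β * θ / (2 * (1 + θ))) / 2) * (β * J.card) ≤ 1 / 2 → IsRough J β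

/-- E1: some temperature is rough. -/
def E1Stmt : Prop :=
  ∀ J : Finset P, IsAdmissible J → {β : ℝ | 0 < β ∧ IsRough J β}.Nonempty

/-- E2: upper half of S0202. -/
def E2Stmt : Prop :=
  ∀ ε : ℝ, 0 < ε → ∀ᶠ ρ : ℕ in Filter.atTop,
    IsRough (boxInteraction ρ) ((1 + ε) * (8 * Real.pi * varianceConst (boxInteraction ρ)))

/-- Extension by zero of a field on the punctured torus. -/
def text {n : ℕ} (σ : {x : ZMod n × ZMod n // x ≠ 0} → ℝ) : ZMod n × ZMod n → ℝ :=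
  fun x => if h : x = 0 then 0 else σ ⟨x, h⟩

/-- TOR: the pinned torus is a lattice Gaussian. -/
def TorStmt : Prop :=
  ∀ (J : Finset P), IsAdmissible J → ∀ β : ℝ, 0 < β → ∀ (n : ℕ) [NeZero n],
    ∃ A : QuadraticForm ℝ ({x : ZMod n × ZMod n // x ≠ 0} → ℝ), A.PosDef ∧
      (∀ σ, A σ = (∑ x : ZMod n × ZMod n, ∑ y ∈ J,
        (text σ (x + (((y.1 : ℤ) : ZMod n), ((y.2 : ℤ) : ZMod n))) - text σ x) ^ 2) /
          (2 * β * J.card)) ∧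
      ∀ f : ℝ × ℝ → ℝ, torusLaplace J β n f = mgf A (fun x =>
        (f ((x.1.1.val : ℝ) / n, (x.1.2.val : ℝ) / n) -
          (∑ y : ZMod n × ZMod n, f ((y.1.val : ℝ) / n, (y.2.val : ℝ) / n)) / (n : ℝ) ^ 2) /
            (n : ℝ) ^ 2)

/-- The scaling limit of S0201 at temperature `β` with constant `c` along `n = L^N`. -/
def Lim (J : Finset P) (β : ℝ) (L : ℕ) (c : ℝ) : Prop :=
  ∀ u : ℝ × ℝ → ℝ, IsSmoothPeriodic u →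
    Filter.Tendsto
      (fun N : ℕ => Real.log (torusLaplace J β (L ^ N) (fun x => -flatLaplacian u x)))
      Filter.atTop
      (nhds (c / (2 * varianceConst J) * unitSquarePairing (fun x => -flatLaplacian u x) u))

/-- E4: `β_eff ≤ β`. -/
def E4Stmt : Prop :=
  ∀ (J : Finset P), IsAdmissible J → ∀ (β : ℝ) (L : ℕ) (c : ℝ), 0 < β → 2 ≤ L →
    Lim J β L c → c ≤ β

/-- E3: `β_eff ≥ β - C e^{-cβ}`. -/
def E3Stmt : Prop :=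
  ∀ (J : Finset P), IsAdmissible J → ∃ a : ℝ, 0 < a ∧ ∃ C β₀ : ℝ, 0 ≤ C ∧ ∀ β : ℝ, β₀ ≤ β →
    ∀ (L : ℕ) (c : ℝ), 2 ≤ L → Lim J β L c → β - C * Real.exp (-a * β) ≤ c

end Crest.Agent.T145.FS
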