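import Crest.Agent.T145.PotC_17
import Crest.Agent.T145.Sc_97

/-!
# Row 145: potential theory, second layer (helper17): bridge to flows (`F2`, `Mdl.gr`), Props for (K)
(docs/T145_75.md, section 1: H, P0, P1, P2, P4, P5).  Unit conductances: `E = eD / τ`.
-/

set_option autoImplicit false

namespace Crest.Agent.T145.Pot

open Finset Crest.ProbabilityR.HeightModel

/-- square annulus -/
noncomputable def an (z : Pt) (r R : ℕ) : Finset Pt := bl z R \ bl z r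

/-- coordinates centred at `z` -/
def cx (z : Pt) (i : Fin 2) (x : Pt) : ℝ := co i (x - z)

/-- central difference at `z` -/
noncomputable def pc (z : Pt) (u : Pt → ℝ) (i : Fin 2) : ℝ := (u (z + ev i) - u (z - ev i)) / 2

/-- average over the rotations about `z` -/
noncomputable def ro4 (z : Pt) (f : Pt → ℝ) (x : Pt) : ℝ :=
  (f x + f (rotZ z x) + f (rotZ z (rotZ z x)) + f (rotZ z (rotZ z (rotZ z x)))) / 4

/-- average over the symmetries of the square about `z` -/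
noncomputable def sy8 (z : Pt) (f : Pt → ℝ) (x : Pt) : ℝ := (ro4 z f x + ro4 z f (swpZ z x)) / 2

/-- invariant under the symmetries of the square about `z` -/
def Inv (z : Pt) (u : Pt → ℝ) : Prop := ∀ x, u (rotZ z x) = u x ∧ u (swpZ z x) = u x

/-- the edges of `ed` that meet `S` are the lattice edges -/
def Lt (Λ : Lat) (ed : Finset (Pt × Pt)) (S : Finset Pt) : Prop :=
  ∀ e : Pt × Pt, e.1 ∈ S ∨ e.2 ∈ S → (e ∈ ed ↔ e.2 - e.1 ∈ Λ.Jp)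

/-- every point off `D` starts a straight segment of length `s` off `D` -/
def Ext (D : Finset Pt) (s : ℕ) : Prop :=
  ∀ x, x ∉ D → ∃ e ∈ nn, ∀ j : ℕ, j ≤ s → x + (j : ℤ) • e ∉ D

/-- constants depending only on the steps -/
def Unif (P : Lat → ℝ → ℕ → Prop) : Prop :=
  ∀ J, IsAdmissible J → ∃ (C : ℝ) (r₀ : ℕ), 1 ≤ C ∧ 1 ≤ r₀ ∧ ∀ Λ : Lat, Λ.Ok → Λ.J = J → P Λ C r₀

/-- Poincaré inequalities: annuli, Dirichlet, logarithmic resistance of an annulus -/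
def AnnStmt : Prop :=
  (∀ lam : ℕ, ∃ C : ℝ, ∀ (z : Pt) (r R : ℕ) (u : Pt → ℝ), R ≤ lam * (R - r) → ∀ S ⊆ an z r R,
    ∑ x ∈ an z r R, (u x - av (an z r R) u) ^ 2 ≤ C * (R : ℝ) ^ 2 * eN nL (an z r R) u u ∧
      S.card * (av S u - av (an z r R) u) ^ 2 ≤ C * (R : ℝ) ^ 2 * eN nL (an z r R) u u) ∧
  (∃ C : ℝ, ∀ (z : Pt) (R : ℕ) (u : Pt → ℝ), Sup (bl z R) u →
    ∑ x ∈ bl z R, u x ^ 2 ≤ C * ((R : ℝ) + 1) ^ 2 * eD nL (bl z R) u u) ∧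
  ∃ C : ℝ, ∀ (z : Pt) (r R : ℕ) (u : Pt → ℝ), 1 ≤ r → 2 * r ≤ R →
    (av (an z r (2 * r)) u - av (an z (R / 2) R) u) ^ 2 ≤
      C * (1 + Real.log (R / r)) * eN nL (an z r R) u u

/-- H0: interior estimates for `J`-harmonic functions -/
def HjStmt : Prop := ∀ k : ℕ, Unif fun Λ C r₀ => ∀ (z : Pt) (r : ℕ) (u : Pt → ℝ), r₀ ≤ r →
  (∀ x ∈ bl z (2 * r), lapJ Λ.J u x = 0) →
    Sm k (bl z r) (C * √(∑ x ∈ bl z (2 * r), u x ^ 2) / r) r u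

/-- H, H1, H2, H3 -/
def HStmt : Prop := Unif fun Λ C r₀ => ∀ (z : Pt) (r R : ℕ) (u : Pt → ℝ), r₀ ≤ R → 1 ≤ r → 8 * r ≤ R →
  (∀ x ∈ bl z R, lapJ Λ.J u x = 0) →
    Sm 3 (bl z (R / 2)) (C * √(eN Λ (bl z R) u u)) R (fun x => u x - av (bl z R) u) ∧
    eN Λ (bl z r) u u ≤ C * ((r : ℝ) / R) ^ 2 * eN Λ (bl z R) u u ∧
    (∀ i, |pc z u i| ≤ C * √(eN Λ (bl z R) u u) / R) ∧
    eN Λ (bl z r) (u - ∑ i, pc z u i • cx z i) (u - ∑ i, pc z u i • cx z i) ≤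
      C * ((r : ℝ) / R) ^ 4 * eN Λ (bl z R) u u ∧
    (Inv z u → eN Λ (bl z r) u u ≤ C * ((r : ℝ) / R) ^ 6 * eN Λ (bl z R) u u)

/-- P1a: the swept charge of a function that is harmonic inside the box -/
def ChgStmt : Prop := Unif fun Λ C r₀ => ∀ (z : Pt) (r : ℕ) (A : Finset Pt) (ed : Finset (Pt × Pt))
  (φ : Pt → ℝ), r₀ ≤ r → bl z (3 * r) ⊆ A → Co A (edF ed) → Lt Λ ed (bl z (3 * r)) →
    (∀ x, bl x Λ.rg ⊆ bl z r → lapJ Λ.J φ x = 0) → ∑ x ∈ bl z r, chg (bl z r) A (edF ed) φ x = 0 →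
    F2 (Λ.edI (an z (r / 2) (3 * r))) (chg (bl z r) A (edF ed) φ) (C * eN Λ (bl z (3 * r)) φ φ)

/-- P1: multipoles -/
def MulStmt : Prop := Unif fun Λ C r₀ => ∀ (z : Pt) (r R : ℕ), r₀ ≤ r → 24 * r ≤ R →
  let I := bl z r
  let D := bl z R
  let U := Λ.edI (an z (r / 2) (3 * r))
  let ζ : Fin 2 → Pt → ℝ := fun i => chg I D (eD Λ D) (cx z i)
  ((∀ i, F2 U (ζ i) (C * (r : ℝ) ^ 2)) ∧ ζ 0 ∘ rotZ z = -ζ 1 ∧ ζ 1 ∘ rotZ z = ζ 0 ∧
    ζ 0 ∘ swpZ z = ζ 1 ∧ ζ 1 ∘ swpZ z = ζ 0) ∧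
  ∀ ψ : Pt → ℝ, (∀ x ∈ I, ψ x = 0) → (∀ x ∈ an z r R, lapJ Λ.J ψ x = 0) →
    ∑ x ∈ I, lapJ Λ.J ψ x = 0 →
    let P := hx D (eD Λ D) ψ
    let E := eD Λ D ψ ψ
    let δ := on I (lapJ Λ.J ψ)
    δ = chg I D (eD Λ D) P ∧ (∀ i, |pc z P i| ≤ C * √E / R) ∧ F2 U δ (C * ((r : ℝ) / R) ^ 2 * E) ∧
      F2 U (δ - ∑ i, pc z P i • ζ i) (C * ((r : ℝ) / R) ^ 4 * E) ∧
      F2 U (sy8 z δ) (C * ((r : ℝ) / R) ^ 6 * E)

/-- P2: harmonic measure from the middle of the condenser (dual form; `f2_of_lin` gives the flows) -/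
def MesStmt : Prop := Unif fun Λ C r₀ => ∀ (z : Pt) (r L : ℕ), r₀ ≤ r → 8 * r ≤ L →
  ∀ x ∈ an z (L / 4) (3 * L / 4), ∀ h : Pt → ℝ,
    let I := bl z r
    let O := bl z L
    let ξ := av (an z L (3 * L / 2)) h
    (exo I O (eD Λ O) h x - exo I O (eD Λ O) 1 x * ξ) ^ 2 ≤ C * eN Λ (an z (L / 8) (2 * L)) h h ∧
    (ex I O (eD Λ O) h x - ex I O (eD Λ O) 1 x * ξ) ^ 2 ≤
      C * (1 + Real.log (L / r)) * eN Λ (an z (r / 2) (2 * L)) h h ∧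
    (ip I (eqm I O (eD Λ O)) h - ξ) ^ 2 ≤
      C * (1 + Real.log (L / r)) * eN Λ (an z (r / 2) (2 * L)) h h ∧
    (ip I (eqm I O (eD Λ O)) (hx O (eD Λ O) h) - ξ) ^ 2 ≤ C * eN Λ (an z (L / 8) (2 * L)) h h

/-- sharp logarithm: Green form of unit charges, capacity (P4) -/
def CapStmt : Prop :=
  (∀ K : ℝ, Unif fun Λ C r₀ => ∀ (z : Pt) (r R : ℕ) (ξ ξ' : Pt → ℝ), r₀ ≤ r → 2 * r ≤ R →
    Sup (bl z r) ξ → Sup (bl z r) ξ' → (∀ x, |ξ x| ≤ K / (r : ℝ) ^ 2) → (∀ x, |ξ' x| ≤ K / (r : ℝ) ^ 2) →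
    ∑ x ∈ bl z r, ξ x = 1 → ∑ x ∈ bl z r, ξ' x = 1 →
    |GD Λ (bl z R) ξ ξ' - Real.log (R / r) / (2 * Real.pi * Λ.a)| ≤
      C * (1 + √(Real.log (R / r)) / r)) ∧
  Unif fun Λ C r₀ => ∀ (z : Pt) (r R : ℕ), r₀ ≤ r → 2 * r ≤ R →
    |(cap (bl z r) (bl z R) (eD Λ (bl z R)))⁻¹ - Real.log (R / r) / (2 * Real.pi * Λ.a)| ≤
      C * (1 + √(Real.log (R / r)) / r)

/-- P5: size of the Green function -/
def GszStmt : Prop := ∃ C : ℝ, ∀ (Λ : Lat) (z : Pt) (R : ℕ) (D : Finset Pt), Λ.Ok → 1 ≤ R → D ⊆ bl z R →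
  (∀ x ∈ D, ∀ y ∈ D, GD nL D (dl x) (dl y) ≤ C * (1 + Real.log (4 * R / (1 + eu (x - y))))) ∧
  ∑ x ∈ D, ∑ y ∈ D, GD Λ D (dl x) (dl y) ^ 2 ≤ C * (R : ℝ) ^ 4 ∧
  (∀ (f : Pt → ℝ) (K : ℝ), 0 ≤ K → (∀ x ∈ D, |f x| ≤ K) → ∀ x,
    |gr D (eD Λ D) f x| ≤ K * ((R : ℝ) + Λ.rg) ^ 2) ∧
  ∀ (ι : Type) (T : Finset ι) (β : ι → Finset Pt), (T : Set ι).PairwiseDisjoint β →
    ∑ c ∈ T, ∑ c' ∈ T, ((β c).card : ℝ)⁻¹ * ((β c').card : ℝ)⁻¹ *
      GD Λ D (on (β c) 1) (on (β c') 1) ^ 2 ≤ C * (R : ℝ) ^ 4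

/-- weak Beurling estimate -/
def BeurStmt : Prop := ∀ J, IsAdmissible J → ∃ C c : ℝ, 0 < c ∧ ∀ Λ : Lat, Λ.Ok → Λ.J = J →
  ∀ (K : Finset Pt) (z y : Pt) (r R : ℕ) (u : Pt → ℝ), 1 ≤ r → 2 * r ≤ R → z ∈ K → y ∉ bl z R →
    Conn (Λ.edI K) z y → (∀ x ∈ K, u x = 0) → (∀ x ∈ bl z R, x ∉ K → lapJ Λ.J u x = 0) →
    ∀ x ∈ bl z r, u x ^ 2 ≤ C * ((r : ℝ) / R) ^ c * eD Λ (bl z R) u u

/-- P0: Green potentials of bounded densities are close in energy to smooth functions of compact support -/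
def P0Stmt : Prop := ∀ (J : Finset Pt) (k : ℕ) (K W ε : ℝ), IsAdmissible J → 0 < ε →
  ∃ K' L₀ : ℕ, 1 ≤ K' ∧ ∀ Λ : Lat, Λ.Ok → Λ.J = J → ∀ (z : Pt) (L s : ℕ) (D : Finset Pt), L₀ ≤ L →
    D ⊆ bl z L → (L : ℝ) ≤ W * s → Ext D s → ∀ f : Pt → ℝ, (∀ x ∈ D, |f x| ≤ K / (L : ℝ) ^ 2) →
    ∃ u, Sm k Set.univ K' L u ∧ (∀ x, u x ≠ 0 → bl x (L / K') ⊆ D) ∧
      eD Λ D (gr D (eD Λ D) f - u) (gr D (eD Λ D) f - u) ≤ ε

/-! ## bridge to flows -/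
section bridge
variable {V : Type*} [DecidableEq V]

omit [DecidableEq V] in
theorem ip_eq (B : Finset V) (f g : V → ℝ) : T145.ip B f g = ip B f g := rfl

omit [DecidableEq V] in
theorem sup_iff (B : Finset V) (f : V → ℝ) : T145.Sup B f ↔ Sup B f := Iff.rfl

theorem dv_eq (ed : Finset (V × V)) (φ : V × V → ℝ) (x : V) :
    dv ed φ x = ∑ e ∈ ed, φ e * (dl x e.2 - dl x e.1) := by
  simp only [dv, ind, Pi.single_apply]
  exact sum_congr rfl fun e _ => by congr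

theorem ip_dv' (A : Finset V) (ed : Finset (V × V)) (φ : V × V → ℝ) {u : V → ℝ} (hu : Sup A u) :
    ip A (dv ed φ) u = ∑ e ∈ ed, φ e * (u e.2 - u e.1) := by
  have h1 : ∀ y, ∑ x ∈ A, dl x y * u x = u y := fun y => by
    rw [← ip_dl_sup y hu]
    exact sum_congr rfl fun x _ => by simp only [Pi.single_apply, eq_comm]
  simp only [ip, dv_eq, sum_mul]
  rw [sum_comm]
  refine sum_congr rfl fun e _ => ?_
  simp only [mul_assoc, ← mul_sum, sub_mul, sum_sub_distrib, h1]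

theorem op_edF_eq (ed : Finset (V × V)) (u : V → ℝ) :
    op (edF ed) u = dv ed fun e => u e.2 - u e.1 := by
  funext x; rw [op, edF_apply, dv_eq]

theorem Co.f2A_iff {A : Finset V} {ed : Finset (V × V)} (h : Co A (edF ed)) (f : V → ℝ) (n : ℝ) :
    F2A ed A f n ↔ G A (edF ed) f f ≤ n := by
  constructor
  · rintro ⟨φ, h1, h2⟩
    exact (h.thomson_ed (fun _ _ => le_rfl) fun u hu => by rw [ip_congr h1, ip_dv' A ed φ hu]).trans h2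
  · intro h1
    exact ⟨fun e => dr e (gr A (edF ed) f), fun x hx' => by
      rw [← h.op_gr f hx', op_edF_eq]; rfl, (h.current f).2.trans_le h1⟩

theorem Co.mdl_gr {m : Mdl V} (h : Co m.A (edF m.ed)) (τ : ℝ) (f : V → ℝ) :
    m.gr τ f = τ * G m.A (edF m.ed) f f := by
  rw [Mdl.gr, show {n | F2A m.ed m.A f n} = Set.Ici (G m.A (edF m.ed) f f) from
    Set.ext fun n => h.f2A_iff f n, csInf_Ici]

/-- Thomson's principle, existence of the flow (no connectivity needed) -/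
theorem f2_of_dual {U : Finset V} {ed : Finset (V × V)} (hU : ∀ e ∈ ed, e.1 ∈ U ∧ e.2 ∈ U)
    {f : V → ℝ} (hf : Sup U f) {n : ℝ} (hn : 0 ≤ n) (h : ∀ u, ip U f u ^ 2 ≤ n * edF ed u u) :
    F2 ed f n := by
  let s : Setoid V := ⟨Conn ed, fun x => Conn.refl ed x, Conn.symm, Conn.trans⟩
  let ρ : V → V := fun x => (Quotient.mk s x).out
  have hρ : ∀ x, Conn ed x (ρ x) := fun x => Conn.symm (Quotient.mk_out (s := s) x)
  have hρ2 : ∀ x y, Conn ed x y → ρ x = ρ y := fun x y hxy => by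
    simp only [ρ]; rw [Quotient.sound (s := s) hxy]
  have hoff : ∀ x, x ∉ U → ρ x = x := fun x hx' => by
    rcases (hρ x).cases_head with h1 | ⟨y, h1, -⟩
    · exact h1.symm
    · exact absurd (h1.elim (fun h2 => (hU _ h2).1) fun h2 => (hU _ h2).2) hx'
  set A := U.filter fun x => ρ x ≠ x
  have hA : Co A (edF ed) := co_edF fun x _ => ⟨ρ x, fun h1 =>
    (mem_filter.1 h1).2 (hρ2 _ _ (hρ x)).symm, hρ x⟩
  have hs : ∀ u : V → ℝ, Sup A fun x => u x - u (ρ x) := fun u x hx' => by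
    by_cases h1 : x ∈ U
    · have : ρ x = x := by by_contra h2; exact hx' (mem_filter.2 ⟨h1, h2⟩)
      simp [this]
    · simp [hoff x h1]
  have hAU : A ⊆ U := filter_subset _ _
  have hG : G A (edF ed) f f ≤ n := hA.G_le_of hn fun u hu => by
    rw [← ip_of_sup hAU f hu]; exact h u
  refine ⟨fun e => dr e (gr A (edF ed) f), funext fun x => ?_, (hA.current f).2.trans_le hG⟩
  have he : ∀ u : V → ℝ, ∀ e ∈ ed, u (ρ e.2) = u (ρ e.1) := fun u e he => by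
    rw [hρ2 e.1 e.2 (Conn.edge he)]
  have h0 : ∀ u : V → ℝ, ip U f (fun x => u (ρ x)) = 0 := fun u => by
    have h1 := h fun x => u (ρ x)
    rw [edF_self, sum_eq_zero fun e h2 => by simp [he u e h2], mul_zero] at h1
    exact pow_eq_zero_iff two_ne_zero |>.1 (le_antisymm h1 (sq_nonneg _))
  have h1 := (hA.current f).1 _ (hs (dl x))
  rw [← ip_of_sup hAU f (hs _), show (fun y => dl x y - dl x (ρ y)) = dl x - fun y => dl x (ρ y) from rfl,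
    ip_sub_right, h0, sub_zero, ip_comm, ip_dl_sup x hf] at h1
  rw [h1, dv_eq]
  exact sum_congr rfl fun e h2 => by simp only [he (dl x) e h2]; ring

/-- a linear functional bounded by the energy is the pairing with a charge that has a flow -/
theorem f2_of_lin {U : Finset V} {ed : Finset (V × V)} (hU : ∀ e ∈ ed, e.1 ∈ U ∧ e.2 ∈ U)
    {ℓ : (V → ℝ) → ℝ} (hℓ : IsLinearMap ℝ ℓ) {n : ℝ} (hn : 0 ≤ n) (h : ∀ u, ℓ u ^ 2 ≤ n * edF ed u u) :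
    (∀ u, ℓ u = ip U (on U fun y => ℓ (dl y)) u) ∧ F2 ed (on U fun y => ℓ (dl y)) n := by
  have h1 : ∀ u, ℓ u = ip U (on U fun y => ℓ (dl y)) u := fun u => by
    have h2 := h (off U u)
    rw [edF_self, sum_eq_zero fun e he => by
      simp [off_of_mem (hU e he).1, off_of_mem (hU e he).2], mul_zero] at h2
    have h3 : ℓ (off U u) = 0 := pow_eq_zero_iff two_ne_zero |>.1 (le_antisymm h2 (sq_nonneg _))
    conv_lhs => rw [← on_add_off U u, hℓ.map_add, h3, add_zero, (sup_on U u).eq_sum]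
    rw [ip_on]
    change hℓ.mk' ℓ _ = _
    rw [map_sum]
    exact sum_congr rfl fun y hy => by rw [map_smul, on_of_mem hy, smul_eq_mul, mul_comm]; rfl
  exact ⟨h1, f2_of_dual hU (sup_on _ _) hn fun u => by rw [← h1]; exact h u⟩

theorem dual_of_f2 {U : Finset V} {ed : Finset (V × V)} (hU : ∀ e ∈ ed, e.1 ∈ U ∧ e.2 ∈ U)
    {f : V → ℝ} {n : ℝ} (h : F2 ed f n) (u : V → ℝ) : ip U f u ^ 2 ≤ n * edF ed u u := by
  obtain ⟨φ, rfl, h2⟩ := h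
  rw [ip_comm, ← ip_on, ip_comm, ip_dv' U ed φ (sup_on U u), edF_self,
    sum_congr rfl fun e he => by rw [on_of_mem (hU e he).1, on_of_mem (hU e he).2]]
  exact (sum_mul_sq_le_sq_mul_sq _ _ _).trans
    (mul_le_mul_of_nonneg_right h2 (sum_nonneg fun _ _ => sq_nonneg _))

end bridge

theorem En_eq (Λ : Lat) (D : Finset Pt) (u v : Pt → ℝ) : Λ.En D u v = eN Λ D u v / Λ.τ := by
  rw [Lat.En, eN, edF_apply, sum_div]

theorem Au_eq (Λ : Lat) (D : Finset Pt) (u : Pt → ℝ) : Λ.Au D u = Λ.τ⁻¹ • op (eN Λ D) u := by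
  funext x
  simp only [Lat.Au, eN, op_edF_eq, dv, Pi.smul_apply, smul_eq_mul, mul_sum]
  exact sum_congr rfl fun _ _ => by ring

theorem A0_eq (u : Pt → ℝ) (z : Pt) : A0 u z = -lap u z := by
  obtain ⟨a, b⟩ := z
  simp only [A0, lap_apply, Prod.mk_add_mk, add_zero, ← sub_eq_add_neg]; ring

theorem Sm.sm2 {k : ℕ} {K L : ℝ} {u : Pt → ℝ} (h : Sm k Set.univ K L u) (hk : 2 ≤ k) : Sm2 u K L := by
  have hev : ∀ i, ev i ∈ nn := fun i => by fin_cases i <;> decide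
  exact ⟨fun i x => h.one (by omega) (hev i) trivial, fun i j x => h.two hk (hev j) (hev i) trivial⟩

/-- only the steps matter -/
theorem J_congr {Λ Λ' : Lat} (h : Λ.J = Λ'.J) : Λ.edT = Λ'.edT ∧ Λ.edI = Λ'.edI ∧ eD Λ = eD Λ' ∧
    eN Λ = eN Λ' ∧ GD Λ = GD Λ' ∧ Λ.rg = Λ'.rg ∧ Λ.a = Λ'.a ∧ Λ.Jp = Λ'.Jp := by
  obtain ⟨J, b, t⟩ := Λ
  obtain ⟨J', b', t'⟩ := Λ'
  obtain rfl : J = J' := h
  exact ⟨rfl, rfl, rfl, rfl, rfl, rfl, rfl, rfl⟩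

theorem ok_of_adm {J : Finset Pt} (h : IsAdmissible J) : (⟨J, false, 1⟩ : Lat).Ok := ⟨h, one_pos⟩

theorem mem_an {z x : Pt} {r R : ℕ} : x ∈ an z r R ↔ x ∈ bl z R ∧ x ∉ bl z r := mem_sdiff

theorem lt_edT (Λ : Lat) {D S : Finset Pt} (h : S ⊆ D) : Lt Λ (Λ.edT D) S := fun e he => by
  rw [Lat.mem_edT]; exact ⟨And.left, fun h1 => ⟨h1, he.imp (@h _) (@h _)⟩⟩

theorem Lt.op {Λ : Lat} (h : Λ.Ok) {ed : Finset (Pt × Pt)} {S : Finset Pt} (hL : Lt Λ ed S) {x : Pt}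
    (hx' : x ∈ S) (u : Pt → ℝ) : op (edF ed) u x = -lapJ Λ.J u x :=
  op_edF h (fun e he => hL e (he.imp (fun h1 => by rwa [h1]) fun h1 => by rwa [h1])) u

theorem ext_bl (z : Pt) (L s : ℕ) : Ext (bl z L) s := fun x hx' => by
  rw [mem_bl] at hx'
  by_cases h1 : x.1 < z.1 - L
  · exact ⟨(-1, 0), by decide, fun j _ h => by rw [mem_bl] at h; simp at h; omega⟩
  by_cases h2 : z.1 + L < x.1
  · exact ⟨(1, 0), by decide, fun j _ h => by rw [mem_bl] at h; simp at h; omega⟩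
  by_cases h3 : x.2 < z.2 - L
  · exact ⟨(0, -1), by decide, fun j _ h => by rw [mem_bl] at h; simp at h; omega⟩
  · exact ⟨(0, 1), by decide, fun j _ h => by rw [mem_bl] at h; simp at h; omega⟩

theorem ext_an (z : Pt) (r L : ℕ) : Ext (an z r L) r := fun x hx' => by
  by_cases h0 : x ∈ bl z r
  · rw [mem_bl] at h0
    by_cases h1 : x.1 ≤ z.1
    · exact ⟨(1, 0), by decide, fun j hj h => (mem_an.1 h).2 (by rw [mem_bl]; simp; omega)⟩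
    · exact ⟨(-1, 0), by decide, fun j hj h => (mem_an.1 h).2 (by rw [mem_bl]; simp; omega)⟩
  · obtain ⟨e, he, h1⟩ := ext_bl z L r x fun h => hx' (mem_an.2 ⟨h, h0⟩)
    exact ⟨e, he, fun j hj h => h1 j hj (mem_an.1 h).1⟩

end Crest.Agent.T145.Pot
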