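import Crest.Agent.T145.UvA_49
import Crest.Agent.T145.GffDef_8
import Crest.Agent.T145.GeoA_51

/-!
# Row 145, UV lemma, Haar bands (helper49): exact splitting of the mass term, colours
-/

set_option autoImplicit false

namespace Crest.Agent.T145.Uv

open Finset

/-- uniform probability on a square -/
noncomputable def ua (a : Pt) (n : ℕ) (x : Pt) : ℝ := ind (x ∈ sq a n) / (n : ℝ) ^ 2

/-- mean over a square -/
noncomputable def mn (a : Pt) (n : ℕ) (v : Pt → ℝ) : ℝ := (∑ x ∈ sq a n, v x) / (n : ℝ) ^ 2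

/-- index of the parent -/
def par (i : Pt) : Pt := (i.1 / 2, i.2 / 2)

/-- Haar functional: child of side `2 ^ j` against its parent, in the cell with corner `a` -/
noncomputable def hf (a : Pt) (j : ℕ) (i : Pt) : Pt → ℝ :=
  ua (tile a (2 ^ j) i) (2 ^ j) - ua (tile a (2 ^ (j + 1)) (par i)) (2 ^ (j + 1))

/-- indices (cell, level, child) -/
abbrev Ix : Type := Σ _ : Pt, Σ _ : ℕ, Pt

/-- the terms of the levels `Jv` in the cells `sq a (2 ^ c)`, `a ∈ I` -/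
noncomputable def terms (I : Finset Pt) (c : ℕ) (Jv : Finset ℕ) : Finset Ix :=
  I.sigma fun _ => Jv.sigma fun j => sq 0 (2 ^ (c - j))

/-- the linear observables: `gq (terms I c Jv) (hl μ) = exp (- Q)` -/
noncomputable def hl (μ : ℝ) (t : Ix) : Cfg Pt →+ ℝ :=
  (Real.sqrt μ * 2 ^ t.2.1) • pr (hf t.1 t.2.1 t.2.2)

/-- corner of the child -/
def cor (t : Ix) : Pt := tile t.1 (2 ^ t.2.1) t.2.2

theorem ua_off {a x : Pt} {n : ℕ} (h : x ∉ sq a n) : ua a n x = 0 := by simp [ua, ind_neg h]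

theorem ua_nonneg (a : Pt) (n : ℕ) (x : Pt) : 0 ≤ ua a n x :=
  div_nonneg (ind_nonneg _) (by positivity)

theorem ua_le (a : Pt) (n : ℕ) (x : Pt) : ua a n x ≤ 1 / (n : ℝ) ^ 2 :=
  div_le_div_of_nonneg_right (ind_le_one _) (by positivity)

theorem sum_ua_mul {a : Pt} {n : ℕ} {U : Finset Pt} (h : sq a n ⊆ U) (v : Pt → ℝ) :
    ∑ x ∈ U, ua a n x * v x = mn a n v := by
  rw [← sum_subset h fun x _ hx => by rw [ua_off hx, zero_mul], mn, sum_div]
  exact sum_congr rfl fun x hx => by rw [ua, ind_pos hx]; ring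

theorem mn_const {a : Pt} {n : ℕ} (hn : 0 < n) (k : ℝ) : mn a n (fun _ => k) = k := by
  have : (n : ℝ) ≠ 0 := by positivity
  rw [mn, sum_const, card_sq, nsmul_eq_mul]; push_cast; field_simp

theorem sum_ua {a : Pt} {n : ℕ} {U : Finset Pt} (hn : 0 < n) (h : sq a n ⊆ U) :
    ∑ x ∈ U, ua a n x = 1 := by
  simpa only [mul_one, mn_const hn] using sum_ua_mul h fun _ => 1

theorem pr_ua (a : Pt) (n : ℕ) (s : Cfg Pt) : pr (ua a n) s = mn a n fun x => s x := by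
  rw [pr_of_fsupp _ s fun x hx => ua_off hx, sum_ua_mul subset_rfl]

theorem mn_add {a : Pt} {n : ℕ} (hn : 0 < n) (v : Pt → ℝ) (k : ℝ) :
    mn a n (fun x => v x + k) = mn a n v + k := by
  conv_rhs => rw [← mn_const (a := a) hn k]
  simp only [mn, sum_add_distrib, add_div]

theorem sq_split (a : Pt) {n : ℕ} (hn : 0 < n) (v : Pt → ℝ) (β : ℝ) :
    ∑ x ∈ sq a n, (v x - β) ^ 2 =
      ∑ x ∈ sq a n, (v x - mn a n v) ^ 2 + (n : ℝ) ^ 2 * (mn a n v - β) ^ 2 := by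
  have h0 : (n : ℝ) ≠ 0 := by positivity
  have e : ∑ x ∈ sq a n, v x = (n : ℝ) ^ 2 * mn a n v := by rw [mn]; field_simp
  have : ∀ x, (v x - β) ^ 2 = (v x - mn a n v) ^ 2 + (2 * (mn a n v - β) * v x +
      (β ^ 2 - mn a n v ^ 2)) := fun x => by ring
  simp only [this, sum_add_distrib, ← mul_sum, e, sum_const, card_sq, nsmul_eq_mul]
  push_cast; ring

theorem tileOf_succ (a x : Pt) (j : ℕ) : tileOf a (2 ^ (j + 1)) x = par (tileOf a (2 ^ j) x) := by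
  simp only [tileOf, par]
  push_cast
  rw [Int.ediv_ediv_of_nonneg (by positivity), Int.ediv_ediv_of_nonneg (by positivity), pow_succ]

/-- projection on the level `j` -/
noncomputable def pj (a : Pt) (j : ℕ) (v : Pt → ℝ) (x : Pt) : ℝ :=
  mn (tile a (2 ^ j) (tileOf a (2 ^ j) x)) (2 ^ j) v

theorem pj_zero (a : Pt) (v : Pt → ℝ) (x : Pt) : pj a 0 v x = v x := by
  have : sq (tile a 1 (tileOf a 1 x)) 1 = {x} := by
    ext y; simp only [mem_sq, tile, tileOf, mem_singleton, Prod.ext_iff]; push_cast; omega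
  simp [pj, mn, this]

theorem pj_top {a x : Pt} {c : ℕ} (hx : x ∈ sq a (2 ^ c)) (v : Pt → ℝ) :
    pj a c v x = mn a (2 ^ c) v := by
  have : tileOf a (2 ^ c) x = 0 := (mem_tile_iff (by positivity)).1 (by simpa [tile] using hx)
  simp [pj, this, tile]

theorem haar_aux (a : Pt) (c : ℕ) (v : Pt → ℝ) {j : ℕ} (hj : j ≤ c) :
    ∑ x ∈ sq a (2 ^ c), (v x - pj a j v x) ^ 2 = ∑ k ∈ range j, ∑ i ∈ sq 0 (2 ^ (c - k)),
      ((2 : ℝ) ^ k) ^ 2 * (mn (tile a (2 ^ k) i) (2 ^ k) v -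
        mn (tile a (2 ^ (k + 1)) (par i)) (2 ^ (k + 1)) v) ^ 2 := by
  induction j with
  | zero => simp [pj_zero]
  | succ j ih =>
    rw [sum_range_succ, ← ih (by omega)]
    have e : 2 ^ c = 2 ^ (c - j) * 2 ^ j := by rw [← pow_add]; congr 1; omega
    rw [e, sum_tiling, sum_tiling, ← sum_add_distrib]
    refine sum_congr rfl fun i _ => ?_
    have h := sq_split (tile a (2 ^ j) i) (n := 2 ^ j) (by positivity) v
      (mn (tile a (2 ^ (j + 1)) (par i)) (2 ^ (j + 1)) v)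
    push_cast at h
    have e1 : ∑ x ∈ sq (tile a (2 ^ j) i) (2 ^ j), (v x - pj a j v x) ^ 2 =
        ∑ x ∈ sq (tile a (2 ^ j) i) (2 ^ j), (v x - mn (tile a (2 ^ j) i) (2 ^ j) v) ^ 2 :=
      sum_congr rfl fun x hx => by rw [pj, (mem_tile_iff (by positivity)).1 hx]
    rw [e1, ← h]
    exact sum_congr rfl fun x hx => by rw [pj, tileOf_succ, (mem_tile_iff (by positivity)).1 hx]

theorem hl_sq {μ : ℝ} (hμ : 0 ≤ μ) (t : Ix) (s : Cfg Pt) : hl μ t s ^ 2 =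
    μ * (((2 : ℝ) ^ t.2.1) ^ 2 * (mn (tile t.1 (2 ^ t.2.1) t.2.2) (2 ^ t.2.1) (fun x => s x) -
      mn (tile t.1 (2 ^ (t.2.1 + 1)) (par t.2.2)) (2 ^ (t.2.1 + 1)) fun x => s x) ^ 2) := by
  simp only [hl, hf, pr_sub, AddMonoidHom.smul_apply, AddMonoidHom.sub_apply, pr_ua, smul_eq_mul,
    mul_pow, Real.sq_sqrt hμ]
  ring

/-- **exact splitting** of the mass term at the level `k` -/
theorem haar {μ : ℝ} (hμ : 0 ≤ μ) (I : Finset Pt) (c : ℕ) (s : Cfg Pt) (k : ℝ) :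
    μ * ∑ a ∈ I, ∑ x ∈ sq a (2 ^ c), ((s x : ℝ) + k) ^ 2 =
      μ * ((2 : ℝ) ^ c) ^ 2 * ∑ a ∈ I, (pr (ua a (2 ^ c)) s + k) ^ 2 +
        ∑ t ∈ terms I c (range c), hl μ t s ^ 2 := by
  simp only [terms, sum_sigma, hl_sq hμ, ← mul_sum]
  rw [mul_assoc, ← mul_add, mul_sum I _ (((2 : ℝ) ^ c) ^ 2), ← sum_add_distrib]
  congr 1
  refine sum_congr rfl fun a _ => ?_
  have h := sq_split a (n := 2 ^ c) (by positivity) (fun x => s x) (-k)
  simp only [sub_neg_eq_add] at h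
  push_cast at h
  rw [h, add_comm, pr_ua]
  congr 1
  simp only [mul_sum]
  rw [← haar_aux a c _ le_rfl]
  exact sum_congr rfl fun x hx => by rw [pj_top hx]

theorem terms_union (I : Finset Pt) (c : ℕ) {J J' : Finset ℕ} (h : Disjoint J J') (f : Ix → ℝ) :
    ∑ t ∈ terms I c (J ∪ J'), f t = ∑ t ∈ terms I c J, f t + ∑ t ∈ terms I c J', f t := by
  simp only [terms, sum_sigma, sum_union h, sum_add_distrib]

theorem mem_terms {I : Finset Pt} {c : ℕ} {Jv : Finset ℕ} {t : Ix} :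
    t ∈ terms I c Jv ↔ t.1 ∈ I ∧ t.2.1 ∈ Jv ∧ t.2.2 ∈ sq 0 (2 ^ (c - t.2.1)) := by
  simp only [terms, mem_sigma]

theorem child_sub_par (a : Pt) (j : ℕ) (i : Pt) :
    sq (tile a (2 ^ j) i) (2 ^ j) ⊆ sq (tile a (2 ^ (j + 1)) (par i)) (2 ^ (j + 1)) := fun x hx => by
  rw [mem_tile_iff (by positivity)] at hx ⊢
  rw [tileOf_succ, hx]

theorem child_sub_top {a i : Pt} {j c : ℕ} (hj : j ≤ c) (hi : i ∈ sq 0 (2 ^ (c - j))) :
    sq (tile a (2 ^ j) i) (2 ^ j) ⊆ sq a (2 ^ c) := by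
  have e : 2 ^ c = 2 ^ (c - j) * 2 ^ j := by rw [← pow_add]; congr 1; omega
  rw [e]; exact tile_subset a _ hi

theorem par_sub_top {a i : Pt} {j c : ℕ} (hj : j < c) (hi : i ∈ sq 0 (2 ^ (c - j))) :
    sq (tile a (2 ^ (j + 1)) (par i)) (2 ^ (j + 1)) ⊆ sq a (2 ^ c) := by
  refine child_sub_top hj ?_
  have e : c - j = (c - (j + 1)) + 1 := by omega
  rw [e, mem_sq] at hi
  rw [mem_sq, par]
  push_cast [pow_succ] at hi ⊢
  simp only [Prod.fst_zero, Prod.snd_zero] at hi ⊢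
  omega

theorem par_sub_bl (a : Pt) (j : ℕ) (i : Pt) :
    sq (tile a (2 ^ (j + 1)) (par i)) (2 ^ (j + 1)) ⊆ bl (tile a (2 ^ j) i) (2 ^ (j + 1)) := by
  intro x hx
  have h := mem_sq.1 (child_sub_par a j i (self_mem_sq _ (by positivity)))
  rw [mem_sq] at hx
  rw [mem_bl]
  omega

theorem hf_off {a i x : Pt} {j : ℕ} (hx : x ∉ sq (tile a (2 ^ (j + 1)) (par i)) (2 ^ (j + 1))) :
    hf a j i x = 0 := by
  rw [hf, Pi.sub_apply, ua_off hx, ua_off fun h => hx (child_sub_par a j i h), sub_zero]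

theorem sum_hf {a i : Pt} {j : ℕ} {U : Finset Pt}
    (h : sq (tile a (2 ^ (j + 1)) (par i)) (2 ^ (j + 1)) ⊆ U) : ∑ x ∈ U, hf a j i x = 0 := by
  simp only [hf, Pi.sub_apply, sum_sub_distrib]
  rw [sum_ua (by positivity) h, sum_ua (by positivity) ((child_sub_par a j i).trans h), sub_self]

theorem abs_hf (a : Pt) (j : ℕ) (i x : Pt) : |hf a j i x| ≤ 1 / ((2 : ℝ) ^ j) ^ 2 := by
  have h1 := ua_le (tile a (2 ^ j) i) (2 ^ j) x
  have h2 := ua_le (tile a (2 ^ (j + 1)) (par i)) (2 ^ (j + 1)) x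
  have h3 := ua_nonneg (tile a (2 ^ j) i) (2 ^ j) x
  have h4 := ua_nonneg (tile a (2 ^ (j + 1)) (par i)) (2 ^ (j + 1)) x
  have h5 : 1 / ((2 : ℝ) ^ (j + 1)) ^ 2 ≤ 1 / ((2 : ℝ) ^ j) ^ 2 := by
    gcongr <;> norm_num
  push_cast at h1 h2
  rw [hf, Pi.sub_apply, abs_le]
  constructor <;> linarith

/-- the Haar functional has a flow of bounded norm inside the parent -/
theorem hf_flow (hR : R1Stmt) {Λ : Lat} (hΛ : Λ.Ok) (a : Pt) (j : ℕ) (i : Pt) :
    F2 (Λ.edI (sq (tile a (2 ^ (j + 1)) (par i)) (2 ^ (j + 1)))) (hf a j i) 32 := by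
  obtain ⟨φ, h1, h2⟩ := (hR Λ (tile a (2 ^ (j + 1)) (par i)) (2 ^ (j + 1)) (2 ^ (j + 1)) (hf a j i) hΛ
    (fun x hx => hf_off hx) (sum_hf subset_rfl)).1
  refine ⟨φ, h1, h2.trans ?_⟩
  have h3 : ∑ x ∈ sq (tile a (2 ^ (j + 1)) (par i)) (2 ^ (j + 1)), hf a j i x ^ 2 ≤
      ((2 : ℝ) ^ (j + 1)) ^ 2 * (1 / ((2 : ℝ) ^ j) ^ 2) ^ 2 := by
    refine (sum_le_card_nsmul _ _ _ fun x _ => sq_le_sq' (abs_le.1 (abs_hf a j i x)).1
      (abs_le.1 (abs_hf a j i x)).2).trans_eq ?_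
    rw [card_sq, nsmul_eq_mul]; push_cast; rfl
  refine (mul_le_mul_of_nonneg_left h3 (by positivity)).trans_eq ?_
  push_cast
  field_simp
  ring

/-- far apart: two disjoint squares of side `h` whose block indices agree modulo `M` -/
theorem far_of_col {b b' : Pt} {h M : ℕ} (hh : 0 < h) (hd : Disjoint (sq b h) (sq b' h))
    (h1 : b.1 / h % M = b'.1 / h % M) (h2 : b.2 / h % M = b'.2 / h % M) :
    ((M : ℤ) - 1) * h < |b.1 - b'.1| ∨ ((M : ℤ) - 1) * h < |b.2 - b'.2| := by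
  have h0 : (0 : ℤ) < h := by exact_mod_cast hh
  have key : ∀ u v : ℤ, (h : ℤ) ≤ |u - v| → u / h % M = v / h % M → ((M : ℤ) - 1) * h < |u - v| := by
    intro u v huv hm
    have hu := Int.mul_ediv_add_emod u h
    have hv := Int.mul_ediv_add_emod v h
    have u0 := Int.emod_nonneg u h0.ne'
    have u1 := Int.emod_lt_of_pos u h0
    have v0 := Int.emod_nonneg v h0.ne'
    have v1 := Int.emod_lt_of_pos v h0
    have hne : u / h - v / h ≠ 0 := fun e => by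
      have : u / h = v / h := by omega
      rw [this] at hu
      rw [le_abs] at huv
      omega
    have hM := Int.le_abs_of_dvd hne (Int.ModEq.dvd hm.symm)
    rw [le_abs] at hM
    rw [lt_abs]
    rcases hM with hM | hM
    · left; nlinarith
    · right; nlinarith
  by_contra hc
  rw [not_or] at hc
  have a1 : |b.1 - b'.1| < h := lt_of_not_ge fun h' => hc.1 (key _ _ h' h1)
  have a2 : |b.2 - b'.2| < h := lt_of_not_ge fun h' => hc.2 (key _ _ h' h2)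
  rw [abs_lt] at a1 a2
  have hd' := disjoint_left.1 hd
  refine @hd' (max b.1 b'.1, max b.2 b'.2) ?_ ?_ <;> rw [mem_sq] <;> dsimp only <;> omega

end Crest.Agent.T145.Uv
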