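import Crest.Agent.T145.ScB_97
import Crest.Agent.T145.NcBas_78
import Crest.Agent.T145.PotD_17
import Crest.Agent.T145.PotE_17
import Crest.Agent.T145.KrWL_56
import Crest.Agent.T145.KrC_90
import Crest.Agent.T145.UvB_49

/-!
# Row 145, module KERNEL: (Q), (R), (F), (K0), (K#), sectors, transfer.  Definitions and Props (helper77)

Texts: `docs/T145_75.md` (sections 1, 2, 4, 6) and `docs/T145_c90.md` (K1-K6).  Nearest neighbour potentials,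
`g = Λ.gN l`, centre `0`.  OUTPUT for Fl / Ev / Df / Vx: `GffAStmt`, `QStmt`, `QpStmt`, `KAnyStmt`, `KOddStmt`,
`KVecStmt`, `KEvenStmt`, `AlgStmt`, `SwStmt`, `K3Stmt` (norms of `hm`, `dp`, `ch`).
-/

set_option autoImplicit false

namespace Crest.Agent.T145.Kr

open Finset Real

/-! ## Abstract part (any data spaces: seams, extended lattices) -/
section abs
variable {X Y : Type}

/-- the unfolded law of the data -/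
structure Pre (A : KrA.Act X) (B : KrA.Act Y) (ν : X × Y → ℝ) (y : X → Y → ℝ) : Prop where
  nonneg : ∀ z, 0 ≤ ν z
  shift : ∀ i a b, ν (A.s i a, B.s i b) = ν (a, b)
  neg : ∀ a b, ν (A.ng a, B.ng b) = ν (a, b)
  one : HasSum (fun z : X × Y => KrA.tw (A.H z.1) * ν z) 1
  ya : ∀ i a b, y (A.s i a) b = y a b
  yb : ∀ i a b, y a (B.s i b) = y a b
  yn : ∀ a b, y (A.ng a) (B.ng b) = y a b

/-- a joint symmetry of the data -/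
structure Sym (A : KrA.Act X) (B : KrA.Act Y) (ν : X × Y → ℝ) (y : X → Y → ℝ) (g : X ≃ X) (g' : Y ≃ Y) :
    Prop where
  nu : ∀ a b, ν (g a, g' b) = ν (a, b)
  H : ∀ a, A.H (g a) = A.H a
  t : ∀ b, B.H (g' b) = B.H b
  y : ∀ a b, y (g a) (g' b) = y a b
  T : ∀ a, A.T (g a) ↔ A.T a
  T' : ∀ b, B.T (g' b) ↔ B.T b

end abs

/-- KS: windowed (K0), K1, K2 and tails give (K#).  Prover 90; consumers `KshStmt`, twisted module -/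
def KsStmt : Prop := ∀ κ₀ κ₁ M₀ η : ℝ, 0 < κ₀ → 0 < η → ∃ K₀ : ℝ, ∀ K M : ℝ, K₀ ≤ K → ∃ e : ℝ, 0 < e ∧
  ∀ (X Y : Type) (A : KrA.Act X) (B : KrA.Act Y) (ν Bq : X × Y → ℝ) (y : X → Y → ℝ) (p₁ B₁ : X → ℝ)
    (p₂ B₂ : Y → ℝ) (κ η₁ : ℝ), κ₀ ≤ κ → κ ≤ κ₁ → Pre A B ν y →
    (∀ a b, A.T a → B.T b → |y a b| ≤ M₀) → (∀ a, 0 ≤ p₁ a) → (∀ b, 0 ≤ p₂ b) →
    (∑' z : X × Y, KrA.tw (A.H z.1) * ν z *
      ind (¬ (A.T z.1 ∧ B.T z.2 ∧ |A.H z.1 - B.H z.2| ≤ K / 2)) ≤ η₁) →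
    (∀ S : Finset (X × Y), (∀ z ∈ S, |A.H z.1| ≤ K) →
      ∑ z ∈ S, |ν z * exp (-Bq z / 2) - p₁ z.1 * p₂ z.2| ≤ e) →
    (∀ a b, A.T a → |A.H a| ≤ K → B.T b → |B.H b| ≤ K → Bq (a, b) ≤ M ∧
      |Bq (a, b) / 2 - (B₁ a + B₂ b + κ * A.H a * B.H b + y a b)| ≤ e) →
    ∃ (p : X → ℝ) (q : Y → ℝ), (∀ a, 0 ≤ p a) ∧ (∀ b, 0 ≤ q b) ∧ (∀ a, p (A.ng a) = p a) ∧
      (∀ b, q (B.ng b) = q b) ∧ Summable (A.pib p) ∧ Summable (B.pib q) ∧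
      (∀ g g', Sym A B ν y g g' → (∀ a, p (g a) = p a) ∧ ∀ b, q (g' b) = q b) ∧
      ∑' z : X × Y, |KrA.mub A B ν z - A.pib p z.1 * B.pib q z.2 *
        (KrA.thf κ (A.H z.1 - B.H z.2) * exp (y z.1 z.2))| ≤ η₁ + η

/-! ## Potentials -/

/-- heights as a real function -/
def cu (s : Cfg Pt) : Pt → ℝ := fun x => s x

/-- `A₀ G^D f` -/
noncomputable def xg (D : Finset Pt) (f : Pt → ℝ) : Pt → ℝ :=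
  Pot.op (Pot.eD Pot.nL D) (Pot.gr D (Pot.eD Pot.nL D) f)

/-- the charge `f` swept out of `D` -/
noncomputable def sw (D : Finset Pt) (f : Pt → ℝ) : Pt → ℝ := f - xg D f

/-- harmonic measure of `bl z R` seen from `z` -/
noncomputable def hm (z : Pt) (R : ℕ) : Pt → ℝ := sw (bl z R) (Pot.dl z)

/-- the swept dipoles: `pr (dp z R i) s` is the gradient at `z` of the harmonic extension of `s` -/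
noncomputable def dp (z : Pt) (R : ℕ) (i : Fin 2) : Pt → ℝ :=
  sw (bl z R) ((1 / 2 : ℝ) • (Pot.dl (z + ev i) - Pot.dl (z - ev i)))

/-- `sin 2π (f, s)`, `cos 2π (f, s)` -/
noncomputable def sn (f : Pt → ℝ) (s : Cfg Pt) : ℝ := sin (2 * π * pr f s)
noncomputable def cs (f : Pt → ℝ) (s : Cfg Pt) : ℝ := cos (2 * π * pr f s)

/-- size `L` and fat complement (balls, annuli: `Pot.ext_bl`, `Pot.ext_an`) -/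
def Shp (D : Finset Pt) (K : ℝ) (L : ℕ) : Prop :=
  ∃ (z : Pt) (s : ℕ), D ⊆ bl z ⌊K * L⌋₊ ∧ (L : ℝ) ≤ K * s ∧ Pot.Ext D s

/-- the defect of `E[e^{i X_u} | outside of D]`, `u = G^D f`, from the number `a` -/
noncomputable def qd (Λ : Lat) (D : Finset Pt) (f : Pt → ℝ) (a : ℝ) (s : Cfg Pt) : ℝ :=
  |Ex ((Λ.D D).W s) (fun t => cos (pr (xg D f) t)) - a| + |Ex ((Λ.D D).W s) fun t => sin (pr (xg D f) t)|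

/-- the symmetries of the square -/
def gp (k : Fin 4 × Fin 2) : Equiv.Perm Pt :=
  (rotZ 0 : Equiv.Perm Pt) ^ (k.1 : ℕ) * (swpZ 0 : Equiv.Perm Pt) ^ (k.2 : ℕ)

/-- their action on configurations; `ga k s = mapH (gp k) s` by `rfl` -/
noncomputable def ga (k : Fin 4 × Fin 2) : Cfg Pt ≃ Cfg Pt := (Finsupp.domCongr (gp k)).toEquiv

theorem ga_eq (k : Fin 4 × Fin 2) (s : Cfg Pt) : ga k s = mapH (gp k) s := rfl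

/-- SW: algebra of sweeping -/
def SwStmt : Prop := ∀ (D : Finset Pt) (f : Pt → ℝ),
  (∀ x ∈ D, xg D f x = f x ∧ sw D f x = 0) ∧
  (∀ x, x ∉ D → (∀ e ∈ nn, x + e ∉ D) → xg D f x = 0) ∧
  (∀ U, Pot.nL.edT D ⊆ Pot.nL.edI U → D ⊆ U → Sup U (xg D f) ∧ ∑ x ∈ U, xg D f x = 0 ∧
    F2 (Pot.nL.edT D) (xg D f) (Pot.GD Pot.nL D f f)) ∧
  (Sup D f → ∀ s, pr (sw D f) s = ip D f (Pot.hx D (Pot.eD Pot.nL D) (cu s))) ∧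
  (∀ (f' : Pt → ℝ) (c : ℝ), xg D (f + f') = xg D f + xg D f' ∧ xg D (c • f) = c • xg D f) ∧
  (∀ D', D ⊆ D' → sw D' (sw D f) = sw D' f ∧
    (Sup D f → Pot.GD Pot.nL D' f f = Pot.GD Pot.nL D f f + Pot.GD Pot.nL D' (sw D f) (sw D f))) ∧
  ∀ φ : Pt ≃ Pt, Pot.nL.Sym φ → xg (D.map φ.toEmbedding) f ∘ φ = xg D (f ∘ φ) ∧
    Pot.GD Pot.nL (D.map φ.toEmbedding) f f = Pot.GD Pot.nL D (f ∘ φ) (f ∘ φ)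

/-- RJ, local form -/
def RjlStmt : Prop := ∀ (F : Fa) (K ε : ℝ), 1 ≤ K → 0 < ε → ∃ L₀ : ℕ, ∀ Λ, F.Mem Λ → ∀ L : ℕ, L₀ ≤ L →
  ∀ (D : Finset Pt) (z : Pt) (u : Pt → ℝ), Sm2 u K L →
    (∀ x, u x ≠ 0 → x ∈ bl z ⌊K * L⌋₊ ∧ bl x ⌊(L : ℝ) / K⌋₊ ⊆ D) →
    F2 (Λ.edI D) (Λ.Au D u - Λ.e0 • Pot.op (Pot.eD Pot.nL D) u) ε ∧
      |Λ.En D u u - Λ.e0 * Pot.eD Pot.nL D u u| ≤ ε

/-- GffA (DLΦ): `A₀ G^D f` is Gaussian in every centred model between `Λ.D D` and the free one.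
From `Pot.P0Stmt`, `RjlStmt`, `DlgStmt`, `BrStmt`, `AFacStmt`, `SwStmt` -/
def GffAStmt : Prop := Soft fun Λ K ε _ l L => ∀ (D : Finset Pt) (f : Pt → ℝ), Shp D K L →
  (∀ x ∈ D, |f x| ≤ K / (L : ℝ) ^ 2) →
    Gs3 ((Λ.D D).W 0) (pr f) (Λ.gN l * Pot.GD Pot.nL D f f) ε ∧
    ∀ m : Mdl Pt, m.Ctr → m.Anch → Λ.edT D ⊆ m.ed → (∀ e ∈ Λ.edT D, m.w e = Λ.w) →
      Loc ((Λ.D D).W 0) (m.W 0) → Gs3 (m.W 0) (pr (xg D f)) (Λ.gN l * Pot.GD Pot.nL D f f) ε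

/-- (Q), pointwise algebra: the action of the conditional expectation on an exponential -/
def QpStmt : Prop := ∀ (Λ : Lat) (D : Finset Pt) (f : Pt → ℝ) (a : ℝ), Λ.Ok →
  (∀ (θ : Cfg Pt → ℝ) (s : Cfg Pt), Out D θ →
    |Ex ((Λ.D D).W s) (fun t => cos (pr f t + θ t)) - a * cos (pr (sw D f) s + θ s)| ≤ qd Λ D f a s) ∧
  (∀ s, 0 ≤ qd Λ D f a s ∧ qd Λ D f a s ≤ 2 + |a|) ∧
  ∀ U, Λ.edT D ⊆ Λ.edI U → DepG (U \ D) (qd Λ D f a)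

/-- (Q): in pinned ambient models and in free ones (any root).  From `GffAStmt`, `QpStmt`, `SwStmt` -/
def QStmt : Prop := Soft fun Λ K ε _ l L => ∀ (D : Finset Pt) (f : Pt → ℝ), Shp D K L →
  (∀ x ∈ D, |f x| ≤ K / (L : ℝ) ^ 2) →
    (∀ m, Nc.Amb Λ m D →
      Ex (m.W 0) (qd Λ D f (exp (-(Λ.gN l * Pot.GD Pot.nL D f f) / 2))) ≤ ε) ∧
    ∀ U, Λ.edT D ⊆ Λ.edI U → D ⊆ U → (U \ D).Nonempty → Nc.Cn (Λ.N U) U →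
      Nc.nE (Λ.N U) U (qd Λ D f (exp (-(Λ.gN l * Pot.GD Pot.nL D f f) / 2))) ≤ ε ∧
      ∀ r ∈ U, Ex ((Λ.Nr U r).W 0) (qd Λ D f (exp (-(Λ.gN l * Pot.GD Pot.nL D f f) / 2))) ≤ ε

/-! ## The condenser -/

/-- hole `bl 0 c`, inner data `an c r`, free annulus `an r R`, outer data `an R R₂` -/
structure Gm where
  c : ℕ
  r : ℕ
  R : ℕ
  R₂ : ℕ

namespace Gm
variable (G : Gm)

/-- ratio `W` -/
structure Ok (W : ℝ) : Prop where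
  hW : 1024 ≤ W
  hc : 2 * G.c ≤ G.r
  hr : 64 ≤ G.r
  lo : W * G.r ≤ G.R
  hi : (G.R : ℝ) ≤ 2 * W * G.r
  out : 2 * G.R ≤ G.R₂

/-- size `L` -/
def At (K : ℝ) (L : ℕ) : Prop := G.R ≤ L ∧ (L : ℝ) ≤ K * G.R

noncomputable def Om : Finset Pt := Nc.an 0 G.c G.R₂
noncomputable def In : Finset Pt := Nc.an 0 G.c G.r
noncomputable def A : Finset Pt := Nc.an 0 G.r G.R
noncomputable def Ou : Finset Pt := Nc.an 0 G.R G.R₂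
noncomputable def B : Pot.Bf Pt := Pot.eD Pot.nL (bl 0 G.R)

/-- `Σ⁻¹ φ` -/
noncomputable def ch (φ : Pt → ℝ) : Pt → ℝ := Pot.chg (bl 0 G.r) (bl 0 G.R) G.B φ
noncomputable def cp : ℝ := Pot.cap (bl 0 G.r) (bl 0 G.R) G.B
/-- `H = pr G.eq` -/
noncomputable def eq : Pt → ℝ := Pot.eqm (bl 0 G.r) (bl 0 G.R) G.B
/-- `t = pr G.te` -/
noncomputable def te : Pt → ℝ := sw (bl 0 G.R) G.eq
/-- `Y = y0 / g` -/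
noncomputable def y0 (a b : Cfg Pt) : ℝ :=
  pr (G.ch fun x => Pot.hx (bl 0 G.R) G.B (cu b) x - pr G.te b) a
noncomputable def ma (a : Cfg Pt) : Pt → ℝ := Pot.ex (bl 0 G.r) (bl 0 G.R) G.B (cu a)
noncomputable def mb (b : Cfg Pt) : Pt → ℝ := Pot.exo (bl 0 G.r) (bl 0 G.R) G.B (cu b)
noncomputable def om : Pt → ℝ := Pot.ex (bl 0 G.r) (bl 0 G.R) G.B 1
/-- the sine amplitude -/
noncomputable def lam (g : ℝ) : ℝ := exp (-(2 * π ^ 2 / (G.cp / g)))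
/-- inner dipoles `y_i` and outer dipoles `d_i` -/
noncomputable def yi (g : ℝ) (i : Fin 2) (s : Cfg Pt) : ℝ := pr (G.ch (co i)) s / g
noncomputable def di (i : Fin 2) (s : Cfg Pt) : ℝ := pr (dp 0 G.R i) s

/-- the ring has radius `ρ = 2 ^ p`, `32 ρ ≤ R < 64 ρ` -/
def p : ℕ := Nat.log 2 (G.R / 32)
def rho : ℕ := 2 ^ G.p
noncomputable def Ga : Finset Pt :=
  sq (-(2 * G.rho : ℤ), -(2 * G.rho : ℤ)) (4 * G.rho) \ sq (-(G.rho : ℤ), -(G.rho : ℤ)) (2 * G.rho)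
/-- corners of the cells of side `2 ^ q` -/
noncomputable def cor (q : ℕ) : Finset Pt := G.Ga.filter fun x => (2 ^ q : ℤ) ∣ x.1 ∧ (2 ^ q : ℤ) ∣ x.2
noncomputable def cel (q : ℕ) (i : G.cor q) : Finset Pt := sq i.1 (2 ^ q)
/-- the mass `ℓ⁻²`, `ℓ = ρ / 2 ^ a` -/
noncomputable def ms (a : ℕ) : ℝ := (2 ^ a / (G.rho : ℝ)) ^ 2
/-- the ring form, cells of side `ℓ / 2 ^ b` -/
noncomputable def Bq (g : ℝ) (a b : ℕ) (m m' : Pt → ℝ) : ℝ :=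
  Kw56.rgB G.A g⁻¹ (Pot.nL.edT (bl 0 G.R)) univ (G.cel (G.p - (a + b))) (G.ms a) m m'
noncomputable def Bz (g : ℝ) (a b : ℕ) (z : Cfg Pt × Cfg Pt) : ℝ :=
  G.Bq g a b (G.ma z.1 + G.mb z.2) (G.ma z.1 + G.mb z.2)
noncomputable def mid : Finset Pt := Nc.an 0 (G.rho / 2) (4 * G.rho)
noncomputable def nm (m : Pt → ℝ) : ℝ := (∑ x ∈ G.mid, m x ^ 2) / (G.rho : ℝ) ^ 2
/-- `exp (- Q_hi)` -/
noncomputable def hi (a b : ℕ) : Cfg Pt → ℝ :=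
  gq (Uv.terms (G.cor (G.p - (a + b))) (G.p - (a + b)) (range (G.p - (a + b)))) (Uv.hl (G.ms a))

/-- a neutral charge on the inner (outer) rim with a flow nearby -/
def Ic (f : Pt → ℝ) (n : ℝ) : Prop :=
  Sup (Nc.an 0 (G.r - 1) G.r) f ∧ F2 (Pot.nL.edI (Nc.an 0 (G.r / 2) (3 * G.r))) f n
def Oc (f : Pt → ℝ) (n : ℝ) : Prop :=
  Sup (Nc.an 0 G.R (G.R + 1)) f ∧ F2 (Pot.nL.edI (Nc.an 0 (G.R / 8) (2 * G.R))) f n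

noncomputable def dat (s : Cfg Pt) : Cfg Pt × Cfg Pt := (resH G.In s, resH G.Ou s)
/-- expectation in the free annulus -/
noncomputable def EA (Λ : Lat) (F : Cfg Pt → ℝ) : ℝ := Nc.EA Λ 0 G.c G.R₂ F
/-- its partition function -/
noncomputable def Z (Λ : Lat) : ℝ := Zs (Nc.rW (Λ.N G.Om) G.Om)
/-- the unfolded law of the data -/
noncomputable def nu (Λ : Lat) (z : Cfg Pt × Cfg Pt) : ℝ := push ((Λ.N G.Om).W 0) G.dat z / G.Z Λ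
/-- the screened model -/
noncomputable def mm (Λ : Lat) (a : ℕ) : Mdl Pt :=
  (Λ.N G.Om).mulSite fun x k => if x ∈ G.Ga then gau (G.ms a)⁻¹ k else 1
/-- its data weight -/
noncomputable def nuM (Λ : Lat) (a : ℕ) (z : Cfg Pt × Cfg Pt) : ℝ := push ((G.mm Λ a).W 0) G.dat z

/-- the actions on the inner and outer data -/
def IsI (A : KrA.Act (Cfg Pt)) : Prop :=
  (∀ i a, A.s i a = a + cst G.In i) ∧ (∀ a, A.ng a = -a) ∧ ∀ a, A.H a = pr G.eq a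
def IsO (B : KrA.Act (Cfg Pt)) : Prop :=
  (∀ i a, B.s i a = a + cst G.Ou i) ∧ (∀ a, B.ng a = -a) ∧ ∀ a, B.H a = pr G.te a

/-- deterministic algebra of the condenser -/
structure Alg : Prop where
  r_le : 16 * G.r ≤ G.rho
  rho_le : 32 * G.rho ≤ G.R
  le_rho : G.R ≤ 64 * G.rho
  Ga_sub : G.Ga ⊆ Nc.an 0 (G.rho - 1) (2 * G.rho)
  sub_Ga : Nc.an 0 G.rho (2 * G.rho - 1) ⊆ G.Ga
  card_Ga : G.Ga.card = 12 * G.rho ^ 2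
  cells : ∀ q ≤ G.p, (G.cor q).biUnion (fun i => sq i (2 ^ q)) = G.Ga ∧
    ((G.cor q : Set Pt).PairwiseDisjoint fun i => sq i (2 ^ q)) ∧ (G.cor q).card = 12 * 4 ^ (G.p - q)
  coA : Pot.Co G.A G.B
  coD : Pot.Co (bl 0 G.R) G.B
  cp_pos : 0 < G.cp
  eq_sup : Sup (Nc.an 0 (G.r - 1) G.r) G.eq
  eq_nonneg : ∀ x, 0 ≤ G.eq x
  eq_sum : ∑ x ∈ G.In, G.eq x = 1
  te_sup : Sup (Nc.an 0 G.R (G.R + 1)) G.te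
  te_sum : ∑ x ∈ G.Ou, G.te x = 1
  hm_sup : Sup (Nc.an 0 G.R (G.R + 1)) (hm 0 G.R)
  hm_sum : ∑ x ∈ G.Ou, hm 0 G.R x = 1
  om_mem : ∀ x, 0 ≤ G.om x ∧ G.om x ≤ 1
  ma_hm : ∀ a, Pot.Hm G.A G.B (G.ma a)
  mb_hm : ∀ b, Pot.Hm G.A G.B (G.mb b)
  hx_dat : ∀ s : Cfg Pt, ∀ x ∈ G.A, Pot.hx G.A G.B (cu s) x = (G.ma (G.dat s).1 + G.mb (G.dat s).2) x
  k1 : ∀ a b, -G.B (G.ma a) (G.mb b) = G.cp * pr G.eq a * pr G.te b + G.y0 a b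
  y_in : ∀ i a b, G.y0 (a + cst G.In i) b = G.y0 a b
  y_out : ∀ i a b, G.y0 a (b + cst G.Ou i) = G.y0 a b
  y_neg : ∀ a b, G.y0 (-a) b = -G.y0 a b ∧ G.y0 a (-b) = -G.y0 a b
  ga_eq : ∀ k a, pr G.eq (ga k a) = pr G.eq a
  ga_te : ∀ k a, pr G.te (ga k a) = pr G.te a
  ga_hm : ∀ k a, pr (hm 0 G.R) (ga k a) = pr (hm 0 G.R) a
  ga_y : ∀ k a b, G.y0 (ga k a) (ga k b) = G.y0 a b
  ga_nm : ∀ k a, G.nm (G.ma (ga k a)) = G.nm (G.ma a) ∧ G.nm (G.mb (ga k a)) = G.nm (G.mb a)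
  rot_ch : G.ch (co 0) ∘ rotZ 0 = -G.ch (co 1) ∧ G.ch (co 1) ∘ rotZ 0 = G.ch (co 0)
  swp_ch : G.ch (co 0) ∘ swpZ 0 = G.ch (co 1) ∧ G.ch (co 1) ∘ swpZ 0 = G.ch (co 0)
  rot_dp : dp 0 G.R 0 ∘ rotZ 0 = -dp 0 G.R 1 ∧ dp 0 G.R 1 ∘ rotZ 0 = dp 0 G.R 0
  swp_dp : dp 0 G.R 0 ∘ swpZ 0 = dp 0 G.R 1 ∧ dp 0 G.R 1 ∘ swpZ 0 = dp 0 G.R 0
  map_an : ∀ k (c R : ℕ), (Nc.an 0 c R).map (gp k).toEmbedding = Nc.an 0 c R ∧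
    (bl 0 R).map (gp k).toEmbedding = bl 0 R
  sym : ∀ k (Λ : Lat), Λ.Ok → Λ.Sym (gp k)

/-- typical sets -/
structure Typ (Λ : Lat) (W δ A₂ : ℝ) (A B : KrA.Act (Cfg Pt)) : Prop where
  isI : G.IsI A
  isO : G.IsO B
  gaT : ∀ k a, (A.T (ga k a) ↔ A.T a) ∧ (B.T (ga k a) ↔ B.T a)
  bad : G.EA Λ (fun s => ind (¬ (A.T (G.dat s).1 ∧ B.T (G.dat s).2))) ≤ W ^ (-10 : ℝ)
  far : ∀ K : ℝ, 0 < K → G.EA Λ (fun s => ind (K < |pr G.eq s - pr G.te s|)) ≤ A₂ / K ^ 2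
  y1 : ∀ a b, A.T a → B.T b → |G.y0 a b| ≤ W ^ (-1 + δ)
  y2 : ∀ a b, A.T a → B.T b →
    |G.y0 a b - ∑ i, pr (G.ch (co i)) a * G.di i b| ≤ W ^ (-2 + δ)
  y3 : ∀ a b, A.T a → B.T b → |∑ k, G.y0 (ga k a) b| ≤ W ^ (-3 + δ)
  yi : ∀ a i, A.T a → |pr (G.ch (co i)) a| ≤ G.r * W ^ δ
  di : ∀ b i, B.T b → |G.di i b| ≤ W ^ δ / G.R
  ma : ∀ a, A.T a → G.nm (G.ma a) ≤ A₂ * (1 + pr G.eq a ^ 2)
  mb : ∀ b, B.T b → G.nm (G.mb b) ≤ A₂ * (1 + pr G.te b ^ 2)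

/-- windowed (K0) -/
def K0 (Λ : Lat) (g A ε : ℝ) (a b : ℕ) : Prop := a + b ≤ G.p ∧
  ∃ p₁ p₂ : Cfg Pt → ℝ, (∀ s, 0 ≤ p₁ s) ∧ (∀ s, 0 ≤ p₂ s) ∧
    ∀ S : Finset (Cfg Pt × Cfg Pt), (∀ z ∈ S, |pr G.eq z.1| ≤ A) →
      ∑ z ∈ S, |G.nu Λ z * exp (-G.Bz g a b z / 2) - p₁ z.1 * p₂ z.2| ≤ ε

/-- (K#) -/
def Ksh (Λ : Lat) (g W ε : ℝ) : Prop := ∃ (A₂ : ℝ) (A B : KrA.Act (Cfg Pt)) (p q : Cfg Pt → ℝ)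
  (κ : Cfg Pt → Cfg Pt → ℝ), G.Typ Λ W (ε / 4) A₂ A B ∧
    KrA.Sec (KrA.mub A B (G.nu Λ)) p q κ A.H B.H (fun a b => G.y0 a b / g) A.ng (G.lam g)
      (W ^ (-9 : ℝ)) (W ^ (-1 + ε)) (W ^ (-3 + 2 * ε)) (W ^ (-1 + ε / 2)) ∧
    (∀ k a, p (ga k a) = p a) ∧ (∀ a, p a ≠ 0 → A.T a) ∧ (∀ b, q b ≠ 0 → B.T b) ∧
    G.lam g ≤ W ^ (-2 + 5 / 4 * ε)

/-- the sectors in the free annulus, dual form: `F` bounded inner, `φ` bounded outer observable -/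
structure Hol (Λ : Lat) (g W ε : ℝ) (F φ : Cfg Pt → ℝ) (n : ℝ) : Prop where
  any : |G.EA Λ (fun s => F s * φ s) - G.EA Λ F * G.EA Λ φ| ≤ W ^ (-1 + 3 / 2 * ε) * n
  anyd : ∀ i, |G.EA Λ (fun s => F s * (G.di i s * φ s)) - G.EA Λ F * G.EA Λ fun s => G.di i s * φ s| ≤
    W ^ (-1 + 2 * ε) / G.R * n
  anydd : ∀ i j, |G.EA Λ (fun s => F s * (G.di i s * G.di j s * φ s)) -
    G.EA Λ F * G.EA Λ fun s => G.di i s * G.di j s * φ s| ≤ W ^ (-1 + 2 * ε) / (G.R : ℝ) ^ 2 * n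
  odd : OddF F → D4 0 F → |G.EA Λ (fun s => F s * φ s) -
    2 * G.lam g * G.EA Λ (fun s => F s * sn G.eq s) * G.EA Λ fun s => sn (hm 0 G.R) s * φ s| ≤
      W ^ (-3 + 5 / 2 * ε) * n
  vec : OddF F → |G.EA Λ (fun s => F s * φ s) -
    ∑ i, G.EA Λ (fun s => F s * G.yi g i s) * G.EA Λ fun s => G.di i s * φ s| ≤
      W ^ (-2 + 5 / 2 * ε) * n
  even : EvenF F → G.EA Λ F = 0 → |G.EA Λ (fun s => F s * φ s) -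
    2 * G.lam g * G.EA Λ (fun s => F s * cs G.eq s) *
      (G.EA Λ (fun s => cs (hm 0 G.R) s * φ s) - G.EA Λ (cs (hm 0 G.R)) * G.EA Λ φ) -
    ∑ i, ∑ j, G.EA Λ (fun s => F s * (G.yi g i s * G.yi g j s)) / 2 *
      (G.EA Λ (fun s => G.di i s * G.di j s * φ s) -
        G.EA Λ (fun s => G.di i s * G.di j s) * G.EA Λ φ)| ≤ W ^ (-3 + 5 / 2 * ε) * n

/-- `F` is an insertion at `0` with finite norm at N-radius `c`; the two collars decouple -/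
structure Adm (Λ : Lat) (F : Cfg Pt → ℝ) : Prop where
  ex : ∃ r₀, r₀ + 2 * Λ.rg ≤ G.c ∧ Nc.gam Λ r₀ G.c ≤ 2 ∧ DepG (bl 0 (r₀ + Λ.rg)) F
  gap : G.c + 3 * Λ.rg ≤ G.r
  gam : Nc.gam Λ G.c (G.r - Λ.rg) ≤ 2
  int : Nc.In Λ 0 G.c F

/-- expectation, covariance and norm in the big free box, input norm, flow step -/
noncomputable def E (Λ : Lat) (F : Cfg Pt → ℝ) : ℝ := Nc.EN Λ 0 G.R₂ F
noncomputable def C (Λ : Lat) (F F' : Cfg Pt → ℝ) : ℝ := G.E Λ (fun s => F s * F' s) - G.E Λ F * G.E Λ F'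
noncomputable def N₂ (Λ : Lat) (F : Cfg Pt → ℝ) : ℝ := Nc.Nm Λ 0 G.R₂ F
noncomputable def N₁ (Λ : Lat) (F : Cfg Pt → ℝ) : ℝ := Nc.Nm Λ 0 G.c F
noncomputable def T (Λ : Lat) (F : Cfg Pt → ℝ) : Cfg Pt → ℝ := Nc.St Λ 0 G.R F

end Gm

/-- ALG -/
def AlgStmt : Prop := ∀ (G : Gm) (W : ℝ), G.Ok W → G.Alg

/-- K2: screening (instance of `Kw56.screen_ring`, `rgB_le_ring`) -/
def K2Stmt : Prop := ∀ g₁ g₂ : ℝ, 0 < g₁ → ∃ C : ℝ, 0 < C ∧ ∀ g, g₁ ≤ g → g ≤ g₂ →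
  ∀ (G : Gm) (W : ℝ), G.Ok W → ∀ a b : ℕ, a + b ≤ G.p → ∀ s t,
    0 ≤ G.Bz g a b (s, t) ∧ G.Bz g a b (s, t) ≤ C * (G.nm (G.ma s) + G.nm (G.mb t)) ∧
    |G.Bz g a b (s, t) / 2 - (G.Bq g a b (G.ma s) (G.ma s) / 2 + G.Bq g a b (G.mb t) (G.mb t) / 2 -
      G.B (G.ma s) (G.mb t) / g)| ≤ C / 2 ^ a * (G.nm (G.ma s) + G.nm (G.mb t))

/-- K3, deterministic: kernel representation of `Y` and the norms of the charges -/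
def K3Stmt : Prop := ∃ C : ℝ, 0 < C ∧ ∀ (G : Gm) (W : ℝ), G.Ok W →
  (∃ (S : Finset Pt) (al y₁ y₂ y₃ : Pt → Pt → ℝ), S.Nonempty ∧
    (∀ w ∈ S, G.Oc (al w) C ∧ G.Ic (y₁ w) (C / W ^ 2) ∧ G.Ic (y₂ w) (C / W ^ 4) ∧
      G.Ic (y₃ w) (C / W ^ 6)) ∧
    ∀ a b, G.y0 a b = (∑ w ∈ S, pr (y₁ w) a * pr (al w) b) / S.card ∧
      G.y0 a b - ∑ i, pr (G.ch (co i)) a * G.di i b = (∑ w ∈ S, pr (y₂ w) a * pr (al w) b) / S.card ∧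
      ∑ k, G.y0 (ga k a) b = (∑ w ∈ S, pr (y₃ w) a * pr (al w) b) / S.card) ∧
  (∀ i, G.Ic (G.ch (co i)) (C * (G.r : ℝ) ^ 2) ∧ G.Oc (dp 0 G.R i) (C / (G.R : ℝ) ^ 2)) ∧
  G.Oc (G.te - hm 0 G.R) (C / W ^ 2) ∧
  F2 (Pot.nL.edI (Nc.an 0 (G.R / 8) (2 * G.R))) (hm 0 G.R - Kw56.unC (Nc.an 0 G.R (2 * G.R))) C

/-- K3 (iii): the harmonic extensions in the middle; level differences -/
def M3Stmt : Prop := ∀ W : ℝ, ∃ C : ℝ, 0 < C ∧ ∀ G : Gm, G.Ok W →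
  (∀ x ∈ G.mid, ∃ f f' : Pt → ℝ, G.Ic f C ∧ G.Oc f' C ∧
    (∀ a, G.ma a x = G.om x * pr G.eq a + pr f a) ∧
      ∀ b, G.mb b x = (1 - G.om x) * pr G.te b + pr f' b) ∧
  F2 (Pot.nL.edI (Nc.an 0 (G.r / 2) (2 * G.R))) (G.eq - G.te) C ∧
  F2 (Pot.nL.edI (Nc.an 0 (G.r / 2) (2 * G.R))) (G.eq - Kw56.unC G.Ga) C

/-- MOM: moments and tails from the bare bound -/
def MomStmt : Prop := ∀ (F : Fa) (k : ℕ), ∃ C : ℝ, 0 < C ∧ ∀ Λ, F.Mem Λ →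
  ∀ (m : Mdl Pt) (ed : Finset (Pt × Pt)) (ι : Type) (S : Finset ι) (f : ι → Pt → ℝ) (n : ℝ),
    m.Ctr → m.Anch → ed ⊆ m.ed → (∀ e ∈ ed, m.w e = Λ.w) → 0 < n → (∀ j ∈ S, F2 ed (f j) n) →
    (∀ j ∈ S, Ex (m.W 0) (fun s => pr (f j) s ^ (2 * k)) ≤ C * n ^ k) ∧
    ∀ A : ℝ, 0 < A → Pr (m.W 0) (fun s => A * n * S.card < ∑ j ∈ S, pr (f j) s ^ 2) ≤ C / A ^ k

/-- TYP.  From `AlgStmt`, `K3Stmt`, `M3Stmt`, `MomStmt` -/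
def TypStmt : Prop := ∀ (F : Fa) (δ : ℝ), 0 < δ → ∃ W₁ : ℝ, ∀ W, W₁ ≤ W → ∃ A₂ : ℝ, 0 < A₂ ∧
  ∀ Λ, F.Mem Λ → ∀ G : Gm, G.Ok W → ∃ A B, G.Typ Λ W δ A₂ A B

/-- BAR: the data law.  From `AlgStmt` -/
def BarStmt : Prop := ∀ (Λ : Lat) (G : Gm) (W g : ℝ) (A B : KrA.Act (Cfg Pt)), Λ.Ok → G.Ok W →
  G.IsI A → G.IsO B → Pre A B (G.nu Λ) (fun a b => G.y0 a b / g) ∧ 0 < G.Z Λ ∧
    (∀ k a b, G.nu Λ (ga k a, ga k b) = G.nu Λ (a, b)) ∧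
    (∀ (Ψ : Cfg Pt × Cfg Pt → ℝ) (C : ℝ), (∀ z, |Ψ z| ≤ C) →
      (∀ i a b, Ψ (A.s i a, B.s i b) = Ψ (a, b)) →
      ∑' z, KrA.tw (A.H z.1) * G.nu Λ z * Ψ z = G.EA Λ fun s => Ψ (G.dat s)) ∧
    ∀ (Φ : Cfg Pt → Cfg Pt → ℝ) (C : ℝ), (∀ a b, |Φ a b| ≤ C) → (∀ i a b, Φ (A.s i a) b = Φ a b) →
      (∀ i a b, Φ a (B.s i b) = Φ a b) →
      KrA.br (KrA.mub A B (G.nu Λ)) Φ = G.EA Λ fun s => Φ (G.dat s).1 (G.dat s).2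

/-- TR (P5): traces of the cell matrices.  From `Pot.GszStmt`, `AlgStmt` -/
def TrStmt : Prop := ∀ g₂ : ℝ, ∃ C : ℝ, ∀ g, 0 < g → g ≤ g₂ → ∀ (G : Gm) (W : ℝ), G.Ok W →
  ∀ a b : ℕ, a + b ≤ G.p →
    let S := Kw56.msM (G.cel (G.p - (a + b))) (G.ms a)
    let V := Kw56.sgM G.A g⁻¹ (Pot.nL.edT (bl 0 G.R)) (G.cel (G.p - (a + b)))
    (S * V * (S * V)).trace ≤ C * 16 ^ a ∧ (S * V).trace ≤ C * 4 ^ a * (1 + a + b)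

/-- `P Λ g G` for every condenser of ratio `W` and size `L` in every good enough window -/
def Wn (F : Fa) (θ₀ W K : ℝ) (P : Lat → ℝ → Gm → Prop) : Prop := ∃ δ : ℝ, 0 < δ ∧
  ∀ Λ, F.Mem Λ → ∀ l L, Λ.Win θ₀ δ l L → ∀ G : Gm, G.Ok W → G.At K L → P Λ (Λ.gN l) G

/-- UV for the ring.  Prover 49 (UV + RATE) -/
def UvRStmt : Prop := ∀ (F : Fa) (θ₀ W K ε : ℝ) (a : ℕ), 0 < θ₀ → 1 ≤ K → 0 < ε → ∃ b₀ : ℕ, ∀ b, b₀ ≤ b →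
  Wn F θ₀ W K fun Λ _ G => a + b ≤ G.p ∧
    G.EA Λ (fun s => G.hi a b s ^ 2) ≤ (1 + ε) * G.EA Λ (G.hi a b) ^ 2

/-- (R): the ring weight, level by level.  From `QStmt`, `QpStmt`, `UvRStmt`, `TrStmt`, `AlgStmt`, `T1aStmt` -/
def RStmt : Prop := ∀ (F : Fa) (θ₀ W K ε : ℝ) (a : ℕ), 0 < θ₀ → 1 ≤ K → 0 < ε → ∃ b : ℕ,
  Wn F θ₀ W K fun Λ g G => a + b ≤ G.p ∧ ∃ c : ℝ, 0 < c ∧ ∀ (j : ℤ) (S : Finset (Cfg Pt × Cfg Pt)),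
    ∑ z ∈ S, KrA.tw (pr G.eq z.1 - j) * |G.nuM Λ a z / c - G.nu Λ z * exp (-G.Bz g a b z / 2)| ≤ ε

/-- (F): the screened model factorises.  From MIX (module Mx), `Mx31.cut_out`, `Mx31.ring`, `AlgStmt` -/
def FStmt : Prop := ∀ (F : Fa) (θ₀ W K ε : ℝ), 0 < θ₀ → 1 ≤ K → 0 < ε → ∃ a₀ : ℕ, ∀ a, a₀ ≤ a →
  Wn F θ₀ W K fun Λ _ G => ∃ p₁ p₂ : Cfg Pt → ℝ, (∀ s, 0 ≤ p₁ s) ∧ (∀ s, 0 ≤ p₂ s) ∧
    ∀ S : Finset (Cfg Pt × Cfg Pt),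
      ∑ z ∈ S, |G.nuM Λ a z / Zs ((G.mm Λ a).W 0) - p₁ z.1 * p₂ z.2| ≤ ε

/-- LAM: the level is tight in the screened model, uniformly in the mass.  From `M3Stmt`, `AlgStmt` -/
def LamStmt : Prop := ∀ (F : Fa) (W : ℝ), ∃ C : ℝ, 0 < C ∧ ∀ Λ, F.Mem Λ → ∀ G : Gm, G.Ok W → ∀ a : ℕ,
  (G.mm Λ a).Ctr ∧ (G.mm Λ a).Anch ∧ HasSum (G.nuM Λ a) (Zs ((G.mm Λ a).W 0)) ∧
    (∀ z, 0 ≤ G.nuM Λ a z) ∧ ∀ A : ℝ, 0 < A →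
      ∑' z, G.nuM Λ a z * ind (A < |pr G.eq z.1|) ≤ C / A ^ 2 * Zs ((G.mm Λ a).W 0)

/-- (K0).  From `RStmt`, `FStmt`, `LamStmt`, `K2Stmt`, `BarStmt`, `AlgStmt`, `T1aStmt`, `T1mStmt` -/
def K0Stmt : Prop := ∀ (F : Fa) (θ₀ W K A ε : ℝ) (a₀ : ℕ), 0 < θ₀ → 1 ≤ K → 0 < ε →
  ∃ a b : ℕ, a₀ ≤ a ∧ Wn F θ₀ W K fun Λ g G => G.K0 Λ g A ε a b

/-- `P Λ g W ε G` for large ratios `W`, when `π g ≥ 2 - ε` -/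
def SoftW (P : Lat → ℝ → ℝ → ℝ → Gm → Prop) : Prop :=
  ∀ (F : Fa) (θ₀ ε : ℝ), 0 < θ₀ → 0 < ε → ε ≤ 1 / 4 → ∃ W₁ : ℝ, ∀ W, W₁ ≤ W → ∀ K : ℝ, 1 ≤ K →
    Wn F θ₀ W K fun Λ g G => 2 - ε ≤ π * g → P Λ g W ε G

/-- (K#).  Prover 77.  From `KsStmt`, `K0Stmt`, `K2Stmt`, `TypStmt`, `BarStmt`, `AlgStmt`, `Pot.CapStmt` -/
def KshStmt : Prop := SoftW fun Λ g W ε G => G.Ksh Λ g W ε

/-- HOL.  From `KshStmt`, `BarStmt`, `K3Stmt`, `MomStmt`, `AlgStmt`, `KrA.Sec.*` -/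
def HolStmt : Prop := SoftW fun Λ g W ε G => G.lam g ≤ W ^ (-2 + 5 / 4 * ε) ∧
  ∀ (F φ : Cfg Pt → ℝ) (N B : ℝ), DepG G.In F → (∀ s, |F s| ≤ N) → DepG G.Ou φ → (∀ s, |φ s| ≤ B) →
    G.Hol Λ g W ε F φ (N * B)

/-- symmetries of the hole density, the flow step and the free expectations -/
def HsyStmt : Prop := ∀ (Λ : Lat) (c R : ℕ) (F : Cfg Pt → ℝ), Λ.Ok →
  (∀ s, Nc.St Λ 0 R F (-s) = Nc.St Λ 0 R (fun t => F (-t)) s) ∧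
  (∀ k s, Nc.St Λ 0 R F (ga k s) = Nc.St Λ 0 R (fun t => F (ga k t)) s) ∧
  (Λ.rg ≤ c → c + 2 * Λ.rg ≤ R →
    EvenF (Nc.Hd Λ 0 c R) ∧ ∀ k s, Nc.Hd Λ 0 c R (ga k s) = Nc.Hd Λ 0 c R s) ∧
  (Nc.EN Λ 0 R (fun t => F (-t)) = Nc.EN Λ 0 R F ∧
    ∀ k, Nc.EN Λ 0 R (fun t => F (ga k t)) = Nc.EN Λ 0 R F) ∧
  (c < R → Nc.EA Λ 0 c R (fun t => F (-t)) = Nc.EA Λ 0 c R F ∧
    (DepG (Nc.an 0 c R) F → ∀ k, Nc.EA Λ 0 c R (fun t => F (ga k t)) = Nc.EA Λ 0 c R F)) ∧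
  (D4 0 F ↔ ∀ k s, F (ga k s) = F s)

/-- TRF: the bounded collar function of an insertion.  From `Nc.LD1Stmt`, `Nc.LHdStmt`, `HsyStmt` -/
def TrfStmt : Prop := ∀ (Λ : Lat) (G : Gm) (W : ℝ), Λ.Ok → G.Ok W → G.Adm Λ (fun _ => 1) →
  ∃ (κ : ℝ) (til : (Cfg Pt → ℝ) → Cfg Pt → ℝ), 0 < κ ∧ κ ≤ 1 ∧ ∀ F, G.Adm Λ F →
    DepG G.In (til F) ∧ (∀ s, |til F s| ≤ 4 * G.N₁ Λ F) ∧ G.N₂ Λ F ≤ 2 * G.N₁ Λ F ∧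
    (OddF F → OddF (til F)) ∧ (EvenF F → EvenF (til F)) ∧ (D4 0 F → D4 0 (til F)) ∧
    (∀ Φ : Cfg Pt → ℝ, DepG (Nc.an 0 (G.r - 1) G.R₂) Φ → Tame Φ →
      Nc.In Λ 0 G.R₂ (fun s => F s * Φ s) ∧
        G.E Λ (fun s => F s * Φ s) = κ * G.EA Λ fun s => til F s * Φ s) ∧
    DepG G.Ou (G.T Λ F) ∧ Nc.In Λ 0 G.R₂ (G.T Λ F) ∧
    ∀ φ : Cfg Pt → ℝ, DepG G.Ou φ → (∀ s, |φ s| ≤ 1) →
      G.E Λ (fun s => G.T Λ F s * φ s) = G.E Λ fun s => F s * φ s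

/-! ## Output: the sectors in the norm.  From `HolStmt`, `TrfStmt`, `HsyStmt`, `K3Stmt`, `MomStmt`, `AlgStmt` -/

/-- K-ANY -/
def KAnyStmt : Prop := SoftW fun Λ _ W ε G => ∀ F, G.Adm Λ F →
  G.N₂ Λ (fun s => G.T Λ F s - G.E Λ F) ≤ W ^ (-1 + 2 * ε) * G.N₁ Λ F

/-- K-ODD -/
def KOddStmt : Prop := SoftW fun Λ g W ε G => G.lam g ≤ W ^ (-2 + 5 / 4 * ε) ∧
  ∀ F, G.Adm Λ F → OddF F → D4 0 F →
    |G.E Λ fun t => F t * sn G.eq t| ≤ 2 * G.N₁ Λ F ∧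
    G.N₂ Λ (fun s => G.T Λ F s - 2 * G.lam g * G.E Λ (fun t => F t * sn G.eq t) * sn (hm 0 G.R) s) ≤
      W ^ (-3 + 3 * ε) * G.N₁ Λ F

/-- K-VEC: any insertion -/
def KVecStmt : Prop := SoftW fun Λ g W ε G => ∀ F, G.Adm Λ F →
  (∀ i, |G.E Λ fun t => F t * G.yi g i t| ≤ W ^ ε * G.r * G.N₁ Λ F ∧ G.N₂ Λ (G.di i) ≤ W ^ ε / G.R) ∧
    G.N₂ Λ (fun s => G.T Λ F s - G.E Λ F - ∑ i, G.E Λ (fun t => F t * G.yi g i t) * G.di i s) ≤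
      W ^ (-2 + 3 * ε) * G.N₁ Λ F

/-- K-EVEN, crude and sharp -/
def KEvenStmt : Prop := SoftW fun Λ g W ε G => G.lam g ≤ W ^ (-2 + 5 / 4 * ε) ∧
  ∀ F, G.Adm Λ F → EvenF F →
    G.N₂ Λ (fun s => G.T Λ F s - G.E Λ F) ≤ W ^ (-2 + 3 * ε) * G.N₁ Λ F ∧
    |G.C Λ F (cs G.eq)| ≤ 4 * G.N₁ Λ F ∧
    (∀ i j, |G.C Λ F fun t => G.yi g i t * G.yi g j t| ≤ W ^ ε * (G.r : ℝ) ^ 2 * G.N₁ Λ F ∧
      G.N₂ Λ (fun s => G.di i s * G.di j s) ≤ W ^ ε / (G.R : ℝ) ^ 2) ∧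
    (D4 0 F → G.C Λ F (fun t => G.yi g 0 t * G.yi g 1 t) = 0 ∧
      G.C Λ F (fun t => G.yi g 0 t * G.yi g 0 t) = G.C Λ F fun t => G.yi g 1 t * G.yi g 1 t) ∧
    G.N₂ Λ (fun s => G.T Λ F s - G.E Λ F -
      2 * G.lam g * G.C Λ F (cs G.eq) * (cs (hm 0 G.R) s - G.E Λ (cs (hm 0 G.R))) -
      ∑ i, ∑ j, G.C Λ F (fun t => G.yi g i t * G.yi g j t) / 2 *
        (G.di i s * G.di j s - G.E Λ fun t => G.di i t * G.di j t)) ≤ W ^ (-3 + 3 * ε) * G.N₁ Λ F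

end Crest.Agent.T145.Kr
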