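import Crest.Agent.T145.KsB_68
import Crest.Agent.T145.KrDef_77
import Crest.Agent.T145.EsH_28
import Crest.Agent.T145.VdDef_27

/-!
# Row 145 (helper68): module KSTEP, definitions and Props

Input `MixStmt` (module Kv), output `QmStmt` (module Vx).
-/

set_option autoImplicit false

namespace Crest.Agent.T145.Ks68

open Finset Nc

/-- multiplicative decoupling of the gradients in `I` from the gradients in `O` -/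
def Mix {V : Type} (W : Cfg V → ℝ) (I O : Finset V) (ω η : ℝ) : Prop :=
  ∀ (F G : Cfg V → ℝ) (A B : ℝ), DepG I F → DepG O G → (∀ s, 0 ≤ F s ∧ F s ≤ A) →
    (∀ s, 0 ≤ G s ∧ G s ≤ B) →
    |Ex W (fun s => F s * G s) - Ex W F * Ex W G| ≤ ω * (Ex W F * Ex W G) + η * (A * B)

/-- the weight of the free model on `U` in the sector `σ`; `wN Λ U 0 = Nc.rW (Λ.N U) U` -/
noncomputable def wN (Λ : Lat) (U : Finset Pt) (σ : Pt × Pt → ℤ) : Cfg Pt → ℝ := rWs (Λ.N U) U σ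

/-- `Z (σ) / Z (0)` in the free model on `U` -/
noncomputable def zN (Λ : Lat) (U : Finset Pt) (σ : Pt × Pt → ℤ) : ℝ := zr (fr (Λ.N U) U) σ

/-- `u (R)`: a true core in the free ball -/
noncomputable def uu (Λ : Lat) (R : ℕ) : ℝ := zN Λ (bl 0 R) (Vd.ray 0)

/-- `T (c, R)`: the twisted free annulus -/
noncomputable def TT (Λ : Lat) (c R : ℕ) : ℝ := zN Λ (an 0 c R) (Vd.ray 0)

/-- on `U` the seam is a unit vortex at `z`, up to sign and gauge -/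
def Vtx (Λ : Lat) (z : Pt) (U : Finset Pt) (σ : Pt × Pt → ℤ) : Prop :=
  ∃ (ε : ℤ) (u : Cfg Pt), (ε = 1 ∨ ε = -1) ∧ ∀ e ∈ Λ.edI U, σ e = ε * Vd.ray z e + dE e u

/-- MIX in the twisted free annulus.  Prover: module Kv -/
def MixStmt : Prop := ∀ (F : Fa) (θ₀ : ℝ) (n : ℕ), F.J = nn → 0 < θ₀ → ∃ W₁ : ℝ, ∀ W, W₁ ≤ W →
  ∀ K : ℝ, 1 ≤ K → ∃ δ : ℝ, 0 < δ ∧ ∀ Λ, F.Mem Λ → ∀ l L, Λ.Win θ₀ δ l L →
    7 / 4 ≤ Real.pi * Λ.gN l → ∀ G : Kr.Gm, G.Ok W → G.At K L → G.R₂ ≤ L → (G.r : ℝ) ≤ W * G.c →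
      (G.R₂ : ℝ) ≤ W * G.R → Mix (wN Λ G.Om (Vd.ray 0)) G.In G.Ou (1 / 8) (1 / W ^ n)

/-- quasi-multiplicativity for one core; the weight of two cores in any large ambient model -/
def Qm (Λ : Lat) (K₀ : ℝ) (ρ₀ : ℕ) : Prop :=
  (∀ ρ R, ρ₀ ≤ ρ → ρ ≤ R → uu Λ ρ * TT Λ ρ R ≤ K₀ * uu Λ R) ∧
    ∀ (n : ℕ) (z : Pt) (m : Mdl Pt) (σ : Pt × Pt → ℤ), ρ₀ ≤ n → Amb Λ m (bl z (2 * n)) →
      (∀ e ∈ m.ed, σ e = Es28.sm z n e) → uu Λ (n / 4) ^ 2 ≤ K₀ * zr m σ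

/-- the output of KSTEP -/
def QmStmt : Prop := ∀ Λ : Lat, Λ.Ok → Λ.J = nn → 2 / Real.pi ≤ Λ.gI →
  ∃ (K₀ : ℝ) (ρ₀ : ℕ), 1 ≤ K₀ ∧ Qm Λ K₀ ρ₀

end Crest.Agent.T145.Ks68
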