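import Crest.Agent.T145.NcDef_78

/-!
# Row 145, module (D1)/(N): geometry of balls and annuli, `lgeoStmt`, `lgeoHStmt` (helper51)
-/

set_option autoImplicit false
set_option linter.unusedSectionVars false

namespace Crest.Agent.T145.Nc

open Finset

namespace Geo

/-! ## General facts -/
section gen
variable {V : Type*} [DecidableEq V] {m : Mdl V} {B B' N K H : Finset V}

theorem bd_subset (h : ∀ e ∈ m.ed, e.1 ∈ B ∨ e.2 ∈ B → e.1 ∈ B' ∧ e.2 ∈ B') : m.bd B ⊆ B' \ B := by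
  intro x hx
  obtain ⟨h1, e, he, h2 | h2⟩ := Mdl.mem_bd.1 hx
  · exact mem_sdiff.2 ⟨h2.1 ▸ (h e he (Or.inr h2.2)).1, h1⟩
  · exact mem_sdiff.2 ⟨h2.1 ▸ (h e he (Or.inl h2.2)).2, h1⟩

theorem mem_hole_ed {e : V × V} : e ∈ (hole m N).ed ↔ e ∈ m.ed ∧ e.1 ∉ N ∧ e.2 ∉ N := mem_filter

theorem hole_fm (h : m.Fm) (N : Finset V) : (hole m N).Fm := fun e he => h e (mem_hole_ed.1 he).1

theorem hole_ctr (h : m.Ctr) (N : Finset V) : (hole m N).Ctr :=
  ⟨hole_fm h.1 N, fun x hx => h.2 x (mem_sdiff.1 hx).1⟩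

theorem hole_hole (m : Mdl V) (N N' : Finset V) : hole (hole m N) N' = hole m (N ∪ N') := by
  simp only [hole, filter_filter, mem_union, not_or, sdiff_sdiff_left, sup_eq_union, Mdl.mk.injEq,
    true_and, and_true]
  exact filter_congr fun e _ => by tauto

theorem hole_empty (m : Mdl V) : hole m ∅ = m := by
  simp only [hole, sdiff_empty, notMem_empty, not_false_eq_true, and_self, filter_true]

theorem not_se_one {u : ℤ → ℝ} (h : ∀ k, u k = 1) : ¬ SE u := fun hs => by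
  have := hs.summable
  rw [funext h, summable_const_iff] at this
  exact one_ne_zero this

theorem Cl.mono {U U' : Finset V} (h : Cl m U) (hU : U' ⊆ U) : Cl m U' :=
  ⟨hU.trans h.1, fun x hx => h.2 x (hU hx)⟩

/-- a hole surrounded by a connected ring does not disconnect from the anchors -/
theorem hole_anch (ha : m.Anch) (hN : Cl m N) (hK : m.bd N ⊆ K)
    (hc : ∀ x ∈ K, ∀ y ∈ K, Conn (hole m N).ed x y) : (hole m N).Anch := by
  intro x hx
  obtain ⟨y, hxy, hy⟩ := ha x (mem_sdiff.1 hx).1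
  have hyN : y ∉ N := fun h => hy.elim (fun h' => h' (hN.1 h)) (not_se_one (hN.2 y h))
  refine ⟨y, ?_, hy.imp_left fun h h' => h (mem_sdiff.1 h').1⟩
  suffices h : ∀ x, Conn m.ed x y → (x ∉ N → Conn (hole m N).ed x y) ∧
      (x ∈ N → ∃ p ∈ K, Conn (hole m N).ed p y) from (h x hxy).1 (mem_sdiff.1 hx).2
  intro x h
  induction h using Relation.ReflTransGen.head_induction_on with
  | refl => exact ⟨fun _ => Conn.refl _ _, fun h => absurd h hyN⟩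
  | @head u v huv _ ih =>
    have hb : ∀ {a b : V}, ((a, b) ∈ m.ed ∨ (b, a) ∈ m.ed) → a ∉ N → b ∈ N → a ∈ K :=
      fun h ha hb => hK (Mdl.mem_bd.2 ⟨ha, h.elim (fun h => ⟨_, h, Or.inl ⟨rfl, hb⟩⟩)
        fun h => ⟨_, h, Or.inr ⟨rfl, hb⟩⟩⟩)
    by_cases hv : v ∈ N
    · obtain ⟨p, hp, hpy⟩ := ih.2 hv
      exact ⟨fun hu => (hc u (hb huv hu hv) p hp).trans hpy, fun _ => ⟨p, hp, hpy⟩⟩
    · refine ⟨fun hu => Conn.trans ?_ (ih.1 hv), fun hu => ⟨v, hb huv.symm hv hu, ih.1 hv⟩⟩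
      exact huv.elim (fun h => Conn.edge (mem_hole_ed.2 ⟨h, hu, hv⟩))
        fun h => Conn.edge' (mem_hole_ed.2 ⟨h, hv, hu⟩)

theorem cut_anch {S U T : Finset V} (h : Cut m N S U K T) (ha : m.Anch) : (hole m N).Anch :=
  hole_anch ha h.clN h.kbd fun x hx y hy => (h.cnU x (h.ksub hx) y (h.ksub hy)).mono fun _ he =>
    mem_hole_ed.2 ⟨(mem_inn.1 he).1, disjoint_right.1 h.disj (mem_inn.1 he).2.1,
      disjoint_right.1 h.disj (mem_inn.1 he).2.2⟩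

theorem rs_eq {U : Finset V} (h : U.Nonempty) : ∃ r ∈ U, rs U = {r} :=
  ⟨h.choose, h.choose_spec, dif_pos h⟩

theorem fl_cst {U : Finset V} (hK : K ⊆ U) (s : Cfg V) (k : ℤ) : Fl K (s + cst U k) ↔ Fl K s :=
  forall₂_congr fun x hx => forall₂_congr fun y hy => by
    rw [Finsupp.add_apply, Finsupp.add_apply, cst_of_mem k (hK hx), cst_of_mem k (hK hy), add_left_inj]

theorem fl_map {V' : Type*} [DecidableEq V'] (φ : V ≃ V') (K : Finset V) (s : Cfg V) :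
    Fl (K.map φ.toEmbedding) (mapH φ s) ↔ Fl K s := by
  simp only [Fl, forall_mem_map, Equiv.coe_toEmbedding, mapH_apply, Equiv.symm_apply_apply]

end gen

/-! ## Annuli -/

theorem mem_an {z x : Pt} {r R : ℕ} : x ∈ an z r R ↔ x ∈ bl z R ∧ x ∉ bl z r := mem_sdiff

theorem an_subset_bl (z : Pt) (r R : ℕ) : an z r R ⊆ bl z R := sdiff_subset

theorem an_mono (z : Pt) {r R r' R' : ℕ} (h : r' ≤ r) (h' : R ≤ R') : an z r R ⊆ an z r' R' :=
  sdiff_subset_sdiff (bl_mono z h') (bl_mono z h)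

theorem an_nonempty (z : Pt) {r R : ℕ} (h : r < R) : (an z r R).Nonempty :=
  ⟨(z.1 + R, z.2), by simp only [mem_an, mem_bl]; omega⟩

theorem bl_sdiff_an (z : Pt) {r R : ℕ} (h : r ≤ R) : bl z R \ an z r R = bl z r := by
  ext x; simp only [mem_sdiff, mem_an, mem_bl]; omega

theorem an_sdiff_an (z : Pt) (q : ℕ) {r R : ℕ} (h : r ≤ R) : an z q R \ an z r R = an z q r := by
  ext x; simp only [mem_sdiff, mem_an, mem_bl]; omega

theorem an_sdiff_an' (z : Pt) {q r : ℕ} (R : ℕ) (h : q ≤ r) : an z q R \ an z q r = an z r R := by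
  ext x; simp only [mem_sdiff, mem_an, mem_bl]; omega

theorem bl_union_an (z : Pt) {r R : ℕ} (h : r ≤ R) : bl z r ∪ an z r R = bl z R := by
  ext x; simp only [mem_union, mem_an, mem_bl]; omega

theorem an_union_an (z : Pt) {q r R : ℕ} (h : q ≤ r) (h' : r ≤ R) :
    an z q r ∪ an z r R = an z q R := by
  ext x; simp only [mem_union, mem_an, mem_bl]; omega

theorem disjoint_bl_an (z : Pt) {r r' : ℕ} (R : ℕ) (h : r ≤ r') : Disjoint (bl z r) (an z r' R) :=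
  disjoint_left.2 fun _ hx hx' => (mem_an.1 hx').2 (bl_mono z h hx)

theorem map_an_add (z t : Pt) (r R : ℕ) :
    (an z r R).map (Equiv.addRight t).toEmbedding = an (z + t) r R := by
  rw [an, Finset.map_sdiff, map_bl_add, map_bl_add, an]

variable {Λ : Lat} {m m' : Mdl Pt} {U U' K S H : Finset Pt} {z : Pt} {q r c R : ℕ}

theorem near_bl {e : Pt × Pt} (he : e.2 - e.1 ∈ Λ.Jp) (h : e.1 ∈ bl z r ∨ e.2 ∈ bl z r) :
    e.1 ∈ bl z (r + Λ.rg) ∧ e.2 ∈ bl z (r + Λ.rg) := by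
  have := mem_bl.1 (Lat.edge_near he)
  simp only [mem_bl] at *
  omega

/-- connected by the lattice edges inside -/
def CnL (Λ : Lat) (U : Finset Pt) : Prop := ∀ x ∈ U, ∀ y ∈ U, Conn (Λ.edI U) x y

theorem cnL_bl (h : Λ.Ok) (z : Pt) (r : ℕ) : CnL Λ (bl z r) :=
  fun _ hx _ hy => h.conn_rect (rect_bl hx hy)

theorem cnL_an (h : Λ.Ok) (z : Pt) (hr : r < R) : CnL Λ (an z r R) := by
  have a1 : ∀ x ∈ an z r R, z.1 + r < x.1 ∨ z.2 + r < x.2 →
      Conn (Λ.edI (an z r R)) x (z.1 + R, z.2 + R) := fun x hx h1 =>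
    h.conn_rect fun w _ _ _ _ => by simp only [mem_an, mem_bl] at *; omega
  have key : ∀ x ∈ an z r R, Conn (Λ.edI (an z r R)) x (z.1 + R, z.2 + R) := by
    intro x hx
    by_cases h1 : z.1 + r < x.1 ∨ z.2 + r < x.2
    · exact a1 x hx h1
    · by_cases h2 : x.1 < z.1 - r
      · refine Conn.trans (y := (x.1, z.2 + R)) (h.conn_rect fun w _ _ _ _ => ?_) (a1 _ ?_ ?_) <;>
          simp only [mem_an, mem_bl] at * <;> omega
      · refine Conn.trans (y := (z.1 + R, x.2)) (h.conn_rect fun w _ _ _ _ => ?_) (a1 _ ?_ ?_) <;>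
          simp only [mem_an, mem_bl] at * <;> omega
  exact fun x hx y hy => (key x hx).trans (key y hy).symm

/-! ## Models that are the lattice model inside a set -/

/-- the edges of `m` inside `U` are those of the lattice -/
def InL (Λ : Lat) (m : Mdl Pt) (U : Finset Pt) : Prop :=
  inn U m.ed = Λ.edI U ∧ ∀ e ∈ Λ.edI U, m.w e = Λ.w

theorem InL.mem (h : InL Λ m U) {e : Pt × Pt} (h1 : e.1 ∈ U) (h2 : e.2 ∈ U) :
    e ∈ m.ed ↔ e.2 - e.1 ∈ Λ.Jp := by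
  have := Finset.ext_iff.1 h.1 e
  rwa [mem_inn, Lat.mem_edI, and_iff_left ⟨h1, h2⟩, and_iff_left ⟨h1, h2⟩] at this

theorem inL_of (h : ∀ e : Pt × Pt, e.1 ∈ U → e.2 ∈ U → (e ∈ m.ed ↔ e.2 - e.1 ∈ Λ.Jp))
    (hw : ∀ e ∈ Λ.edI U, m.w e = Λ.w) : InL Λ m U :=
  ⟨Finset.ext fun e => by
    rw [mem_inn, Lat.mem_edI]; exact and_congr_left fun he => h e he.1 he.2, hw⟩

theorem InL.mono (h : InL Λ m U) (hU : U' ⊆ U) : InL Λ m U' :=
  inL_of (fun _ h1 h2 => h.mem (hU h1) (hU h2)) fun e he => h.2 e (Lat.edI_mono hU he)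

theorem inL_N (hU : U ⊆ U') : InL Λ (Λ.N U') U := ⟨Lat.inn_edI hU, fun _ _ => rfl⟩

theorem inL_near (h : Λ.Near m U) : InL Λ m U :=
  inL_of (fun e h1 _ => h.1 e (Or.inl h1)) fun e he => h.2.1 e
    ((h.1 e (Or.inl (Lat.mem_edI.1 he).2.1)).2 (Lat.mem_edI.1 he).1) (Or.inl (Lat.mem_edI.1 he).2.1)

theorem InL.hole (h : InL Λ m U) (H : Finset Pt) : InL Λ (hole m H) (U \ H) :=
  inL_of (fun _ h1 h2 => by
    rw [mem_hole_ed, h.mem (mem_sdiff.1 h1).1 (mem_sdiff.1 h2).1,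
      and_iff_left ⟨(mem_sdiff.1 h1).2, (mem_sdiff.1 h2).2⟩])
    fun e he => h.2 e (Lat.edI_mono sdiff_subset he)

theorem InL.pn (h : InL Λ m U) (hU : U ⊆ U') (S : Finset Pt) : InL Λ (pn m U' S) U :=
  inL_of (fun _ h1 h2 => by
    rw [← h.mem h1 h2]; exact mem_inn.trans (and_iff_left ⟨hU h1, hU h2⟩)) h.2

theorem InL.cn (h : InL Λ m U) (hc : CnL Λ U) : Cn m U := by rw [Cn, h.1]; exact hc

theorem InL.pn_W (h : InL Λ m U) (S : Finset Pt) : (Nc.pn m U S).W = ((Λ.N U).free (U \ S)).W :=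
  Mdl.W_ext rfl h.1 (fun e he => h.2 e (h.1 ▸ he)) fun _ _ _ => rfl

theorem InL.pn_Ws (h : InL Λ m U) (S : Finset Pt) : (Nc.pn m U S).Ws = ((Λ.N U).free (U \ S)).Ws :=
  Mdl.Ws_ext rfl h.1 (fun e he => h.2 e (h.1 ▸ he)) fun _ _ _ => rfl

theorem InL.pn_J (h : InL Λ m U) (S : Finset Pt) : (Nc.pn m U S).J = ((Λ.N U).free (U \ S)).J :=
  Mdl.J_ext rfl h.1 (fun e he => h.2 e (h.1 ▸ he)) fun _ _ _ => rfl

theorem InL.rW_congr (h : InL Λ m U) (h' : InL Λ m' U) : rW m U = rW m' U := by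
  rw [rW, rW, h.pn_W, h'.pn_W]

theorem InL.rW_eq (h : InL Λ m U) : rW m U = rW (Λ.N U) U := h.rW_congr (inL_N subset_rfl)

theorem InL.nE_congr (h : InL Λ m U) (h' : InL Λ m' U) : nE m U = nE m' U := by
  funext F; rw [nE, nE, h.rW_congr h']

theorem InL.nm_congr (h : InL Λ m U) (h' : InL Λ m' U) : nm m U = nm m' U := by
  funext F; rw [nm, nm, h.nE_congr h']

theorem InL.cr_congr (h : InL Λ m U) (h' : InL Λ m' U) (K S : Finset Pt) :
    cr m U K S = cr m' U K S := by rw [cr, cr, h.rW_congr h', h.pn_W, h'.pn_W]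

theorem InL.cr_eq (h : InL Λ m U) (K S : Finset Pt) : cr m U K S = cr (Λ.N U) U K S :=
  h.cr_congr (inL_N subset_rfl) K S

theorem InL.rW_Nr (h : InL Λ m U) (hU : U.Nonempty) : ∃ r ∈ U, rW m U = (Λ.Nr U r).W 0 := by
  obtain ⟨r, hr, e⟩ := rs_eq hU
  exact ⟨r, hr, by rw [rW, h.pn_W, e, sdiff_singleton_eq_erase]; rfl⟩

/-- the free expectation of an observable invariant under the zero mode, any root -/
theorem InL.nE_Nr (h : InL Λ m U) {r : Pt} (hr : r ∈ U) {F : Cfg Pt → ℝ}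
    (hF : ∀ s k, F (s + cst U k) = F s) : nE m U F = Ex ((Λ.Nr U r).W 0) F := by
  obtain ⟨r', hr', e⟩ := h.rW_Nr ⟨r, hr⟩
  rw [nE, e]; exact Lat.ex_Nr_root hr' hr hF

theorem InL.ig_Nr (h : InL Λ m U) {r : Pt} (hr : r ∈ U) {F : Cfg Pt → ℝ}
    (hF : ∀ s k, F (s + cst U k) = F s) : Ig (rW m U) F ↔ Ig ((Λ.Nr U r).W 0) F := by
  obtain ⟨r', hr', e⟩ := h.rW_Nr ⟨r, hr⟩
  rw [e]
  exact (Md.root (Λ.N U) hr' hr (fun _ he => (Lat.mem_edI.1 he).2) (fun _ _ => rfl) hF).2.1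

theorem InL.nE_EN (h : InL Λ m (bl z c)) {F : Cfg Pt → ℝ} (hF : DepG (bl z c) F) :
    nE m (bl z c) F = EN Λ z c F := h.nE_Nr (self_mem_bl z c) (hF.shift subset_rfl)

theorem InL.nm_Nm (h : InL Λ m (bl z c)) {F : Cfg Pt → ℝ} (hF : DepG (bl z c) F) :
    nm m (bl z c) F = Nm Λ z c F := h.nE_EN (hF.comp fun t => |t|)

theorem InL.ig_In (h : InL Λ m (bl z c)) {F : Cfg Pt → ℝ} (hF : DepG (bl z c) F) :
    Ig (rW m (bl z c)) F ↔ In Λ z c F := h.ig_Nr (self_mem_bl z c) (hF.shift subset_rfl)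

theorem InL.nE_EA (h : InL Λ m (an z c R)) : nE m (an z c R) = EA Λ z c R :=
  h.nE_congr (inL_N subset_rfl)

/-- the cross ratio is invariant under the symmetries of the lattice -/
theorem cr_map (hΛ : Λ.Ok) {φ : Pt ≃ Pt} (h : Λ.Sym φ) (hK : K ⊆ U) (hU : U.Nonempty) (S : Finset Pt) :
    cr (Λ.N (U.map φ.toEmbedding)) (U.map φ.toEmbedding) (K.map φ.toEmbedding)
      (S.map φ.toEmbedding) = cr (Λ.N U) U K S := by
  obtain ⟨r, hr⟩ := hU
  have hK' : K.map φ.toEmbedding ⊆ U.map φ.toEmbedding := map_subset_map.2 hK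
  have hr' : φ r ∈ U.map φ.toEmbedding := mem_map_of_mem _ hr
  have e1 := (inL_N (Λ := Λ) subset_rfl).nE_Nr hr (F := fun s => ind (Fl K s))
    fun s k => ind_congr (fl_cst hK s k)
  have e2 := (inL_N (Λ := Λ) subset_rfl).nE_Nr hr' (F := fun s => ind (Fl (K.map φ.toEmbedding) s))
    fun s k => ind_congr (fl_cst hK' s k)
  rw [nE] at e1 e2
  rw [cr, cr, Pr, Pr, Pr, Pr, e1, e2, (inL_N subset_rfl).pn_W, (inL_N subset_rfl).pn_W,
    ← Finset.map_sdiff,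
    ((h.iso_N hΛ U).free (A := U \ S) sdiff_subset).ex0 (hΛ.ctr_N U).1, h.ex_Nr0 hΛ rfl]
  simp only [fl_map]

theorem InL.cr_an (hΛ : Λ.Ok) (h : InL Λ m (an z r R)) (hr : r + Λ.rg ≤ R) :
    cr m (an z r R) (an z r (r + Λ.rg)) (an z (R - Λ.rg) R) = gam Λ r R := by
  have := hΛ.one_le_rg
  rw [h.cr_eq, gam, ← cr_map hΛ (Lat.sym_add Λ z) (an_mono 0 le_rfl hr) (an_nonempty 0 (by omega))]
  simp only [map_an_add, zero_add]

/-- anything inside radius `r + rg` against the rim of radius `c` -/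
theorem InL.cr_le (hM : MonoCrStmt) (hΛ : Λ.Ok) (hF : m.Fm) (h : InL Λ m U) (hc : CnL Λ U)
    (h1 : an z r c ⊆ U) (h2 : U ⊆ bl z c) (hK : K ⊆ U) (hK' : K ⊆ bl z (r + Λ.rg))
    (hne : K.Nonempty) (hr : r + 2 * Λ.rg ≤ c) : cr m U K (an z (c - Λ.rg) c) ≤ gam Λ r c := by
  have := hΛ.one_le_rg
  have hS : an z (c - Λ.rg) c ⊆ an z r c := an_mono z (by omega) le_rfl
  have hS' : (an z (c - Λ.rg) c).Nonempty := an_nonempty z (by omega)
  have hM1 := hM Pt m (an z r c) (an z (c - Λ.rg) c) (an z r (r + Λ.rg)) hF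
    ((h.mono h1).cn (cnL_an hΛ z (by omega))) hS (an_mono z le_rfl (by omega)) hS'
    (an_nonempty z (by omega))
  rw [(hM Pt m U K _ hF (h.cn hc) hK (hS.trans h1) hne hS').2.1, ← (h.mono h1).cr_an hΛ (by omega),
    ← hM1.2.1]
  refine hM1.2.2.2 U K h1 (h.cn hc) hK hne ?_ fun x hx hb => ?_
  · rw [an_sdiff_an' z c (by omega)]
    exact (disjoint_bl_an z c le_rfl).mono_left hK'
  · rw [an_sdiff_an' z c (by omega)] at hb
    obtain ⟨h3, e, he, h4⟩ := Mdl.mem_bd.1 hb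
    have h5 : an z (r + Λ.rg) c ⊆ U := (an_mono z (by omega) le_rfl).trans h1
    have h6 := h2 hx
    rcases h4 with ⟨rfl, h4⟩ | ⟨rfl, h4⟩
    · have := mem_bl.1 (Lat.edge_near ((h.mem hx (h5 h4)).1 he))
      simp only [mem_an, mem_bl] at *; omega
    · have := mem_bl.1 (Lat.edge_near ((h.mem (h5 h4) hx).1 he))
      simp only [mem_an, mem_bl] at *; omega

theorem one_le_gam (hM : MonoCrStmt) (hΛ : Λ.Ok) (hr : r + Λ.rg ≤ R) : 1 ≤ gam Λ r R := by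
  have := hΛ.one_le_rg
  exact (hM Pt _ _ _ _ (hΛ.ctr_N _).1 ((inL_N subset_rfl).cn (cnL_an hΛ 0 (by omega)))
    (an_mono 0 le_rfl hr) (an_mono 0 (by omega) le_rfl) (an_nonempty 0 (by omega))
    (an_nonempty 0 (by omega))).1

theorem gam_anti (hM : MonoCrStmt) (hΛ : Λ.Ok) {r' R' : ℕ} (h1 : r' ≤ r) (h2 : R ≤ R')
    (hr : r + 2 * Λ.rg ≤ R) : gam Λ r' R' ≤ gam Λ r R := by
  have := hΛ.one_le_rg
  have hU : an 0 r' R ⊆ an 0 r' R' := an_mono 0 le_rfl h2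
  have hc : CnL Λ (an 0 r' R) := cnL_an hΛ 0 (by omega)
  refine le_trans ?_ ((inL_N hU).cr_le hM hΛ (hΛ.ctr_N _).1 hc (an_mono 0 h1 le_rfl)
    (an_subset_bl _ _ _) (K := an 0 r' (r' + Λ.rg)) (an_mono 0 le_rfl (by omega))
    ((an_subset_bl _ _ _).trans (bl_mono 0 (by omega))) (an_nonempty 0 (by omega)) hr)
  refine (hM Pt _ _ _ _ (hΛ.ctr_N _).1 ((inL_N hU).cn hc) (an_mono 0 le_rfl (by omega))
    (an_mono 0 (by omega) le_rfl) (an_nonempty 0 (by omega)) (an_nonempty 0 (by omega))).2.2.2 _ _ hU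
    ((inL_N subset_rfl).cn (cnL_an hΛ 0 (by omega))) (an_mono 0 (by omega) le_rfl)
    (an_nonempty 0 (by omega)) ?_ fun x hx hb => ?_
  · rw [an_sdiff_an 0 r' (by omega)]
    exact ((disjoint_bl_an 0 R' (by omega)).mono_left (an_subset_bl _ _ _)).symm
  · rw [an_sdiff_an 0 r' (by omega)] at hb
    have := bd_subset (m := Λ.N (an 0 r' R')) (B' := bl 0 (R - Λ.rg + Λ.rg))
      (fun e he h => near_bl (Lat.mem_edI.1 he).1 (h.imp (@an_subset_bl _ _ _ _) (@an_subset_bl _ _ _ _))) hb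
    simp only [mem_sdiff, mem_an, mem_bl] at *; omega

/-! ## Models that are the lattice model with the hole `H` around the ball of radius `R` -/

/-- weak ambient condition: enough for all boxes and cuts inside the ball of radius `R + rg` -/
structure Lh (Λ : Lat) (m : Mdl Pt) (H : Finset Pt) (z : Pt) (R : ℕ) : Prop where
  ed : ∀ e ∈ m.ed, e.1 ∈ bl z R ∨ e.2 ∈ bl z R → e.2 - e.1 ∈ Λ.Jp ∧ e.1 ∉ H ∧ e.2 ∉ H
  ins : InL Λ m (bl z (R + Λ.rg) \ H)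
  cl : Cl m (bl z R \ H)

theorem Lh.mono (h : Lh Λ m H z R) (hr : r ≤ R) : Lh Λ m H z r :=
  ⟨fun e he h' => h.ed e he (h'.imp (@bl_mono z _ _ hr _) (@bl_mono z _ _ hr _)),
    h.ins.mono (sdiff_subset_sdiff (bl_mono z (by omega)) subset_rfl),
    Cl.mono h.cl (sdiff_subset_sdiff (bl_mono z hr) subset_rfl)⟩

theorem lh_of_near (h : Λ.Near m (bl z R)) (hA : bl z R ⊆ m.A) (hI : InL Λ m (bl z (R + Λ.rg))) :
    Lh Λ m ∅ z R :=
  ⟨fun e he h' => ⟨(h.1 e h').1 he, notMem_empty _, notMem_empty _⟩, by rwa [sdiff_empty],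
    by rw [sdiff_empty]; exact ⟨hA, h.2.2⟩⟩

theorem lh_amb (h : Amb Λ m (bl z (R + Λ.rg))) : Lh Λ m ∅ z R :=
  lh_of_near (h.near.mono (bl_mono z (by omega))) ((bl_mono z (by omega)).trans h.sub)
    (inL_near h.near)

theorem lh_N {c' : ℕ} (h : R + Λ.rg ≤ c') : Lh Λ (Λ.N (bl z c')) ∅ z R :=
  lh_of_near (Lat.near_N (Lat.edT_bl_subset z h)) (bl_mono z (by omega)) (inL_N (bl_mono z h))

theorem Lh.free (h : Lh Λ m H z R) {A : Finset Pt} (hA : bl z R \ H ⊆ A) : Lh Λ (m.free A) H z R :=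
  ⟨h.ed, h.ins, hA, h.cl.2⟩

theorem lh_Nr {c' : ℕ} (h : R + Λ.rg ≤ c') {r : Pt} (hr : r ∉ bl z R) :
    Lh Λ (Λ.Nr (bl z c') r) ∅ z R :=
  (lh_N h).free fun _ hx => mem_erase.2 ⟨fun e => hr (e ▸ (mem_sdiff.1 hx).1),
    bl_mono z (by omega) (mem_sdiff.1 hx).1⟩

theorem Lh.pn (h : Lh Λ m H z R) (hU : bl z (R + Λ.rg) \ H ⊆ U) (hS : Disjoint S (bl z R \ H)) :
    Lh Λ (pn m U S) H z R :=
  ⟨fun e he => h.ed e (mem_inn.1 he).1, h.ins.pn hU S, fun _ hx => mem_sdiff.2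
    ⟨hU (sdiff_subset_sdiff (bl_mono z (by omega)) subset_rfl hx), disjoint_right.1 hS hx⟩,
    fun _ _ _ => rfl⟩

/-- the rooted free box as an ambient model -/
theorem lh_pn {c' : ℕ} (h : R + Λ.rg ≤ c') (hS : Disjoint S (bl z R)) :
    Lh Λ (pn (Λ.N (bl z c')) (bl z c') S) ∅ z R :=
  (lh_N h).pn (sdiff_subset.trans (bl_mono z h)) (hS.mono_right sdiff_subset)

theorem Lh.hole (h : Lh Λ m H z R) (H' : Finset Pt) : Lh Λ (hole m H') (H ∪ H') z R :=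
  ⟨fun e he h' => by
    have := h.ed e (mem_hole_ed.1 he).1 h'
    have := (mem_hole_ed.1 he).2
    simp only [mem_union]; tauto,
  by rw [← sup_eq_union, ← sdiff_sdiff_left]; exact h.ins.hole H',
  by
    rw [← sup_eq_union, ← sdiff_sdiff_left]
    exact ⟨sdiff_subset_sdiff h.cl.1 subset_rfl, fun x hx => h.cl.2 x (mem_sdiff.1 hx).1⟩⟩

theorem Lh.hole0 (h : Lh Λ m ∅ z R) (H : Finset Pt) : Lh Λ (Nc.hole m H) H z R := by
  simpa only [empty_union] using h.hole H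

theorem Lh.ends (h : Lh Λ m H z R) (hr : r ≤ R) {e : Pt × Pt} (he : e ∈ m.ed)
    (h' : e.1 ∈ bl z r ∨ e.2 ∈ bl z r) :
    e.1 ∈ bl z (r + Λ.rg) \ H ∧ e.2 ∈ bl z (r + Λ.rg) \ H := by
  have h1 := (h.mono hr).ed e he h'
  have h2 := near_bl h1.1 h'
  exact ⟨mem_sdiff.2 ⟨h2.1, h1.2.1⟩, mem_sdiff.2 ⟨h2.2, h1.2.2⟩⟩

theorem Lh.bd (h : Lh Λ m H z R) (hr : r ≤ R) : m.bd (bl z r \ H) ⊆ an z r (r + Λ.rg) \ H := by
  refine (bd_subset fun e he h' => h.ends hr he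
    (h'.imp (@sdiff_subset _ _ _ _ _) (@sdiff_subset _ _ _ _ _))).trans fun x hx => ?_
  simp only [mem_sdiff, mem_an] at *; tauto

theorem Lh.mem_edM (h : Lh Λ m H z R) {B : Finset Pt} (hB : B ⊆ bl z R) {e : Pt × Pt} :
    e ∈ m.edM B ↔ (e.2 - e.1 ∈ Λ.Jp ∧ e.1 ∉ H ∧ e.2 ∉ H) ∧ (e.1 ∈ B ∨ e.2 ∈ B) := by
  rw [Mdl.mem_edM]
  refine and_congr_left fun h' => ⟨fun he => h.ed e he (h'.imp (@hB _) (@hB _)), fun he => ?_⟩
  have := near_bl he.1 (h'.imp (@hB _) (@hB _))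
  exact (h.ins.mem (mem_sdiff.2 ⟨this.1, he.2.1⟩) (mem_sdiff.2 ⟨this.2, he.2.2⟩)).2 he.1

theorem Lh.w_edM (h : Lh Λ m H z R) {B : Finset Pt} (hB : B ⊆ bl z R) {e : Pt × Pt}
    (he : e ∈ m.edM B) : m.w e = Λ.w := by
  have h1 := Mdl.mem_edM.1 he
  have h2 := h1.2.imp (@hB _) (@hB _)
  exact h.ins.2 e (Lat.mem_edI.2 ⟨(h.ed e h1.1 h2).1, h.ends le_rfl h1.1 h2⟩)

theorem Lh.loc_congr (h : Lh Λ m H z R) (h' : Lh Λ m' H z R) {B : Finset Pt} (hB : B ⊆ bl z R \ H)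
    (s : Cfg Pt) : (m.loc B).W s = (m'.loc B).W s := by
  have hB' := hB.trans sdiff_subset
  have hE : m.edM B = m'.edM B := Finset.ext fun e => by rw [h.mem_edM hB', h'.mem_edM hB']
  exact Mdl.W_loc_congr hE (fun e he => by rw [h.w_edM hB' he, h'.w_edM hB' (hE ▸ he)])
    (fun x hx => funext fun k => by rw [h.cl.2 x (hB hx), h'.cl.2 x (hB hx)]) s

theorem Lh.near (h : Lh Λ m ∅ z R) : Λ.Near m (bl z R) :=
  ⟨fun e he => by
    have := h.mem_edM subset_rfl (e := e)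
    rw [Mdl.mem_edM, and_iff_left he, and_iff_left he] at this
    simpa using this,
  fun e he h' => h.w_edM subset_rfl (Mdl.mem_edM.2 ⟨he, h'⟩), fun x hx => h.cl.2 x (by simpa)⟩

theorem Lh.box (hΛ : Λ.Ok) (h : Lh Λ m H z r) (hH : H ⊆ bl z r)
    (hc : CnL Λ (bl z (r + Λ.rg) \ H)) : Box m (bl z (r + Λ.rg) \ H) (an z r (r + Λ.rg)) := by
  have := hΛ.one_le_rg
  have e : (bl z (r + Λ.rg) \ H) \ an z r (r + Λ.rg) = bl z r \ H := by
    rw [sdiff_sdiff_comm, bl_sdiff_an z (by omega)]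
  exact ⟨h.ins.cn hc, sdiff_subset_sdiff subset_rfl hH, an_nonempty z (by omega), e ▸ h.cl,
    e ▸ (h.bd le_rfl).trans sdiff_subset⟩

theorem Lh.box' (hΛ : Λ.Ok) (hc : Λ.rg ≤ c) (h : Lh Λ m H z (c - Λ.rg)) (hH : H ⊆ bl z (c - Λ.rg))
    (hn : CnL Λ (bl z c \ H)) : Box m (bl z c \ H) (an z (c - Λ.rg) c) := by
  have := h.box hΛ hH
  rw [Nat.sub_add_cancel hc] at this
  exact this hn

theorem union_cut (z : Pt) (hH : H ⊆ bl z c) (h : c ≤ R) (R' : ℕ) (h' : R ≤ R') :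
    bl z c \ H ∪ an z c R' \ an z R R' = bl z R \ H := by
  rw [an_sdiff_an z c h']
  ext x
  have := @hH x
  have := @bl_mono z _ _ h x
  simp only [mem_union, mem_sdiff, mem_an]; tauto

theorem Lh.cut (hΛ : Λ.Ok) (h : Lh Λ m H z R) (hc : Λ.rg ≤ c) (hR : c ≤ R)
    (hH : H ⊆ bl z (c - Λ.rg)) (hn : CnL Λ (bl z c \ H)) :
    Cut m (bl z c \ H) (an z (c - Λ.rg) c) (an z c (R + Λ.rg)) (an z c (c + Λ.rg))
      (an z R (R + Λ.rg)) := by
  have := hΛ.one_le_rg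
  have hH' : H ⊆ bl z c := hH.trans (bl_mono z (by omega))
  refine ⟨(h.mono (by omega)).box' hΛ hc hH hn, (h.mono hR).cl,
    (disjoint_bl_an z _ le_rfl).mono_left sdiff_subset,
    (h.ins.mono (sdiff_subset_sdiff subset_rfl hH')).cn (cnL_an hΛ z (by omega)), ?_,
    an_mono z le_rfl (by omega), an_nonempty z (by omega), (h.bd hR).trans sdiff_subset, ?_,
    an_mono z hR le_rfl, an_nonempty z (by omega), ?_⟩
  · rw [an_sdiff_an z c (by omega)]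
    exact Cl.mono h.cl (sdiff_subset_sdiff subset_rfl hH')
  · have h1 : ∀ k : ℤ, c ≤ k → k ≤ c + 1 → ((z.1 + k, z.2) : Pt) ∈ bl z (R + Λ.rg) \ H :=
      fun k h1 h2 => mem_sdiff.2 ⟨by simp only [mem_bl]; omega, fun h => by
        have := mem_bl.1 (hH h); simp only at this; omega⟩
    refine ⟨(z.1 + (c + 1), z.2), Mdl.mem_bd.2 ⟨fun h => ?_, ((z.1 + c, z.2), (z.1 + (c + 1), z.2)),
      (h.ins.mem (h1 _ le_rfl (by omega)) (h1 _ (by omega) le_rfl)).2 ?_,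
      Or.inr ⟨rfl, mem_sdiff.2 ⟨?_, (mem_sdiff.1 (h1 _ le_rfl (by omega))).2⟩⟩⟩⟩
    · have := mem_bl.1 (mem_sdiff.1 h).1; simp only at this; omega
    · simpa using hΛ.e1
    · simp only [mem_bl]; omega
  · rw [union_cut z hH' hR _ (by omega)]
    exact (h.bd le_rfl).trans sdiff_subset

theorem Lh.inL_an (h : Lh Λ m H z R) (hH : H ⊆ bl z c) : InL Λ m (an z c (R + Λ.rg)) :=
  h.ins.mono (sdiff_subset_sdiff subset_rfl hH)

theorem Lh.cr_cut (hΛ : Λ.Ok) (h : Lh Λ m H z R) (hH : H ⊆ bl z c) (hR : c ≤ R) :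
    cr m (an z c (R + Λ.rg)) (an z c (c + Λ.rg)) (an z R (R + Λ.rg)) = gam Λ c (R + Λ.rg) := by
  have := (h.inL_an hH).cr_an hΛ (by omega)
  rwa [Nat.add_sub_cancel] at this

theorem Lh.hd_congr (h : Lh Λ m H z R) (h' : Lh Λ m' H z R) (hH : H ⊆ bl z c) (hR : c ≤ R) :
    hd m (bl z c \ H) (an z c (R + Λ.rg)) (an z R (R + Λ.rg)) =
      hd m' (bl z c \ H) (an z c (R + Λ.rg)) (an z R (R + Λ.rg)) := by
  funext s
  have e1 : gl m (bl z c \ H) = gl m' (bl z c \ H) := funext fun t => by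
    rw [gl, gl, h.loc_congr h' (sdiff_subset_sdiff (bl_mono z hR) subset_rfl)]
  rw [hd, hd, e1, (h.inL_an hH).nE_congr (h'.inL_an hH), union_cut z hH hR _ (by omega),
    h.loc_congr h' subset_rfl, (h.hole _).loc_congr (h'.hole _)]
  rw [an_sdiff_an z c (by omega), union_sdiff_of_subset hH]
  exact subset_rfl

/-! ### without a hole -/

theorem Lh.inL_bl (h : Lh Λ m ∅ z R) (hc : c ≤ R + Λ.rg) : InL Λ m (bl z c) :=
  h.ins.mono (by rw [sdiff_empty]; exact bl_mono z hc)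

theorem Lh.box0 (hΛ : Λ.Ok) (hc : Λ.rg ≤ c) (h : Lh Λ m ∅ z R) (hR : c ≤ R + Λ.rg) :
    Box m (bl z c) (an z (c - Λ.rg) c) := by
  simpa only [sdiff_empty] using (h.mono (by omega)).box' hΛ hc (empty_subset _)
    (by rw [sdiff_empty]; exact cnL_bl hΛ z c)

theorem Lh.cut0 (hΛ : Λ.Ok) (h : Lh Λ m ∅ z R) (hc : Λ.rg ≤ c) (hR : c ≤ R) :
    Cut m (bl z c) (an z (c - Λ.rg) c) (an z c (R + Λ.rg)) (an z c (c + Λ.rg))
      (an z R (R + Λ.rg)) := by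
  simpa only [sdiff_empty] using h.cut hΛ hc hR (empty_subset _)
    (by rw [sdiff_empty]; exact cnL_bl hΛ z c)

theorem Lh.hd0 (h : Lh Λ m ∅ z R) (hR : c ≤ R) :
    hd m (bl z c) (an z c (R + Λ.rg)) (an z R (R + Λ.rg)) = Hd Λ z c R := by
  simpa only [sdiff_empty, Hd] using h.hd_congr (lh_N le_rfl) (empty_subset _) hR

theorem InL.cr_bl (hM : MonoCrStmt) (hΛ : Λ.Ok) (hF : m.Fm) (h : InL Λ m (bl z c))
    (hr : r + 2 * Λ.rg ≤ c) : cr m (bl z c) (bl z (r + Λ.rg)) (an z (c - Λ.rg) c) ≤ gam Λ r c :=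
  h.cr_le hM hΛ hF (cnL_bl hΛ z c) (an_subset_bl _ _ _) subset_rfl (bl_mono z (by omega)) subset_rfl
    ⟨z, self_mem_bl _ _⟩ hr

theorem InL.cr_hole (hM : MonoCrStmt) (hΛ : Λ.Ok) (hF : m.Fm) (h : InL Λ m (an z q c)) (hq : q ≤ r)
    (hr : r + 2 * Λ.rg ≤ c) :
    cr m (an z q c) (an z q (r + Λ.rg)) (an z (c - Λ.rg) c) ≤ gam Λ r c := by
  have := hΛ.one_le_rg
  exact h.cr_le hM hΛ hF (cnL_an hΛ z (by omega)) (an_mono z hq le_rfl) (an_subset_bl _ _ _)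
    (an_mono z le_rfl (by omega)) (an_subset_bl _ _ _) (an_nonempty z (by omega)) hr

theorem Lh.anch_hole (hΛ : Λ.Ok) (h : Lh Λ m ∅ z R) (ha : m.Anch) (hq : q ≤ R) :
    (Nc.hole m (bl z q)).Anch := by
  have := hΛ.one_le_rg
  have h1 := ((h.mono hq).hole0 (bl z q)).ins.cn (cnL_an hΛ z (by omega))
  refine hole_anch ha (by simpa only [sdiff_empty] using (h.mono hq).cl)
    (by simpa only [sdiff_empty, an] using h.bd hq) fun x hx y hy => (h1 x hx y hy).mono (filter_subset _ _)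

theorem amb_mono (h : Amb Λ m U) (hU : U' ⊆ U) : Amb Λ m U' :=
  ⟨h.ctr, h.anch, hU.trans h.sub, h.near.mono hU⟩

theorem near_hole (h : Λ.Near m U) (hU : Disjoint U (bl z (c + Λ.rg))) :
    Λ.Near (hole m (bl z c)) U :=
  ⟨fun e he => by
    rw [mem_hole_ed, h.1 e he]
    refine and_iff_left_of_imp fun h1 => not_or.1 fun h2 => ?_
    have := near_bl h1 h2
    exact he.elim (fun h => disjoint_left.1 hU h this.1) fun h => disjoint_left.1 hU h this.2,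
  fun e he => h.2.1 e (mem_hole_ed.1 he).1, h.2.2⟩

theorem amb_hole (hΛ : Λ.Ok) (h : Amb Λ m (bl z (R + Λ.rg))) (hc : c ≤ R) :
    Amb Λ (hole m (bl z c)) (an z (c + Λ.rg) (R + Λ.rg)) :=
  ⟨hole_ctr h.ctr _, (lh_amb h).anch_hole hΛ h.anch hc,
    sdiff_subset_sdiff h.sub (bl_mono z (by omega)),
    near_hole (h.near.mono (an_subset_bl _ _ _)) (disjoint_bl_an z _ le_rfl).symm⟩

end Geo

open Geo

theorem lgeoStmt (hM : MonoCrStmt) : LgeoStmt := fun Λ hΛ =>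
  ⟨fun _ _ _ _ h1 h2 h3 => ⟨one_le_gam hM hΛ (by omega), gam_anti hM hΛ h1 h2 h3⟩, fun m z =>
    ⟨fun c hc h => ⟨(lh_amb (R := c - Λ.rg) (by rwa [Nat.sub_add_cancel hc])).box0 hΛ hc (by omega),
      (inL_near h.near).rW_eq, fun _ hr => (inL_near h.near).cr_bl hM hΛ h.ctr.1 hr⟩,
    fun c R hc hR h => ⟨(lh_amb h).cut0 hΛ hc (by omega),
      by simpa only [sdiff_empty] using union_cut z (empty_subset _) (by omega : c ≤ R) _ (by omega),
      (lh_amb h).cr_cut hΛ (empty_subset _) (by omega), (lh_amb h).hd0 (by omega),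
      ((lh_amb h).inL_an (empty_subset _)).rW_eq, amb_hole hΛ h (by omega)⟩⟩⟩

theorem lgeoHStmt (hM : MonoCrStmt) : LgeoHStmt := fun Λ hΛ m z q => by
  have := hΛ.one_le_rg
  refine ⟨fun c hc h => ?_, fun c R hc hR h => ?_⟩
  · have h1 := (lh_amb (R := c - Λ.rg) (by rwa [Nat.sub_add_cancel (by omega)])).hole0 (bl z q)
    have h2 : InL Λ (hole m (bl z q)) (an z q c) := (inL_near h.near).hole _
    exact ⟨h1.box' hΛ (by omega) (bl_mono z (by omega)) (cnL_an hΛ z (by omega)), h2.rW_eq,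
      fun r hq hr => h2.cr_hole hM hΛ (hole_fm h.ctr.1 _) hq hr⟩
  · have h1 := (lh_amb h).hole0 (bl z q)
    refine ⟨hole_ctr h.ctr _, (lh_amb h).anch_hole hΛ h.anch (by omega),
      h1.cut hΛ (by omega) (by omega) (bl_mono z (by omega)) (cnL_an hΛ z (by omega)),
      union_cut z (bl_mono z (by omega)) (by omega) _ (by omega),
      h1.cr_cut hΛ (bl_mono z (by omega)) (by omega), ?_⟩
    rw [hole_hole, bl_union_an z (by omega)]

end Crest.Agent.T145.Nc
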