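import Crest.Agent.T145.VdDef_27
import Crest.Agent.T145.CutP_7
import Crest.Agent.T145.Sq_46

/-!
# Row 145 (helper27): the free model on an arbitrary edge set: roots, projection, gauge, translation,
product, cutting, BARE with a seam
-/

set_option autoImplicit false

namespace Crest.Agent.T145.Vd

open Finset
open Sl46 (fl fl_apply)

variable {Λ : Lat} {E : Finset (Pt × Pt)}

theorem conn_vx {x y : Pt} (h : Conn E x y) : y = x ∨ y ∈ vx E := by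
  induction h with
  | refl => exact .inl rfl
  | tail _ h _ =>
    rcases h with h | h
    exacts [.inr (mem_vx.2 ⟨_, h, .inr rfl⟩), .inr (mem_vx.2 ⟨_, h, .inl rfl⟩)]

theorem exists_rt (E : Finset (Pt × Pt)) (x : Pt) :
    ∃ y, Conn E x y ∧ ∀ z, Conn E x z → toLex y ≤ toLex z := by
  classical
  obtain ⟨y, hy, h⟩ := exists_min_image ((insert x (vx E)).filter (Conn E x)) (fun z => toLex z)
    ⟨x, mem_filter.2 ⟨mem_insert_self _ _, Relation.ReflTransGen.refl⟩⟩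
  exact ⟨y, (mem_filter.1 hy).2, fun z hz => h z (mem_filter.2 ⟨mem_insert.2 (conn_vx hz), hz⟩)⟩

/-- the root of the component of `x` -/
noncomputable def rt (E : Finset (Pt × Pt)) (x : Pt) : Pt := (exists_rt E x).choose

theorem conn_rt (E : Finset (Pt × Pt)) (x : Pt) : Conn E x (rt E x) := (exists_rt E x).choose_spec.1

theorem rt_le {x z : Pt} (h : Conn E x z) : toLex (rt E x) ≤ toLex z :=
  (exists_rt E x).choose_spec.2 z h

theorem rt_eq {x y : Pt} (h : Conn E x y) : rt E x = rt E y :=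
  toLex.injective (le_antisymm (rt_le (h.trans (conn_rt E y))) (rt_le (h.symm.trans (conn_rt E x))))

theorem mem_NE_A {x : Pt} : x ∈ (NE Λ E).A ↔ x ∈ vx E ∧ rt E x ≠ x := by
  simp only [NE, mem_filter]
  refine and_congr_right fun _ => ⟨?_, fun h => ⟨rt E x, conn_rt E x, ?_⟩⟩
  · rintro ⟨y, h1, h2⟩ h3
    have := rt_le h1
    rw [h3] at this
    exact absurd h2 (not_lt.2 this)
  · exact lt_of_le_of_ne (rt_le Relation.ReflTransGen.refl) fun h' => h (toLex.injective h')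

theorem rt_notMem (x : Pt) : rt E x ∉ (NE Λ E).A := fun h =>
  (mem_NE_A.1 h).2 (rt_eq (conn_rt E x)).symm

@[simp] theorem NE_ed : (NE Λ E).ed = E := rfl
@[simp] theorem NE_w (e : Pt × Pt) : (NE Λ E).w e = Λ.w := rfl
@[simp] theorem NE_site (x : Pt) (k : ℤ) : (NE Λ E).site x k = 1 := rfl

theorem NE_A_subset : (NE Λ E).A ⊆ vx E := fun _ h => (mem_NE_A.1 h).1

theorem NE_ctr (h : Λ.Ok) (E : Finset (Pt × Pt)) : (NE Λ E).Ctr :=
  ⟨fun _ _ => ⟨Λ.xy, Λ.τ, h.2, rfl⟩, fun _ _ => ⟨Md.rsd_one, pd_one, one_pos⟩⟩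

theorem NE_anch (Λ : Lat) (E : Finset (Pt × Pt)) : (NE Λ E).Anch := fun x _ =>
  ⟨rt E x, conn_rt E x, .inl (rt_notMem x)⟩

/-- subtract the height of the root -/
noncomputable def pj (Λ : Lat) (E : Finset (Pt × Pt)) : Cfg Pt →+ Cfg Pt :=
  ∑ x ∈ (NE Λ E).A, (Finsupp.singleAddHom x).comp (Md.evH x - Md.evH (rt E x))

theorem pj_apply (s : Cfg Pt) (y : Pt) :
    pj Λ E s y = if y ∈ (NE Λ E).A then s y - s (rt E y) else 0 := by
  rw [pj, AddMonoidHom.finsetSum_apply, Finsupp.finsetSum_apply]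
  simp only [AddMonoidHom.comp_apply, Finsupp.singleAddHom_apply, Finsupp.single_apply,
    AddMonoidHom.sub_apply, Md.evH_apply]
  exact sum_ite_eq' _ _ _

theorem pj_off (s : Cfg Pt) {y : Pt} (h : y ∉ (NE Λ E).A) : pj Λ E s y = 0 := by
  rw [pj_apply, if_neg h]

theorem pj_vx (s : Cfg Pt) {y : Pt} (h : y ∈ vx E) : pj Λ E s y = s y - s (rt E y) := by
  rw [pj_apply]
  split_ifs with h1
  · rfl
  · rw [not_not.1 fun h2 => h1 (mem_NE_A.2 ⟨h, h2⟩), sub_self]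

theorem dE_pj (s : Cfg Pt) {e : Pt × Pt} (h : e ∈ E) : dE e (pj Λ E s) = dE e s := by
  rw [dE, dE, pj_vx s (mem_vx.2 ⟨e, h, .inr rfl⟩), pj_vx s (mem_vx.2 ⟨e, h, .inl rfl⟩),
    rt_eq (E := E) (x := e.1) (y := e.2) (Relation.ReflTransGen.single (.inl h))]
  ring

theorem pj_self {s : Cfg Pt} (h : ∀ x, x ∉ (NE Λ E).A → s x = 0) : pj Λ E s = s := by
  ext y
  rw [pj_apply]
  split_ifs with h1
  · rw [h _ (rt_notMem y), sub_zero]
  · exact (h y h1).symm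

theorem fl_pj (ψ : Pt × Pt → ℝ) (s : Cfg Pt) : fl E ψ (pj Λ E s) = fl E ψ s := by
  rw [fl_apply, fl_apply]
  exact sum_congr rfl fun e he => by rw [dE_pj s he]

theorem dE_add' (e : Pt × Pt) (s t : Cfg Pt) : dE e (s + t) = dE e s + dE e t := by
  simp only [dE, Finsupp.add_apply]; ring

/-- gauge invariance -/
theorem zt_gauge {σ σ' : Pt × Pt → ℤ} {u : Cfg Pt} (ψ : Pt × Pt → ℝ)
    (h : ∀ e ∈ E, σ' e = σ e + dE e u) :
    zt (NE Λ E) σ' (fl E ψ) * Real.exp (fl E ψ u) = zt (NE Λ E) σ (fl E ψ) := by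
  rw [zt, zt, div_mul_eq_mul_div]
  congr 1
  rw [Zs, Zs, ← tsum_mul_right, ← (Equiv.addRight (pj Λ E u)).tsum_eq (tilt _ _)]
  refine tsum_congr fun s => ?_
  simp only [tilt, Equiv.coe_addRight, map_add, fl_pj, Real.exp_add, Mdl.Ws, NE_ed, NE_w, NE_site,
    prod_const_one, mul_one]
  rw [prod_congr rfl fun e he => by rw [h e he, ← dE_pj (Λ := Λ) u he, add_comm (σ e), ← add_assoc,
    ← dE_add'], mul_assoc]
  congr 2
  refine Md.ind_iff (forall₂_congr fun x hx => ?_)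
  rw [Finsupp.add_apply, pj_off u hx, add_zero]

theorem rat_gauge {σ σ' : Pt × Pt → ℤ} {u : Cfg Pt} (h : ∀ e ∈ E, σ' e = σ e + dE e u) :
    rat (NE Λ E) σ' = rat (NE Λ E) σ := by
  have := zt_gauge (Λ := Λ) (fun _ => 0) h
  simpa only [fl_zero, zt_zero, AddMonoidHom.zero_apply, Real.exp_zero, mul_one] using this

theorem zt_congr {m : Mdl Pt} {σ σ' : Pt × Pt → ℤ} (h : ∀ e ∈ m.ed, σ e = σ' e) (f : Cfg Pt →+ ℝ) :
    zt m σ f = zt m σ' f := by rw [zt, zt, Sl46.Ws_congr m 0 h]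

theorem rat_congr {m : Mdl Pt} {σ σ' : Pt × Pt → ℤ} (h : ∀ e ∈ m.ed, σ e = σ' e) :
    rat m σ = rat m σ' := by rw [rat, rat, Sl46.Ws_congr m 0 h]

theorem sh_inj (t : Pt) : Function.Injective (sh t) := fun e e' h => by
  simp only [sh, Prod.mk.injEq, add_left_inj] at h
  exact Prod.ext h.1 h.2

theorem conn_sh {t x y : Pt} (h : Conn E x y) : Conn (E.image (sh t)) (x + t) (y + t) := by
  induction h with
  | refl => exact Relation.ReflTransGen.refl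
  | tail _ h ih =>
    exact ih.tail (h.imp (fun h => mem_image.2 ⟨_, h, rfl⟩) fun h => mem_image.2 ⟨_, h, rfl⟩)

theorem image_sh_neg (t : Pt) (E : Finset (Pt × Pt)) : (E.image (sh t)).image (sh (-t)) = E := by
  rw [image_image]
  exact (image_congr fun e _ => by simp [sh]).trans image_id

theorem lex_add {x y t : Pt} : toLex (x + t) < toLex (y + t) ↔ toLex x < toLex y := by
  simp only [Prod.Lex.toLex_lt_toLex, Prod.fst_add, Prod.snd_add]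
  omega

theorem mem_A_sh_of {t x : Pt} (h : x ∈ (NE Λ E).A) : x + t ∈ (NE Λ (E.image (sh t))).A := by
  simp only [NE, mem_filter] at h ⊢
  obtain ⟨h1, y, h2, h3⟩ := h
  obtain ⟨e, he, h1⟩ := mem_vx.1 h1
  exact ⟨mem_vx.2 ⟨sh t e, mem_image_of_mem _ he, h1.imp (fun h => by rw [← h]; rfl)
    fun h => by rw [← h]; rfl⟩, y + t, conn_sh h2, lex_add.2 h3⟩

theorem mem_A_sh {t x : Pt} : x + t ∈ (NE Λ (E.image (sh t))).A ↔ x ∈ (NE Λ E).A :=
  ⟨fun h => by simpa only [image_sh_neg, add_neg_cancel_right] using mem_A_sh_of (t := -t) h,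
    mem_A_sh_of⟩

theorem dE_sh (t : Pt) (e : Pt × Pt) (s : Cfg Pt) :
    dE (sh t e) (mapH (Equiv.addRight t) s) = dE e s := by
  simp [dE, sh]

theorem Ws_sh (t : Pt) (σ : Pt × Pt → ℤ) (s : Cfg Pt) :
    (NE Λ (E.image (sh t))).Ws 0 σ (mapH (Equiv.addRight t) s) =
      (NE Λ E).Ws 0 (fun e => σ (sh t e)) s := by
  simp only [Mdl.Ws, NE_ed, NE_w, NE_site, prod_const_one, mul_one]
  rw [prod_image fun e _ e' _ h => sh_inj t h]
  simp only [dE_sh]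
  congr 1
  refine Md.ind_iff ⟨fun h x hx => ?_, fun h x hx => ?_⟩
  · simpa using h (x + t) fun h' => hx (mem_A_sh.1 h')
  · have := h (x - t) fun h' => hx (by simpa using mem_A_sh_of (t := t) h')
    simpa [sub_eq_add_neg] using this

theorem fl_sh (t : Pt) (ψ : Pt × Pt → ℝ) (s : Cfg Pt) :
    fl (E.image (sh t)) ψ (mapH (Equiv.addRight t) s) = fl E (fun e => ψ (sh t e)) s := by
  rw [fl_apply, fl_apply, sum_image fun e _ e' _ h => sh_inj t h]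
  simp only [dE_sh]

theorem Zs_sh (t : Pt) (σ : Pt × Pt → ℤ) (ψ : Pt × Pt → ℝ) :
    Zs (tilt ((NE Λ (E.image (sh t))).Ws 0 σ) (fl (E.image (sh t)) ψ)) =
      Zs (tilt ((NE Λ E).Ws 0 fun e => σ (sh t e)) (fl E fun e => ψ (sh t e))) := by
  rw [Zs, Zs, ← (Finsupp.domCongr (M := ℤ) (Equiv.addRight t)).toEquiv.tsum_eq]
  refine tsum_congr fun s => ?_
  rw [tilt, tilt, ← Ws_sh, ← fl_sh]
  rfl

theorem tilt_zero' (W : Cfg Pt → ℝ) : tilt W 0 = W := funext fun s => by simp [tilt]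

/-- translation invariance -/
theorem zt_sh (t : Pt) (σ : Pt × Pt → ℤ) (ψ : Pt × Pt → ℝ) :
    zt (NE Λ (E.image (sh t))) σ (fl (E.image (sh t)) ψ) =
      zt (NE Λ E) (fun e => σ (sh t e)) (fl E fun e => ψ (sh t e)) := by
  have h := Zs_sh (Λ := Λ) (E := E) t 0 fun _ => 0
  simp only [fl_zero, tilt_zero'] at h
  rw [zt, zt, Zs_sh, Mdl.W_eq_Ws, Mdl.W_eq_Ws, h]
  rfl

theorem rat_sh (t : Pt) (σ : Pt × Pt → ℤ) :
    rat (NE Λ (E.image (sh t))) σ = rat (NE Λ E) fun e => σ (sh t e) := by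
  simpa only [fl_zero, zt_zero] using zt_sh (Λ := Λ) (E := E) t σ fun _ => 0

/-- a connected edge set: the root is the least point -/
theorem NE_eq_blk {B : Finset Pt} {r : Pt} (hE : ∀ e ∈ E, e.1 ∈ B ∧ e.2 ∈ B)
    (hc : ∀ x ∈ B, Conn E x r) (hr : ∀ x ∈ B, toLex r ≤ toLex x) : (NE Λ E).A = B.erase r := by
  have h1 : vx E ⊆ B := fun x hx => by
    obtain ⟨e, he, rfl | rfl⟩ := mem_vx.1 hx
    exacts [(hE e he).1, (hE e he).2]
  have h2 : ∀ x ∈ B, rt E x = r := fun x hx => toLex.injective (le_antisymm (rt_le (hc x hx))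
    (hr _ ((conn_vx (conn_rt E x)).elim (fun h => by rwa [h]) (@h1 _))))
  ext x
  rw [mem_NE_A, mem_erase]
  refine ⟨fun h => ⟨fun h' => h.2 ((h2 x (h1 h.1)).trans h'.symm), h1 h.1⟩, fun h => ⟨?_, ?_⟩⟩
  · exact (conn_vx (hc x h.2).symm).resolve_left h.1
  · rw [h2 x h.2]; exact h.1.symm

theorem NE_sq (h : Λ.Ok) (a : Pt) {l : ℕ} (hl : 1 ≤ l) :
    NE Λ (Λ.edI (sq a l)) = Λ.Nr (sq a l) a := by
  have h1 := NE_eq_blk (Λ := Λ) (E := Λ.edI (sq a l)) (B := sq a l) (r := a)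
    (fun e he => (Lat.mem_edI.1 he).2) (fun x hx => h.conn_sq hx (self_mem_sq a hl)) fun x hx => by
      rw [mem_sq] at hx
      rw [Prod.Lex.toLex_le_toLex]
      omega
  show Mdl.mk (NE Λ _).A _ _ _ = _
  rw [h1]
  rfl

section ctr
variable {m : Mdl Pt}

theorem Z0_pos (hm : m.Ctr) (hA : m.Anch) : 0 < Zs (m.W 0) := (hm.cen hA).wt.pos

theorem zt_pos (hm : m.Ctr) (hA : m.Anch) (σ : Pt × Pt → ℤ) (f : Cfg Pt →+ ℝ) : 0 < zt m σ f :=
  div_pos ((Md.ctr_wts hm hA 0 σ).tilt (Md.ctr_ses hm hA 0 σ) f).pos (Z0_pos hm hA)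

theorem rat_pos (hm : m.Ctr) (hA : m.Anch) (σ : Pt × Pt → ℤ) : 0 < rat m σ :=
  zt_zero m σ ▸ zt_pos hm hA σ 0

theorem rat_neg (hm : m.Ctr) (σ : Pt × Pt → ℤ) : rat m (fun e => -σ e) = rat m σ := by
  rw [rat, rat, Zs, Zs, ← (Equiv.neg (Cfg Pt)).tsum_eq]
  congr 1
  exact tsum_congr fun s => (Md.ctr_rsd_seam hm).even (s, σ)

/-- L1.1 -/
theorem zt_cut (h : Λ.Ok) (hm : m.Ctr) (hA : m.Anch) (hE : E ⊆ m.ed) (hw : ∀ e ∈ E, m.w e = Λ.w)
    (σ : Pt × Pt → ℤ) (ψ : Pt × Pt → ℝ) : zt m σ (fl E ψ) ≤ zt (NE Λ E) σ (fl E ψ) := by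
  have h1 := Sl46.cut_proj hm hA (NE_anch Λ E) (pj Λ E) hE (fun e he => (hw e he).symm)
    (fun _ _ _ => rfl) (fun s _ => ⟨fun x hx => pj_off s hx, fun e he => dE_pj s he⟩) σ (fl E ψ)
  rw [show (fl E ψ).comp (pj Λ E) = fl E ψ from AddMonoidHom.ext (fl_pj ψ)] at h1
  rw [zt, zt, div_le_div_iff₀ (Z0_pos hm hA) (Z0_pos (NE_ctr h E) (NE_anch Λ E))]
  exact h1

theorem rat_cut (h : Λ.Ok) (hm : m.Ctr) (hA : m.Anch) (hE : E ⊆ m.ed) (hw : ∀ e ∈ E, m.w e = Λ.w)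
    (σ : Pt × Pt → ℤ) : rat m σ ≤ rat (NE Λ E) σ := by
  simpa only [fl_zero, zt_zero] using zt_cut h hm hA hE hw σ fun _ => 0

theorem rat_mono (h : Λ.Ok) {E' : Finset (Pt × Pt)} (hE : E ⊆ E') (σ : Pt × Pt → ℤ) :
    rat (NE Λ E') σ ≤ rat (NE Λ E) σ :=
  rat_cut h (NE_ctr h E') (NE_anch Λ E') hE (fun _ _ => rfl) σ

theorem rat_of_zero (hm : m.Ctr) (hA : m.Anch) {σ : Pt × Pt → ℤ} (h : ∀ e ∈ m.ed, σ e = 0) :
    rat m σ = 1 := by
  rw [rat, Sl46.Ws_eq_W m 0 h, div_self (Z0_pos hm hA).ne']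

theorem rat_le_one (hm : m.Ctr) (hA : m.Anch) (σ : Pt × Pt → ℤ) : rat m σ ≤ 1 :=
  (rat_cut (E := ∅) Pot.nL_ok hm hA (empty_subset _) (by simp) σ).trans_eq
    (rat_of_zero (NE_ctr Pot.nL_ok _) (NE_anch _ _) (by simp))

/-- BARE with a seam, general kernels -/
theorem bare_seam (hm : m.Ctr) (hA : m.Anch) (σ : Pt × Pt → ℤ) (ψ : Pt × Pt → ℝ) :
    zt m σ (fl m.ed ψ) * Real.exp (∑ e ∈ m.ed, ψ e * σ e) ≤
      ∏ e ∈ m.ed, Ex (m.w e) fun k => Real.exp (ψ e * k) := by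
  classical
  have hk : ∀ e : m.ed, Cen (m.w e) := fun e => (Md.fm_ker hm.1 e.2).cen
  let π : Cfg Pt →+ (m.ed → ℤ) := AddMonoidHom.pi fun e => Md.dH e.1
  have hπ : ∀ s (e : m.ed), π s e = dE e s := fun _ _ => rfl
  let f : (m.ed → ℤ) →+ ℝ :=
    ∑ e : m.ed, (Md.zH (ψ e)).comp (Pi.evalAddMonoidHom (fun _ : m.ed => ℤ) e)
  have hf : ∀ k, f k = ∑ e : m.ed, ψ e * k e := fun k => by
    simp only [f, AddMonoidHom.finsetSum_apply]; rfl
  have hfπ : f.comp π = fl m.ed ψ := AddMonoidHom.ext fun s => by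
    rw [AddMonoidHom.comp_apply, hf, fl_apply, ← sum_coe_sort m.ed]; rfl
  have hs1 : ∀ e : m.ed, HasSum (fun k : ℤ => m.w e (k + σ e) * Real.exp (ψ e * k))
      ((∑' k : ℤ, m.w e k * Real.exp (ψ e * k)) * Real.exp (-(ψ e * σ e))) := fun e => by
    have h1 := ((hk e).se (Md.zH (ψ e))).hasSum.mul_right (Real.exp (-(ψ e * σ e)))
    rw [← (Equiv.addRight (σ e)).hasSum_iff] at h1
    refine HasSum.congr_fun h1 fun k => ?_
    simp only [Function.comp, Equiv.coe_addRight, Md.zH_apply, mul_assoc, ← Real.exp_add]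
    congr 2; push_cast; ring
  have e1 := Cut7.hasSum_pi fun e : m.ed => (hs1 e).summable
  have e0 := Cut7.hasSum_pi fun e : m.ed => (hk e).wt.summ
  have t1 : tilt (fun k : m.ed → ℤ => ∏ e : m.ed, m.w e (k e + σ e)) f =
      fun k => ∏ e : m.ed, m.w e (k e + σ e) * Real.exp (ψ e * k e) := funext fun k => by
    rw [tilt, hf, Real.exp_sum, prod_mul_distrib]
  have h := Sl46.cut_gen π (ρ := fun (q : Pt × Pt → ℤ) k => ∏ e : m.ed, m.w e (k e + q e))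
    (H := fun _ s => ind (∀ x, x ∉ m.A → s x = 0) * ∏ x ∈ m.A, m.site x (s x)) (W := m.Ws 0)
    (Md.rsd_prod fun e _ => Md.rsd_comp (hk e).toRSD
      ((Pi.evalAddMonoidHom (fun _ : m.ed => ℤ) e).comp (AddMonoidHom.fst _ _) +
        (Pi.evalAddMonoidHom (fun _ : Pt × Pt => ℤ) e.1).comp (AddMonoidHom.snd _ _)))
    (((Cut7.pd_off pdStmt m.A).mul (PD.prod fun x hx => (hm.2 x hx).2.1.comp (Md.evH x))).comp
      (AddMonoidHom.fst (Cfg Pt) (Pt × Pt → ℤ)))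
    (fun q s _ => (prod_pos fun e _ => Md.fm_pos hm.1 e.2 _).ne')
    (fun q s => by
      simp only [hπ]
      rw [prod_coe_sort m.ed fun e => m.w e (dE e s + q e), Mdl.Ws, mul_right_comm]; rfl)
    (fun q => (Md.ctr_ses hm hA 0 q).summable) σ f (by simpa using e0.summable)
    (by rw [t1]; exact e1.summable) (Md.ctr_ses hm hA 0 σ _)
  rw [hfπ, t1, ← Mdl.W_eq_Ws] at h
  simp only [Pi.zero_apply, add_zero] at h
  rw [Zs.eq_def fun k : m.ed → ℤ => ∏ e : m.ed, m.w e (k e), e0.tsum_eq, Zs.eq_def fun k : m.ed → ℤ =>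
    ∏ e : m.ed, m.w e (k e + σ e) * Real.exp (ψ e * k e), e1.tsum_eq] at h
  simp only [fun e => (hs1 e).tsum_eq] at h
  have hp : 0 < ∏ e : m.ed, ∑' k, m.w e k := prod_pos fun e _ => (hk e).wt.pos
  rw [prod_mul_distrib, ← Real.exp_sum, sum_neg_distrib, Real.exp_neg] at h
  rw [← prod_coe_sort m.ed, ← sum_coe_sort m.ed, zt, div_mul_eq_mul_div, div_le_iff₀ (Z0_pos hm hA)]
  simp only [Ex, prod_div_distrib]
  rw [div_mul_eq_mul_div, le_div_iff₀ hp]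
  have h2 := mul_le_mul_of_nonneg_right h (Real.exp_pos (∑ e : m.ed, ψ e * σ e)).le
  calc _ = _ := mul_right_comm _ _ _
    _ ≤ _ := h2
    _ = _ := by field_simp

end ctr

section prod
variable {ι : Type} {J : Finset ι} {F : ι → Finset (Pt × Pt)}

theorem conn_biUnion (hd : ∀ i ∈ J, ∀ j ∈ J, i ≠ j → Disjoint (vx (F i)) (vx (F j))) {i : ι}
    (hi : i ∈ J) {x y : Pt} (hx : x ∈ vx (F i)) (h : Conn (J.biUnion F) x y) : Conn (F i) x y := by
  induction h with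
  | refl => exact Relation.ReflTransGen.refl
  | @tail u v _ h ih =>
    have hu : u ∈ vx (F i) := (conn_vx ih).elim (fun h => h ▸ hx) id
    refine ih.tail (h.imp (fun h => ?_) fun h => ?_)
    all_goals
      obtain ⟨j, hj, h⟩ := mem_biUnion.1 h
      by_cases hij : i = j
      · exact hij ▸ h
      · exact absurd (mem_vx.2 ⟨_, h, by simp⟩) (disjoint_left.1 (hd i hi j hj hij) hu)

theorem NE_A_biUnion (hd : ∀ i ∈ J, ∀ j ∈ J, i ≠ j → Disjoint (vx (F i)) (vx (F j))) :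
    (NE Λ (J.biUnion F)).A = J.biUnion fun i => (NE Λ (F i)).A := by
  ext x
  simp only [NE, mem_filter, mem_biUnion]
  constructor
  · rintro ⟨h1, y, h2, h3⟩
    obtain ⟨e, he, h1⟩ := mem_vx.1 h1
    obtain ⟨i, hi, he⟩ := mem_biUnion.1 he
    exact ⟨i, hi, mem_vx.2 ⟨e, he, h1⟩, y, conn_biUnion hd hi (mem_vx.2 ⟨e, he, h1⟩) h2, h3⟩
  · rintro ⟨i, hi, h1, y, h2, h3⟩
    obtain ⟨e, he, h1⟩ := mem_vx.1 h1
    exact ⟨mem_vx.2 ⟨e, mem_biUnion.2 ⟨i, hi, he⟩, h1⟩, y,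
      h2.mono (subset_biUnion_of_mem F hi), h3⟩

theorem Zs_prod_NE (h : Λ.Ok) (hd : ∀ i ∈ J, ∀ j ∈ J, i ≠ j → Disjoint (vx (F i)) (vx (F j)))
    (σ : Pt × Pt → ℤ) (ψ : Pt × Pt → ℝ) :
    Zs (tilt ((NE Λ (J.biUnion F)).Ws 0 σ) (fl (J.biUnion F) ψ)) =
      ∏ i ∈ J, Zs (tilt ((NE Λ (F i)).Ws 0 σ) (fl (F i) ψ)) := by
  let m : Mdl Pt := ⟨∅, ∅, fun e k => Λ.w (k + σ e) * Real.exp (ψ e * k), fun _ _ => 1⟩
  have key : ∀ E : Finset (Pt × Pt),
      tilt ((NE Λ E).Ws 0 σ) (fl E ψ) = (Cut7.sb m (NE Λ E).A E).W 0 := fun E => funext fun s => by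
    simp only [tilt, fl_apply, Real.exp_sum, Mdl.Ws, Mdl.W, Mdl.keep, Mdl.free, m, NE_ed, NE_w,
      NE_site, prod_mul_distrib]
    ring
  have hI : Cut7.Ind J (fun i => (NE Λ (F i)).A) F := Cut7.Ind.of_blocks hd
    (fun _ _ => NE_A_subset) fun i _ e he => ⟨mem_vx.2 ⟨e, he, .inl rfl⟩, mem_vx.2 ⟨e, he, .inr rfl⟩⟩
  simp only [key]
  rw [NE_A_biUnion hd]
  exact (Cut7.prod_Zs m 0 hI fun i _ => by
    rw [← key]; exact Md.ctr_ses (NE_ctr h _) (NE_anch _ _) 0 σ _).2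

theorem zt_prod (h : Λ.Ok) (hd : ∀ i ∈ J, ∀ j ∈ J, i ≠ j → Disjoint (vx (F i)) (vx (F j)))
    (σ : Pt × Pt → ℤ) (ψ : Pt × Pt → ℝ) :
    zt (NE Λ (J.biUnion F)) σ (fl (J.biUnion F) ψ) = ∏ i ∈ J, zt (NE Λ (F i)) σ (fl (F i) ψ) := by
  have h0 := Zs_prod_NE h hd 0 fun _ => 0
  simp only [fl_zero, tilt_zero', ← Mdl.W_eq_Ws] at h0
  simp only [zt]
  rw [Zs_prod_NE h hd, h0, prod_div_distrib]

theorem rat_prod (h : Λ.Ok) (hd : ∀ i ∈ J, ∀ j ∈ J, i ≠ j → Disjoint (vx (F i)) (vx (F j)))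
    (σ : Pt × Pt → ℤ) : rat (NE Λ (J.biUnion F)) σ = ∏ i ∈ J, rat (NE Λ (F i)) σ := by
  simpa only [fl_zero, zt_zero] using zt_prod h hd σ fun _ => 0

theorem rat_union (h : Λ.Ok) {E₁ E₂ : Finset (Pt × Pt)} (hd : Disjoint (vx E₁) (vx E₂))
    (σ : Pt × Pt → ℤ) : rat (NE Λ (E₁ ∪ E₂)) σ = rat (NE Λ E₁) σ * rat (NE Λ E₂) σ := by
  have h1 := rat_prod (J := univ) (F := fun b : Bool => if b then E₁ else E₂) h
    (by rintro (_ | _) - (_ | _) - hne <;> simp_all [hd.symm]) σ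
  rw [show (univ : Finset Bool).biUnion (fun b => if b then E₁ else E₂) = E₁ ∪ E₂ by
    ext e; simp] at h1
  simpa using h1

end prod

theorem neStmt : NeStmt := fun Λ h =>
  ⟨fun E => ⟨⟨NE_ctr h E, NE_anch Λ E⟩,
    ⟨pj Λ E, fun s => ⟨fun _ => pj_off s, fun _ => dE_pj s, pj_self⟩⟩,
    fun _ _ _ ψ h => zt_gauge ψ h, zt_sh⟩, fun a _ hl => NE_sq h a (by omega),
    fun _ hm hA σ => ⟨zt_pos hm hA σ, rat_pos hm hA σ, rat_le_one hm hA σ, rat_neg hm σ⟩⟩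

theorem prodStmt : ProdStmt := fun _ h _ _ _ hd => zt_prod h hd

theorem cutSStmt : CutSStmt := fun _ h _ _ hm hA hE hw => zt_cut h hm hA hE hw

theorem bareSStmt : BareSStmt := fun b m hb hm hA hw σ ψ => by
  refine (bare_seam hm hA σ ψ).trans_eq ?_
  rw [Real.exp_sum]
  refine prod_congr rfl fun e he => ?_
  have hc := (besStmt b hb).1.cen
  rw [hw e he, ← Sl46.log_ex_bes hb]
  exact (Real.exp_log (hc.wt.ex_exp_pos hc.se (Md.zH (ψ e)))).symm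

end Crest.Agent.T145.Vd
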