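import Crest.Agent.T145.EsC_28
import Crest.Agent.T145.KsDef_68
import Crest.Agent.T145.NcGeo_51
import Crest.Agent.T145.VdNe_27

/-!
# Row 145: (H) in the words of the module KSTEP (helper28)
-/

set_option autoImplicit false

namespace Crest.Agent.T145.Es28

open Finset Ks68

theorem zN_eq (Λ : Lat) {U : Finset Pt} {x : Pt} (hx : x ∈ U) (σ : Pt × Pt → ℤ) :
    zN Λ U σ = Vd.rat (Λ.Nr U x) σ := by
  have h := Nc.Geo.inL_N (Λ := Λ) (Subset.refl U)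
  rw [zN, zr_root hx, zr, h.pn_W, h.pn_Ws, sdiff_singleton_eq_erase]
  rfl

/-- the ambient ratio is at most the ratio of the free model on a connected set -/
theorem rat_le_zN {Λ : Lat} (h : Λ.Ok) {m : Mdl Pt} (hc : m.Ctr) (ha : m.Anch) {U : Finset Pt}
    (hU : Nc.Geo.CnL Λ U) (hn : U.Nonempty) (hE : Λ.edI U ⊆ m.ed) (hw : ∀ e ∈ Λ.edI U, m.w e = Λ.w)
    (σ : Pt × Pt → ℤ) : Vd.rat m σ ≤ zN Λ U σ := by
  obtain ⟨x, hx⟩ := hn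
  rw [zN_eq Λ hx]
  exact rat_le_Nr hc ha (Lat.anch_Nr fun y hy => hU y hy x hx) hE hw h σ

/-- (H) for `T (c, R)` and `u (R)` -/
def HKStmt : Prop := ∀ (F : Fa) (θ₀ : ℝ), 0 < θ₀ → ∃ (C : ℕ) (δ : ℝ), 0 < δ ∧ ∀ Λ, F.Mem Λ →
  Λ.J = nn → ∀ l : ℕ, ∃ c : ℝ, 0 < c ∧ ∀ L, Λ.Win θ₀ δ l L → ∀ (z : Pt) (R : ℕ), R < 16 * L →
    (∀ ρ : ℕ, (l : ℝ) ≤ δ * ρ → ρ < R →
      ((ρ : ℝ) / (2 * (R + 1))) ^ C ≤ zN Λ (Nc.an z ρ R) (Vd.ray z)) ∧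
    c / ((R : ℝ) + 2) ^ C ≤ zN Λ (bl z R) (Vd.ray z)

theorem hKStmt_of (hA : HAnStmt) (hB : HBallStmt) : HKStmt := fun F θ₀ h0 => by
  obtain ⟨C₁, δ₁, p1, H1⟩ := hA F θ₀ h0
  obtain ⟨C₂, δ₂, p2, H2⟩ := hB F θ₀ h0
  refine ⟨max C₁ C₂, min δ₁ δ₂, lt_min p1 p2, fun Λ hΛ hJ l => ?_⟩
  obtain ⟨c, c0, H2⟩ := H2 Λ hΛ hJ l
  have h := hΛ.ok
  refine ⟨c, c0, fun L hw z R hR => ⟨fun ρ hl hρ => ?_, ?_⟩⟩
  · have k := (H1 Λ hΛ hJ l L (hw.mono le_rfl (min_le_left _ _)) ρ R (hl.trans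
      (mul_le_mul_of_nonneg_right (min_le_left _ _) (Nat.cast_nonneg _))) hρ.le hR z).1
    refine le_trans (pow_le_pow_of_le_one (by positivity) ?_ (le_max_left _ _)) (k.trans
      (rat_le_zN h (Vd.NE_ctr h _) (Vd.NE_anch Λ _) (Nc.Geo.cnL_an h z hρ)
        ⟨(z.1 + R, z.2), by simp only [Nc.an, mem_sdiff, mem_bl]; omega⟩ subset_rfl (fun _ _ => rfl) _))
    have : (ρ : ℝ) ≤ R := by exact_mod_cast hρ.le
    rw [div_le_one (by positivity)]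
    linarith [(by positivity : (0 : ℝ) ≤ R)]
  · rw [zN_eq Λ (self_mem_bl z R)]
    refine le_trans (div_le_div_of_nonneg_left c0.le (by positivity)
      (pow_le_pow_right₀ (by linarith [(by positivity : (0 : ℝ) ≤ R)]) (le_max_right _ _)))
      ((H2 L (hw.mono le_rfl (min_le_right _ _)) z R hR).2 z (self_mem_bl z R))

theorem hKStmt (hG : GffDStmt) (hm : T1mStmt) : HKStmt := hKStmt_of (hAnStmt hG hm) (hBallStmt hG hm)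

end Crest.Agent.T145.Es28
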