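import Crest.Agent.T145.NcDef_78
import Crest.Agent.T145.GffDef_8

/-!
# Row 145: soft T4 (no crossing of large annuli), good scales, polynomial rate (helper78)

Definitions and target Props.  Outputs for the other modules: `T4cStmt`, `T4Stmt`, `GdStmt`, `RateStmt`,
`PDecStmt`.
-/

set_option autoImplicit false

namespace Crest.Agent.T145.Nc

open Finset

section gen
variable {V : Type*} [DecidableEq V]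

/-- probability that `S` is joined to `K` in the free model on `U`, bonds at the level `round (φ, s)` -/
noncomputable def crP (m : Mdl V) (U : Finset V) (φ : V → ℝ) (S K : Finset V) : ℝ :=
  Pr (fun q => ind (round (pr φ q.1) = 0) * (pn m U ∅).J 0 0 q) fun q => Cross S K q.2

/-- a probability vector on `U` -/
def Pv (U : Finset V) (f : V → ℝ) : Prop := (∀ x, 0 ≤ f x) ∧ Sup U f ∧ ∑ x ∈ U, f x = 1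

end gen

/-- a probability vector spread at scale `a` around the origin -/
def Blob (f : Pt → ℝ) (K : ℝ) (a : ℕ) : Prop :=
  Pv (an 0 (4 * a) (16 * a)) f ∧ ∀ x, f x ≤ K / (a : ℝ) ^ 2

/-- the gradients of `u` along the edges of `Λ` vanish off `D` -/
def Gin (Λ : Lat) (u : Pt → ℝ) (D : Finset Pt) : Prop :=
  ∀ x y : Pt, y - x ∈ Λ.Jp → u x ≠ u y → x ∈ D ∧ y ∈ D

/-- PERS: nearly uncorrelated, nearly Gaussian variables are not all above `-1/10` -/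
def PersStmt : Prop := ∀ (L : Type) [AddCommGroup L] [IsAddTorsionFree L] (W : L → ℝ) (n : ℕ)
  (X : ℕ → L →+ ℝ) (η : ℝ), Cen W → 1 ≤ n → 0 ≤ η → η ≤ 1 / 10 →
    (∀ i < n, 1 - η ≤ Vr W (X i) (X i) ∧ M W (X i + X i) ≤ 3) →
    (∀ i < n, ∀ j < n, i ≠ j → M W (X i + X j) ≤ 1 + η) →
    Pr W (fun s => ∀ i < n, -(1 / 10) ≤ X i s) ≤ 100 * (1 / n + η)

/-- KEY: the rest model after a cluster `C` with nonnegative heights has been explored -/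
def KeyStmt : Prop := ∀ (V : Type) [DecidableEq V] [Countable V] (m : Mdl V) (C : Finset V) (s : Cfg V)
  (φ p : V → ℝ) (D : Finset (V × V) → Prop) (B t : ℝ), m.Ctr → (m.free (m.A \ C)).Anch →
    (∀ e ∈ m.ed, e.1 ∈ m.A ∧ e.2 ∈ m.A) → (∀ x, x ∉ m.A \ C → 0 ≤ s x) → (∀ x, 0 ≤ φ x) →
    (∀ x, 0 ≤ p x) → (∀ ω ω', ω ⊆ ω' → D ω' → D ω) →
    M ((m.free (m.A \ C)).W 0) (pr φ) ≤ B → M ((m.free (m.A \ C)).W 0) (pr (φ + p)) ≤ B →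
    Ex ((m.rest 0 C s).J 0 s)
        (fun q => ind (D q.2) * ind (|pr φ q.1| ≤ 1 / 2 ∧ pr (p - φ) q.1 < -t)) ≤
      2 * Real.exp (2 * B + 1 - t) *
        Ex ((m.rest 0 C s).J 0 s) fun q => ind (D q.2) * Real.exp (-|pr φ q.1|)

/-- CROSS: a crossing forces persistence -/
def CrossStmt : Prop := ∀ (V : Type) [DecidableEq V] [Countable V] (m : Mdl V) (U K S : Finset V)
  (n : ℕ) (φ : V → ℝ) (p : ℕ → V → ℝ) (B t : ℝ), m.Fm → Cn m U → K ⊆ U → S ⊆ U → Disjoint K S →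
    Pv U φ → (∀ i < n, Pv U (p i)) →
    (∀ C ⊆ U, ∀ x ∈ K, ∀ y ∈ S, x ∈ C → Conn (inn C m.ed) x y →
      M ((pn m U C).W 0) (pr φ) ≤ B ∧ ∀ i < n, M ((pn m U C).W 0) (pr (φ + p i)) ≤ B) →
    crP m U φ S K ≤ 2 * Pr (rW m U) (fun s => ∀ i < n, -t ≤ pr (p i - φ) s) +
      16 * n * Real.exp (2 * B + 1 - t)

/-- ROUTE: a bounded density is routed to a crossing set inside the annulus; crude routing in a connected graph -/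
def RouteStmt : Prop :=
  (∀ F : Fa, ∃ C : ℝ, ∀ Λ, F.Mem Λ → ∀ (a : ℕ) (Z A : Finset Pt) (x y : Pt) (f : Pt → ℝ) (K : ℝ),
    Λ.rg ≤ a → x ∈ Z → x ∈ bl 0 a → y ∉ bl 0 (4 * a) → Conn (Λ.edI Z) x y → Disjoint A Z →
    Sup (an 0 (4 * a) (16 * a)) f → (∀ z, |f z| ≤ K / (a : ℝ) ^ 2) →
      F2A (Λ.edI (an 0 a (32 * a))) A f (C * K ^ 2)) ∧
  ∀ (V : Type) (ed : Finset (V × V)) (U : Finset V) (f : V → ℝ), (∀ x ∈ U, ∀ y ∈ U, Conn ed x y) →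
    Sup U f → ∑ x ∈ U, f x = 0 → F2 ed f (ed.card * (∑ x ∈ U, |f x|) ^ 2)

/-- RAD: the radial profiles `g a x = G (|x|² / (8 a)²)`, `q a x = 4 ψ (|x|² / (8 a)²) / (8 a)²`,
`(t G')' = ψ` a bump on `[1, 2]`, `G = 0` on `t ≤ 1` -/
def RadStmt : Prop := ∀ F : Fa, ∃ (K c h : ℝ) (a₀ : ℕ) (g q : ℕ → Pt → ℝ), 0 < c ∧ 0 < h ∧
  ∀ a, a₀ ≤ a →
    (∀ x ∈ bl 0 (4 * a), g a x = 0) ∧ (∀ x ∈ bl 0 (16 * a), 0 ≤ g a x ∧ g a x ≤ K) ∧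
    (∀ a', 1 ≤ a' → a' ≤ a → ∀ x, 0 ≤ g a' x - g a x ∧ g a' x - g a x ≤ h * Real.log (a / a') ∧
      (x ∉ bl 0 (4 * a) → h * Real.log (a / a') - K ≤ g a' x - g a x) ∧
      (x ∉ bl 0 (16 * a) → g a' x - g a x = h * Real.log (a / a'))) ∧
    (∀ x, 0 ≤ q a x ∧ q a x ≤ K / (a : ℝ) ^ 2) ∧ Sup (an 0 (4 * a) (16 * a)) (q a) ∧
    c ≤ ∑ x ∈ an 0 (4 * a) (16 * a), q a x ∧ Sm2 (g a) K a ∧
    ∀ Λ, F.Mem Λ → ∀ x, |∑ y ∈ Λ.J, (g a (x + y) - g a x) - Λ.a * q a x| ≤ K / (a : ℝ) ^ 4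

/-- TEST: `n` logarithmic test functions with large energies and small correlations -/
def TestStmt : Prop := ∀ F : Fa, ∃ K : ℝ, 1 ≤ K ∧ ∀ (n : ℕ) (η T : ℝ), 0 < η →
  ∃ (W M₀ : ℕ) (K' : ℝ), 1 ≤ W ∧ ∀ Λ, F.Mem Λ → ∀ M, M₀ ≤ M →
    ∃ (φ : Pt → ℝ) (μ : ℝ) (a : ℕ → ℕ) (p u : ℕ → Pt → ℝ), Blob φ K M ∧ 0 ≤ μ ∧ μ ≤ K ∧
      (∀ i < n, M ≤ W * a i ∧ a i ≤ M ∧ Blob (p i) K (a i) ∧ Sm2 (u i) K' M ∧
        Gin Λ (u i) (an 0 (a i) (32 * M))) ∧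
      ∀ U : Finset Pt, (∀ i < n, an 0 (a i) (32 * M) ⊆ U) → ∀ i < n,
        ∑ x ∈ U, |Λ.Au U (u i) x - μ * (p i x - φ x)| ≤ η / M ∧ T ≤ Λ.En U (u i) (u i) ∧
        ∀ j < n, i ≠ j → Λ.En U (u i) (u j) ≤
          η * (Real.sqrt (Λ.En U (u i) (u i)) * Real.sqrt (Λ.En U (u j) (u j)))

/-- VAR: Gaussian bounds in the free model on a subset of the window -/
def VarStmt : Prop := Soft fun Λ K ε _ l L => ∀ (U : Finset Pt) (u : Pt → ℝ), U ⊆ bl 0 (L / 4) →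
  U.Nonempty → Cn (Λ.N U) U → Reg U K l L → Sm2 u K L → Gin Λ u U →
    Λ.tN l * Λ.En U u u - ε ≤ Vr (rW (Λ.N U) U) (pr (Λ.Au U u)) (pr (Λ.Au U u)) ∧
      M (rW (Λ.N U) U) (pr (Λ.Au U u)) ≤ Λ.tN l * Λ.En U u u / 2 + ε

/-- T4, crossing form: annuli, balls, any regular set between them -/
def T4cStmt : Prop := ∀ F : Fa, ∃ K' : ℝ, ∀ θ₀ K g : ℝ, 0 < θ₀ → 1 ≤ K → 0 < g →
  ∃ (W : ℕ) (δ : ℝ), 4 ≤ W ∧ 0 < δ ∧ ∀ Λ, F.Mem Λ → ∀ l M, Λ.Win θ₀ δ l (128 * M) →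
    ∃ φ, Blob φ K' M ∧ ∀ (ρ : ℕ) (U : Finset Pt), W * ρ ≤ M → an 0 ρ (32 * M) ⊆ U →
      U ⊆ bl 0 (32 * M) → Cn (Λ.N U) U → Reg U K l (128 * M) →
        crP (Λ.N U) U φ (an 0 (4 * M) (32 * M)) (U ∩ bl 0 (2 * ρ)) ≤ g

/-- T4: the cross ratio of a large annulus in a window -/
def T4Stmt : Prop := ∀ (F : Fa) (θ₀ g : ℝ), 0 < θ₀ → 0 < g → ∃ (W : ℕ) (δ : ℝ), 4 ≤ W ∧ 0 < δ ∧
  ∀ Λ, F.Mem Λ → ∀ l M, Λ.Win θ₀ δ l (128 * M) → ∀ ρ : ℕ, Λ.rg ≤ ρ → W * ρ ≤ M →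
    gam Λ ρ (32 * M) ≤ 1 + g

/-- every scale below a stiff scale lies near a window -/
def WinStmt : Prop := ∀ (F : Fa) (θ₀ δ : ℝ) (W : ℕ), 0 < θ₀ → 0 < δ → ∃ W' r₀ c : ℕ, 1 ≤ c ∧
  ∀ Λ, F.Mem Λ → ∀ L r : ℕ, θ₀ ≤ Λ.tN L → r₀ ≤ r → c * r ≤ L →
    ∃ l L', r ≤ l ∧ W * r ≤ L' ∧ L' ≤ W' * r ∧ Λ.Win (θ₀ / 2) δ l L'

/-- all scales below a stiff scale are good; the constants are absolute -/
def GdStmt : Prop := ∀ (F : Fa) (θ₀ g : ℝ), 0 < θ₀ → 0 < g → ∃ W r₀ c : ℕ, 1 ≤ c ∧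
  ∀ Λ, F.Mem Λ → (∀ L : ℕ, θ₀ ≤ Λ.tN L → Gd Λ g W r₀ (L / c)) ∧ (θ₀ ≤ Λ.tI → ∀ L, Gd Λ g W r₀ L)

/-- `L` is below a stiff scale -/
def Stf (Λ : Lat) (θ₀ : ℝ) (L : ℕ) : Prop := θ₀ ≤ Λ.tN L ∨ θ₀ ≤ Λ.tI

/-- RATE -/
def RateStmt : Prop := ∀ (F : Fa) (θ₀ : ℝ), 0 < θ₀ → ∃ (C : ℕ) (c : ℝ), 0 < c ∧ ∀ Λ, F.Mem Λ →
  ∀ L r R : ℕ, Stf Λ θ₀ L → 1 ≤ r → C * r ≤ R → C * R ≤ L → gam Λ r R ≤ 1 + C * ((r : ℝ) / R) ^ c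

/-- polynomial decay: flowed insertions, change of the ambient model, covariances -/
def PDecStmt : Prop := ∀ (F : Fa) (θ₀ : ℝ), 0 < θ₀ → ∃ (C : ℕ) (c : ℝ), 0 < c ∧ ∀ Λ, F.Mem Λ →
  ∀ (L r a R : ℕ) (z : Pt) (X : Cfg Pt → ℝ), Stf Λ θ₀ L → 1 ≤ r → C * r ≤ a → C * a ≤ R → C * R ≤ L →
    DepG (bl z r) X → In Λ z a X → ∀ m : Mdl Pt, Amb Λ m (bl z (R + Λ.rg)) →
      Ex (m.W 0) (fun s => |St Λ z R X s - Ex (m.W 0) X|) ≤ C * ((a : ℝ) / R) ^ c * Nm Λ z a X ∧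
      (∀ m' : Mdl Pt, Amb Λ m' (bl z (R + Λ.rg)) →
        |Ex (m.W 0) X - Ex (m'.W 0) X| ≤ C * ((a : ℝ) / R) ^ c * Nm Λ z a X) ∧
      (∀ R', R + Λ.rg ≤ R' →
        |Ex (m.W 0) X - EN Λ z R' X| ≤ C * ((a : ℝ) / R) ^ c * Nm Λ z a X ∧
        Nm Λ z R' (fun s => St Λ z R X s - Ex (m.W 0) X) ≤ C * ((a : ℝ) / R) ^ c * Nm Λ z a X) ∧
      ∀ (q : ℕ) (G : Cfg Pt → ℝ), C * a ≤ q → C * q ≤ R → Out (bl z R) G →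
        Ig ((hole m (bl z q)).W 0) G →
        |Cv (m.W 0) X G| ≤ C * ((a : ℝ) / q) ^ c * Nm Λ z a X *
          Ex ((hole m (bl z q)).W 0) fun s => |G s|

end Crest.Agent.T145.Nc
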