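import Crest.Agent.T145.KsD_68
import Crest.Agent.T145.EsK_28
import Crest.Agent.T145.NcT4Def_78
import Crest.Agent.T145.Soft_23

/-!
# Row 145 (helper68): `QmStmt` from MIX, (H) and the good scales
-/

set_option autoImplicit false

namespace Crest.Agent.T145.Ks68

open Finset Nc Nc.Geo Filter Topology

theorem one_le_mul_pow {A x y : ℝ} {k C : ℕ} (hA : 1 ≤ A) (hx : 0 ≤ x) (h : 1 ≤ A * x) (hk : k ≤ C)
    (hy : x ^ k ≤ y) : 1 ≤ A ^ C * y :=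
  calc (1 : ℝ) ≤ (A * x) ^ k := one_le_pow₀ h
    _ = A ^ k * x ^ k := mul_pow _ _ _
    _ ≤ _ := mul_le_mul (pow_le_pow_right₀ hA hk) hy (by positivity) (by positivity)

/-- a polynomial lower bound gives one good step -/
theorem pigeon {u : ℕ → ℝ} {M r C : ℕ} {c K : ℝ} (hc : 0 < c) (hM : 1 ≤ M) (h1 : u r ≤ 1)
    (hu : ∀ R : ℕ, c / ((R : ℝ) + 2) ^ C ≤ u R) (hK : (M : ℝ) ^ C ≤ K) :
    ∃ a, r ≤ a ∧ u a ≤ 3 * K * u (M * a) := by
  by_contra hn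
  push Not at hn
  have M1 : (1 : ℝ) ≤ M := by exact_mod_cast hM
  have K0 : 0 < K := lt_of_lt_of_le (by positivity) hK
  have k : ∀ j : ℕ, (3 * K) ^ j * u (M ^ j * r) ≤ 1 := fun j => by
    induction j with
    | zero => simpa using h1
    | succ j ih =>
      have := hn (M ^ j * r) (Nat.le_mul_of_pos_left _ (by positivity))
      rw [pow_succ, pow_succ' M, mul_assoc M, mul_assoc]
      exact (mul_le_mul_of_nonneg_left this.le (by positivity)).trans ih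
  obtain ⟨j, hj⟩ := pow_unbounded_of_one_lt (((r : ℝ) + 2) ^ C / c) (by norm_num : (1 : ℝ) < 3)
  have e := (mul_le_mul_of_nonneg_left (hu (M ^ j * r)) (by positivity)).trans (k j)
  rw [← mul_div_assoc, div_le_one (by positivity), mul_pow] at e
  have e2 : (((M ^ j * r : ℕ) : ℝ) + 2) ^ C ≤ K ^ j * ((r : ℝ) + 2) ^ C := by
    have : (1 : ℝ) ≤ (M : ℝ) ^ j := one_le_pow₀ M1
    calc _ ≤ ((M : ℝ) ^ j * ((r : ℝ) + 2)) ^ C := by
          refine pow_le_pow_left₀ (by positivity) ?_ C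
          push_cast; linarith
      _ = ((M : ℝ) ^ C) ^ j * ((r : ℝ) + 2) ^ C := by rw [mul_pow, ← pow_mul, ← pow_mul, mul_comm j]
      _ ≤ _ := by gcongr
  rw [div_lt_iff₀ hc] at hj
  nlinarith [e.trans e2, mul_lt_mul_of_pos_left hj (pow_pos K0 j)]

theorem env (hM : MixStmt) (hG : GdStmt) (hK : Es28.HKStmt) (h2 : Es28.HTwoStmt) (hm : T1mStmt)
    {Λ : Lat} (hΛ : Λ.Ok) (hJ : Λ.J = nn) (hg : 2 / Real.pi ≤ Λ.gI) :
    ∃ W₀ W M r₀ K η, Env Λ W₀ W M r₀ K η := by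
  have pi0 := Real.pi_pos
  have t0 : 0 < Λ.tI := hΛ.gI_pos_iff.1 (lt_of_lt_of_le (by positivity) hg)
  have mem := Lat.mem_fa hΛ
  obtain ⟨W₀, r₁, cc, -, G⟩ := hG (Λ.fa hΛ) _ 1 (half_pos t0) one_pos
  have G := (G Λ mem).2 (half_le_self t0.le)
  obtain ⟨C₁, δ₁, p1, H1⟩ := hK (Λ.fa hΛ) _ (half_pos t0)
  obtain ⟨C₂, δ₂, p2, H2⟩ := h2 (Λ.fa hΛ) _ (half_pos t0)
  obtain ⟨W₁, H3⟩ := hM (Λ.fa hΛ) _ (20 * max C₁ C₂ + 1) hJ (half_pos t0)
  obtain ⟨W, w1, w2, w3⟩ : ∃ W : ℕ, W₁ ≤ W ∧ W₀ ≤ W ∧ 1024 ≤ W :=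
    ⟨max ⌈W₁⌉₊ (max W₀ 1024), (Nat.le_ceil _).trans (by exact_mod_cast le_max_left _ _), by omega, by omega⟩
  have w4 : (1024 : ℝ) ≤ W := by exact_mod_cast w3
  have w5 : (W₀ : ℝ) ≤ W := by exact_mod_cast w2
  obtain ⟨δ₃, p3, H3⟩ := H3 W w1 (2 * W) (by linarith)
  have p : 0 < min δ₁ (min δ₂ δ₃) := by positivity
  have ev : ∀ᶠ l in atTop, 7 / 4 ≤ Real.pi * Λ.gN l := by
    have : Tendsto (fun l => Real.pi * Λ.gN l) atTop (𝓝 (Real.pi * Λ.gI)) :=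
      (((hm.1 Λ hΛ).1).div_const _).const_mul _
    refine this.eventually (eventually_ge_nhds ?_)
    rw [div_le_iff₀ pi0] at hg; linarith
  obtain ⟨l, hl, hw⟩ := (ev.and ((hm.1 Λ hΛ).2.2.2.2.2 t0 _ p)).exists
  obtain ⟨j₀, hw⟩ := eventually_atTop.1 hw
  obtain ⟨c₀, c0, H1⟩ := H1 Λ mem hJ l
  obtain ⟨r₀, q1, q2, q3, q4⟩ : ∃ r₀ : ℕ, r₁ ≤ r₀ ∧ 64 ≤ r₀ ∧ 2 ^ j₀ ≤ r₀ ∧
      (l : ℝ) ≤ min δ₁ (min δ₂ δ₃) * r₀ := by
    refine ⟨max (max r₁ 64) (2 ^ j₀), by omega, by omega, le_max_right _ _,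
      (hw j₀ le_rfl).sep.2.trans ?_⟩
    gcongr; exact le_max_right _ _
  have W2 := (G 0).1
  have big : ∀ R, R < 16 * 2 ^ (j₀ + R) := fun R => by
    have := Nat.lt_two_pow_self (n := j₀ + R); omega
  have ld : ∀ {c : ℕ} {δ : ℝ}, r₀ ≤ c → min δ₁ (min δ₂ δ₃) ≤ δ → (l : ℝ) ≤ δ * c := fun h h' =>
    q4.trans (mul_le_mul h' (by exact_mod_cast h) (Nat.cast_nonneg _) (p.le.trans h'))
  have d1 := min_le_left δ₁ (min δ₂ δ₃)
  have d2 := (min_le_right δ₁ _).trans (min_le_left δ₂ δ₃)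
  have d3 := (min_le_right δ₁ _).trans (min_le_right δ₂ δ₃)
  obtain ⟨M, eM⟩ : ∃ M, M = W₀ * (W * W₀) := ⟨_, rfl⟩
  have M2 : 2 ≤ M := by rw [eM]; exact W2.trans (Nat.le_mul_of_pos_right _ (by positivity))
  have M2' : (2 : ℝ) ≤ M := by exact_mod_cast M2
  have M3 : (M : ℝ) ≤ (W : ℝ) ^ 3 := by
    rw [eM]; push_cast
    calc _ ≤ (W : ℝ) * (W * W) := by gcongr
      _ = _ := by ring
  have A0 : (M : ℝ) ≤ 4 * (M : ℝ) ^ 3 := by nlinarith [mul_self_nonneg ((M : ℝ) - 1)]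
  have A1 : (1 : ℝ) ≤ 4 * (M : ℝ) ^ 3 := by linarith
  have K1 : (1 : ℝ) ≤ (4 * (M : ℝ) ^ 3) ^ max C₁ C₂ := one_le_pow₀ A1
  have r1 := hΛ.one_le_rg
  have r2 := (G 0).2.1
  refine ⟨W₀, W, M, r₀, (4 * (M : ℝ) ^ 3) ^ max C₁ C₂, 1 / (W : ℝ) ^ (20 * max C₁ C₂ + 1), hΛ, hJ, W2,
    by omega, eM, by omega, fun r hr => ((G r).2.2 r (by omega) le_rfl).trans_eq one_add_one_eq_two,
    fun c hc => ?_, by positivity, K1, ?_, fun c R hc hR => ?_, fun z n c m σ hc n1 n2 a hσ => ?_, ?_⟩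
  · have a1 : 2 * c ≤ W₀ * c := Nat.mul_le_mul_right _ W2
    have a2 : W₀ * c ≤ W * (W₀ * c) := Nat.le_mul_of_pos_left _ (by omega)
    have e : M * c = W₀ * (W * (W₀ * c)) := by rw [eM, mul_assoc, mul_assoc]
    have a3 : 2 * (W * (W₀ * c)) ≤ M * c := e ▸ Nat.mul_le_mul_right _ W2
    have a4 : M * c ≤ W * (W * (W₀ * c)) := e ▸ Nat.mul_le_mul_right _ w2
    have l1 : M * c ≤ 2 ^ Nat.clog 2 (M * c) := Nat.le_pow_clog one_lt_two _
    have l2 : 2 ^ Nat.clog 2 (M * c) ≤ 2 * (M * c) := by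
      have := Nat.pow_pred_clog_lt_self one_lt_two (by omega : 1 < M * c)
      have h := Nat.clog_pos one_lt_two (by omega : 1 < M * c)
      rw [← Nat.succ_pred_eq_of_pos h, pow_succ]; omega
    refine H3 Λ mem l _ ((hw _ ((Nat.pow_le_pow_iff_right one_lt_two).1 (q3.trans (by omega : r₀ ≤
      2 ^ Nat.clog 2 (M * c))))).mono_d d3) hl ⟨c, W₀ * c, W * (W₀ * c), M * c⟩
      ⟨w4, a1, by dsimp only; omega, by simp, ?_, a3⟩ ⟨by dsimp only; omega, ?_⟩ l1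
      (by exact_mod_cast Nat.mul_le_mul_right c w2) (by exact_mod_cast a4)
    · exact_mod_cast (by rw [mul_assoc 2]; omega : W * (W₀ * c) ≤ 2 * W * (W₀ * c))
    · exact_mod_cast (by rw [mul_assoc 2]; omega : 2 ^ Nat.clog 2 (M * c) ≤ 2 * W * (W * (W₀ * c)))
  · have b1 : 4 * (M : ℝ) ^ 3 ≤ (W : ℝ) ^ 10 :=
      calc _ ≤ (W : ℝ) * ((W : ℝ) ^ 3) ^ 3 := by gcongr; linarith
        _ = _ := by ring
    have b2 : (4 * (M : ℝ) ^ 3) ^ max C₁ C₂ ≤ ((W : ℝ) ^ 10) ^ max C₁ C₂ := by gcongr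
    have b3 : (W : ℝ) ^ (20 * max C₁ C₂ + 1) = W * (((W : ℝ) ^ 10) ^ max C₁ C₂) ^ 2 := by ring
    rw [b3, show ∀ x y : ℝ, 32 * (1 / x) * (3 * y) * (3 * y) = 288 * y ^ 2 / x from fun _ _ => by ring,
      div_le_one (by positivity)]
    gcongr; linarith
  · rcases le_or_gt R c with q | q
    · rwa [TT_of_le Λ q, mul_one]
    refine one_le_mul_pow A1 (by positivity) ?_ (le_max_left _ _)
      ((H1 _ ((hw _ (Nat.le_add_right _ R)).mono_d d1) 0 R (big R)).1 c (ld hc d1) q)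
    rw [← mul_div_assoc, le_div_iff₀ (by positivity)]
    have : (R : ℝ) ≤ M * (M * (M * c)) := by exact_mod_cast hR
    have : (1 : ℝ) ≤ R := by exact_mod_cast (by omega : 1 ≤ R)
    nlinarith
  · set x : Pt := z + ((n : ℤ), 0) with hx
    have az : Amb Λ m (bl z (c + Λ.rg)) := amb_mono a (bl_mono z (by omega))
    have ax : Amb Λ m (bl x (c + Λ.rg)) := amb_mono a fun y hy => by
      simp only [mem_bl, hx, Prod.fst_add, Prod.snd_add] at hy ⊢; omega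
    have dj : Disjoint (bl z (c + Λ.rg)) (bl x (c + Λ.rg)) := disjoint_left.2 fun y hy hy' => by
      simp only [mem_bl, hx, Prod.fst_add, Prod.snd_add] at hy hy'; omega
    have b : Amb Λ (hole m (bl x c)) (bl z (c + Λ.rg)) :=
      ⟨Nc.hole_ctr a.ctr _, (lh_amb ax).anch_hole hΛ a.anch le_rfl, fun y hy => mem_sdiff.2 ⟨az.sub hy,
        fun k => disjoint_left.1 dj hy (bl_mono x (by omega) k)⟩, near_hole az.near dj⟩
    have sq' : sq z n ⊆ bl z (2 * n) := fun y hy => by simp only [mem_sq, mem_bl] at hy ⊢; omega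
    refine one_le_mul_pow A1 (by positivity) ?_ (le_max_right _ _)
      (H2 Λ mem hJ l _ ((hw _ (Nat.le_add_right _ n)).mono_d d2) c n (ld hc d2) (by omega) (big n).le z
        (hole (hole m (bl x c)) (bl z c)) σ (Nc.hole_ctr b.ctr _)
        ((lh_amb b).anch_hole hΛ b.anch le_rfl) (fun e he h => ?_) (fun y hy h => ?_)
        (fun y _ hy => a.near.2.2 y (sq' hy)) fun e he => hσ e (Nc.mem_hole_ed.1 (Nc.mem_hole_ed.1 he).1).1)
    · rw [← mul_div_assoc, le_div_iff₀ (by have : (0 : ℝ) < n := by exact_mod_cast (by omega : 0 < n)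
                                           positivity)]
      have : (n : ℝ) ≤ 4 * M * (M * c) := by exact_mod_cast n2
      nlinarith [mul_le_mul_of_nonneg_right M2' (by positivity : (0 : ℝ) ≤ M * (M * c))]
    · obtain ⟨h1, h2, h3⟩ := Nc.mem_hole_ed.1 he
      obtain ⟨h4, h5, h6⟩ := Nc.mem_hole_ed.1 h1
      have h' := h.imp (@sq' _) (@sq' _)
      exact ⟨(a.near.1 e h').1 h4, a.near.2.1 e h4 h', fun k => (mem_union.1 k).elim h2 h5,
        fun k => (mem_union.1 k).elim h3 h6⟩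
    · exact mem_sdiff.2 ⟨mem_sdiff.2 ⟨a.sub (sq' hy), fun k => h (mem_union_right _ k)⟩,
        fun k => h (mem_union_left _ k)⟩
  · exact pigeon c0 (by omega) (uu_le_one hΛ r₀)
      (fun R => (H1 _ ((hw _ (Nat.le_add_right _ R)).mono_d d1) 0 R (big R)).2)
      ((pow_le_pow_left₀ (by positivity) A0 _).trans (pow_le_pow_right₀ A1 (le_max_left _ _)))

/-- **KSTEP** -/
theorem qmStmt (hM : MixStmt) (hG : GdStmt) (hD : GffDStmt) (hm : T1mStmt) : QmStmt :=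
  fun _ hΛ hJ hg => by
    obtain ⟨W₀, W, M, r₀, K, η, E⟩ := env hM hG (Es28.hKStmt hD hm) (Es28.hTwoStmt hD hm) hm hΛ hJ hg
    obtain ⟨ρ₀, h⟩ := E.qm
    exact ⟨_, ρ₀, one_le_pow₀ (by linarith [E.K1]), h⟩

end Crest.Agent.T145.Ks68
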