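import Crest.Agent.T145.KrDef_77

/-!
# Row 145, module KERNEL (helper91): the potential fields of `Gm.Alg`
-/

set_option autoImplicit false

namespace Crest.Agent.T145.Kr

open Finset

namespace A91

open Pot (nL nL_ok eD co_eD dl hx ex exo chg on off)

theorem mem_an {z x : Pt} {r R : ℕ} : x ∈ Nc.an z r R ↔ x ∈ bl z R ∧ x ∉ bl z r := mem_sdiff

theorem cu_add (a b : Cfg Pt) : cu (a + b) = cu a + cu b := by funext x; simp [cu]
theorem cu_neg (a : Cfg Pt) : cu (-a) = (-1 : ℝ) • cu a := by funext x; simp [cu]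
theorem cu_mapH (φ : Pt ≃ Pt) (a : Cfg Pt) : cu (mapH φ a) ∘ φ = cu a := by funext x; simp [cu]

theorem pr_ip {U : Finset Pt} {f : Pt → ℝ} (h : Sup U f) (s : Cfg Pt) :
    pr f s = Pot.ip U f (cu s) := pr_of_fsupp f s h

theorem sum_eq {S U U' : Finset Pt} {f : Pt → ℝ} (h : Sup S f) (h1 : S ⊆ U) (h2 : S ⊆ U') :
    ∑ x ∈ U, f x = ∑ x ∈ U', f x := by
  rw [← sum_subset h1 fun x _ => h x, ← sum_subset h2 fun x _ => h x]

/-- the harmonic extension only reads the outer boundary -/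
theorem hx_loc {A D : Finset Pt} (hA : A ⊆ D) {η η' : Pt → ℝ}
    (h : ∀ x ∈ A, ∀ e ∈ nn, x + e ∉ A → η (x + e) = η' (x + e)) {x : Pt} (hx' : x ∈ A) :
    hx A (eD nL D) η x = hx A (eD nL D) η' x := by
  have hc := (co_eD nL_ok D).mono hA
  have h1 : hx A (eD nL D) (η - η') = off A (η - η') :=
    hc.hx_unique (fun y hy => Pot.off_of_not hy) ((Pot.hm_eD nL_ok hA).2 fun y hy =>
      sum_eq_zero fun e he => by
        rw [Pot.off_of_mem hy, sub_zero]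
        by_cases h2 : y + e ∈ A
        · exact Pot.off_of_mem h2
        · rw [Pot.off_of_not h2, Pi.sub_apply, h y hy e he h2, sub_self])
  have h2 := congrFun h1 x
  rwa [hc.hx_sub, Pi.sub_apply, Pot.off_of_mem hx', sub_eq_zero] at h2

theorem hx_const (D : Finset Pt) (c : ℝ) : hx D (eD nL D) (fun _ => c) = fun _ => c :=
  (co_eD nL_ok D).hx_unique (fun _ _ => rfl)
    ((Pot.hm_eD nL_ok Subset.rfl).2 fun y _ => Pot.lapJ_const _ c y)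

/-- the swept charge of a function that is harmonic inside sits on the rim -/
theorem chg_rim {r R : ℕ} (hr : 1 ≤ r) (h : r ≤ R) {φ : Pt → ℝ}
    (hφ : ∀ x ∈ bl 0 (r - 1), Pot.lapJ nn φ x = 0) :
    Sup (Nc.an 0 (r - 1) r) (chg (bl 0 r) (bl 0 R) (eD nL (bl 0 R)) φ) := fun x hx' => by
  by_cases h1 : x ∈ bl 0 r
  · have h2 : x ∈ bl 0 (r - 1) := by_contra fun h2 => hx' (mem_an.2 ⟨h1, h2⟩)
    have hc := co_eD nL_ok (bl 0 R)
    rw [chg, Pot.on_of_mem h1, Pot.op_eD nL_ok (bl_mono 0 h h1), neg_eq_zero, ← hφ x h2]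
    exact sum_congr rfl fun e he => by
      rw [hc.ex_on φ h1, hc.ex_on φ (bl_subset_bl h2 (by omega) (Pot.add_nn_mem_bl he x))]
  · exact Pot.chg_sup φ x h1

theorem sw_sup (hS : SwStmt) {R : ℕ} {f : Pt → ℝ} (hf : Sup (bl 0 R) f) :
    Sup (Nc.an 0 R (R + 1)) (sw (bl 0 R) f) := fun x hx' => by
  by_cases h1 : x ∈ bl 0 R
  · exact ((hS _ f).1 x h1).2
  · have h2 : x ∉ bl 0 (R + 1) := fun h2 => hx' (mem_an.2 ⟨h2, h1⟩)
    rw [sw, Pi.sub_apply, hf x h1, (hS _ f).2.1 x h1 fun e he h3 =>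
      h2 (bl_subset_bl h3 (by omega) (mem_bl_comm.1 (Pot.add_nn_mem_bl he x))), sub_zero]

theorem hx_cst {R R₂ : ℕ} (h : R + 1 ≤ R₂) (b : Cfg Pt) (i : ℤ) {x : Pt} (hx' : x ∈ bl 0 R) :
    hx (bl 0 R) (eD nL (bl 0 R)) (cu (b + cst (Nc.an 0 R R₂) i)) x =
      hx (bl 0 R) (eD nL (bl 0 R)) (cu b) x + i := by
  rw [cu_add, (co_eD nL_ok _).hx_add, Pi.add_apply, hx_loc (η := cu (cst _ i)) (η' := fun _ => i)
    Subset.rfl (fun y hy e he h1 => by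
      rw [cu, cst_of_mem i (mem_an.2 ⟨bl_subset_bl hy (by omega) (Pot.add_nn_mem_bl he y), h1⟩)])
    hx', hx_const]

theorem sw_sum (hS : SwStmt) {R R₂ : ℕ} (h : R + 1 ≤ R₂) {f : Pt → ℝ} (hf : Sup (bl 0 R) f) :
    ∑ x ∈ Nc.an 0 R R₂, sw (bl 0 R) f x = ∑ x ∈ bl 0 R, f x := by
  have h1 := ((hS (bl 0 R) f).2.2.1 (bl 0 (R + 1))
    (Lat.edT_bl_subset 0 (by rw [Pot.nL_rg])) (bl_mono 0 (by omega))).2.1
  rw [sum_eq (sw_sup hS hf) (U := Nc.an 0 R R₂) (U' := bl 0 (R + 1))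
    (sdiff_subset_sdiff (bl_mono 0 h) Subset.rfl) sdiff_subset, sum_eq hf Subset.rfl (bl_mono 0 (Nat.le_succ R))]
  simp only [sw, Pi.sub_apply, sum_sub_distrib, h1, sub_zero]

theorem sw_smul (hS : SwStmt) (D : Finset Pt) (c : ℝ) (f : Pt → ℝ) : sw D (c • f) = c • sw D f := by
  rw [sw, ((hS D f).2.2.2.2.1 f c).2, sw, smul_sub]

/-! ## symmetries -/

/-- a symmetry of the square -/
structure Q (φ : Pt ≃ Pt) : Prop where
  sym : nL.Sym φ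
  mem : ∀ (R : ℕ) (x : Pt), φ x ∈ bl 0 R ↔ x ∈ bl 0 R

theorem q_rot : Q (rotZ 0) :=
  ⟨fun x y => by
    simp only [Pot.nL_J, nn, mem_insert, mem_singleton, rotZ, Equiv.coe_fn_mk, Prod.ext_iff,
      Prod.fst_sub, Prod.snd_sub]
    omega, fun R x => by simp only [mem_bl, rotZ, Equiv.coe_fn_mk, Prod.fst_zero, Prod.snd_zero]; omega⟩

theorem q_swp : Q (swpZ 0) :=
  ⟨fun x y => by
    simp only [Pot.nL_J, nn, mem_insert, mem_singleton, swpZ, Equiv.coe_fn_mk, Prod.ext_iff,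
      Prod.fst_sub, Prod.snd_sub]
    omega, fun R x => by simp only [mem_bl, swpZ, Equiv.coe_fn_mk, Prod.fst_zero, Prod.snd_zero]; omega⟩

variable {φ φ' : Pt ≃ Pt}

theorem Q.trans (h : Q φ) (h' : Q φ') : Q (φ.trans φ') :=
  ⟨h.sym.trans h'.sym, fun R x => (h'.mem R _).trans (h.mem R x)⟩

theorem Q.pow (h : Q φ) (k : ℕ) : Q (φ ^ k : Equiv.Perm Pt) := by
  induction k with
  | zero => exact ⟨fun _ _ => Iff.rfl, fun _ _ => Iff.rfl⟩
  | succ k ih => rw [pow_succ]; exact h.trans ih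

theorem q_gp (k : Fin 4 × Fin 2) : Q (gp k) := (q_swp.pow _).trans (q_rot.pow _)

theorem Q.map (h : Q φ) (R : ℕ) : (bl 0 R).map φ.toEmbedding = bl 0 R := by
  ext x; rw [mem_map_equiv, ← h.mem, φ.apply_symm_apply]

theorem Q.map_an (h : Q φ) (r R : ℕ) : (Nc.an 0 r R).map φ.toEmbedding = Nc.an 0 r R := by
  rw [Nc.an, Finset.map_sdiff, h.map, h.map]

theorem Q.dl (h : Q φ) : dl (0 : Pt) ∘ φ = dl 0 := by
  have h0 : ∀ x : Pt, x ∈ bl 0 0 ↔ x = 0 := fun x => by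
    simp only [mem_bl, Prod.ext_iff, Prod.fst_zero, Prod.snd_zero]; omega
  funext x
  simp only [Function.comp_apply, Pi.single_apply, ← h0, h.mem]

theorem eD_map {Λ : Lat} (hΛ : Λ.Ok) (h : Λ.Sym φ) (D : Finset Pt) (u v : Pt → ℝ) :
    eD Λ (D.map φ.toEmbedding) u v = eD Λ D (u ∘ φ) (v ∘ φ) := by
  rw [eD, eD, Pot.edF_apply, Pot.edF_apply, h.edT_map hΛ, sum_map]
  refine sum_congr rfl fun e _ => ?_
  rcases ori_cases φ e with h1 | h1 <;>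
    simp only [Equiv.coe_toEmbedding, h1, Function.comp_apply]
  ring

theorem Q.eD (h : Q φ) (R : ℕ) (u v : Pt → ℝ) :
    eD nL (bl 0 R) u v = eD nL (bl 0 R) (u ∘ φ) (v ∘ φ) := by
  rw [← eD_map nL_ok h.sym, h.map]

theorem Q.sw (h : Q φ) (hS : SwStmt) (R : ℕ) (f : Pt → ℝ) :
    sw (bl 0 R) f ∘ φ = sw (bl 0 R) (f ∘ φ) := by
  have := ((hS (bl 0 R) f).2.2.2.2.2.2 φ h.sym).1
  rw [h.map] at this
  rw [Kr.sw, Kr.sw, ← this]; rfl

variable (G : Gm)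

theorem co_D : Pot.Co (bl 0 G.R) G.B := co_eD nL_ok _
theorem co_A : Pot.Co G.A G.B := (co_D G).sd _

theorem Q.ch (h : Q φ) (f : Pt → ℝ) : G.ch f ∘ φ = G.ch (f ∘ φ) := by
  have := (co_D G).chg_equiv (K := bl 0 G.r) φ (h.eD G.R) f
  simp only [h.map] at this
  exact this

theorem Q.eq (h : Q φ) : G.eq ∘ φ = G.eq := by
  have := (co_D G).eqm_equiv (K := bl 0 G.r) φ (h.eD G.R)
  simp only [h.map] at this
  exact this

theorem Q.hx (h : Q φ) (f : Pt → ℝ) : hx (bl 0 G.R) G.B f ∘ φ = hx (bl 0 G.R) G.B (f ∘ φ) := by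
  have := (co_D G).hx_equiv φ (h.eD G.R) f
  simp only [h.map] at this
  exact this

theorem Q.ma (h : Q φ) (a : Cfg Pt) : G.ma (mapH φ a) ∘ φ = G.ma a := by
  have := (co_D G).ex_equiv (K := bl 0 G.r) φ (h.eD G.R) (cu (mapH φ a))
  simp only [h.map, cu_mapH] at this
  exact this

theorem Q.mb (h : Q φ) (a : Cfg Pt) : G.mb (mapH φ a) ∘ φ = G.mb a := by
  have := (co_D G).exo_equiv (K := bl 0 G.r) φ (h.eD G.R) (cu (mapH φ a))
  simp only [h.map, cu_mapH] at this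
  exact this

theorem Q.nm (h : Q φ) (m : Pt → ℝ) : G.nm (m ∘ φ) = G.nm m := by
  rw [Gm.nm, Gm.nm, Gm.mid]
  conv_rhs => rw [← h.map_an, sum_map]
  rfl

theorem Q.te (h : Q φ) (hS : SwStmt) : G.te ∘ φ = G.te := by rw [Gm.te, h.sw hS, h.eq]

theorem pr_inv {f : Pt → ℝ} (h : f ∘ φ = f) (a : Cfg Pt) : pr f (mapH φ a) = pr f a := by
  rw [pr_mapH]; exact congrArg (pr · a) h

theorem Q.y0 (h : Q φ) (hS : SwStmt) (a b : Cfg Pt) : G.y0 (mapH φ a) (mapH φ b) = G.y0 a b := by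
  rw [Gm.y0, pr_mapH, pr_inv (h.te G hS), Gm.y0, ← cu_mapH φ b, ← h.hx]
  exact congrArg (pr · a) (h.ch G _)

theorem ch_smul (c : ℝ) (f : Pt → ℝ) : G.ch (c • f) = c • G.ch f := (co_D G).chg_smul c f

theorem rot_ch : G.ch (co 0) ∘ rotZ 0 = -G.ch (co 1) ∧ G.ch (co 1) ∘ rotZ 0 = G.ch (co 0) := by
  rw [q_rot.ch, q_rot.ch, ← neg_one_smul ℝ, ← ch_smul]
  constructor <;> congr 1 <;> funext x <;> simp [co, rotZ]

theorem swp_ch : G.ch (co 0) ∘ swpZ 0 = G.ch (co 1) ∧ G.ch (co 1) ∘ swpZ 0 = G.ch (co 0) := by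
  rw [q_swp.ch, q_swp.ch]
  constructor <;> congr 1 <;> funext x <;> simp [co, swpZ]

theorem rot_dp (hS : SwStmt) (R : ℕ) :
    dp 0 R 0 ∘ rotZ 0 = -dp 0 R 1 ∧ dp 0 R 1 ∘ rotZ 0 = dp 0 R 0 := by
  simp only [dp]
  rw [q_rot.sw hS, q_rot.sw hS, ← neg_one_smul ℝ (sw _ _), ← sw_smul hS]
  constructor <;> congr 1 <;> funext ⟨a, b⟩ <;>
    simp [ev, rotZ, Pi.single_apply, Prod.ext_iff, and_comm, neg_eq_iff_eq_neg]
  ring

theorem swp_dp (hS : SwStmt) (R : ℕ) :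
    dp 0 R 0 ∘ swpZ 0 = dp 0 R 1 ∧ dp 0 R 1 ∘ swpZ 0 = dp 0 R 0 := by
  simp only [dp]
  rw [q_swp.sw hS, q_swp.sw hS]
  constructor <;> congr 1 <;> funext ⟨a, b⟩ <;>
    simp [ev, swpZ, Pi.single_apply, Prod.ext_iff, and_comm]

/-! ## the condenser -/

variable {G} {W : ℝ}

theorem r_le (h : G.Ok W) : 1024 * G.r ≤ G.R := by
  have := (mul_le_mul_of_nonneg_right h.hW (Nat.cast_nonneg G.r)).trans h.lo
  exact_mod_cast this

theorem sub (h : G.Ok W) : bl 0 G.r ⊆ bl 0 G.R := bl_mono 0 (by have := r_le h; omega)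

theorem out (h : G.Ok W) : G.R + 1 ≤ G.R₂ := by have := r_le h; have := h.hr; have := h.out; omega

theorem rim_sub (h : G.Ok W) : Nc.an 0 (G.r - 1) G.r ⊆ G.In :=
  sdiff_subset_sdiff Subset.rfl (bl_mono 0 (by have := h.hr; have := h.hc; omega))

theorem ch_sup (h : G.Ok W) {f : Pt → ℝ} (hf : ∀ x ∈ bl 0 (G.r - 1), Pot.lapJ nn f x = 0) :
    Sup (Nc.an 0 (G.r - 1) G.r) (G.ch f) :=
  chg_rim (by have := h.hr; omega) (by have := r_le h; omega) hf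

theorem eq_sup (h : G.Ok W) : Sup (Nc.an 0 (G.r - 1) G.r) G.eq :=
  Pot.Sup.smul (ch_sup h fun x _ => Pot.lapJ_const _ 1 x) _

theorem eq_sum' (h : G.Ok W) : ∑ x ∈ bl 0 G.r, G.eq x = 1 :=
  (co_D G).sum_eqm (sub h) ⟨0, self_mem_bl _ _⟩

theorem eq_sum (h : G.Ok W) : ∑ x ∈ G.In, G.eq x = 1 :=
  (sum_eq (eq_sup h) (rim_sub h) sdiff_subset).trans (eq_sum' h)

theorem eq_supD (h : G.Ok W) : Sup (bl 0 G.R) G.eq := Pot.eqm_sup.mono (sub h)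

theorem te_sum (hS : SwStmt) (h : G.Ok W) : ∑ x ∈ G.Ou, G.te x = 1 :=
  (sw_sum hS (out h) (eq_supD h)).trans
    ((sum_eq Pot.eqm_sup (sub h) Subset.rfl).trans (eq_sum' h))

theorem hm_sum (hS : SwStmt) (h : G.Ok W) : ∑ x ∈ G.Ou, hm 0 G.R x = 1 :=
  (sw_sum hS (out h) (Pot.sup_dl (self_mem_bl _ _))).trans (by simp [self_mem_bl])

theorem pr_te (hS : SwStmt) (h : G.Ok W) (b : Cfg Pt) :
    pr G.te b = Pot.ip (bl 0 G.r) G.eq (hx (bl 0 G.R) G.B (cu b)) := by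
  rw [Gm.te, (hS _ _).2.2.2.1 (eq_supD h), Pot.ip_eq, Pot.ip_comm,
    Pot.ip_of_sup (sub h) _ (u := G.eq) Pot.eqm_sup, Pot.ip_comm]
  rfl

theorem om_mem (G : Gm) (x : Pt) : 0 ≤ G.om x ∧ G.om x ≤ 1 :=
  ⟨(co_D G).ex_nonneg (Pot.mk_eD _) (fun _ _ => zero_le_one) x,
    (le_abs_self _).trans ((co_D G).abs_ex_le (Pot.mk_eD _) zero_le_one (fun _ _ => by simp) x)⟩

theorem hx_dat (h : G.Ok W) (s : Cfg Pt) (x : Pt) (hx' : x ∈ G.A) :
    hx G.A G.B (cu s) x = (G.ma (G.dat s).1 + G.mb (G.dat s).2) x := by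
  rw [Gm.ma, Gm.mb, ex, exo, ← ((co_D G).sd _).hx_add]
  refine hx_loc sdiff_subset (fun y hy e he h1 => ?_) hx'
  have h2 := Pot.add_nn_mem_bl he y
  obtain ⟨h3, h4⟩ := mem_an.1 hy
  have := h.hr
  by_cases h5 : y + e ∈ bl 0 G.r
  · rw [Pi.add_apply, Pot.on_of_mem h5, Pot.off_of_mem h5, add_zero, cu, cu, Gm.dat, resH_apply,
      if_pos (rim_sub h (mem_an.2 ⟨h5, fun h6 =>
        h4 (bl_subset_bl h6 (by omega) (mem_bl_comm.1 h2))⟩))]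
  · rw [Pi.add_apply, Pot.on_of_not h5, Pot.off_of_not h5, zero_add, cu, cu, Gm.dat, resH_apply,
      if_pos (show y + e ∈ G.Ou from mem_an.2 ⟨bl_subset_bl h3 (by have := out h; omega) h2,
        fun h6 => h1 (mem_an.2 ⟨h6, h5⟩)⟩)]

theorem k1 (hS : SwStmt) (h : G.Ok W) (a b : Cfg Pt) :
    -G.B (G.ma a) (G.mb b) = G.cp * pr G.eq a * pr G.te b + G.y0 a b := by
  rw [Gm.y0, pr_ip (f := G.ch _) (Pot.chg_sup _), pr_ip (f := G.eq) Pot.eqm_sup, pr_te hS h,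
    Pot.ip_comm _ (G.ch _)]
  exact (co_D G).cross_split (sub h) ⟨0, self_mem_bl _ _⟩ _ _

theorem y_in (hS : SwStmt) (h : G.Ok W) (i : ℤ) (a b : Cfg Pt) :
    G.y0 (a + cst G.In i) b = G.y0 a b := by
  have h1 := ch_sup h (f := fun x => hx (bl 0 G.R) G.B (cu b) x - pr G.te b) fun x hx' => by
    rw [← (Pot.hm_eD nL_ok Subset.rfl).1 ((co_D G).hx_hm (cu b)) x
      (bl_mono 0 (by have := r_le h; omega) hx')]
    simp [Pot.lapJ, Pot.nL_J, Gm.B]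
  rw [Gm.y0, map_add, pr_cst, sum_eq h1 (rim_sub h) sdiff_subset, Gm.ch,
    (co_D G).sum_chg (sub h) ⟨0, self_mem_bl _ _⟩]
  have h2 : Pot.ip (bl 0 G.r) G.eq (fun x => hx (bl 0 G.R) G.B (cu b) x - pr G.te b) = 0 := by
    simp only [Pot.ip, mul_sub, sum_sub_distrib, ← sum_mul, eq_sum' h, one_mul]
    exact sub_eq_zero.2 (pr_te hS h b).symm
  rw [Gm.eq] at h2
  rw [h2, mul_zero, zero_mul, add_zero]
  rfl

theorem y_out (hS : SwStmt) (h : G.Ok W) (i : ℤ) (a b : Cfg Pt) :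
    G.y0 a (b + cst G.Ou i) = G.y0 a b := by
  rw [Gm.y0, Gm.y0, map_add, pr_cst, te_sum hS h, Gm.ch, Gm.ch, Pot.chg_congr fun x hx' => by
    rw [Gm.B, Gm.Ou, hx_cst (out h) b i (sub h hx'), one_mul, add_sub_add_right_eq_sub]]
  rfl

theorem y_neg (G : Gm) (a b : Cfg Pt) : G.y0 (-a) b = -G.y0 a b ∧ G.y0 a (-b) = -G.y0 a b := by
  refine ⟨map_neg _ _, ?_⟩
  rw [Gm.y0, Gm.y0, ← AddMonoidHom.neg_apply, ← pr_neg, ← neg_one_smul ℝ (G.ch _), ← ch_smul, map_neg,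
    cu_neg, (co_D G).hx_smul]
  congr 3
  funext x; simp only [Pi.smul_apply, smul_eq_mul]; ring

end A91

end Crest.Agent.T145.Kr
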