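import Crest.Agent.T145.PotL_17

/-!
# Row 145: asymptotics of the potential kernel of `ℤ²` and of all its differences (helper15, task 210)

`pkStmt : PkStmt` from the gradient asymptotics `R165.Pkx583.pk_dx`; `pkDStmt` by induction with the interior
gradient estimate of `HarmStmt`.
-/

set_option autoImplicit false

namespace Crest.Agent.T145.Pot

open Finset

namespace Pk15

open R165.Pkx583

theorem pk_nonneg (z : Pt) : 0 ≤ pk z := by
  unfold R165.Pkx583.pk pk0
  refine mul_nonneg (by positivity) (intervalIntegral.integral_nonneg (by positivity) fun u hu => ?_)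
  have h1 := rho_nonneg hu.1 hu.2
  have h2 := rho_le_one hu.1 hu.2
  refine div_nonneg (sub_nonneg.2 ?_)
    (Real.sin_nonneg_of_nonneg_of_le_pi hu.1 (by linarith [hu.2, Real.pi_pos]))
  exact mul_le_one₀ (Real.cos_le_one _) (pow_nonneg h1 _) (pow_le_one₀ h1 h2)

theorem lg_eq (m n : ℤ) : lg (m, n) = Real.log ((m : ℝ) ^ 2 + (n : ℝ) ^ 2) / (4 * Real.pi) := by
  rw [lg, eu, Real.log_sqrt (by positivity)]
  ring

theorem abs_log_sub {x : ℝ} (hx : 0 ≤ x) : |Real.log (1 + x) - x| ≤ x ^ 2 := by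
  have h1 := Real.log_le_sub_one_of_pos (x := 1 + x) (by linarith)
  have h2 := Real.one_sub_inv_le_log_of_pos (x := 1 + x) (by linarith)
  have h3 : x - x ^ 2 ≤ 1 - (1 + x)⁻¹ := by
    have : (1 + x)⁻¹ ≤ 1 - x + x ^ 2 := by
      rw [inv_le_iff_one_le_mul₀ (by linarith)]
      nlinarith [pow_nonneg hx 3]
    linarith
  rw [abs_le]; constructor <;> nlinarith [sq_nonneg x]

theorem one_le_S {m n : ℤ} (h0 : ¬ (m = 0 ∧ n = 0)) : (1 : ℝ) ≤ (m : ℝ) ^ 2 + (n : ℝ) ^ 2 := by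
  have := one_le_eu (z := (m, n)) fun h => h0 (by simpa [Prod.ext_iff] using h)
  have h2 := eu_sq (m, n)
  simp only at h2
  nlinarith

theorem lg_dx (m n : ℤ) (hm : 0 ≤ m) (h0 : ¬ (m = 0 ∧ n = 0)) :
    |lg (m + 1, n) - lg (m, n) - (1 / (2 * Real.pi)) * ((m : ℝ) / ((m : ℝ) ^ 2 + (n : ℝ) ^ 2))| ≤
      1 / ((m : ℝ) ^ 2 + (n : ℝ) ^ 2) := by
  have hS := one_le_S h0
  have hm' : (0 : ℝ) ≤ m := by exact_mod_cast hm
  have hm2 : (2 * (m : ℝ) + 1) ^ 2 ≤ 9 * ((m : ℝ) ^ 2 + (n : ℝ) ^ 2) := by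
    rcases hm.eq_or_lt with h | h
    · rw [← h] at hS ⊢; push_cast at hS ⊢; nlinarith
    · have : (1 : ℝ) ≤ m := by exact_mod_cast h
      nlinarith [sq_nonneg (n : ℝ)]
  rw [lg_eq, lg_eq]
  set S : ℝ := (m : ℝ) ^ 2 + (n : ℝ) ^ 2 with hSd
  have hS0 : 0 < S := by linarith
  set x : ℝ := (2 * m + 1) / S with hx
  have hx0 : 0 ≤ x := by positivity
  have e1 : (((m + 1 : ℤ) : ℝ) ^ 2 + (n : ℝ) ^ 2) = S * (1 + x) := by
    rw [hx]; field_simp; rw [hSd]; push_cast; ring
  have e2 : Real.log (S * (1 + x)) / (4 * Real.pi) - Real.log S / (4 * Real.pi) -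
      1 / (2 * Real.pi) * (m / S) = ((Real.log (1 + x) - x) + 1 / S) / (4 * Real.pi) := by
    rw [Real.log_mul hS0.ne' (by linarith), hx]; field_simp; ring
  rw [e1, e2, abs_div, abs_of_pos (by positivity : 0 < 4 * Real.pi), div_le_iff₀ (by positivity)]
  have h3 : x ^ 2 ≤ 9 * (1 / S) := by
    rw [hx, div_pow, mul_one_div, div_le_div_iff₀ (by positivity) hS0]
    nlinarith
  have h4 : 0 < 1 / S := by positivity
  calc _ ≤ |Real.log (1 + x) - x| + |1 / S| := abs_add_le _ _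
    _ ≤ 9 * (1 / S) + 1 / S := add_le_add ((abs_log_sub hx0).trans h3) (abs_of_pos h4).le
    _ ≤ _ := by nlinarith [Real.pi_gt_three]

/-- the difference of the potential kernel and the logarithm -/
noncomputable def w (z : Pt) : ℝ := pk z - lg z

theorem w_dx (m n : ℤ) (hm : 0 ≤ m) (h0 : ¬ (m = 0 ∧ n = 0)) :
    |w (m + 1, n) - w (m, n)| ≤ 10001 / ((m : ℝ) ^ 2 + (n : ℝ) ^ 2) := by
  have h1 := pk_dx m n h0
  have h2 := lg_dx m n hm h0
  have e : (10001 : ℝ) / ((m : ℝ) ^ 2 + (n : ℝ) ^ 2) =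
      10000 / ((m : ℝ) ^ 2 + (n : ℝ) ^ 2) + 1 / ((m : ℝ) ^ 2 + (n : ℝ) ^ 2) := by ring
  rw [abs_le] at h1 h2 ⊢
  simp only [w]
  constructor <;> linarith [h1.1, h1.2, h2.1, h2.2]

theorem w_comm (m n : ℤ) : w (m, n) = w (n, m) := by
  rw [w, w, pk_comm, lg_eq, lg_eq, add_comm]

theorem w_abs (m n : ℤ) : w (m, n) = w (|m|, |n|) := by
  have h1 : ∀ m n : ℤ, w (m, n) = w (|m|, n) := fun m n => by
    rcases abs_cases m with h | h
    · rw [h.1]
    · rw [h.1, w, w, pk_neg_fst, lg_eq, lg_eq]; simp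
  rw [h1, w_comm, h1, w_comm]

theorem w_row (n : ℤ) (hn : 1 ≤ n) (m : ℕ) : |w (m, n) - w (0, n)| ≤ 10001 * m / (n : ℝ) ^ 2 := by
  have hn' : (1 : ℝ) ≤ n := by exact_mod_cast hn
  induction m with
  | zero => simp
  | succ m ih =>
    have h1 := w_dx m n (by positivity) (by omega)
    have h2 : (10001 : ℝ) / (((m : ℤ) : ℝ) ^ 2 + (n : ℝ) ^ 2) ≤ 10001 / (n : ℝ) ^ 2 :=
      div_le_div_of_nonneg_left (by norm_num) (by positivity) (by nlinarith [sq_nonneg ((m : ℤ) : ℝ)])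
    push_cast
    calc _ ≤ |w ((m : ℤ) + 1, n) - w (m, n)| + |w (m, n) - w (0, n)| := abs_sub_le _ _ _
      _ ≤ 10001 / (n : ℝ) ^ 2 + 10001 * m / (n : ℝ) ^ 2 := add_le_add (h1.trans h2) ih
      _ = _ := by ring

theorem w_axis (n : ℕ) (hn : 1 ≤ n) (j : ℕ) :
    |w (((n + j : ℕ) : ℤ), 0) - w (n, 0)| ≤ 20002 * (1 / (n : ℝ) - 1 / ((n : ℝ) + j)) := by
  have hn' : (1 : ℝ) ≤ n := by exact_mod_cast hn
  induction j with
  | zero => simp
  | succ j ih =>
    have h1 := w_dx ((n + j : ℕ) : ℤ) 0 (by positivity) (by omega)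
    have hj : (0 : ℝ) ≤ j := by positivity
    have h2 : (10001 : ℝ) / ((((n + j : ℕ) : ℤ) : ℝ) ^ 2 + ((0 : ℤ) : ℝ) ^ 2) ≤
        20002 * (1 / ((n : ℝ) + j) - 1 / ((n : ℝ) + j + 1)) := by
      push_cast
      rw [div_sub_div _ _ (by positivity) (by positivity), ← mul_div_assoc,
        div_le_div_iff₀ (by positivity) (by positivity)]
      nlinarith [mul_nonneg hj hj]
    rw [← add_assoc, Nat.cast_succ]
    calc _ ≤ |w (((n + j : ℕ) : ℤ) + 1, 0) - w (((n + j : ℕ) : ℤ), 0)| +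
          |w (((n + j : ℕ) : ℤ), 0) - w (n, 0)| := abs_sub_le _ _ _
      _ ≤ _ := add_le_add (h1.trans h2) ih
      _ = _ := by push_cast; ring

theorem w_lim : ∃ κ : ℝ, ∀ n : ℕ, 1 ≤ n → |w (n, 0) - κ| ≤ 20002 / (n : ℝ) := by
  have hb : ∀ n : ℕ, 1 ≤ n → ∀ m, n ≤ m → |w ((m : ℕ), 0) - w (n, 0)| ≤ 20002 / (n : ℝ) := by
    intro n hn m hm
    obtain ⟨j, rfl⟩ := Nat.exists_eq_add_of_le hm
    refine (w_axis n hn j).trans ?_
    have : (0 : ℝ) ≤ 1 / ((n : ℝ) + j) := by positivity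
    rw [mul_sub, mul_one_div]; linarith
  have hc : CauchySeq fun n : ℕ => w ((n : ℤ), 0) := by
    rw [Metric.cauchySeq_iff']
    intro ε hε
    obtain ⟨N, hN⟩ := exists_nat_gt (20002 / ε)
    refine ⟨N + 1, fun m hm => ?_⟩
    rw [Real.dist_eq]
    refine (hb (N + 1) (by omega) m hm).trans_lt ?_
    rw [div_lt_iff₀ hε] at hN
    rw [div_lt_iff₀ (by positivity)]
    push_cast; nlinarith
  obtain ⟨κ, hκ⟩ := cauchySeq_tendsto_of_complete hc
  refine ⟨κ, fun n hn => ?_⟩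
  rw [abs_sub_comm]
  exact le_of_tendsto ((hκ.sub_const (w (n, 0))).abs)
    (Filter.eventually_atTop.2 ⟨n, fun m hm => hb n hn m hm⟩)

theorem w_asymp : ∃ κ : ℝ, ∀ z : Pt, z ≠ 0 → |w z - κ| ≤ 60006 / eu z := by
  obtain ⟨κ, hκ⟩ := w_lim
  have h1 : ∀ m n : ℕ, m ≤ n → 1 ≤ n → |w (m, n) - κ| ≤ 30003 / (n : ℝ) := by
    intro m n hmn hn
    have hn' : (1 : ℝ) ≤ n := by exact_mod_cast hn
    have hm' : (m : ℝ) ≤ n := by exact_mod_cast hmn
    have h2 := w_row n (by exact_mod_cast hn) m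
    have h3 := hκ n hn
    have h4 : (10001 : ℝ) * m / ((n : ℤ) : ℝ) ^ 2 ≤ 10001 / (n : ℝ) := by
      push_cast
      rw [div_le_div_iff₀ (by positivity) (by positivity)]
      nlinarith
    rw [w_comm] at h3
    calc _ ≤ |w (m, n) - w (0, n)| + |w (0, n) - κ| := abs_sub_le _ _ _
      _ ≤ 10001 / (n : ℝ) + 20002 / (n : ℝ) := add_le_add (h2.trans h4) h3
      _ = _ := by ring
  refine ⟨κ, fun z hz => ?_⟩
  obtain ⟨a, b⟩ := z
  have he := one_le_eu hz
  have he2 := eu_le_add (a, b)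
  have hab : ¬ (a = 0 ∧ b = 0) := fun h => hz (by simpa [Prod.ext_iff] using h)
  simp only [← Int.cast_abs, ← Int.natCast_natAbs, Int.cast_natCast] at he2
  rw [w_abs, ← Int.natCast_natAbs, ← Int.natCast_natAbs]
  rcases le_total a.natAbs b.natAbs with h | h
  · have h' : (a.natAbs : ℝ) ≤ b.natAbs := by exact_mod_cast h
    refine (h1 _ _ h (by omega)).trans ?_
    rw [div_le_div_iff₀ (by linarith) (by linarith)]
    linarith
  · have h' : (b.natAbs : ℝ) ≤ a.natAbs := by exact_mod_cast h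
    rw [w_comm]
    refine (h1 _ _ h (by omega)).trans ?_
    rw [div_le_div_iff₀ (by linarith) (by linarith)]
    linarith

theorem difs_const (y : Pt) (ys : List Pt) (c : ℝ) : difs (y :: ys) (fun _ => c) = 0 := by
  induction ys generalizing y with
  | nil => funext z; simp [difs, dif]
  | cons y' ys ih => funext z; rw [difs, ih]; simp [dif]

theorem difs_far (ys : List Pt) (hy : ∀ y ∈ ys, y ∈ nn) {f : Pt → ℝ} (hf : ∀ x, x ≠ 0 → f x = 0)
    (x : Pt) (hx : (ys.length : ℝ) < eu x) : difs ys f x = 0 := by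
  induction ys generalizing x with
  | nil => exact hf x (by rintro rfl; simp at hx)
  | cons y ys ih =>
    have h1 := eu_add_le (x + y) (-y)
    rw [add_neg_cancel_right, eu_neg, eu_nn (hy y List.mem_cons_self)] at h1
    simp only [List.length_cons, Nat.cast_succ] at hx
    have ih' := ih fun y hy' => hy y (List.mem_cons_of_mem _ hy')
    rw [difs, dif, ih' _ (by linarith), ih' _ (by linarith), sub_zero]

theorem nonneg_of {a C p : ℝ} (hp : 0 < p) (h : |a| ≤ C / p) : 0 ≤ C := by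
  have := (abs_nonneg _).trans h
  rwa [le_div_iff₀ hp, zero_mul] at this

theorem half_pow {C s t : ℝ} (hC : 0 ≤ C) (hs : 0 < s) (h : s ≤ 2 * t) (k : ℕ) :
    C / t ^ k ≤ C * 2 ^ k / s ^ k := by
  have ht : 0 < t := by linarith
  rw [div_le_div_iff₀ (by positivity) (by positivity), mul_assoc, ← mul_pow]
  gcongr

/-- decay of all differences of a function that decays like `1/|z|` and whose Laplacian decays fast -/
theorem difs_decay (hH : HarmStmt) {u : Pt → ℝ} {C0 : ℝ} (h0 : ∀ z, |u z| ≤ C0 / (1 + eu z) ^ 1)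
    (hl : ∀ k : ℕ, ∃ C : ℝ, ∀ ys : List Pt, ys.length = k → (∀ y ∈ ys, y ∈ nn) →
      ∀ z, (k : ℝ) < eu z → |difs ys (lap u) z| ≤ C / (1 + eu z) ^ (k + 3)) (k : ℕ) :
    ∃ C : ℝ, ∀ ys : List Pt, ys.length = k → (∀ y ∈ ys, y ∈ nn) →
      ∀ z, |difs ys u z| ≤ C / (1 + eu z) ^ (k + 1) := by
  induction k with
  | zero => exact ⟨C0, fun ys h _ z => by rw [List.length_eq_zero_iff.1 h]; exact h0 z⟩
  | succ k ih =>
    obtain ⟨C, hC⟩ := ih
    obtain ⟨D, hD⟩ := hl k
    obtain ⟨E, hE⟩ := hH.2.1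
    refine ⟨max (2 * C * (2 * k + 17) ^ (k + 2)) (|E| * (17 * (C * 2 ^ (k + 1)) + |D| * 2 ^ (k + 3))),
      fun ys h hy z => ?_⟩
    obtain ⟨y, ys, rfl⟩ := List.exists_cons_of_length_eq_add_one h
    have hk : ys.length = k := by simpa using h
    have hy' : ∀ y ∈ ys, y ∈ nn := fun y hy' => hy y (List.mem_cons_of_mem _ hy')
    have hs : ∀ x : Pt, 1 ≤ 1 + eu x := fun x => by linarith [eu_nonneg x]
    have hC0 : 0 ≤ C := nonneg_of (pow_pos (by linarith [hs z]) _) (hC ys hk hy' z)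
    have hp : 0 < (1 + eu z) ^ (k + 1 + 1) := pow_pos (by linarith [hs z]) _
    rcases le_or_gt (eu z) (2 * k + 16) with hz | hz
    · have hb : ∀ x, |difs ys u x| ≤ C := fun x =>
        (hC ys hk hy' x).trans (div_le_self hC0 (one_le_pow₀ (hs x)))
      refine le_trans ?_ (div_le_div_of_nonneg_right (le_max_left _ _) hp.le)
      rw [le_div_iff₀ hp, difs, dif]
      have h1 := (abs_sub _ _).trans (add_le_add (hb (z + y)) (hb z))
      have h2 : (1 + eu z) ^ (k + 1 + 1) ≤ (2 * k + 17) ^ (k + 2) :=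
        pow_le_pow_left₀ (by linarith [hs z]) (by linarith) _
      exact mul_le_mul (by linarith) h2 hp.le (by linarith)
    · refine le_trans ?_ (div_le_div_of_nonneg_right (le_max_right _ _) hp.le)
      have hk0 : (0 : ℝ) ≤ k := by positivity
      set r : ℕ := ⌊eu z / 8⌋₊ with hr
      have hr1 : (r : ℝ) ≤ eu z / 8 := Nat.floor_le (by linarith)
      have hr2 : eu z / 8 < r + 1 := Nat.lt_floor_add_one _
      have hr3 : 1 ≤ r := by
        have : (1 : ℝ) < r := by linarith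
        exact_mod_cast this.le
      have hx : ∀ x ∈ bl z (r + 1), eu z ≤ 2 * eu x := fun x hx => by
        have h1 := eu_le_of_bl hx
        have h2 := eu_add_le x (z - x)
        rw [add_sub_cancel, eu_sub_comm] at h2
        push_cast at h1
        linarith
      have h1 := hE r (difs ys u) z (C * 2 ^ (k + 1) / (1 + eu z) ^ (k + 1))
        (|D| * 2 ^ (k + 3) / (1 + eu z) ^ (k + 3)) hr3
        (fun x hx' => by
          have h2 := hx x (bl_mono z (Nat.le_succ r) hx')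
          rw [lap, lapJ_difs]
          refine (hD ys hk hy' x (by linarith)).trans (le_trans ?_ (half_pow (abs_nonneg D)
            (by linarith) (by linarith : 1 + eu z ≤ 2 * (1 + eu x)) _))
          exact div_le_div_of_nonneg_right (le_abs_self D) (pow_nonneg (by linarith [hs x]) _))
        (fun x hx' => (hC ys hk hy' x).trans (half_pow hC0 (by linarith)
          (by linarith [hx x hx'] : 1 + eu z ≤ 2 * (1 + eu x)) _)) y (hy y List.mem_cons_self)
      have hr0 : (0 : ℝ) < r := by linarith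
      have hs0 : 0 < 1 + eu z := by linarith
      have h2 : C * 2 ^ (k + 1) / (1 + eu z) ^ (k + 1) / r ≤
          17 * (C * 2 ^ (k + 1)) / (1 + eu z) ^ (k + 1 + 1) := by
        rw [div_div, div_le_div_iff₀ (by positivity) hp, pow_succ (1 + eu z) (k + 1)]
        have h3 : 1 + eu z ≤ 17 * r := by linarith [(Nat.one_le_cast (α := ℝ)).2 hr3]
        calc _ ≤ C * 2 ^ (k + 1) * ((1 + eu z) ^ (k + 1) * (17 * r)) := by gcongr
          _ = _ := by ring
      have h3 : r * (|D| * 2 ^ (k + 3) / (1 + eu z) ^ (k + 3)) ≤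
          |D| * 2 ^ (k + 3) / (1 + eu z) ^ (k + 1 + 1) := by
        rw [← mul_div_assoc, div_le_div_iff₀ (by positivity) hp, pow_succ (1 + eu z) (k + 2)]
        have h4 : (r : ℝ) ≤ 1 + eu z := by linarith
        calc _ ≤ (1 + eu z) * (|D| * 2 ^ (k + 3)) * (1 + eu z) ^ (k + 1 + 1) := by gcongr
          _ = _ := by ring
      calc _ ≤ _ := h1
        _ ≤ |E| * (C * 2 ^ (k + 1) / (1 + eu z) ^ (k + 1) / r +
            r * (|D| * 2 ^ (k + 3) / (1 + eu z) ^ (k + 3))) :=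
          mul_le_mul_of_nonneg_right (le_abs_self E) (by positivity)
        _ ≤ |E| * (17 * (C * 2 ^ (k + 1)) / (1 + eu z) ^ (k + 1 + 1) +
            |D| * 2 ^ (k + 3) / (1 + eu z) ^ (k + 1 + 1)) := by gcongr
        _ = _ := by ring

end Pk15

open Pk15

/-- asymptotics of the potential kernel -/
theorem pkStmt : PkStmt := ⟨pk_nonneg, w_asymp.imp fun _ h => ⟨_, h⟩⟩

/-- all differences of the potential kernel -/
theorem pkDStmt (hP : PkStmt) (hL : LgStmt) (hH : HarmStmt) : PkDStmt := by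
  obtain ⟨κ, B, hκ⟩ := hP.2
  have hs : ∀ x : Pt, 1 ≤ 1 + eu x := fun x => by linarith [eu_nonneg x]
  have h := difs_decay hH (u := pk - lg - fun _ => κ) (C0 := 2 * |B| + |w 0 - κ|) (fun z => by
      change |w z - κ| ≤ _
      rcases eq_or_ne z 0 with rfl | hz
      · simp
      · have h1 := one_le_eu hz
        refine ((hκ z hz).trans (div_le_div_of_nonneg_right (le_abs_self B) (by linarith))).trans ?_
        rw [pow_one, div_le_div_iff₀ (by linarith) (by linarith)]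
        nlinarith [mul_nonneg (abs_nonneg (w 0 - κ)) (eu_nonneg z), abs_nonneg B])
    (fun k => by
      obtain ⟨C, hC⟩ := hL.2.1 k
      refine ⟨C, fun ys hk hy z hz => ?_⟩
      have h1 := hC ys hk hy z
      have e : lap (pk - lg - fun _ => κ) = lap pk - lap lg := by
        funext x; simp only [lap, lapJ_sub, Pi.sub_apply, lapJ_const, sub_zero]
      rw [e, difs_sub, Pi.sub_apply, difs_far ys hy (fun x hx => by rw [lap_pk, if_neg hx]) z
        (by rwa [hk]), zero_sub, abs_neg]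
      exact h1.trans (div_le_div_of_nonneg_left (nonneg_of (pow_pos (by linarith [hs z]) _) h1)
        (pow_pos (by linarith [hs z]) _) (pow_le_pow_right₀ (hs z) (by omega))))
  intro k
  obtain ⟨C, hC⟩ := h (k + 1)
  obtain ⟨D, hD⟩ := hL.1 k
  refine ⟨C + max D 0, fun ys hk hy z => ?_⟩
  have h1 := hC ys hk hy z
  have h2 := hD ys hk hy z
  have hp : ∀ j, 0 < (1 + eu z) ^ j := fun j => pow_pos (by linarith [hs z]) _
  obtain ⟨y, ys, rfl⟩ := List.exists_cons_of_length_eq_add_one hk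
  rw [difs_sub, difs_const, sub_zero] at h1
  refine ⟨?_, h1.trans (div_le_div_of_nonneg_right (by linarith [le_max_right D 0]) (hp _).le)⟩
  have h3 : C / (1 + eu z) ^ (k + 1 + 1) ≤ C / (1 + eu z) ^ (k + 1) :=
    div_le_div_of_nonneg_left (nonneg_of (hp _) h1) (hp _) (pow_le_pow_right₀ (hs z) (by omega))
  have h4 : D / (1 + eu z) ^ (k + 1) ≤ max D 0 / (1 + eu z) ^ (k + 1) :=
    div_le_div_of_nonneg_right (le_max_left _ _) (hp _).le
  rw [difs_sub, Pi.sub_apply] at h1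
  rw [add_div, ← sub_add_cancel (difs (y :: ys) pk z) (difs (y :: ys) lg z)]
  exact (abs_add_le _ _).trans (add_le_add (h1.trans h3) (h2.trans h4))

end Crest.Agent.T145.Pot
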