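import Crest.Agent.T145.PotD_17
import Crest.Agent.T145.PotPk_15

/-!
# Row 145: size of the Green function (helper57, task 265): `gszStmt : GszStmt`
-/

set_option autoImplicit false

namespace Crest.Agent.T145.Pot

open Finset

namespace Gs57

section abs
variable {V : Type*} [DecidableEq V] {A : Finset V}

/-- the trace of `G M` is a sum of values of the quadratic form of `M` -/
theorem tr_eq {ed : Finset (V × V)} (h : Co A (edF ed)) (M : Bf V) :
    ∑ x ∈ A, ∑ y ∈ A, G A (edF ed) (dl x) (dl y) * M (dl x) (dl y) =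
      ∑ e ∈ ed, M (∑ x ∈ A, dr e (gr A (edF ed) (dl x)) • dl x)
        (∑ x ∈ A, dr e (gr A (edF ed) (dl x)) • dl x) := by
  simp only [h.G_eq, edF_apply, map_sum, LinearMap.sum_apply, map_smul, LinearMap.smul_apply,
    smul_eq_mul, dr_apply, sum_mul, mul_sum]
  rw [sum_comm (s := ed)]
  refine (sum_comm.trans ?_)
  refine sum_congr rfl fun y _ => ?_
  rw [sum_comm (s := ed)]
  exact sum_congr rfl fun x _ => sum_congr rfl fun e _ => by ring

theorem tr_mono {ed : Finset (V × V)} (h : Co A (edF ed)) {M M' : Bf V} (hM : ∀ f, M f f ≤ M' f f) :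
    ∑ x ∈ A, ∑ y ∈ A, G A (edF ed) (dl x) (dl y) * M (dl x) (dl y) ≤
      ∑ x ∈ A, ∑ y ∈ A, G A (edF ed) (dl x) (dl y) * M' (dl x) (dl y) := by
  rw [tr_eq h, tr_eq h]
  exact sum_le_sum fun e _ => hM _

/-- the Hilbert-Schmidt norm of the Green function is monotone -/
theorem hs_mono {ed ed' : Finset (V × V)} (h : Co A (edF ed)) (h' : Co A (edF ed'))
    (hM : ∀ f, G A (edF ed) f f ≤ G A (edF ed') f f) :
    ∑ x ∈ A, ∑ y ∈ A, G A (edF ed) (dl x) (dl y) ^ 2 ≤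
      ∑ x ∈ A, ∑ y ∈ A, G A (edF ed') (dl x) (dl y) ^ 2 := by
  have h1 := tr_mono h (M := h.GF) (M' := h'.GF) hM
  have h2 := tr_mono h' (M := h.GF) (M' := h'.GF) hM
  simp only [Co.GF_apply] at h1 h2
  simp only [pow_two]
  refine h1.trans (le_of_eq_of_le ?_ h2)
  exact sum_congr rfl fun x _ => sum_congr rfl fun y _ => mul_comm _ _

theorem G_on {B : Bf V} (h : Co A B) (K K' : Finset V) :
    G A B (on K 1) (on K' 1) = ∑ x ∈ A ∩ K, ∑ y ∈ A ∩ K', G A B (dl x) (dl y) := by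
  rw [G, ip, ← filter_mem_eq_inter, ← filter_mem_eq_inter, sum_filter]
  refine sum_congr rfl fun x _ => ?_
  rw [h.gr_eq_sum, sum_filter]
  by_cases hx' : x ∈ K
  · rw [on_of_mem hx', if_pos hx', Pi.one_apply, one_mul]
    exact sum_congr rfl fun y _ => by by_cases hy : y ∈ K' <;> simp [on, hy]
  · rw [on_of_not hx', if_neg hx', zero_mul]

theorem blk_le {B : Bf V} (h : Co A B) (K K' : Finset V) :
    (K.card : ℝ)⁻¹ * (K'.card : ℝ)⁻¹ * G A B (on K 1) (on K' 1) ^ 2 ≤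
      ∑ x ∈ A ∩ K, ∑ y ∈ A ∩ K', G A B (dl x) (dl y) ^ 2 := by
  have hS : 0 ≤ ∑ x ∈ A ∩ K, ∑ y ∈ A ∩ K', G A B (dl x) (dl y) ^ 2 :=
    sum_nonneg fun _ _ => sum_nonneg fun _ _ => sq_nonneg _
  have h1 : G A B (on K 1) (on K' 1) ^ 2 ≤
      K.card * K'.card * ∑ x ∈ A ∩ K, ∑ y ∈ A ∩ K', G A B (dl x) (dl y) ^ 2 := by
    rw [G_on h, ← sum_product', ← sum_product']
    refine sq_sum_le_card_mul_sum_sq.trans (mul_le_mul_of_nonneg_right ?_
      (sum_nonneg fun _ _ => sq_nonneg _))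
    rw [card_product]
    exact_mod_cast Nat.mul_le_mul (card_le_card inter_subset_right) (card_le_card inter_subset_right)
  have h2 : ∀ n : ℕ, (n : ℝ)⁻¹ * n ≤ 1 := fun n => inv_mul_le_one_of_le₀ le_rfl n.cast_nonneg
  calc _ ≤ (K.card : ℝ)⁻¹ * (K'.card : ℝ)⁻¹ *
        (K.card * K'.card * ∑ x ∈ A ∩ K, ∑ y ∈ A ∩ K', G A B (dl x) (dl y) ^ 2) := by gcongr
    _ = ((K.card : ℝ)⁻¹ * K.card) * ((K'.card : ℝ)⁻¹ * K'.card) *
        ∑ x ∈ A ∩ K, ∑ y ∈ A ∩ K', G A B (dl x) (dl y) ^ 2 := by ring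
    _ ≤ 1 * 1 * ∑ x ∈ A ∩ K, ∑ y ∈ A ∩ K', G A B (dl x) (dl y) ^ 2 := by
        gcongr
        · exact h2 _
        · exact h2 _
    _ = _ := by ring

theorem sum_blk {ι : Type*} {T : Finset ι} {β : ι → Finset V} (hβ : (T : Set ι).PairwiseDisjoint β)
    {g : V → ℝ} (hg : ∀ x, 0 ≤ g x) : ∑ c ∈ T, ∑ x ∈ A ∩ β c, g x ≤ ∑ x ∈ A, g x := by
  rw [← sum_biUnion fun c hc c' hc' hne =>
    (hβ hc hc' hne).mono inter_subset_right inter_subset_right]
  exact sum_le_sum_of_subset_of_nonneg (biUnion_subset.2 fun _ _ => inter_subset_left)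
    fun x _ _ => hg x

theorem blks_le {B : Bf V} (h : Co A B) {ι : Type*} {T : Finset ι} {β : ι → Finset V}
    (hβ : (T : Set ι).PairwiseDisjoint β) :
    ∑ c ∈ T, ∑ c' ∈ T, ((β c).card : ℝ)⁻¹ * ((β c').card : ℝ)⁻¹ *
      G A B (on (β c) 1) (on (β c') 1) ^ 2 ≤ ∑ x ∈ A, ∑ y ∈ A, G A B (dl x) (dl y) ^ 2 :=
  calc _ ≤ ∑ c ∈ T, ∑ c' ∈ T, ∑ x ∈ A ∩ β c, ∑ y ∈ A ∩ β c', G A B (dl x) (dl y) ^ 2 :=
        sum_le_sum fun _ _ => sum_le_sum fun _ _ => blk_le h _ _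
    _ = ∑ c ∈ T, ∑ x ∈ A ∩ β c, ∑ c' ∈ T, ∑ y ∈ A ∩ β c', G A B (dl x) (dl y) ^ 2 :=
        sum_congr rfl fun _ _ => sum_comm
    _ ≤ ∑ c ∈ T, ∑ x ∈ A ∩ β c, ∑ y ∈ A, G A B (dl x) (dl y) ^ 2 :=
        sum_le_sum fun _ _ => sum_le_sum fun _ _ => sum_blk hβ fun _ => sq_nonneg _
    _ ≤ _ := sum_blk hβ fun _ => sum_nonneg fun _ _ => sq_nonneg _

end abs

/-- the potential kernel is a logarithm up to a bounded error -/
theorem pk_log : ∃ K : ℝ, 0 ≤ K ∧ ∀ w, |pk w - Real.log (1 + eu w) / (2 * Real.pi)| ≤ K := by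
  obtain ⟨κ, C, h⟩ := pkStmt.2
  refine ⟨|κ| + |C| + 1 + |pk 0|, by positivity, fun w => ?_⟩
  have hκ := abs_nonneg κ
  have hC := abs_nonneg C
  by_cases hw : w = 0
  · subst hw; simp only [eu_zero, add_zero, Real.log_one, zero_div, sub_zero]; linarith
  have h1 := one_le_eu hw
  have h2 : C / eu w ≤ |C| := (div_le_div_of_nonneg_right (le_abs_self C) (by linarith)).trans
    (div_le_self hC h1)
  have h3 : Real.log (eu w) ≤ Real.log (1 + eu w) := Real.log_le_log (by linarith) (by linarith)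
  have h4 : Real.log (1 + eu w) ≤ Real.log (eu w) + 1 := by
    have := Real.log_le_log (by linarith) (show 1 + eu w ≤ 2 * eu w by linarith)
    rw [Real.log_mul two_ne_zero (by linarith)] at this
    linarith [Real.log_two_lt_d9]
  have h5 : (1 : ℝ) ≤ 2 * Real.pi := by linarith [Real.pi_gt_three]
  have h6 : |Real.log (1 + eu w) / (2 * Real.pi) - lg w| ≤ 1 := by
    rw [lg, ← sub_div, abs_of_nonneg (div_nonneg (by linarith) (by linarith)), div_le_one (by linarith)]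
    linarith
  have h7 := (h w hw).trans h2
  rw [abs_le] at h6 h7 ⊢
  constructor <;> linarith [abs_nonneg (pk 0), le_abs_self κ, neg_abs_le κ, h6.1, h6.2, h7.1, h7.2]

theorem eu_le {z x y : Pt} {R : ℕ} (hx' : x ∈ bl z R) (hy : y ∈ bl z R) : eu (x - y) ≤ 3 * R := by
  rw [mem_bl] at hx' hy
  have h1 : |x.1 - y.1| ≤ 2 * R := by rw [abs_le]; omega
  have h2 : |x.2 - y.2| ≤ 2 * R := by rw [abs_le]; omega
  have h3 : |((x - y).1 : ℝ)| ≤ 2 * R := by exact_mod_cast h1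
  have h4 : |((x - y).2 : ℝ)| ≤ 2 * R := by exact_mod_cast h2
  refine abs_le_of_sq_le_sq' ?_ (by positivity) |>.2
  rw [eu_sq, ← sq_abs ((x - y).1 : ℝ), ← sq_abs ((x - y).2 : ℝ)]
  have h5 := pow_le_pow_left₀ (abs_nonneg _) h3 2
  have h6 := pow_le_pow_left₀ (abs_nonneg _) h4 2
  nlinarith [sq_nonneg (R : ℝ)]

theorem one_le_arg {z x y : Pt} {R : ℕ} (hR : 1 ≤ R) (hx' : x ∈ bl z R) (hy : y ∈ bl z R) :
    1 ≤ 4 * (R : ℝ) / (1 + eu (x - y)) := by
  have h1 : (1 : ℝ) ≤ R := by exact_mod_cast hR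
  rw [one_le_div (by linarith [eu_nonneg (x - y)])]
  linarith [eu_le hx' hy]

theorem G_log : ∃ C : ℝ, 0 ≤ C ∧ ∀ (z : Pt) (R : ℕ) (D : Finset Pt), 1 ≤ R → D ⊆ bl z R →
    ∀ x ∈ D, ∀ y ∈ D, GD nL D (dl x) (dl y) ≤ C * (1 + Real.log (4 * R / (1 + eu (x - y)))) := by
  obtain ⟨K, hK, h⟩ := pk_log
  refine ⟨2 * K + 1, by positivity, fun z R D hR hD x hx' y hy => ?_⟩
  have h1 : (1 : ℝ) ≤ R := by exact_mod_cast hR
  have h5 : (1 : ℝ) ≤ 2 * Real.pi := by linarith [Real.pi_gt_three]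
  have h2 := GD_dl_le hx' y (M := Real.log (8 * R) / (2 * Real.pi) + K) fun w hw e he _ => by
    have h3 : eu (w + e - y) ≤ 3 * R + 1 := by
      rw [show w + e - y = (w - y) + e by abel]
      linarith [eu_add_le (w - y) e, eu_nn he, eu_le (hD hw) (hD hy)]
    have h4 : Real.log (1 + eu (w + e - y)) ≤ Real.log (8 * R) :=
      Real.log_le_log (by linarith [eu_nonneg (w + e - y)]) (by linarith)
    linarith [(abs_le.1 (h (w + e - y))).2, div_le_div_of_nonneg_right h4 (by linarith : 0 ≤ 2 * Real.pi)]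
  have h6 := Real.log_nonneg (one_le_arg hR (hD hx') (hD hy))
  have h0 : 0 < 1 + eu (x - y) := by linarith [eu_nonneg (x - y)]
  have h7 : Real.log (8 * R) - Real.log (1 + eu (x - y)) ≤ 1 + Real.log (4 * R / (1 + eu (x - y))) := by
    rw [Real.log_div (by positivity) h0.ne', show (8 : ℝ) * R = 2 * (4 * R) by ring,
      Real.log_mul two_ne_zero (by positivity)]
    linarith [Real.log_two_lt_d9]
  have h8 : Real.log (8 * R) / (2 * Real.pi) - Real.log (1 + eu (x - y)) / (2 * Real.pi) ≤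
      1 + Real.log (4 * R / (1 + eu (x - y))) := by
    rw [← sub_div]
    exact (div_le_div_of_nonneg_right h7 (by linarith)).trans (div_le_self (by linarith) h5)
  nlinarith [(abs_le.1 (h (x - y))).1]

theorem sum_inv (x : Pt) (n : ℕ) : ∑ y ∈ bl x n, (1 + eu (x - y))⁻¹ ≤ 1 + 8 * n := by
  induction n with
  | zero =>
    have : bl x 0 = {x} := by
      ext y; rw [mem_bl, mem_singleton, Prod.ext_iff]; omega
    simp [this]
  | succ n ih =>
    have hs : bl x n ⊆ bl x (n + 1) := bl_mono x n.le_succ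
    rw [← sum_sdiff hs]
    have h1 : ∑ y ∈ bl x (n + 1) \ bl x n, (1 + eu (x - y))⁻¹ ≤
        (bl x (n + 1) \ bl x n).card • ((n : ℝ) + 1)⁻¹ :=
      sum_le_card_nsmul _ _ _ fun y hy => by
        have := le_eu_of_not_bl (mem_sdiff.1 hy).2
        rw [eu_sub_comm] at this
        exact inv_anti₀ (by positivity) (by linarith)
    have h2 : (bl x (n + 1) \ bl x n).card = 8 * (n + 1) := by
      rw [card_sdiff_of_subset hs, card_bl, card_bl]
      exact Nat.sub_eq_of_eq_add (by ring)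
    rw [h2, nsmul_eq_mul] at h1
    have h3 : ((8 * (n + 1) : ℕ) : ℝ) * ((n : ℝ) + 1)⁻¹ = 8 := by
      push_cast; field_simp
    push_cast
    linarith

theorem log_sq_le {t : ℝ} (ht : 1 ≤ t) : (1 + Real.log t) ^ 2 ≤ 4 * t := by
  have h0 : 0 ≤ t := by linarith
  have h1 : Real.log t = 2 * Real.log √t := by rw [Real.log_sqrt h0]; ring
  have h2 := Real.log_le_sub_one_of_pos (Real.sqrt_pos.2 (by linarith : 0 < t))
  have h3 := Real.log_nonneg ht
  calc _ ≤ (2 * √t) ^ 2 := pow_le_pow_left₀ (by linarith) (by linarith) 2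
    _ = 4 * t := by rw [mul_pow, Real.sq_sqrt h0]; ring

theorem hs_nL : ∃ C : ℝ, 0 ≤ C ∧ ∀ (z : Pt) (R : ℕ) (D : Finset Pt), 1 ≤ R → D ⊆ bl z R →
    ∑ x ∈ D, ∑ y ∈ D, GD nL D (dl x) (dl y) ^ 2 ≤ C * (R : ℝ) ^ 4 := by
  obtain ⟨C, hC, h⟩ := G_log
  refine ⟨C ^ 2 * 2448, by positivity, fun z R D hR hD => ?_⟩
  have h1 : (1 : ℝ) ≤ R := by exact_mod_cast hR
  have hd : ∀ (x y : Pt), 0 ≤ dl x y := fun x y => by
    simp only [Pi.single_apply]; split_ifs <;> norm_num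
  have h2 : ∀ x ∈ D, ∑ y ∈ D, GD nL D (dl x) (dl y) ^ 2 ≤ C ^ 2 * 272 * (R : ℝ) ^ 2 := fun x hx' =>
    calc _ ≤ ∑ y ∈ D, C ^ 2 * (16 * R) * (1 + eu (x - y))⁻¹ := sum_le_sum fun y hy => by
          have h3 : 0 ≤ GD nL D (dl x) (dl y) :=
            (co_eD nL_ok D).G_nonneg' (mk_eD D) (fun w _ => hd x w) fun w _ => hd y w
          refine (pow_le_pow_left₀ h3 (h z R D hR hD x hx' y hy) 2).trans ?_
          rw [mul_pow, mul_assoc]
          refine mul_le_mul_of_nonneg_left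
            ((log_sq_le (one_le_arg hR (hD hx') (hD hy))).trans_eq (by ring)) (sq_nonneg C)
      _ ≤ C ^ 2 * (16 * R) * (1 + 8 * (2 * R : ℕ)) := by
          rw [← mul_sum]
          refine mul_le_mul_of_nonneg_left (le_trans ?_ (sum_inv x (2 * R))) (by positivity)
          refine sum_le_sum_of_subset_of_nonneg (fun y hy => ?_) fun y _ _ => by
            have := eu_nonneg (x - y); positivity
          have h4 := hD hx'
          have h5 := hD hy
          rw [mem_bl] at h4 h5 ⊢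
          push_cast; omega
      _ ≤ _ := by
          push_cast
          nlinarith [mul_nonneg (sq_nonneg C) (show (0 : ℝ) ≤ R * (R - 1) by nlinarith)]
  have h3 : (D.card : ℝ) ≤ 9 * (R : ℝ) ^ 2 := by
    have h4 := card_le_card hD
    rw [card_bl] at h4
    have h5 : (D.card : ℝ) ≤ (2 * R + 1) ^ 2 := by exact_mod_cast h4
    nlinarith
  calc _ ≤ D.card • (C ^ 2 * 272 * (R : ℝ) ^ 2) := sum_le_card_nsmul _ _ _ h2
    _ ≤ 9 * (R : ℝ) ^ 2 * (C ^ 2 * 272 * (R : ℝ) ^ 2) := by rw [nsmul_eq_mul]; gcongr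
    _ = _ := by ring

theorem lapJ_sq {Λ : Lat} (h : Λ.Ok) (z x : Pt) :
    lapJ Λ.J (fun w => ((w.1 : ℝ) - z.1) ^ 2) x = 2 * Λ.a := by
  rw [lapJ, h.sum_J, Lat.a, mul_sum]
  exact sum_congr rfl fun y _ => by simp only [Prod.fst_add, Prod.fst_neg]; push_cast; ring

theorem gr_le {Λ : Lat} (h : Λ.Ok) {z : Pt} {R : ℕ} {D : Finset Pt} (hD : D ⊆ bl z R) {f : Pt → ℝ}
    {K : ℝ} (hK : 0 ≤ K) (hf : ∀ x ∈ D, f x ≤ K) (x : Pt) :
    gr D (eD Λ D) f x ≤ K * ((R : ℝ) + Λ.rg) ^ 2 := by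
  by_cases hx' : x ∈ D
  swap
  · rw [(co_eD h D).gr_sup f x hx']; positivity
  have h1 := le_of_lapJ h (u := gr D (eD Λ D) f + K • fun w : Pt => ((w.1 : ℝ) - z.1) ^ 2)
    (M := K * ((R : ℝ) + Λ.rg) ^ 2) (fun w hw y hy hn => by
      rw [Pi.add_apply, (co_eD h D).gr_sup f _ hn, zero_add, Pi.smul_apply, smul_eq_mul]
      refine mul_le_mul_of_nonneg_left ?_ hK
      have h2 := (mem_bl_abs.1 (hD hw)).1
      have h3 := (Lat.le_rg hy).1
      have h4 : |(w + y).1 - z.1| ≤ R + Λ.rg := by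
        rw [abs_le] at h2 h3 ⊢; rw [Prod.fst_add]; omega
      have h5 : |((w + y).1 : ℝ) - z.1| ≤ R + Λ.rg := by exact_mod_cast h4
      rw [← sq_abs]
      exact pow_le_pow_left₀ (abs_nonneg _) h5 2) (fun w hw => by
      rw [lapJ_add, lapJ_smul, Pi.add_apply, Pi.smul_apply, lapJ_gr h f hw, lapJ_sq h, smul_eq_mul]
      nlinarith [hf w hw, h.one_le_a]) hx'
  rw [Pi.add_apply, Pi.smul_apply, smul_eq_mul] at h1
  linarith [mul_nonneg hK (sq_nonneg ((x.1 : ℝ) - z.1))]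

end Gs57

open Gs57 in
/-- P5: size of the Green function -/
theorem gszStmt : GszStmt := by
  obtain ⟨C, hC, h⟩ := G_log
  obtain ⟨C', hC', h'⟩ := hs_nL
  refine ⟨C + C', fun Λ z R D hΛ hR hD => ?_⟩
  have h2 : ∑ x ∈ D, ∑ y ∈ D, GD Λ D (dl x) (dl y) ^ 2 ≤ (C + C') * (R : ℝ) ^ 4 :=
    ((hs_mono (co_eD hΛ D) (co_eD nL_ok D) (GD_le_nL hΛ D)).trans (h' z R D hR hD)).trans
      (by gcongr; linarith)
  refine ⟨fun x hx' y hy => (h z R D hR hD x hx' y hy).trans ?_, h2, fun f K hK hf x => ?_,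
    fun ι T β hβ => (blks_le (co_eD hΛ D) hβ).trans h2⟩
  · have := Real.log_nonneg (one_le_arg hR (hD hx') (hD hy))
    gcongr; linarith
  · refine abs_le.2 ⟨?_, gr_le hΛ hD hK (fun w hw => (abs_le.1 (hf w hw)).2) x⟩
    have := gr_le hΛ hD (f := -f) hK (fun w hw => by
      rw [Pi.neg_apply]; linarith [(abs_le.1 (hf w hw)).1]) x
    rw [(co_eD hΛ D).gr_neg, Pi.neg_apply] at this
    linarith

end Crest.Agent.T145.Pot
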