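import Crest.Agent.T145.KrP0_75
import Crest.Agent.T145.PotGs_57

/-!
# Row 145 (helper17): nearest neighbour potential theory with a horizontal slit

The slit removes the vertical edges `((i, -1), (i, 0))`, `a ≤ i < b`.  Barrier, even reflection, sizes of the
Green function.
-/

set_option autoImplicit false

namespace Crest.Agent.T145.Pot

open Finset Ho14 P75

namespace Sl

/-- reflection in the line `x₂ = -1/2` -/
def rf : Pt ≃ Pt :=
  ⟨fun x => (x.1, -1 - x.2), fun x => (x.1, -1 - x.2), fun x => by simp, fun x => by simp⟩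

@[simp] theorem rf_fst (x : Pt) : (rf x).1 = x.1 := rfl
@[simp] theorem rf_snd (x : Pt) : (rf x).2 = -1 - x.2 := rfl
@[simp] theorem rf_rf (x : Pt) : rf (rf x) = x := rf.left_inv x
theorem rf_mk (i j : ℤ) : rf (i, j) = (i, -1 - j) := rfl

/-- `u` above, `v` below the line -/
def gl (u v : Pt → ℝ) (x : Pt) : ℝ := if 0 ≤ x.2 then u x else v x
/-- even extension of the upper half -/
def up (u : Pt → ℝ) : Pt → ℝ := gl u (u ∘ rf)
/-- even extension of the lower half -/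
def dn (u : Pt → ℝ) : Pt → ℝ := gl (u ∘ rf) u

/-- the vertical edge below `(i, 0)` -/
def se (i : ℤ) : Pt × Pt := ((i, -1), (i, 0))

/-- the edges meeting `D`, without the slit -/
noncomputable def eds (D : Finset Pt) (a b : ℤ) : Finset (Pt × Pt) := nL.edT D \ (Ico a b).image se

/-- their Dirichlet form -/
noncomputable def eS (D : Finset Pt) (a b : ℤ) : Bf Pt := edF (eds D a b)

variable {D : Finset Pt} {a b : ℤ} {u v w f : Pt → ℝ} {x : Pt}

theorem gl_up (h : 0 ≤ x.2) : gl u v x = u x := if_pos h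
theorem gl_dn (h : x.2 < 0) : gl u v x = v x := if_neg h.not_ge
theorem gl_self (u : Pt → ℝ) : gl u u = u := by funext x; simp [gl]
theorem gl_up_dn (u : Pt → ℝ) : gl (up u) (dn u) = u := by
  funext x; by_cases h : 0 ≤ x.2 <;> simp [gl, up, dn, h]
theorem dn_eq (u : Pt → ℝ) : dn u = up (u ∘ rf) := by funext x; simp [gl, up, dn]
theorem up_rf (u : Pt → ℝ) (x : Pt) : up u (rf x) = up u x := by
  by_cases h : 0 ≤ x.2
  · rw [up, gl_up h, gl_dn (by simp; omega)]; simp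
  · rw [up, gl_dn (not_le.1 h), gl_up (by simp; omega)]; simp
theorem dn_rf (u : Pt → ℝ) (x : Pt) : dn u (rf x) = dn u x := by rw [dn_eq, up_rf]
theorem up_sub (u v : Pt → ℝ) : up (u - v) = up u - up v := by
  funext x; by_cases h : 0 ≤ x.2 <;> simp [gl, up, h]
theorem dn_sub (u v : Pt → ℝ) : dn (u - v) = dn u - dn v := by
  funext x; by_cases h : 0 ≤ x.2 <;> simp [gl, dn, h]
theorem up_cases (u : Pt → ℝ) (x : Pt) : up u x = u x ∨ up u x = u (rf x) := by
  by_cases h : 0 ≤ x.2 <;> simp [gl, up, h]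
theorem dn_cases (u : Pt → ℝ) (x : Pt) : dn u x = u x ∨ dn u x = u (rf x) := by
  by_cases h : 0 ≤ x.2 <;> simp [gl, dn, h]

theorem rf_mem_bl {z : Pt} {r : ℕ} : rf x ∈ bl z r ↔ x ∈ bl (rf z) r := by
  simp only [mem_bl, rf_fst, rf_snd]; omega

theorem sup_gl (hu : Sup D u) (hv : Sup D v) : Sup D (gl u v) := fun x hx => by
  simp [gl, hu x hx, hv x hx]

theorem F_rf (hu : F u) : F (u ∘ rf) :=
  let ⟨D, hD⟩ := hu
  ⟨D.map rf.toEmbedding, fun x hx => hD _ fun h => hx (mem_map.2 ⟨rf x, h, by simp⟩)⟩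

theorem F_gl (hu : F u) (hv : F v) : F (gl u v) :=
  let ⟨D, h1, h2⟩ := common hu hv
  ⟨D, sup_gl h1 h2⟩

theorem F_up (hu : F u) : F (up u) := F_gl hu (F_rf hu)
theorem F_dn (hu : F u) : F (dn u) := F_gl (F_rf hu) hu

theorem F_mul (hu : F u) (w : Pt → ℝ) : F fun x => w x * u x := hu.imp fun _ h => h.mul w

theorem F_summ (hu : F u) : Summable fun x => u x ^ 2 := by simpa only [pow_two] using hu.summ u

theorem S_equiv (σ : Pt ≃ Pt) (u : Pt → ℝ) : S (u ∘ σ) = S u := σ.tsum_eq fun x => u x ^ 2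

theorem S_add_eq {u' v' : Pt → ℝ} (hu : F u) (hv : F v) (hu' : F u') (hv' : F v')
    (h : ∀ x, u x ^ 2 + v x ^ 2 = u' x ^ 2 + v' x ^ 2) : S u + S v = S u' + S v' := by
  rw [S, S, S, S, ← (F_summ hu).tsum_add (F_summ hv), ← (F_summ hu').tsum_add (F_summ hv')]
  exact tsum_congr h

theorem S_up_dn (hu : F u) : S (up u) + S (dn u) = 2 * S u := by
  rw [S_add_eq (F_up hu) (F_dn hu) hu (F_rf hu) fun x => by
    by_cases h : 0 ≤ x.2 <;> simp [gl, up, dn, h, add_comm], S_equiv, two_mul]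

theorem S_le {u' : Pt → ℝ} (hu' : F u') (h : ∀ x, u x ^ 2 ≤ u' x ^ 2) : S u ≤ S u' :=
  Summable.tsum_le_tsum h ((F_summ hu').of_nonneg_of_le (fun _ => sq_nonneg _) h) (F_summ hu')

theorem EJ_nL (u : Pt → ℝ) : EJ nL u = S (dif (1, 0) u) + S (dif (0, 1) u) := by
  rw [EJ, nL_Jp, sum_pair (by decide)]

theorem se_inj : Function.Injective se := fun i j h => by simpa [se] using h

theorem mem_eds {e : Pt × Pt} :
    e ∈ eds D a b ↔ e ∈ nL.edT D ∧ ∀ i, a ≤ i → i < b → se i ≠ e := by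
  simp [eds]

theorem eds_sub (D : Finset Pt) (a b : ℤ) : eds D a b ⊆ nL.edT D := sdiff_subset

theorem eds_nn : ∀ e ∈ eds D a b, e.2 - e.1 ∈ nL.Jp := fun _ he => (Lat.mem_edT.1 (eds_sub _ _ _ he)).1

theorem sy_eS (D : Finset Pt) (a b : ℤ) : Sy (eS D a b) := sy_edF _
theorem mk_eS (D : Finset Pt) (a b : ℤ) : Mk (eS D a b) := mk_edF _
theorem eS_le (D : Finset Pt) (a b : ℤ) (u : Pt → ℝ) : eS D a b u u ≤ eD nL D u u :=
  edF_mono (eds_sub _ _ _) u

/-- a form whose edges at `D` are the lattice edges off the slit -/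
theorem edF_eq_eS {ed : Finset (Pt × Pt)} (h : ∀ e : Pt × Pt, e.1 ∈ D ∨ e.2 ∈ D →
    (e ∈ ed ↔ e.2 - e.1 ∈ nL.Jp ∧ ∀ i, a ≤ i → i < b → se i ≠ e)) (u : Pt → ℝ) (hv : Sup D v) :
    edF ed u v = eS D a b u v := by
  rw [eS, edF_apply, edF_apply]
  refine (sum_subset (fun e he => ?_) fun e he hn => ?_).symm
  · rw [mem_eds, Lat.mem_edT] at he
    exact (h e he.1.2).2 ⟨he.1.1, he.2⟩
  · have : ¬ (e.1 ∈ D ∨ e.2 ∈ D) := fun h1 =>
      hn (mem_eds.2 ⟨Lat.mem_edT.2 ⟨((h e h1).1 he).1, h1⟩, ((h e h1).1 he).2⟩)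
    rw [not_or] at this
    simp [hv _ this.1, hv _ this.2]

theorem eS_of_sup {D' : Finset Pt} (hD : D' ⊆ D) (u : Pt → ℝ) (hv : Sup D' v) :
    eS D a b u v = eS D' a b u v :=
  edF_eq_eS (fun e he => by
    rw [mem_eds, Lat.mem_edT]
    exact ⟨fun h => ⟨h.1.1, h.2⟩, fun h => ⟨⟨h.1, he.imp (@hD _) (@hD _)⟩, h.2⟩⟩) u hv

theorem eS_eq (u : Pt → ℝ) (hv : Sup D v) : eS D a b u v =
    eD nL D u v - ∑ i ∈ Ico a b, (u (i, 0) - u (i, -1)) * (v (i, 0) - v (i, -1)) := by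
  rw [eS, eD, edF_apply, edF_apply, eds, ← sum_inter_add_sum_sdiff (nL.edT D) ((Ico a b).image se),
    sum_subset (inter_subset_right (s₁ := nL.edT D)) fun e he hn => ?_,
    sum_image fun _ _ _ _ h => se_inj h]
  · simp [se]
  · obtain ⟨i, -, rfl⟩ := mem_image.1 he
    have : ¬ ((i, -1) ∈ D ∨ (i, 0) ∈ D) := fun h1 =>
      hn (mem_inter.2 ⟨Lat.mem_edT.2 ⟨by simp [se, nL_Jp], h1⟩, he⟩)
    rw [not_or] at this
    simp [se, hv _ this.1, hv _ this.2]

theorem co_eS (D : Finset Pt) (a b : ℤ) : Co D (eS D a b) := co_edF fun x hx => by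
  obtain ⟨R, hR⟩ := exists_subset_bl D x
  have key : ∀ n : ℕ, (∃ y, y ∉ D ∧ Relation.ReflTransGen
      (fun u v => (u, v) ∈ eds D a b ∨ (v, u) ∈ eds D a b) x y) ∨ ((x.1 + n, x.2) ∈ D ∧
      Relation.ReflTransGen (fun u v => (u, v) ∈ eds D a b ∨ (v, u) ∈ eds D a b) x (x.1 + n, x.2)) := by
    intro n
    induction n with
    | zero => exact Or.inr ⟨by simpa using hx, by simpa using Relation.ReflTransGen.refl⟩
    | succ n ih =>
      rcases ih with h | ⟨h1, h2⟩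
      · exact Or.inl h
      have h3 := h2.tail (c := (x.1 + (n + 1 : ℕ), x.2)) (Or.inl (mem_eds.2
        ⟨Lat.mem_edT.2 ⟨by simp [nL_Jp], Or.inl h1⟩, fun i _ _ h => by simp [se] at h; omega⟩))
      by_cases h4 : (x.1 + (n + 1 : ℕ), x.2) ∈ D
      · exact Or.inr ⟨h4, h3⟩
      · exact Or.inl ⟨_, h4, h3⟩
  refine (key (R + 1)).resolve_right fun h => ?_
  have := mem_bl.1 (hR h.1)
  simp at this

/-- the operator of the slit form -/
theorem op_eS (hx : x ∈ D) (u : Pt → ℝ) : op (eS D a b) u x = -lap u x -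
    if (a ≤ x.1 ∧ x.1 < b) ∧ (x.2 = 0 ∨ x.2 = -1) then u x - u (rf x) else 0 := by
  rw [op, eS_eq u (sup_dl hx)]
  congr 1
  · exact op_eD nL_ok hx u
  obtain ⟨p, q⟩ := x
  simp only [Pi.single_apply, Prod.mk.injEq, rf_mk]
  by_cases h0 : q = 0
  · subst h0
    rw [sum_congr rfl (g := fun i => if i = p then u (i, 0) - u (i, -1) else 0) fun i _ => by simp]
    simp
  by_cases h1 : q = -1
  · subst h1
    rw [sum_congr rfl (g := fun i => if i = p then u (i, -1) - u (i, 0) else 0) fun i _ => by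
      by_cases h : i = p <;> simp [h]]
    simp
  · simp [h0, h1, Ne.symm h0, Ne.symm h1]

theorem lap_rf (u : Pt → ℝ) (x : Pt) : lap (u ∘ rf) x = lap u (rf x) := by
  simp only [lap_apply, Function.comp_apply, rf_mk, rf_fst, rf_snd]
  rw [show -1 - (x.2 + 1) = -1 - x.2 - 1 by ring, show -1 - (x.2 - 1) = -1 - x.2 + 1 by ring]; ring

theorem lap_up_rf (u : Pt → ℝ) (x : Pt) : lap (up u) (rf x) = lap (up u) x := by
  rw [← lap_rf]; congr 1; funext y; exact up_rf u y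

theorem op_eS_off (hx : x ∈ D) (h : ¬ ((a ≤ x.1 ∧ x.1 < b) ∧ (x.2 = 0 ∨ x.2 = -1))) (u : Pt → ℝ) :
    op (eS D a b) u x = -lap u x := by rw [op_eS hx, if_neg h, sub_zero]

theorem op_eS_up (hx : x ∈ D) (h0 : 0 ≤ x.2) (h : x.2 = 0 → a ≤ x.1 ∧ x.1 < b) (u : Pt → ℝ) :
    op (eS D a b) u x = -lap (up u) x := by
  rw [op_eS hx, lap_apply, lap_apply, up, gl_up (x := (x.1 + 1, x.2)) h0, gl_up (x := (x.1 - 1, x.2)) h0,
    gl_up (x := (x.1, x.2 + 1)) (by simp; omega), gl_up h0]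
  by_cases h1 : x.2 = 0
  · rw [if_pos ⟨h h1, Or.inl h1⟩, gl_dn (by simp; omega)]
    obtain ⟨p, q⟩ := x
    simp only at h1
    subst h1
    simp [rf_mk]; ring
  · rw [if_neg (by omega), gl_up (by simp; omega), sub_zero]

theorem op_eS_dn (hx : x ∈ D) (h0 : x.2 < 0) (h : x.2 = -1 → a ≤ x.1 ∧ x.1 < b) (u : Pt → ℝ) :
    op (eS D a b) u x = -lap (dn u) x := by
  rw [op_eS hx, lap_apply, lap_apply, dn, gl_dn (x := (x.1 + 1, x.2)) h0, gl_dn (x := (x.1 - 1, x.2)) h0,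
    gl_dn (x := (x.1, x.2 - 1)) (by simp; omega), gl_dn h0]
  by_cases h1 : x.2 = -1
  · rw [if_pos ⟨h h1, Or.inr h1⟩, gl_up (by simp; omega)]
    obtain ⟨p, q⟩ := x
    simp only at h1
    subst h1
    simp [rf_mk]; ring
  · rw [if_neg (by omega), gl_dn (by simp; omega), sub_zero]

/-- over the slit the even extensions solve the reflected equation -/
theorem lap_up (hx : x ∈ D) (hx' : rf x ∈ D) (h : a ≤ x.1 ∧ x.1 < b) (u : Pt → ℝ) :
    lap (up u) x = -up (op (eS D a b) u) x := by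
  by_cases h0 : 0 ≤ x.2
  · rw [up, up, gl_up h0, op_eS_up hx h0 (fun _ => h), neg_neg, up]
  · rw [← lap_up_rf, ← up_rf _ x, up, up, gl_up (by simp; omega),
      op_eS_up hx' (by simp; omega) (fun _ => h), neg_neg, up]

theorem lap_dn (hx : x ∈ D) (hx' : rf x ∈ D) (h : a ≤ x.1 ∧ x.1 < b) (u : Pt → ℝ) :
    lap (dn u) x = -dn (op (eS D a b) u) x := by
  by_cases h0 : x.2 < 0
  · rw [dn, dn, gl_dn h0, op_eS_dn hx h0 (fun _ => h), neg_neg, dn]
  · rw [dn_eq u, ← lap_up_rf, ← dn_eq, ← dn_rf _ x, dn, dn, gl_dn (by simp; omega),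
      op_eS_dn hx' (by simp; omega) (fun _ => h), neg_neg, dn]

/-- the barrier: functions of the first coordinate do not see the slit -/
theorem abs_gr_le {z : Pt} {R : ℕ} (hD : D ⊆ bl z R) {K : ℝ} (hK : 0 ≤ K) (hf : ∀ x ∈ D, |f x| ≤ K)
    (x : Pt) : |gr D (eS D a b) f x| ≤ K * ((R : ℝ) + 1) ^ 2 := by
  have co := co_eS D a b
  refine (co.abs_gr_le (mk_eS D a b) (g := fun _ => K) hf x).trans ?_
  by_cases hx : x ∈ D
  swap
  · rw [co.gr_sup _ x hx]; positivity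
  set q : Pt → ℝ := fun w => ((w.1 : ℝ) - z.1) ^ 2 with hq
  have h1 := le_of_sub_ed co (u := gr D (eS D a b) (fun _ => K) + K • q) (M := K * ((R : ℝ) + 1) ^ 2)
    (fun e he => ?_) (fun v hv h0 => ?_) hx
  · rw [Pi.add_apply, Pi.smul_apply, smul_eq_mul] at h1
    linarith [mul_nonneg hK (sq_nonneg ((x.1 : ℝ) - z.1))]
  · have key : ∀ y y' : Pt, y' ∈ D → y ∈ bl y' 1 → y ∉ D →
        (gr D (eS D a b) (fun _ => K) + K • q) y ≤ K * ((R : ℝ) + 1) ^ 2 := fun y y' h1 h2 h3 => by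
      rw [Pi.add_apply, co.gr_sup _ _ h3, zero_add, Pi.smul_apply, smul_eq_mul]
      refine mul_le_mul_of_nonneg_left ?_ hK
      have h4 : |y.1 - z.1| ≤ R + 1 := by
        have := mem_bl.1 (hD h1); have := mem_bl.1 h2; rw [abs_le]; omega
      have h5 : |(y.1 : ℝ) - z.1| ≤ R + 1 := by exact_mod_cast h4
      exact sq_le_sq' (abs_le.1 h5).1 (abs_le.1 h5).2
    obtain ⟨h1, h2⟩ := Lat.mem_edT.1 (eds_sub _ _ _ he)
    exact ⟨fun h => key _ _ (h2.resolve_left h) (nL_rg ▸ Lat.edge_near' h1) h,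
      fun h => key _ _ (h2.resolve_right h) (nL_rg ▸ Lat.edge_near h1) h⟩
  · rw [← eS, ← ip_op D _ _ hv]
    refine sum_nonpos fun y hy => mul_nonpos_of_nonpos_of_nonneg ?_ (h0 y)
    have h2 : lap q y = 2 := (Gs57.lapJ_sq nL_ok z y).trans (by rw [nL_a, mul_one])
    rw [op_add, op_smul, Pi.add_apply, co.op_gr _ hy, Pi.smul_apply, op_eS hy, h2]
    simp [hq]; linarith

/-- **even reflection**: the two even extensions have at most twice the slit energy -/
theorem EJ_up_dn (hu : Sup D u) : EJ nL (up u) + EJ nL (dn u) ≤ 2 * eS D a b u u := by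
  have Fu : F u := ⟨D, hu⟩
  set w : Pt → ℝ := fun x => (if x.2 = -1 then 0 else 1) * dif (0, 1) u x with hw
  set w' : Pt → ℝ := fun x => (if x.2 = -1 then 1 else 0) * dif (0, 1) u x with hw'
  have Fw : F w := F_mul (Fu.dif _) _
  have Fw' : F w' := F_mul (Fu.dif _) _
  let σ : Pt ≃ Pt := rf.trans (Equiv.addRight (0, -1))
  have hσ : ∀ i j, σ (i, j) = (i, -2 - j) := fun i j => by simp [σ, rf_mk]; ring
  have h1 : dif (1, 0) (up u) = up (dif (1, 0) u) := by
    funext ⟨i, j⟩; by_cases h : 0 ≤ j <;> simp [dif, up, gl, h, rf_mk]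
  have h2 : dif (1, 0) (dn u) = dn (dif (1, 0) u) := by
    funext ⟨i, j⟩; by_cases h : 0 ≤ j <;> simp [dif, dn, gl, h, rf_mk]
  have h3 := S_add_eq ((F_up Fu).dif (0, 1)) ((F_dn Fu).dif (0, 1)) Fw
    (show F (w ∘ σ) from (F_rf (Fw.shift (0, -1)))) fun ⟨i, j⟩ => by
      simp only [hw, Function.comp_apply, hσ, dif, up, dn, gl, Prod.mk_add_mk, add_zero, rf_mk]
      rcases lt_trichotomy j (-1) with h | rfl | h
      · rw [if_neg (by omega), if_neg (by omega), if_neg (by omega), if_neg (by omega), if_neg (by omega),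
          if_neg (by omega), show -1 - (j + 1) = -2 - j by ring, show -2 - j + 1 = -1 - j by ring]
        ring
      · simp
      · rw [if_pos (by omega), if_pos (by omega), if_pos (by omega), if_pos (by omega), if_neg (by omega),
          if_neg (by omega), show -1 - (j + 1) = -2 - j by ring, show -2 - j + 1 = -1 - j by ring]
        ring
  have h4 := S_add_eq Fw Fw' (Fu.dif (0, 1)) F_zero fun x => by
    by_cases h : x.2 = -1 <;> simp [hw, hw', h]
  have h5 : ∑ i ∈ Ico a b, (u (i, 0) - u (i, -1)) * (u (i, 0) - u (i, -1)) ≤ S w' := by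
    refine le_trans (le_of_eq ?_) ((F_summ Fw').sum_le_tsum ((Ico a b).image fun i => (i, -1))
      fun _ _ => sq_nonneg _)
    rw [sum_image fun _ _ _ _ h => by simpa using h]
    exact sum_congr rfl fun i _ => by simp [hw', dif, pow_two]
  have h6 : S (0 : Pt → ℝ) = 0 := by simp [S]
  rw [eS_eq u hu, ← EJ_eq nL_ok hu, EJ_nL, EJ_nL, EJ_nL, h1, h2]
  rw [S_equiv] at h3
  linarith [S_up_dn (Fu.dif (1, 0))]

theorem EJ_up_le (hu : Sup D u) : EJ nL (up u) ≤ 2 * eS D a b u u := by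
  linarith [EJ_up_dn (a := a) (b := b) hu, EJ_nonneg nL (dn u)]

theorem EJ_dn_le (hu : Sup D u) : EJ nL (dn u) ≤ 2 * eS D a b u u := by
  linarith [EJ_up_dn (a := a) (b := b) hu, EJ_nonneg nL (up u)]

/-- the horizontal edges are all there -/
theorem S_dif_le (hu : Sup D u) : S (dif (1, 0) u) ≤ eS D a b u u := by
  have Fu : F u := ⟨D, hu⟩
  have h5 : ∑ i ∈ Ico a b, (u (i, 0) - u (i, -1)) * (u (i, 0) - u (i, -1)) ≤ S (dif (0, 1) u) := by
    refine le_trans (le_of_eq ?_) ((F_summ (Fu.dif _)).sum_le_tsum ((Ico a b).image fun i => (i, -1))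
      fun _ _ => sq_nonneg _)
    rw [sum_image fun _ _ _ _ h => by simpa using h]
    exact sum_congr rfl fun i _ => by simp [dif, pow_two]
  rw [eS_eq u hu, ← EJ_eq nL_ok hu, EJ_nL]
  linarith

/-- Poincaré inequality -/
theorem poinS {z : Pt} {R : ℕ} (hD : D ⊆ bl z R) (hu : Sup D u) :
    √(S u) ≤ (2 * R + 1) * √(eS D a b u u) := by
  have Fu : F u := ⟨D, hu⟩
  have h1 := N_dif_zsmul Fu (1, 0) (2 * R + 1)
  have h2 : S u ≤ S (dif ((2 * R + 1 : ℤ) • ((1, 0) : Pt)) u) := S_le (Fu.dif _) fun x => by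
    by_cases hx : x ∈ D
    · rw [dif, hu (x + _) fun h => by
        have h3 := mem_bl.1 (hD hx); have h4 := mem_bl.1 (hD h); simp at h4; omega]
      simp
    · rw [hu x hx]; simp; positivity
  refine (Real.sqrt_le_sqrt h2).trans (h1.trans (mul_le_mul ?_ (Real.sqrt_le_sqrt (S_dif_le hu))
    (Real.sqrt_nonneg _) (by positivity)))
  push_cast; rw [abs_of_nonneg (by positivity)]

/-- gluing along the slit -/
theorem eS_gl (hu : F u) (hv : F v)
    (h : ∀ i, ¬ (a ≤ i ∧ i < b) → u (i, 0) = 0 ∧ v (i, -1) = 0) :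
    eS D a b (gl u v) (gl u v) ≤ EJ nL u + EJ nL v := by
  obtain ⟨T, h1, h2⟩ := common hu hv
  have h1' := h1.mono (subset_union_left (s₂ := D))
  have h2' := h2.mono (subset_union_left (s₂ := D))
  rw [EJ_eq nL_ok h1', EJ_eq nL_ok h2', eS, eD, edF_self, edF_self, edF_self, ← sum_add_distrib]
  refine (sum_le_sum fun e he => ?_).trans (sum_le_sum_of_subset_of_nonneg
    ((eds_sub _ _ _).trans (Lat.edT_mono subset_union_right)) fun _ _ _ => by positivity)
  have h3 := eds_nn e he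
  have h4 := (mem_eds.1 he).2
  obtain ⟨⟨i, j⟩, ⟨i', j'⟩⟩ := e
  simp only [nL_Jp, mem_insert, mem_singleton, Prod.mk_sub_mk, Prod.mk.injEq] at h3
  by_cases h0 : 0 ≤ j
  · rw [gl_up (x := (i, j)) h0, gl_up (x := (i', j')) (by simp; omega)]; linarith [sq_nonneg (v (i', j') - v (i, j))]
  by_cases h0' : 0 ≤ j'
  · obtain rfl : j = -1 := by omega
    obtain rfl : j' = 0 := by omega
    obtain rfl : i' = i := by omega
    have := h i' fun h5 => h4 i' h5.1 h5.2 rfl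
    rw [gl_up (x := (i', 0)) le_rfl, gl_dn (x := (i', -1)) (by simp), this.1, this.2]
    simp; positivity
  · rw [gl_dn (x := (i, j)) (not_le.1 h0), gl_dn (x := (i', j')) (not_le.1 h0')]
    linarith [sq_nonneg (u (i', j') - u (i, j))]

/-- a function that does not jump across the slit -/
theorem eS_eq_eD (hv : Sup D v) (h : ∀ i, a ≤ i → i < b → u (i, 0) = u (i, -1)) :
    eS D a b u v = eD nL D u v := by
  rw [eS_eq u hv, sum_eq_zero fun i hi => by simp [h i (mem_Ico.1 hi).1 (mem_Ico.1 hi).2], sub_zero]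

/-- **Loewner comparison** with the two halves of a symmetric domain without slit -/
theorem G_le {D' : Finset Pt} (hD : D ⊆ D') (hD' : ∀ x ∈ D, rf x ∈ D') (f : Pt → ℝ) :
    G D (eS D a b) f f ≤
      2 * (GD nL D' (gl (on D f) 0) (gl (on D f) 0) + GD nL D' (gl 0 (on D f)) (gl 0 (on D f))) := by
  have co := co_eD nL_ok D'
  have g1 := co.G_nonneg (gl (on D f) 0)
  have g2 := co.G_nonneg (gl 0 (on D f))
  refine (co_eS D a b).G_le_of (by rw [GD, GD]; positivity) fun u hu => ?_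
  have hr : Sup D' (u ∘ rf) := fun x hx => hu _ fun h => hx (by simpa using hD' _ h)
  have s1 : Sup D' (up u) := sup_gl (hu.mono hD) hr
  have s2 : Sup D' (dn u) := sup_gl hr (hu.mono hD)
  have e : ip D f u = ip D' (gl (on D f) 0) (up u) + ip D' (gl 0 (on D f)) (dn u) := by
    rw [← ip_on_left hD, ip, ip, ip, ← sum_add_distrib]
    exact sum_congr rfl fun x _ => by by_cases h : 0 ≤ x.2 <;> simp [gl, up, dn, h]
  have k1 := co.ip_sq_le (gl (on D f) 0) s1
  have k2 := co.ip_sq_le (gl 0 (on D f)) s2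
  have k3 := EJ_up_dn (a := a) (b := b) hu
  rw [EJ_eq nL_ok s1, EJ_eq nL_ok s2] at k3
  have e1 := co.nonneg (up u)
  have e2 := co.nonneg (dn u)
  rw [e, GD, GD]
  generalize ip D' (gl (on D f) 0) (up u) = p at *
  generalize ip D' (gl 0 (on D f)) (dn u) = q at *
  generalize G D' (eD nL D') (gl (on D f) 0) (gl (on D f) 0) = P at *
  generalize G D' (eD nL D') (gl 0 (on D f)) (gl 0 (on D f)) = Q at *
  generalize eD nL D' (up u) (up u) = A at *
  generalize eD nL D' (dn u) (dn u) = B at *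
  have k4 : (p * q) ^ 2 ≤ (P * B + Q * A) ^ 2 / 4 := by
    have := mul_le_mul k1 k2 (sq_nonneg _) (mul_nonneg g1 e1)
    nlinarith [sq_nonneg (P * B - Q * A)]
  have k5 : p * q ≤ (P * B + Q * A) / 2 :=
    (abs_le_of_sq_le_sq' (by rw [div_pow]; linarith) (by positivity)).2
  nlinarith [mul_le_mul_of_nonneg_left k3 (add_nonneg g1 g2)]

/-- a charge on one side of the line -/
theorem G_le_side {D' : Finset Pt} (hD : D ⊆ D') (hD' : ∀ x ∈ D, rf x ∈ D') (hf : Sup D f)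
    (h : (∀ x, f x ≠ 0 → 0 ≤ x.2) ∨ ∀ x, f x ≠ 0 → x.2 < 0) : G D (eS D a b) f f ≤ 2 * GD nL D' f f := by
  have e : on D f = f := by funext x; by_cases hx : x ∈ D <;> simp [on, hx, hf x]
  have z : GD nL D' 0 0 = 0 := by simp [GD, G]
  refine (G_le hD hD' f).trans_eq ?_
  rw [e]
  rcases h with h | h
  · have h1 : gl f 0 = f := by
      funext x; by_cases hx : 0 ≤ x.2
      · exact gl_up hx
      · rw [gl_dn (not_le.1 hx)]; exact (by_contra fun hn => hx (h x hn) : f x = 0).symm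
    have h2 : gl 0 f = 0 := by
      funext x; by_cases hx : 0 ≤ x.2
      · exact gl_up hx
      · rw [gl_dn (not_le.1 hx)]; exact by_contra fun hn => hx (h x hn)
    rw [h1, h2, z, add_zero]
  · have h1 : gl 0 f = f := by
      funext x; by_cases hx : 0 ≤ x.2
      · rw [gl_up hx]; exact (by_contra fun hn => hx.not_gt (h x hn) : f x = 0).symm
      · exact gl_dn (not_le.1 hx)
    have h2 : gl f 0 = 0 := by
      funext x; by_cases hx : 0 ≤ x.2
      · rw [gl_up hx]; exact by_contra fun hn => hx.not_gt (h x hn)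
      · exact gl_dn (not_le.1 hx)
    rw [h1, h2, z, zero_add]

/-- Hilbert–Schmidt norm -/
theorem hs_le {D' : Finset Pt} (hD : D ⊆ D') (hD' : ∀ x ∈ D, rf x ∈ D') :
    ∑ x ∈ D, ∑ y ∈ D, G D (eS D a b) (dl x) (dl y) ^ 2 ≤
      4 * ∑ x ∈ D, ∑ y ∈ D, GD nL D' (dl x) (dl y) ^ 2 := by
  have co := co_eD nL_ok D'
  set p : Pt → ℝ := gl (on D 1) 0 with hp
  set q : Pt → ℝ := gl 0 (on D 1) with hq
  set M : Bf Pt := (2 : ℝ) • (co.GF.compl₁₂ (LinearMap.mulLeft ℝ p) (LinearMap.mulLeft ℝ p) +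
    co.GF.compl₁₂ (LinearMap.mulLeft ℝ q) (LinearMap.mulLeft ℝ q)) with hM
  have h1 := Gs57.tr_mono (co_eS D a b) (M := (co_eS D a b).GF) (M' := M) fun f => by
    have e1 : gl (on D f) 0 = p * f := by
      funext x; by_cases h : 0 ≤ x.2 <;> by_cases h' : x ∈ D <;> simp [hp, gl, on, h, h']
    have e2 : gl 0 (on D f) = q * f := by
      funext x; by_cases h : 0 ≤ x.2 <;> by_cases h' : x ∈ D <;> simp [hq, gl, on, h, h']
    have := G_le (a := a) (b := b) hD hD' f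
    rw [e1, e2, mul_add] at this
    simpa [hM, Co.GF_apply, GD] using this
  have h2 : ∀ x y, M (dl x) (dl y) ^ 2 ≤ 4 * GD nL D' (dl x) (dl y) ^ 2 := fun x y => by
    have e : ∀ (r : Pt → ℝ) (x : Pt), r * dl x = r x • dl x := fun r x => by
      funext y; by_cases h : y = x <;> simp [Pi.single_apply, h]
    have : M (dl x) (dl y) = 2 * (p x * p y + q x * q y) * GD nL D' (dl x) (dl y) := by
      simp only [hM, LinearMap.smul_apply, LinearMap.add_apply, LinearMap.compl₁₂_apply,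
        LinearMap.mulLeft_apply, e, map_smul, smul_eq_mul, Co.GF_apply, GD]
      ring
    rw [this, mul_pow]
    refine mul_le_mul_of_nonneg_right ?_ (sq_nonneg _)
    by_cases h : 0 ≤ x.2 <;> by_cases h' : x ∈ D <;> by_cases k : 0 ≤ y.2 <;> by_cases k' : y ∈ D <;>
      simp [hp, hq, gl, on, h, h', k, k'] <;> norm_num
  have h3 : ∑ x ∈ D, ∑ y ∈ D, G D (eS D a b) (dl x) (dl y) * M (dl x) (dl y) ≤ ∑ x ∈ D, ∑ y ∈ D,
      (G D (eS D a b) (dl x) (dl y) ^ 2 / 2 + 2 * GD nL D' (dl x) (dl y) ^ 2) :=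
    sum_le_sum fun x _ => sum_le_sum fun y _ => by
      nlinarith [h2 x y, sq_nonneg (G D (eS D a b) (dl x) (dl y) - M (dl x) (dl y))]
  simp only [sum_add_distrib, ← sum_div, ← mul_sum] at h3
  change ∑ x ∈ D, ∑ y ∈ D, G D (eS D a b) (dl x) (dl y) * G D (eS D a b) (dl x) (dl y) ≤
    ∑ x ∈ D, ∑ y ∈ D, G D (eS D a b) (dl x) (dl y) * M (dl x) (dl y) at h1
  simp only [← pow_two] at h1
  linarith

theorem hs_bd : ∃ C : ℝ, 0 ≤ C ∧ ∀ (R : ℕ) (D : Finset Pt) (a b : ℤ), 1 ≤ R → D ⊆ bl 0 R →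
    ∑ x ∈ D, ∑ y ∈ D, G D (eS D a b) (dl x) (dl y) ^ 2 ≤ C * (R : ℝ) ^ 4 := by
  obtain ⟨C, hC, h⟩ := Gs57.hs_nL
  refine ⟨4 * (C * 2 ^ 4), by positivity, fun R D a b hR hD => ?_⟩
  have h1 : D ⊆ bl 0 (2 * R) := hD.trans (bl_mono _ (by omega))
  refine (hs_le h1 fun x hx => ?_).trans ?_
  · have := mem_bl.1 (hD hx)
    simp only [mem_bl, rf_fst, rf_snd, Prod.fst_zero, Prod.snd_zero] at this ⊢; omega
  · rw [mul_assoc 4]
    refine mul_le_mul_of_nonneg_left (le_trans (sum_le_sum_of_subset_of_nonneg h1 (fun _ _ _ => by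
      positivity) |>.trans' (sum_le_sum fun x _ => sum_le_sum_of_subset_of_nonneg h1 fun _ _ _ =>
        sq_nonneg _)) ((h 0 (2 * R) _ (by omega) subset_rfl).trans_eq ?_)) (by norm_num)
    push_cast; ring

end Sl

end Crest.Agent.T145.Pot
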