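import Crest.Agent.T145.KrDef_77
import Crest.Agent.T145.NcGeo_51
import Crest.Agent.T145.ExplU_56

/-!
# Row 145, module KERNEL: the law of the data, `BarStmt` (helper90)
-/

set_option autoImplicit false

namespace Crest.Agent.T145.Kr

open Finset Real KrA

namespace B90
section abs
variable {L X Y : Type}

theorem push_inv {β : Type*} {ρ : L → ℝ} {d : L → β} (e : L ≃ L) (g : β ≃ β) (hρ : ∀ l, ρ (e l) = ρ l)
    (hd : ∀ l, d (e l) = g (d l)) (z : β) : push ρ d (g z) = push ρ d z := by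
  rw [push, push, ← e.tsum_eq]
  exact tsum_congr fun l => by rw [hρ, hd, ind_congr g.apply_eq_iff_eq]

/-- a floating weight `ρ` on any type, its data map `d` and the level shifts `σ` -/
structure Flt (A : Act X) (B : Act Y) (ρ : L → ℝ) (d : L → X × Y) (σ : ℤ → L ≃ L) (n : L ≃ L) : Prop where
  nonneg : ∀ l, 0 ≤ ρ l
  wt : Wt fun l => tw (A.H (d l).1) * ρ l
  ρs : ∀ i l, ρ (σ i l) = ρ l
  ds : ∀ i l, d (σ i l) = (A.s i (d l).1, B.s i (d l).2)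
  ρn : ∀ l, ρ (n l) = ρ l
  dn : ∀ l, d (n l) = (A.ng (d l).1, B.ng (d l).2)

variable {A : Act X} {B : Act Y} {ρ : L → ℝ} {d : L → X × Y} {σ : ℤ → L ≃ L} {n : L ≃ L} {Z : ℝ}

theorem tw_push (A : Act X) (ρ : L → ℝ) (d : L → X × Y) (Z : ℝ) (z : X × Y) :
    tw (A.H z.1) * (push ρ d z / Z) = push (fun l => tw (A.H (d l).1) * ρ l) d z / Z := by
  have := push_mul ρ d (fun z => tw (A.H z.1)) z
  simp only [mul_comm (ρ _)] at this
  rw [this]; ring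

theorem Flt.one (h : Flt A B ρ d σ n) (hZ : Zs (fun l => tw (A.H (d l).1) * ρ l) = Z) :
    HasSum (fun z : X × Y => tw (A.H z.1) * (push ρ d z / Z)) 1 := by
  have := (hasSum_push h.wt.summ d).div_const Z
  rw [show (∑' l, tw (A.H (d l).1) * ρ l) = Z from hZ, div_self (hZ ▸ h.wt.ne)] at this
  simpa only [tw_push] using this

theorem Flt.pre (h : Flt A B ρ d σ n) (hZ : Zs (fun l => tw (A.H (d l).1) * ρ l) = Z) {y : X → Y → ℝ}
    (ya : ∀ i a b, y (A.s i a) b = y a b) (yb : ∀ i a b, y a (B.s i b) = y a b)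
    (yn : ∀ a b, y (A.ng a) (B.ng b) = y a b) : Pre A B (fun z => push ρ d z / Z) y :=
  ⟨fun z => div_nonneg (push_nonneg h.nonneg d z) (hZ ▸ h.wt.pos.le),
    fun i a b => congrArg (· / Z) (push_inv (σ i) ((A.s i).prodCongr (B.s i)) (h.ρs i) (h.ds i) (a, b)),
    fun a b => congrArg (· / Z) (push_inv n (A.ng.prodCongr B.ng) h.ρn h.dn (a, b)), h.one hZ, ya, yb, yn⟩

theorem Flt.tsum (h : Flt A B ρ d σ n) (hZ : Zs (fun l => tw (A.H (d l).1) * ρ l) = Z) {Ψ : X × Y → ℝ}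
    {C : ℝ} (hΨ : ∀ z, |Ψ z| ≤ C) : ∑' z, tw (A.H z.1) * (push ρ d z / Z) * Ψ z =
      Ex (fun l => tw (A.H (d l).1) * ρ l) fun l => Ψ (d l) := by
  rw [Ex_def, hZ, ← tsum_push (h.wt.ig_bdd fun l => hΨ _), ← tsum_div_const]
  exact tsum_congr fun z => by rw [tw_push]; ring

theorem Flt.br (h : Flt A B ρ d σ n) (hZ : Zs (fun l => tw (A.H (d l).1) * ρ l) = Z) {Φ : X → Y → ℝ}
    {C : ℝ} (hΦ : ∀ a b, |Φ a b| ≤ C) (hs : ∀ i a b, Φ a (B.s i b) = Φ a b) :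
    br (mub A B fun z => push ρ d z / Z) Φ =
      Ex (fun l => tw (A.H (d l).1) * ρ l) fun l => Φ (d l).1 (d l).2 :=
  (br_mub A B (fun z => div_nonneg (push_nonneg h.nonneg d z) (hZ ▸ h.wt.pos.le)) (h.one hZ).summable hΦ
    hs).trans (h.tsum hZ (Ψ := fun z => Φ z.1 z.2) fun _ => hΦ _ _)

end abs

theorem resH_cst {U O : Finset Pt} (h : U ⊆ O) (s : Cfg Pt) (i : ℤ) :
    resH U (s + cst O i) = resH U s + cst U i := by
  ext x
  simp only [resH_apply, Finsupp.add_apply, cst_apply]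
  split_ifs with h1 h2
  exacts [rfl, absurd (h h1) h2, rfl]

theorem resH_mapH {U : Finset Pt} {φ : Pt ≃ Pt} (h : U.map φ.toEmbedding = U) (s : Cfg Pt) :
    resH U (mapH φ s) = mapH φ (resH U s) := by
  ext x
  have : x ∈ U ↔ φ.symm x ∈ U := by conv_lhs => rw [← h, mem_map_equiv]
  simp only [resH_apply, mapH_apply, this]

theorem N_cst (Λ : Lat) (U : Finset Pt) (s : Cfg Pt) (i : ℤ) :
    (Λ.N U).W 0 (s + cst U i) = (Λ.N U).W 0 s := by
  simp only [Mdl.W, Lat.N_A, Lat.N_ed, Lat.N_site, Lat.N_w]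
  congr 2
  · exact ind_congr (forall₂_congr fun x hx => by rw [Finsupp.add_apply, cst_of_notMem _ hx, add_zero])
  · refine prod_congr rfl fun e he => ?_
    have := (Lat.mem_edI.1 he).2
    simp only [dE, Finsupp.add_apply, cst_of_mem i this.1, cst_of_mem i this.2, add_sub_add_right_eq_sub]

theorem N_neg {Λ : Lat} (h : Λ.Ok) (U : Finset Pt) (s : Cfg Pt) : (Λ.N U).W 0 (-s) = (Λ.N U).W 0 s := by
  simpa only [neg_zero] using (h.ctr_N U).1.W_neg (fun _ _ _ => ⟨zero_le_one, rfl⟩) 0 s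

theorem N_sym {Λ : Lat} (h : Λ.Ok) {φ : Pt ≃ Pt} (hφ : Λ.Sym φ) {U : Finset Pt}
    (hU : U.map φ.toEmbedding = U) (s : Cfg Pt) : (Λ.N U).W 0 (mapH φ s) = (Λ.N U).W 0 s := by
  have := Md.W_iso (h.ctr_N U).1 (hφ.iso_N h U) 0 s
  rwa [hU, ← mapH_eq, ← mapH_eq, map_zero] at this

/-- the free model on a connected set: a partition of unity along the zero mode replaces the root -/
theorem float {Λ : Lat} (h : Λ.Ok) {U : Finset Pt} (hU : U.Nonempty) (hc : Nc.Geo.CnL Λ U)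
    {u : Cfg Pt → ℝ} (u0 : ∀ s, 0 ≤ u s) (u1 : ∀ s, HasSum (fun i : ℤ => u (s + cst U i)) 1) :
    Wt (fun s => u s * (Λ.N U).W 0 s) ∧ Zs (fun s => u s * (Λ.N U).W 0 s) = Zs (Nc.rW (Λ.N U) U) ∧
    ∀ F : Cfg Pt → ℝ, (∀ s i, F (s + cst U i) = F s) → Ig (Nc.rW (Λ.N U) U) F →
      Ig (fun s => u s * (Λ.N U).W 0 s) F ∧
        Ex (fun s => u s * (Λ.N U).W 0 s) F = Nc.nE (Λ.N U) U F := by
  obtain ⟨r, hr, e⟩ := (Nc.Geo.inL_N (Λ := Λ) (subset_refl U)).rW_Nr hU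
  obtain ⟨⟨h1, h2⟩, h3⟩ := X56.rootU (Λ.N U) r u hr (fun _ he => (Lat.mem_edI.1 he).2) (fun _ _ => rfl) u0 u1
    ((h.ctr_Nr U r).cen (Lat.anch_Nr fun x hx => hc x hx r hr)).wt
  simp only [Nc.nE, e]
  exact ⟨h1, h2, h3⟩

theorem wt_rW {Λ : Lat} (h : Λ.Ok) {U : Finset Pt} (hU : U.Nonempty) (hc : Nc.Geo.CnL Λ U) :
    Cen (Nc.rW (Λ.N U) U) := by
  obtain ⟨r, hr, e⟩ := (Nc.Geo.inL_N (Λ := Λ) (subset_refl U)).rW_Nr hU
  rw [e]; exact (h.ctr_Nr U r).cen (Lat.anch_Nr fun x hx => hc x hx r hr)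

theorem ok_le {G : Gm} {W : ℝ} (h : G.Ok W) : G.c < G.r ∧ G.r < G.R ∧ G.R < G.R₂ := by
  have h1 := h.hc
  have h2 := h.hr
  have h3 := h.out
  have h4 : (1024 * G.r : ℝ) ≤ G.R := (mul_le_mul_of_nonneg_right h.hW (Nat.cast_nonneg _)).trans h.lo
  have h5 : 1024 * G.r ≤ G.R := by exact_mod_cast h4
  omega

theorem In_sub {G : Gm} {W : ℝ} (h : G.Ok W) : G.In ⊆ G.Om :=
  Nc.Geo.an_mono 0 le_rfl (by have := ok_le h; omega)

theorem Ou_sub {G : Gm} {W : ℝ} (h : G.Ok W) : G.Ou ⊆ G.Om :=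
  Nc.Geo.an_mono 0 (by have := ok_le h; omega) le_rfl

theorem dat_cst {G : Gm} {W : ℝ} (h : G.Ok W) (s : Cfg Pt) (i : ℤ) :
    G.dat (s + cst G.Om i) = ((G.dat s).1 + cst G.In i, (G.dat s).2 + cst G.Ou i) :=
  Prod.ext (resH_cst (In_sub h) s i) (resH_cst (Ou_sub h) s i)

end B90

open B90 in
theorem barStmt (hA : AlgStmt) : BarStmt := by
  intro Λ G W g A B hΛ hG hI hO
  have al := hA G W hG
  have lt : G.c < G.R₂ := by have := ok_le hG; omega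
  have ds : ∀ i s, G.dat (s + cst G.Om i) = (A.s i (G.dat s).1, B.s i (G.dat s).2) := fun i s => by
    rw [hI.1, hO.1, dat_cst hG]
  obtain ⟨f1, f2, f3⟩ := float hΛ (U := G.Om) (Nc.Geo.an_nonempty 0 lt) (Nc.Geo.cnL_an hΛ 0 lt)
    (u := fun s => tw (A.H (G.dat s).1)) (fun _ => tw_nonneg _) fun s => by
      simpa only [ds, A.H_s] using hasSum_tw (A.H (G.dat s).1)
  have wr := (wt_rW hΛ (U := G.Om) (Nc.Geo.an_nonempty 0 lt) (Nc.Geo.cnL_an hΛ 0 lt)).wt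
  have h : Flt A B ((Λ.N G.Om).W 0) G.dat (fun i => Equiv.addRight (cst G.Om i)) (Equiv.neg _) :=
    ⟨(hΛ.ctr_N _).1.W_nonneg (fun _ _ _ => zero_le_one) 0, f1, fun i s => N_cst Λ _ s i, ds, N_neg hΛ _,
      fun s => by rw [hI.2.1, hO.2.1]; exact Prod.ext (map_neg _ s) (map_neg _ s)⟩
  refine ⟨h.pre f2 (fun i a b => by rw [hI.1, al.y_in]) (fun i a b => by rw [hO.1, al.y_out]) fun a b => by
    rw [hI.2.1, hO.2.1, (al.y_neg _ _).1, (al.y_neg _ _).2, neg_neg], wr.pos,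
    fun k a b => congrArg (· / G.Z Λ) (push_inv (ga k) ((ga k).prodCongr (ga k))
      (N_sym hΛ (al.sym k Λ hΛ) (al.map_an k _ _).1) (fun s => Prod.ext
        (resH_mapH (al.map_an k _ _).1 s) (resH_mapH (al.map_an k _ _).1 s)) (a, b)),
    fun Ψ C h1 h2 => (h.tsum f2 h1).trans (f3 _ (fun s i => by rw [ds, h2]) (wr.ig_bdd fun _ => h1 _)).2,
    fun Φ C h1 h2 h3 => (h.br f2 h1 h3).trans
      (f3 _ (fun s i => by rw [ds, h2, h3]) (wr.ig_bdd fun _ => h1 _ _)).2⟩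

end Crest.Agent.T145.Kr
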