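import Crest.Agent.T145.KvDef_8
import Crest.Agent.T145.KrBar_90

/-!
# Row 145, module Kv: the law of the data on the extended lattice, `BarStmt` (helper61)
-/

set_option autoImplicit false

namespace Crest.Agent.T145.Kv

open Finset Real KrA Kr.B90

namespace B61

theorem resH_ins {U O : Finset Pt} {k : Pt} (h : U ⊆ O) (hk : k ∉ O) (s : Cfg Pt) (i : ℤ) :
    resH (insert k U) (s + cst O i) = resH (insert k U) s + cst U i := by
  ext x
  simp only [resH_apply, Finsupp.add_apply, cst_apply, mem_insert]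
  by_cases h1 : x ∈ U
  · simp [h1, h h1]
  · by_cases h2 : x = k
    · subst h2; simp [h1, hk]
    · simp [h1, h2]

theorem dH_cst {V : Gv} {W : ℝ} (h : V.Ok W) (hg : V.Geo) (s : Cfg Pt) (i : ℤ) :
    V.dH (s + cst V.G.Om i) = ((V.dH s).1 + cst V.G.In i, (V.dH s).2 + cst V.G.Ou i) :=
  Prod.ext (resH_ins (In_sub h.g) hg.k_off.1 s i) (resH_ins (Ou_sub h.g) hg.k_off.2.1 s i)

/-- the floating extended weight -/
theorem flt {Λ : Lat} {V : Gv} {W α : ℝ} {A B : Act (Cfg Pt)} (hV : V.Ok W) (hg : V.Geo) (ex : V.Ext Λ)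
    (hI : V.IsI A α) (hO : V.IsO B α) :
    Flt A B (V.rho Λ) V.dH (fun i => Equiv.addRight (cst V.G.Om i)) (Equiv.neg _) ∧
      Zs (fun s => tw (A.H (V.dH s).1) * V.rho Λ s) = V.Z Λ ∧
      ∀ (F : Cfg Pt → ℝ) (C : ℝ), (∀ s, |F s| ≤ C) → (∀ s i, F (s + cst V.G.Om i) = F s) →
        Ex (fun s => tw (A.H (V.dH s).1) * V.rho Λ s) F = V.EX Λ F := by
  have ds : ∀ i s, V.dH (s + cst V.G.Om i) = (A.s i (V.dH s).1, B.s i (V.dH s).2) := fun i s => by
    rw [hI.1, hO.1, dH_cst hV hg]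
  obtain ⟨f1, f2, f3⟩ := ex.float (fun s => tw (A.H (V.dH s).1)) (fun _ => tw_nonneg _) fun s => by
    simpa only [ds, A.H_s] using hasSum_tw (A.H (V.dH s).1)
  exact ⟨⟨ex.rsd.nonneg, f1, fun i s => ex.shift s i, ds, ex.rsd.even, fun s => by
    rw [hI.2.1, hO.2.1]; exact Prod.ext (map_neg (resH V.In) s) (map_neg (resH V.Ou) s)⟩, f2, f3⟩

end B61

open B61 in
theorem barStmt (hG : GeoStmt) (hA : AlgStmt) (hE : ExtStmt) : BarStmt := by
  intro Λ V W g α A B hΛ hJ hV hI hO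
  have al := hA V W hV
  have ex := hE Λ V W hΛ hJ hV
  obtain ⟨h, f2, f3⟩ := flt hV (hG V W hV) ex hI hO
  have ds : ∀ i s, V.dH (s + cst V.G.Om i) = (A.s i (V.dH s).1, B.s i (V.dH s).2) := h.ds
  exact ⟨h.pre f2 (fun i a b => by rw [hI.1, al.y_in]) (fun i a b => by rw [hO.1, al.y_out]) fun a b => by
    rw [hI.2.1, hO.2.1, (al.y_neg _ _).1, (al.y_neg _ _).2, neg_neg], ex.cen.wt.pos,
    fun Ψ C h1 h2 => (h.tsum f2 h1).trans (f3 _ C (fun _ => h1 _) fun s i => by rw [ds, h2]),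
    fun Φ C h1 h2 h3 => (h.br f2 h1 h3).trans (f3 _ C (fun _ => h1 _ _) fun s i => by rw [ds, h2, h3])⟩

end Crest.Agent.T145.Kv
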