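import Crest.Agent.T145.NcBas_78

/-!
# Row 145: (N)(c), the mean and the contraction of flowed insertions; iteration (helper31)
-/

set_option autoImplicit false

namespace Crest.Agent.T145.Nc

open Finset

namespace C31

variable {V : Type} [DecidableEq V] {m : Mdl V} {N S U K T C N' S' : Finset V} {F X : Cfg V → ℝ}
  {g : ℝ} {r : V}

/-- (D1) for one box -/
theorem d1 (hD : D1Stmt) (hc : m.Ctr) (ha : m.Anch) (hb : Box m N S) (hC : C ⊆ N) (hX : DepG C X)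
    (h0 : ∀ s, 0 ≤ X s) (hI : Ig (rW m N) X) :
    Ig (m.W 0) X ∧ Ex (m.W 0) X ≤ cr m N C S * nE m N X := by
  simpa using hD V Unit m {()} (fun _ => N) (fun _ => C) (fun _ => S) (fun _ => X) hc ha
    (fun _ _ _ _ h => absurd rfl h) fun _ _ => ⟨hb, hC, hX, h0, hI⟩

theorem wtN (hF : m.Fm) (hb : Box m N S) : Wt (rW m N) := rW_wt hF hb.cn (hb.ne.mono hb.sub)

theorem ig_amb (hD : D1Stmt) (hc : m.Ctr) (ha : m.Anch) (hb : Box m N S) (hC : C ⊆ N)
    (hF : DepG C F) (hI : Ig (rW m N) F) : Ig (m.W 0) F :=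
  Ig.of_abs (hc.wt ha 0).nonneg (d1 hD hc ha hb hC (hF.comp fun a => |a|) (fun _ => abs_nonneg _)
    (hI.abs (wtN hc.1 hb).nonneg)).1

omit [DecidableEq V] in
theorem disj_root {B : Finset V} (hd : Disjoint B S') (hr : r ∈ S') : Disjoint B {r} :=
  hd.mono_right (singleton_subset_iff.2 hr)

/-- integrability in a larger box -/
theorem ig_up (hD : D1Stmt) (hF : m.Fm) (hb : Box m N S) (hb' : Box m N' S') (hN : N ⊆ N')
    (hd : Disjoint (N \ S) S') (hC : C ⊆ N) (hX : DepG C F) (hI : Ig (rW m N) F) :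
    Ig (rW m N') F := by
  obtain ⟨r, hr⟩ := hb'.ne
  refine (ig_root (hb'.sub hr) (hX.mono (hC.trans hN))).2 (ig_amb hD (pn_ctr hF _ _)
    (pn_anch hb'.cn (hb'.sub hr) (mem_singleton_self r)) (hb.pn hN (disj_root hd hr)) hC hX ?_)
  rwa [(agr_pn hN {r}).rW]

theorem depG_cE (hF : m.Fm) (h : Cut m N S U K T) (hC : C ⊆ N) (hX : DepG C F) :
    DepG T (m.cE (N ∪ U \ T) F) :=
  (Mdl.cE_depG (fun e he k => ((hF e he).pos k).ne')
    (fun x hx k l => by rw [h.clB.2 x hx, h.clB.2 x hx]) hX).mono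
    (union_subset h.tbd fun x hx =>
      absurd (mem_union_left _ (hC (mem_sdiff.1 hx).1)) (mem_sdiff.1 hx).2)

theorem g_nonneg (hM : MonoCrStmt) (hF : m.Fm) (h : Cut m N S U K T) (h2 : cr m U K T ≤ 1 + g) :
    0 ≤ g := by
  linarith [(hM V m U K T hF h.cnU h.ksub h.tsub h.kne h.tne).1]

theorem hd_mean (hH : HdStmt) (hc : m.Ctr) (ha : m.Anch) (h : Cut m N S U K T) :
    Ig (m.W 0) (hd m N U T) ∧ 1 / cr m U K T ≤ Ex (m.W 0) (hd m N U T) ∧
      Ex (m.W 0) (hd m N U T) ≤ 1 := by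
  obtain ⟨κ, h1, h2, h3⟩ := (hH V m N S U K T hc.1 h).2.2.2.2 hc ha
  have w := (hole_ctr hc N).wt (h.hole_anch ha) 0
  obtain ⟨i, e⟩ := h3 (fun _ => 1) (Out.const _ _) (w.ig_const 1)
  simp only [one_mul, w.ex_const, mul_one] at i e
  exact ⟨i, e ▸ h1, e ▸ h2⟩

/-- the sandwich for functions dominated by the hole density -/
theorem sandwich (hD : D1Stmt) (hH : HdStmt) (hc : m.Ctr) (ha : m.Anch) (h : Cut m N S U K T)
    (hb' : Box m N' S') (hN : N ∪ U ⊆ N') (hd' : Disjoint (N ∪ U \ T) S') (hg : 0 ≤ g)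
    (h2 : cr m U K T ≤ 1 + g) (h3 : cr m N' T S' ≤ 1 + g) {c : ℝ} (hc0 : 0 ≤ c) (hX : DepG T X)
    (h0 : ∀ s, 0 ≤ X s) (hle : ∀ s, X s ≤ c * hd m N U T s) :
    Ig (rW m N') X ∧ Ig (m.W 0) X ∧ 0 ≤ nE m N' X ∧ nE m N' X ≤ c ∧
      Ex (m.W 0) X ≤ (1 + g) * nE m N' X ∧ (1 + g) * nE m N' X ≤ Ex (m.W 0) X + 2 * g * c := by
  obtain ⟨r, hr⟩ := hb'.ne
  have hT : T ⊆ N' := h.tsub.trans (subset_union_right.trans hN)
  have hp := h.pn hN (disj_root hd' hr)
  have dH := (hH V m N S U K T hc.1 h).2.1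
  obtain ⟨i1, l1, -⟩ := hd_mean hH hc ha h
  obtain ⟨i2, -, l2⟩ := hd_mean hH (pn_ctr hc.1 N' {r})
    (pn_anch hb'.cn (hb'.sub hr) (mem_singleton_self r)) hp
  rw [hp.hd_congr h (agr_pn hN _), ← ig_root (hb'.sub hr) (dH.mono hT)] at i2
  rw [hp.hd_congr h (agr_pn hN _), ← nE_root (hb'.sub hr) (dH.mono hT)] at l2
  have w := wtN hc.1 hb'
  have iX : Ig (rW m N') X := Ig.of_le w.nonneg (i2.const_mul c) h0 hle
  obtain ⟨j1, a1⟩ := d1 hD hc ha hb' hT hX h0 iX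
  obtain ⟨-, a2⟩ := d1 hD hc ha hb' hT (X := fun s => c * hd m N U T s - X s)
    (((DepG.const _ c).mul dH).sub hX) (fun s => sub_nonneg.2 (hle s)) ((i2.const_mul c).sub iX)
  have n0 : 0 ≤ nE m N' X := Ex_nonneg w.nonneg fun s _ => h0 s
  have n1 : nE m N' X ≤ c * nE m N' (hd m N U T) := by
    rw [nE, nE, ← Ex_const_mul]; exact Ex_mono w.nonneg iX (i2.const_mul c) hle
  have e2 : nE m N' (fun s => c * hd m N U T s - X s) = c * nE m N' (hd m N U T) - nE m N' X := by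
    rw [nE, Ex_sub (i2.const_mul c) iX, Ex_const_mul]; rfl
  rw [e2, Ex_sub (i1.const_mul c) j1, Ex_const_mul] at a2
  have k : 1 - g ≤ Ex (m.W 0) (hd m N U T) := by
    refine le_trans ?_ ((one_div_le_one_div_of_le (cr_pos hc.1 h.cnU h.tsub h.tne K) h2).trans l1)
    rw [le_div_iff₀ (by linarith)]; nlinarith
  have n2 : c * nE m N' (hd m N U T) ≤ c := mul_le_of_le_one_right hc0 l2
  refine ⟨iX, j1, n0, n1.trans n2, a1.trans (mul_le_mul_of_nonneg_right h3 n0), ?_⟩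
  have a3 := a2.trans (mul_le_mul_of_nonneg_right h3 (sub_nonneg.2 n1))
  nlinarith [mul_le_mul_of_nonneg_left k hc0, mul_le_mul_of_nonneg_left n2 hg]

theorem ind_sign (a : ℝ) : |a| = (2 * ind (0 ≤ a) - 1) * a := by
  by_cases h : 0 ≤ a
  · rw [ind_pos h, abs_of_nonneg h]; ring
  · rw [ind_neg h, abs_of_neg (not_le.1 h)]; ring

end C31

open C31 in
theorem ncStmt (hD : D1Stmt) (hO : D1ioStmt) (hH : HdStmt) (hB : NbStmt) (hM : MonoCrStmt) :
    NcStmt := by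
  intro V _ m N S U K T C N' S' F g hc ha h hC hF hI hb' hN hd' hg1 h1 h2 h3
  have hg := g_nonneg hM hc.1 h h2
  have w := hc.wt ha 0
  have w' := wtN hc.1 hb'
  have n0 : 0 ≤ nm m N F := nm_nonneg hc.1 h.cn (h.ne.mono h.sub) F
  set n := nm m N F with hn
  set F2 := m.cE (N ∪ U \ T) F with hF2
  have c1 := (cr_pos hc.1 h.cn h.sub h.ne C).le
  have c2 := (cr_pos hc.1 h.cnU h.tsub h.tne K).le
  have b : ∀ s, |F2 s| ≤ 4 * n * hd m N U T s := fun s => by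
    obtain ⟨i, k⟩ := hB V m N S U K T C F hc.1 h hC hF hI s
    refine ((Mdl.abs_cE_le ((hc.free h.clB.1).wt (ha.free h.clB.1) s).nonneg i).trans k).trans
      (mul_le_mul_of_nonneg_right (mul_le_mul_of_nonneg_right ?_ n0)
        ((hH V m N S U K T hc.1 h).1 s).le)
    nlinarith [mul_le_mul h1 h2 c2 (by linarith)]
  have d2 : DepG T F2 := depG_cE hc.1 h hC hF
  have c0 : 0 ≤ 4 * n := by positivity
  obtain ⟨ip, jp, p0, p1, p2, p3⟩ := sandwich hD hH hc ha h hb' hN hd' hg h2 h3 c0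
    (X := fun s => max (F2 s) 0) (d2.comp fun a => max a 0) (fun s => le_max_right _ _)
    fun s => (max_le (le_abs_self _) (abs_nonneg _)).trans (b s)
  obtain ⟨iq, jq, q0, q1, q2, q3⟩ := sandwich hD hH hc ha h hb' hN hd' hg h2 h3 c0
    (X := fun s => max (-F2 s) 0) (d2.comp fun a => max (-a) 0) (fun s => le_max_right _ _)
    fun s => (max_le (neg_le_abs _) (abs_nonneg _)).trans (b s)
  obtain ⟨-, -, -, s1, -, -⟩ := sandwich hD hH hc ha h hb' hN hd' hg h2 h3 c0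
    (X := fun s => max (F2 s) 0 + max (-F2 s) 0) (d2.comp fun a => max a 0 + max (-a) 0)
    (fun s => add_nonneg (le_max_right _ _) (le_max_right _ _))
    fun s => (max_zero_add_max_neg_zero_eq_abs_self _).trans_le (b s)
  rw [nE, Ex_add ip iq] at s1
  have sp : ∀ s, F2 s = max (F2 s) 0 - max (-F2 s) 0 := fun s =>
    (max_zero_sub_max_neg_zero_eq_self _).symm
  have iF := ig_amb hD hc ha h.toBox hC hF hI
  have e1 : Ex (m.W 0) F =
      Ex (m.W 0) (fun s => max (F2 s) 0) - Ex (m.W 0) fun s => max (-F2 s) 0 := by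
    rw [(Mdl.tower_cE h.clB.1 w iF).2, ← Ex_sub jp jq]; exact Ex_congr fun s _ => sp s
  have e2 : nE m N' F = nE m N' (fun s => max (F2 s) 0) - nE m N' fun s => max (-F2 s) 0 := by
    obtain ⟨r, hr⟩ := hb'.ne
    have hp := h.pn hN (disj_root hd' hr)
    have hC' : C ⊆ N' := hC.trans (subset_union_left.trans hN)
    have i := (ig_root (hb'.sub hr) (hF.mono hC')).1 (ig_up hD hc.1 h.toBox hb'
      (subset_union_left.trans hN) (hd'.mono_left (sdiff_subset.trans subset_union_left)) hC hF hI)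
    rw [nE_root (hb'.sub hr) (hF.mono hC'), (Mdl.tower_cE hp.clB.1
      (pn_wt hc.1 hb'.cn (hb'.sub hr) (mem_singleton_self r) 0) i).2,
      hp.cE_congr h (agr_pn hN _) (pn_fm hc.1 _ _) hc.1,
      ← nE_root (hb'.sub hr) (d2.mono (h.tsub.trans (subset_union_right.trans hN))), nE, nE, nE,
      ← Ex_sub ip iq]
    exact Ex_congr fun s _ => sp s
  set p := nE m N' fun s => max (F2 s) 0 with hp
  set q := nE m N' fun s => max (-F2 s) 0 with hq
  refine ⟨?_, fun U' K' T' h' h4 => ?_⟩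
  · rw [e1, e2, abs_le]
    constructor <;> nlinarith [mul_le_mul_of_nonneg_left p1 hg, mul_le_mul_of_nonneg_left q1 hg,
      mul_nonneg hg p0, mul_nonneg hg q0, mul_nonneg hg n0]
  have hT : T ⊆ N' := h.tsub.trans (subset_union_right.trans hN)
  set F3 := m.cE (N' ∪ U' \ T') F with hF3
  have oσ : Out (N' ∪ U' \ T') fun s => ind (0 ≤ F3 s) :=
    (m.cE_out _ F).comp fun a => ind (0 ≤ a)
  have oτ : Out (N' ∪ U' \ T') fun s => ind (¬ 0 ≤ F3 s) :=
    (m.cE_out _ F).comp fun a => ind (¬ 0 ≤ a)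
  have oS : Out (N' ∪ U' \ T') fun s => 2 * ind (0 ≤ F3 s) - 1 := oσ.comp fun a => 2 * a - 1
  have bS : ∀ s, |2 * ind (0 ≤ F3 s) - 1| ≤ 1 := fun s => abs_le.2
    ⟨by linarith [ind_nonneg (0 ≤ F3 s)], by linarith [ind_le_one (0 ≤ F3 s)]⟩
  have wh := (hole_ctr hc N').wt (h'.hole_anch ha) 0
  obtain ⟨k1, l1⟩ := hO V m N' S' U' K' T' T _ _ hc ha h' hT (d2.comp fun a => max a 0)
    (fun s => le_max_right _ _) ip oσ (fun _ => ind_nonneg _) (wh.ig_ind _)
  obtain ⟨k2, l2⟩ := hO V m N' S' U' K' T' T _ _ hc ha h' hT (d2.comp fun a => max (-a) 0)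
    (fun s => le_max_right _ _) iq oτ (fun _ => ind_nonneg _) (wh.ig_ind _)
  have ab : Ex ((hole m N').W 0) (fun s => ind (¬ 0 ≤ F3 s)) =
      1 - Ex ((hole m N').W 0) fun s => ind (0 ≤ F3 s) := wh.pr_not fun s => 0 ≤ F3 s
  have a0 : 0 ≤ Ex ((hole m N').W 0) fun s => ind (0 ≤ F3 s) := Pr_nonneg wh.nonneg _
  have a1 : Ex ((hole m N').W 0) (fun s => ind (0 ≤ F3 s)) ≤ 1 := wh.pr_le_one _
  rw [ab] at l2
  set a := Ex ((hole m N').W 0) fun s => ind (0 ≤ F3 s)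
  have e3 : Ex (m.W 0) (fun s => |F3 s|) =
      2 * Ex (m.W 0) (fun s => max (F2 s) 0 * ind (0 ≤ F3 s)) +
        2 * Ex (m.W 0) (fun s => max (-F2 s) 0 * ind (¬ 0 ≤ F3 s)) -
        Ex (m.W 0) (fun s => max (F2 s) 0) - Ex (m.W 0) fun s => max (-F2 s) 0 := by
    simp only [ind_sign (F3 _)]
    rw [← (Mdl.tower_cE_mul h'.clB.1 oS w (iF.bdd_mul w.nonneg bS)).2,
      (Mdl.tower_cE_mul h.clB.1 (oS.mono (h.subB.trans (hN.trans subset_union_left))) w
        (iF.bdd_mul w.nonneg bS)).2, ← Ex_const_mul, ← Ex_const_mul,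
      ← Ex_add (k1.const_mul 2) (k2.const_mul 2),
      ← Ex_sub ((k1.const_mul 2).add (k2.const_mul 2)) jp,
      ← Ex_sub (((k1.const_mul 2).add (k2.const_mul 2)).sub jp) jq]
    refine Ex_congr fun s _ => ?_
    rw [ind_not, ← hF2]
    linear_combination (2 * ind (0 ≤ F3 s) - 1) * sp s
  have c3 := (cr_pos hc.1 hb'.cn hb'.sub hb'.ne T).le
  have c4 := (cr_pos hc.1 h'.cnU h'.tsub h'.tne K').le
  have G : cr m N' T S' * cr m U' K' T' ≤ (1 + g) ^ 2 := by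
    nlinarith [mul_le_mul h3 h4 c4 (by linarith)]
  have m1 := l1.trans (mul_le_mul_of_nonneg_right (mul_le_mul_of_nonneg_right G p0) a0)
  have m2 := l2.trans (mul_le_mul_of_nonneg_right (mul_le_mul_of_nonneg_right G q0)
    (sub_nonneg.2 a1))
  have t : 2 * (p * a + q * (1 - a)) ≤ p + q + |p - q| := by
    have : (p - q) * (2 * a - 1) ≤ |p - q| := (le_abs_self _).trans (by
      rw [abs_mul]; exact mul_le_of_le_one_right (abs_nonneg _) (abs_le.2 ⟨by linarith, by linarith⟩))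
    linarith
  have t2 := mul_le_mul_of_nonneg_left t (sq_nonneg (1 + g))
  have t3 : (1 + g) ^ 2 * |p - q| ≤ 4 * |p - q| :=
    mul_le_mul_of_nonneg_right (by nlinarith) (abs_nonneg _)
  have t4 : (1 + g) * g * (p + q) ≤ 2 * g * (4 * n) :=
    mul_le_mul (by nlinarith) s1 (add_nonneg p0 q0) (by positivity)
  rw [e3, e2]
  nlinarith [mul_nonneg hg n0]

namespace C31

variable {V : Type} [DecidableEq V] {m : Mdl V} {N S U K T C N' S' U' K' T' N'' S'' : Finset V}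
  {F : Cfg V → ℝ} {g : ℝ}

/-- two cuts contract a mean zero insertion -/
theorem step (hD : D1Stmt) (hN : NcStmt) (hc : m.Ctr) (ha : m.Anch) (hg : g ≤ 1)
    (h : Cut m N S U K T) (h2 : cr m U K T ≤ 1 + g) (s1 : N ∪ U ⊆ N')
    (d1 : Disjoint (N ∪ U \ T) S') (h3 : cr m N' T S' ≤ 1 + g) (h' : Cut m N' S' U' K' T')
    (h4 : cr m U' K' T' ≤ 1 + g) (s2 : N' ∪ U' ⊆ N'') (d2 : Disjoint (N' ∪ U' \ T') S'')
    (hb : Box m N'' S'') (hC : C ⊆ N) (h1 : cr m N C S ≤ 1 + g) (hF : DepG C F)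
    (hI : Ig (rW m N) F) (h0 : Ex (m.W 0) F = 0) :
    DepG T' (m.cE (N' ∪ U' \ T') F) ∧ Ig (rW m N'') (m.cE (N' ∪ U' \ T') F) ∧
      nm m N'' (m.cE (N' ∪ U' \ T') F) ≤ 114 * g * nm m N F := by
  obtain ⟨r, hr⟩ := hb.ne
  have sN : N ⊆ N' := subset_union_left.trans s1
  have s3 : N' ⊆ N'' := subset_union_left.trans s2
  have dd := depG_cE hc.1 h' (hC.trans sN) hF
  have dN := dd.mono (h'.tsub.trans (subset_union_right.trans s2))
  have a := (hN V m N S U K T C N' S' F g hc ha h hC hF hI h'.toBox s1 d1 hg h1 h2 h3).1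
  rw [h0, zero_sub, abs_neg] at a
  have dr := disj_root d2 hr
  have hp' := h'.pn s2 dr
  have hp := h.pn (s1.trans s3) (dr.mono_left (h.subB.trans (s1.trans subset_union_left)))
  have pc := pn_ctr hc.1 N'' {r}
  have pa := pn_anch hb.cn (hb.sub hr) (mem_singleton_self r)
  have A : ∀ {Y : Finset V}, Y ⊆ N'' → Agr (pn m N'' {r}) m Y := fun hY => agr_pn hY _
  have hI' : Ig (rW (pn m N'' {r}) N) F := by rwa [(A (sN.trans s3)).rW]
  have b := (hN V _ N S U K T C N' S' F g pc pa hp hC hF hI' hp'.toBox s1 d1 hg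
    (by rwa [(A (sN.trans s3)).cr]) (by rwa [(A (subset_union_right.trans (s1.trans s3))).cr])
    (by rwa [(A s3).cr])).2 U' K' T' hp' (by rwa [(A (subset_union_right.trans s2)).cr])
  have ce := hp'.cE_congr h' (A s2) pc.1 hc.1
  rw [ce, (A s3).nE, (A (sN.trans s3)).nm, ← nm_root (hb.sub hr) dN] at b
  refine ⟨dd, (ig_root (hb.sub hr) dN).2 ?_, by linarith⟩
  rw [← ce]
  exact (Mdl.tower_cE hp'.clB.1 (pc.wt pa 0) (ig_amb hD pc pa hp.toBox hC hF hI')).1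

end C31

open C31 in
theorem gdecStmt (hD : D1Stmt) (hB : NbStmt) (hM : MonoCrStmt) (hN : NcStmt) : GDecStmt := by
  intro V _ m N S U K T C F g j hc ha hg H hb hC h1 hF hI h0
  have hg0 := g_nonneg hM hc.1 (H 0 (by omega)).1 (H 0 (by omega)).2.1
  have iF := ig_amb hD hc ha (H 0 (by omega)).1.toBox hC hF hI
  induction j with
  | zero =>
    obtain ⟨a1, a2, a3, a4, a5⟩ := H 0 (by omega)
    obtain ⟨b1, b2, b3, b4, -⟩ := H 1 (by omega)
    simpa using step hD hN hc ha hg a1 a2 a3 a4 a5 b1 b2 b3 b4 hb hC h1 hF hI h0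
  | succ j ih =>
    have up : ∀ k ≤ 2 * (j + 1) + 1, C ⊆ N k ∧ Ig (rW m (N k)) F := fun k hk => by
      induction k with
      | zero => exact ⟨hC, hI⟩
      | succ k ihk =>
        obtain ⟨c1, c2⟩ := ihk (by omega)
        obtain ⟨a1, -, a3, a4, -⟩ := H k (by omega)
        exact ⟨c1.trans (subset_union_left.trans a3), ig_up hD hc.1 a1.toBox (H _ hk).1.toBox
          (subset_union_left.trans a3) (a4.mono_left (sdiff_subset.trans subset_union_left)) c1 hF c2⟩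
    obtain ⟨z1, -, z3, -, z5⟩ := H (2 * j + 1) (by omega)
    obtain ⟨a1, a2, a3, a4, a5⟩ := H (2 * j + 2) (by omega)
    obtain ⟨b1, b2, b3, b4, -⟩ := H (2 * j + 2 + 1) (by omega)
    obtain ⟨i1, i2, i3⟩ := ih (fun k hk => H k (by omega)) a1.toBox
    have e : 2 * (j + 1) = 2 * j + 2 := by ring
    rw [e] at hb ⊢
    obtain ⟨k1, k2, k3⟩ := step hD hN hc ha hg a1 a2 a3 a4 a5 b1 b2 b3 b4 hb
      (z1.tsub.trans (subset_union_right.trans z3)) z5 i1 i2
      ((Mdl.tower_cE z1.clB.1 (hc.wt ha 0) iF).2.symm.trans h0)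
    obtain ⟨u1, u2⟩ := up (2 * j + 2 + 1) (by omega)
    have ee : m.cE (N (2 * j + 2 + 1) ∪ U (2 * j + 2 + 1) \ T (2 * j + 2 + 1))
        (m.cE (N (2 * j + 1) ∪ U (2 * j + 1) \ T (2 * j + 1)) F) =
        m.cE (N (2 * j + 2 + 1) ∪ U (2 * j + 2 + 1) \ T (2 * j + 2 + 1)) F := funext fun s =>
      (Mdl.cE_cE (z1.subB.trans (z3.trans (subset_union_left.trans (a3.trans subset_union_left))))
        ((hc.free b1.clB.1).wt (ha.free b1.clB.1) s)
        (hB V m _ _ _ _ _ C F hc.1 b1 u1 hF u2 s).1).2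
    rw [ee] at k1 k2 k3
    refine ⟨k1, k2, k3.trans ?_⟩
    rw [pow_succ' _ (j + 1), mul_assoc (114 * g)]
    exact mul_le_mul_of_nonneg_left i3 (by positivity)

end Crest.Agent.T145.Nc
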