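import Crest.Agent.T145.CutP_7
import Crest.Agent.T145.Loc_51
import Crest.Agent.T145.GeoA_51

/-!
# Row 145, T0 toolbox (helper7): corollaries of CUT and BARE (all unconditional)

* `cutU`, `bareU`; `Mdl.nbox m B r` = the N-box of the block `B` with root `r`
* T1 cutting: `cut_M`, `cut_Vr`, `cut_Ph`, `cut_pd` (and `*_prj` for arbitrary characters)
* massive version: `keep_M`, `keep_Vr`, `keep_Ph`
* BARE for the families: `bare_gau`, `bare_cosh`, `bare_Vr`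
-/

set_option autoImplicit false

namespace Crest.Agent.T145

open Finset Cut7

theorem cutU : CutStmt := cutStmt pdStmt kerStmt mdlStmt

theorem bareU : BareStmt := bareStmt pdStmt rsdStmt kerStmt mdlStmt monoStmt

section cut
variable {V ι : Type} [DecidableEq V] {m : Mdl V} {I : Finset ι} {B : ι → Finset V} {r : ι → V}

/-- the N-box of the block `B`: root `r` pinned, inner edges, no site weights -/
noncomputable def Mdl.nbox (m : Mdl V) (B : Finset V) (r : V) : Mdl V :=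
  ⟨B.erase r, inn B m.ed, m.w, fun _ _ => 1⟩

theorem Mdl.Fm.ctr_nbox (h : m.Fm) (B : Finset V) (r : V) : (m.nbox B r).Ctr :=
  ctr_of_site_one (fun e he => h e (mem_inn.1 he).1) rfl

theorem Mdl.Fm.ctr_ncut (h : m.Fm) (I : Finset ι) (B : ι → Finset V) (r : ι → V) :
    (m.ncut I B r).Ctr := ctr_of_site_one (fun e he => h e (ncut_sub m he)) rfl

/-- a block that is connected by its inner edges gives an anchored N-box -/
theorem anch_nbox {B : Finset V} {r : V} (h : ∀ x ∈ B, Conn (inn B m.ed) x r) :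
    (m.nbox B r).Anch := fun x hx => ⟨r, h x (mem_of_mem_erase hx), Or.inl (notMem_erase r B)⟩

theorem ind_ncut (m : Mdl V) (hB : ∀ i ∈ I, ∀ j ∈ I, i ≠ j → Disjoint (B i) (B j)) :
    Ind I (fun i => (B i).erase (r i)) fun i => inn (B i) m.ed :=
  Ind.of_blocks hB (fun _ _ => erase_subset _ _) fun _ _ _ he => (mem_inn.1 he).2

theorem anch_ncut (hB : ∀ i ∈ I, ∀ j ∈ I, i ≠ j → Disjoint (B i) (B j))
    (ha : ∀ i ∈ I, (m.nbox (B i) (r i)).Anch) : (m.ncut I B r).Anch :=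
  prod_anch { m with site := fun _ _ => 1 } (ind_ncut m hB) ha

theorem cen_nbox (hF : m.Fm) {B : Finset V} {r : V} (ha : (m.nbox B r).Anch) :
    Cen ((m.nbox B r).W 0) := (mdlStmt V _).2.2 (hF.ctr_nbox B r) ha

theorem cen_ncut (hF : m.Fm) (hB : ∀ i ∈ I, ∀ j ∈ I, i ≠ j → Disjoint (B i) (B j))
    (ha : ∀ i ∈ I, (m.nbox (B i) (r i)).Anch) : Cen ((m.ncut I B r).W 0) :=
  (mdlStmt V _).2.2 (hF.ctr_ncut I B r) (anch_ncut hB ha)

theorem ncut_M (hF : m.Fm) (hB : ∀ i ∈ I, ∀ j ∈ I, i ≠ j → Disjoint (B i) (B j))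
    (ha : ∀ i ∈ I, (m.nbox (B i) (r i)).Anch) (f : Cfg V →+ ℝ) :
    M ((m.ncut I B r).W 0) f = ∑ i ∈ I, M ((m.nbox (B i) (r i)).W 0) f :=
  prod_M { m with site := fun _ _ => 1 } (ind_ncut m hB) (fun i hi => (cen_nbox hF (ha i hi)).wt)
    (fun i hi => (cen_nbox hF (ha i hi)).se) f

theorem ncut_Vr (hF : m.Fm) (hB : ∀ i ∈ I, ∀ j ∈ I, i ≠ j → Disjoint (B i) (B j))
    (ha : ∀ i ∈ I, (m.nbox (B i) (r i)).Anch) (f g : Cfg V →+ ℝ) :
    Vr ((m.ncut I B r).W 0) f g = ∑ i ∈ I, Vr ((m.nbox (B i) (r i)).W 0) f g :=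
  prod_Vr { m with site := fun _ _ => 1 } (ind_ncut m hB) (fun i hi => (cen_nbox hF (ha i hi)).wt)
    (fun i hi => (cen_nbox hF (ha i hi)).se) f g

theorem ncut_Ph (hF : m.Fm) (hB : ∀ i ∈ I, ∀ j ∈ I, i ≠ j → Disjoint (B i) (B j))
    (ha : ∀ i ∈ I, (m.nbox (B i) (r i)).Anch) (f : Cfg V →+ ℝ) :
    Ph ((m.ncut I B r).W 0) f = ∏ i ∈ I, Ph ((m.nbox (B i) (r i)).W 0) f :=
  prod_Ph { m with site := fun _ _ => 1 } (ind_ncut m hB) (fun i hi => (cen_nbox hF (ha i hi)).wt)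
    (fun i hi => (cen_nbox hF (ha i hi)).even) f

theorem ncut_Ex (hF : m.Fm) (hB : ∀ i ∈ I, ∀ j ∈ I, i ≠ j → Disjoint (B i) (B j))
    (ha : ∀ i ∈ I, (m.nbox (B i) (r i)).Anch) {F : ι → Cfg V → ℝ}
    (hI : ∀ i ∈ I, Ig ((m.nbox (B i) (r i)).W 0) (F i)) :
    Ex ((m.ncut I B r).W 0) (fun s => ∏ i ∈ I, F i (pw ((B i).erase (r i)) s 0)) =
      ∏ i ∈ I, Ex ((m.nbox (B i) (r i)).W 0) (F i) :=
  prod_Ex { m with site := fun _ _ => 1 } 0 (ind_ncut m hB)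
    (fun i hi => (cen_nbox hF (ha i hi)).wt.summ) hI

/-- a force that is neutral on each block and vanishes off the blocks -/
theorem pr_prj (hB : ∀ i ∈ I, ∀ j ∈ I, i ≠ j → Disjoint (B i) (B j)) {f : V → ℝ}
    (h0 : ∀ x, (∀ i ∈ I, x ∉ B i) → f x = 0) (hn : ∀ i ∈ I, ∑ x ∈ B i, f x = 0) (s : Cfg V) :
    pr f (prj I B r s) = pr f s := by
  have h1 : ∀ x, x ∉ I.biUnion B → f x = 0 := fun x hx =>
    h0 x fun i hi h => hx (mem_biUnion.2 ⟨i, hi, h⟩)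
  rw [pr_of_fsupp f _ h1, pr_of_fsupp f _ h1, sum_biUnion hB, sum_biUnion hB]
  refine sum_congr rfl fun i hi => ?_
  rw [sum_congr rfl fun x hx => by rw [prj_mem hB hi hx, Int.cast_sub, mul_sub], sum_sub_distrib,
    ← sum_mul, hn i hi, zero_mul, sub_zero]

variable (hc : m.Ctr) (ha : m.Anch) (hr : ∀ i ∈ I, r i ∈ B i)
  (hB : ∀ i ∈ I, ∀ j ∈ I, i ≠ j → Disjoint (B i) (B j))
  (hN : ∀ i ∈ I, (m.nbox (B i) (r i)).Anch)
include hc ha hr hB hN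

theorem cut_M_prj (φ : Cfg V →+ ℝ) :
    M (m.W 0) (φ.comp (T145.prjH I B r)) ≤ M ((m.ncut I B r).W 0) φ := by
  obtain ⟨G, h1, h2, h3, h4⟩ := cutU V ι m I B r hc ha hr hB
  have h5 := (h4 (fun t => Real.exp (φ t))
    (((mdlStmt V m).2.2 hc ha).se (φ.comp (T145.prjH I B r)))).2
  exact (congrArg Real.log h5).trans_le
    (((monoStmt _ _ (cen_ncut hc.1 hB hN)).1 G h1 h2 h3).1 φ)

/-- a PD function of the projected field has a larger mean than in the N-cut model -/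
theorem cut_pd {G : Cfg V → ℝ} (hG : PD G) :
    Ex ((m.ncut I B r).W 0) G ≤ Ex (m.W 0) fun s => G (prj I B r s) := by
  obtain ⟨G', h1, h2, h3, h4⟩ := cutU V ι m I B r hc ha hr hB
  rw [(h4 G (((mdlStmt V m).2.2 hc ha).wt.ig_bdd fun s =>
    ((pdStmt (Cfg V) (Cfg V)).2.2.2.2.2.1 G hG _).2)).2]
  exact ((monoStmt _ _ (cen_ncut hc.1 hB hN)).1 G' h1 h2 h3).2 G hG

theorem cut_Vr_prj (φ : Cfg V →+ ℝ) :
    Vr (m.W 0) (φ.comp (T145.prjH I B r)) (φ.comp (T145.prjH I B r)) ≤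
      Vr ((m.ncut I B r).W 0) φ φ :=
  have h1 := cen_ncut hc.1 hB hN
  have h2 := (mdlStmt V m).2.2 hc ha
  Vr_le_of_M_le h1.wt h1.se h1.even h2.wt h2.se h2.even fun t =>
    cut_M_prj hc ha hr hB hN (t • φ)

variable {f : V → ℝ} (h0 : ∀ x, (∀ i ∈ I, x ∉ B i) → f x = 0) (hn : ∀ i ∈ I, ∑ x ∈ B i, f x = 0)
include h0 hn

/-- **T1 cutting** -/
theorem cut_M : M (m.W 0) (pr f) ≤ ∑ i ∈ I, M ((m.nbox (B i) (r i)).W 0) (pr f) := by
  have h := cut_M_prj hc ha hr hB hN (pr f)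
  rwa [ncut_M hc.1 hB hN, show (pr f).comp (T145.prjH I B r) = pr f from
    AddMonoidHom.ext (pr_prj hB h0 hn)] at h

theorem cut_Vr : Vr (m.W 0) (pr f) (pr f) ≤
    ∑ i ∈ I, Vr ((m.nbox (B i) (r i)).W 0) (pr f) (pr f) := by
  have h := cut_Vr_prj hc ha hr hB hN (pr f)
  rwa [ncut_Vr hc.1 hB hN, show (pr f).comp (T145.prjH I B r) = pr f from
    AddMonoidHom.ext (pr_prj hB h0 hn)] at h

theorem cut_Ph : ∏ i ∈ I, Ph ((m.nbox (B i) (r i)).W 0) (pr f) ≤ Ph (m.W 0) (pr f) := by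
  have h := cut_pd hc ha hr hB hN (pd_cos (pr f))
  simp only [pr_prj hB h0 hn] at h
  rwa [← ncut_Ph hc.1 hB hN]

end cut

section one
variable {V : Type} [DecidableEq V] {m : Mdl V} {B : Finset V} {r : V}
  (hc : m.Ctr) (ha : m.Anch) (hr : r ∈ B) (hN : (m.nbox B r).Anch)
  {f : V → ℝ} (h0 : ∀ x, x ∉ B → f x = 0) (hn : ∑ x ∈ B, f x = 0)
include hc ha hr hN h0 hn

/-- one block -/
theorem cut1_M : M (m.W 0) (pr f) ≤ M ((m.nbox B r).W 0) (pr f) := by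
  simpa using cut_M (I := ({()} : Finset Unit)) (B := fun _ => B) (r := fun _ => r) hc ha
    (fun _ _ => hr) (fun _ _ _ _ h => absurd rfl h) (fun _ _ => hN)
    (fun x hx => h0 x (hx () (mem_singleton_self _))) fun _ _ => hn

theorem cut1_Vr : Vr (m.W 0) (pr f) (pr f) ≤ Vr ((m.nbox B r).W 0) (pr f) (pr f) := by
  simpa using cut_Vr (I := ({()} : Finset Unit)) (B := fun _ => B) (r := fun _ => r) hc ha
    (fun _ _ => hr) (fun _ _ _ _ h => absurd rfl h) (fun _ _ => hN)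
    (fun x hx => h0 x (hx () (mem_singleton_self _))) fun _ _ => hn

theorem cut1_Ph : Ph ((m.nbox B r).W 0) (pr f) ≤ Ph (m.W 0) (pr f) := by
  simpa using cut_Ph (I := ({()} : Finset Unit)) (B := fun _ => B) (r := fun _ => r) hc ha
    (fun _ _ => hr) (fun _ _ _ _ h => absurd rfl h) (fun _ _ => hN)
    (fun x hx => h0 x (hx () (mem_singleton_self _))) fun _ _ => hn

end one

section keep
variable {V ι : Type} [DecidableEq V] {m : Mdl V} {I : Finset ι} {A : ι → Finset V}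
  {E : ι → Finset (V × V)} (hc : m.Ctr) (h : Ind I A E) (hA : m.A = I.biUnion A)
  (hE : ∀ i ∈ I, E i ⊆ m.ed) (ha : ∀ i ∈ I, (sb m (A i) (E i)).Anch)
include hc hA hE ha

theorem keep_cen {i : ι} (hi : i ∈ I) : Cen ((sb m (A i) (E i)).W 0) :=
  (mdlStmt V _).2.2 ((hc.free (hA ▸ subset_biUnion_of_mem A hi)).keep (hE i hi)) (ha i hi)

include h

theorem keep_loc : Loc (m.W 0) ((sb m (I.biUnion A) (I.biUnion E)).W 0) := by
  have h1 := prod_anch m h ha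
  rw [← hA] at h1 ⊢
  exact loc_keep hc (biUnion_subset.2 hE) h1

/-- massive cutting: the blocks keep their site weights -/
theorem keep_M (f : Cfg V →+ ℝ) : M (m.W 0) f ≤ ∑ i ∈ I, M ((sb m (A i) (E i)).W 0) f :=
  ((keep_loc hc h hA hE ha).M_le f).trans_eq (prod_M m h
    (fun _ hi => (keep_cen hc hA hE ha hi).wt) (fun _ hi => (keep_cen hc hA hE ha hi).se) f)

theorem keep_Vr (f : Cfg V →+ ℝ) : Vr (m.W 0) f f ≤ ∑ i ∈ I, Vr ((sb m (A i) (E i)).W 0) f f := by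
  have h1 := prod_anch m h ha
  have h2 := biUnion_subset.2 hE
  refine ((keep_loc hc h hA hE ha).Vr_le ((mdlStmt V m).2.2 hc ?_)
    ((mdlStmt V _).2.2 ((hc.free hA.ge).keep h2) h1) f).trans_eq (prod_Vr m h
    (fun _ hi => (keep_cen hc hA hE ha hi).wt) (fun _ hi => (keep_cen hc hA hE ha hi).se) f f)
  rw [← hA] at h1
  exact Mdl.Anch.of_keep h1 h2

theorem keep_Ph (f : Cfg V →+ ℝ) : ∏ i ∈ I, Ph ((sb m (A i) (E i)).W 0) f ≤ Ph (m.W 0) f :=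
  (prod_Ph m h (fun _ hi => (keep_cen hc hA hE ha hi).wt)
    (fun _ hi => (keep_cen hc hA hE ha hi).even) f).symm.trans_le
    ((keep_loc hc h hA hE ha).Ph_le f)

end keep

/-! ### lattice models -/

theorem Lat.nbox_D (Λ : Lat) {B D : Finset Pt} (h : B ⊆ D) (r : Pt) :
    (Λ.D D).nbox B r = Λ.Nr B r := by
  simp only [Mdl.nbox, Lat.D_ed, Lat.inn_edT h]; rfl

theorem Lat.nbox_of (Λ : Lat) {m : Mdl Pt} {B : Finset Pt} (h : inn B m.ed = Λ.edI B)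
    (hw : m.w = fun _ => Λ.w) (r : Pt) : m.nbox B r = Λ.Nr B r := by
  simp only [Mdl.nbox, h, hw]; rfl

theorem Lat.nbox_Nr (Λ : Lat) {B D : Finset Pt} (h : B ⊆ D) (r r' : Pt) :
    (Λ.Nr D r').nbox B r = Λ.Nr B r := Λ.nbox_of (Lat.inn_edI h) rfl r

theorem Lat.nbox_T (Λ : Lat) {n l : ℕ} {a : Pt} (h : sq a l ⊆ sq 0 n) (hl : l + Λ.rg ≤ n) (r : Pt) :
    (Λ.T n).nbox (sq a l) r = Λ.Nr (sq a l) r := Λ.nbox_of (Lat.inn_T h hl) rfl r

/-! ### BARE for the families -/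

theorem log_ex_gau {τ : ℝ} (hτ : 0 < τ) (a : ℝ) :
    Real.log (Ex (gau τ) fun k => Real.exp (a * k)) ≤ τ * a ^ 2 / 2 := by
  have h := (gauStmt τ hτ).1.cen
  rw [Real.log_le_iff_le_exp (h.wt.ex_pos' (se_int h.se a) fun _ => Real.exp_pos _), Ex_def,
    div_le_iff₀ h.wt.pos]
  exact (gauStmt τ hτ).2 a

theorem log_ex_bes {τ : ℝ} (hτ : 0 < τ) (a : ℝ) :
    Real.log (Ex (bes τ) fun k => Real.exp (a * k)) = τ * (Real.cosh a - 1) := by
  have h := (besStmt τ hτ).2.1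
  have h0 := (h 0).tsum_eq
  simp only [zero_mul, Real.exp_zero, mul_one, Real.cosh_zero] at h0
  rw [Ex, (h a).tsum_eq, h0, ← Real.exp_sub, Real.log_exp]
  ring

theorem sq_le_cosh (a : ℝ) : a ^ 2 / 2 ≤ Real.cosh a - 1 := by
  have h := Real.cosh_two_mul (a / 2)
  have h1 := Real.cosh_sq (a / 2)
  have h2 : (a / 2) ^ 2 ≤ Real.sinh (a / 2) ^ 2 := by
    rw [sq_le_sq, Real.abs_sinh]
    exact (le_abs_self _).trans' (Real.self_le_sinh_iff.2 (abs_nonneg _)) |>.trans_eq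
      (abs_of_nonneg (Real.sinh_nonneg_iff.2 (abs_nonneg _)))
  rw [mul_div_cancel₀ _ two_ne_zero] at h
  nlinarith

theorem log_ex_kern (xy : Bool) {τ : ℝ} (hτ : 0 < τ) (a : ℝ) :
    Real.log (Ex (kern xy τ) fun k => Real.exp (a * k)) ≤ τ * (Real.cosh a - 1) := by
  cases xy
  · refine (log_ex_gau hτ a).trans ?_
    rw [mul_div_assoc]
    exact mul_le_mul_of_nonneg_left (sq_le_cosh a) hτ.le
  · exact (log_ex_bes hτ a).le

section bare
variable {V : Type} [DecidableEq V] {m : Mdl V} {φ τ : V × V → ℝ} {f : V → ℝ}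
  (hc : m.Ctr) (ha : m.Anch) (hf : ∀ s : Cfg V, (∀ x, x ∉ m.A → s x = 0) →
    pr f s = ∑ e ∈ m.ed, φ e * (dE e s : ℝ))
include hc ha hf

theorem bare_gau (hw : ∀ e ∈ m.ed, 0 < τ e ∧ m.w e = gau (τ e)) :
    M (m.W 0) (pr f) ≤ ∑ e ∈ m.ed, τ e * φ e ^ 2 / 2 :=
  (bareU V m φ f hc ha hf).trans (sum_le_sum fun e he => by
    rw [(hw e he).2]; exact log_ex_gau (hw e he).1 _)

theorem bare_cosh (hw : ∀ e ∈ m.ed, 0 < τ e ∧ ∃ xy, m.w e = kern xy (τ e)) :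
    M (m.W 0) (pr f) ≤ ∑ e ∈ m.ed, τ e * (Real.cosh (φ e) - 1) :=
  (bareU V m φ f hc ha hf).trans (sum_le_sum fun e he => by
    obtain ⟨h, xy, h'⟩ := hw e he
    rw [h']; exact log_ex_kern xy h _)

/-- `cosh a - 1 ≤ a² / 2 · exp (c² / 2)` for `|a| ≤ c` -/
theorem bare_exp (hw : ∀ e ∈ m.ed, 0 < τ e ∧ ∃ xy, m.w e = kern xy (τ e)) {c : ℝ}
    (hφ : ∀ e ∈ m.ed, |φ e| ≤ c) :
    M (m.W 0) (pr f) ≤ Real.exp (c ^ 2 / 2) * ∑ e ∈ m.ed, τ e * φ e ^ 2 / 2 := by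
  refine (bare_cosh hc ha hf hw).trans ?_
  rw [mul_sum]
  refine sum_le_sum fun e he => ?_
  have h1 := Real.cosh_le_exp_half_sq (φ e)
  have h2 := Real.add_one_le_exp (-(φ e ^ 2 / 2))
  have h3 : Real.exp (φ e ^ 2 / 2) ≤ Real.exp (c ^ 2 / 2) :=
    Real.exp_le_exp.2 (by linarith [sq_le_sq' (abs_le.1 (hφ e he)).1 (abs_le.1 (hφ e he)).2])
  have h4 : Real.exp (φ e ^ 2 / 2) - 1 ≤ φ e ^ 2 / 2 * Real.exp (φ e ^ 2 / 2) := by
    have h5 := mul_le_mul_of_nonneg_right h2 (Real.exp_pos (φ e ^ 2 / 2)).le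
    rw [← Real.exp_add, neg_add_cancel, Real.exp_zero] at h5
    linarith
  have h6 := mul_le_mul_of_nonneg_left h3 (by positivity : 0 ≤ φ e ^ 2 / 2)
  calc _ ≤ τ e * (φ e ^ 2 / 2 * Real.exp (c ^ 2 / 2)) :=
        mul_le_mul_of_nonneg_left (by linarith) (hw e he).1.le
    _ = _ := by ring

theorem bare_Vr (hw : ∀ e ∈ m.ed, 0 < τ e ∧ ∃ xy, m.w e = kern xy (τ e)) :
    Vr (m.W 0) (pr f) (pr f) ≤ ∑ e ∈ m.ed, τ e * φ e ^ 2 := by
  have hC := (mdlStmt V m).2.2 hc ha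
  set c := ∑ e ∈ m.ed, |φ e|
  have key : ∀ t : ℝ, 0 < t → Vr (m.W 0) (pr f) (pr f) ≤
      Real.exp ((t * c) ^ 2 / 2) * ∑ e ∈ m.ed, τ e * φ e ^ 2 := fun t ht => by
    have h1 := bare_exp (φ := fun e => t * φ e) (f := t • f) hc ha (fun s hs => by
      rw [pr_smul, AddMonoidHom.smul_apply, hf s hs, smul_eq_mul, mul_sum]
      exact sum_congr rfl fun e _ => by ring) hw (c := t * c) fun e he => by
      rw [abs_mul, abs_of_pos ht]
      exact mul_le_mul_of_nonneg_left (single_le_sum (fun e _ => abs_nonneg (φ e)) he) ht.le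
    have h2 := ((corStmt _ _ hC).2.1 (pr (t • f))).trans h1
    rw [pr_smul, Vr_smul_left, Vr_smul_right] at h2
    have h3 : ∑ e ∈ m.ed, τ e * (t * φ e) ^ 2 / 2 = t ^ 2 / 2 * ∑ e ∈ m.ed, τ e * φ e ^ 2 := by
      rw [mul_sum]; exact sum_congr rfl fun e _ => by ring
    rw [h3] at h2
    refine le_of_mul_le_mul_left (a := t ^ 2 / 2) ?_ (by positivity)
    linarith
  have h4 : ContinuousAt (fun t : ℝ => Real.exp ((t * c) ^ 2 / 2) * ∑ e ∈ m.ed, τ e * φ e ^ 2) 0 := by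
    fun_prop
  have h5 := ge_of_tendsto (h4.tendsto.mono_left (nhdsWithin_le_nhds (s := Set.Ioi 0)))
    (eventually_nhdsWithin_of_forall key)
  simpa using h5

end bare

end Crest.Agent.T145
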