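import Crest.Agent.T145.NcBas_78
import Crest.Agent.T145.CutC_7

/-!
# Row 145 (helper43): (D1) in product form, `d1Stmt` and `d1mStmt`
-/

set_option autoImplicit false

namespace Crest.Agent.T145.Nc

open Finset Cut7

namespace D43

section grp
variable {L L' Q : Type} [AddCommGroup L] [AddCommGroup L'] [AddCommGroup Q]

omit [AddCommGroup L] [AddCommGroup L'] in
/-- integrability is inherited from the image law -/
theorem ig_back {W : L → ℝ} {W' : L' → ℝ} (hW : Wt W) (hW' : ∀ t, 0 ≤ W' t) (p : L → L')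
    (h : ∀ F : L' → ℝ, Ig W (fun s => F (p s)) → Ig W' F ∧ Ex W (fun s => F (p s)) = Ex W' F)
    {F : L' → ℝ} (h0 : ∀ t, 0 ≤ F t) (hi : Ig W' F) : Ig W fun s => F (p s) := by
  classical
  refine summable_of_sum_le (c := Zs W * Ex W' F) (fun s => mul_nonneg (hW.nonneg s) (h0 _)) fun T => ?_
  have hb : Ig W fun s => F (p s) * ind (p s ∈ T.image p) :=
    hW.ig_bdd (C := ∑ t ∈ T.image p, F t) fun s => by
      by_cases hs : p s ∈ T.image p
      · rw [ind_pos hs, mul_one, abs_of_nonneg (h0 _)]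
        exact single_le_sum (fun t _ => h0 t) hs
      · rw [ind_neg hs, mul_zero, abs_zero]; exact sum_nonneg fun t _ => h0 t
  obtain ⟨h1, h2⟩ := h (fun t => F t * ind (t ∈ T.image p)) hb
  calc ∑ s ∈ T, W s * F (p s) = ∑ s ∈ T, W s * (F (p s) * ind (p s ∈ T.image p)) :=
        sum_congr rfl fun s hs => by rw [ind_pos (mem_image_of_mem p hs), mul_one]
    _ ≤ ∑' s, W s * (F (p s) * ind (p s ∈ T.image p)) :=
        Summable.sum_le_tsum T (fun s _ => mul_nonneg (hW.nonneg s)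
          (mul_nonneg (h0 _) (ind_nonneg _))) hb
    _ = Zs W * Ex W' fun t => F t * ind (t ∈ T.image p) := by rw [hW.tsum_eq, h2]
    _ ≤ Zs W * Ex W' F := mul_le_mul_of_nonneg_left
        (Ex_mono hW' h1 hi fun t => mul_le_of_le_one_right (h0 t) (ind_le_one _)) hW.pos.le

omit [AddCommGroup L] in
/-- (D1) for a law with a PD density -/
theorem core [IsAddTorsionFree L'] {W : L → ℝ} {ρ G : L' → ℝ} (hW : Wt W) (hρ : Cen ρ) (hG : PD G)
    (hG0 : ∀ t, 0 ≤ G t) (hGp : 0 < G 0) (p : L → L')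
    (h : ∀ F : L' → ℝ, Ig W (fun s => F (p s)) →
      Ig (fun t => ρ t * G t) F ∧ Ex W (fun s => F (p s)) = Ex (fun t => ρ t * G t) F)
    (π : L' →+ Q) {F : L' → ℝ} (h0 : ∀ t, 0 ≤ F t) (hF : ∀ s t, π s = π t → F s = F t) (hi : Ig ρ F) :
    Ig W (fun s => F (p s)) ∧
      Ex W (fun s => F (p s)) ≤ Pr W (fun s => π (p s) = 0) / Pr ρ (fun t => π t = 0) * Ex ρ F := by
  classical
  have h1 : Ig W fun s => F (p s) :=
    ig_back hW (fun t => mul_nonneg (hρ.nonneg t) (hG0 t)) p h h0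
      (ig_mul_iff.2 (hi.bdd_mul hρ.nonneg hG.abs_le))
  refine ⟨h1, ?_⟩
  let F' : Q → ℝ := fun q => if h : ∃ s, π s = q then F h.choose else 0
  have e : ∀ s, F' (π s) = F s := fun s => by
    have h : ∃ t, π t = π s := ⟨s, rfl⟩
    simp only [F', dif_pos h]; exact hF _ _ h.choose_spec
  have h2 := (densStmt L' Q ρ G π hρ hG hG0 hGp).2 F' (fun q => by
    simp only [F']; split_ifs; exacts [h0 _, le_rfl]) (by simpa only [e] using hi)
  simp only [e] at h2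
  have h3 : Pr W (fun s => π (p s) = 0) = Pr (fun t => ρ t * G t) fun t => π t = 0 :=
    (h (fun t => ind (π t = 0)) (hW.ig_ind _)).2
  have h4 : 0 < Pr ρ fun t => π t = 0 :=
    hρ.wt.ex_pos (hρ.wt.ig_ind _) (fun _ => ind_nonneg _) hρ.pos0
      (by rw [ind_pos (map_zero π)]; exact one_pos)
  rw [(h F h1).2, h3, div_mul_eq_mul_div, le_div_iff₀ h4]
  exact h2

end grp

variable {V ι : Type} [DecidableEq V] {m : Mdl V} {I : Finset ι} {N A S : ι → Finset V}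

/-- product formula for observables read on disjoint blocks -/
theorem prodB (m : Mdl V) (hB : ∀ i ∈ I, ∀ j ∈ I, i ≠ j → Disjoint (N i) (N j))
    (hA : ∀ i ∈ I, A i ⊆ N i) {F : ι → Cfg V → ℝ} (hF : ∀ i ∈ I, Dep (N i) (F i))
    (hs : ∀ i ∈ I, Summable ((sb m (A i) (inn (N i) m.ed)).W 0))
    (hI : ∀ i ∈ I, Ig ((sb m (A i) (inn (N i) m.ed)).W 0) (F i)) :
    Ig ((sb m (I.biUnion A) (I.biUnion fun i => inn (N i) m.ed)).W 0) (fun s => ∏ i ∈ I, F i s) ∧
    Ex ((sb m (I.biUnion A) (I.biUnion fun i => inn (N i) m.ed)).W 0) (fun s => ∏ i ∈ I, F i s) =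
      ∏ i ∈ I, Ex ((sb m (A i) (inn (N i) m.ed)).W 0) (F i) := by
  have hd : Ind I A fun i => inn (N i) m.ed :=
    Ind.of_blocks hB hA fun _ _ _ he => (mem_filter.1 he).2
  have e : ∀ s, (sb m (I.biUnion A) (I.biUnion fun i => inn (N i) m.ed)).W 0 s ≠ 0 →
      ∏ i ∈ I, F i (pw (A i) s 0) = ∏ i ∈ I, F i s := fun s hs =>
    prod_congr rfl fun i hi => hF i hi _ _ fun x hx => by
      by_cases hx' : x ∈ A i
      · exact pw_of_mem _ _ hx'
      · rw [pw_of_notMem _ _ hx']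
        refine (Md.W_off hs x fun h => ?_).symm
        obtain ⟨j, hj, h⟩ := mem_biUnion.1 h
        by_cases hij : i = j
        · exact hx' (hij ▸ h)
        · exact disjoint_left.1 (hB i hi j hj hij) hx (hA j hj h)
  exact ⟨Ig.congr (prod_hasSum m 0 hd hI).summable e, by rw [← prod_Ex m 0 hd hs hI, Ex_congr e]⟩

theorem ends {N S : Finset V} (hS : S ⊆ N) (hb : m.bd (N \ S) ⊆ S) {e : V × V} (he : e ∈ m.ed)
    (h : e.1 ∈ N \ S ∨ e.2 ∈ N \ S) : e ∈ inn N m.ed :=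
  have := Mdl.ends_of_edM (Mdl.mem_edM.2 ⟨he, h⟩)
  mem_filter.2 ⟨he, this.1.elim (fun a => (mem_sdiff.1 a).1) fun a => hS (hb a),
    this.2.elim (fun a => (mem_sdiff.1 a).1) fun a => hS (hb a)⟩

/-- Dirichlet decoupling of PD observables -/
theorem dir (hc : m.Ctr) (ha : m.Anch) (hB : ∀ i ∈ I, ∀ j ∈ I, i ≠ j → Disjoint (N i) (N j))
    (hA : ∀ i ∈ I, N i \ S i ⊆ m.A) (hS : ∀ i ∈ I, S i ⊆ N i) (hb : ∀ i ∈ I, m.bd (N i \ S i) ⊆ S i)
    {G : ι → Cfg V → ℝ} (hG : ∀ i ∈ I, PD (G i)) (hD : ∀ i ∈ I, Dep (N i) (G i)) :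
    Ex (m.W 0) (fun s => ∏ i ∈ I, G i s) ≤ ∏ i ∈ I, Ex ((m.free (N i \ S i)).W 0) (G i) := by
  have h1 : ∀ i ∈ I, Pp ((m.free (N i \ S i)).W 0) ((sb m (N i \ S i) (inn (N i) m.ed)).W 0) :=
    fun i hi => Mdl.pp_keep (m := m.free (N i \ S i)) (hc.1.free _) (filter_subset _ _) (fun e he hn =>
      ⟨fun k => hn (ends (hS i hi) (hb i hi) he (Or.inl k)),
        fun k => hn (ends (hS i hi) (hb i hi) he (Or.inr k))⟩) 0
  have h2 : Pp ((m.free (I.biUnion fun i => N i \ S i)).W 0)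
      ((sb m (I.biUnion fun i => N i \ S i) (I.biUnion fun i => inn (N i) m.ed)).W 0) :=
    Mdl.pp_keep (hc.1.free _) (biUnion_subset.2 fun _ _ => filter_subset _ _) (fun e he hn =>
      ⟨fun k => by
        obtain ⟨i, hi, k⟩ := mem_biUnion.1 k
        exact hn (mem_biUnion.2 ⟨i, hi, ends (hS i hi) (hb i hi) he (Or.inl k)⟩),
      fun k => by
        obtain ⟨i, hi, k⟩ := mem_biUnion.1 k
        exact hn (mem_biUnion.2 ⟨i, hi, ends (hS i hi) (hb i hi) he (Or.inr k)⟩)⟩) 0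
  have h3 : ∀ i ∈ I, Wt ((sb m (N i \ S i) (inn (N i) m.ed)).W 0) := fun i hi =>
    (h1 i hi).symm.wt ((hc.free (hA i hi)).wt (ha.free (hA i hi)) 0)
  refine ((loc_free hc ha (biUnion_subset.2 hA)).ex_le (pd_prod pdStmt I hG)).trans_eq ?_
  rw [h2.ex, (prodB m hB (fun _ _ => sdiff_subset) hD (fun i hi => (h3 i hi).summ)
    fun i hi => (h3 i hi).ig_bdd (hG i hi).abs_le).2]
  exact prod_congr rfl fun i hi => ((h1 i hi).ex _).symm

/-- cutting out blocks with their site weights: the law on the blocks has a PD density -/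
theorem cutm (hc : m.Ctr) (ha : m.Anch) {U : Finset V} {E : Finset (V × V)} (hU : U ⊆ m.A)
    (hE : E ⊆ m.ed) (hEU : ∀ e ∈ E, e.1 ∈ U ∧ e.2 ∈ U) :
    ∃ G : Cfg V → ℝ, PD G ∧ (∀ t, 0 ≤ G t) ∧ 0 < G 0 ∧ ∀ F : Cfg V → ℝ,
      Ig (m.W 0) (fun s => F (pw U s 0)) → Ig (fun t => (sb m U E).W 0 t * G t) F ∧
        Ex (m.W 0) (fun s => F (pw U s 0)) = Ex (fun t => (sb m U E).W 0 t * G t) F := by
  let H : Cfg V → ℝ := fun s => ind (∀ x, x ∉ m.A → s x = 0) * (∏ e ∈ m.ed \ E, m.w e (dE e s)) *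
    ∏ x ∈ m.A \ U, m.site x (s x)
  have hH : PD H := pd_mul pdStmt (pd_mul pdStmt (Cut7.pd_off pdStmt m.A)
    (pd_edges pdStmt kerStmt hc.1 sdiff_subset)) (pd_prod pdStmt _ fun x hx =>
      pd_comp pdStmt (hc.2 x (mem_sdiff.1 hx).1).2.1 (Finsupp.applyAddHom x))
  have hP : ∀ s : Cfg V, 0 ≤ (∏ e ∈ m.ed \ E, m.w e (dE e s)) * ∏ x ∈ m.A \ U, m.site x (s x) :=
    fun s => mul_nonneg (prod_nonneg fun e he => ((hc.1 e (mem_sdiff.1 he).1).pos _).le)
      (prod_nonneg fun x hx => (hc.2 x (mem_sdiff.1 hx).1).1.nonneg _)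
  have h0 : ∀ s, 0 ≤ H s := fun s => by
    simp only [H, mul_assoc]; exact mul_nonneg (ind_nonneg _) (hP s)
  have hp : 0 < H 0 := by
    simp only [H]
    rw [ind_pos (p := ∀ x, x ∉ m.A → (0 : Cfg V) x = 0) fun _ _ => rfl, one_mul]
    exact mul_pos (prod_pos fun e he => (hc.1 e (mem_sdiff.1 he).1).pos _)
      (prod_pos fun x hx => (hc.2 x (mem_sdiff.1 hx).1).2.2)
  have hW : ∀ s, m.W 0 s = H s * (sb m U E).W 0 (Cut7.resH U s) := fun s => by
    have e1 : (sb m U E).W 0 (Cut7.resH U s) =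
        (∏ e ∈ E, m.w e (dE e s)) * ∏ x ∈ U, m.site x (s x) := by
      rw [Mdl.W, ind_pos (p := ∀ x, x ∉ (sb m U E).A → Cut7.resH U s x = (0 : Cfg V) x)
        fun x hx => pw_of_notMem _ _ hx, one_mul]
      congr 1
      · refine prod_congr rfl fun e he => ?_
        change m.w e _ = _
        rw [dE, dE, Cut7.resH_apply, pw_of_mem _ _ (hEU e he).1, pw_of_mem _ _ (hEU e he).2]
      · refine prod_congr rfl fun x hx => ?_
        change m.site x _ = _
        rw [Cut7.resH_apply, pw_of_mem _ _ hx]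
    rw [e1]
    simp only [Mdl.W, H, Finsupp.coe_zero, Pi.zero_apply]
    rw [← prod_sdiff hE, ← prod_sdiff hU]; ring
  have hsl : ∀ t, Summable fun s => ind (Cut7.resH U s = t) * H s := fun t => by
    have h1 : Pp ((m.free (m.A \ U)).W t) ((sb m (m.A \ U) (m.ed \ E)).W t) :=
      Mdl.pp_keep (hc.1.free _) sdiff_subset (fun e he hn => by
        have : e ∈ E := by_contra fun k => hn (mem_sdiff.2 ⟨he, k⟩)
        exact ⟨fun k => (mem_sdiff.1 k).2 (hEU e this).1, fun k => (mem_sdiff.1 k).2 (hEU e this).2⟩) t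
    have h2 := h1.symm.wt ((hc.free sdiff_subset).wt (ha.free sdiff_subset) t)
    refine Summable.of_nonneg_of_le (fun s => mul_nonneg (ind_nonneg _) (h0 s)) (fun s => ?_) h2.summ
    simp only [H, Mdl.W, mul_assoc]
    rw [← mul_assoc, ← ind_and]
    refine mul_le_mul_of_nonneg_right (ind_mono fun h x hx => ?_) (hP s)
    rw [← h.1, Cut7.resH_apply]
    by_cases hxU : x ∈ U
    · exact (pw_of_mem _ _ hxU).symm
    · rw [pw_of_notMem _ _ hxU]
      exact h.2 x fun k => hx (mem_sdiff.2 ⟨k, hxU⟩)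
  have hn : ∀ t s, 0 ≤ ind (Cut7.resH U s = t) * H s := fun t s => mul_nonneg (ind_nonneg _) (h0 s)
  refine ⟨push H (Cut7.resH U), ?_, fun t => tsum_nonneg (hn t), (hsl 0).tsum_pos (hn 0) 0 ?_,
    fun F hF => dens_ex (Cut7.resH U) hW (hc.wt ha 0).summ hF⟩
  · have h1 := pd_mul pdStmt ((pdStmt (Cfg V × Cfg V) (Cfg V)).2.2.1
      ((Cut7.resH U).comp (AddMonoidHom.fst _ _) - AddMonoidHom.snd _ _))
      (pd_comp pdStmt hH (AddMonoidHom.fst (Cfg V) (Cfg V)))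
    simp only [AddMonoidHom.sub_apply, AddMonoidHom.comp_apply, AddMonoidHom.coe_fst,
      AddMonoidHom.coe_snd, sub_eq_zero] at h1
    exact (pdStmt _ _).2.2.2.2.2.2 _ h1 hsl
  · rw [ind_pos (map_zero _), one_mul]; exact hp

end D43

open D43

theorem d1Stmt : D1Stmt := by
  intro V ι _ m I N C S F hc ha hB h
  rcases I.eq_empty_or_nonempty with rfl | ⟨i₀, hi₀⟩
  · simp only [prod_empty]
    exact ⟨(hc.wt ha 0).ig_const 1, ((hc.wt ha 0).ex_const 1).le⟩
  have hn : ∀ i ∈ I, (N i).Nonempty := fun i hi => (h i hi).1.ne.mono (h i hi).1.sub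
  have : Nonempty V := ⟨(hn i₀ hi₀).choose⟩
  choose! r hr hrs using fun i hi => rs_spec (hn i hi)
  let m₁ : Mdl V := { m with site := fun _ _ => 1 }
  have e1 : ∀ i ∈ I, (sb m₁ ((N i).erase (r i)) (inn (N i) m₁.ed)).W 0 = rW m (N i) := fun i hi => by
    rw [rW, hrs i hi, ← sdiff_singleton_eq_erase]; rfl
  have hw : ∀ i ∈ I, Cen (rW m (N i)) := fun i hi => rW_cen hc.1 (h i hi).1.cn (hn i hi)
  have hP : ∀ G : ι → Cfg V → ℝ, (∀ i ∈ I, Dep (N i) (G i)) → (∀ i ∈ I, Ig (rW m (N i)) (G i)) →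
      Ig ((m.ncut I N r).W 0) (fun s => ∏ i ∈ I, G i s) ∧
      Ex ((m.ncut I N r).W 0) (fun s => ∏ i ∈ I, G i s) = ∏ i ∈ I, nE m (N i) (G i) :=
    fun G hG hI => by
      have := prodB m₁ hB (fun i _ => erase_subset (r i) (N i)) hG
        (fun i hi => by rw [e1 i hi]; exact (hw i hi).wt.summ) fun i hi => by
          rw [e1 i hi]; exact hI i hi
      exact ⟨this.1, this.2.trans (prod_congr rfl fun i hi => by rw [e1 i hi]; rfl)⟩
  obtain ⟨G, g1, g2, g3, g4⟩ := cutU V ι m I N r hc ha hr hB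
  have hρ : Cen ((m.ncut I N r).W 0) := cen_ncut hc.1 hB fun i hi =>
    anch_nbox fun x hx => (h i hi).1.cn x hx _ (hr i hi)
  let π : Cfg V →+ (I → V × V → ℤ) := AddMonoidHom.pi fun i => flH (C i.1)
  have hπ : ∀ s t, π s = π t ↔ ∀ i ∈ I, flH (C i) s = flH (C i) t := fun s t =>
    ⟨fun k i hi => congrFun k ⟨i, hi⟩, fun k => funext fun i => k i.1 i.2⟩
  have hπ0 : ∀ s, ind (π s = 0) = ∏ i ∈ I, ind (Fl (C i) s) := fun s => by
    rw [← ind_forall, ← map_zero π]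
    exact ind_congr ((hπ s 0).trans (by simp only [map_zero, fl_iff]))
  have hpr : ∀ {β : Type} (K : ι → Cfg V → β), (∀ i ∈ I, DepG (C i) (K i)) → ∀ s, ∀ i ∈ I,
      K i (prj I N r s) = K i s := fun K hK s i hi =>
    (hK i hi s _ (-s (r i)) fun x hx => by
      rw [Cut7.prj_mem hB hi ((h i hi).2.1 hx)]; ring).symm
  obtain ⟨p1, p2⟩ := hP F (fun i hi => ((h i hi).2.2.1.mono (h i hi).2.1).dep)
    fun i hi => (h i hi).2.2.2.2
  obtain ⟨q1, q2⟩ := core (hc.wt ha 0) hρ g1 g2 g3 (prj I N r) g4 π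
    (F := fun s => ∏ i ∈ I, F i s) (fun t => prod_nonneg fun i hi => (h i hi).2.2.2.1 t)
    (fun s t k => prod_congr rfl fun i hi => depG_of_flH (h i hi).2.2.1 ((hπ s t).1 k i hi)) p1
  have e2 : (fun s => ∏ i ∈ I, F i (prj I N r s)) = fun s => ∏ i ∈ I, F i s :=
    funext fun s => prod_congr rfl (hpr F (fun i hi => (h i hi).2.2.1) s)
  rw [e2] at q1 q2
  refine ⟨q1, q2.trans ?_⟩
  have e3 : Pr ((m.ncut I N r).W 0) (fun t => π t = 0) = ∏ i ∈ I, Pr (rW m (N i)) (Fl (C i)) := by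
    simp only [Pr, hπ0]
    exact (hP (fun i s => ind (Fl (C i) s)) (fun i hi => ((depG_fl _).mono (h i hi).2.1).dep)
      fun i hi => (hw i hi).wt.ig_ind _).2
  have e4 : Pr (m.W 0) (fun s => π (prj I N r s) = 0) ≤
      ∏ i ∈ I, Pr ((pn m (N i) (S i)).W 0) (Fl (C i)) := by
    simp only [Pr, hπ0]
    rw [show (fun s => ∏ i ∈ I, ind (Fl (C i) (prj I N r s))) = fun s => ∏ i ∈ I, ind (Fl (C i) s)
      from funext fun s => prod_congr rfl
        (hpr (fun i s => ind (Fl (C i) s)) (fun i _ => depG_fl _) s)]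
    refine (dir hc ha hB (fun i hi => (h i hi).1.cl.1) (fun i hi => (h i hi).1.sub)
      (fun i hi => (h i hi).1.bd) (fun i _ => pd_fl (C i))
      fun i hi => ((depG_fl _).mono (h i hi).2.1).dep).trans_eq ?_
    exact prod_congr rfl fun i hi => ((h i hi).1.pp hc.1 0).ex _
  rw [p2, e3, prod_mul_distrib]
  simp only [cr]
  rw [prod_div_distrib]
  exact mul_le_mul_of_nonneg_right (div_le_div_of_nonneg_right e4
    (prod_nonneg fun i hi => Pr_nonneg (hw i hi).nonneg _))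
    (prod_nonneg fun i hi => Ex_nonneg (hw i hi).nonneg fun s _ => (h i hi).2.2.2.1 s)

theorem d1mStmt : D1mStmt := by
  intro V ι _ m I N C S F hc ha hB h
  have hE : (I.biUnion fun i => inn (N i) m.ed) ⊆ m.ed := biUnion_subset.2 fun _ _ => filter_subset _ _
  have hU : I.biUnion N ⊆ m.A := biUnion_subset.2 fun i hi => (h i hi).1
  have hw : ∀ i ∈ I, Cen ((sb m (N i) (inn (N i) m.ed)).W 0) := fun i hi =>
    ((hc.free (h i hi).1).keep (filter_subset _ _)).cen (h i hi).2.1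
  have hP := fun (G : ι → Cfg V → ℝ) (hG : ∀ i ∈ I, Dep (N i) (G i)) =>
    prodB m hB (fun _ _ => Subset.rfl) hG fun i hi => (hw i hi).wt.summ
  obtain ⟨G, g1, g2, g3, g4⟩ := cutm hc ha hU hE fun e he => by
    obtain ⟨i, hi, he⟩ := mem_biUnion.1 he
    exact ⟨mem_biUnion.2 ⟨i, hi, (mem_filter.1 he).2.1⟩, mem_biUnion.2 ⟨i, hi, (mem_filter.1 he).2.2⟩⟩
  have hρ : Cen ((sb m (I.biUnion N) (I.biUnion fun i => inn (N i) m.ed)).W 0) :=
    ((hc.free hU).keep hE).cen (prod_anch m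
      (Ind.of_blocks hB (fun _ _ => Subset.rfl) fun _ _ _ he => (mem_filter.1 he).2)
      fun i hi => (h i hi).2.1)
  let π : Cfg V →+ (I → Cfg V) := AddMonoidHom.pi fun i => Cut7.resH (C i.1)
  have hπ : ∀ s t, π s = π t ↔ ∀ i ∈ I, ∀ x ∈ C i, s x = t x := fun s t =>
    ⟨fun k i hi x hx => by
      have := DFunLike.congr_fun (congrFun k ⟨i, hi⟩) x
      change pw (C i) s 0 x = pw (C i) t 0 x at this
      rwa [pw_of_mem _ _ hx, pw_of_mem _ _ hx] at this,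
    fun k => funext fun i => Finsupp.ext fun x => by
      change pw (C i) s 0 x = pw (C i) t 0 x
      simp only [pw_apply]; split_ifs with hx
      exacts [k i.1 i.2 x hx, rfl]⟩
  have hπ0 : ∀ s, ind (π s = 0) = ∏ i ∈ I, ind (∀ x ∈ C i, s x = 0) := fun s => by
    rw [← ind_forall, ← map_zero π]
    exact ind_congr (hπ s 0)
  have hD : ∀ i, Dep (C i) fun s : Cfg V => ind (∀ x ∈ C i, s x = 0) := fun i s t k =>
    ind_congr (forall₂_congr fun x hx => by rw [k x hx])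
  have hpr : ∀ K : ι → Cfg V → ℝ, (∀ i ∈ I, Dep (C i) (K i)) →
      (fun s => ∏ i ∈ I, K i (pw (I.biUnion N) s 0)) = fun s => ∏ i ∈ I, K i s := fun K hK =>
    funext fun s => prod_congr rfl fun i hi =>
      (hK i hi).pw ((h i hi).2.2.2.2.1.trans (subset_biUnion_of_mem N hi)) s 0
  obtain ⟨p1, p2⟩ := hP F (fun i hi => (h i hi).2.2.2.2.2.1.mono (h i hi).2.2.2.2.1)
    fun i hi => (h i hi).2.2.2.2.2.2.2
  obtain ⟨q1, q2⟩ := core (hc.wt ha 0) hρ g1 g2 g3 (fun s => pw (I.biUnion N) s 0) g4 π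
    (F := fun s => ∏ i ∈ I, F i s) (fun t => prod_nonneg fun i hi => (h i hi).2.2.2.2.2.2.1 t)
    (fun s t k => prod_congr rfl fun i hi => (h i hi).2.2.2.2.2.1 s t ((hπ s t).1 k i hi)) p1
  rw [hpr F fun i hi => (h i hi).2.2.2.2.2.1] at q1 q2
  refine ⟨q1, q2.trans ?_⟩
  have e3 : Pr ((sb m (I.biUnion N) (I.biUnion fun i => inn (N i) m.ed)).W 0) (fun t => π t = 0) =
      ∏ i ∈ I, Pr ((sb m (N i) (inn (N i) m.ed)).W 0) fun s => ∀ x ∈ C i, s x = 0 := by
    simp only [Pr, hπ0]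
    exact (hP (fun i s => ind (∀ x ∈ C i, s x = 0)) (fun i hi => (hD i).mono (h i hi).2.2.2.2.1)
      fun i hi => (hw i hi).wt.ig_ind _).2
  have e4 : Pr (m.W 0) (fun s => π (pw (I.biUnion N) s 0) = 0) ≤
      ∏ i ∈ I, Pr ((m.free (N i \ S i)).W 0) fun s => ∀ x ∈ C i, s x = 0 := by
    simp only [Pr, hπ0]
    rw [hpr (fun i s => ind (∀ x ∈ C i, s x = 0)) fun i _ => hD i]
    exact dir hc ha hB (fun i hi => sdiff_subset.trans (h i hi).1) (fun i hi => (h i hi).2.2.1)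
      (fun i hi => (h i hi).2.2.2.1) (fun i _ => pd_on (C i))
      fun i hi => (hD i).mono (h i hi).2.2.2.2.1
  rw [p2, e3, prod_mul_distrib, prod_div_distrib]
  exact mul_le_mul_of_nonneg_right (div_le_div_of_nonneg_right e4
    (prod_nonneg fun i hi => Pr_nonneg (hw i hi).nonneg _))
    (prod_nonneg fun i hi => Ex_nonneg (hw i hi).nonneg fun s _ => (h i hi).2.2.2.2.2.2.1 s)

end Crest.Agent.T145.Nc
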