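import Crest.Agent.T145.NcDef_78
import Crest.Agent.T145.CutC_7

/-!
# Row 145: geometric decay of insertions and of the cross ratio (helper15, task 250)
-/

set_option autoImplicit false
set_option linter.unusedSectionVars false

namespace Crest.Agent.T145.Nc

open Finset

namespace Dc15

section gen
variable {V : Type} [DecidableEq V] {m : Mdl V} {U C S : Finset V} {r : V} {F : Cfg V → ℝ}

theorem pn_single (m : Mdl V) (U : Finset V) (r : V) : pn m U {r} = m.nbox U r := by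
  rw [pn, sdiff_singleton_eq_erase]; rfl

theorem rW_eq (m : Mdl V) (h : U.Nonempty) : ∃ r ∈ U, rW m U = (m.nbox U r).W 0 :=
  ⟨h.choose, h.choose_spec, by rw [rW, rs, dif_pos h, pn_single]⟩

theorem root (m : Mdl V) (hr : r ∈ U) (hF : DepG U F) :
    (Ig (rW m U) F ↔ Ig ((m.nbox U r).W 0) F) ∧ nE m U F = Ex ((m.nbox U r).W 0) F := by
  obtain ⟨r', hr', e⟩ := rW_eq m ⟨r, hr⟩
  rw [nE, e]
  exact (Md.root (m.nbox U r) hr' hr (fun _ he => (mem_inn.1 he).2) (fun _ _ => rfl)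
    (hF.shift subset_rfl)).2

theorem wt_rW (hF : m.Fm) (h : Cn m U) (hU : U.Nonempty) : Wt (rW m U) := by
  obtain ⟨r, hr, e⟩ := rW_eq m hU
  rw [e]; exact (cen_nbox hF (anch_nbox fun x hx => h x hx r hr)).wt

theorem depG_fl (C : Finset V) : DepG C fun s => ind (Fl C s) := fun s s' k h =>
  ind_congr (forall₂_congr fun x hx => forall₂_congr fun y hy => by
    rw [h x hx, h y hy, add_left_inj])

theorem pd_fl (C : Finset V) : PD fun s => ind (Fl C s) := by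
  have := pd_ind (AddMonoidHom.pi fun p : C × C => dH (p.2.1, p.1.1))
  refine (funext fun s => ind_congr ?_ : _ = _) ▸ this
  simp only [funext_iff, AddMonoidHom.pi_apply, dH_apply, dE, Pi.zero_apply, sub_eq_zero, Fl,
    Prod.forall, Subtype.forall]

/-- cutting delocalises -/
theorem nbox_le (hc : m.Ctr) (ha : m.Anch) (hr : r ∈ U) (hN : (m.nbox U r).Anch) (hP : PD F)
    (hF : DepG U F) : Ex ((m.nbox U r).W 0) F ≤ Ex (m.W 0) F := by
  have h := cut_pd (I := ({()} : Finset Unit)) (B := fun _ => U) (r := fun _ => r) hc ha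
    (fun _ _ => hr) (fun _ _ _ _ h => absurd rfl h) (fun _ _ => hN) hP
  have e : m.ncut ({()} : Finset Unit) (fun _ => U) (fun _ => r) = m.nbox U r := by
    simp only [Mdl.ncut, singleton_biUnion]; rfl
  rw [e] at h
  refine h.trans_eq (congrArg _ (funext fun s => (hF s _ (-s r) fun x hx => ?_).symm))
  rw [prj_apply]; simp [hx, sub_eq_add_neg]

theorem pr_fl_pos (hc : m.Ctr) (ha : m.Anch) (C : Finset V) : 0 < Pr (m.W 0) (Fl C) :=
  (hc.wt ha 0).ex_pos ((hc.wt ha 0).ig_ind _) (fun _ => ind_nonneg _) (hc.cen ha).pos0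
    (by rw [ind_pos (p := Fl C 0) fun _ _ _ _ => rfl]; exact one_pos)

theorem pn_W (hr : r ∈ S) (s : Cfg V) :
    (pn m U S).W 0 s = (m.nbox U r).W 0 s * ind (Fl S s) := by
  simp only [Mdl.W, pn, Mdl.nbox, prod_const_one, mul_one]
  rw [mul_right_comm, ← ind_and]
  congr 1
  refine ind_congr ⟨fun h => ⟨fun x hx => h x fun hx' => hx ?_, fun x hx y hy => ?_⟩, fun h x hx => ?_⟩
  · rw [mem_sdiff] at hx'
    exact mem_erase.2 ⟨fun e => hx'.2 (e ▸ hr), hx'.1⟩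
  · rw [h x (by simp [hx]), h y (by simp [hy])]; rfl
  · by_cases hx' : x ∈ S
    · rw [h.2 x hx' r hr]; exact h.1 r (notMem_erase _ _)
    · exact h.1 x fun h' => hx (mem_sdiff.2 ⟨mem_of_mem_erase h', hx'⟩)

end gen

section lat
variable {Λ : Lat} {z : Pt} {F : Cfg Pt → ℝ} {m : Mdl Pt}

theorem mem_an {x : Pt} {r R : ℕ} : x ∈ an z r R ↔ x ∈ bl z R ∧ x ∉ bl z r := mem_sdiff

theorem an_sub (z : Pt) (r R : ℕ) : an z r R ⊆ bl z R := sdiff_subset

theorem amb_mono {U U' : Finset Pt} (h : Amb Λ m U) (hU : U' ⊆ U) : Amb Λ m U' :=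
  ⟨h.ctr, h.anch, hU.trans h.sub, h.near.mono hU⟩

theorem wt_N (hΛ : Λ.Ok) (z : Pt) (c : ℕ) : Wt ((Λ.Nr (bl z c) z).W 0) :=
  (hΛ.cen_Nr_bl (self_mem_bl z c)).wt

theorem rW_N {c : ℕ} (p : Pt) (hp : p ∈ bl z c) (hF : DepG (bl z c) F) :
    (Ig (rW (Λ.N (bl z c)) (bl z c)) F ↔ Ig ((Λ.Nr (bl z c) p).W 0) F) ∧
      Ex (rW (Λ.N (bl z c)) (bl z c)) F = Ex ((Λ.Nr (bl z c) p).W 0) F := by
  have := root (Λ.N (bl z c)) hp hF
  rwa [Λ.nbox_of (Lat.inn_edI subset_rfl) rfl] at this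

/-- the norm hardly grows with the N-radius -/
theorem nm_le (hD : D1Stmt) (hG : LgeoStmt) (hΛ : Λ.Ok) {r c c' : ℕ} (hr : r + 2 * Λ.rg ≤ c)
    (hc : c ≤ c') (hF : DepG (bl z (r + Λ.rg)) F) (hI : In Λ z c F) :
    In Λ z c' F ∧ Nm Λ z c' F ≤ gam Λ r c * Nm Λ z c F := by
  have h1 := hΛ.one_le_rg
  have hp : z + ((c' : ℤ), 0) ∈ bl z c' := by
    rw [mem_bl]; simp only [Prod.fst_add, Prod.snd_add]; omega
  obtain ⟨hB, hW, hcr⟩ := ((hG Λ hΛ).2 (Λ.D (bl z c)) z).1 c (by omega)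
    ⟨hΛ.ctr_D _, hΛ.anch_D _, subset_rfl, Lat.near_D subset_rfl⟩
  have e : ∀ X, pn (Λ.Nr (bl z c') (z + ((c' : ℤ), 0))) (bl z c) X = pn (Λ.D (bl z c)) (bl z c) X :=
    fun X => by
      have : inn (bl z c) (Λ.Nr (bl z c') (z + ((c' : ℤ), 0))).ed = inn (bl z c) (Λ.D (bl z c)).ed :=
        (Lat.inn_edI (bl_mono z hc)).trans (Lat.inn_edT subset_rfl).symm
      rw [pn, pn, this]; rfl
  have hB' : Box (Λ.Nr (bl z c') (z + ((c' : ℤ), 0))) (bl z c) (an z (c - Λ.rg) c) := by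
    refine ⟨fun x hx y hy => ?_, hB.sub, hB.ne, ⟨fun x hx => ?_, fun _ _ _ => rfl⟩,
      fun x hx => hB.bd ?_⟩
    · exact (Lat.inn_edI (Λ := Λ) (bl_mono z hc)).symm ▸ hΛ.conn_rect (rect_bl hx hy)
    · rw [mem_sdiff, mem_an, not_and, not_not] at hx
      have h2 := mem_bl.1 (hx.2 hx.1)
      refine mem_erase.2 ⟨?_, bl_mono z hc hx.1⟩
      rintro rfl
      simp only [Prod.fst_add] at h2; omega
    · obtain ⟨h2, e, he, h3⟩ := Mdl.mem_bd.1 hx
      refine Mdl.mem_bd.2 ⟨h2, e, Lat.mem_edT.2 ⟨(Lat.mem_edI.1 he).1, ?_⟩, h3⟩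
      rcases h3 with h3 | h3
      exacts [Or.inr (mem_sdiff.1 h3.2).1, Or.inl (mem_sdiff.1 h3.2).1]
  have hF1 : DepG (bl z c) fun s => |F s| := (hF.mono (bl_mono z (by omega))).comp _
  have hF2 : DepG (bl z c') fun s => |F s| := hF1.mono (bl_mono z hc)
  have e2 : rW (Λ.Nr (bl z c') (z + ((c' : ℤ), 0))) (bl z c) = rW (Λ.N (bl z c)) (bl z c) := by
    rw [rW, e, ← rW, hW]
  have h := hD Pt Unit (Λ.Nr (bl z c') (z + ((c' : ℤ), 0))) {()} (fun _ => bl z c)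
    (fun _ => bl z (r + Λ.rg)) (fun _ => an z (c - Λ.rg) c) (fun _ s => |F s|) (hΛ.ctr_Nr _ _)
    (hΛ.anch_Nr_bl hp) (fun _ _ _ _ h => absurd rfl h) fun _ _ => ⟨hB', bl_mono z (by omega),
      hF.comp _, fun _ => abs_nonneg _, by
        rw [e2, (rW_N z (self_mem_bl z c) hF1).1]; exact hI.abs (wt_N hΛ z c).nonneg⟩
  simp only [prod_singleton] at h
  rw [← (rW_N _ hp hF2).1, ← (rW_N _ hp hF2).2, (rW_N z (self_mem_bl z c') hF2).1,
    (rW_N z (self_mem_bl z c') hF2).2, nE, e2, (rW_N z (self_mem_bl z c) hF1).2, cr, e, e2, ← hW,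
    ← cr] at h
  exact ⟨h.1.of_abs (wt_N hΛ z c').nonneg, h.2.trans (mul_le_mul_of_nonneg_right (hcr r hr)
    (Ex_nonneg (wt_N hΛ z c).nonneg fun _ _ => abs_nonneg _))⟩

theorem nm_nonneg (hΛ : Λ.Ok) (z : Pt) (c : ℕ) (F : Cfg Pt → ℝ) : 0 ≤ Nm Λ z c F :=
  Ex_nonneg (wt_N hΛ z c).nonneg fun _ _ => abs_nonneg _

theorem ex_abs_le (hL : LD1Stmt) (hΛ : Λ.Ok) {r c : ℕ} (hm : Amb Λ m (bl z c))
    (hr : r + 2 * Λ.rg ≤ c) (hF : DepG (bl z (r + Λ.rg)) F) (hI : In Λ z c F) :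
    Ig (m.W 0) F ∧ Ex (m.W 0) (fun s => |F s|) ≤ gam Λ r c * Nm Λ z c F := by
  simpa only [prod_singleton] using (hL Λ hΛ).1 Unit m {()} (fun _ => z) (fun _ => r) (fun _ => c)
    (fun _ => F) (fun _ _ _ _ h => absurd rfl h) hm.ctr hm.anch fun _ _ => ⟨hm, hr, hF, hI⟩

theorem arith {ρ W r₀ r : ℕ} (hW : 2 ≤ W) (h0 : 2 * ρ ≤ r₀) (hr : r₀ ≤ r) :
    (∀ k, r₀ ≤ W ^ k * r ∧ W ^ k * r + 2 * ρ ≤ W ^ (k + 1) * r ∧
      W ^ (k + 1) * r = W * (W ^ k * r)) ∧ (∀ k k', k ≤ k' → W ^ k * r ≤ W ^ k' * r) ∧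
      ∀ n, W ^ (4 * n) * r ≤ (4 * W ^ 4) ^ n * r := by
  refine ⟨fun k => ?_, fun k k' h => Nat.mul_le_mul_right _ (Nat.pow_le_pow_right (by omega) h),
    fun n => Nat.mul_le_mul_right _ ?_⟩
  · have h1 : r ≤ W ^ k * r := Nat.le_mul_of_pos_left _ (by positivity)
    have h2 : W ^ (k + 1) * r = W * (W ^ k * r) := by ring
    have h3 := Nat.mul_le_mul_right (W ^ k * r) hW
    omega
  · rw [pow_mul]; exact Nat.pow_le_pow_left (by omega) n

theorem depG_an {r R : ℕ} (hF : DepG (an z r R) F) : DepG (bl z R) F := hF.mono (an_sub z r R)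

/-- the flowed, centred insertion after `n` steps -/
theorem core (hGd : GDecStmt) (hM : MonoCrStmt) (hG : LgeoStmt) (hL : LD1Stmt) (hΛ : Λ.Ok) {g : ℝ}
    {W r₀ L r n R : ℕ} (g0 : 0 ≤ g) (g1 : g ≤ 1) (hd : Gd Λ g W r₀ L) (hr : r₀ ≤ r)
    (hR : W ^ (4 * n + 2) * r ≤ R) (hL' : W ^ (4 * n + 2) * r ≤ L) (hF : DepG (bl z r) F)
    (hI : In Λ z (W * r) F) (hm : Amb Λ m (bl z (R + Λ.rg))) :
    ∃ G : Cfg Pt → ℝ, DepG (bl z (W ^ (4 * n) * r + Λ.rg)) G ∧ In Λ z (W * (W ^ (4 * n) * r)) G ∧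
      Nm Λ z (W * (W ^ (4 * n) * r)) G ≤ 3 * (114 * g) ^ n * Nm Λ z (W * r) F ∧
      St Λ z R G = fun s => St Λ z R F s - Ex (m.W 0) F := by
  obtain ⟨hW, h0, hg⟩ := hd
  obtain ⟨a1, a2, -⟩ := arith hW h0 hr
  have h1 := hΛ.one_le_rg
  have b0 := a1 0
  have b1 := a1 1
  have b2 := a2 2 (4 * n + 2) (by omega)
  simp only [pow_zero, one_mul, zero_add, pow_one, Nat.reduceAdd] at b0 b1
  have hF' : DepG (bl z (r + Λ.rg)) F := hF.mono (bl_mono z (by omega))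
  have e1 := ex_abs_le hL hΛ (amb_mono hm (bl_mono z (by omega))) b0.2.1 hF' hI
  have hN := nm_nonneg hΛ z (W * r) F
  set μ := Ex (m.W 0) F with hμ
  have hw := hm.ctr.wt hm.anch 0
  have hI0 : In Λ z (W * r) fun s => F s - μ := hI.sub ((wt_N hΛ z _).ig_const μ)
  have hF0 : DepG (bl z (r + Λ.rg)) fun s => F s - μ := hF'.comp (· - μ)
  have hN0 : Nm Λ z (W * r) (fun s => F s - μ) ≤ 3 * Nm Λ z (W * r) F := by
    have h2 : |μ| ≤ 2 * Nm Λ z (W * r) F := (abs_Ex_le hw.nonneg e1.1).trans (e1.2.trans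
      (mul_le_mul_of_nonneg_right (by linarith [hg r hr (by omega)]) hN))
    have hw' := wt_N hΛ z (W * r)
    refine (Ex_mono hw'.nonneg (hI0.abs hw'.nonneg) ((hI.abs hw'.nonneg).add (hw'.ig_const |μ|))
      fun s => abs_sub _ _).trans ?_
    rw [hw'.ex_add_const (hI.abs hw'.nonneg)]
    change Nm Λ z (W * r) F + |μ| ≤ _
    linarith
  have hfib := ((hL Λ hΛ).2 z r (W * r) R F b0.2.1 (by omega) hF' hI).2.1
  have hSt : St Λ z R (fun s => F s - μ) = fun s => St Λ z R F s - μ :=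
    funext fun s => (hΛ.wt_D _ s).ex_sub_const (hfib s) μ
  rcases n with - | j
  · simp only [mul_zero, pow_zero, one_mul, mul_one]
    exact ⟨_, hF0, hI0, hN0, hSt⟩
  have box := fun k (hk : k ≤ 4 * (j + 1) + 2) (hk' : 1 ≤ k) =>
    ((hG Λ hΛ).2 m z).1 (W ^ k * r) (by have := a1 k; omega)
      (amb_mono hm (bl_mono z (by have := a2 k _ hk; omega)))
  have cut := fun k (hk : k + 1 ≤ 4 * (j + 1) + 2) =>
    ((hG Λ hΛ).2 m z).2 (W ^ k * r) (W ^ (k + 1) * r) (by have := a1 k; omega)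
      (by have := a1 k; omega) (amb_mono hm (bl_mono z (by have := a2 _ _ hk; omega)))
  have gm : ∀ k, k ≤ 4 * (j + 1) + 2 → gam Λ (W ^ k * r) (W ^ (k + 1) * r) ≤ 1 + g := fun k hk => by
    rw [(a1 k).2.2]; exact hg _ (a1 k).1 ((a2 k _ hk).trans hL')
  have nE_eq : ∀ k, k ≤ 4 * (j + 1) + 2 → 1 ≤ k → ∀ H : Cfg Pt → ℝ, DepG (bl z (W ^ k * r)) H →
      (Ig (rW m (bl z (W ^ k * r))) H ↔ In Λ z (W ^ k * r) H) ∧
        nm m (bl z (W ^ k * r)) H = Nm Λ z (W ^ k * r) H := fun k hk hk' H hH => by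
    rw [nm, nE, (box k hk hk').2.1]
    exact ⟨(rW_N z (self_mem_bl z _) hH).1, (rW_N z (self_mem_bl z _) (hH.comp _)).2⟩
  have hF1 : DepG (bl z (W ^ 1 * r)) fun s => F s - μ := hF0.mono (bl_mono z (by rw [pow_one]; omega))
  have key := hGd Pt m (fun k => bl z (W ^ (2 * k + 1) * r))
    (fun k => an z (W ^ (2 * k + 1) * r - Λ.rg) (W ^ (2 * k + 1) * r))
    (fun k => an z (W ^ (2 * k + 1) * r) (W ^ (2 * k + 1 + 1) * r + Λ.rg))
    (fun k => an z (W ^ (2 * k + 1) * r) (W ^ (2 * k + 1) * r + Λ.rg))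
    (fun k => an z (W ^ (2 * k + 1 + 1) * r) (W ^ (2 * k + 1 + 1) * r + Λ.rg))
    (bl z (r + Λ.rg)) (fun s => F s - μ) g j hm.ctr hm.anch g1 (fun k hk => by
      obtain ⟨c1, c2, c3, -⟩ := cut (2 * k + 1) (by omega)
      obtain ⟨d1, -, d3⟩ := box (2 * (k + 1) + 1) (by omega) (by omega)
      have e3 : 2 * (k + 1) + 1 = 2 * k + 1 + 1 + 1 := by ring
      have f1 := a1 (2 * k + 1)
      have f2 := a1 (2 * k + 1 + 1)
      refine ⟨c1, ?_, ?_, ?_, ?_⟩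
      · rw [c3]
        exact ((hG Λ hΛ).1 _ _ _ _ le_rfl (Nat.le_add_right _ _) f1.2.1).2.trans (gm _ (by omega))
      · rw [e3]
        exact union_subset (bl_mono z (by omega)) ((an_sub _ _ _).trans (bl_mono z (by omega)))
      · rw [c2, e3]
        exact disjoint_left.2 fun x hx hx' => (mem_an.1 hx').2 (bl_mono z (by omega) hx)
      · refine ((hM Pt m _ (bl z (W ^ (2 * k + 1 + 1) * r + Λ.rg)) _ hm.ctr.1 d1.cn
          (bl_mono z (by rw [e3]; omega)) d1.sub ⟨z, self_mem_bl _ _⟩ d1.ne).2.2.1 _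
          (an_sub _ _ _)).trans ((d3 _ (by rw [e3]; omega)).trans ?_)
        rw [e3]; exact gm _ (by omega))
    (box _ (by omega) (by omega)).1 (bl_mono z (by simp only [mul_zero, zero_add, pow_one]; omega))
    (((box 1 (by omega) le_rfl).2.2 r (by rw [pow_one]; omega)).trans
      (by rw [pow_one]; exact hg r hr (by omega)))
    hF0 ((nE_eq 1 (by omega) le_rfl _ hF1).1.2 (by rw [pow_one]; exact hI0))
    (by rw [hw.ex_sub_const e1.1, sub_self])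
  rw [(cut (2 * (2 * j + 1) + 1) (by omega)).2.1, show 2 * (2 * j + 1) + 1 + 1 = 4 * (j + 1) by ring,
    show 2 * (2 * j + 2) + 1 = 4 * (j + 1) + 1 by ring] at key
  have f1 := a1 (4 * (j + 1))
  have f2 := a2 (4 * (j + 1) + 1) (4 * (j + 1) + 2) (by omega)
  have hD := depG_an key.1
  have hD' := hD.mono (bl_mono z (show _ ≤ W ^ (4 * (j + 1) + 1) * r by omega))
  have h2 := (nE_eq _ (by omega) (by omega) _ hD').1.1 key.2.1
  have h3 := key.2.2
  rw [(nE_eq _ (by omega) (by omega) _ hD').2, mul_zero, zero_add,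
    (nE_eq 1 (by omega) le_rfl _ hF1).2, pow_one] at h3
  rw [f1.2.2] at h2 h3
  refine ⟨_, hD, h2, h3.trans ?_, ?_⟩
  · rw [mul_comm (3 : ℝ), mul_assoc]
    exact mul_le_mul_of_nonneg_left hN0 (by positivity)
  · have hs : bl z (W ^ (4 * (j + 1)) * r) ⊆ bl z R := bl_mono z (by omega)
    rw [← hSt]
    funext s
    have e : m.cE (bl z (W ^ (4 * (j + 1)) * r)) (fun s => F s - μ) =
        (Λ.D (bl z R)).cE (bl z (W ^ (4 * (j + 1)) * r)) (fun s => F s - μ) := funext fun t => by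
      rw [(hm.near.mono (hs.trans (bl_mono z (by omega)))).cE hΛ hm.ctr.1,
        (Lat.near_D hs).cE hΛ (hΛ.ctr_D _).1]
    rw [e]
    exact (Mdl.cE_cE (m := Λ.D (bl z R)) hs (hΛ.wt_D _ s)
      ((hfib s).sub ((hΛ.wt_D _ s).ig_const μ))).2

theorem hole_eq (Λ : Lat) (z p : Pt) (c R : ℕ) :
    hole (Λ.Nr (bl z R) p) (bl z c) = Λ.Nr (an z c R) p := by
  have e1 : (bl z R).erase p \ bl z c = (an z c R).erase p := by
    ext x; simp only [mem_sdiff, mem_erase, mem_an]; tauto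
  have e2 : (Λ.edI (bl z R)).filter (fun e => e.1 ∉ bl z c ∧ e.2 ∉ bl z c) = Λ.edI (an z c R) := by
    ext e; simp only [mem_filter, Lat.mem_edI, mem_an]; tauto
  change Mdl.mk ((bl z R).erase p \ bl z c)
    ((Λ.edI (bl z R)).filter fun e => e.1 ∉ bl z c ∧ e.2 ∉ bl z c) _ _ = _
  rw [e1, e2]; rfl

theorem an_mono (z : Pt) {r r' R R' : ℕ} (h : r' ≤ r) (h' : R ≤ R') : an z r R ⊆ an z r' R' :=
  sdiff_subset_sdiff (bl_mono z h') (bl_mono z h)

end lat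

end Dc15

open Dc15

/-- geometric decay of insertions -/
theorem decStmt (hGd : GDecStmt) (hD : D1Stmt) (hM : MonoCrStmt) (hG : LgeoStmt) (hL : LD1Stmt) :
    DecStmt := by
  intro Λ hΛ g W r₀ L g0 g1 hd z r n R F hr hR hL' hF hI m hm
  obtain ⟨a1, a2, a3⟩ := arith hd.1 hd.2.1 hr
  have h1 := hΛ.one_le_rg
  have b1 := a3 (n + 1)
  have b2 := a2 (4 * n + 2) (4 * (n + 1)) (by omega)
  have b3 := a1 (4 * n)
  have b4 := a1 (4 * n + 1)
  have b5 := a1 0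
  have b6 := a1 1
  have b7 := a2 2 (4 * n + 2) (by omega)
  have b8 := a2 1 (4 * n + 1) (by omega)
  simp only [pow_zero, one_mul, zero_add, pow_one, Nat.reduceAdd, add_assoc] at b4 b5 b6 b8
  obtain ⟨G, G1, G2, G3, G4⟩ := core hGd hM hG hL hΛ g0 g1 hd hr (n := n) (R := R) (by omega)
    (by omega) hF hI hm
  set a := W ^ (4 * n) * r with ha
  have hF' : DepG (bl z (r + Λ.rg)) F := hF.mono (bl_mono z (by omega))
  have hN := nm_nonneg hΛ z (W * r) F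
  have hga : gam Λ a (W * a) ≤ 2 := by linarith [hd.2.2 a b3.1 (by omega)]
  have hP : (114 * g) ^ n ≤ (200 * g) ^ n := pow_le_pow_left₀ (by positivity) (by linarith) n
  have hP0 : 0 ≤ (200 * g) ^ n * Nm Λ z (W * r) F := by positivity
  have G5 : gam Λ a (W * a) * Nm Λ z (W * a) G ≤ 6 * ((200 * g) ^ n * Nm Λ z (W * r) F) := by
    have := mul_le_mul_of_nonneg_right hP hN
    nlinarith [mul_le_mul_of_nonneg_right hga (nm_nonneg hΛ z (W * a) G)]
  obtain ⟨-, l2, -, l4, -⟩ := (hL Λ hΛ).2 z a (W * a) R G (by omega) (by omega) G1 G2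
  obtain ⟨-, -, -, k4, -⟩ := (hL Λ hΛ).2 z r (W * r) R F (by omega) (by omega) hF' hI
  have amb : ∀ m', Amb Λ m' (bl z (R + Λ.rg)) →
      Ex (m'.W 0) (fun s => |St Λ z R G s|) ≤ 6 * ((200 * g) ^ n * Nm Λ z (W * r) F) ∧
        |Ex (m.W 0) F - Ex (m'.W 0) F| ≤ 6 * ((200 * g) ^ n * Nm Λ z (W * r) F) := fun m' hm' => by
    have hw := hm'.ctr.wt hm'.anch 0
    have hR' := amb_mono hm' (bl_mono z (Nat.le_add_right R Λ.rg))
    have e1 := ex_abs_le hL hΛ (amb_mono hm' (bl_mono z (by omega))) (by omega) G1 G2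
    have e2 := ex_abs_le hL hΛ (amb_mono hm' (bl_mono z (by omega))) (by omega) hF' hI
    have d1 := hR'.near.dlr hΛ hm'.ctr.1 hR'.sub hw e1.1
    have d2 := hR'.near.dlr hΛ hm'.ctr.1 hR'.sub hw (e1.1.abs hw.nonneg)
    have d3 := hR'.near.dlr hΛ hm'.ctr.1 hR'.sub hw e2.1
    have h2 : Ex (m'.W 0) (fun s => |St Λ z R G s|) ≤ 6 * ((200 * g) ^ n * Nm Λ z (W * r) F) :=
      (Ex_mono hw.nonneg (d1.1.abs hw.nonneg) d2.1 fun s =>
        abs_Ex_le (hΛ.wt_D _ s).nonneg (l2 s)).trans (d2.2.symm.trans_le (e1.2.trans G5))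
    refine ⟨h2, le_trans (le_of_eq ?_) ((abs_Ex_le hw.nonneg d1.1).trans h2)⟩
    change _ = |Ex (m'.W 0) (St Λ z R G)|
    rw [G4, hw.ex_sub_const (F := St Λ z R F) d3.1, abs_sub_comm]
    congr 2
    exact d3.2
  refine ⟨?_, fun m' hm' => by linarith [(amb m' hm').2], fun c' hc' => ?_,
    fun c H hc1 hc2 hc3 hH hHi => ?_⟩
  · have := (amb m hm).1
    rw [G4] at this
    linarith
  · obtain ⟨p1, -, p3, p4, p5⟩ := l4 c' hc'
    obtain ⟨-, q2, q3, -⟩ := k4 c' hc'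
    have hw := wt_N hΛ z c'
    have h2 : |EN Λ z c' G| ≤ Nm Λ z c' G := abs_Ex_le hw.nonneg p1
    rw [← p3, G4, EN, hw.ex_sub_const q2, ← EN, q3, abs_sub_comm] at h2
    rw [G4] at p4
    exact ⟨by linarith, by linarith⟩
  · have c1 : W * a ≤ c := (Nat.mul_le_mul_left W (a3 n)).trans hc1
    have c2 := Nat.mul_le_mul_right c hd.1
    have c3 := hd.2.1
    have hw := hm.ctr.wt hm.anch 0
    obtain ⟨n1, n2⟩ := nm_le hD hG hΛ (by omega) c1 G1 G2
    obtain ⟨-, u2, u3, u4⟩ := ((hL Λ hΛ).2 z a c R G (by omega) (by omega) G1 n1).2.2.2.2 m H hm hH hHi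
    obtain ⟨-, v2, v3, -⟩ := ((hL Λ hΛ).2 z r c R F (by omega) (by omega) hF'
      (nm_le hD hG hΛ (by omega) (by omega) hF' hI).1).2.2.2.2 m H hm hH hHi
    have w1 := (((hL Λ hΛ).2 z r c R (fun _ => 1) (by omega) (by omega) (DepG.const _ _)
      ((wt_N hΛ z c).ig_const 1)).2.2.2.2 m H hm hH hHi).1
    have x1 := (((hL Λ hΛ).2 z a c R G (by omega) (by omega) G1 n1).2.2.2.2 m H hm hH hHi).1
    simp only [one_mul] at w1
    have e : Cv (m.W 0) F H = Ex (m.W 0) fun s => G s * H s := by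
      rw [u3, G4, Cv, v3]
      simp only [sub_mul]
      rw [Ex_sub v2 (w1.const_mul _), Ex_const_mul]
    have hh := ((hG Λ hΛ).2 m z).2 c R (by omega) (by omega) hm
    have hE : 0 ≤ Ex ((hole m (bl z c)).W 0) fun s => |H s| :=
      Ex_nonneg (hh.2.2.2.2.2.ctr.wt hh.2.2.2.2.2.anch 0).nonneg fun _ _ => abs_nonneg _
    have g2 := (hG Λ hΛ).1 a (W * a) a c le_rfl c1 (by omega)
    have g3 := (hG Λ hΛ).1 c (W * c) c R le_rfl hc2 (by omega)
    have g4 := hd.2.2 c (by omega) hc3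
    rw [e]
    refine (abs_Ex_le hw.nonneg x1).trans (u4.trans (mul_le_mul_of_nonneg_right ?_ hE))
    have h2 : gam Λ a c * gam Λ c R ≤ 2 * 2 :=
      mul_le_mul (g2.2.trans hga) (by linarith [g3.2]) (by linarith [g3.1]) zero_le_two
    have h3 := mul_le_mul h2 (n2.trans G5) (nm_nonneg hΛ z c G) (by norm_num)
    linarith

/-- geometric decay of the cross ratio -/
theorem subStmt (hGd : GDecStmt) (hio : D1ioStmt) (hM : MonoCrStmt) (hG : LgeoStmt)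
    (hH : LgeoHStmt) : SubStmt := by
  intro Λ hΛ g W r₀ L g0 g1 hd r n R hr hR hL'
  obtain ⟨hW, h0, hg⟩ := hd
  obtain ⟨a1, a2, a3⟩ := arith hW h0 hr
  have h1 := hΛ.one_le_rg
  have b1 := a3 (n + 2)
  have b0 := a1 0
  have rk : ∀ k, r ≤ W ^ k * r := fun k => by simpa using a2 0 k (Nat.zero_le k)
  have top : ∀ k, k ≤ 4 * n + 6 → W ^ k * r + 2 * Λ.rg ≤ R ∧ W ^ k * r ≤ L := fun k hk => by
    have := a1 k
    have := a2 (k + 1) (4 * (n + 2)) (by omega)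
    omega
  simp only [pow_zero, one_mul, zero_add, pow_one] at b0
  have t0 := top 0 (by omega)
  simp only [pow_zero, one_mul] at t0
  rcases lt_or_ge 25 (114 * g) with hs | hs
  · have h2 := ((hG Λ hΛ).1 r (W * r) r R le_rfl (by have := top 1 (by omega); rw [pow_one] at this; omega)
      (by omega)).2.trans (hg r hr t0.2)
    have h3 : (1 : ℝ) ≤ (200 * g) ^ n := one_le_pow₀ (by linarith)
    linarith
  set p : Pt := ((R : ℤ), 0) with hp
  have pin : ∀ c, c < R → p ∈ an 0 c R := fun c hc => by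
    rw [mem_an, mem_bl, mem_bl]; simp only [hp, Prod.fst_zero, Prod.snd_zero]; omega
  have amb : ∀ c, c + Λ.rg ≤ R → Amb Λ (Λ.Nr (bl 0 R) p) (bl 0 c) := fun c hc =>
    ⟨hΛ.ctr_Nr _ _, hΛ.anch_Nr_bl (an_sub _ _ _ (pin c (by omega))), fun x hx => mem_erase.2
      ⟨fun e => (mem_an.1 (pin c (by omega))).2 (e ▸ hx), bl_mono 0 (by omega) hx⟩,
      Lat.near_Nr (Lat.edT_bl_subset 0 hc) p⟩
  have box := fun k (hk : k ≤ 4 * n + 6) (hk' : 1 ≤ k) =>
    (hH Λ hΛ (Λ.Nr (bl 0 R) p) 0 r).1 (W ^ k * r) (by have := a2 1 k hk'; rw [pow_one] at this; omega)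
      (amb _ (by have := top k hk; omega))
  have cut := fun k (hk : k + 1 ≤ 4 * n + 6) (hk' : 1 ≤ k) =>
    (hH Λ hΛ (Λ.Nr (bl 0 R) p) 0 r).2 (W ^ k * r) (W ^ (k + 1) * r)
      (by have := a2 1 k hk'; rw [pow_one] at this; omega) (by have := a1 k; omega)
      (amb _ (by have := top _ hk; omega))
  have gm : ∀ k, k ≤ 4 * n + 6 → gam Λ (W ^ k * r) (W ^ (k + 1) * r) ≤ 1 + g := fun k hk => by
    rw [(a1 k).2.2]; exact hg _ (a1 k).1 (top k hk).2
  simp only [hole_eq] at box cut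
  set X := Λ.Nr (an 0 r R) p with hX
  obtain ⟨hc, ha, -⟩ := cut 1 (by omega) le_rfl
  have hw := hc.wt ha 0
  set K := an 0 r (r + Λ.rg) with hK
  set S := an 0 (R - Λ.rg) R with hS
  have pK := pr_fl_pos hc ha K
  have pS := pr_fl_pos hc ha S
  have dK : DepG K fun s => ind (Fl K s) / Pr (X.W 0) (Fl K) - 1 :=
    (depG_fl K).comp fun t => t / Pr (X.W 0) (Fl K) - 1
  have iK : ∀ {W' : Cfg Pt → ℝ}, Wt W' → Ig W' fun s => ind (Fl K s) / Pr (X.W 0) (Fl K) - 1 :=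
    fun h => ((h.ig_ind _).div_const _).sub (h.ig_const 1)
  obtain ⟨B1, -, B3⟩ := box 1 (by omega) le_rfl
  have KN : K ⊆ an 0 r (W ^ 1 * r) := an_mono 0 le_rfl (by rw [pow_one]; omega)
  have wN := wt_rW hc.1 B1.cn (B1.ne.mono B1.sub)
  have crT : ∀ k, 1 ≤ k → k + 2 ≤ 4 * n + 6 →
      cr X (an 0 r (W ^ (k + 1 + 1) * r)) (an 0 (W ^ (k + 1) * r) (W ^ (k + 1) * r + Λ.rg))
        (an 0 (W ^ (k + 1 + 1) * r - Λ.rg) (W ^ (k + 1 + 1) * r)) ≤ 1 + g := fun k hk hk' => by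
    obtain ⟨d1, -, d3⟩ := box (k + 1 + 1) (by omega) (by omega)
    have f2 := a1 (k + 1)
    have hT := an_mono 0 (rk (k + 1)) (le_refl (W ^ (k + 1) * r + Λ.rg))
    exact ((hM Pt X _ (an 0 r (W ^ (k + 1) * r + Λ.rg)) _ hc.1 d1.cn (an_mono 0 le_rfl (by omega))
      d1.sub ((cut k (by omega) hk).2.2.1.tne.mono hT) d1.ne).2.2.1 _ hT).trans
        ((d3 _ (rk _) f2.2.1).trans (gm _ (by omega)))
  have crU : ∀ k, 1 ≤ k → k + 1 ≤ 4 * n + 6 →
      cr X (an 0 (W ^ k * r) (W ^ (k + 1) * r + Λ.rg)) (an 0 (W ^ k * r) (W ^ k * r + Λ.rg))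
        (an 0 (W ^ (k + 1) * r) (W ^ (k + 1) * r + Λ.rg)) ≤ 1 + g := fun k hk hk' => by
    rw [(cut k hk' hk).2.2.2.2.1]
    exact ((hG Λ hΛ).1 _ _ _ _ le_rfl (Nat.le_add_right _ _) (a1 k).2.1).2.trans (gm _ (by omega))
  have key := hGd Pt X (fun k => an 0 r (W ^ (2 * k + 1) * r))
    (fun k => an 0 (W ^ (2 * k + 1) * r - Λ.rg) (W ^ (2 * k + 1) * r))
    (fun k => an 0 (W ^ (2 * k + 1) * r) (W ^ (2 * k + 1 + 1) * r + Λ.rg))
    (fun k => an 0 (W ^ (2 * k + 1) * r) (W ^ (2 * k + 1) * r + Λ.rg))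
    (fun k => an 0 (W ^ (2 * k + 1 + 1) * r) (W ^ (2 * k + 1 + 1) * r + Λ.rg))
    K _ g n hc ha g1 (fun k hk => by
      obtain ⟨-, -, c1, c2, -⟩ := cut (2 * k + 1) (by omega) (by omega)
      have e3 : 2 * (k + 1) + 1 = 2 * k + 1 + 1 + 1 := by ring
      have f1 := a1 (2 * k + 1)
      have f2 := a1 (2 * k + 1 + 1)
      refine ⟨c1, crU _ (by omega) (by omega), ?_, ?_, ?_⟩
      · rw [e3]
        exact union_subset (an_mono 0 le_rfl (by omega)) (an_mono 0 (rk _) (by omega))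
      · rw [c2, e3]
        exact disjoint_left.2 fun x hx hx' =>
          (mem_an.1 hx').2 (bl_mono 0 (by omega) (an_sub _ _ _ hx))
      · rw [e3]; exact crT _ (by omega) (by omega))
    (box _ (by omega) (by omega)).1 KN
    ((B3 r le_rfl (by rw [pow_one]; omega)).trans (by rw [pow_one]; exact hg r hr t0.2)) dK (iK wN)
    (by rw [hw.ex_sub_const ((hw.ig_ind _).div_const _), Ex_div_const, ← Pr, div_self pK.ne', sub_self])
  obtain ⟨-, -, c1, c2, -⟩ := cut (2 * (2 * n + 1) + 1) (by omega) (by omega)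
  rw [c2, show 2 * (2 * n + 2) + 1 = 2 * (2 * n + 1) + 1 + 1 + 1 by ring] at key
  set a' := X.cE (an 0 r (W ^ (2 * (2 * n + 1) + 1 + 1) * r))
    fun s => ind (Fl K s) / Pr (X.W 0) (Fl K) - 1 with ha'
  have n0 : nm X (an 0 r (W ^ (2 * 0 + 1) * r))
      (fun s => ind (Fl K s) / Pr (X.W 0) (Fl K) - 1) ≤ 2 := by
    obtain ⟨q, hq⟩ := B1.ne.mono B1.sub
    have h2 := nbox_le hc ha hq (anch_nbox fun x hx => B1.cn x hx q hq) (pd_fl K) ((depG_fl K).mono KN)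
    rw [← (root X hq ((depG_fl K).mono KN)).2, ← Pr, ← div_le_one pK] at h2
    refine (Ex_mono wN.nonneg ((iK wN).abs wN.nonneg)
      (((wN.ig_ind (Fl K)).div_const (Pr (X.W 0) (Fl K))).add (wN.ig_const 1)) fun s =>
        (abs_sub _ _).trans_eq ?_).trans ?_
    · rw [abs_one, abs_of_nonneg (div_nonneg (ind_nonneg _) pK.le)]
    · rw [wN.ex_add_const ((wN.ig_ind _).div_const _), Ex_div_const]
      change nE X _ _ / _ + 1 ≤ _
      linarith
  obtain ⟨-, -, d1, d2, -, d4⟩ := cut (2 * (2 * n + 1) + 1 + 1 + 1) (by omega) (by omega)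
  have oS : ∀ k, k ≤ 4 * n + 6 → Out (an 0 r (W ^ k * r)) fun s => ind (Fl S s) := fun k hk =>
    (depG_fl S).dep.out (disjoint_left.2 fun x hx hx' =>
      (mem_an.1 hx).2 (bl_mono 0 (by have := top k hk; omega) (an_sub _ _ _ hx')))
  have f1 := a1 (2 * (2 * n + 1) + 1 + 1)
  have t1 := top (2 * (2 * n + 1) + 1 + 1 + 1) (by omega)
  have hamb := (((hG Λ hΛ).2 _ 0).2 (W ^ (2 * (2 * n + 1) + 1 + 1 + 1) * r)
    (W ^ (2 * (2 * n + 1) + 1 + 1 + 1 + 1) * r) (by omega)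
    (by have := a1 (2 * (2 * n + 1) + 1 + 1 + 1); omega)
    (amb _ (by have := top (2 * (2 * n + 1) + 1 + 1 + 1 + 1) (by omega); omega))).2.2.2.2.2
  rw [hole_eq] at hamb
  have wN' := wt_rW hc.1 d1.cn (d1.ne.mono d1.sub)
  have io := hio Pt X _ _ _ _ _ _ (fun s => |a' s|) (fun s => ind (Fl S s)) hc ha d1
    (an_mono 0 (rk _) (by omega)) (key.1.comp _) (fun _ => abs_nonneg _) (key.2.1.abs wN'.nonneg)
    (by rw [d2]; exact oS _ (by omega)) (fun _ => ind_nonneg _)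
    (by rw [d4]; exact (hamb.ctr.wt hamb.anch 0).ig_ind _)
  have hS' : S ⊆ an 0 (W ^ (2 * (2 * n + 1) + 1 + 1 + 1) * r) R := an_mono 0 (by omega) le_rfl
  have e1 := Λ.nbox_Nr (an_mono 0 (rk (2 * (2 * n + 1) + 1 + 1 + 1)) (le_refl R)) p p
  have h3 := nbox_le hc ha (pin _ (by omega)) (e1.symm ▸ hamb.anch) (pd_fl S) ((depG_fl S).mono hS')
  rw [e1, ← d4] at h3
  have hB : an 0 r (W ^ (2 * (2 * n + 1) + 1 + 1) * r) ⊆ X.A := c2 ▸ union_subset c1.clN.1 c1.clU.1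
  have tw := Mdl.tower_cE_mul hB (oS _ (by omega)) hw ((iK hw).ind_mul hw.nonneg (Fl S))
  have h4 : Ex (X.W 0) (fun s => ind (Fl S s) * (ind (Fl K s) / Pr (X.W 0) (Fl K) - 1)) ≤
      2 * 2 * ((114 * g) ^ (n + 1) * 2) * Pr (X.W 0) (Fl S) := by
    rw [tw.2]
    refine (Ex_mono hw.nonneg tw.1 io.1 fun s => ?_).trans (io.2.trans ?_)
    · rw [mul_comm]; exact mul_le_mul_of_nonneg_right (le_abs_self _) (ind_nonneg _)
    · have h5 := crT (2 * (2 * n + 1) + 1) (by omega) (by omega)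
      have h6 := crU (2 * (2 * n + 1) + 1 + 1 + 1) (by omega) (by omega)
      have h7 := (hM Pt X _ _ _ hc.1 d1.cnU d1.ksub d1.tsub d1.kne d1.tne).1
      refine mul_le_mul (mul_le_mul (mul_le_mul (by linarith) (by linarith) (by linarith) zero_le_two)
        (key.2.2.trans (mul_le_mul_of_nonneg_left n0 (by positivity)))
        (Ex_nonneg wN'.nonneg fun _ _ => abs_nonneg _) (by norm_num)) h3 ?_ (by positivity)
      rw [d4]
      exact Pr_nonneg (hamb.ctr.wt hamb.anch 0).nonneg _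
  have e2 : (Λ.N (an 0 r R)).nbox (an 0 r R) p = X := Λ.nbox_of (Lat.inn_edI subset_rfl) rfl p
  have e3 : gam Λ r R = Ex (X.W 0) (fun s => ind (Fl S s) * ind (Fl K s)) / Pr (X.W 0) (Fl S) /
      Pr (X.W 0) (Fl K) := by
    have h5 := (root (Λ.N (an 0 r R)) (pin r (by omega))
      ((depG_fl K).mono (an_mono 0 le_rfl (by omega)))).2
    rw [e2] at h5
    rw [gam, cr, funext (pn_W (pin (R - Λ.rg) (by omega))), e2, Pr, hw.ex_mul]
    congr 1
  simp only [mul_sub, mul_one, ← mul_div_assoc] at h4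
  rw [Ex_sub (((hw.ig_ind _).mul_ind hw.nonneg _).div_const _) (hw.ig_ind _), Ex_div_const,
    ← Pr] at h4
  have h5 : (114 * g) ^ (n + 1) ≤ (200 * g) ^ n * 25 := by
    rw [pow_succ]
    exact mul_le_mul (pow_le_pow_left₀ (by positivity) (by linarith) n) hs (by positivity)
      (by positivity)
  rw [e3, div_right_comm, div_le_iff₀ pS]
  nlinarith

end Crest.Agent.T145.Nc
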