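import Crest.Agent.T145.NcDef_78
import Crest.Agent.T145.CutC_7
import Crest.Agent.T145.MdlD_73
import Crest.Agent.T145.ApiP_98

/-!
# Row 145, module (N): the hole density, `HdStmt` from `D1Stmt` (helper10)
-/

set_option autoImplicit false
set_option linter.unusedSectionVars false

namespace Crest.Agent.T145.Nc

open Finset

namespace Hd10

/-- two summands with the same sums on the fibres of `π` -/
theorem transfer {α β : Type*} (π : α → β) {u v a b : α → ℝ} {f g : α → α → ℝ}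
    (hu : ∀ s t, ind (π t = π s) * u t = a s * f s t)
    (hv : ∀ s t, ind (π t = π s) * v t = b s * g s t)
    (f0 : ∀ s t, 0 ≤ f s t) (hf : ∀ s, Summable (f s)) (g0 : ∀ s t, 0 ≤ g s t)
    (e : ∀ s, a s * Zs (f s) = b s * Zs (g s)) (hs : Summable v) : HasSum u (∑' t, v t) := by
  have off : ∀ (w : α → ℝ) (q : β), (¬ ∃ s, π s = q) → (fun t => ind (π t = q) * w t) = fun _ => 0 :=
    fun w q hq => funext fun t => by rw [ind_neg fun h => hq ⟨t, h⟩, zero_mul]
  have ab : ∀ {w c : α → ℝ} {k : α → α → ℝ}, (∀ s t, ind (π t = π s) * w t = c s * k s t) →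
      (∀ s t, 0 ≤ k s t) → ∀ s t, ind (π t = π s) * |w t| = |c s| * k s t := fun h k0 s t => by
    rw [← abs_of_nonneg (ind_nonneg (π t = π s)), ← abs_mul, h, abs_mul, abs_of_nonneg (k0 s t)]
  have e1 : push u π = push v π := funext fun q => by
    unfold push
    by_cases hq : ∃ s, π s = q
    · obtain ⟨s, rfl⟩ := hq
      simp only [hu, hv, tsum_mul_left]
      exact e s
    · rw [off u q hq, off v q hq]
  have e2 : push (fun t => |u t|) π = push (fun t => |v t|) π := funext fun q => by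
    unfold push
    by_cases hq : ∃ s, π s = q
    · obtain ⟨s, rfl⟩ := hq
      simp only [ab hu f0, ab hv g0, tsum_mul_left]
      have := congrArg abs (e s)
      rwa [abs_mul, abs_mul, abs_of_nonneg (Zs_nonneg (f0 s)), abs_of_nonneg (Zs_nonneg (g0 s))]
        at this
    · rw [off _ q hq, off _ q hq]
  have su : Summable u := by
    refine Summable.of_abs (summable_of_push (fun t => abs_nonneg _) π (fun q => ?_) ?_)
    · by_cases hq : ∃ s, π s = q
      · obtain ⟨s, rfl⟩ := hq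
        simp only [ab hu f0]
        exact (hf s).mul_left _
      · rw [off _ q hq]; exact summable_zero
    · rw [e2]; exact summable_push hs.abs π
  have h1 := hasSum_push su π
  rw [e1] at h1
  rw [← h1.unique (hasSum_push hs π)]
  exact su.hasSum

variable {V : Type*} [DecidableEq V] {m : Mdl V} {B N X : Finset V}

theorem loc_fm (h : m.Fm) (B : Finset V) : (m.loc B).Fm := fun e he => h e (Mdl.mem_edM.1 he).1

theorem loc_ctr (h : m.Fm) (hc : Cl m B) : (m.loc B).Ctr :=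
  ⟨loc_fm h B, fun x hx => by
    have : (m.loc B).site x = fun _ => 1 := funext (hc.2 x hx)
    rw [this]; exact ⟨rsd_one51, pd_one, one_pos⟩⟩

/-- a path that leaves `B` leaves it along edges meeting `B` -/
theorem exit {x y : V} (h : Conn m.ed x y) (hy : y ∉ B) : ∃ y', y' ∉ B ∧ Conn (m.edM B) x y' := by
  induction h using Relation.ReflTransGen.head_induction_on with
  | refl => exact ⟨y, hy, Conn.refl _ _⟩
  | @head a c h _ ih =>
    by_cases ha : a ∈ B
    · obtain ⟨y', h1, h2⟩ := ih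
      exact ⟨y', h1, Relation.ReflTransGen.head
        (h.imp (fun h => Mdl.mem_edM.2 ⟨h, Or.inl ha⟩) fun h => Mdl.mem_edM.2 ⟨h, Or.inr ha⟩) h2⟩
    · exact ⟨a, ha, Conn.refl _ _⟩

theorem loc_anch (h : ∀ x ∈ B, ∃ y, y ∉ B ∧ Conn m.ed x y) : (m.loc B).Anch := fun x hx => by
  obtain ⟨y, h1, h2⟩ := h x hx
  obtain ⟨y', h3, h4⟩ := exit h2 h1
  exact ⟨y', h4, Or.inl h3⟩

theorem gl_out (m : Mdl V) (B : Finset V) : Out B (gl m B) := fun _ _ e => by
  rw [gl, gl, Mdl.W_congr (m := m.loc B) e]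

theorem gl_of_bd {h : ℤ} (hs : ∀ x ∈ B, ∀ k, m.site x (k + h) = m.site x k) {s s' : Cfg V}
    (hb : ∀ x ∈ m.bd B, s' x = s x + h) : gl m B s = gl m B s' := by
  have hd : ∀ x, x ∈ B ∨ x ∈ m.bd B → pw B (cst B h) (s' - s) x = h := by
    rintro x (hx | hx)
    · rw [pw_of_mem _ _ hx, cst_of_mem h hx]
    · rw [pw_of_notMem _ _ (Mdl.mem_bd.1 hx).1, Finsupp.sub_apply, hb x hx]; ring
  rw [gl_out m B s' (s + pw B (cst B h) (s' - s)) fun x hx => by
      rw [Finsupp.add_apply, pw_of_notMem _ _ hx, Finsupp.sub_apply]; ring, gl, gl,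
    ← Zs_equiv (Equiv.addRight (pw B (cst B h) (s' - s))) ((m.loc B).W (s + _))]
  simp only [Equiv.coe_addRight]
  rw [funext (Mdl.W_loc_shift (fun x hx k => by rw [hd x (Or.inl hx), hs x hx])
    (fun e he => by rw [hd _ (Mdl.ends_of_edM he).1, hd _ (Mdl.ends_of_edM he).2]) s)]

theorem gl_dep (m : Mdl V) (B : Finset V) : Dep (m.bd B) (gl m B) := fun _ _ e =>
  gl_of_bd (h := 0) (fun _ _ _ => by rw [add_zero]) fun x hx => by rw [e x hx, add_zero]

theorem gl_depG (hc : Cl m B) : DepG (m.bd B) (gl m B) := fun _ _ _ e =>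
  gl_of_bd (fun x hx _ => by rw [hc.2 x hx, hc.2 x hx]) e

theorem pd_W (h : m.Ctr) : PD fun p : Cfg V × Cfg V => m.W p.2 p.1 := by
  have h1 := (Md.pd_off m.A).comp (AddMonoidHom.fst (Cfg V) (Cfg V) - AddMonoidHom.snd _ _)
  have h2 := (Md.pd_edges h.1 le_rfl).comp (AddMonoidHom.fst (Cfg V) (Cfg V))
  have h3 := (Md.pd_sites fun x hx => (h.2 x hx).2.1).comp (AddMonoidHom.fst (Cfg V) (Cfg V))
  convert (h1.mul h2).mul h3 using 2 with p
  simp [Mdl.W, sub_eq_zero]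

theorem gl_pd (hc : (m.loc B).Ctr) (ha : (m.loc B).Anch) : PD (gl m B) :=
  (pd_W hc).mg fun q => (Md.ctr_wt hc ha q).summ

theorem gl_empty (m : Mdl V) (s : Cfg V) : gl m ∅ s = 1 := by
  have : (m.loc ∅).W s = fun t => ind (t = s) := funext fun t => by
    simp [Mdl.W, Mdl.loc, Mdl.free, Mdl.keep, Mdl.edM, Finsupp.ext_iff]
  rw [gl, this, Zs, tsum_eq_single s fun t ht => ind_neg ht, ind_pos rfl]

theorem mem_hole {e : V × V} : e ∈ (hole m N).ed ↔ e ∈ m.ed ∧ e.1 ∉ N ∧ e.2 ∉ N := mem_filter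

theorem bd_hole {x : V} (hx : x ∈ (hole m N).bd X) : x ∉ N ∧ x ∈ m.bd (N ∪ X) := by
  obtain ⟨h1, e, he, h⟩ := Mdl.mem_bd.1 hx
  obtain ⟨he, h2, h3⟩ := mem_hole.1 he
  have hN : x ∉ N := by rcases h with ⟨rfl, _⟩ | ⟨rfl, _⟩ <;> assumption
  exact ⟨hN, Mdl.mem_bd.2 ⟨fun h => (mem_union.1 h).elim hN h1, e, he,
    h.imp (And.imp_right (mem_union_right _)) (And.imp_right (mem_union_right _))⟩⟩

theorem gl_hole_out (m : Mdl V) (N X : Finset V) : Out (N ∪ X) (gl (hole m N) X) := fun s s' e =>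
  gl_dep _ X s s' fun x hx => e x (Mdl.mem_bd.1 (bd_hole hx).2).1

/-- the weight of what does not meet `B` -/
noncomputable def fr (m : Mdl V) (B : Finset V) (η : Cfg V) (σ : V × V → ℤ) (s : Cfg V) : ℝ :=
  ind (∀ x, x ∉ m.A → s x = η x) *
    (∏ e ∈ m.ed.filter (fun e => ¬ (e.1 ∈ B ∨ e.2 ∈ B)), m.w e (dE e s + σ e)) *
    ∏ x ∈ m.A \ B, m.site x (s x)

theorem fib (hB : B ⊆ m.A) (η : Cfg V) {σ : V × V → ℤ} (hσ : ∀ e ∈ m.edM B, σ e = 0) (s t : Cfg V) :
    ind (∀ x, x ∉ B → t x = s x) * m.Ws η σ t = fr m B η σ s * (m.loc B).W s t := by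
  by_cases h : ∀ x, x ∉ B → t x = s x
  · simp only [Mdl.W, Mdl.Ws, Mdl.free, Mdl.loc, Mdl.keep, fr]
    rw [← prod_filter_mul_prod_filter_not m.ed (fun e => e.1 ∈ B ∨ e.2 ∈ B), ← prod_sdiff hB,
      Md.ind_iff (p := ∀ x, x ∉ m.A → t x = η x) (q := ∀ x, x ∉ m.A → s x = η x)
        ⟨fun H x hx => (h x fun h' => hx (hB h')).symm.trans (H x hx),
          fun H x hx => (h x fun h' => hx (hB h')).trans (H x hx)⟩]
    have e1 : ∏ e ∈ m.ed.filter (fun e => ¬ (e.1 ∈ B ∨ e.2 ∈ B)), m.w e (dE e t + σ e) =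
        ∏ e ∈ m.ed.filter (fun e => ¬ (e.1 ∈ B ∨ e.2 ∈ B)), m.w e (dE e s + σ e) :=
      prod_congr rfl fun e he => by
        have := not_or.1 (mem_filter.1 he).2
        rw [Md.dE_congr (h _ this.1) (h _ this.2)]
    have e2 : ∏ e ∈ m.ed.filter (fun e => e.1 ∈ B ∨ e.2 ∈ B), m.w e (dE e t + σ e) =
        ∏ e ∈ m.edM B, m.w e (dE e t) := prod_congr rfl fun e he => by rw [hσ e he, add_zero]
    have e3 : ∏ x ∈ m.A \ B, m.site x (t x) = ∏ x ∈ m.A \ B, m.site x (s x) :=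
      prod_congr rfl fun x hx => by rw [h x (mem_sdiff.1 hx).2]
    rw [e1, e2, e3]; ring
  · simp only [Mdl.W, Mdl.free, Mdl.loc, Mdl.keep]
    rw [ind_neg h]; ring

theorem fr_hole (hN : N ⊆ m.A) (η : Cfg V) (σ : V × V → ℤ) (s : Cfg V) :
    fr (hole m N) X η σ (pw N η s) = fr m (N ∪ X) η σ s := by
  unfold fr
  congr 1
  · congr 1
    · refine Md.ind_iff ⟨fun H x hx => ?_, fun H x hx => ?_⟩
      · rw [← pw_of_notMem η s fun h => hx (hN h)]
        exact H x fun h => hx (mem_sdiff.1 h).1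
      · by_cases h : x ∈ N
        · exact pw_of_mem _ _ h
        · rw [pw_of_notMem _ _ h]; exact H x fun h' => hx (mem_sdiff.2 ⟨h', h⟩)
    · refine prod_congr ?_ fun e he => ?_
      · ext e; simp only [mem_filter, mem_hole, mem_union]; tauto
      · simp only [mem_filter, mem_union, not_or] at he
        rw [Md.dE_congr (pw_of_notMem η s he.2.1.1) (pw_of_notMem η s he.2.2.1)]; rfl
  · refine prod_congr ?_ fun x hx => ?_
    · ext x; simp only [hole, mem_sdiff, mem_union]; tauto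
    · simp only [mem_sdiff, mem_union, not_or] at hx
      rw [pw_of_notMem η s hx.2.1]; rfl

theorem fib_hole (hN : N ⊆ m.A) (hX : X ⊆ m.A) (hd : Disjoint N X) (η : Cfg V) {σ : V × V → ℤ}
    (hσ : ∀ e ∈ m.edM (N ∪ X), σ e = 0) (s t : Cfg V) :
    ind (∀ x, x ∉ N ∪ X → t x = s x) * (hole m N).Ws η σ t =
      fr m (N ∪ X) η σ s * ((hole m N).loc X).W (pw N η s) t := by
  rw [← fr_hole hN, ← fib (m := hole m N)
    (fun x hx => mem_sdiff.2 ⟨hX hx, disjoint_right.1 hd hx⟩) η fun e he =>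
      hσ e (Mdl.mem_edM.2 ⟨(mem_hole.1 (Mdl.mem_edM.1 he).1).1,
        (Mdl.mem_edM.1 he).2.imp (mem_union_right _) (mem_union_right _)⟩)]
  by_cases h : (hole m N).Ws η σ t = 0
  · rw [h, mul_zero, mul_zero]
  · congr 1
    refine Md.ind_iff ⟨fun H x hx => ?_, fun H x hx => ?_⟩
    · by_cases h' : x ∈ N
      · rw [pw_of_mem _ _ h']
        exact Mdl.Ws_ne_zero h fun h'' => (mem_sdiff.1 h'').2 h'
      · rw [pw_of_notMem _ _ h']
        exact H x fun h'' => (mem_union.1 h'').elim h' hx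
    · rw [H x fun h' => hx (mem_union_right _ h'),
        pw_of_notMem _ _ fun h' => hx (mem_union_left _ h')]

/-- transfer between the model and the model with the hole `N`, read off `N ∪ X` -/
theorem hole_transfer (hN : N ⊆ m.A) (hX : X ⊆ m.A) (hd : Disjoint N X)
    (w₁ : ∀ s, Wt ((m.loc (N ∪ X)).W s)) (w₂ : ∀ s t, 0 ≤ ((hole m N).loc X).W s t)
    (η : Cfg V) {σ : V × V → ℤ} (hσ : ∀ e ∈ m.edM (N ∪ X), σ e = 0) {Φ : Cfg V → ℝ}
    (hΦ : Out (N ∪ X) Φ) (hI : Ig ((hole m N).Ws η σ) Φ) :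
    HasSum (fun s => m.Ws η σ s * (Φ s * (gl (hole m N) X s / gl m (N ∪ X) s)))
      (∑' s, (hole m N).Ws η σ s * Φ s) := by
  refine transfer (fun s : Cfg V => s.filter (· ∉ N ∪ X))
    (a := fun s => fr m (N ∪ X) η σ s * (Φ s * (gl (hole m N) X s / gl m (N ∪ X) s)))
    (b := fun s => fr m (N ∪ X) η σ s * Φ s) (f := fun s => (m.loc (N ∪ X)).W s)
    (g := fun s => ((hole m N).loc X).W (pw N η s)) (fun s t => ?_) (fun s t => ?_)
    (fun s => (w₁ s).nonneg) (fun s => (w₁ s).summ) (fun s => w₂ _) (fun s => ?_) hI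
  · rw [Md.ind_iff (Md.filter_not_eq_iff _ t s), mul_right_comm,
      ← fib (union_subset hN hX) η hσ s t]
    by_cases h : ∀ x, x ∉ N ∪ X → t x = s x
    · rw [hΦ t s h, gl_hole_out m N X t s h, gl_out m _ t s h]; ring
    · rw [ind_neg h]; ring
  · rw [Md.ind_iff (Md.filter_not_eq_iff _ t s), mul_right_comm, ← fib_hole hN hX hd η hσ s t]
    by_cases h : ∀ x, x ∉ N ∪ X → t x = s x
    · rw [hΦ t s h]; ring
    · rw [ind_neg h]; ring
  · have e1 : Zs (((hole m N).loc X).W (pw N η s)) = gl (hole m N) X s :=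
      gl_hole_out m N X _ _ fun x hx => pw_of_notMem _ _ fun h => hx (mem_union_left _ h)
    have e2 : Zs ((m.loc (N ∪ X)).W s) = gl m (N ∪ X) s := rfl
    have e3 : gl m (N ∪ X) s ≠ 0 := (w₁ s).ne
    rw [e1, e2]; field_simp

variable {S U K T : Finset V}

theorem inn_hole (hd : Disjoint N U) : inn U (hole m N).ed = inn U m.ed := by
  ext e
  simp only [mem_inn, mem_hole]
  exact ⟨fun h => ⟨h.1.1, h.2⟩, fun h =>
    ⟨⟨h.1, disjoint_right.1 hd h.2.1, disjoint_right.1 hd h.2.2⟩, h.2⟩⟩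

theorem pn_hole (hd : Disjoint N U) (S : Finset V) : pn (hole m N) U S = pn m U S := by
  rw [pn, inn_hole hd]; rfl

theorem conn_hole (hd : Disjoint N U) (hU : Cn m U) {x y : V} (hx : x ∈ U) (hy : y ∈ U) :
    Conn (hole m N).ed x y := by
  have := hU x hx y hy
  rw [← inn_hole hd] at this
  exact this.mono (filter_subset _ _)

theorem hole_fm (h : m.Fm) (N : Finset V) : (hole m N).Fm := fun e he => h e (mem_hole.1 he).1

theorem hole_ctr (h : m.Ctr) (N : Finset V) : (hole m N).Ctr :=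
  ⟨hole_fm h.1 N, fun x hx => h.2 x (mem_sdiff.1 hx).1⟩

theorem not_se_one : ¬ SE fun _ : ℤ => (1 : ℝ) := fun h => by
  have := (summable_const_iff (1 : ℝ)).1 h.summable
  exact one_ne_zero this

theorem hole_anch (h : m.Anch) (hN : Cl m N) (hd : Disjoint N U) (hU : Cn m U) (hb : m.bd N ⊆ U) :
    (hole m N).Anch := fun x hx => by
  obtain ⟨hx, hxN⟩ := mem_sdiff.1 hx
  obtain ⟨y, h1, h2⟩ := h x hx
  have hy : y ∉ N := fun hy => h2.elim (fun h => h (hN.1 hy)) fun h => by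
    rw [funext (hN.2 y hy)] at h; exact not_se_one h
  have key : (y ∉ N → Conn (hole m N).ed x y) ∧ (y ∈ N → ∃ k ∈ U, Conn (hole m N).ed x k) := by
    clear h2 hy
    induction h1 with
    | refl => exact ⟨fun _ => Conn.refl _ _, fun h => absurd h hxN⟩
    | @tail a c _ h ih =>
      by_cases ha : a ∈ N
      · refine ⟨fun hc => ?_, fun _ => ih.2 ha⟩
        obtain ⟨k, hk, hk'⟩ := ih.2 ha
        refine hk'.trans (conn_hole hd hU hk (hb (Mdl.mem_bd.2 ⟨hc, ?_⟩)))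
        exact h.elim (fun h => ⟨_, h, Or.inr ⟨rfl, ha⟩⟩) fun h => ⟨_, h, Or.inl ⟨rfl, ha⟩⟩
      · refine ⟨fun hc => Relation.ReflTransGen.tail (ih.1 ha) (h.imp
          (fun h => mem_hole.2 ⟨h, ha, hc⟩) fun h => mem_hole.2 ⟨h, hc, ha⟩), fun hc => ?_⟩
        refine ⟨a, hb (Mdl.mem_bd.2 ⟨ha, ?_⟩), ih.1 ha⟩
        exact h.elim (fun h => ⟨_, h, Or.inl ⟨rfl, hc⟩⟩) fun h => ⟨_, h, Or.inr ⟨rfl, hc⟩⟩
  exact ⟨y, key.1 hy, h2.imp_left fun h h' => h (mem_sdiff.1 h').1⟩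

theorem rs_eq (hU : U.Nonempty) : ∃ r ∈ U, rs U = {r} :=
  ⟨hU.choose, hU.choose_spec, by rw [rs, dif_pos hU]⟩

theorem wt_rW (h : m.Fm) (hU : Cn m U) (hne : U.Nonempty) : Wt (rW m U) := by
  obtain ⟨r, hr, e⟩ := rs_eq hne
  refine Md.ctr_wt (m := pn m U (rs U))
    (ctr_of_site_one (fun e he => h e (mem_inn.1 he).1) rfl) (fun x hx => ?_) 0
  exact ⟨r, hU x (mem_sdiff.1 hx).1 r hr, Or.inl fun h => (mem_sdiff.1 h).2 (e ▸ mem_singleton_self r)⟩

end Hd10

open Hd10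

/-- a positive definite function of the gradients has a larger mean in the ambient model -/
theorem Hd10.le_ex {V : Type} [DecidableEq V] {m : Mdl V} {U : Finset V} (hc : m.Ctr) (ha : m.Anch)
    (hU : Cn m U) (hne : U.Nonempty) {G : Cfg V → ℝ} (hG : PD G) (hD : DepG U G) :
    nE m U G ≤ Ex (m.W 0) G := by
  obtain ⟨r, hr, e⟩ := rs_eq hne
  have h := cut_pd (I := ({()} : Finset Unit)) (B := fun _ => U) (r := fun _ => r) hc ha
    (fun _ _ => hr) (fun _ _ _ _ h => absurd rfl h) (fun _ _ => anch_nbox fun x hx => hU x hx r hr) hG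
  have e1 : m.ncut ({()} : Finset Unit) (fun _ => U) (fun _ => r) = pn m U (rs U) := by
    simp only [Mdl.ncut, pn, e, singleton_biUnion, sdiff_singleton_eq_erase]
  have e2 : (fun s => G (prj ({()} : Finset Unit) (fun _ => U) (fun _ => r) s)) = G :=
    funext fun s => hD _ _ (s r) fun x hx => by
      rw [Cut7.prj_mem (i := ()) (fun _ _ _ _ h => absurd rfl h) (mem_singleton_self _) hx]; ring
  rwa [e1, e2] at h

theorem hdStmt (hD : D1Stmt) : HdStmt := by
  intro V _ m N S U K T hF hc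
  obtain ⟨t, ht⟩ := hc.tne
  obtain ⟨b, hb⟩ := hc.bne
  have hbU : m.bd N ⊆ U := hc.kbd.trans hc.ksub
  have hdj : Disjoint N (U \ T) := hc.disj.mono_right sdiff_subset
  have cB : Cl m (N ∪ U \ T) := ⟨union_subset hc.clN.1 hc.clU.1, fun x hx =>
    (mem_union.1 hx).elim (hc.clN.2 x) (hc.clU.2 x)⟩
  have cH : Cl (hole m N) (U \ T) :=
    ⟨fun x hx => mem_sdiff.2 ⟨hc.clU.1 hx, disjoint_right.1 hdj hx⟩, hc.clU.2⟩
  have toU : ∀ x ∈ U, Conn m.ed x t := fun x hx =>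
    (hc.cnU x hx t (hc.tsub ht)).mono (filter_subset _ _)
  have toB : ∀ x ∈ N, Conn m.ed x b := fun x hx => by
    obtain ⟨_, e, he, ⟨h1, h2⟩ | ⟨h1, h2⟩⟩ := Mdl.mem_bd.1 hb
    · exact ((hc.cn x hx _ h2).mono (filter_subset _ _)).trans (h1 ▸ Conn.edge' he)
    · exact ((hc.cn x hx _ h2).mono (filter_subset _ _)).trans (h1 ▸ Conn.edge he)
  have tB : ∀ x ∈ T, x ∉ N ∪ U \ T := fun x hx h => (mem_union.1 h).elim
    (disjoint_right.1 hc.disj (hc.tsub hx)) fun h => (mem_sdiff.1 h).2 hx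
  have aN : (m.loc N).Anch := loc_anch fun x hx => ⟨b, (Mdl.mem_bd.1 hb).1, toB x hx⟩
  have aB : (m.loc (N ∪ U \ T)).Anch := loc_anch fun x hx => ⟨t, tB t ht, (mem_union.1 hx).elim
    (fun hx => (toB x hx).trans (toU b (hbU hb))) fun hx => toU x (mem_sdiff.1 hx).1⟩
  have aH : ((hole m N).loc (U \ T)).Anch := loc_anch fun x hx =>
    ⟨t, fun h => (mem_sdiff.1 h).2 ht, conn_hole hc.disj hc.cnU (mem_sdiff.1 hx).1 (hc.tsub ht)⟩
  have wN := Md.ctr_wt (loc_ctr hF hc.clN) aN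
  have wB := Md.ctr_wt (loc_ctr hF cB) aB
  have wH := Md.ctr_wt (loc_ctr (hole_fm hF N) cH) aH
  have pd : PD (gl m N) := gl_pd (loc_ctr hF hc.clN) aN
  have dK : DepG K (gl m N) := (gl_depG hc.clN).mono hc.kbd
  have wU : Wt (rW m U) := wt_rW hF hc.cnU ⟨t, hc.tsub ht⟩
  have iU : Ig (rW m U) (gl m N) := wU.ig_bdd pd.abs_le
  have k0 : 0 < nE m U (gl m N) := wU.ex_pos' iU fun s => (wN s).pos
  have bH : (hole m N).bd (U \ T) ⊆ T := fun x hx => hc.tbd (bd_hole hx).2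
  have tr : ∀ (η : Cfg V) (σ : V × V → ℤ) (Φ : Cfg V → ℝ), (∀ e ∈ m.edM (N ∪ U \ T), σ e = 0) →
      Out (N ∪ U \ T) Φ → Ig ((hole m N).Ws η σ) Φ →
      HasSum (fun s => m.Ws η σ s * (Φ s * hd m N U T s))
        (nE m U (gl m N) * ∑' s, (hole m N).Ws η σ s * Φ s) := fun η σ Φ hσ hΦ hI => by
    have h := (hole_transfer hc.clN.1 hc.clU.1 hdj wB (fun s => (wH s).nonneg) η hσ hΦ hI).mul_left
      (nE m U (gl m N))
    have e : (fun s => m.Ws η σ s * (Φ s * hd m N U T s)) = fun s => nE m U (gl m N) *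
        (m.Ws η σ s * (Φ s * (gl (hole m N) (U \ T) s / gl m (N ∪ U \ T) s))) :=
      funext fun s => by simp only [Nc.hd, gl]; ring
    rwa [e]
  refine ⟨fun s => div_pos (mul_pos k0 (wH s).pos) (wB s).pos, ?_, k0, tr, fun hC hA => ?_⟩
  · exact ((gl_depG cH).mono bH).comp₂ ((gl_depG cB).mono hc.tbd)
      fun a b => nE m U (gl m N) * a / b
  have cH' := hole_ctr hC N
  have aH' := hole_anch hA hc.clN hc.disj hc.cnU hbU
  have w0 := Md.ctr_wt cH' aH' 0
  have i0 : Ig ((hole m N).W 0) (gl m N) := w0.ig_bdd pd.abs_le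
  have E0 : 0 < Ex ((hole m N).W 0) (gl m N) := w0.ex_pos' i0 fun s => (wN s).pos
  have hZ : Zs (m.W 0) = Zs ((hole m N).W 0) * Ex ((hole m N).W 0) (gl m N) := by
    have h := hole_transfer (X := ∅) hc.clN.1 (empty_subset _) (disjoint_empty_right _)
      (by rw [union_empty]; exact wN)
      (fun s t => Md.W_nonneg (loc_fm (hole_fm hF N) _) (fun _ h => absurd h (notMem_empty _)) s t)
      0 (σ := 0) (fun _ _ => rfl) (Φ := gl m N) (by rw [union_empty]; exact gl_out m N)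
      (by rw [← Mdl.W_eq_Ws]; exact i0)
    simp only [← Mdl.W_eq_Ws, gl_empty, union_empty] at h
    rw [← w0.tsum_eq, ← h.tsum_eq]
    refine tsum_congr fun s => ?_
    have : gl m N s ≠ 0 := (wN s).ne
    field_simp
  have cnH : Cn (hole m N) U := fun x hx y hy => by rw [inn_hole hc.disj]; exact hc.cnU x hx y hy
  have eW : rW (hole m N) U = rW m U := by rw [rW, pn_hole hc.disj]; rfl
  have lo : nE m U (gl m N) ≤ Ex ((hole m N).W 0) (gl m N) := by
    have := le_ex cH' aH' cnH ⟨t, hc.tsub ht⟩ pd (dK.mono hc.ksub)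
    rwa [nE, eW] at this
  have hi : Ex ((hole m N).W 0) (gl m N) ≤ cr m U K T * nE m U (gl m N) := by
    have := (hD V Unit (hole m N) {()} (fun _ => U) (fun _ => K) (fun _ => T) (fun _ => gl m N)
      cH' aH' (fun _ _ _ _ h => absurd rfl h) fun _ _ =>
        ⟨⟨cnH, hc.tsub, ⟨t, ht⟩, cH, bH⟩, hc.ksub, dK, fun s => (wN s).pos.le, eW ▸ iU⟩).2
    simp only [prod_singleton] at this
    rwa [cr, nE, eW, pn_hole hc.disj] at this
  have c0 : 0 < cr m U K T := (mul_pos_iff_of_pos_right k0).1 (E0.trans_le hi)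
  refine ⟨nE m U (gl m N) / Ex ((hole m N).W 0) (gl m N), ?_, (div_le_one E0).2 lo,
    fun Φ hΦ hI => ?_⟩
  · rw [div_le_div_iff₀ c0 E0]; linarith
  · have h := tr 0 0 Φ (fun _ _ => rfl) hΦ (by rw [← Mdl.W_eq_Ws]; exact hI)
    simp only [← Mdl.W_eq_Ws] at h
    refine ⟨h.summable, ?_⟩
    rw [Ex_def, h.tsum_eq, hZ, w0.tsum_eq]
    have := w0.ne
    field_simp

end Crest.Agent.T145.Nc
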