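import Crest.Agent.T145.NcDef_78
import Crest.Agent.T145.MdlD_73
import Crest.Agent.T145.ApiL_98

/-!
# Row 145 (helper98): `Nc.nbStmt : NbStmt` from (D1) and the symmetry of the cross ratio;
`Nc.d1ioStmt : D1ioStmt` from `NbStmt` and `HdStmt`.
-/

set_option autoImplicit false

namespace Crest.Agent.T145.Nc

open Finset

namespace Io98

variable {V : Type} [DecidableEq V] {m : Mdl V}

theorem loc_shift {B : Finset V} (h1 : ∀ x ∈ B, ∀ k, m.site x k = 1) {s s' : Cfg V} {h : ℤ}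
    (hb : ∀ x ∈ m.bd B, s' x = s x + h) :
    ∃ δ : Cfg V, (∀ x ∈ B, δ x = h) ∧ ∀ t, (m.loc B).W s' (t + δ) = (m.loc B).W s t := by
  have hB : ∀ x ∈ B, pw B (cst B h) (s' - s) x = h := fun x hx => by
    rw [pw_of_mem _ _ hx, cst_of_mem h hx]
  have hδ : ∀ x, x ∈ B ∨ x ∈ m.bd B → pw B (cst B h) (s' - s) x = h := by
    rintro x (hx | hx)
    · exact hB x hx
    · rw [pw_of_notMem _ _ (Mdl.mem_bd.1 hx).1, Finsupp.sub_apply, hb x hx]; ring
  refine ⟨pw B (cst B h) (s' - s), hB, fun t => ?_⟩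
  rw [← Mdl.W_loc_shift (δ := pw B (cst B h) (s' - s)) (fun x hx k => by rw [h1 x hx, h1 x hx])
    (fun e he => by rw [hδ _ (Mdl.ends_of_edM he).1, hδ _ (Mdl.ends_of_edM he).2]) s t,
    (m.loc B).W_congr (η := s') (η' := s + pw B (cst B h) (s' - s)) fun x hx => by
      rw [Finsupp.add_apply, pw_of_notMem (U := B) _ _ hx, Finsupp.sub_apply]; ring]

theorem sum_shift {B C : Finset V} (h1 : ∀ x ∈ B, ∀ k, m.site x k = 1) {s s' : Cfg V} {h : ℤ}
    (hb : ∀ x ∈ m.bd B, s' x = s x + h) {F : Cfg V → ℝ} (hF : DepG C F) (hC : C ⊆ B) :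
    (Ig ((m.loc B).W s') F ↔ Ig ((m.loc B).W s) F) ∧
      ∑' t, (m.loc B).W s' t * F t = ∑' t, (m.loc B).W s t * F t := by
  obtain ⟨δ, hδ, hW⟩ := loc_shift h1 hb
  have e : ∀ t, (m.loc B).W s' (Equiv.addRight δ t) * F (Equiv.addRight δ t) =
      (m.loc B).W s t * F t := fun t => by
    rw [Equiv.coe_addRight, hW, ← hF t (t + δ) h fun x hx => by
      rw [Finsupp.add_apply, hδ x (hC hx)]]
  refine ⟨?_, ?_⟩
  · rw [Ig, Ig, ← (Equiv.addRight δ).summable_iff]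
    exact Iff.of_eq (congrArg Summable (funext e))
  · rw [← (Equiv.addRight δ).tsum_eq]
    exact tsum_congr e

theorem zloc_depG {B : Finset V} (h1 : ∀ x ∈ B, ∀ k, m.site x k = 1) :
    DepG (m.bd B) fun s => Zs ((m.loc B).W s) := fun s s' h hb => by
  have := (sum_shift h1 hb (DepG.const ∅ (1 : ℝ)) (empty_subset _)).2
  simp only [mul_one] at this
  exact this.symm

omit [DecidableEq V] in
theorem rs_eq {U : Finset V} (h : U.Nonempty) : ∃ r ∈ U, rs U = {r} :=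
  ⟨h.choose, h.choose_spec, by rw [rs, dif_pos h]⟩

theorem pn_ctr (hF : m.Fm) (U S : Finset V) : (pn m U S).Ctr :=
  ⟨fun e he => hF e (Md.inn_subset _ _ he), fun _ _ => ⟨Md.rsd_one, pd_one, one_pos⟩⟩

theorem pn_anch {U S : Finset V} (hc : Cn m U) (hS : S ⊆ U) (hne : S.Nonempty) :
    (pn m U S).Anch := fun x hx => by
  obtain ⟨y, hy⟩ := hne
  exact ⟨y, hc x (mem_sdiff.1 hx).1 y (hS hy), Or.inl fun h => (mem_sdiff.1 h).2 hy⟩

theorem pn_wt (hF : m.Fm) {U S : Finset V} (hc : Cn m U) (hS : S ⊆ U) (hne : S.Nonempty) :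
    Wt ((pn m U S).W 0) := Md.ctr_wt (pn_ctr hF U S) (pn_anch hc hS hne) 0

theorem pn_root {U : Finset V} {r r' : V} (hr : r ∈ U) (hr' : r' ∈ U) {F : Cfg V → ℝ}
    (hF : ∀ s h, F (s + cst U h) = F s) :
    (Ig ((pn m U {r}).W 0) F ↔ Ig ((pn m U {r'}).W 0) F) ∧
      Ex ((pn m U {r}).W 0) F = Ex ((pn m U {r'}).W 0) F := by
  have e : ∀ a, pn m U {a} = (pn m U ∅).free (U.erase a) := fun a => by
    simp only [pn, Mdl.free, sdiff_singleton_eq_erase]
  rw [e, e]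
  exact (Md.root (pn m U ∅) hr hr' (fun e he => (Md.mem_inn.1 he).2) (fun _ _ => rfl) hF).2

theorem nE_root {U : Finset V} {r : V} (hr : r ∈ U) {F : Cfg V → ℝ} (hF : DepG U F) :
    nE m U F = Ex ((pn m U {r}).W 0) F := by
  obtain ⟨a, ha, e⟩ := rs_eq ⟨r, hr⟩
  rw [nE, rW, e]
  exact (pn_root ha hr (hF.shift le_rfl)).2

theorem inn_inn {U X : Finset V} (h : U ⊆ X) (E : Finset (V × V)) : inn U (inn X E) = inn U E := by
  ext e
  simp only [Md.mem_inn]
  exact ⟨fun H => ⟨H.1.1, H.2⟩, fun H => ⟨⟨H.1, h H.2.1, h H.2.2⟩, H.2⟩⟩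

theorem pn_pn {U X : Finset V} (h : U ⊆ X) (R S : Finset V) : pn (pn m X R) U S = pn m U S := by
  simp only [pn, inn_inn h]

theorem bd_pn (X R B : Finset V) : (pn m X R).bd B ⊆ m.bd B := fun x hx => by
  obtain ⟨h1, e, he, h2⟩ := Mdl.mem_bd.1 hx
  exact Mdl.mem_bd.2 ⟨h1, e, Md.inn_subset _ _ he, h2⟩

/-- the local weight of `B` does not see the restriction to a set containing `B` and its boundary -/
theorem loc_pn {X B : Finset V} (R : Finset V) (h1 : ∀ x ∈ B, ∀ k, m.site x k = 1) (hB : B ⊆ X)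
    (hb : m.bd B ⊆ X) (s : Cfg V) : ((pn m X R).loc B).W s = (m.loc B).W s := by
  refine Mdl.W_loc_congr (m := pn m X R) (m' := m) ?_ (fun _ _ => rfl)
    (fun x hx => funext fun k => (h1 x hx k).symm) s
  ext e
  rw [Mdl.mem_edM, Mdl.mem_edM]
  refine ⟨fun H => ⟨Md.inn_subset _ _ H.1, H.2⟩, fun H => ⟨Md.mem_inn.2 ⟨H.1, ?_, ?_⟩, H.2⟩⟩
  · exact (Mdl.ends_of_edM (Mdl.mem_edM.2 H)).1.elim (@hB _) (@hb _)
  · exact (Mdl.ends_of_edM (Mdl.mem_edM.2 H)).2.elim (@hB _) (@hb _)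

theorem glue_W {N : Finset V} (hN : N ⊆ m.A) (t : Cfg V) :
    m.W 0 t = (hole m N).W 0 (pw N 0 t) * (m.loc N).W (pw N 0 t) t := by
  have i1 : (∀ x, x ∉ m.A \ N → pw N 0 t x = (0 : Cfg V) x) ↔ ∀ x, x ∉ m.A → t x = (0 : Cfg V) x := by
    refine ⟨fun H x hx => ?_, fun H x hx => ?_⟩
    · rw [← H x fun h => hx (mem_sdiff.1 h).1, pw_of_notMem _ _ fun h => hx (hN h)]
    · by_cases h : x ∈ N
      · exact pw_of_mem _ _ h
      · rw [pw_of_notMem _ _ h]; exact H x fun h' => hx (mem_sdiff.2 ⟨h', h⟩)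
  have i2 : ∀ x, x ∉ N → t x = pw N 0 t x := fun x hx => (pw_of_notMem _ _ hx).symm
  have e1 : ∏ e ∈ m.ed.filter (fun e => e.1 ∉ N ∧ e.2 ∉ N), m.w e (dE e (pw N 0 t)) =
      ∏ e ∈ m.ed.filter (fun e => ¬ (e.1 ∈ N ∨ e.2 ∈ N)), m.w e (dE e t) := by
    refine prod_congr (filter_congr fun e _ => not_or.symm) fun e he => ?_
    have := not_or.1 (mem_filter.1 he).2
    rw [Md.dE_congr (i2 _ this.1) (i2 _ this.2)]
  have e2 : ∏ x ∈ m.A \ N, m.site x (pw N 0 t x) = ∏ x ∈ m.A \ N, m.site x (t x) :=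
    prod_congr rfl fun x hx => by rw [← i2 x (mem_sdiff.1 hx).2]
  simp only [Mdl.W, hole, Mdl.loc, Mdl.free, Mdl.keep, Mdl.edM]
  rw [ind_congr i1, ind_pos i2, e1, e2, ← prod_sdiff hN,
    ← prod_filter_mul_prod_filter_not m.ed (fun e => e.1 ∈ N ∨ e.2 ∈ N)]
  ring

/-- gluing the box `N` into the hole -/
theorem glue {N : Finset V} (hN : N ⊆ m.A) (hs : Summable (m.W 0)) :
    Zs (m.W 0) = ∑' u, (hole m N).W 0 u * gl m N u := by
  rw [← Zs_push hs (pw N 0)]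
  refine tsum_congr fun u => ?_
  rw [gl, Zs, ← tsum_mul_left]
  refine tsum_congr fun t => ?_
  by_cases h : pw N 0 t = u
  · rw [ind_pos h, one_mul, glue_W hN, h]
  · rw [ind_neg h, zero_mul]
    by_contra H
    obtain ⟨H1, H2⟩ := mul_ne_zero_iff.1 (Ne.symm H)
    refine h (Finsupp.ext fun x => ?_)
    by_cases hx : x ∈ N
    · rw [pw_of_mem _ _ hx, Md.W_off H1 x fun h' => (mem_sdiff.1 h').2 hx]
    · rw [pw_of_notMem _ _ hx, Md.W_off H2 x hx]

/-- the weight of the free model on `X` restricted to a datum on `T` -/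
theorem pn_datum {X T : Finset V} (hT : T ⊆ X) {r : V} (hr : r ∈ T) (s t : Cfg V) :
    (pn m X {r}).W 0 t * ind (∀ x ∈ T, t x - t r = s x - s r) =
      (∏ e ∈ inn T m.ed, m.w e (dE e s)) *
        ((pn m X {r}).loc (X \ T)).W (pw T (s - cst T (s r)) 0) t := by
  have hζ : ∀ x ∈ T, pw T (s - cst T (s r)) 0 x = s x - s r := fun x hx => by
    rw [pw_of_mem _ _ hx, Finsupp.sub_apply, cst_of_mem _ hx]
  have hA : X \ T ⊆ (pn m X {r}).A := sdiff_subset_sdiff le_rfl (singleton_subset_iff.2 hr)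
  have h0 : ∀ x, x ∉ (pn m X {r}).A → pw T (s - cst T (s r)) 0 x = (0 : Cfg V) x := fun x hx => by
    by_cases h : x ∈ T
    · have : x = r := by
        by_contra h'
        exact hx (mem_sdiff.2 ⟨hT h, fun h'' => h' (mem_singleton.1 h'')⟩)
      rw [hζ x h, this, sub_self]; rfl
    · exact pw_of_notMem _ _ h
  have e1 := Md.W_free hA h0 t
  rw [Mdl.W_free_loc, show ∏ x ∈ (pn m X {r}).A \ (X \ T), (pn m X {r}).site x
    (pw T (s - cst T (s r)) 0 x) = 1 from prod_const_one, one_mul] at e1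
  have e2 : (pn m X {r}).far (X \ T) (pw T (s - cst T (s r)) 0) =
      ∏ e ∈ inn T m.ed, m.w e (dE e s) := by
    refine prod_congr ?_ fun e he => ?_
    · ext e
      simp only [pn, mem_filter, Md.mem_inn, mem_sdiff]
      constructor
      · rintro ⟨⟨a, b, c⟩, d⟩
        exact ⟨a, by_contra fun h => d (Or.inl ⟨b, h⟩), by_contra fun h => d (Or.inr ⟨c, h⟩)⟩
      · rintro ⟨a, b, c⟩
        exact ⟨⟨a, hT b, hT c⟩, fun d => d.elim (fun d => d.2 b) fun d => d.2 c⟩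
    · obtain ⟨_, b, c⟩ := Md.mem_inn.1 he
      simp only [pn, dE, hζ _ b, hζ _ c, sub_sub_sub_cancel_right]
  rw [← e2, ← e1, mul_comm]
  by_cases hW : (pn m X {r}).W 0 t = 0
  · rw [hW, mul_zero, mul_zero]
  have hr0 : t r = 0 := Md.W_off hW r fun h => (mem_sdiff.1 h).2 (mem_singleton_self r)
  congr 1
  refine ind_congr ⟨fun H x hx => ?_, fun H x hx => ?_⟩
  · by_cases h : x ∈ T
    · rw [hζ x h, ← H x h, hr0, sub_zero]
    · rw [pw_of_notMem _ _ h]
      exact Md.W_off hW x fun h' => hx (mem_sdiff.2 ⟨(mem_sdiff.1 h').1, h⟩)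
  · rw [H x fun h => (mem_sdiff.1 h).2 hx, hζ x hx, hr0, sub_zero]

variable {N S U K T : Finset V}

theorem cn_union (h : Cut m N S U K T) : Cn m (N ∪ U) := by
  obtain ⟨y, hy⟩ := h.bne
  have hyU : y ∈ U := h.ksub (h.kbd hy)
  have mN : inn N m.ed ⊆ inn (N ∪ U) m.ed := Md.inn_mono subset_union_left le_rfl
  have mU : inn U m.ed ⊆ inn (N ∪ U) m.ed := Md.inn_mono subset_union_right le_rfl
  have key : ∀ x ∈ N ∪ U, Conn (inn (N ∪ U) m.ed) x y := fun x hx => by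
    rcases mem_union.1 hx with hx | hx
    · obtain ⟨_, e, he, ⟨rfl, h2⟩ | ⟨rfl, h2⟩⟩ := Mdl.mem_bd.1 hy
      · exact Md.conn_trans (Md.conn_mono mN (h.cn x hx _ h2)) (Md.conn_symm (Md.conn_edge
          (Md.mem_inn.2 ⟨he, mem_union_right _ hyU, mem_union_left _ h2⟩)))
      · exact Md.conn_trans (Md.conn_mono mN (h.cn x hx _ h2)) (Md.conn_edge
          (Md.mem_inn.2 ⟨he, mem_union_left _ h2, mem_union_right _ hyU⟩))
    · exact Md.conn_mono mU (h.cnU x hx y hyU)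
  exact fun x hx z hz => Md.conn_trans (key x hx) (Md.conn_symm (key z hz))

theorem site_B (h : Cut m N S U K T) : ∀ x ∈ N ∪ U \ T, ∀ k, m.site x k = 1 := fun x hx =>
  (mem_union.1 hx).elim (h.clN.2 x) (h.clU.2 x)

theorem sub_B (h : Cut m N S U K T) : N ∪ U \ T ⊆ m.A := union_subset h.clN.1 h.clU.1

theorem loc_hole (h : Cut m N S U K T) (R : Finset V) (s : Cfg V) :
    ((pn m U R).loc (U \ T)).W s = ((hole m N).loc (U \ T)).W s := by
  refine Mdl.W_loc_congr (m := pn m U R) (m' := hole m N) ?_ (fun _ _ => rfl)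
    (fun x hx => funext fun k => (h.clU.2 x hx k).symm) s
  have hd : ∀ x ∈ U, x ∉ N := fun x hx h' => disjoint_left.1 h.disj h' hx
  have hU : ∀ x, x ∉ N → (x ∈ N ∪ U \ T ∨ x ∈ m.bd (N ∪ U \ T)) → x ∈ U := fun x hx H =>
    H.elim (fun H => (mem_union.1 H).elim (fun H => absurd H hx) fun H => (mem_sdiff.1 H).1)
      fun H => h.tsub (h.tbd H)
  ext e
  rw [Mdl.mem_edM, Mdl.mem_edM]
  refine ⟨fun H => ⟨?_, H.2⟩, fun H => ⟨?_, H.2⟩⟩
  · obtain ⟨a, b, c⟩ := Md.mem_inn.1 H.1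
    exact mem_filter.2 ⟨a, hd _ b, hd _ c⟩
  · obtain ⟨a, b, c⟩ := mem_filter.1 H.1
    have := Mdl.ends_of_edM (m := m) (B := N ∪ U \ T)
      (Mdl.mem_edM.2 ⟨a, H.2.imp (mem_union_right _) (mem_union_right _)⟩)
    exact Md.mem_inn.2 ⟨a, hU _ b this.1, hU _ c this.2⟩

theorem bd_hole (h : Cut m N S U K T) : (hole m N).bd (U \ T) ⊆ T := fun x hx => by
  obtain ⟨h1, e, he, h2⟩ := Mdl.mem_bd.1 hx
  obtain ⟨a, b, c⟩ := mem_filter.1 he
  refine h.tbd (Mdl.mem_bd.2 ⟨fun H => (mem_union.1 H).elim (fun H => ?_) h1, e, a,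
    h2.imp (fun H => ⟨H.1, mem_union_right _ H.2⟩) fun H => ⟨H.1, mem_union_right _ H.2⟩⟩)
  rcases h2 with ⟨rfl, _⟩ | ⟨rfl, _⟩
  exacts [b H, c H]

theorem hole_pn (h : Cut m N S U K T) (R : Finset V) : hole (pn m (N ∪ U) R) N = pn m U R := by
  have hd : ∀ x ∈ U, x ∉ N := fun x hx h' => disjoint_left.1 h.disj h' hx
  simp only [hole, pn]
  congr 1
  · ext x
    simp only [mem_sdiff, mem_union]
    exact ⟨fun H => ⟨H.1.1.resolve_left H.2, H.1.2⟩, fun H => ⟨⟨Or.inr H.1, H.2⟩, hd _ H.1⟩⟩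
  · ext e
    simp only [mem_filter, Md.mem_inn, mem_union]
    exact ⟨fun H => ⟨H.1.1, H.1.2.1.resolve_left H.2.1, H.1.2.2.resolve_left H.2.2⟩,
      fun H => ⟨⟨H.1, Or.inr H.2.1, Or.inr H.2.2⟩, hd _ H.2.1, hd _ H.2.2⟩⟩

/-- partition function of the free model on `N ∪ U` -/
theorem zs_union (hF : m.Fm) (h : Cut m N S U K T) {r : V} (hr : r ∈ U) :
    Zs ((pn m (N ∪ U) {r}).W 0) = Zs ((pn m U {r}).W 0) * nE m U (gl m N) := by
  have hb : m.bd N ⊆ U := h.kbd.trans h.ksub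
  have w1 := pn_wt hF (cn_union h) (singleton_subset_iff.2 (mem_union_right N hr)) (singleton_nonempty r)
  have w2 := pn_wt hF h.cnU (singleton_subset_iff.2 hr) (singleton_nonempty r)
  have hN : N ⊆ (pn m (N ∪ U) {r}).A := fun x hx => mem_sdiff.2 ⟨mem_union_left _ hx, fun h' =>
    disjoint_left.1 h.disj hx (mem_singleton.1 h' ▸ hr)⟩
  have hg : DepG U (gl m N) := (zloc_depG h.clN.2).mono hb
  rw [glue hN w1.summ, hole_pn h, nE_root hr hg, ← w2.tsum_eq]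
  refine tsum_congr fun u => ?_
  rw [gl, gl, loc_pn _ h.clN.2 subset_union_left (hb.trans subset_union_right)]

/-- (D1) for the two boxes `N` and `U` of a cut, in the free model on `N ∪ U` -/
theorem d1_two (hM : MonoCrStmt) (hD : D1Stmt) (hF : m.Fm) (h : Cut m N S U K T) {C : Finset V}
    (hC : C ⊆ N) {F G : Cfg V → ℝ} (dF : DepG C F) (F0 : ∀ s, 0 ≤ F s) (iF : Ig (rW m N) F)
    (dG : DepG T G) (G0 : ∀ s, 0 ≤ G s) (iG : Ig (rW m U) G) {r : V} (hr : r ∈ N ∪ U) :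
    Ig ((pn m (N ∪ U) {r}).W 0) (fun s => F s * G s) ∧
      Ex ((pn m (N ∪ U) {r}).W 0) (fun s => F s * G s) ≤
        cr m N C S * cr m U K T * nE m N F * nE m U G := by
  obtain ⟨a, ha⟩ := h.ne
  have haN : a ∈ N := h.sub ha
  have hinv : DepG (N ∪ U) fun s => F s * G s :=
    (dF.mono (hC.trans subset_union_left)).mul (dG.mono (h.tsub.trans subset_union_right))
  have hroot := pn_root (m := m) (F := fun s => F s * G s) hr (mem_union_left U haN)
    (hinv.shift le_rfl)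
  rw [hroot.1, hroot.2]
  have cN : Cn (pn m (N ∪ U) {a}) N := fun x hx y hy => by
    simpa only [pn, inn_inn (subset_union_left (s₂ := U))] using h.cn x hx y hy
  have cU : Cn (pn m (N ∪ U) {a}) U := fun x hx y hy => by
    simpa only [pn, inn_inn (subset_union_right (s₁ := N))] using h.cnU x hx y hy
  have bN : Box (pn m (N ∪ U) {a}) N S :=
    ⟨cN, h.sub, h.ne, ⟨fun x hx => mem_sdiff.2 ⟨mem_union_left _ (mem_sdiff.1 hx).1, fun h' =>
      (mem_sdiff.1 hx).2 (mem_singleton.1 h' ▸ ha)⟩, fun _ _ _ => rfl⟩, (bd_pn _ _ _).trans h.bd⟩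
  have bU : Box (pn m (N ∪ U) {a}) U K := by
    refine ⟨cU, h.ksub, h.kne, ⟨fun x hx => mem_sdiff.2 ⟨mem_union_right _ (mem_sdiff.1 hx).1,
      fun h' => disjoint_left.1 h.disj haN (mem_singleton.1 h' ▸ (mem_sdiff.1 hx).1)⟩,
      fun _ _ _ => rfl⟩, fun x hx => ?_⟩
    obtain ⟨h1, e, he, h2⟩ := Mdl.mem_bd.1 hx
    obtain ⟨e0, e1, e2⟩ := Md.mem_inn.1 he
    by_contra hK
    have hxU : x ∉ U := fun H => h1 (mem_sdiff.2 ⟨H, hK⟩)
    rcases h2 with ⟨rfl, H⟩ | ⟨rfl, H⟩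
    · exact (mem_sdiff.1 H).2 (h.kbd (Mdl.mem_bd.2 ⟨fun H' => disjoint_left.1 h.disj H'
        (mem_sdiff.1 H).1, e, e0, Or.inr ⟨rfl, (mem_union.1 e1).resolve_right hxU⟩⟩))
    · exact (mem_sdiff.1 H).2 (h.kbd (Mdl.mem_bd.2 ⟨fun H' => disjoint_left.1 h.disj H'
        (mem_sdiff.1 H).1, e, e0, Or.inl ⟨rfl, (mem_union.1 e2).resolve_right hxU⟩⟩))
  have rN : rW (pn m (N ∪ U) {a}) N = rW m N := by rw [rW, rW, pn_pn subset_union_left]
  have rU : rW (pn m (N ∪ U) {a}) U = rW m U := by rw [rW, rW, pn_pn subset_union_right]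
  have H := hD V Bool (pn m (N ∪ U) {a}) univ (fun b => cond b N U) (fun b => cond b C T)
    (fun b => cond b S K) (fun b => cond b F G) (pn_ctr hF _ _)
    (pn_anch (cn_union h) (singleton_subset_iff.2 (mem_union_left U haN)) (singleton_nonempty a))
    (by
      rintro (_ | _) _ (_ | _) _ hij
      exacts [absurd rfl hij, h.disj.symm, h.disj, absurd rfl hij])
    (by
      rintro (_ | _) _
      · exact ⟨bU, h.tsub, dG, G0, rU ▸ iG⟩
      · exact ⟨bN, hC, dF, F0, rN ▸ iF⟩)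
  simp only [Fintype.prod_bool, cond_true, cond_false] at H
  refine ⟨H.1, H.2.trans (le_of_eq ?_)⟩
  rw [(hM V m U K T hF h.cnU h.ksub h.tsub h.kne h.tne).2.1]
  simp only [cr, nE, rN, rU, pn_pn (subset_union_left (s₂ := U)), pn_pn (subset_union_right (s₁ := N))]
  ring

/-- integrability from the integrability of the conditional expectation -/
theorem ig_of_cE {B : Finset V} (hB : B ⊆ m.A) {η : Cfg V} (hW : Wt (m.W η))
    (h0 : ∀ s t, 0 ≤ (m.free B).W s t) {F H : Cfg V → ℝ} (F0 : ∀ s, 0 ≤ F s) (H0 : ∀ s, 0 ≤ H s)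
    (hH : Out B H) (iF : ∀ s, Ig ((m.free B).W s) F) (i : Ig (m.W η) fun s => H s * m.cE B F s) :
    Ig (m.W η) fun s => H s * F s := by
  have fib : ∀ {s : Cfg V}, m.W η s ≠ 0 → ∀ (Φ : Cfg V → ℝ) (t : Cfg V),
      ind (t.filter (· ∉ B) = s.filter (· ∉ B)) * (m.W η t * (H t * Φ t)) =
        (H s * ∏ x ∈ m.A \ B, m.site x (s x)) * ((m.free B).W s t * Φ t) := fun hs Φ t => by
    rw [ind_congr (Md.filter_not_eq_iff B _ _), ← mul_assoc _ ((m.free B).W _ t),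
      ← Mdl.fib_eq hB hH hs t]
    ring
  have emp : ∀ {b : Cfg V}, (¬ ∃ s, m.W η s ≠ 0 ∧ s.filter (· ∉ B) = b) → ∀ (Φ : Cfg V → ℝ) (t : Cfg V),
      ind (t.filter (· ∉ B) = b) * (m.W η t * Φ t) = 0 := fun hb Φ t => by
    by_contra h
    obtain ⟨h1, h2⟩ := mul_ne_zero_iff.1 h
    exact hb ⟨t, left_ne_zero_of_mul h2, ind_ne_zero.1 h1⟩
  refine summable_of_push (fun s => mul_nonneg (hW.nonneg s) (mul_nonneg (H0 s) (F0 s)))
    (fun s : Cfg V => s.filter (· ∉ B)) (fun b => ?_) ?_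
  · by_cases hb : ∃ s, m.W η s ≠ 0 ∧ s.filter (· ∉ B) = b
    · obtain ⟨s, hs, rfl⟩ := hb
      simp only [fib hs]
      exact (iF s).mul_left _
    · exact summable_zero.congr fun t => (emp hb (fun t => H t * F t) t).symm
  · refine (summable_push i fun s : Cfg V => s.filter (· ∉ B)).congr fun b => ?_
    by_cases hb : ∃ s, m.W η s ≠ 0 ∧ s.filter (· ∉ B) = b
    · obtain ⟨s, hs, rfl⟩ := hb
      have w := Mdl.wt_fib' hB hs (h0 s) hW.summ
      simp only [push, fib hs, tsum_mul_left, w.tsum_eq]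
      rw [← Mdl.cE_def, ← Mdl.cE_def, Mdl.cE_of_out (m.cE_out B F) w]
    · exact tsum_congr fun t => (emp hb (fun t => H t * m.cE B F t) t).trans
        (emp hb (fun t => H t * F t) t).symm

end Io98

open Io98

theorem nbStmt (hM : MonoCrStmt) (hD : D1Stmt) : NbStmt := by
  intro V _ m N S U K T C F hF h hC dF iF s
  obtain ⟨r, hr⟩ := h.tne
  have hrU : r ∈ U := h.tsub hr
  have hne : ∀ e ∈ m.ed, ∀ k, m.w e k ≠ 0 := fun e he k => (Md.fm_pos hF he k).ne'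
  have wN : Wt (rW m N) := by
    obtain ⟨a, ha, e⟩ := rs_eq (h.ne.mono h.sub)
    rw [rW, e]; exact pn_wt hF h.cn (singleton_subset_iff.2 ha) (singleton_nonempty a)
  have wU : Wt (rW m U) := by
    obtain ⟨a, ha, e⟩ := rs_eq (h.tne.mono h.tsub)
    rw [rW, e]; exact pn_wt hF h.cnU (singleton_subset_iff.2 ha) (singleton_nonempty a)
  have w1 := pn_wt hF (cn_union h) (singleton_subset_iff.2 (mem_union_right N hrU)) (singleton_nonempty r)
  have w2 := pn_wt hF h.cnU (singleton_subset_iff.2 hrU) (singleton_nonempty r)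
  have dG : DepG T fun t : Cfg V => ind (∀ x ∈ T, t x - t r = s x - s r) := fun t t' k e =>
    ind_congr (forall₂_congr fun x hx => by rw [e x hx, e r hr, add_sub_add_right_eq_sub])
  have dA : DepG C fun t => |F t| := dF.comp _
  obtain ⟨i1, b1⟩ := d1_two hM hD hF h hC dA (fun _ => abs_nonneg _) (iF.abs wN.nonneg) dG
    (fun _ => ind_nonneg _) (wU.ig_ind _) (mem_union_right N hrU)
  have eB : (N ∪ U) \ T = N ∪ U \ T := by
    rw [union_sdiff_distrib, sdiff_eq_self_of_disjoint (h.disj.mono_right h.tsub)]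
  have hζ : ∀ x ∈ T, s x = pw T (s - cst T (s r)) 0 x + s r := fun x hx => by
    rw [pw_of_mem _ _ hx, Finsupp.sub_apply, cst_of_mem _ hx, sub_add_cancel]
  set ζ := pw T (s - cst T (s r)) 0 with hζd
  set a := ∏ e ∈ inn T m.ed, m.w e (dE e s) with had
  have ha : 0 < a := prod_pos fun e he => Md.fm_pos hF (Md.inn_subset _ _ he) _
  have e1 : ∀ t, (pn m (N ∪ U) {r}).W 0 t * (|F t| * ind (∀ x ∈ T, t x - t r = s x - s r)) =
      a * ((m.loc (N ∪ U \ T)).W ζ t * |F t|) := fun t => by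
    rw [mul_comm |F t|, ← mul_assoc, pn_datum (h.tsub.trans subset_union_right) hr, eB,
      loc_pn _ (site_B h) (union_subset_union le_rfl sdiff_subset)
        ((h.tbd.trans h.tsub).trans subset_union_right), mul_assoc]
  have e2 : ∀ t, (pn m U {r}).W 0 t * ind (∀ x ∈ T, t x - t r = s x - s r) =
      a * ((hole m N).loc (U \ T)).W ζ t := fun t => by
    rw [pn_datum h.tsub hr, loc_hole h]
  have sh := sum_shift (site_B h) (fun x hx => hζ x (h.tbd hx)) dA (hC.trans subset_union_left)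
  have z2 : Zs (((hole m N).loc (U \ T)).W ζ) = Zs (((hole m N).loc (U \ T)).W s) :=
    zloc_depG (m := hole m N) h.clU.2 ζ s (s r) fun x hx => hζ x (bd_hole h hx)
  have l0 : ∀ t, 0 ≤ (m.loc (N ∪ U \ T)).W s t := fun t =>
    Mdl.W_nonneg (m := m.loc (N ∪ U \ T)) (fun e he k => (Md.fm_pos hF (Mdl.mem_edM.1 he).1 k).le)
      (fun x hx k => by rw [show (m.loc (N ∪ U \ T)).site x k = 1 from site_B h x hx k]; exact one_pos.le) _ _
  have i2 : Ig ((m.loc (N ∪ U \ T)).W s) fun t => |F t| := by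
    rw [sh.1]
    rw [Ig, funext e1] at i1
    exact (summable_mul_left_iff ha.ne').1 i1
  refine ⟨(Mdl.ig_loc hne _ _ _).2 (Ig.of_abs l0 i2), ?_⟩
  have zu := zs_union hF h hrU
  have g0 : 0 < nE m U (gl m N) := by
    have := w1.pos
    rw [zu] at this
    exact (pos_iff_pos_of_mul_pos this).1 w2.pos
  rw [nE_root hrU (dG.mono h.tsub), Ex_def, Ex_def, funext e1, funext e2, tsum_mul_left,
    tsum_mul_left, zu, ← sh.2, show ∑' t, ((hole m N).loc (U \ T)).W ζ t = _ from z2,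
    div_le_iff₀ (mul_pos w2.pos g0)] at b1
  rw [Mdl.cE_loc hne, Ex_def, hd, ← mul_div_assoc]
  refine div_le_div_of_nonneg_right (le_of_mul_le_mul_left (b1.trans (le_of_eq ?_)) ha) (Zs_nonneg l0)
  have := w2.ne
  rw [nm]
  field_simp

theorem d1ioStmt (hN : NbStmt) (hH : HdStmt) : D1ioStmt := by
  intro V _ m N S U K T C F G hc ha h hC dF F0 iF oG G0 iG
  have hW := Md.ctr_wt hc ha 0
  have hB := sub_B h
  have nb := hN V m N S U K T C F hc.1 h hC dF iF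
  have eF : (fun t => |F t|) = F := funext fun t => abs_of_nonneg (F0 t)
  simp only [nm, eF] at nb
  obtain ⟨hp, -, -, -, H⟩ := hH V m N S U K T hc.1 h
  obtain ⟨κ, -, hκ, H⟩ := H hc ha
  obtain ⟨i1, e1⟩ := H G oG iG
  have f0 : ∀ s t, 0 ≤ (m.free (N ∪ U \ T)).W s t :=
    Mdl.free_nonneg (fun e he k => (Md.fm_pos hc.1 he k).le) hc.nn hB
  set c := cr m N C S * cr m U K T * nE m N F with hcd
  have c0 : 0 ≤ c := nonneg_of_mul_nonneg_left ((Mdl.cE_nonneg (f0 0) F0).trans (nb 0).2) (hp 0)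
  have le : ∀ s, G s * m.cE (N ∪ U \ T) F s ≤ c * (G s * hd m N U T s) := fun s => by
    have := mul_le_mul_of_nonneg_left (nb s).2 (G0 s)
    linarith
  have i2 : Ig (m.W 0) fun s => G s * m.cE (N ∪ U \ T) F s :=
    Ig.of_le hW.nonneg (i1.const_mul c) (fun s => mul_nonneg (G0 s) (Mdl.cE_nonneg (f0 s) F0)) le
  have i3 := ig_of_cE hB hW f0 F0 G0 oG (fun s => (nb s).1) i2
  simp only [mul_comm (F _)]
  refine ⟨i3, ?_⟩
  rw [(Mdl.tower_cE_mul hB oG hW i3).2]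
  refine (Ex_mono hW.nonneg i2 (i1.const_mul c) le).trans ?_
  rw [Ex_const_mul, e1]
  have hE : 0 ≤ Ex ((hole m N).W 0) G := Ex_nonneg (fun s => Mdl.W_nonneg (m := hole m N)
    (fun e he k => (Md.fm_pos hc.1 (mem_filter.1 he).1 k).le)
    (fun x hx k => hc.nn x (mem_sdiff.1 hx).1 k) _ _) fun s _ => G0 s
  exact mul_le_mul_of_nonneg_left (mul_le_of_le_one_left hE hκ) c0

end Crest.Agent.T145.Nc
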