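import Crest.Agent.T145.NcBas_78

/-!
# Row 145: the lattice instances `LD1Stmt`, `LHdStmt` of the insertion calculus (helper37)
-/

set_option autoImplicit false

namespace Crest.Agent.T145.Nc

open Finset

namespace L37

variable {Λ : Lat} {m : Mdl Pt} {U X : Finset Pt} {z : Pt}

theorem mem_an {x : Pt} {r R : ℕ} : x ∈ an z r R ↔ x ∈ bl z R ∧ x ∉ bl z r := Finset.mem_sdiff

theorem an_sub_bl (z : Pt) (r R : ℕ) : an z r R ⊆ bl z R := Finset.sdiff_subset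

theorem an_mono {r r' R R' : ℕ} (h : r' ≤ r) (h' : R ≤ R') : an z r R ⊆ an z r' R' :=
  Finset.sdiff_subset_sdiff (bl_mono z h') (bl_mono z h)

theorem disj_an (z : Pt) (r R : ℕ) : Disjoint (an z r R) (bl z r) := Finset.sdiff_disjoint

theorem bl_union_an (z : Pt) {r R : ℕ} (h : r ≤ R) : bl z r ∪ an z r R = bl z R :=
  Finset.union_sdiff_of_subset (bl_mono z h)

theorem Amb.mono' (h : Amb Λ m X) (hU : U ⊆ X) : Amb Λ m U :=
  ⟨h.ctr, h.anch, hU.trans h.sub, h.near.mono hU⟩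

theorem amb_D (hΛ : Λ.Ok) (X : Finset Pt) : Amb Λ (Λ.D X) X :=
  ⟨hΛ.ctr_D X, hΛ.anch_D X, subset_rfl, Lat.near_D subset_rfl⟩

theorem agr_near (h : Λ.Near m U) : Agr m (Λ.N U) U := by
  refine ⟨?_, fun e he => ?_⟩
  · ext e
    show _ ↔ e ∈ inn U (Λ.edI U)
    rw [Lat.inn_edI subset_rfl, Lat.mem_edI, mem_inn]
    constructor
    · rintro ⟨h0, h1, h2⟩
      exact ⟨(h.1 e (Or.inl h1)).1 h0, h1, h2⟩
    · rintro ⟨h0, h1, h2⟩
      exact ⟨(h.1 e (Or.inl h1)).2 h0, h1, h2⟩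
  · rw [mem_inn] at he
    exact h.2.1 e he.1 (Or.inl he.2.1)

theorem pn_W (h : Λ.Near m U) (r : Pt) : (pn m U {r}).W = (Λ.Nr U r).W := by
  rw [(agr_near h).pnW]
  refine Mdl.W_ext ?_ ?_ (fun _ _ => rfl) (fun _ _ _ => rfl)
  · show U \ {r} = U.erase r
    rw [Finset.sdiff_singleton_eq_erase]
  · show inn U (Λ.edI U) = Λ.edI U
    exact Lat.inn_edI subset_rfl

variable {c : ℕ} {F : Cfg Pt → ℝ}

theorem ig_In (h : Λ.Near m (bl z c)) (hF : DepG (bl z c) F) : Ig (rW m (bl z c)) F ↔ In Λ z c F := by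
  rw [ig_root (self_mem_bl z c) hF, pn_W h]; rfl

theorem nE_EN (h : Λ.Near m (bl z c)) (hF : DepG (bl z c) F) : nE m (bl z c) F = EN Λ z c F := by
  rw [nE_root (self_mem_bl z c) hF, pn_W h]; rfl

theorem nm_Nm (h : Λ.Near m (bl z c)) (hF : DepG (bl z c) F) : nm m (bl z c) F = Nm Λ z c F :=
  nE_EN h (hF.comp fun t => |t|)

theorem In_root (h : Λ.Near m (bl z c)) (hF : DepG (bl z c) F) {x : Pt} (hx : x ∈ bl z c) :
    In Λ z c F ↔ Ig ((pn m (bl z c) {x}).W 0) F := by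
  rw [← ig_In h hF, ig_root hx hF]

theorem EN_root (h : Λ.Near m (bl z c)) (hF : DepG (bl z c) F) {x : Pt} (hx : x ∈ bl z c) :
    EN Λ z c F = Ex ((pn m (bl z c) {x}).W 0) F := by
  rw [← nE_EN h hF, nE_root hx hF]

theorem Nm_nonneg (hΛ : Λ.Ok) (z : Pt) (c : ℕ) (F : Cfg Pt → ℝ) : 0 ≤ Nm Λ z c F :=
  Ex_nonneg (hΛ.cen_Nr_bl (self_mem_bl z c)).nonneg fun _ _ => abs_nonneg _

theorem In.abs' (hΛ : Λ.Ok) (h : In Λ z c F) : In Λ z c fun s => |F s| :=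
  Ig.abs (hΛ.cen_Nr_bl (self_mem_bl z c)).nonneg h

theorem St_eq (hΛ : Λ.Ok) {R : ℕ} (h : Λ.Near m (bl z R)) (hF : m.Fm) (F : Cfg Pt → ℝ) :
    St Λ z R F = m.cE (bl z R) F := by
  funext s; rw [h.cE hΛ hF]; rfl

theorem fm_ne (hF : m.Fm) : ∀ e ∈ m.ed, ∀ k, m.w e k ≠ 0 := fun e he k => ((hF e he).pos k).ne'

/-- single box form of (D1) -/
theorem d1_one (hD : D1Stmt) {N C S : Finset Pt} (hc : m.Ctr) (ha : m.Anch) (hB : Box m N S)
    (hC : C ⊆ N) (hF : DepG C F) (hI : Ig (rW m N) F) :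
    Ig (m.W 0) F ∧ Ex (m.W 0) (fun s => |F s|) ≤ cr m N C S * nm m N F := by
  have hW := rW_wt hc.1 hB.cn (hB.ne.mono hB.sub)
  have := hD Pt Unit m {()} (fun _ => N) (fun _ => C) (fun _ => S) (fun _ s => |F s|) hc ha
    (fun i _ j _ h => absurd rfl h)
    (fun _ _ => ⟨hB, hC, hF.comp fun t => |t|, fun _ => abs_nonneg _, hI.abs hW.nonneg⟩)
  simp only [Finset.prod_singleton] at this
  exact ⟨Ig.of_abs (hc.wt ha 0).nonneg this.1, this.2⟩

end L37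

open L37

theorem ld1Stmt (hD : D1Stmt) (hIO : D1ioStmt) (hH : HdStmt) (hNb : NbStmt) (hG : LgeoStmt) :
    LD1Stmt := by
  intro Λ hΛ
  obtain ⟨hgam, hgeo⟩ := hG Λ hΛ
  refine ⟨fun ι m I z r c F hd hc ha h => ?_, fun z r c R F hrc hcR hF hI => ?_⟩
  · have hb : ∀ i ∈ I, Box m (bl (z i) (c i)) (an (z i) (c i - Λ.rg) (c i)) ∧
        cr m (bl (z i) (c i)) (bl (z i) (r i + Λ.rg)) (an (z i) (c i - Λ.rg) (c i)) ≤
          gam Λ (r i) (c i) := fun i hi => by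
      obtain ⟨h1, h2, -, -⟩ := h i hi
      obtain ⟨hB, -, h3⟩ := (hgeo m (z i)).1 (c i) (by omega) h1
      exact ⟨hB, h3 _ h2⟩
    have hsub : ∀ i ∈ I, bl (z i) (r i + Λ.rg) ⊆ bl (z i) (c i) := fun i hi =>
      bl_mono _ (by have := (h i hi).2.1; omega)
    have key := hD Pt ι m I (fun i => bl (z i) (c i)) (fun i => bl (z i) (r i + Λ.rg))
      (fun i => an (z i) (c i - Λ.rg) (c i)) (fun i s => |F i s|) hc ha hd fun i hi => by
        obtain ⟨h1, h2, h3, h4⟩ := h i hi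
        refine ⟨(hb i hi).1, hsub i hi, h3.comp fun t => |t|, fun _ => abs_nonneg _, ?_⟩
        exact (ig_In h1.near ((h3.mono (hsub i hi)).comp fun t => |t|)).2 (In.abs' hΛ h4)
    have habs : (fun s => |∏ i ∈ I, F i s|) = fun s => ∏ i ∈ I, |F i s| := by
      funext s; exact Finset.abs_prod _ _
    refine ⟨Ig.of_abs (hc.wt ha 0).nonneg (habs ▸ key.1), ?_⟩
    rw [habs]
    refine key.2.trans (Finset.prod_le_prod (fun i hi => ?_) fun i hi => ?_)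
    · have hB := (hb i hi).1
      exact mul_nonneg (cr_pos hc.1 hB.cn hB.sub hB.ne _).le
        (nm_nonneg hc.1 hB.cn (hB.ne.mono hB.sub) (F i))
    · obtain ⟨h1, h2, h3, h4⟩ := h i hi
      have e := nm_Nm h1.near (h3.mono (hsub i hi))
      show _ * nm m _ (F i) ≤ _
      rw [e]
      exact mul_le_mul_of_nonneg_right (hb i hi).2 (Nm_nonneg hΛ _ _ _)
  have hsub : bl z (r + Λ.rg) ⊆ bl z c := bl_mono _ (by omega)
  have hcR' : bl z c ⊆ bl z R := bl_mono _ (by omega)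
  have hR : bl z R ⊆ bl z (R + Λ.rg) := bl_mono _ (by omega)
  have hg1 : 1 ≤ gam Λ r c := (hgam r c r c le_rfl le_rfl hrc).1
  have hg2 := hgam c R c (R + Λ.rg) le_rfl (by omega) hcR
  have hFc : DepG (bl z c) F := hF.mono hsub
  -- the data in an arbitrary ambient model
  have amb : ∀ m : Mdl Pt, Amb Λ m (bl z (R + Λ.rg)) →
      Cut m (bl z c) (an z (c - Λ.rg) c) (an z c (R + Λ.rg)) (an z c (c + Λ.rg))
        (an z R (R + Λ.rg)) ∧ bl z c ∪ an z c (R + Λ.rg) \ an z R (R + Λ.rg) = bl z R ∧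
      cr m (an z c (R + Λ.rg)) (an z c (c + Λ.rg)) (an z R (R + Λ.rg)) = gam Λ c (R + Λ.rg) ∧
      hd m (bl z c) (an z c (R + Λ.rg)) (an z R (R + Λ.rg)) = Hd Λ z c R ∧
      cr m (bl z c) (bl z (r + Λ.rg)) (an z (c - Λ.rg) c) ≤ gam Λ r c ∧
      Ig (rW m (bl z c)) F ∧ nm m (bl z c) F = Nm Λ z c F := fun m hm => by
    obtain ⟨h1, h2, h3, h4, -, -⟩ := (hgeo m z).2 c R (by omega) (by omega) hm
    have hmc := Amb.mono' hm (hcR'.trans hR)
    obtain ⟨-, -, h5⟩ := (hgeo m z).1 c (by omega) hmc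
    exact ⟨h1, h2, h3, h4, h5 r hrc, (ig_In hmc.near hFc).2 hI, nm_Nm hmc.near hFc⟩
  have hm0 := amb_D hΛ (bl z (R + Λ.rg))
  obtain ⟨hC0, hB0, hcr0, hhd0, hcr0', hI0, hnm0⟩ := amb _ hm0
  have hn0 := hm0.near.mono hR
  have hdep : DepG (an z R (R + Λ.rg)) (St Λ z R F) := by
    rw [St_eq hΛ hn0 hm0.ctr.1]
    refine (Mdl.cE_depG (fm_ne hm0.ctr.1) (fun _ _ _ _ => rfl) hF).mono ?_
    rw [Finset.sdiff_eq_empty_iff_subset.2 (hsub.trans hcR'), Finset.union_empty]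
    have := hC0.tbd
    rwa [hB0] at this
  have hnb := fun s => hNb Pt _ _ _ _ _ _ _ F hm0.ctr.1 hC0 hsub hF hI0 s
  simp only [hB0] at hnb
  have hig : ∀ s, Ig ((Λ.D (bl z R)).W s) F := fun s =>
    ((hn0.pp hΛ hm0.ctr.1 s).ig F).1 (hnb s).1
  refine ⟨hdep, hig, fun s => ?_, fun c' hc' => ?_, fun m G hm hGo hGi => ?_⟩
  · have h1 := (hnb s).2
    rw [← St_eq hΛ hn0 hm0.ctr.1, hcr0, hhd0, hnm0] at h1
    have h2 : 0 < Hd Λ z c R s := by
      have := (hH Pt _ _ _ _ _ _ hm0.ctr.1 hC0).1 s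
      rwa [hhd0] at this
    refine h1.trans (mul_le_mul_of_nonneg_right (mul_le_mul_of_nonneg_right ?_
      (Nm_nonneg hΛ _ _ _)) h2.le)
    exact mul_le_mul hcr0' hg2.2 (by linarith [hg2.1]) (by linarith)
  · have hRc : bl z (R + Λ.rg) ⊆ bl z c' := bl_mono _ hc'
    have hm1 := amb_D hΛ (bl z c')
    obtain ⟨hC1, -, -, -, hcr1, hI1, hnm1⟩ := amb _ (Amb.mono' hm1 hRc)
    obtain ⟨x, hx⟩ := hC1.tne
    have hxc : x ∈ bl z c' := hRc (an_sub_bl _ _ _ hx)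
    have hxR : x ∉ bl z R := (mem_an.1 hx).2
    have hcn : Cn (Λ.D (bl z c')) (bl z c') := ((hgeo _ z).1 c' (by omega) hm1).1.cn
    have hX : bl z c ∪ an z c (R + Λ.rg) ⊆ bl z c' := by
      rw [bl_union_an z (by omega)]; exact hRc
    have hC2 := hC1.pn (R := {x}) hX (by
      rw [hB0, Finset.disjoint_singleton_right]; exact hxR)
    set m2 := pn (Λ.D (bl z c')) (bl z c') {x} with hm2
    have hc2 : m2.Ctr := pn_ctr hm1.ctr.1 _ _
    have ha2 : m2.Anch := pn_anch hcn hxc (Finset.mem_singleton_self x)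
    have hag : Agr m2 (Λ.D (bl z c')) (bl z c) := agr_pn (hcR'.trans (hR.trans hRc)) _
    have hd1 := d1_one hD hc2 ha2 hC2.toBox hsub hF (by rw [hag.rW]; exact hI1)
    rw [hag.cr, hag.nm, hnm1] at hd1
    have hFc' : DepG (bl z c') F := hFc.mono (hcR'.trans (hR.trans hRc))
    have hdep' : DepG (bl z c') (St Λ z R F) := hdep.mono ((an_sub_bl _ _ _).trans hRc)
    have hcE : m2.cE (bl z R) = (Λ.D (bl z c')).cE (bl z R) := by
      have := hC2.cE_congr hC1 (agr_pn hX _) hc2.1 hm1.ctr.1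
      rwa [hB0] at this
    have hSt : ∀ H, St Λ z R H = m2.cE (bl z R) H := fun H => by
      rw [hcE, St_eq hΛ (hm1.near.mono (hR.trans hRc)) hm1.ctr.1]
    have hA : bl z R ⊆ m2.A := fun y hy => by
      rw [hm2, pn_A, Finset.mem_sdiff, Finset.mem_singleton]
      exact ⟨hRc (hR hy), fun h => hxR (h ▸ hy)⟩
    have hW2 := hc2.wt ha2 0
    have ht := Mdl.tower_cE hA hW2 hd1.1
    have ht' := Mdl.tower_cE hA hW2 (hd1.1.abs hW2.nonneg)
    rw [← hSt] at ht ht'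
    have e1 : Nm Λ z c' F = Ex (m2.W 0) fun s => |F s| :=
      EN_root hm1.near (hFc'.comp fun t => |t|) hxc
    have e2 : Nm Λ z c' (St Λ z R F) = Ex (m2.W 0) fun s => |St Λ z R F s| :=
      EN_root hm1.near (hdep'.comp fun t => |t|) hxc
    refine ⟨(In_root hm1.near hFc' hxc).2 hd1.1, (In_root hm1.near hdep' hxc).2 ht.1, ?_, ?_, ?_⟩
    · rw [EN_root hm1.near hdep' hxc, EN_root hm1.near hFc' hxc]; exact ht.2.symm
    · rw [e1, e2, ht'.2]
      exact Ex_mono hW2.nonneg (ht.1.abs hW2.nonneg) ht'.1 fun s =>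
        abs_Ex_le (hΛ.wt_D _ s).nonneg (hig s)
    · rw [e1]
      exact hd1.2.trans (mul_le_mul_of_nonneg_right hcr1 (Nm_nonneg hΛ _ _ _))
  · obtain ⟨hC, -, hcr, -, hcr', hI', hnm⟩ := amb m hm
    have hW := hm.ctr.wt hm.anch 0
    have hWh := (hole_ctr hm.ctr (bl z c)).wt (hC.hole_anch hm.anch) 0
    have hWr := rW_wt hm.ctr.1 hC.cn (hC.ne.mono hC.sub)
    have key := hIO Pt m _ _ _ _ _ _ (fun s => |F s|) (fun s => |G s|) hm.ctr hm.anch hC hsub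
      (hF.comp fun t => |t|) (fun _ => abs_nonneg _) (hI'.abs hWr.nonneg)
      (by rw [hB0]; exact hGo.comp fun t => |t|) (fun _ => abs_nonneg _) (hGi.abs hWh.nonneg)
    have habs : (fun s => |F s * G s|) = fun s => |F s| * |G s| := by
      funext s; exact abs_mul _ _
    have hFG : Ig (m.W 0) fun s => F s * G s := Ig.of_abs hW.nonneg (habs ▸ key.1)
    have ht := Mdl.tower_cE_mul (hR.trans hm.sub) hGo hW (F := F)
      (hFG.congr fun s _ => mul_comm _ _)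
    rw [← St_eq hΛ (hm.near.mono hR) hm.ctr.1] at ht
    refine ⟨hFG, ht.1.congr fun s _ => mul_comm _ _, ?_, ?_⟩
    · rw [Ex_congr (W := m.W 0) (F := fun s => F s * G s) (G := fun s => G s * F s)
        fun s _ => mul_comm _ _, ht.2]
      exact Ex_congr fun s _ => mul_comm _ _
    · rw [habs]
      refine key.2.trans ?_
      show _ * _ * nm m _ F * _ ≤ _
      rw [hcr, hnm]
      refine mul_le_mul_of_nonneg_right (mul_le_mul_of_nonneg_right ?_ (Nm_nonneg hΛ _ _ _))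
        (Ex_nonneg hWh.nonneg fun _ _ => abs_nonneg _)
      exact mul_le_mul hcr' hg2.2 (by linarith [hg2.1]) (by linarith)

theorem lhdStmt (hH : HdStmt) (hG : LgeoStmt) : LHdStmt := by
  intro Λ hΛ z c R hc hcR
  obtain ⟨hgam, hgeo⟩ := hG Λ hΛ
  have hg2 := hgam c R c (R + Λ.rg) le_rfl (by omega) hcR
  have hκ : 1 / gam Λ c R ≤ 1 / gam Λ c (R + Λ.rg) :=
    one_div_le_one_div_of_le (by linarith [hg2.1]) hg2.2
  have hm0 := amb_D hΛ (bl z (R + Λ.rg))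
  obtain ⟨hC0, hB0, -, hhd0, -, -⟩ := (hgeo _ z).2 c R hc (by omega) hm0
  obtain ⟨hp, hdep, -⟩ := hH Pt _ _ _ _ _ _ hm0.ctr.1 hC0
  rw [hhd0] at hp hdep
  refine ⟨hp, hdep, fun m hm => ?_, fun c' hc' => ?_⟩
  · obtain ⟨hC, -, hcr, hhd, -, -⟩ := (hgeo _ z).2 c R hc (by omega) hm
    obtain ⟨κ, h1, h2, h3⟩ := (hH Pt _ _ _ _ _ _ hm.ctr.1 hC).2.2.2.2 hm.ctr hm.anch
    rw [hcr] at h1
    rw [hhd, hB0] at h3
    exact ⟨κ, hκ.trans h1, h2, h3⟩
  · have hRc : bl z (R + Λ.rg) ⊆ bl z c' := bl_mono _ hc'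
    have hm1 := amb_D hΛ (bl z c')
    obtain ⟨hC1, -, hcr1, hhd1, -, -⟩ := (hgeo _ z).2 c R hc (by omega) (Amb.mono' hm1 hRc)
    obtain ⟨x, hx⟩ := hC1.tne
    have hxc : x ∈ bl z c' := hRc (an_sub_bl _ _ _ hx)
    have hxR : x ∉ bl z R := (mem_an.1 hx).2
    have hcn : Cn (Λ.D (bl z c')) (bl z c') := ((hgeo _ z).1 c' (by omega) hm1).1.cn
    have hX : bl z c ∪ an z c (R + Λ.rg) ⊆ bl z c' := by
      rw [bl_union_an z (by omega)]; exact hRc
    have hC2 := hC1.pn (R := {x}) hX (by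
      rw [hB0, Finset.disjoint_singleton_right]; exact hxR)
    have hc2 : (pn (Λ.D (bl z c')) (bl z c') {x}).Ctr := pn_ctr hm1.ctr.1 _ _
    have ha2 : (pn (Λ.D (bl z c')) (bl z c') {x}).Anch :=
      pn_anch hcn hxc (Finset.mem_singleton_self x)
    obtain ⟨κ, h1, h2, h3⟩ := (hH Pt _ _ _ _ _ _ hc2.1 hC2).2.2.2.2 hc2 ha2
    rw [((agr_pn hX _).mono Finset.subset_union_right).cr, hcr1] at h1
    have hh : hole (pn (Λ.D (bl z c')) (bl z c') {x}) (bl z c) =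
        pn (Λ.D (bl z c')) (an z c c') {x} := by
      have := hole_pn (m := Λ.D (bl z c')) (disj_an z c c').symm {x}
      rwa [bl_union_an z (by omega)] at this
    rw [hC2.hd_congr hC1 (agr_pn hX _), hhd1, hB0, hh] at h3
    refine ⟨κ, hκ.trans h1, h2, fun Φ hΦ hI => ?_⟩
    have hxa : x ∈ an z c c' := an_mono (by omega) hc' hx
    have hΦa : DepG (an z c c') Φ := hΦ.mono (an_mono (by omega) le_rfl)
    have hag := agr_near (hm1.near.mono (an_sub_bl z c c'))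
    rw [← hag.rW, ig_root hxa hΦa] at hI
    obtain ⟨h4, h5⟩ := h3 Φ (hΦ.dep.out (disj_an z R c')) hI
    have hd : DepG (bl z c') fun s => Φ s * Hd Λ z c R s :=
      (hΦ.mono (an_sub_bl _ _ _)).mul (hdep.mono ((an_sub_bl _ _ _).trans hRc))
    refine ⟨(In_root hm1.near hd hxc).2 h4, ?_⟩
    rw [EN_root hm1.near hd hxc, h5, EA, ← hag.nE, nE_root hxa hΦa]

end Crest.Agent.T145.Nc
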