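import Crest.Agent.T145.NcDef_78
import Crest.Agent.T145.CutC_7
import Crest.Agent.T145.Dens_52
import Crest.Agent.T145.CorB_59

/-!
# Row 145: monotonicity and symmetry of the flat cross ratio (helper93)
-/

set_option autoImplicit false
set_option linter.unusedSectionVars false

namespace Crest.Agent.T145.Nc

open Finset

namespace M93
variable {V : Type} [DecidableEq V] {m : Mdl V} {U U' K K' S : Finset V} {r : V}

/-- the gradients inside `K` -/
noncomputable def gH (K : Finset V) (r : V) : Cfg V →+ Cfg V :=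
  T145.prjH ({()} : Finset Unit) (fun _ => K) fun _ => r

theorem gH_apply (K : Finset V) (r : V) (s : Cfg V) (x : V) :
    gH K r s x = if x ∈ K then s x - s r else 0 := by
  change prj ({()} : Finset Unit) (fun _ => K) (fun _ => r) s x = _
  rw [T145.prj_apply, sum_singleton]

theorem fl_iff (hr : r ∈ K) (s : Cfg V) : Fl K s ↔ gH K r s = 0 := by
  simp only [Finsupp.ext_iff, gH_apply, Finsupp.zero_apply]
  refine ⟨fun h x => ?_, fun h x hx y hy => ?_⟩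
  · split_ifs with hx
    · rw [h x hx r hr, sub_self]
    · rfl
  · have h1 := h x
    have h2 := h y
    rw [if_pos hx] at h1
    rw [if_pos hy] at h2
    omega

theorem fl_gH (hK : K' ⊆ K) (r : V) (s : Cfg V) : Fl K' (gH K r s) ↔ Fl K' s := by
  refine forall₂_congr fun x hx => forall₂_congr fun y hy => ?_
  rw [gH_apply, gH_apply, if_pos (hK hx), if_pos (hK hy), sub_left_inj]

theorem fl_zero (K : Finset V) : Fl K (0 : Cfg V) := fun _ _ _ _ => rfl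

theorem pd_fl (K : Finset V) : PD fun s : Cfg V => ind (Fl K s) := by
  rcases K.eq_empty_or_nonempty with rfl | ⟨r, hr⟩
  · have : (fun s : Cfg V => ind (Fl ∅ s)) = fun _ => 1 :=
      funext fun s => ind_pos fun x hx => absurd hx (notMem_empty x)
    rw [this]; exact pd_one
  · simp only [fl_iff hr]; exact pd_ind _

theorem fl_cst (hK : K ⊆ U) (s : Cfg V) (h : ℤ) : Fl K (s + cst U h) ↔ Fl K s := by
  refine forall₂_congr fun x hx => forall₂_congr fun y hy => ?_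
  rw [Finsupp.add_apply, Finsupp.add_apply, cst_of_mem h (hK hx), cst_of_mem h (hK hy),
    add_left_inj]

theorem cen_nb (hF : m.Fm) (hU : Cn m U) (hr : r ∈ U) : Cen ((m.nbox U r).W 0) :=
  cen_nbox hF (anch_nbox fun x hx => hU x hx r hr)

/-- change of the root -/
theorem ex_rW (hr : r ∈ U) {F : Cfg V → ℝ} (hF : ∀ s h, F (s + cst U h) = F s) :
    Ex (rW m U) F = Ex ((m.nbox U r).W 0) F := by
  have hne : U.Nonempty := ⟨r, hr⟩
  have e : rW m U = ((pn m U ∅).free (U.erase hne.choose)).W 0 := by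
    unfold rW rs
    rw [dif_pos hne]
    unfold pn
    rw [sdiff_singleton_eq_erase]
    rfl
  rw [e]
  exact ex_root (pn m U ∅) hne.choose_spec hr (fun e he => (T145.mem_inn.1 he).2)
    (fun _ _ => rfl) hF

theorem pr_rW (hr : r ∈ U) (hK : K ⊆ U) :
    Pr (rW m U) (Fl K) = Pr ((m.nbox U r).W 0) (Fl K) :=
  ex_rW hr fun s h => ind_congr (fl_cst hK s h)

/-- pinning on `S` is conditioning on flatness on `S` -/
theorem W_pn (hr : r ∈ S) (s : Cfg V) :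
    (pn m U S).W 0 s = (m.nbox U r).W 0 s * ind (Fl S s) := by
  simp only [Mdl.W, pn, Mdl.nbox, prod_const_one, mul_one, Finsupp.zero_apply]
  rw [mul_right_comm, ← ind_and]
  congr 1
  refine ind_congr ⟨fun h => ⟨fun x hx => h x fun hx' => ?_, fun x hx y hy => ?_⟩, fun h x hx => ?_⟩
  · exact hx (mem_erase.2 ⟨fun e => (mem_sdiff.1 hx').2 (e ▸ hr), (mem_sdiff.1 hx').1⟩)
  · rw [h x fun h' => (mem_sdiff.1 h').2 hx, h y fun h' => (mem_sdiff.1 h').2 hy]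
  · by_cases hx' : x ∈ S
    · rw [h.2 x hx' r hr]; exact h.1 r (notMem_erase r U)
    · exact h.1 x fun h' => hx (mem_sdiff.2 ⟨mem_of_mem_erase h', hx'⟩)

theorem pr_fl_pos {W : Cfg V → ℝ} (hW : Cen W) (K : Finset V) : 0 < Pr W (Fl K) :=
  hW.wt.ex_pos (hW.wt.ig_ind _) (fun _ => ind_nonneg _) hW.pos0
    (by rw [ind_pos (fl_zero K)]; exact one_pos)

theorem rW_pos (hF : m.Fm) (hU : Cn m U) (hr : r ∈ U) (hK : K ⊆ U) : 0 < Pr (rW m U) (Fl K) := by
  rw [pr_rW hr hK]; exact pr_fl_pos (cen_nb hF hU hr) K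

/-- the symmetric formula -/
theorem cr_eq (hF : m.Fm) (hU : Cn m U) (hK : K ⊆ U) (hS : S ⊆ U) (hne : S.Nonempty) :
    cr m U K S = Ex (rW m U) (fun s => ind (Fl S s) * ind (Fl K s)) /
      (Pr (rW m U) (Fl S) * Pr (rW m U) (Fl K)) := by
  obtain ⟨r, hr⟩ := hne
  have hc := cen_nb hF hU (hS hr)
  rw [cr, funext (W_pn (m := m) (U := U) hr), ← div_div, pr_rW (hS hr) hS,
    ex_rW (hS hr) (F := fun s => ind (Fl S s) * ind (Fl K s)) fun s h => by
      rw [ind_congr (fl_cst hK s h), ind_congr (fl_cst hS s h)]]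
  congr 1
  exact hc.wt.ex_mul _ _

theorem cr_symm (hF : m.Fm) (hU : Cn m U) (hK : K ⊆ U) (hS : S ⊆ U) (hK0 : K.Nonempty)
    (hS0 : S.Nonempty) : cr m U K S = cr m U S K := by
  rw [cr_eq hF hU hK hS hS0, cr_eq hF hU hS hK hK0, mul_comm (Pr _ _)]
  simp only [mul_comm (ind (Fl S _))]

theorem one_le_cr (hF : m.Fm) (hU : Cn m U) (hK : K ⊆ U) (hS : S ⊆ U) (hS0 : S.Nonempty) :
    1 ≤ cr m U K S := by
  obtain ⟨r, hr⟩ := hS0
  have hc := cen_nb hF hU (hS hr)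
  rw [cr, funext (W_pn (m := m) (U := U) hr), one_le_div (rW_pos hF hU (hS hr) hK), pr_rW (hS hr) hK]
  exact ((monoStmt _ _ hc).1 _ (pd_fl S) (fun _ => ind_nonneg _)
    (by rw [ind_pos (fl_zero S)]; exact one_pos)).2 _ (pd_fl K)

theorem cr_mono (hF : m.Fm) (hU : Cn m U) (hK : K ⊆ U) (hS : S ⊆ U) (hK0 : K.Nonempty)
    (hS0 : S.Nonempty) (hK' : K' ⊆ K) : cr m U K' S ≤ cr m U K S := by
  obtain ⟨r, hr⟩ := hS0
  obtain ⟨k, hk⟩ := hK0
  have hc := cen_nb hF hU (hS hr)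
  have h := (densStmt _ _ _ _ (gH K k) hc (pd_fl S) (fun _ => ind_nonneg _)
    (by rw [ind_pos (fl_zero S)]; exact one_pos)).2 (fun q => ind (Fl K' q))
    (fun _ => ind_nonneg _) (hc.wt.ig_ind _)
  simp only [← fl_iff hk, ind_congr (fl_gH hK' k _)] at h
  rw [cr, cr, funext (W_pn (m := m) (U := U) hr), pr_rW (hS hr) hK, pr_rW (hS hr) (hK'.trans hK),
    div_le_div_iff₀ (pr_fl_pos hc _) (pr_fl_pos hc _)]
  exact h

/-- a larger free model is flatter on `K` -/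
theorem pr_le_of_sub (hF : m.Fm) (hU : Cn m U) (hU' : Cn m U') (hUU : U ⊆ U') (hK : K ⊆ U)
    (hr : r ∈ U) : Pr (rW m U) (Fl K) ≤ Pr (rW m U') (Fl K) := by
  rw [pr_rW hr hK, pr_rW (hUU hr) (hK.trans hUU)]
  have hi : inn U (inn U' m.ed) = inn U m.ed := by
    ext e
    simp only [T145.mem_inn]
    exact ⟨fun h => ⟨h.1.1, h.2⟩, fun h => ⟨⟨h.1, hUU h.2.1, hUU h.2.2⟩, h.2⟩⟩
  have hb : (m.nbox U' r).nbox U r = m.nbox U r := by
    simp only [Mdl.nbox, hi]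
  have h := cut_pd (m := m.nbox U' r) (I := ({()} : Finset Unit)) (B := fun _ => U)
    (r := fun _ => r) (hF.ctr_nbox U' r) (anch_nbox fun x hx => hU' x hx r (hUU hr))
    (fun _ _ => hr) (fun _ _ _ _ h => absurd rfl h)
    (fun _ _ => by rw [hb]; exact anch_nbox fun x hx => hU x hx r hr) (pd_fl K)
  have hn : (m.nbox U' r).ncut ({()} : Finset Unit) (fun _ => U) (fun _ => r) = m.nbox U r := by
    simp only [Mdl.ncut, Mdl.nbox, singleton_biUnion, hi]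
  rw [hn] at h
  refine h.trans_eq (Ex_congr fun s _ => ind_congr ?_)
  exact fl_gH hK r s

theorem pp_ext (hF : m.Fm) (hS : S ⊆ U) (hUU : U ⊆ U')
    (hb : ∀ x ∈ U', x ∈ m.bd (U \ S) → x ∈ S) :
    Pp ((pn m U' (U' \ (U \ S))).W 0) ((pn m U S).W 0) := by
  have hA : U' \ (U' \ (U \ S)) = U \ S :=
    Finset.sdiff_sdiff_eq_self (sdiff_subset.trans hUU)
  refine Mdl.pp_of_touch (m := pn m U' (U' \ (U \ S))) (m' := pn m U S) (fun e he => hF e (T145.mem_inn.1 he).1)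
    (fun e he => hF e (T145.mem_inn.1 he).1) hA (fun _ _ _ => rfl) (fun e he => ?_)
    (fun _ _ _ => rfl) 0
  change e.1 ∈ U' \ (U' \ (U \ S)) ∨ e.2 ∈ U' \ (U' \ (U \ S)) at he
  rw [hA] at he
  change e ∈ inn U' m.ed ↔ e ∈ inn U m.ed
  simp only [T145.mem_inn]
  refine ⟨fun h => ⟨h.1, ?_⟩, fun h => ⟨h.1, hUU h.2.1, hUU h.2.2⟩⟩
  have key : ∀ x ∈ U', (x = e.1 ∧ e.2 ∈ U \ S) ∨ (x = e.2 ∧ e.1 ∈ U \ S) → x ∈ U := by
    intro x hx hx'
    by_cases h1 : x ∈ U \ S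
    · exact (mem_sdiff.1 h1).1
    · exact hS (hb x hx (Mdl.mem_bd.2 ⟨h1, e, h.1,
        hx'.imp (fun h => ⟨h.1.symm, h.2⟩) fun h => ⟨h.1.symm, h.2⟩⟩))
  rcases he with he | he
  · exact ⟨(mem_sdiff.1 he).1, key _ h.2.2 (Or.inr ⟨rfl, he⟩)⟩
  · exact ⟨key _ h.2.1 (Or.inl ⟨rfl, he⟩), (mem_sdiff.1 he).1⟩

theorem cr_ext (hF : m.Fm) (hU : Cn m U) (hK : K ⊆ U) (hS : S ⊆ U) (hK0 : K.Nonempty)
    {S' : Finset V} (hUU : U ⊆ U') (hU' : Cn m U') (hS' : S' ⊆ U') (hS0 : S'.Nonempty)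
    (hd : Disjoint S' (U \ S)) (hb : ∀ x ∈ U', x ∈ m.bd (U \ S) → x ∈ S) :
    cr m U' K S' ≤ cr m U K S := by
  have h1 : S' ⊆ U' \ (U \ S) := subset_sdiff.2 ⟨hS', hd⟩
  have h2 : (U' \ (U \ S)).Nonempty := hS0.mono h1
  have hK' := hK.trans hUU
  obtain ⟨k, hk⟩ := id hK0
  calc cr m U' K S' = cr m U' S' K := cr_symm hF hU' hK' hS' hK0 hS0
    _ ≤ cr m U' (U' \ (U \ S)) K := cr_mono hF hU' sdiff_subset hK' h2 hK0 h1
    _ = cr m U' K (U' \ (U \ S)) := cr_symm hF hU' sdiff_subset hK' h2 hK0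
    _ ≤ cr m U K S := by
      rw [cr, cr, (pp_ext hF hS hUU hb).pr]
      exact div_le_div_of_nonneg_left (Pr_nonneg (fun s => Md.W_nonneg (m := pn m U S)
        (fun e he => hF e (T145.mem_inn.1 he).1) (fun _ _ _ => zero_le_one) 0 s) _)
        (rW_pos hF hU (hK hk) hK) (pr_le_of_sub hF hU hU' hUU hK (hK hk))

end M93

theorem monoCrStmt : MonoCrStmt := fun _ _ _ _ _ _ hF hU hK hS hK0 hS0 =>
  ⟨M93.one_le_cr hF hU hK hS hS0, M93.cr_symm hF hU hK hS hK0 hS0,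
    fun _ hK' => M93.cr_mono hF hU hK hS hK0 hS0 hK',
    fun _ _ hUU hU' hS' hS0' hd hb => M93.cr_ext hF hU hK hS hK0 hUU hU' hS' hS0' hd hb⟩

end Crest.Agent.T145.Nc

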