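import Crest.Agent.T145.NcDef_78
import Crest.Agent.T145.Dens_52

/-!
# Row 145 (helper91): the cross ratio is bounded by a crossing probability
-/

set_option autoImplicit false

namespace Crest.Agent.T145.Nc

open Finset

namespace Nd91

variable {V : Type} [DecidableEq V] {m : Mdl V} {U S : Finset V}

theorem pn_ctr (h : m.Fm) : (pn m U S).Ctr :=
  ⟨fun e he => h e (mem_filter.1 he).1, fun _ _ => ⟨Rsd63.rsd_one, pd_one, one_pos⟩⟩

theorem pn_anch (h : Cn m U) {y : V} (hU : y ∈ U) (hS : y ∈ S) : (pn m U S).Anch := fun x hx =>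
  ⟨y, h x (mem_sdiff.1 hx).1 y hU, .inl fun h' => (mem_sdiff.1 h').2 hS⟩

omit [DecidableEq V] in
theorem pd_fl (K : Finset V) : PD fun s : Cfg V => ind (Fl K s) := by
  simp only [Fl, ind_forall]
  refine PD.prod fun x _ => PD.prod fun y _ => ?_
  exact (funext fun s => ind_congr sub_eq_zero : _ = fun s : Cfg V => ind (s x = s y)) ▸
    pd_ind (dH (y, x))

theorem hasSum_round (x : ℝ) : HasSum (fun h : ℤ => ind (round (x + h) = 0)) 1 := by
  have := hasSum_single (f := fun h : ℤ => ind (round (x + h) = 0)) (-round x) fun h hh =>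
    ind_neg (by rw [round_add_intCast]; omega)
  rwa [ind_pos (by rw [round_add_intCast]; omega)] at this

end Nd91

open Nd91

theorem crNdStmt : CrNdStmt := by
  intro V _ _ m U K S φ p hF hC hK hS hφ hφ1 hp h
  obtain ⟨y, hy⟩ : S.Nonempty := nonempty_of_sum_ne_zero (by rw [hφ1]; exact one_ne_zero)
  have hU : U.Nonempty := ⟨y, hS hy⟩
  have hA : (pn m U ∅).A = U := sdiff_empty
  have e1 : (pn m U ∅).free ((pn m U ∅).A \ S) = pn m U S := by rw [hA]; rfl
  have e2 : (pn m U ∅).free ((pn m U ∅).A.erase hU.choose) = pn m U (rs U) := by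
    rw [hA, rs, dif_pos hU, erase_eq]; rfl
  have hW : Wt (rW m U) := (pn_ctr hF).wt
    (pn_anch hC hU.choose_spec (by rw [rs, dif_pos hU]; exact mem_singleton_self _)) 0
  obtain ⟨⟨h1, -⟩, h2⟩ := X56.rootU (pn m U ∅) hU.choose (fun s => ind (round (pr φ s) = 0))
    (hA.symm ▸ hU.choose_spec) (fun e he => hA.symm ▸ (mem_filter.1 he).2) (fun _ _ => rfl)
    (fun _ => ind_nonneg _) (fun s => by
      simp only [map_add, pr_cst, hA, ← sum_subset hS fun x _ => hφ x, hφ1, one_mul]
      exact hasSum_round _) (e2 ▸ hW)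
  have h3 := ndStmt V (pn m U ∅) S K (fun s => ind (round (pr φ s) = 0)) _ (pn_ctr hF)
    (e1 ▸ pn_anch hC (hS hy) hy) (fun s t hst => by
      simp only [pr_of_fsupp φ _ hφ]
      rw [sum_congr rfl fun x hx => by rw [hst x hx]])
    (fun _ => ind_nonneg _) h1 (pd_fl K) (fun _ => ind_nonneg _)
    fun s t hst => ind_congr (forall₂_congr fun x hx => forall₂_congr fun y hy => by
      rw [hst x hx, hst y hy])
  rw [e2] at h2
  have hJ := (D52.ex_pair (J := fun q => ind (round (pr φ q.1) = 0) * (pn m U ∅).J 0 0 q)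
    (fun q => mul_nonneg (ind_nonneg _) (D52.J_nonneg (pn_ctr hF).1 (pn_ctr hF).nn 0 0 q))
    (fun s => (D52.hasSum_J _ 0 0 s).mul_left _) h1).1
  rw [e1, hJ.pr_not, (h2 _ (fun s k => ind_congr (forall₂_congr fun x hx => forall₂_congr
    fun y hy => by simp [hA, cst_of_mem k (hK hx), cst_of_mem k (hK hy)])) (hW.ig_ind _)).2] at h3
  have h4 := Pr_nonneg ((pn_ctr hF).wt (pn_anch hC (hS hy) hy) 0).nonneg (Fl K)
  refine div_le_of_le_mul₀ (Pr_nonneg hW.nonneg _) (one_div_pos.2 (sub_pos.2 hp)).le ?_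
  rw [one_div_mul_eq_div, le_div_iff₀' (sub_pos.2 hp)]
  exact (mul_le_mul_of_nonneg_right (sub_le_sub_left h 1) h4).trans h3

end Crest.Agent.T145.Nc
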