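import Crest.Agent.T145.NcBas_78
import Crest.Agent.T145.NcMono_93
import Crest.Agent.T145.NcD1_43
import Crest.Agent.T145.NcHd_10
import Crest.Agent.T145.NcIo_98
import Crest.Agent.T145.NcCon_31
import Crest.Agent.T145.NcGeo_51
import Crest.Agent.T145.NcLat_37
import Crest.Agent.T145.NcDec_15
import Crest.Agent.T145.NcNd_91

/-!
# Row 145: all Props of `NcDef_78`, without hypotheses (helper78)
-/

set_option autoImplicit false

namespace Crest.Agent.T145.Nc.U

theorem monoCr : MonoCrStmt := monoCrStmt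
theorem d1 : D1Stmt := d1Stmt
theorem d1m : D1mStmt := d1mStmt
theorem hdS : HdStmt := hdStmt d1
theorem nb : NbStmt := nbStmt monoCr d1
theorem d1io : D1ioStmt := d1ioStmt nb hdS
theorem nc : NcStmt := ncStmt d1 d1io hdS nb monoCr
theorem gdec : GDecStmt := gdecStmt d1 nb monoCr nc
theorem crNd : CrNdStmt := crNdStmt
theorem lgeo : LgeoStmt := lgeoStmt monoCr
theorem lgeoH : LgeoHStmt := lgeoHStmt monoCr
theorem ld1 : LD1Stmt := ld1Stmt d1 d1io hdS nb lgeo
theorem lhd : LHdStmt := lhdStmt hdS lgeo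
theorem dec : DecStmt := decStmt gdec d1 monoCr lgeo ld1
theorem sub : SubStmt := subStmt gdec d1io monoCr lgeo lgeoH

end Crest.Agent.T145.Nc.U
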