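import Crest.Agent.T145.KsDef_68

/-!
# Row 145: the rank two output of the twisted kernel module (helper90)
-/

set_option autoImplicit false

namespace Crest.Agent.T145.Ks68

open Finset Nc

/-- the covariance of the gradients in `I` with the gradients in `O` has rank two up to `β` -/
def Vec {V : Type} (W : Cfg V → ℝ) (I O : Finset V) (α β : ℝ) : Prop :=
  ∃ a : (Cfg V → ℝ) → Fin 2 → ℝ,
    (∀ (F G : Cfg V → ℝ) (x y M : ℝ), (∀ s, |F s| ≤ M) → (∀ s, |G s| ≤ M) →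
      a (fun s => x * F s + y * G s) = x • a F + y • a G) ∧
    ∀ (F : Cfg V → ℝ) (M : ℝ), DepG I F → (∀ s, |F s| ≤ M) → (∀ i, |a F i| ≤ α * M) ∧
      ∀ φ : Cfg V → ℝ, DepG O φ → (∀ s, |φ s| ≤ 1) → |Cv W F φ| ≤ ∑ i, |a F i| + β * M

/-- K-V in the twisted free annulus.  Prover: module Kv; consumer `Vx.KvStmt` -/
def VecStmt : Prop := ∀ (F : Fa) (θ₀ ε : ℝ), F.J = nn → 0 < θ₀ → 0 < ε → ε ≤ 1 / 4 → ∃ W₁ : ℝ,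
  ∀ W, W₁ ≤ W → ∀ K : ℝ, 1 ≤ K → ∃ δ : ℝ, 0 < δ ∧ ∀ Λ, F.Mem Λ → ∀ l L, Λ.Win θ₀ δ l L →
    2 - ε ≤ Real.pi * Λ.gN l → ∀ G : Kr.Gm, G.Ok W → G.At K L → G.R₂ ≤ L → (G.r : ℝ) ≤ W * G.c →
      (G.R₂ : ℝ) ≤ W * G.R →
      Vec (wN Λ G.Om (Vd.ray 0)) G.In G.Ou (W ^ (-1 + 2 * ε)) (W ^ (-2 + 3 * ε))

end Crest.Agent.T145.Ks68
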