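import Crest.Agent.T145.KvDef_8
import Crest.Agent.T145.KvOut_90
import Crest.Agent.T145.KsT_68
import Crest.Agent.T145.EsK_28
import Crest.Agent.T145.Soft_23

/-!
# Row 145 (helper68): `Kv.KvStmt` and (H) give `MixStmt` and `VecStmt`
-/

set_option autoImplicit false

namespace Crest.Agent.T145.Ks68

open Finset Nc Nc.Geo

theorem out (hK : Kv.KvStmt) (hH : Es28.HKStmt) (F : Fa) {θ₀ ε : ℝ} (N : ℕ) (hJ : F.J = nn)
    (h0 : 0 < θ₀) (e0 : 0 < ε) (e1 : ε ≤ 1 / 4) : ∃ W₁ : ℝ, 1 ≤ W₁ ∧ ∀ W, W₁ ≤ W → ∀ K : ℝ, 1 ≤ K →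
    ∃ δ : ℝ, 0 < δ ∧ ∀ Λ, F.Mem Λ → ∀ l L, Λ.Win θ₀ δ l L → 2 - ε ≤ Real.pi * Λ.gN l → ∀ G : Kr.Gm,
      G.Ok W → G.At K L → G.R₂ ≤ L → (G.r : ℝ) ≤ W * G.c → (G.R₂ : ℝ) ≤ W * G.R →
      Wt (wN Λ G.Om (Vd.ray 0)) ∧ Kv.Out G (Ex (wN Λ G.Om (Vd.ray 0))) (W ^ (-1 + ε))
        (W ^ (-2 + 3 * ε)) (1 / 8) (W ^ (-(N : ℝ))) := by
  obtain ⟨C, δ₁, p1, H⟩ := hH F θ₀ h0
  obtain ⟨W₁, H1⟩ := hK F θ₀ ε N (4 * C) hJ h0 e0 e1
  refine ⟨max W₁ 1, le_max_right _ _, fun W hW K k1 => ?_⟩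
  have w1 : 1 ≤ W := (le_max_right _ _).trans hW
  obtain ⟨δ₂, p2, H2⟩ := H1 W ((le_max_left _ _).trans hW) K k1
  have q1 : 1 ≤ 2 * K * W ^ 2 := by nlinarith [one_le_pow₀ (n := 2) w1]
  refine ⟨min δ₂ (δ₁ / (2 * K * W ^ 2)), by positivity, fun Λ hΛ l L hw hg G ok hat h1 h2 h3 => ?_⟩
  have a1 := ok.hW
  have a2 := ok.hc
  have a3 := ok.hr
  have a4 := ok.lo
  have a5 := ok.hi
  have a6 := ok.out
  have r0 : (64 : ℝ) ≤ G.r := by exact_mod_cast a3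
  have b1 : G.r < G.R := by exact_mod_cast (by nlinarith : (G.r : ℝ) < G.R)
  have c0 : (0 : ℝ) < G.c := (mul_pos_iff_of_pos_left (by linarith : 0 < W)).1 (by linarith)
  have b2 : (G.R : ℝ) ≤ 2 * W ^ 2 * G.c := by nlinarith
  obtain ⟨c, -, H⟩ := H Λ hΛ (hΛ.1.trans hJ) l
  have k := (H L (hw.mono_d ((min_le_right _ _).trans (div_le_self p1.le q1))) 0 G.R₂
    (by have := hw.one_le_L; omega)).1 G.c (by
      calc (l : ℝ) ≤ δ₁ / (2 * K * W ^ 2) * (K * (2 * W ^ 2 * G.c)) :=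
            hw.sep.2.trans (mul_le_mul (min_le_right _ _) (hat.2.trans (by gcongr)) (by positivity)
              (by positivity))
        _ = _ := by field_simp) (by omega)
  refine ⟨wt_wN hΛ.ok (cnL_an hΛ.ok 0 (by omega)) (an_nonempty 0 (by omega)) _,
    H2 Λ hΛ l L (hw.mono_d (min_le_left _ _)) G ok hat hg (le_trans ?_ k)⟩
  rw [Real.rpow_neg (by linarith), Real.rpow_natCast, pow_mul, ← inv_pow]
  refine pow_le_pow_left₀ (by positivity) ?_ C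
  rw [inv_eq_one_div, div_le_div_iff₀ (by positivity) (by positivity)]
  have : (1 : ℝ) ≤ G.R₂ := by exact_mod_cast (by omega : 1 ≤ G.R₂)
  have : (G.R₂ : ℝ) ≤ W * (2 * W ^ 2 * G.c) := h3.trans (by gcongr)
  nlinarith [mul_le_mul_of_nonneg_right a1 (by positivity : 0 ≤ W ^ 3 * G.c)]

theorem mixStmt_of (hK : Kv.KvStmt) (hH : Es28.HKStmt) : MixStmt := fun F θ₀ n hJ h0 => by
  obtain ⟨W₁, w1, H⟩ := out hK hH F n hJ h0 (by norm_num : (0 : ℝ) < 1 / 4) le_rfl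
  refine ⟨W₁, fun W hW K k1 => (H W hW K k1).imp fun δ h => ⟨h.1, fun Λ hΛ l L hw hg G ok hat h1 h2 h3
    X Y A B dX dY bX bY => ?_⟩⟩
  obtain ⟨-, y, d, -, k⟩ := h.2 Λ hΛ l L hw (by linarith) G ok hat h1 h2 h3
  have := (k X Y A B dX dY (fun s => by rw [abs_of_nonneg (bX s).1]; exact (bX s).2)
    fun s => by rw [abs_of_nonneg (bY s).1]; exact (bY s).2).2 (fun s => (bX s).1) fun s => (bY s).1
  rwa [Real.rpow_neg (by linarith), Real.rpow_natCast, inv_eq_one_div] at this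

theorem abs_cov_le {α : Type} {W X Y : α → ℝ} (w : Wt W) {A B : ℝ} (hX : ∀ s, |X s| ≤ A)
    (hY : ∀ s, |Y s| ≤ B) : |Kv.cov (Ex W) X Y| ≤ 2 * (A * B) := by
  have a0 : ∀ {Z : α → ℝ} {C : ℝ}, (∀ s, |Z s| ≤ C) → |Ex W Z| ≤ C := fun h =>
    (abs_Ex_le w.nonneg (w.ig_bdd h)).trans (w.ex_le ((w.ig_bdd h).abs w.nonneg) fun s _ => h s)
  have h1 := a0 (Z := fun s => X s * Y s) (C := A * B) fun s => by
    rw [abs_mul]; exact mul_le_mul (hX s) (hY s) (abs_nonneg _) ((abs_nonneg _).trans (hX s))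
  have h2 : |Ex W X * Ex W Y| ≤ A * B := by
    rw [abs_mul]; exact mul_le_mul (a0 hX) (a0 hY) (abs_nonneg _) ((abs_nonneg _).trans (a0 hX))
  exact (abs_sub _ _).trans (by linarith)

theorem vecStmt_of (hK : Kv.KvStmt) (hH : Es28.HKStmt) : VecStmt := fun F θ₀ ε hJ h0 e0 e1 => by
  obtain ⟨W₁, w1, H⟩ := out hK hH F 0 hJ h0 e0 e1
  refine ⟨max W₁ (4 ^ ε⁻¹), fun W hW K k1 => (H W ((le_max_left _ _).trans hW) K k1).imp fun δ h =>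
    ⟨h.1, fun Λ hΛ l L hw hg G ok hat h1 h2 h3 => ?_⟩⟩
  obtain ⟨w, y, d, hy, k⟩ := h.2 Λ hΛ l L hw hg G ok hat h1 h2 h3
  have W0 : 0 < W := by linarith [ok.hW]
  have b0 : 0 < W ^ (-1 + ε) := Real.rpow_pos_of_pos W0 _
  have b1 : 4 * W ^ (-1 + ε) ≤ W ^ (-1 + 2 * ε) := by
    rw [show -1 + 2 * ε = ε + (-1 + ε) by ring, Real.rpow_add W0 ε]
    refine mul_le_mul_of_nonneg_right ?_ b0.le
    calc (4 : ℝ) = (4 ^ ε⁻¹) ^ ε := (Real.rpow_inv_rpow (by norm_num) e0.ne').symm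
      _ ≤ _ := Real.rpow_le_rpow (by positivity) ((le_max_right _ _).trans hW) e0.le
  refine ⟨fun X i => 2 * W ^ (-1 + ε) * Kv.cov (Ex (wN Λ G.Om (Vd.ray 0))) X (y i),
    fun X Y a b M bX bY => funext fun i => ?_, fun X M dX bX => ⟨fun i => ?_, fun φ dφ bφ => ?_⟩⟩
  · have ig : ∀ {Z : Cfg Pt → ℝ}, (∀ s, |Z s| ≤ M) → Ig (wN Λ G.Om (Vd.ray 0)) fun s => Z s * y i s :=
      fun h => w.ig_bdd (C := M) fun s => by
        rw [abs_mul]; exact (mul_le_of_le_one_right (abs_nonneg _) ((hy i).2.1 s)).trans (h s)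
    simp only [Kv.cov, Pi.add_apply, Pi.smul_apply, smul_eq_mul, add_mul, mul_assoc a, mul_assoc b]
    rw [Ex_add ((ig bX).const_mul a) ((ig bY).const_mul b),
      Ex_add ((w.ig_bdd bX).const_mul a) ((w.ig_bdd bY).const_mul b)]
    simp only [Ex_const_mul]; ring
  · have := abs_cov_le w bX (hy i).2.1
    have M0 := (abs_nonneg _).trans (bX 0)
    rw [abs_mul, abs_of_pos (by positivity)]
    nlinarith [mul_le_mul_of_nonneg_right b1 M0, mul_le_mul_of_nonneg_left this b0.le]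
  · have k := (k X φ M 1 dX dφ bX bφ).1
    have s : |∑ i, Kv.cov (Ex (wN Λ G.Om (Vd.ray 0))) X (y i) *
        Kv.cov (Ex (wN Λ G.Om (Vd.ray 0))) (d i) φ| ≤
        ∑ i, |2 * W ^ (-1 + ε) * Kv.cov (Ex (wN Λ G.Om (Vd.ray 0))) X (y i)| :=
      (abs_sum_le_sum_abs _ _).trans (sum_le_sum fun i _ => by
        rw [abs_mul, abs_mul _ (Kv.cov _ _ _), mul_comm, abs_of_pos (by positivity : 0 < 2 * W ^ (-1 + ε))]
        exact mul_le_mul_of_nonneg_right ((abs_cov_le w (hy i).2.2.2 bφ).trans_eq (by ring))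
          (abs_nonneg _))
    have := abs_sub_abs_le_abs_sub (Kv.cov (Ex (wN Λ G.Om (Vd.ray 0))) X φ)
      (∑ i, Kv.cov (Ex (wN Λ G.Om (Vd.ray 0))) X (y i) * Kv.cov (Ex (wN Λ G.Om (Vd.ray 0))) (d i) φ)
    change |Kv.cov (Ex (wN Λ G.Om (Vd.ray 0))) X φ| ≤ _
    linarith

theorem mixStmt (hK : Kv.KvStmt) (hD : GffDStmt) (hm : T1mStmt) : MixStmt :=
  mixStmt_of hK (Es28.hKStmt hD hm)

theorem vecStmt (hK : Kv.KvStmt) (hD : GffDStmt) (hm : T1mStmt) : VecStmt :=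
  vecStmt_of hK (Es28.hKStmt hD hm)

end Crest.Agent.T145.Ks68
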