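import Crest.Agent.T145.MxDef_9
import Crest.Agent.T145.Fac_45
import Crest.Agent.T145.Loc_51
import Crest.Agent.T145.CorB_59

/-!
# Row 145, module Mx: SITE, MUP, GM (helper19)

`Mx.siteStmt : SiteStmt`, `Mx.mupStmt : T1xStmt → BrStmt → MupStmt`,
`Mx.gmStmt : PhmStmt → MupStmt → AFacStmt → RJStmt → T1mStmt → GmStmt`.
The only tool is the inf-convolution bound `MonoStmt (3)`: a mass `ν` on the free sites absorbs a force `g`
at the price `|g|² / (2 ν)`.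
-/

set_option autoImplicit false

namespace Crest.Agent.T145.Mx

open Finset F45

namespace Gm19

/-- second order comparison at the origin -/
theorem le_vr {L : Type*} [AddCommGroup L] {ρ : L → ℝ} (h : Cen ρ) (f : L →+ ℝ) {a : ℝ}
    (H : ∀ t : ℝ, a * t ^ 2 / 2 ≤ M ρ (t • f)) : a ≤ Vr ρ f f := by
  by_contra hlt
  push Not at hlt
  set φ : ℝ → ℝ := fun t => M ρ (0 + t • f) - a * t ^ 2 / 2 with hφ
  set φ' : ℝ → ℝ := fun t => Ex (tilt ρ (0 + t • f)) (fun s => f s) - a * t with hφ'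
  have h1 : ∀ t, HasDerivAt φ (φ' t) t := fun t => by
    have h2 : HasDerivAt (fun t : ℝ => a * t ^ 2 / 2) (a * t) t := by
      have := ((hasDerivAt_pow 2 t).const_mul a).div_const 2
      refine this.congr_deriv ?_
      simp only [Nat.cast_ofNat, Nat.add_one_sub_one, pow_one]; ring
    exact (h.wt.hasDerivAt_M h.se 0 f t).sub h2
  have h2 : HasDerivAt φ' (Vr ρ f f - a) 0 := by
    have := (h.wt.hasDerivAt_M' h.se 0 f f 0).fun_sub ((hasDerivAt_id (0 : ℝ)).const_mul a)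
    simp only [zero_smul, add_zero, tilt_zero, mul_one] at this
    exact this
  have h0 : φ' 0 = 0 := by
    simp only [hφ', zero_smul, add_zero, tilt_zero, Ex_hom_even h.even, mul_zero, sub_self]
  have h00 : φ 0 = 0 := by simp [hφ, h.wt.M_zero]
  have hmin : IsLocalMin φ 0 := Filter.Eventually.of_forall fun t => by
    rw [h00, hφ]; simpa only [zero_add, sub_nonneg] using H t
  have hd : deriv φ = φ' := funext fun t => (h1 t).deriv
  have hmax := isLocalMax_of_deriv_deriv_neg (f := φ) (x₀ := 0)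
    (by rw [hd, h2.deriv]; linarith) (by rw [hd, h0]) (h1 0).continuousAt
  have hev : φ =ᶠ[nhds 0] fun _ => 0 := by
    filter_upwards [hmin, hmax] with t a b
    rw [h00] at a b; exact le_antisymm b a
  have : deriv (deriv φ) 0 = 0 := by
    rw [hev.deriv.deriv_eq]; simp
  rw [hd, h2.deriv] at this
  linarith

section mass
variable {V : Type} [DecidableEq V] {m : Mdl V} {ν : ℝ}

theorem gau_ok (hν : 0 < ν) : RSD (gau ν⁻¹) ∧ PD (gau ν⁻¹) ∧ 0 < gau ν⁻¹ 0 :=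
  have h := (gauStmt ν⁻¹ (inv_pos.2 hν)).1
  ⟨h.cen.toRSD, h.pd, h.cen.pos0⟩

theorem gau_se (hν : 0 < ν) : SE (gau ν⁻¹) := (gauStmt ν⁻¹ (inv_pos.2 hν)).1.cen.se

theorem gau_mul {ν ν' : ℝ} (k : ℤ) : gau ν⁻¹ k * gau ν'⁻¹ k = gau (ν + ν')⁻¹ k := by
  simp only [gau, ← Real.exp_add, div_eq_mul_inv, mul_inv, inv_inv]
  congr 1; ring

/-- a mass on the free sites is a Gaussian factor -/
theorem W_mass (m : Mdl V) (hν : 0 ≤ ν) : (m.mulSite fun _ => gau ν⁻¹).W 0 =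
    fun s => m.W 0 s * gq m.A (fun x => Real.sqrt ν • evH x) s := by
  funext s
  rw [Mdl.W_mulSite]
  congr 1
  simp only [gau, gq, ← Real.exp_sum, AddMonoidHom.smul_apply, evH_apply, smul_eq_mul, mul_pow,
    Real.sq_sqrt hν, div_eq_mul_inv, mul_inv, inv_inv, ← sum_neg_distrib, sum_mul]
  congr 1
  exact sum_congr rfl fun x _ => by ring

theorem ctr_mass (hc : m.Ctr) (hν : 0 < ν) : (m.mulSite fun _ => gau ν⁻¹).Ctr :=
  hc.mulSite fun _ _ => gau_ok hν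

theorem cen_mass (hc : m.Ctr) (ha : m.Anch) (hν : 0 ≤ ν) :
    Cen ((m.mulSite fun _ => gau ν⁻¹).W 0) := by
  rw [W_mass m hν]; exact (hc.cen ha).mul_gq _ _

/-- inf-convolution: the mass absorbs the force `g` -/
theorem M_mass (hc : m.Ctr) (ha : m.Anch) (hν : 0 < ν) (X : Cfg V →+ ℝ) (g : V → ℝ) :
    M ((m.mulSite fun _ => gau ν⁻¹).W 0) (X + pr g) ≤ M (m.W 0) X + ip m.A g g / (2 * ν) := by
  have hs : 0 < Real.sqrt ν := Real.sqrt_pos.2 hν
  have h := (hc.cen ha).M_gq_le m.A (fun x => Real.sqrt ν • evH x) (fun x => g x / Real.sqrt ν) X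
  rw [← W_mass m hν.le] at h
  refine le_trans (le_of_eq (M_congr fun s hs' => ?_)) (h.trans (le_of_eq ?_))
  · simp only [AddMonoidHom.add_apply, AddMonoidHom.finsetSum_apply, AddMonoidHom.smul_apply,
      evH_apply, smul_eq_mul]
    congr 1
    rw [pr_apply g s (U := m.A) fun x hx => by
      rw [Mdl.W_ne_zero hs' hx]; simp]
    exact sum_congr rfl fun x _ => by field_simp
  · congr 1
    simp only [ip, div_pow, Real.sq_sqrt hν.le, ← sum_div, pow_two (g _)]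
    rw [div_div, mul_comm ν]

theorem vr_mass (hc : m.Ctr) (ha : m.Anch) (hν : 0 < ν) (X : Cfg V →+ ℝ) (g : V → ℝ) :
    Vr ((m.mulSite fun _ => gau ν⁻¹).W 0) (X + pr g) (X + pr g) ≤
      Vr (m.W 0) X X + ip m.A g g / ν := by
  rw [← sub_le_iff_le_add]
  refine le_vr (hc.cen ha) X fun t => ?_
  have h1 := (cen_mass hc ha hν.le).vr_le_M (t • (X + pr g))
  have h2 := M_mass hc ha hν (t • X) (t • g)
  rw [pr_smul, ← smul_add] at h2
  rw [Vr_smul_left, Vr_smul_right] at h1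
  have h3 : ip m.A (t • g) (t • g) / (2 * ν) = ip m.A g g / ν * t ^ 2 / 2 := by
    have : ip m.A (t • g) (t • g) = t ^ 2 * ip m.A g g := by
      simp only [ip, mul_sum, Pi.smul_apply, smul_eq_mul]
      exact sum_congr rfl fun x _ => by ring
    rw [this]; field_simp
  rw [h3] at h2
  nlinarith

end mass

theorem ip_nonneg {V : Type*} (B : Finset V) (g : V → ℝ) : 0 ≤ ip B g g :=
  sum_nonneg fun _ _ => mul_self_nonneg _

theorem ip_mono {V : Type*} {A B : Finset V} (h : A ⊆ B) (g : V → ℝ) : ip A g g ≤ ip B g g :=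
  sum_le_sum_of_subset_of_nonneg h fun _ _ _ => mul_self_nonneg _

variable {Λ : Lat} {B : Finset Pt} {μ : ℝ}

theorem ms_ctr (h : Λ.Ok) (B : Finset Pt) (hμ : 0 < μ) : (ms Λ B μ).Ctr := ctr_mass (h.ctr_N B) hμ

theorem ms_anch (Λ : Lat) (B : Finset Pt) (hμ : 0 < μ) : (ms Λ B μ).Anch := fun x _ =>
  ⟨x, Relation.ReflTransGen.refl, Or.inr (by
    have : (ms Λ B μ).site x = gau μ⁻¹ := funext fun k => one_mul _
    rw [this]; exact gau_se hμ)⟩

theorem ms_amb (h : Λ.Ok) (B : Finset Pt) (hμ : 0 < μ) : Λ.Amb (ms Λ B μ) B :=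
  ⟨ms_ctr h B hμ, ms_anch Λ B hμ, Finset.Subset.refl _, fun _ _ => rfl⟩

theorem ms_cen (h : Λ.Ok) (B : Finset Pt) (hμ : 0 < μ) : Cen ((ms Λ B μ).W 0) :=
  (ms_ctr h B hμ).cen (ms_anch Λ B hμ)

theorem ms_add (Λ : Lat) (B : Finset Pt) (ν ν' : ℝ) :
    ms Λ B (ν + ν') = (ms Λ B ν).mulSite fun _ => gau ν'⁻¹ := by
  simp only [ms, Mdl.mulSite, mul_assoc, gau_mul]

/-- a bound valid for every smaller mass leaves the whole mass for the force `g` -/
theorem lim (h : Λ.Ok) (hμ : 0 < μ) {X : Cfg Pt →+ ℝ} {a : ℝ}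
    (H : ∀ ν, 0 < ν → ν < μ → M ((ms Λ B ν).W 0) X ≤ a) (g : Pt → ℝ) :
    M ((ms Λ B μ).W 0) (X + pr g) ≤ a + ip B g g / (2 * μ) := by
  have hc : ContinuousAt (fun ν : ℝ => a + ip B g g / (2 * (μ - ν))) 0 :=
    continuousAt_const.add (continuousAt_const.div (by fun_prop) (by simpa using hμ.ne'))
  have ht := hc.tendsto.mono_left (nhdsWithin_le_nhds (s := Set.Ioi 0))
  simp only [sub_zero] at ht
  refine ge_of_tendsto ht ?_
  filter_upwards [Ioo_mem_nhdsGT hμ] with ν hν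
  have h1 := M_mass (ms_ctr h B hν.1) (ms_anch Λ B hν.1) (sub_pos.2 hν.2) X g
  rw [← ms_add, add_sub_cancel] at h1
  exact h1.trans (add_le_add (H ν hν.1 hν.2) le_rfl)

theorem M_le (h : Λ.Ok) (hμ : 0 < μ) (f : Pt → ℝ) :
    M ((ms Λ B μ).W 0) (pr f) ≤ ip B f f / (2 * μ) := by
  simpa using lim (B := B) (X := 0) (a := 0) h hμ (fun ν hν _ => (ms_cen h B hν).wt.M_zero.le) f

theorem vr_le (h : Λ.Ok) (hμ : 0 < μ) (f : Pt → ℝ) :
    Vr ((ms Λ B μ).W 0) (pr f) (pr f) ≤ ip B f f / μ := by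
  have h1 := ((ms_cen h B hμ).vr_le_M (pr f)).trans (M_le h hμ f)
  rw [mul_comm, ← div_div] at h1
  linarith

theorem fu_eq (Λ : Lat) (L : ℕ) (θ μ t : ℝ) (u : Pt → ℝ) :
    t • pr (fu Λ L θ μ u) = Λ.X L ((t / θ) • u) + pr fun x => t * μ * (ind (x ∈ sq 0 L) * u x) := by
  rw [Lat.X, au_smul, ← pr_add, ← pr_smul]
  congr 1
  funext x
  simp only [fu, Pi.smul_apply, Pi.add_apply, smul_eq_mul]
  ring

theorem ip_le {L : ℕ} {u : Pt → ℝ} {K : ℝ} (hu : ∀ x ∈ sq 0 L, |u x| ≤ K) :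
    ip (sq 0 L) u u ≤ (L : ℝ) ^ 2 * K ^ 2 := by
  have := sum_le_card_nsmul (sq 0 L) (fun x => u x * u x) (K ^ 2) fun x hx => by
    rw [← pow_two, ← sq_abs]; exact pow_le_pow_left₀ (abs_nonneg _) (hu x hx) 2
  rwa [card_sq, nsmul_eq_mul, Nat.cast_pow] at this

theorem abs_ip_le {V : Type*} (B : Finset V) (u f : V → ℝ) (hμ : 0 < μ) :
    |ip B u f| ≤ μ * ip B u u + ip B f f / μ := by
  simp only [ip, mul_sum, sum_div, ← sum_add_distrib]
  refine (abs_sum_le_sum_abs _ _).trans (sum_le_sum fun x _ => ?_)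
  have e : μ * (u x * u x) + f x * f x / μ = ((μ * u x) ^ 2 + f x ^ 2) / μ := by field_simp
  rw [e, le_div_iff₀ hμ, ← abs_of_pos hμ, ← abs_mul, abs_of_pos hμ, abs_le]
  constructor <;> nlinarith [sq_nonneg (μ * u x + f x), sq_nonneg (μ * u x - f x), sq_nonneg (μ * u x),
    sq_nonneg (f x)]

/-- from the characteristic function to the variance -/
theorem low {V v K ε : ℝ} (hv : v ≤ K) (hε : 0 < ε)
    (h : Real.exp (-V / 2) ≤ Real.exp (-v / 2) + ε / 2 * Real.exp (-K / 2)) : v - ε ≤ V := by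
  have h1 : Real.exp (-K / 2) ≤ Real.exp (-v / 2) := Real.exp_le_exp.2 (by linarith)
  have h2 := Real.add_one_le_exp (ε / 2)
  have h3 : Real.exp (-V / 2) ≤ Real.exp (-v / 2 + ε / 2) := by
    rw [Real.exp_add]
    nlinarith [Real.exp_pos (-v / 2)]
  have := Real.exp_le_exp.1 h3
  linarith

end Gm19

open Gm19

/-- SITE -/
theorem siteStmt : SiteStmt := fun Λ B μ h hμ =>
  ⟨ms_amb h B hμ, fun f => ⟨M_le h hμ f, vr_le h hμ f⟩, fun A f g hA ha =>
    ⟨(M_mass ((h.ctr_N B).free hA) ha hμ (pr f) g).trans (add_le_add le_rfl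
      (div_le_div_of_nonneg_right (ip_mono hA g) (by positivity))),
    (vr_mass ((h.ctr_N B).free hA) ha hμ (pr f) g).trans (add_le_add le_rfl
      (div_le_div_of_nonneg_right (ip_mono hA g) hμ.le))⟩⟩

/-- MUP -/
theorem mupStmt (hx : T1xStmt) (hB : BrStmt) : MupStmt := by
  intro F K ε hε
  obtain ⟨δ, hδ, H⟩ := hx F (max K 4) ε hε
  refine ⟨δ, hδ, fun Λ hΛ l L hs μ u g φ hμ hu hφ => ?_⟩
  have hL : (0 : ℝ) ≤ L := Nat.cast_nonneg _
  have hK : K ≤ max K 4 := le_max_left _ _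
  have hu' : Sm2 u (max K 4) L := ⟨fun i x => (hu.1 i x).trans (by gcongr),
    fun i j x => (hu.2 i j x).trans (by gcongr)⟩
  refine (lim (ok hΛ) hμ (fun ν hν _ => H Λ hΛ l L hs _ (sq 0 L) u φ (ms_amb (ok hΛ) _ hν)
    (reg_sq hB l L (le_max_right _ _)) hu' fun e he => (hφ e he).trans (by gcongr)) g).trans
    (le_of_eq ?_)
  rw [mul_comm 2 μ, ← div_div]
  ring

/-- GM -/
theorem gmStmt (hP : PhmStmt) (hM : MupStmt) (hA : AFacStmt) (hR : RJStmt) (h1 : T1mStmt) :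
    GmStmt := by
  intro F θ₀ K ε hθ hK hε
  obtain ⟨C, hC0, hC⟩ := en_le hR F
  set K₁ : ℝ := C * K ^ 2 / (θ₀ / 2) + K * K ^ 2 + K with hK₁
  obtain ⟨R, ε₁, hR0, hε₁, H⟩ := hA.1 K₁ ε hε
  obtain ⟨δ₁, hδ₁, HM⟩ := hM F (R / (θ₀ / 2) * K) ε₁ hε₁
  obtain ⟨δ₂, hδ₂, HP⟩ := hP F θ₀ K (ε₁ / 2 * Real.exp (-K₁ / 2)) hθ hK (by positivity)
  obtain ⟨δ₃, hδ₃, HT⟩ := h1.2.2 F θ₀ 1 0 hθ one_pos
  refine ⟨min δ₁ (min δ₂ δ₃), lt_min hδ₁ (lt_min hδ₂ hδ₃),
    fun Λ hΛ l L hw μ u f hμ1 hμK hu hb hf => ?_⟩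
  have hL := win_L hw
  have hL' : (0 : ℝ) < L := by exact_mod_cast hL
  have hO := ok hΛ
  have hμ : 0 < μ := by
    by_contra hn
    nlinarith [mul_nonneg (neg_nonneg.2 (not_lt.1 hn)) (sq_nonneg (L : ℝ))]
  have hθl : θ₀ / 2 ≤ Λ.tN l :=
    (HT Λ hΛ l L (win_mono hw ((min_le_right _ _).trans (min_le_right _ _)))).2.1
  have hθ2 : 0 < θ₀ / 2 := half_pos hθ
  have hθp : 0 < Λ.tN l := hθ2.trans_le hθl
  have hE := hC Λ hΛ L u K hL hu
  have hE0 := en_nonneg hO (sq 0 L) u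
  have a1 : Λ.En (sq 0 L) u u / Λ.tN l ≤ C * K ^ 2 / (θ₀ / 2) := by gcongr
  have a0 : 0 ≤ Λ.En (sq 0 L) u u / Λ.tN l := div_nonneg hE0 hθp.le
  have b1 : μ * ip (sq 0 L) u u ≤ K * K ^ 2 := by
    refine (mul_le_mul_of_nonneg_left (ip_le hb) hμ.le).trans ?_
    rw [← mul_assoc]; gcongr
  have b0 : 0 ≤ μ * ip (sq 0 L) u u := mul_nonneg hμ.le (ip_nonneg _ _)
  have c1 : ip (sq 0 L) f f / μ ≤ K := (div_le_iff₀ hμ).2 hf
  have c0 : 0 ≤ ip (sq 0 L) f f / μ := div_nonneg (ip_nonneg _ _) hμ.le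
  have hv : vu Λ L (Λ.tN l) μ u ≤ K₁ := by rw [vu]; linarith
  have hv0 : 0 ≤ vu Λ L (Λ.tN l) μ u := add_nonneg a0 b0
  have hc := ms_cen hO (sq 0 L) hμ
  have key := H _ ((ms Λ (sq 0 L) μ).W 0) (pr (fu Λ L (Λ.tN l) μ u)) (pr f) (vu Λ L (Λ.tN l) μ u)
    (ip (sq 0 L) u f) (ip (sq 0 L) f f / μ) hc (by rwa [abs_of_nonneg hv0])
    ((abs_ip_le _ u f hμ).trans (by linarith)) (by rw [abs_of_nonneg c0]; linarith)
    (fun t z ht hz => by
      have h2 := HM Λ hΛ l L (win_mono hw (min_le_left _ _)).2.1 μ ((t / Λ.tN l) • u)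
        ((fun x => t * μ * (ind (x ∈ sq 0 L) * u x)) + z • f) (fun _ => 0) hμ
        (sm2_smul hu hL' (by rw [abs_div, abs_of_pos hθp]; gcongr))
        fun e _ => by rw [abs_zero]; positivity
      rw [dv_zero, pr_zero, add_zero, pr_add, pr_smul, ← add_assoc, ← fu_eq, en_smul] at h2
      refine h2.trans (le_of_eq ?_)
      have e : ip (sq 0 L) ((fun x => t * μ * (ind (x ∈ sq 0 L) * u x)) + z • f)
          ((fun x => t * μ * (ind (x ∈ sq 0 L) * u x)) + z • f) =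
          (t * μ) ^ 2 * ip (sq 0 L) u u + 2 * (t * μ) * z * ip (sq 0 L) u f +
            z ^ 2 * ip (sq 0 L) f f := by
        simp only [ip, mul_sum, ← sum_add_distrib]
        refine sum_congr rfl fun x hx => ?_
        simp only [Pi.add_apply, Pi.smul_apply, smul_eq_mul, ind_pos hx]
        ring
      rw [e, vu]
      simp only [zero_mul, sum_const_zero, mul_zero, add_zero, ne_eq, OfNat.ofNat_ne_zero,
        not_false_eq_true, zero_pow]
      field_simp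
      ring)
    (low hv hε₁ ((hc.ph_ge _).trans (HP Λ hΛ l L
      (win_mono hw ((min_le_right _ _).trans (min_le_left _ _))) μ u hμ1 hμK hu hb)))
  exact ⟨key.1, key.2.1⟩

end Crest.Agent.T145.Mx
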