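import Crest.Agent.T145.MxDl_31
import Crest.Agent.T145.MxGm_19

/-!
# Row 145, module Mx: DL with an arbitrary pinned set; MIXA and RING on the lattice (helper31)
-/

set_option autoImplicit false

namespace Crest.Agent.T145

open Finset

namespace Mx31

open Mx

/-- DL, general form: the free square pinned on any set `S` far from the support of `u` -/
def DlGenStmt : Prop := ∀ α : ℝ, 0 < α → Soft fun Λ K ε _ l L => ∀ (u : Pt → ℝ) (S T : Finset Pt),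
  Sm2 u K L → (∀ x ∈ sq 0 L, |u x| ≤ K) → (∀ x ∈ sq 0 L, u x ≠ 0 → ∀ y ∈ bl x Λ.rg, y ∈ sq 0 L → y ∈ T) →
    Far (α * L) S T → (∃ x ∈ S, x ∈ sq 0 L) →
    Λ.tN l * Λ.En (sq 0 L) u u - ε ≤
      Vr (((Λ.N (sq 0 L)).free (sq 0 L \ S)).W 0) (Λ.X L u) (Λ.X L u)

variable {Λ : Lat} {L : ℕ} {θ μ q : ℝ} {u : Pt → ℝ} {Q U : Finset Pt} {m : Mdl Pt}

theorem fu_off {T : Finset Pt}
    (hT : ∀ x ∈ sq 0 L, u x ≠ 0 → ∀ y ∈ bl x Λ.rg, y ∈ sq 0 L → y ∈ T) : Sup T (fu Λ L θ μ u) :=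
  fun x hx => by
    by_cases k : x ∈ sq 0 L
    · have z : ∀ y ∈ sq 0 L, x ∈ bl y Λ.rg → u y = 0 := fun y hy j => by
        by_contra k'
        exact hx (hT y hy k' x j k)
      have : Λ.Au (sq 0 L) u x = 0 := by
        refine sum_eq_zero fun e he => ?_
        beta_reduce
        obtain ⟨j, j1, j2⟩ := Lat.mem_edI.1 he
        by_cases k2 : e.2 = x
        · rw [z e.2 j2 (k2 ▸ self_mem_bl _ _), z e.1 j1 (k2 ▸ Lat.edge_near j)]; simp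
        by_cases k1 : e.1 = x
        · rw [z e.1 j1 (k1 ▸ self_mem_bl _ _), z e.2 j2 (k1 ▸ Lat.edge_near' j)]; simp
        rw [ind_neg k1, ind_neg k2]; simp
      rw [fu, this, z x k (self_mem_bl _ _)]; simp
    · rw [fu, Λ.sup_Au _ u x k, ind_neg k]; simp

theorem anch_pin (h : Λ.Ok) {a : Pt} {S : Finset Pt} (hS : ∃ x ∈ S, x ∈ sq a L) :
    ((Λ.N (sq a L)).free (sq a L \ S)).Anch := fun _ hx =>
  let ⟨y, hy, hy'⟩ := hS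
  ⟨y, h.conn_sq (mem_sdiff.1 hx).1 hy', Or.inl fun k => (mem_sdiff.1 k).2 hy⟩

theorem dl_core' (h : Λ.Ok) (hμ : 0 < μ) {S T : Finset Pt} (hT : Sup T (fu Λ L θ μ u))
    (hS : ∃ x ∈ S, x ∈ sq 0 L) {b : ℝ}
    (hq : (Pr ((ms Λ (sq 0 L) μ).J 0 0) fun p => Cross S T p.2) ≤ q)
    (hb : Ex ((ms Λ (sq 0 L) μ).W 0) (fun s => pr (fu Λ L θ μ u) s ^ 4) ≤ b) :
    Vr ((ms Λ (sq 0 L) μ).W 0) (pr (fu Λ L θ μ u)) (pr (fu Λ L θ μ u)) ≤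
      θ⁻¹ ^ 2 * Vr (((Λ.N (sq 0 L)).free (sq 0 L \ S)).W 0) (Λ.X L u) (Λ.X L u) +
        μ * ip (sq 0 L) u u + Real.sqrt b * Real.sqrt q := by
  obtain ⟨am, -, s2⟩ := siteStmt Λ (sq 0 L) μ h hμ
  refine (vr_le_free am.1 am.2.1 S hT).trans (add_le_add ?_ (mul_le_mul (Real.sqrt_le_sqrt hb)
    (Real.sqrt_le_sqrt hq) (Real.sqrt_nonneg _) (Real.sqrt_nonneg _)))
  rw [pr_fu]
  refine (s2 _ _ _ sdiff_subset (anch_pin h hS)).2.trans (add_le_add (le_of_eq ?_) (le_of_eq ?_))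
  · rw [pr_smul, Vr_smul_smul]; rfl
  · rw [div_eq_iff hμ.ne', ip, ip, mul_sum, sum_mul]
    exact sum_congr rfl fun x hx => by rw [ind_pos hx]; ring

theorem En_sq_le {K C : ℝ} (h : Λ.Ok) (hL : 1 ≤ L) (hu : Sm2 u K L) (c1 : 1 / Λ.τ ≤ C)
    (c2 : (Λ.rg : ℝ) ≤ C) (c3 : (Λ.Jp.card : ℝ) ≤ C) : Λ.En (sq 0 L) u u ≤ 16 * K ^ 2 * C ^ 4 :=
  (D74.En_le smStmt h hL hu (brStmt.2.2.2.2.2.1 0 L L 0 L 1 le_rfl
    (by rw [one_mul]) (by rw [one_mul])) c1 c2 c3).trans_eq (by ring)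

theorem ip_le {K : ℝ} (hu : ∀ x ∈ sq 0 L, |u x| ≤ K) : ip (sq 0 L) u u ≤ (L : ℝ) ^ 2 * K ^ 2 := by
  refine (sum_le_card_nsmul _ _ _ fun x hx => ?_).trans_eq
    (by rw [card_sq, nsmul_eq_mul, Nat.cast_pow])
  rw [← pow_two, ← sq_abs]
  exact pow_le_pow_left₀ (abs_nonneg _) (hu x hx) 2

theorem four_of_gs {G : Type*} [AddCommGroup G] {W : G → ℝ} (h : Cen W) (f : G →+ ℝ) {v B : ℝ}
    (hB : 1 ≤ B) (hv : v ≤ B) (hM : ∀ t : ℝ, |t| ≤ 1 → M W (t • f) ≤ t ^ 2 * v / 2 + 1 / 2) :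
    Ex W (fun s => f s ^ 4) ≤ (9 * B) ^ 2 := by
  have t2 : (Real.sqrt B)⁻¹ ^ 2 = B⁻¹ := by rw [inv_pow, Real.sq_sqrt (by linarith)]
  have g := hM (Real.sqrt B)⁻¹ (by
    rw [abs_of_nonneg (by positivity)]
    exact inv_le_one_of_one_le₀ (Real.one_le_sqrt.2 hB))
  have a : B⁻¹ * v ≤ 1 := by rw [inv_mul_le_iff₀ (by linarith), mul_one]; exact hv
  have := four_of_M h f (b := 1) (t := (Real.sqrt B)⁻¹) (by rw [t2] at g; linarith)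
  rw [show (Real.sqrt B)⁻¹ ^ 4 = ((Real.sqrt B)⁻¹ ^ 2) ^ 2 by ring, t2, inv_pow,
    inv_mul_le_iff₀ (by positivity)] at this
  nlinarith [Real.exp_one_lt_d9, sq_nonneg B]

/-- **DL, general form** -/
theorem dlGen (hM : Mix0Stmt) (hG : GmStmt) (ha : T1aStmt) (hm : T1mStmt) : DlGenStmt := by
  refine fun α hα => Soft.of_ev fun F θ₀ K ε h0 hK hε => ?_
  obtain ⟨C, hC1, hC⟩ := F.exists_bound
  obtain ⟨K₀, hK₀, k1⟩ := hM F θ₀ α h0 hα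
  obtain ⟨_, k4⟩ := ha F
  obtain ⟨b, hb⟩ : ∃ b : ℝ, b = 2 * (16 * K ^ 2 * C ^ 4) / θ₀ + K ^ 2 := ⟨_, rfl⟩
  have b0 : 0 ≤ 2 * (16 * K ^ 2 * C ^ 4) / θ₀ := by positivity
  have b1 : 1 ≤ b := by nlinarith
  obtain ⟨R, hR1, hR2⟩ : ∃ R : ℝ, K₀ ≤ R ∧ 18 * b / ε ≤ R := ⟨_, le_max_left _ _, le_max_right _ _⟩
  have R1 : 1 ≤ R := hK₀.trans hR1
  obtain ⟨δ₁, d1, k2⟩ := k1 R
  have k3 := Soft.ev hG F (K := max K R) (ε := min (ε / 2) (1 / 2)) h0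
    (hK.trans (le_max_left _ _)) (by positivity)
  filter_upwards [k3, ev_win hm F h0 one_pos, ev_le d1] with δ e1 e2 e3
  intro Λ hΛ l L hW u S T hu ub hT hF hS
  have h := hΛ.ok
  obtain ⟨-, c1, -, -, -, c2, -, c3⟩ := hC Λ hΛ
  have L0 := hW.L_pos'
  have θ1 := (e2 Λ hΛ l _ hW).2
  have θ2 := (k4 Λ hΛ l hW.one_le_l).2.1
  generalize hθ : Λ.tN l = θ at θ1 θ2 ⊢
  have θ0 : 0 < θ := by linarith
  obtain ⟨μ, hμ⟩ : ∃ μ : ℝ, μ * (L : ℝ) ^ 2 = R := ⟨R / _, div_mul_cancel₀ _ (by positivity)⟩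
  have μ0 : 0 < μ := (mul_pos_iff_of_pos_right (pow_pos L0 2)).1 (by linarith)
  have hv : vu Λ L θ μ u ≤ b * R := by
    have a1 : Λ.En (sq 0 L) u u / θ ≤ 2 * (16 * K ^ 2 * C ^ 4) / θ₀ := by
      rw [div_le_div_iff₀ θ0 h0]
      have : 0 ≤ 16 * K ^ 2 * C ^ 4 := by positivity
      nlinarith [En_sq_le h hW.one_le_L hu c1 c2 c3]
    have a3 := mul_le_mul_of_nonneg_left (ip_le ub) μ0.le
    rw [← mul_assoc, hμ] at a3
    rw [vu, hb]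
    nlinarith
  have gm : ∀ t : ℝ, |t| ≤ 1 → Gs3 ((ms Λ (sq 0 L) μ).W 0) (t • pr (fu Λ L θ μ u))
      (t ^ 2 * vu Λ L θ μ u) (min (ε / 2) (1 / 2)) := fun t ht => by
    have K' : |t| * K ≤ max K R := le_trans (by nlinarith [abs_nonneg t]) (le_max_left _ _)
    have := (e1 Λ hΛ l _ hW μ (t • u) 0 (hμ ▸ R1) (hμ ▸ le_max_right _ _)
      (D74.sm_mono (D74.sm_smul hu t) L0 K') (fun x hx => ?_) ?_).1
    · rwa [hθ, fu_smul, vu_smul, pr_smul] at this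
    · rw [Pi.smul_apply, smul_eq_mul, abs_mul]
      exact (mul_le_mul_of_nonneg_left (ub x hx) (abs_nonneg t)).trans K'
    · simp only [ip, Pi.zero_apply, mul_zero, sum_const_zero]
      positivity
  have f4 := four_of_gs (siteStmt Λ (sq 0 L) μ h μ0).1.cen (pr (fu Λ L θ μ u)) (B := b * R)
    (by nlinarith) hv
    fun t ht => by linarith [(abs_le.1 (gm t ht).2.1).2, min_le_right (ε / 2) (1 / 2)]
  have core := dl_core' h μ0 (fu_off hT) hS (q := (1 / R ^ 2) ^ 2)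
    ((k2 Λ hΛ l _ (hW.mono_d e3) μ 0 S T (hμ ▸ hR1) hμ.le hF).trans_eq (by rw [hμ]; ring)) f4
  have g := (abs_le.1 (gm 1 (by simp)).1).1
  rw [one_smul, one_pow, one_mul, vu] at g
  rw [Real.sqrt_sq (by positivity), Real.sqrt_sq (by positivity)] at core
  have a : 9 * (b * R) * (1 / R ^ 2) ≤ ε / 2 := by
    rw [div_le_iff₀ hε] at hR2
    rw [show 9 * (b * R) * (1 / R ^ 2) = 9 * b / R by field_simp, div_le_iff₀ (by linarith)]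
    linarith
  generalize Vr (((Λ.N (sq 0 L)).free (sq 0 L \ S)).W 0) (Λ.X L u) (Λ.X L u) = V at core ⊢
  have k : Λ.En (sq 0 L) u u / θ - ε ≤ θ⁻¹ ^ 2 * V := by linarith [min_le_left (ε / 2) (1 / 2)]
  have k' := mul_le_mul_of_nonneg_left k (sq_nonneg θ)
  rw [← mul_assoc, ← mul_pow, mul_inv_cancel₀ θ0.ne', one_pow, one_mul, mul_sub,
    show θ ^ 2 * (Λ.En (sq 0 L) u u / θ) = θ * Λ.En (sq 0 L) u u by field_simp] at k'
  have : θ ^ 2 * ε ≤ ε := mul_le_of_le_one_left hε.le (by nlinarith)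
  linarith

/-! ## MIXA and RING -/

theorem ms_site (x : Pt) (k : ℤ) : (ms Λ Q μ).site x k = gau μ⁻¹ k := one_mul _

/-- `m` agrees with the massive free model on `Q` near `U` -/
theorem agr_of (hU : U ⊆ Q) (h1 : Λ.edI Q ⊆ m.ed) (h2 : ∀ e ∈ Λ.edI Q, m.w e = Λ.w)
    (h3 : ∀ e ∈ m.ed, e.1 ∈ U ∨ e.2 ∈ U → e ∈ Λ.edI Q) (h4 : U ⊆ m.A)
    (h5 : ∀ x ∈ U, ∀ k, m.site x k = gau μ⁻¹ k)
    (h6 : ∀ x ∈ Q, x ∈ m.A → ∃ u : ℤ → ℝ, PD u ∧ (∀ k, 0 ≤ u k) ∧ 0 < u 0 ∧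
      ∀ k, m.site x k = gau μ⁻¹ k * u k) : Agr m (ms Λ Q μ) U where
  sub := h1
  w := h2
  ends := fun _ he => ⟨fun _ => (Lat.mem_edI.1 he).2.1, fun _ => (Lat.mem_edI.1 he).2.2⟩
  site := fun x hx hx' => by
    obtain ⟨u, k1, k2, k3, k4⟩ := h6 x hx hx'
    exact ⟨u, k1, k2, k3, fun k => by rw [k4, ms_site]⟩
  pos := fun x _ k => by rw [ms_site]; exact Real.exp_pos _
  Um := h4
  UP := hU
  Ued := h3
  Usite := fun x hx k => by rw [h5 x hx, ms_site]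

/-- the same when the site weight is the plain mass on all of `Q` -/
theorem agr_of' (hU : U ⊆ Q) (h1 : Λ.edI Q ⊆ m.ed) (h2 : ∀ e ∈ Λ.edI Q, m.w e = Λ.w)
    (h3 : ∀ e ∈ m.ed, e.1 ∈ U ∨ e.2 ∈ U → e ∈ Λ.edI Q) (h4 : U ⊆ m.A)
    (h5 : ∀ x ∈ Q, x ∈ m.A → ∀ k, m.site x k = gau μ⁻¹ k) : Agr m (ms Λ Q μ) U :=
  agr_of hU h1 h2 h3 h4 (fun x hx => h5 x (hU hx) (h4 hx)) fun x hx hx' =>
    ⟨fun _ => 1, pd_one, fun _ => zero_le_one, one_pos, fun k => by rw [h5 x hx hx', mul_one]⟩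

theorem far_bl (Q : Finset Pt) (z : Pt) {r r' : ℕ} {d : ℝ} (h : d + r ≤ r' + 1) :
    Far d (Q \ (Q ∩ bl z r')) (Q ∩ bl z r) := fun x hx y hy => by
  have h1 : x ∉ bl z r' := fun k => (mem_sdiff.1 hx).2 (mem_inter.2 ⟨(mem_sdiff.1 hx).1, k⟩)
  have h2 := (mem_inter.1 hy).2
  have : (r' : ℤ) + 1 - r ≤ |(x - y).1| ∨ (r' : ℤ) + 1 - r ≤ |(x - y).2| := by
    simp only [mem_bl, Prod.fst_sub, Prod.snd_sub, le_abs] at h1 h2 ⊢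
    omega
  simp only [co, Matrix.cons_val_zero, Matrix.cons_val_one]
  refine this.imp (fun k => ?_) fun k => ?_ <;>
  · have k' : ((((r' : ℤ) + 1 - r : ℤ)) : ℝ) ≤ _ := Int.cast_le.2 k
    rw [Int.cast_abs] at k'
    push_cast at k' ⊢
    linarith

/-- MIX0 at fixed scales -/
def Mx1 (Λ : Lat) (μ : ℝ) (L : ℕ) (d q : ℝ) : Prop := ∀ (a : Pt) (S S' : Finset Pt), Far d S S' →
  (Pr ((ms Λ (sq a L) μ).J 0 0) fun p => Cross S S' p.2) ≤ q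

/-- **MIXA** on the lattice: balls of radii `r, 2 r, 3 r, 4 r` cut with the box -/
theorem mixa (h : Λ.Ok) (hμ : 0 < μ) (hm : m.Ctr) (hA : m.Anch) {r : ℕ} {d : ℝ} {a z : Pt}
    (hr : Λ.rg ≤ r) (hd : d ≤ r) (hq : q ≤ 1 / 2) (k : Mx1 Λ μ L d q)
    (hg : Agr m (ms Λ (sq a L) μ) (sq a L ∩ bl z (4 * r))) :
    Pr (m.J 0 0) (fun p => Lx (sq a L ∩ bl z r) (sq a L ∩ bl z (2 * r)) p.2) ≤ 2 * q := by
  obtain ⟨c, an, -⟩ := (siteStmt Λ (sq a L) μ h hμ).1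
  refine hg.lx_le (B := sq a L ∩ bl z (3 * r)) hm hA c an inter_subset_left
    (inter_subset_inter_left (bl_mono z (by omega))) (fun e he k => ?_) hq
    (k a _ _ (far_bl _ z (by push_cast; linarith))) (k a _ _ (far_bl _ z (by push_cast; linarith)))
  have s : sq a L ∩ bl z (2 * r) ⊆ sq a L ∩ bl z (4 * r) :=
    inter_subset_inter_left (bl_mono z (by omega))
  have he' : e ∈ Λ.edI (sq a L) := hg.Ued e he (k.imp (@s _) (@s _))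
  obtain ⟨j, j1, j2⟩ := Lat.mem_edI.1 he'
  have s3 : bl z (2 * r) ⊆ bl z (3 * r) := bl_mono z (by omega)
  refine ⟨he', mem_inter.2 ⟨j1, ?_⟩, mem_inter.2 ⟨j2, ?_⟩⟩
  · rcases k with k | k
    · exact s3 (mem_inter.1 k).2
    · exact bl_subset_bl (mem_inter.1 k).2 (by omega) (Lat.edge_near' j)
  · rcases k with k | k
    · exact bl_subset_bl (mem_inter.1 k).2 (by omega) (Lat.edge_near j)
    · exact s3 (mem_inter.1 k).2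

/-- **RING**: a crossing of the level `d₀` of `D` is a local crossing in one of the agreeing boxes -/
theorem ring_le (h : Λ.Ok) (hμ : 0 < μ) (hm : m.Ctr) (hA : m.Anch) {r : ℕ} {d : ℝ}
    (hr : Λ.rg ≤ r) (hd : d ≤ r) (hq : q ≤ 1 / 2) (k : Mx1 Λ μ L d q)
    {S S' : Finset Pt} {D : Pt → ℝ} {ρ d₀ : ℝ}
    (hD : ∀ e ∈ m.ed, |D e.1 - D e.2| ≤ ρ) (hS : ∀ x ∈ S, D x < d₀) (hS' : ∀ x ∈ S', d₀ ≤ D x)
    {ι : Type*} (T : Finset ι) (a z : ι → Pt)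
    (hg : ∀ i ∈ T, Agr m (ms Λ (sq (a i) L) μ) (sq (a i) L ∩ bl (z i) (4 * r)) ∧
      (Disjoint S (sq (a i) L ∩ bl (z i) (2 * r)) ∨ Disjoint S' (sq (a i) L ∩ bl (z i) (2 * r))))
    (hT : ∀ e ∈ m.ed, ∀ x, x = e.1 ∨ x = e.2 → d₀ ≤ D x → D x < d₀ + ρ →
      ∃ i ∈ T, x ∈ sq (a i) L ∩ bl (z i) r) :
    Pr (m.J 0 0) (fun p => Cross S S' p.2) ≤ T.card * (2 * q) := by
  refine (ring (Mx.wtJ hm hA) hD hS hS' T (I := fun i => sq (a i) L ∩ bl (z i) r)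
    (B := fun i => sq (a i) L ∩ bl (z i) (2 * r)) fun e he x hx k k' => ?_).trans ?_
  · obtain ⟨i, hi, j⟩ := hT e he x hx k k'
    exact ⟨i, hi, j, (hg i hi).2⟩
  · rw [← nsmul_eq_mul]
    exact sum_le_card_nsmul _ _ _ fun i hi => mixa h hμ hm hA hr hd hq k (hg i hi).1

end Mx31

end Crest.Agent.T145
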