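import Crest.Agent.T145.KvDef_8
import Crest.Agent.T145.MxRg_31

/-!
# Row 145, module Kv: DL for glued pieces (helper68)
-/

set_option autoImplicit false

namespace Crest.Agent.T145.Kv

open Finset

namespace Dl68

theorem three {M : Type*} [AddCommGroup M] (B : M → M → ℝ) (hl : ∀ a b c, B (a + b) c = B a c + B b c)
    (hs : ∀ a b, B a b = B b a) (a b c : M) : B (a + b + c) (a + b + c) =
      3 * (B a a + B b b + B c c) - B (a - b) (a - b) - B (a - c) (a - c) - B (b - c) (b - c) := by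
  have h1 : ∀ a b c, B (a - b) c = B a c - B b c := fun a b c => by
    rw [eq_sub_iff_add_eq, ← hl, sub_add_cancel]
  have h2 : ∀ a b c, B c (a + b) = B c a + B c b := fun a b c => by rw [hs, hl, hs a, hs b]
  have h3 : ∀ a b c, B c (a - b) = B c a - B c b := fun a b c => by rw [hs, h1, hs a, hs b]
  simp only [hl, h1, h2, h3]
  rw [hs b a, hs c a, hs c b]
  ring

variable {Λ : Lat} {V : Gv} {W : ℝ}

theorem Jp_eq (hJ : Λ.J = nn) : Λ.Jp = Pot.nL.Jp := by rw [Lat.Jp, hJ]; rfl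
theorem edI_eq (hJ : Λ.J = nn) (D : Finset Pt) : Λ.edI D = Pot.nL.edI D := by
  ext e; rw [Lat.mem_edI, Lat.mem_edI, Jp_eq hJ]
theorem rg_eq (hJ : Λ.J = nn) : Λ.rg = 1 := by rw [Lat.rg, hJ]; exact Pot.nL_rg
theorem a_eq (hJ : Λ.J = nn) : Λ.a = 1 := by rw [Lat.a, Jp_eq hJ]; exact Pot.nL_a

theorem step {e : Pt × Pt} (h : e.2 - e.1 ∈ Pot.nL.Jp) :
    (e.2.1 = e.1.1 + 1 ∧ e.2.2 = e.1.2) ∨ (e.2.1 = e.1.1 ∧ e.2.2 = e.1.2 + 1) := by
  simp only [Pot.nL_Jp, mem_insert, mem_singleton, Prod.ext_iff, Prod.fst_sub, Prod.snd_sub] at h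
  omega

theorem X_apply (V : Gv) (u : Pt → ℝ) (s : Cfg Pt) : V.X u s = ∑ e ∈ V.EA, V.Gk e u * (V.gk e s : ℝ) := by
  rw [Gv.X, gfl, AddMonoidHom.finsetSum_apply]; rfl

theorem X_add (V : Gv) (u v : Pt → ℝ) : V.X (u + v) = V.X u + V.X v := AddMonoidHom.ext fun s => by
  simp only [AddMonoidHom.add_apply, X_apply, map_add, add_mul, sum_add_distrib]

/-- the points of `P` with `bl (x + a) d ⊆ U` -/
noncomputable def dp (P U : Finset Pt) (a : Pt) (d : ℕ) : Finset Pt :=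
  @filter _ (fun x => bl (x + a) d ⊆ U) (Classical.decPred _) P

theorem mem_dp {P U : Finset Pt} {a x : Pt} {d : ℕ} : x ∈ dp P U a d ↔ x ∈ P ∧ bl (x + a) d ⊆ U := by
  simp only [dp, mem_filter]

theorem mem_dp0 {P U : Finset Pt} {x : Pt} {d : ℕ} : x ∈ dp P U 0 d ↔ x ∈ P ∧ bl x d ⊆ U := by
  rw [mem_dp, add_zero]

theorem dp_sub {P U : Finset Pt} {a : Pt} {d : ℕ} : dp P U a d ⊆ P := fun _ h => (mem_dp.1 h).1

/-- one piece: a more localised model, and only the edges inside `D` matter -/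
theorem key (hΛ : Λ.Ok) (hJ : Λ.J = nn) (hE : V.Ext Λ) (k1 : V.k1 ∉ V.G.A) (k2 : V.k2 ∉ V.G.A)
    {D : Finset Pt} {u v : Pt → ℝ} (v1 : v V.k1 = 0) (v2 : v V.k2 = 0) (hs : Λ.edI D ⊆ V.EA)
    (h0 : ∀ e ∈ V.EA, e ∉ Λ.edI D → v e.2 - v e.1 = 0) (h1 : ∀ x ∈ D, v x = u x) {m : Mdl Pt}
    (hc : Cen (m.W 0)) (hl : Loc (m.W 0) ((V.m0 Λ).W 0)) {l : ℕ} {ε : ℝ}
    (h : Λ.tN l * Λ.En D u u - ε ≤ Vr (m.W 0) (pr (Λ.Au D u)) (pr (Λ.Au D u))) :
    Λ.gN l * Pot.edF V.EA v v - Λ.τ ^ 2 * ε ≤ Vr ((V.m0 Λ).W 0) (V.X v) (V.X v) := by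
  have τ0 := hΛ.pos
  have h2 : ∀ e ∈ Λ.edI D, v e.2 - v e.1 = u e.2 - u e.1 := fun e he => by
    rw [h1 _ (Lat.mem_edI.1 he).2.1, h1 _ (Lat.mem_edI.1 he).2.2]
  have e1 : ∀ s, (V.m0 Λ).W 0 s ≠ 0 → V.X v s = (Λ.τ • pr (Λ.Au D u)) s := fun s hs' => by
    have a1 : s V.k1 = 0 := Md.W_off hs' _ k1
    have a2 : s V.k2 = 0 := Md.W_off hs' _ k2
    rw [AddMonoidHom.smul_apply, Lat.Au, pr_dv, X_apply, smul_eq_mul, mul_sum]
    simp only [Gv.Gk, Gv.gk, LinearMap.add_apply, LinearMap.smul_apply, LinearMap.proj_apply, v1, v2,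
      smul_zero, add_zero, Pot.dr_apply, AddMonoidHom.add_apply, AddMonoidHom.sub_apply,
      AddMonoidHom.smul_apply, Finsupp.applyAddHom_apply, a1, a2]
    rw [← sum_subset hs fun e he he' => by rw [h0 e he he', zero_mul]]
    exact sum_congr rfl fun e he => by rw [h2 e he, dE]; field_simp
  have e2 : Pot.edF V.EA v v = Λ.τ * Λ.En D u u := by
    rw [Pot.edF_apply, ← sum_subset hs fun e he he' => by rw [h0 e he he', zero_mul], Lat.En, mul_sum]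
    exact sum_congr rfl fun e he => by rw [h2 e he]; field_simp
  have := mul_le_mul_of_nonneg_left (h.trans (hl.Vr_le hc (hE.m0.1.cen hE.m0.2) _)) (sq_nonneg Λ.τ)
  rw [Vr_congr e1 e1, Vr_smul_smul, e2, Lat.gN, Lat.e0, a_eq hJ]
  refine le_trans (le_of_eq ?_) this
  field_simp

/-- the general Dirichlet limit in a translated square, pinned on the rim of `U` -/
theorem shift (hΛ : Λ.Ok) (hJ : Λ.J = nn) {θ ε K α : ℝ} {n d : ℕ}
    (H : ∀ (u : Pt → ℝ) (S T : Finset Pt), Sm2 u K n → (∀ x ∈ sq 0 n, |u x| ≤ K) →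
      (∀ x ∈ sq 0 n, u x ≠ 0 → ∀ y ∈ bl x Λ.rg, y ∈ sq 0 n → y ∈ T) → Mx.Far (α * n) S T →
      (∃ x ∈ S, x ∈ sq 0 n) → θ * Λ.En (sq 0 n) u u - ε ≤
        Vr (((Λ.N (sq 0 n)).free (sq 0 n \ S)).W 0) (Λ.X n u) (Λ.X n u))
    {a : Pt} {u : Pt → ℝ} {U : Finset Pt} (hu : Sm2 u K n) (hb : ∀ x, |u x| ≤ K)
    (hs : ∀ x, u x ≠ 0 → bl x (d + 1) ⊆ U) (hd : α * n ≤ d) (hx : ∃ x ∈ sq a n, ¬ bl x 1 ⊆ U) :
    θ * Λ.En (sq a n) u u - ε ≤ Vr (((Λ.N (sq a n)).free (dp (sq a n) U 0 1)).W 0)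
      (pr (Λ.Au (sq a n) u)) (pr (Λ.Au (sq a n) u)) := by
  have hm : (sq 0 n).map (Equiv.addRight a).toEmbedding = sq a n := by rw [map_sq_add, zero_add]
  have ms : ∀ x, x ∈ sq 0 n ↔ x + a ∈ sq a n := fun x => by
    simp only [mem_sq, Prod.fst_add, Prod.snd_add, Prod.fst_zero, Prod.snd_zero]; omega
  have k := H _ (sq 0 n \ dp (sq 0 n) U a 1) (dp (sq 0 n) U a d)
    (D74.sm_shift hu a) (fun x _ => hb _)
    (fun x _ h y hy hy' => mem_dp.2 ⟨hy', (bl_subset_bl (d := 1) (by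
      rw [rg_eq hJ] at hy
      simp only [mem_bl, Prod.fst_add, Prod.snd_add] at hy ⊢; omega) le_rfl).trans (hs _ h)⟩)
    (fun x hx y hy => by
      have : (d : ℤ) ≤ |(x - y).1| ∨ (d : ℤ) ≤ |(x - y).2| := by
        by_contra c
        refine (mem_sdiff.1 hx).2 (mem_dp.2 ⟨(mem_sdiff.1 hx).1,
          Subset.trans (fun z hz => ?_) (mem_dp.1 hy).2⟩)
        simp only [mem_bl, Prod.fst_add, Prod.snd_add, Prod.fst_sub, Prod.snd_sub, le_abs] at hz c ⊢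
        omega
      simp only [co, Matrix.cons_val_zero, Matrix.cons_val_one]
      exact this.imp (fun k => hd.trans (by exact_mod_cast k)) fun k => hd.trans (by exact_mod_cast k))
    (by
      obtain ⟨x, h1, h2⟩ := hx
      have : x - a ∈ sq 0 n := (ms _).2 (by rwa [sub_add_cancel])
      exact ⟨x - a, mem_sdiff.2 ⟨this, fun c => h2 (by simpa using (mem_dp.1 c).2)⟩, this⟩)
  rw [Finset.sdiff_sdiff_eq_self dp_sub] at k
  have hI := ((Λ.sym_add a).iso_N hΛ (sq 0 n)).free (A := dp (sq 0 n) U a 1) dp_sub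
  have h2 : (dp (sq 0 n) U a 1).map (Equiv.addRight a).toEmbedding = dp (sq a n) U 0 1 := by
    ext x
    obtain ⟨y, rfl⟩ : ∃ y, x = y + a := ⟨x - a, (sub_add_cancel _ _).symm⟩
    rw [mem_dp0, ← ms, ← mem_dp]
    exact mem_map' (Equiv.addRight a).toEmbedding
  rw [h2, hm] at hI
  rw [hI.Vr_pr ((hΛ.ctr_N _).1.free _), ← hm, D74.En_shift]
  simpa only [Lat.X, Equiv.coe_addRight, D74.Au_shift] using k

theorem A_sub (h : V.Ok W) : V.G.A ⊆ V.G.Om := by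
  have := h.g.hc
  have := h.g.out
  exact sdiff_subset_sdiff (bl_mono _ (by omega)) (bl_mono _ (by omega))

theorem ul_sub (g : V.Geo) : V.up ∪ V.lo ⊆ V.G.A := by
  have := g.r_le
  have := g.rho_le
  exact g.ul_sub.trans (sdiff_subset_sdiff (bl_mono _ (by omega)) (bl_mono _ (by omega)))

theorem EA_of (h : V.Ok W) (g : V.Geo) {D : Finset Pt} (hD : D ⊆ V.G.A)
    (k : ∀ x ∈ D, x + (0, 1) ∈ D → x ∈ V.lip → x.2 ≠ -1) : Pot.nL.edI D ⊆ V.EA := fun e he => by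
  obtain ⟨j, j1, j2⟩ := Lat.mem_edI.1 he
  have : e ∈ V.EO := by
    by_contra c
    obtain ⟨c1, c2, c3⟩ := (g.slit e (Lat.edI_mono (hD.trans (A_sub h)) he)).1 c
    exact k _ j1 (c3 ▸ j2) c1 c2
  exact mem_filter.2 ⟨Lat.mem_edT.2 ⟨j, Or.inl (hD j1)⟩, (mem_filter.1 this).2⟩

theorem EA_I (g : V.Geo) : V.EA ⊆ Pot.nL.edI V.G.Om := g.EA_sub.trans (filter_subset _ _)

/-- no edge joins the two squares -/
theorem cross (g : V.Geo) {e : Pt × Pt} (he : e ∈ V.EA) (h1 : e.1 ∈ V.up ∪ V.lo)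
    (h2 : e.2 ∈ V.up ∪ V.lo) : (e.1 ∈ V.up ↔ e.2 ∈ V.up) ∧ (e.1 ∈ V.lo ↔ e.2 ∈ V.lo) := by
  have j := step (Lat.mem_edI.1 (EA_I g he)).1
  have k : ¬ (e.1 ∈ V.lip ∧ e.1.2 = -1 ∧ e.2 = e.1 + (0, 1)) := fun c =>
    (g.slit e (EA_I g he)).2 c (g.EA_sub he)
  simp only [Gv.lip, mem_filter, h1, true_and, Prod.ext_iff, Prod.fst_add, Prod.snd_add] at k
  simp only [Gv.up, Gv.lo, mem_union, mem_sq] at h1 h2 ⊢
  push_cast at *
  omega

/-- the pieces above and below the slit -/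
theorem half (hΛ : Λ.Ok) (hJ : Λ.J = nn) (h : V.Ok W) (g : V.Geo) (hE : V.Ext Λ) {a : Pt} {n d l : ℕ}
    {ε : ℝ} (hP : sq a n ⊆ V.up ∪ V.lo) (hI : Pot.nL.edI (sq a n) ⊆ V.EA)
    (hc : ∀ e ∈ V.EA, e.1 ∈ V.up ∪ V.lo → e.2 ∈ V.up ∪ V.lo → (e.1 ∈ sq a n ↔ e.2 ∈ sq a n))
    (hx : ∃ x ∈ sq a n, ¬ bl x 1 ⊆ V.up ∪ V.lo) {u : Pt → ℝ}
    (hs : ∀ x, u x ≠ 0 → bl x (d + 1) ⊆ V.up ∪ V.lo)
    (H : Λ.tN l * Λ.En (sq a n) u u - ε ≤
      Vr (((Λ.N (sq a n)).free (dp (sq a n) (V.up ∪ V.lo) 0 1)).W 0)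
        (pr (Λ.Au (sq a n) u)) (pr (Λ.Au (sq a n) u))) :
    Λ.gN l * Pot.edF V.EA (Pot.on (sq a n) u) (Pot.on (sq a n) u) - Λ.τ ^ 2 * ε ≤
      Vr ((V.m0 Λ).W 0) (V.X (Pot.on (sq a n) u)) (V.X (Pot.on (sq a n) u)) := by
  have hA := hP.trans (ul_sub g)
  have hO := hA.trans (A_sub h)
  have nb : ∀ e ∈ V.EA, e.2 ∈ bl e.1 1 ∧ e.1 ∈ bl e.2 1 := fun e he =>
    by have j := step (Lat.mem_edI.1 (EA_I g he)).1; simp only [mem_bl]; omega
  have inn : ∀ e ∈ V.EA, e.1 ∈ dp (sq a n) (V.up ∪ V.lo) 0 1 ∨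
      e.2 ∈ dp (sq a n) (V.up ∪ V.lo) 0 1 → e ∈ Λ.edI (sq a n) := fun e he k => by
    rw [edI_eq hJ]
    refine Lat.mem_edI.2 ⟨(Lat.mem_edI.1 (EA_I g he)).1, ?_⟩
    rcases k with k | k <;> obtain ⟨k1, k2⟩ := mem_dp0.1 k
    · exact ⟨k1, (hc e he (hP k1) (k2 (nb e he).1)).1 k1⟩
    · exact ⟨(hc e he (k2 (nb e he).2) (hP k1)).2 k1, k1⟩
  have z : ∀ x, Pot.on (sq a n) u x ≠ 0 → x ∈ dp (sq a n) (V.up ∪ V.lo) 0 1 := fun x hx => by
    by_cases k : x ∈ sq a n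
    · rw [Pot.on_of_mem k] at hx
      exact mem_dp0.2 ⟨k, (bl_mono x (by omega)).trans (hs x hx)⟩
    · exact absurd (Pot.on_of_not k) hx
  refine key hΛ hJ hE (fun k => g.k_off.1 (A_sub h k)) (fun k => g.k_off.2.1 (A_sub h k))
    (Pot.on_of_not fun k => g.k_off.1 (hO k)) (Pot.on_of_not fun k => g.k_off.2.1 (hO k))
    ((edI_eq hJ _).trans_subset hI) (fun e he he' => ?_) (fun x hx => Pot.on_of_mem hx)
    (((hΛ.ctr_N _).free dp_sub).cen fun x k => ?_)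
    (loc_touch hE.m0.1 hE.m0.2 (hΛ.ctr_N _).1 (dp_sub.trans hA)
      (fun e he k => ⟨inn e he k, rfl⟩) fun _ _ _ => rfl) H
  · rw [not_not.1 fun k => he' (inn e he (Or.inl (z _ k))),
      not_not.1 fun k => he' (inn e he (Or.inr (z _ k))), sub_self]
  · obtain ⟨y, y1, y2⟩ := hx
    exact ⟨y, hΛ.conn_sq (dp_sub k) y1, Or.inl fun c => y2 (mem_dp0.1 c).2⟩

theorem pc_smul {K : ℝ} {u : Fin 3 → Pt → ℝ} (h : V.Pc K u) (hR : (0 : ℝ) < V.G.R) (c : Fin 3 → ℝ)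
    (hc : ∀ i, |c i| ≤ 1) : V.Pc K fun i => c i • u i := by
  have ne : ∀ i x, (c i • u i) x ≠ 0 → u i x ≠ 0 := fun i x k => right_ne_zero_of_mul k
  have K0 : 0 ≤ K := (abs_nonneg _).trans ((h.sm 0).2 0)
  refine ⟨fun i => ⟨D74.sm_mono (D74.sm_smul (h.sm i).1 _) hR (mul_le_of_le_one_left K0 (hc i)),
    fun x => ?_⟩, fun x k => h.s0 x (ne 0 x k), fun x k => h.s12 x (k.imp (ne 1 x) (ne 2 x))⟩
  rw [Pi.smul_apply, smul_eq_mul, abs_mul]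
  exact (mul_le_of_le_one_left (abs_nonneg _) (hc i)).trans ((h.sm i).2 x)

end Dl68

open Dl68 in
/-- **DL** for glued pieces -/
theorem dlStmt (hT : T1Stmt) (hD : DlgStmt) (hN : Mx31.DlGenStmt) (hG : GeoStmt) (hX : ExtStmt)
    (hm : T1mStmt) : DlStmt := by
  intro F θ₀ W K j hJ h0 hK K' ε hK' hε
  obtain ⟨C, hC1, hC⟩ := F.exists_bound
  obtain ⟨k, hk⟩ := pow_unbounded_of_one_lt K (one_lt_two (α := ℝ))
  have he : 0 < ε / 15 := by positivity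
  have he' : 0 < ε / 15 / C ^ 2 := by positivity
  have hKK : 1 ≤ K ^ 2 * K' := one_le_mul_of_one_le_of_one_le (one_le_pow₀ hK) hK'
  obtain ⟨δ₁, d1, T⟩ := hT F θ₀ W K j hJ h0 hK K' _ hK' he
  refine exists_of_ev ?_
  filter_upwards [ev_le d1, Soft.ev hD F h0 hKK he',
    (hN (1 / K') (by positivity)).sub hm F h0 hK' he' (k + j + 3),
    ev_large' (2 ^ (k + j + 3) * K')] with δ e1 e2 e3 e4 Λ hΛ l L hW V hV hj hA u hu
  have h := hΛ.ok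
  have J : Λ.J = nn := hΛ.1.trans hJ
  have g := hG V W hV
  have E := hX Λ V W h J hV
  have cen := E.m0.1.cen E.m0.2
  have r1 := g.rho_le
  have r2 := g.ω_le
  have r3 := g.ω16
  have hn : 2 ^ (V.om2 + 3) = 8 * V.ω := by rw [pow_add, Gv.ω]; ring
  have R0 : (0 : ℝ) < V.G.R := by exact_mod_cast (by omega : 0 < V.G.R)
  have RL : (V.G.R : ℝ) ≤ L := by exact_mod_cast hA.1
  have n0 : (0 : ℝ) < (8 * V.ω : ℕ) := by exact_mod_cast (by omega : 0 < 8 * V.ω)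
  have nR : 64 * ((8 * V.ω : ℕ) : ℝ) ≤ V.G.R := by exact_mod_cast (by omega : 64 * (8 * V.ω) ≤ V.G.R)
  have hL : L ≤ 2 ^ (k + j + 3) * (8 * V.ω) := by
    have a1 : V.G.R ≤ 2 ^ (j + 3) * (8 * V.ω) := by
      have := g.le_rho
      rw [g.rho_eq, hj] at this
      exact this.trans_eq (by ring)
    have a2 : (L : ℝ) ≤ 2 ^ k * V.G.R := hA.2.trans (mul_le_mul_of_nonneg_right hk.le R0.le)
    have a3 : L ≤ 2 ^ k * V.G.R := by exact_mod_cast a2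
    exact a3.trans ((Nat.mul_le_mul_left _ a1).trans_eq (by ring))
  have nK : K' ≤ (8 * V.ω : ℕ) := by
    have a1 : (L : ℝ) ≤ 2 ^ (k + j + 3) * ((8 * V.ω : ℕ) : ℝ) := by exact_mod_cast hL
    exact le_of_mul_le_mul_left ((e4 l L hW.sep).2.2.trans a1) (by positivity)
  have H := e3 Λ hΛ l L hW (V.om2 + 3) (by rw [hn]; have := hA.1; omega)
    (by rw [pow_add, hn, mul_comm]; exact hL)
  rw [hn] at H
  have hd : 1 / K' * (8 * V.ω : ℕ) + 1 ≤ (⌊(V.G.R : ℝ) / K'⌋₊ : ℝ) := by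
    have a1 := Nat.lt_floor_add_one ((V.G.R : ℝ) / K')
    have a2 : 1 / K' * (8 * V.ω : ℕ) + 2 ≤ V.G.R / K' := by
      rw [le_div_iff₀ (by linarith), add_mul, one_div, mul_right_comm, inv_mul_cancel₀ (by linarith)]
      linarith
    linarith
  obtain ⟨d, hd'⟩ : ∃ d, ⌊(V.G.R : ℝ) / K'⌋₊ = d + 1 := by
    refine Nat.exists_eq_succ_of_ne_zero fun c => ?_
    rw [c, Nat.cast_zero] at hd
    have : 0 < 1 / K' * (8 * V.ω : ℕ) := by positivity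
    linarith
  rw [hd', Nat.cast_add_one, add_le_add_iff_right] at hd
  have τε : Λ.τ ^ 2 * (ε / 15 / C ^ 2) ≤ ε / 15 := by
    rw [← mul_div_assoc, div_le_iff₀ (by positivity), mul_comm]
    exact mul_le_mul_of_nonneg_left (pow_le_pow_left₀ h.pos.le (hC Λ hΛ).1 2) he.le
  have sm : ∀ i, Sm2 (u i) K' (8 * V.ω : ℕ) := fun i => D74.sm_down (hu.sm i).1 n0 (by linarith)
  have p0 := key (D := V.G.A \ V.lip) (u := u 0) (v := u 0) (l := l) h J E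
    (fun k => g.k_off.1 (A_sub hV k)) (fun k => g.k_off.2.1 (A_sub hV k))
    (not_not.1 fun k => g.k_off.1 (A_sub hV (mem_sdiff.1 (hu.s0 _ k (self_mem_bl _ _))).1))
    (not_not.1 fun k => g.k_off.2.1 (A_sub hV (mem_sdiff.1 (hu.s0 _ k (self_mem_bl _ _))).1))
    ((edI_eq J _).trans_subset (EA_of hV g sdiff_subset fun x hx _ k => absurd k (mem_sdiff.1 hx).2))
    (fun e he he' => D74.In.edge (D' := V.G.Om)
      (fun x hx => (bl_mono x (by rw [rg_eq J, hd']; omega)).trans (hu.s0 x hx))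
      ((edI_eq J _).ge (EA_I g he)) he') (fun _ _ => rfl) (h.cen_D (V.G.A \ V.lip))
    (h.loc_D E.m0.1 E.m0.2 sdiff_subset
      (fun e he _ => ⟨(Jp_eq J).ge (Lat.mem_edI.1 (EA_I g he)).1, rfl⟩) fun _ _ _ => rfl)
    (ε := ε / 15 / C ^ 2) (by
      have c1 : 1 ≤ (L : ℝ) / V.G.R := (one_le_div R0).2 RL
      have c2 : (L : ℝ) / V.G.R ≤ K := (div_le_iff₀ R0).2 hA.2
      have s := D74.sm_up (hu.sm 0).1 R0 c1
      rw [div_mul_cancel₀ _ R0.ne'] at s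
      have := (e2 Λ hΛ l L hW (Λ.D (V.G.A \ V.lip)) _ 0 (u 0)
        ⟨h.ctr_D _, h.anch_D _, Lat.edI_subset_edT _, fun _ _ => rfl⟩ (Loc.refl _)
        (D74.sm_mono s (R0.trans_le RL) (by gcongr)) fun x hx => ⟨bl_mono 0 (Nat.le_floor
          (RL.trans (le_mul_of_one_le_left (R0.le.trans RL) hKK)))
          (sdiff_subset (s := bl 0 V.G.R) (mem_sdiff.1 (hu.s0 x hx (self_mem_bl _ _))).1),
          (bl_mono x (Nat.floor_le_floor ?_)).trans (hu.s0 x hx)⟩).1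
      · linarith [(abs_le.1 this).1]
      · rw [div_le_div_iff₀ (by positivity) (by positivity)]
        have : (L : ℝ) ≤ K ^ 2 * V.G.R := hA.2.trans (by nlinarith [mul_pos R0 (one_pos.trans_le hK)])
        nlinarith)
  have x1 : ∃ x ∈ V.up, ¬ bl x 1 ⊆ V.up ∪ V.lo :=
    ⟨_, self_mem_sq _ (by omega), fun c => by
      have := @c ((V.G.rho : ℤ) - 4 * V.ω - 1, 0) (by rw [mem_bl]; simp only; omega)
      simp only [Gv.up, Gv.lo, mem_union, mem_sq] at this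
      omega⟩
  have x2 : ∃ x ∈ V.lo, ¬ bl x 1 ⊆ V.up ∪ V.lo :=
    ⟨_, self_mem_sq _ (by omega), fun c => by
      have := @c ((V.G.rho : ℤ) - 4 * V.ω - 1, -(8 * V.ω : ℤ)) (by rw [mem_bl]; simp only; omega)
      simp only [Gv.up, Gv.lo, mem_union, mem_sq] at this
      omega⟩
  have s1 : ∀ x, u 1 x ≠ 0 → bl x (d + 1) ⊆ V.up ∪ V.lo := fun x k => hd' ▸ hu.s12 x (Or.inl k)
  have s2 : ∀ x, u 2 x ≠ 0 → bl x (d + 1) ⊆ V.up ∪ V.lo := fun x k => hd' ▸ hu.s12 x (Or.inr k)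
  have p1 := half h J hV g E subset_union_left
    (EA_of hV g (subset_union_left.trans (ul_sub g)) fun x hx _ _ => by
      have := mem_sq.1 hx
      simp only at this
      omega)
    (fun e he k1 k2 => (cross g he k1 k2).1) x1 s1 (shift h J H (sm 1) (hu.sm 1).2 s1 hd x1)
  have p2 := half h J hV g E subset_union_right
    (EA_of hV g (subset_union_right.trans (ul_sub g)) fun x _ hx _ => by
      have := mem_sq.1 hx
      simp only [Prod.snd_add] at this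
      omega)
    (fun e he k1 k2 => (cross g he k1 k2).2) x2 s2 (shift h J H (sm 2) (hu.sm 2).2 s2 hd x2)
  have up : ∀ c : Fin 3 → ℝ, (∀ i, |c i| ≤ 1) → ∀ v, v = c 0 • u 0 + c 1 • Pot.on V.up (u 1) +
      c 2 • Pot.on V.lo (u 2) →
      Vr ((V.m0 Λ).W 0) (V.X v) (V.X v) ≤ Λ.gN l * Pot.edF V.EA v v + 2 * (ε / 15) := fun c hc v hv => by
    have a := (T Λ hΛ l L (hW.mono_d e1) V hV hj hA _ (pc_smul hu R0 c hc)).2
    rw [Gv.glue, Pot.on_smul, Pot.on_smul, ← hv] at a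
    linarith [cen.vr_le_M (V.X v), E.loc.M_le (V.X v)]
  have q1 := up ![1, -1, 0] (fun i => by fin_cases i <;> simp) (u 0 - Pot.on V.up (u 1))
    (by simp [sub_eq_add_neg])
  have q2 := up ![1, 0, -1] (fun i => by fin_cases i <;> simp) (u 0 - Pot.on V.lo (u 2))
    (by simp [sub_eq_add_neg])
  have q3 := up ![0, 1, -1] (fun i => by fin_cases i <;> simp)
    (Pot.on V.up (u 1) - Pot.on V.lo (u 2)) (by simp [sub_eq_add_neg])
  have t := three (fun v w => Λ.gN l * Pot.edF V.EA v w - Vr ((V.m0 Λ).W 0) (V.X v) (V.X w))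
    (fun a b c => by rw [map_add, LinearMap.add_apply, X_add, cen.se.Vr_add_left]; ring)
    (fun a b => by rw [(Pot.sy_edF _).symm a b, Vr_comm]) (u 0) (Pot.on V.up (u 1)) (Pot.on V.lo (u 2))
  rw [Gv.glue]
  change _ - _ ≤ Vr _ (V.X (Pot.on V.up (u 1))) (V.X (Pot.on V.up (u 1))) at p1
  change _ - _ ≤ Vr _ (V.X (Pot.on V.lo (u 2))) (V.X (Pot.on V.lo (u 2))) at p2
  change Λ.gN l * Pot.edF V.EA (Pot.on V.up (u 1)) (Pot.on V.up (u 1)) - _ ≤ _ at p1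
  change Λ.gN l * Pot.edF V.EA (Pot.on V.lo (u 2)) (Pot.on V.lo (u 2)) - _ ≤ _ at p2
  linarith

end Crest.Agent.T145.Kv
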