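import Crest.Agent.T145.GeoB_51
import Crest.Agent.T145.Slit_46
import Crest.Agent.T145.GffDef_8

/-!
# Row 145: flows of a charge, routing on rectangles (R1) (helper51)
-/

set_option autoImplicit false
set_option linter.unusedSectionVars false

namespace Crest.Agent.T145

open Finset

/-! ## Flows -/
section flow
variable {V : Type} [DecidableEq V] {E E' : Finset (V × V)} {B B' : Finset V} {f g : V → ℝ}
  {φ ψ : V × V → ℝ}

/-- `φ` on the edges `E` is a flow of the charge `f` on `B` -/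
def IsFlow (E : Finset (V × V)) (B : Finset V) (f : V → ℝ) (φ : V × V → ℝ) : Prop :=
  ∀ u : V → ℝ, ∑ x ∈ B, f x * u x = ∑ e ∈ E, φ e * (u e.2 - u e.1)

namespace IsFlow

theorem zero (E : Finset (V × V)) (B : Finset V) : IsFlow E B (fun _ => 0) fun _ => 0 :=
  fun _ => by simp

theorem add (h : IsFlow E B f φ) (h' : IsFlow E B g ψ) :
    IsFlow E B (fun x => f x + g x) fun e => φ e + ψ e := fun u => by
  simp only [add_mul, sum_add_distrib, h u, h' u]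

theorem sub (h : IsFlow E B f φ) (h' : IsFlow E B g ψ) :
    IsFlow E B (fun x => f x - g x) fun e => φ e - ψ e := fun u => by
  simp only [sub_mul, sum_sub_distrib, h u, h' u]

theorem smul (h : IsFlow E B f φ) (c : ℝ) : IsFlow E B (fun x => c * f x) fun e => c * φ e :=
  fun u => by simp only [mul_assoc, ← mul_sum, h u]

theorem neg (h : IsFlow E B f φ) : IsFlow E B (fun x => -f x) fun e => -φ e := fun u => by
  simp only [neg_mul, sum_neg_distrib, h u]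

theorem sum {ι : Type*} (I : Finset ι) {f : ι → V → ℝ} {φ : ι → V × V → ℝ}
    (h : ∀ i ∈ I, IsFlow E B (f i) (φ i)) :
    IsFlow E B (fun x => ∑ i ∈ I, f i x) fun e => ∑ i ∈ I, φ i e := fun u => by
  simp only [sum_mul]
  rw [sum_comm, sum_congr rfl fun i hi => h i hi u, sum_comm]

theorem congr (h : IsFlow E B f φ) (hf : ∀ x ∈ B, g x = f x) (hφ : ∀ e ∈ E, ψ e = φ e) :
    IsFlow E B g ψ := fun u => by
  rw [sum_congr rfl fun x hx => by rw [hf x hx], h u]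
  exact sum_congr rfl fun e he => by rw [hφ e he]

/-- extension by zero -/
theorem extend (h : IsFlow E B f φ) (hE : E ⊆ E') (hB : B ⊆ B') :
    IsFlow E' B' (fun x => if x ∈ B then f x else 0) fun e => if e ∈ E then φ e else 0 := fun u => by
  simp only [ite_mul, zero_mul, sum_ite_mem, inter_eq_right.2 hE, inter_eq_right.2 hB, h u]

theorem mono (h : IsFlow E B f φ) (hE : E ⊆ E') (hB : B ⊆ B') (hf : ∀ x ∈ B', x ∉ B → f x = 0)
    (hφ : ∀ e ∈ E', e ∉ E → φ e = 0) : IsFlow E' B' f φ :=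
  (h.extend hE hB).congr (fun x hx => by split_ifs with h; exacts [rfl, hf x hx h])
    fun e he => by split_ifs with h; exacts [rfl, hφ e he h]

theorem neutral (h : IsFlow E B f φ) : ∑ x ∈ B, f x = 0 := by simpa using h fun _ => 1

theorem pr_eq (h : IsFlow E B f φ) {s : Cfg V} (hs : ∀ x, x ∉ B → f x * s x = 0) :
    pr f s = ∑ e ∈ E, φ e * (dE e s : ℝ) := by
  rw [pr_apply f s hs, h fun x => s x]; simp only [dE_cast]

theorem pr_eq_fl (h : IsFlow E B f φ) (hf : ∀ x, x ∉ B → f x = 0) : pr f = Sl46.fl E φ :=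
  AddMonoidHom.ext fun s => by
    rw [Sl46.fl_apply]; exact h.pr_eq fun x hx => by rw [hf x hx, zero_mul]

/-- Cauchy-Schwarz -/
theorem sq_le (h : IsFlow E B f φ) (u : V → ℝ) :
    (∑ x ∈ B, f x * u x) ^ 2 ≤ (∑ e ∈ E, φ e ^ 2) * ∑ e ∈ E, (u e.2 - u e.1) ^ 2 := by
  rw [h u]; exact sum_mul_sq_le_sq_mul_sq _ _ _

end IsFlow

theorem dv_apply (E : Finset (V × V)) (φ : V × V → ℝ) (x : V) :
    dv E φ x = ∑ e ∈ E with e.2 = x, φ e - ∑ e ∈ E with e.1 = x, φ e := by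
  simp only [dv, ind_eq_ite, mul_sub, mul_ite, mul_one, mul_zero, sum_sub_distrib, sum_filter]

theorem isFlow_dv (φ : V × V → ℝ) (h : ∀ e ∈ E, e.1 ∈ B ∧ e.2 ∈ B) : IsFlow E B (dv E φ) φ := by
  intro u
  simp only [dv, sum_mul]
  rw [sum_comm]
  refine sum_congr rfl fun e he => ?_
  simp only [ind_eq_ite, mul_assoc, ← mul_sum, sub_mul, ite_mul, one_mul, zero_mul, sum_sub_distrib,
    sum_ite_eq, (h e he).1, (h e he).2, if_true]

theorem sup_dv (φ : V × V → ℝ) (h : ∀ e ∈ E, e.1 ∈ B ∧ e.2 ∈ B) : Sup B (dv E φ) := fun x hx =>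
  sum_eq_zero fun e he => by
    rw [ind_neg fun h' : e.2 = x => hx (h' ▸ (h e he).2),
      ind_neg fun h' : e.1 = x => hx (h' ▸ (h e he).1), sub_self, mul_zero]

theorem IsFlow.eq_dv_of_mem (h : IsFlow E B f φ) {x : V} (hx : x ∈ B) : f x = dv E φ x := by
  have := h (Pi.single x 1)
  simp only [Pi.single_apply, mul_ite, mul_one, mul_zero, sum_ite_eq', hx, if_true, mul_sub,
    sum_sub_distrib] at this
  rw [this, dv_apply, sum_filter, sum_filter]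

theorem IsFlow.eq_dv (h : IsFlow E B f φ) (hf : Sup B f) (hE : ∀ e ∈ E, e.1 ∈ B ∧ e.2 ∈ B) :
    f = dv E φ := funext fun x => by
  by_cases hx : x ∈ B
  · exact h.eq_dv_of_mem hx
  · rw [hf x hx, sup_dv φ hE x hx]

/-- all the ends of the edges -/
theorem ends_mem (E : Finset (V × V)) : ∀ e ∈ E, e.1 ∈ E.image Prod.fst ∪ E.image Prod.snd ∧
    e.2 ∈ E.image Prod.fst ∪ E.image Prod.snd := fun _ he =>
  ⟨mem_union_left _ (mem_image_of_mem _ he), mem_union_right _ (mem_image_of_mem _ he)⟩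

theorem pr_dv_eq_fl (E : Finset (V × V)) (φ : V × V → ℝ) : pr (dv E φ) = Sl46.fl E φ :=
  (isFlow_dv φ (ends_mem E)).pr_eq_fl (sup_dv φ (ends_mem E))

theorem pr_dv (E : Finset (V × V)) (φ : V × V → ℝ) (s : Cfg V) :
    pr (dv E φ) s = ∑ e ∈ E, φ e * (dE e s : ℝ) := by rw [pr_dv_eq_fl, Sl46.fl_apply]

theorem ip_dv (φ : V × V → ℝ) (h : ∀ e ∈ E, e.1 ∈ B ∧ e.2 ∈ B) (u : V → ℝ) :
    ip B (dv E φ) u = ∑ e ∈ E, φ e * (u e.2 - u e.1) := isFlow_dv φ h u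

theorem sum_dv (φ : V × V → ℝ) (h : ∀ e ∈ E, e.1 ∈ B ∧ e.2 ∈ B) : ∑ x ∈ B, dv E φ x = 0 :=
  (isFlow_dv φ h).neutral

theorem dv_congr (h : ∀ e ∈ E, φ e = ψ e) : dv E φ = dv E ψ :=
  funext fun _ => sum_congr rfl fun e he => by rw [h e he]

theorem dv_add (E : Finset (V × V)) (φ ψ : V × V → ℝ) :
    dv E (fun e => φ e + ψ e) = dv E φ + dv E ψ :=
  funext fun _ => by simp only [dv, add_mul, sum_add_distrib, Pi.add_apply]

theorem dv_sub (E : Finset (V × V)) (φ ψ : V × V → ℝ) :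
    dv E (fun e => φ e - ψ e) = dv E φ - dv E ψ :=
  funext fun _ => by simp only [dv, sub_mul, sum_sub_distrib, Pi.sub_apply]

theorem dv_smul (E : Finset (V × V)) (c : ℝ) (φ : V × V → ℝ) :
    dv E (fun e => c * φ e) = c • dv E φ :=
  funext fun _ => by simp only [dv, mul_assoc, ← mul_sum, Pi.smul_apply, smul_eq_mul]

theorem dv_neg (E : Finset (V × V)) (φ : V × V → ℝ) : dv E (fun e => -φ e) = -dv E φ :=
  funext fun _ => by simp only [dv, neg_mul, sum_neg_distrib, Pi.neg_apply]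

theorem dv_zero (E : Finset (V × V)) : dv E (fun _ => 0) = 0 :=
  funext fun _ => by simp only [dv, zero_mul, sum_const_zero, Pi.zero_apply]

theorem dv_sum {ι : Type*} (E : Finset (V × V)) (I : Finset ι) (φ : ι → V × V → ℝ) :
    dv E (fun e => ∑ i ∈ I, φ i e) = ∑ i ∈ I, dv E (φ i) :=
  funext fun _ => by simp only [dv, sum_mul, Finset.sum_apply]; exact sum_comm

theorem dv_subset (h : E ⊆ E') (h0 : ∀ e ∈ E', e ∉ E → φ e = 0) : dv E φ = dv E' φ :=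
  funext fun _ => sum_subset h fun e he he' => by rw [h0 e he he', zero_mul]

theorem dv_extend (h : E ⊆ E') (φ : V × V → ℝ) :
    dv E φ = dv E' fun e => if e ∈ E then φ e else 0 :=
  (dv_congr fun _ he => (if_pos he).symm).trans (dv_subset h fun _ _ he => if_neg he)

theorem dv_union (h : Disjoint E E') (φ : V × V → ℝ) : dv (E ∪ E') φ = dv E φ + dv E' φ :=
  funext fun _ => sum_union h

theorem dv_sdiff (h : E ⊆ E') (φ : V × V → ℝ) : dv (E' \ E) φ + dv E φ = dv E' φ :=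
  funext fun _ => sum_sdiff h

theorem dv_biUnion {ι : Type*} {I : Finset ι} {S : ι → Finset (V × V)}
    (h : ∀ i ∈ I, ∀ j ∈ I, i ≠ j → Disjoint (S i) (S j)) (φ : V × V → ℝ) :
    dv (I.biUnion S) φ = ∑ i ∈ I, dv (S i) φ :=
  funext fun _ => by
    rw [Finset.sum_apply]; exact sum_biUnion fun i hi j hj hij => h i hi j hj hij

theorem dv_map {V' : Type} [DecidableEq V'] (χ : V ≃ V') (E : Finset (V × V)) (φ : V' × V' → ℝ)
    (x : V) : dv (E.map (χ.prodCongr χ).toEmbedding) φ (χ x) =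
      dv E (fun e => φ (χ e.1, χ e.2)) x := by
  simp only [dv, sum_map, Equiv.coe_toEmbedding, Equiv.prodCongr_apply, Prod.map_fst, Prod.map_snd,
    χ.injective.eq_iff]
  rfl

theorem abs_dv_le {c : ℝ} (h : ∀ e ∈ E, |φ e| ≤ c) (x : V) : |dv E φ x| ≤
    c * (((E.filter fun e => e.2 = x).card : ℝ) + (E.filter fun e => e.1 = x).card) := by
  rw [dv_apply, mul_add]
  refine (abs_sub _ _).trans (add_le_add ?_ ?_) <;>
    refine (abs_sum_le_sum_abs _ _).trans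
      ((sum_le_card_nsmul _ _ c fun e he => h e (mem_filter.1 he).1).trans ?_) <;>
    rw [nsmul_eq_mul, mul_comm]

namespace F2
variable {n n' : ℝ}

theorem nonneg (h : F2 E f n) : 0 ≤ n := by
  obtain ⟨φ, -, h⟩ := h
  exact (sum_nonneg fun _ _ => sq_nonneg _).trans h

theorem zero (E : Finset (V × V)) : F2 E 0 0 := ⟨fun _ => 0, (dv_zero E).symm, by simp⟩

theorem mono (h : F2 E f n) (hn : n ≤ n') : F2 E f n' :=
  h.imp fun _ h => ⟨h.1, h.2.trans hn⟩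

theorem congr (h : F2 E f n) (e : g = f) : F2 E g n := e ▸ h

theorem subset (h : F2 E f n) (hE : E ⊆ E') : F2 E' f n := by
  obtain ⟨φ, h1, h2⟩ := h
  refine ⟨_, h1.trans (dv_extend hE φ), ?_⟩
  simpa only [ite_pow, ne_eq, OfNat.ofNat_ne_zero, not_false_eq_true, zero_pow, sum_ite_mem,
    inter_eq_right.2 hE] using h2

theorem smul (h : F2 E f n) (c : ℝ) : F2 E (c • f) (c ^ 2 * n) := by
  obtain ⟨φ, h1, h2⟩ := h
  refine ⟨_, by rw [dv_smul E c φ, h1], ?_⟩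
  simp only [mul_pow, ← mul_sum]
  exact mul_le_mul_of_nonneg_left h2 (sq_nonneg _)

theorem neg (h : F2 E f n) : F2 E (-f) n := by simpa using h.smul (-1)

theorem add (h : F2 E f n) (h' : F2 E g n') : F2 E (f + g) (2 * (n + n')) := by
  obtain ⟨φ, h1, h2⟩ := h
  obtain ⟨ψ, h3, h4⟩ := h'
  refine ⟨_, by rw [dv_add E φ ψ, h1, h3], ?_⟩
  refine (sum_le_sum fun e _ => (by nlinarith [sq_nonneg (φ e - ψ e)] :
    (φ e + ψ e) ^ 2 ≤ 2 * (φ e ^ 2 + ψ e ^ 2))).trans ?_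
  rw [← mul_sum, sum_add_distrib]; linarith

theorem sub (h : F2 E f n) (h' : F2 E g n') : F2 E (f - g) (2 * (n + n')) :=
  sub_eq_add_neg f g ▸ h.add h'.neg

/-- triangle inequality -/
theorem add_sqrt (h : F2 E f n) (h' : F2 E g n') :
    F2 E (f + g) ((Real.sqrt n + Real.sqrt n') ^ 2) := by
  have hn := h.nonneg
  have hn' := h'.nonneg
  obtain ⟨φ, h1, h2⟩ := h
  obtain ⟨ψ, h3, h4⟩ := h'
  refine ⟨_, by rw [dv_add E φ ψ, h1, h3], ?_⟩
  have h5 : ∑ e ∈ E, φ e * ψ e ≤ Real.sqrt n * Real.sqrt n' := by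
    rw [← Real.sqrt_mul hn]
    exact Real.le_sqrt_of_sq_le ((sum_mul_sq_le_sq_mul_sq _ _ _).trans
      (mul_le_mul h2 h4 (sum_nonneg fun _ _ => sq_nonneg _) hn))
  simp only [add_sq, sum_add_distrib, mul_assoc, ← mul_sum, Real.sq_sqrt hn, Real.sq_sqrt hn']
  linarith

theorem sum {ι : Type*} (I : Finset ι) {f : ι → V → ℝ} {n : ι → ℝ} (h : ∀ i ∈ I, F2 E (f i) (n i)) :
    F2 E (∑ i ∈ I, f i) (I.card * ∑ i ∈ I, n i) := by
  choose! φ h1 h2 using h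
  refine ⟨_, by rw [dv_sum E I φ]; exact sum_congr rfl h1, ?_⟩
  refine (sum_le_sum fun e _ => sq_sum_le_card_mul_sum_sq).trans ?_
  rw [← mul_sum, sum_comm]
  exact mul_le_mul_of_nonneg_left (sum_le_sum h2) (Nat.cast_nonneg _)

/-- flows on edge sets of bounded overlap -/
theorem sum_overlap {ι : Type*} (I : Finset ι) {S : ι → Finset (V × V)} {f : ι → V → ℝ} {n : ι → ℝ}
    (h : ∀ i ∈ I, F2 (S i) (f i) (n i)) (hS : ∀ i ∈ I, S i ⊆ E) {k : ℝ}
    (hk : ∀ e ∈ E, ((I.filter fun i => e ∈ S i).card : ℝ) ≤ k) (hk0 : 0 ≤ k) :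
    F2 E (∑ i ∈ I, f i) (k * ∑ i ∈ I, n i) := by
  choose! φ h1 h2 using h
  refine ⟨fun e => ∑ i ∈ I, if e ∈ S i then φ i e else 0, ?_, ?_⟩
  · rw [dv_sum]; exact sum_congr rfl fun i hi => (h1 i hi).trans (dv_extend (hS i hi) _)
  · refine (sum_le_sum fun e he => show _ ≤ k * ∑ i ∈ I, if e ∈ S i then φ i e ^ 2 else 0 by
      simp only [← sum_filter]
      exact sq_sum_le_card_mul_sum_sq.trans
        (mul_le_mul_of_nonneg_right (hk e he) (sum_nonneg fun _ _ => sq_nonneg _))).trans ?_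
    rw [← mul_sum, sum_comm]
    refine mul_le_mul_of_nonneg_left (sum_le_sum fun i hi => ?_) hk0
    rw [sum_ite_mem, inter_eq_right.2 (hS i hi)]; exact h2 i hi

/-- flows on disjoint edge sets -/
theorem sum_disj {ι : Type*} (I : Finset ι) {S : ι → Finset (V × V)} {f : ι → V → ℝ} {n : ι → ℝ}
    (h : ∀ i ∈ I, F2 (S i) (f i) (n i)) (hS : ∀ i ∈ I, S i ⊆ E)
    (hd : ∀ i ∈ I, ∀ j ∈ I, i ≠ j → Disjoint (S i) (S j)) : F2 E (∑ i ∈ I, f i) (∑ i ∈ I, n i) := by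
  refine one_mul (∑ i ∈ I, n i) ▸ sum_overlap I h hS (fun e _ => ?_) zero_le_one
  refine Nat.cast_le_one.2 (card_le_one.2 fun i hi j hj => by_contra fun hij => ?_)
  exact disjoint_left.1 (hd i (mem_filter.1 hi).1 j (mem_filter.1 hj).1 hij) (mem_filter.1 hi).2
    (mem_filter.1 hj).2

theorem f2a (h : F2 E f n) (A : Finset V) : F2A E A f n :=
  h.imp fun _ h => ⟨fun x _ => by rw [h.1], h.2⟩

theorem sup (h : F2 E f n) (hE : ∀ e ∈ E, e.1 ∈ B ∧ e.2 ∈ B) : Sup B f := by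
  obtain ⟨φ, rfl, -⟩ := h; exact sup_dv φ hE

theorem neutral (h : F2 E f n) (hE : ∀ e ∈ E, e.1 ∈ B ∧ e.2 ∈ B) : ∑ x ∈ B, f x = 0 := by
  obtain ⟨φ, rfl, -⟩ := h; exact sum_dv φ hE

theorem ip_sq_le (h : F2 E f n) (hE : ∀ e ∈ E, e.1 ∈ B ∧ e.2 ∈ B) (u : V → ℝ) :
    ip B f u ^ 2 ≤ n * ∑ e ∈ E, (u e.2 - u e.1) ^ 2 := by
  obtain ⟨φ, rfl, h⟩ := h
  exact ((isFlow_dv φ hE).sq_le u).trans
    (mul_le_mul_of_nonneg_right h (sum_nonneg fun _ _ => sq_nonneg _))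

theorem map {V' : Type} [DecidableEq V'] (χ : V ≃ V') (h : F2 E f n) :
    F2 (E.map (χ.prodCongr χ).toEmbedding) (fun y => f (χ.symm y)) n := by
  obtain ⟨φ, rfl, h⟩ := h
  refine ⟨fun e => φ (χ.symm e.1, χ.symm e.2), funext fun y => ?_, by simpa [sum_map] using h⟩
  conv_rhs => rw [← χ.apply_symm_apply y, dv_map]
  simp

end F2

namespace Fs
variable {c c' : ℝ}

theorem zero (E : Finset (V × V)) : Fs E 0 0 := ⟨fun _ => 0, (dv_zero E).symm, by simp⟩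

theorem mono (h : Fs E f c) (hc : c ≤ c') : Fs E f c' :=
  h.imp fun _ h => ⟨h.1, fun e he => (h.2 e he).trans hc⟩

theorem congr (h : Fs E f c) (e : g = f) : Fs E g c := e ▸ h

theorem subset (h : Fs E f c) (hE : E ⊆ E') (hc : 0 ≤ c) : Fs E' f c := by
  obtain ⟨φ, h1, h2⟩ := h
  refine ⟨_, h1.trans (dv_extend hE φ), fun e _ => ?_⟩
  split_ifs with h
  exacts [h2 e h, by simpa]

theorem smul (h : Fs E f c) (a : ℝ) : Fs E (a • f) (|a| * c) := by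
  obtain ⟨φ, h1, h2⟩ := h
  exact ⟨_, by rw [dv_smul E a φ, h1], fun e he => by
    rw [abs_mul]; exact mul_le_mul_of_nonneg_left (h2 e he) (abs_nonneg _)⟩

theorem neg (h : Fs E f c) : Fs E (-f) c := by simpa using h.smul (-1)

theorem add (h : Fs E f c) (h' : Fs E g c') : Fs E (f + g) (c + c') := by
  obtain ⟨φ, h1, h2⟩ := h
  obtain ⟨ψ, h3, h4⟩ := h'
  exact ⟨_, by rw [dv_add E φ ψ, h1, h3],
    fun e he => (abs_add_le _ _).trans (add_le_add (h2 e he) (h4 e he))⟩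

theorem sub (h : Fs E f c) (h' : Fs E g c') : Fs E (f - g) (c + c') :=
  sub_eq_add_neg f g ▸ h.add h'.neg

theorem sum {ι : Type*} (I : Finset ι) {f : ι → V → ℝ} {c : ι → ℝ} (h : ∀ i ∈ I, Fs E (f i) (c i)) :
    Fs E (∑ i ∈ I, f i) (∑ i ∈ I, c i) := by
  choose! φ h1 h2 using h
  exact ⟨_, by rw [dv_sum E I φ]; exact sum_congr rfl h1,
    fun e he => (abs_sum_le_sum_abs _ _).trans (sum_le_sum fun i hi => h2 i hi e he)⟩

theorem f2 (h : Fs E f c) : F2 E f (E.card * c ^ 2) := by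
  obtain ⟨φ, h1, h2⟩ := h
  refine ⟨φ, h1, (sum_le_card_nsmul _ _ (c ^ 2) fun e he => ?_).trans (nsmul_eq_mul _ _).le⟩
  exact sq_le_sq' (abs_le.1 (h2 e he)).1 (abs_le.1 (h2 e he)).2

theorem sup (h : Fs E f c) (hE : ∀ e ∈ E, e.1 ∈ B ∧ e.2 ∈ B) : Sup B f := h.f2.sup hE

theorem neutral (h : Fs E f c) (hE : ∀ e ∈ E, e.1 ∈ B ∧ e.2 ∈ B) : ∑ x ∈ B, f x = 0 :=
  h.f2.neutral hE

theorem map {V' : Type} [DecidableEq V'] (χ : V ≃ V') (h : Fs E f c) :
    Fs (E.map (χ.prodCongr χ).toEmbedding) (fun y => f (χ.symm y)) c := by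
  obtain ⟨φ, rfl, h⟩ := h
  refine ⟨fun e => φ (χ.symm e.1, χ.symm e.2), funext fun y => ?_,
    fun e he => h _ (mem_map_equiv.1 he)⟩
  conv_rhs => rw [← χ.apply_symm_apply y, dv_map]
  simp

end Fs

theorem fl_cst {E : Finset (V × V)} (φ : V × V → ℝ) (h : ∀ e ∈ E, e.1 ∈ B ↔ e.2 ∈ B) (k : ℤ) :
    Sl46.fl E φ (cst B k) = 0 := by
  rw [Sl46.fl_apply]; exact sum_eq_zero fun e he => by rw [dE_cst k (h e he)]; simp

end flow

/-! ## One dimension -/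

/-- Abel summation for a neutral charge on an interval -/
theorem abel_Ico (g v : ℤ → ℝ) (a b : ℤ) (h : ∑ i ∈ Ico a b, g i = 0) :
    ∑ i ∈ Ico a b, g i * v i =
      ∑ i ∈ Ico a (b - 1), (∑ j ∈ Ico (i + 1) b, g j) * (v (i + 1) - v i) := by
  have key : ∀ j ∈ Ico a b, v j - v a = ∑ i ∈ Ico a (b - 1), if i < j then v (i + 1) - v i else 0 := by
    intro j hj
    obtain ⟨h1, h2⟩ := mem_Ico.1 hj
    rw [← sum_filter, show (Ico a (b - 1)).filter (· < j) = Ico a j by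
      ext i; simp only [mem_filter, mem_Ico]; omega]
    clear h2 hj
    induction j, h1 using Int.leInduction with
    | base => simp
    | succ j hj ih =>
      rw [← Finset.insert_Ico_right_eq_Ico_add_one hj, sum_insert (by simp), ← ih]; ring
  calc ∑ i ∈ Ico a b, g i * v i = ∑ i ∈ Ico a b, g i * (v i - v a) := by
        simp only [mul_sub, sum_sub_distrib, ← sum_mul, h, zero_mul, sub_zero]
    _ = _ := by
        rw [sum_congr rfl fun j hj => by rw [key j hj, mul_sum], sum_comm]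
        refine sum_congr rfl fun i hi => ?_
        simp only [mul_ite, mul_zero, ← sum_filter, ← sum_mul]
        congr 2
        ext j; have := mem_Ico.1 hi; simp only [mem_filter, mem_Ico]; omega

theorem abs_tail_le (g : ℤ → ℝ) {a i : ℤ} (b : ℤ) (h : a ≤ i) :
    |∑ j ∈ Ico i b, g j| ≤ ∑ j ∈ Ico a b, |g j| :=
  (abs_sum_le_sum_abs _ _).trans
    (sum_le_sum_of_subset_of_nonneg (Ico_subset_Ico_left h) fun _ _ _ => abs_nonneg _)

/-! ## Nearest neighbour flows -/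

/-- the flow with values `h x` on `(x, x + e₁)` and `v x` on `(x, x + e₂)` -/
def nnF (h v : Pt → ℝ) (e : Pt × Pt) : ℝ :=
  if e.2 - e.1 = (1, 0) then h e.1 else if e.2 - e.1 = (0, 1) then v e.1 else 0

theorem nnF_h (h v : Pt → ℝ) (x : Pt) : nnF h v (x, x + (1, 0)) = h x := by simp [nnF]

theorem nnF_v (h v : Pt → ℝ) (x : Pt) : nnF h v (x, x + (0, 1)) = v x := by simp [nnF]

theorem nnF_ne {h v : Pt → ℝ} {e : Pt × Pt} (he : nnF h v e ≠ 0) :
    e.2 - e.1 = (1, 0) ∨ e.2 - e.1 = (0, 1) := by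
  by_contra hn
  push Not at hn
  exact he (by rw [nnF, if_neg hn.1, if_neg hn.2])

theorem abs_nnF_le {h v : Pt → ℝ} {e : Pt × Pt} {K : ℝ} (hK : 0 ≤ K) (h1 : |h e.1| ≤ K)
    (h2 : |v e.1| ≤ K) : |nnF h v e| ≤ K := by
  unfold nnF; split_ifs; exacts [h1, h2, by simpa]

theorem Lat.Ok.sum_nn {Λ : Lat} (hΛ : Λ.Ok) (B : Finset Pt) {G : Pt × Pt → ℝ}
    (hG : ∀ e, G e ≠ 0 → e.2 - e.1 = (1, 0) ∨ e.2 - e.1 = (0, 1)) :
    ∑ e ∈ Λ.edI B, G e = ∑ x ∈ B with x + (1, 0) ∈ B, G (x, x + (1, 0)) +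
      ∑ x ∈ B with x + (0, 1) ∈ B, G (x, x + (0, 1)) := by
  rw [Lat.sum_edI, ← sum_pair (f := fun y : Pt => ∑ x ∈ B with x + y ∈ B, G (x, x + y))
    (by decide : ((1, 0) : Pt) ≠ (0, 1))]
  refine (sum_subset (fun y hy => ?_) fun y _ hy => sum_eq_zero fun x _ => ?_).symm
  · rcases mem_insert.1 hy with rfl | hy
    · exact hΛ.e1
    · rw [mem_singleton.1 hy]; exact hΛ.e2
  · by_contra h
    have := hG _ h
    simp only [add_sub_cancel_left] at this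
    exact hy (by simpa using this)

theorem Lat.Ok.sum_nnF {Λ : Lat} (hΛ : Λ.Ok) (B : Finset Pt) (h v : Pt → ℝ) (g : Pt × Pt → ℝ) :
    ∑ e ∈ Λ.edI B, nnF h v e * g e = ∑ x ∈ B with x + (1, 0) ∈ B, h x * g (x, x + (1, 0)) +
      ∑ x ∈ B with x + (0, 1) ∈ B, v x * g (x, x + (0, 1)) := by
  rw [hΛ.sum_nn B fun e he => nnF_ne (left_ne_zero_of_mul he)]
  simp only [nnF_h, nnF_v]

theorem Lat.Ok.sum_nnF_sq {Λ : Lat} (hΛ : Λ.Ok) (B : Finset Pt) (h v : Pt → ℝ) :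
    ∑ e ∈ Λ.edI B, nnF h v e ^ 2 ≤ ∑ x ∈ B, h x ^ 2 + ∑ x ∈ B, v x ^ 2 := by
  rw [hΛ.sum_nn B fun e he => nnF_ne (pow_ne_zero_iff two_ne_zero |>.1 he)]
  simp only [nnF_h, nnF_v]
  exact add_le_add (sum_le_sum_of_subset_of_nonneg (filter_subset _ _) fun _ _ _ => sq_nonneg _)
    (sum_le_sum_of_subset_of_nonneg (filter_subset _ _) fun _ _ _ => sq_nonneg _)

/-- horizontal routing: every row is neutral -/
theorem Lat.Ok.flow_rows {Λ : Lat} (hΛ : Λ.Ok) (a b c d : ℤ) {f : Pt → ℝ}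
    (hf : ∀ j ∈ Ico c d, ∑ i ∈ Ico a b, f (i, j) = 0) :
    IsFlow (Λ.edI (Ico a b ×ˢ Ico c d)) (Ico a b ×ˢ Ico c d) f
      (nnF (fun x => ∑ i ∈ Ico (x.1 + 1) b, f (i, x.2)) fun _ => 0) := by
  intro u
  rw [hΛ.sum_nnF, show (Ico a b ×ˢ Ico c d).filter (fun x : Pt => x + (1, 0) ∈ Ico a b ×ˢ Ico c d) =
    Ico a (b - 1) ×ˢ Ico c d by
      ext x; simp only [mem_filter, mem_product, mem_Ico, Prod.fst_add, Prod.snd_add]; omega]
  simp only [zero_mul, sum_const_zero, add_zero]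
  rw [sum_product_right, sum_product_right]
  refine sum_congr rfl fun j hj => ?_
  simpa using abel_Ico (fun i => f (i, j)) (fun i => u (i, j)) a b (hf j hj)

/-- vertical routing: every column is neutral -/
theorem Lat.Ok.flow_cols {Λ : Lat} (hΛ : Λ.Ok) (a b c d : ℤ) {f : Pt → ℝ}
    (hf : ∀ i ∈ Ico a b, ∑ j ∈ Ico c d, f (i, j) = 0) :
    IsFlow (Λ.edI (Ico a b ×ˢ Ico c d)) (Ico a b ×ˢ Ico c d) f
      (nnF (fun _ => 0) fun x => ∑ j ∈ Ico (x.2 + 1) d, f (x.1, j)) := by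
  intro u
  rw [hΛ.sum_nnF, show (Ico a b ×ˢ Ico c d).filter (fun x : Pt => x + (0, 1) ∈ Ico a b ×ˢ Ico c d) =
    Ico a b ×ˢ Ico c (d - 1) by
      ext x; simp only [mem_filter, mem_product, mem_Ico, Prod.fst_add, Prod.snd_add]; omega]
  simp only [zero_mul, sum_const_zero, zero_add]
  rw [sum_product, sum_product]
  refine sum_congr rfl fun i hi => ?_
  simpa using abel_Ico (fun j => f (i, j)) (fun j => u (i, j)) c d (hf i hi)

theorem nnF_add (h v h' v' : Pt → ℝ) (e : Pt × Pt) :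
    nnF h v e + nnF h' v' e = nnF (fun x => h x + h' x) (fun x => v x + v' x) e := by
  unfold nnF; split_ifs <;> simp

theorem sq_sum_abs_le {ι : Type*} (T : Finset ι) (g : ι → ℝ) :
    (∑ i ∈ T, |g i|) ^ 2 ≤ T.card * ∑ i ∈ T, g i ^ 2 := by
  simpa only [sq_abs] using sq_sum_le_card_mul_sum_sq (s := T) (f := fun i => |g i|)

/-- **R1, rows first.**  Horizontal values are at most twice the mass of the row, vertical values at most
the total mass over the width. -/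
theorem Lat.Ok.route_rows {Λ : Lat} (hΛ : Λ.Ok) (a b c d : ℤ) {f : Pt → ℝ}
    (hf : ∑ x ∈ Ico a b ×ˢ Ico c d, f x = 0) : ∃ h v : Pt → ℝ,
      IsFlow (Λ.edI (Ico a b ×ˢ Ico c d)) (Ico a b ×ˢ Ico c d) f (nnF h v) ∧
      (∀ x : Pt, a ≤ x.1 → |h x| ≤ 2 * ∑ i ∈ Ico a b, |f (i, x.2)|) ∧
      (∀ x : Pt, a ≤ x.1 → h x ^ 2 ≤ (Ico a b).card * ∑ i ∈ Ico a b, f (i, x.2) ^ 2) ∧
      ∀ x : Pt, c ≤ x.2 → |v x| ≤ (∑ y ∈ Ico a b ×ˢ Ico c d, |f y|) / (Ico a b).card := by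
  set n : ℝ := ((Ico a b).card : ℝ) with hn
  set R : ℤ → ℝ := fun j => (∑ i ∈ Ico a b, f (i, j)) / n with hR
  have hnR : ∀ j, n * R j = ∑ i ∈ Ico a b, f (i, j) := fun j => by
    rcases eq_or_ne n 0 with h0 | h0
    · rw [h0, zero_mul, card_eq_zero.1 (Nat.cast_eq_zero.1 (hn.symm.trans h0)), sum_empty]
    · exact mul_div_cancel₀ _ h0
  have h1 := hΛ.flow_rows a b c d (f := fun x => f x - R x.2) fun j _ => by
    simp only [sum_sub_distrib, sum_const, nsmul_eq_mul, ← hn, hnR, sub_self]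
  have h2 := hΛ.flow_cols a b c d (f := fun x => R x.2) fun i _ => by
    simp only [hR, ← sum_div]; rw [← sum_product_right, hf, zero_div]
  refine ⟨_, _, (h1.add h2).congr (fun x _ => by ring) fun e _ => (nnF_add _ _ _ _ e).symm,
    fun x hx => ?_, fun x hx => ?_, fun x hx => ?_⟩
  · rw [add_zero]
    refine (abs_tail_le (fun i => f (i, x.2) - R x.2) b (by omega : a ≤ x.1 + 1)).trans ?_
    refine (sum_le_sum fun i _ => abs_sub _ _).trans ?_
    rw [sum_add_distrib, sum_const, nsmul_eq_mul, ← hn, two_mul, ← abs_of_nonneg (hn ▸ Nat.cast_nonneg _ :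
      0 ≤ n), ← abs_mul, hnR]
    exact add_le_add le_rfl (abs_sum_le_sum_abs _ _)
  · rw [add_zero, ← sq_abs]
    refine (pow_le_pow_left₀ (abs_nonneg _)
      (abs_tail_le (fun i => f (i, x.2) - R x.2) b (by omega : a ≤ x.1 + 1)) 2).trans
      ((sq_sum_abs_le _ _).trans (mul_le_mul_of_nonneg_left ?_ (Nat.cast_nonneg _)))
    simp only [sub_sq, sum_add_distrib, sum_sub_distrib, ← sum_mul, ← mul_sum, sum_const,
      nsmul_eq_mul, ← hn, ← hnR]
    nlinarith [mul_nonneg (hn ▸ Nat.cast_nonneg _ : 0 ≤ n) (sq_nonneg (R x.2))]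
  · rw [zero_add]
    refine (abs_tail_le R d (by omega : c ≤ x.2 + 1)).trans ?_
    rw [sum_product_right, sum_div]
    refine sum_le_sum fun j _ => ?_
    rw [hR, abs_div, abs_of_nonneg (hn ▸ Nat.cast_nonneg _ : 0 ≤ n)]
    exact div_le_div_of_nonneg_right (abs_sum_le_sum_abs _ _) (hn ▸ Nat.cast_nonneg _)

/-- **R1, columns first.** -/
theorem Lat.Ok.route_cols {Λ : Lat} (hΛ : Λ.Ok) (a b c d : ℤ) {f : Pt → ℝ}
    (hf : ∑ x ∈ Ico a b ×ˢ Ico c d, f x = 0) : ∃ h v : Pt → ℝ,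
      IsFlow (Λ.edI (Ico a b ×ˢ Ico c d)) (Ico a b ×ˢ Ico c d) f (nnF h v) ∧
      (∀ x : Pt, a ≤ x.1 → |h x| ≤ (∑ y ∈ Ico a b ×ˢ Ico c d, |f y|) / (Ico c d).card) ∧
      ∀ x : Pt, c ≤ x.2 → |v x| ≤ 2 * ∑ j ∈ Ico c d, |f (x.1, j)| := by
  set n : ℝ := ((Ico c d).card : ℝ) with hn
  set R : ℤ → ℝ := fun i => (∑ j ∈ Ico c d, f (i, j)) / n with hR
  have hnR : ∀ i, n * R i = ∑ j ∈ Ico c d, f (i, j) := fun j => by
    rcases eq_or_ne n 0 with h0 | h0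
    · rw [h0, zero_mul, card_eq_zero.1 (Nat.cast_eq_zero.1 (hn.symm.trans h0)), sum_empty]
    · exact mul_div_cancel₀ _ h0
  have h1 := hΛ.flow_cols a b c d (f := fun x => f x - R x.1) fun j _ => by
    simp only [sum_sub_distrib, sum_const, nsmul_eq_mul, ← hn, hnR, sub_self]
  have h2 := hΛ.flow_rows a b c d (f := fun x => R x.1) fun i _ => by
    simp only [hR, ← sum_div]; rw [← sum_product, hf, zero_div]
  refine ⟨_, _, (h1.add h2).congr (fun x _ => by ring) fun e _ => (nnF_add _ _ _ _ e).symm,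
    fun x hx => ?_, fun x hx => ?_⟩
  · rw [zero_add]
    refine (abs_tail_le R b (by omega : a ≤ x.1 + 1)).trans ?_
    rw [sum_product, sum_div]
    refine sum_le_sum fun j _ => ?_
    rw [hR, abs_div, abs_of_nonneg (hn ▸ Nat.cast_nonneg _ : 0 ≤ n)]
    exact div_le_div_of_nonneg_right (abs_sum_le_sum_abs _ _) (hn ▸ Nat.cast_nonneg _)
  · rw [add_zero]
    refine (abs_tail_le (fun j => f (x.1, j) - R x.1) d (by omega : c ≤ x.2 + 1)).trans ?_
    refine (sum_le_sum fun i _ => abs_sub _ _).trans ?_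
    rw [sum_add_distrib, sum_const, nsmul_eq_mul, ← hn, two_mul, ← abs_of_nonneg (hn ▸ Nat.cast_nonneg _ :
      0 ≤ n), ← abs_mul, hnR]
    exact add_le_add le_rfl (abs_sum_le_sum_abs _ _)

/-! ## Rectangles, rows and columns -/

theorem mem_rc {a x : Pt} {n₁ n₂ : ℕ} :
    x ∈ rc a n₁ n₂ ↔ (a.1 ≤ x.1 ∧ x.1 < a.1 + n₁) ∧ a.2 ≤ x.2 ∧ x.2 < a.2 + n₂ := by
  simp only [rc, mem_product, mem_Ico]

theorem sq_eq_rc (a : Pt) (n : ℕ) : sq a n = rc a n n := rfl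

theorem card_Ico_add (a : ℤ) (n : ℕ) : (Ico a (a + n)).card = n := by simp

theorem card_rc (a : Pt) (n₁ n₂ : ℕ) : (rc a n₁ n₂).card = n₁ * n₂ := by
  rw [rc, card_product, card_Ico_add, card_Ico_add]

theorem rect_rc {a x y : Pt} {n₁ n₂ : ℕ} (hx : x ∈ rc a n₁ n₂) (hy : y ∈ rc a n₁ n₂) :
    Rect (rc a n₁ n₂) x y := fun z h1 h2 h3 h4 => by
  rw [mem_rc] at *; omega

theorem map_rc_add (a t : Pt) (n₁ n₂ : ℕ) :
    (rc a n₁ n₂).map (Equiv.addRight t).toEmbedding = rc (a + t) n₁ n₂ := by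
  ext x
  simp only [mem_map_equiv, mem_rc, Equiv.addRight_symm, Equiv.coe_addRight, Prod.fst_add,
    Prod.snd_add, Prod.fst_neg, Prod.snd_neg]
  omega

theorem Lat.Ok.anch_Nr_rc {Λ : Lat} (h : Λ.Ok) {a r : Pt} {n₁ n₂ : ℕ} (hr : r ∈ rc a n₁ n₂) :
    (Λ.Nr (rc a n₁ n₂) r).Anch := h.anch_Nr_rect fun _ hx => rect_rc hx hr

theorem Lat.Ok.cen_Nr_rc {Λ : Lat} (h : Λ.Ok) {a r : Pt} {n₁ n₂ : ℕ} (hr : r ∈ rc a n₁ n₂) :
    Cen ((Λ.Nr (rc a n₁ n₂) r).W 0) := (h.ctr_Nr _ _).cen (h.anch_Nr_rc hr)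

theorem Lat.edI_ends {Λ : Lat} (B : Finset Pt) : ∀ e ∈ Λ.edI B, e.1 ∈ B ∧ e.2 ∈ B :=
  fun _ he => (Lat.mem_edI.1 he).2

theorem Lat.edI_map_add (Λ : Lat) (B : Finset Pt) (t : Pt) :
    (Λ.edI B).map ((Equiv.addRight t).prodCongr (Equiv.addRight t)).toEmbedding =
      Λ.edI (B.map (Equiv.addRight t).toEmbedding) := by
  ext e
  simp only [mem_map_equiv, Lat.mem_edI, Equiv.prodCongr_symm, Equiv.prodCongr_apply, Prod.map_fst,
    Prod.map_snd, Equiv.addRight_symm, Equiv.coe_addRight, add_sub_add_right_eq_sub]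

theorem F2.shift {Λ : Lat} {B : Finset Pt} {f : Pt → ℝ} {n : ℝ} (h : F2 (Λ.edI B) f n) (t : Pt) :
    F2 (Λ.edI (B.map (Equiv.addRight t).toEmbedding)) (fun y => f (y - t)) n := by
  simpa only [Lat.edI_map_add, Equiv.addRight_symm, Equiv.coe_addRight, ← sub_eq_add_neg] using
    h.map (Equiv.addRight t)

theorem Fs.shift {Λ : Lat} {B : Finset Pt} {f : Pt → ℝ} {c : ℝ} (h : Fs (Λ.edI B) f c) (t : Pt) :
    Fs (Λ.edI (B.map (Equiv.addRight t).toEmbedding)) (fun y => f (y - t)) c := by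
  simpa only [Lat.edI_map_add, Equiv.addRight_symm, Equiv.coe_addRight, ← sub_eq_add_neg] using
    h.map (Equiv.addRight t)

theorem card_edI_le (Λ : Lat) (B : Finset Pt) : (Λ.edI B).card ≤ B.card * Λ.Jp.card := by
  rw [card_eq_sum_ones, Lat.sum_edI, mul_comm, ← smul_eq_mul, ← sum_const]
  exact sum_le_sum fun y _ => by rw [← card_eq_sum_ones]; exact card_filter_le _ _

theorem sum_row (S T : Finset ℤ) {t : ℤ} (ht : t ∈ T) (F : Pt → ℝ) :
    ∑ x ∈ (S ×ˢ T).filter (fun x => x.2 = t), F x = ∑ i ∈ S, F (i, t) := by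
  rw [sum_filter, sum_product]
  exact sum_congr rfl fun i _ => by simp [ht]

theorem sum_col (S T : Finset ℤ) {t : ℤ} (ht : t ∈ S) (F : Pt → ℝ) :
    ∑ x ∈ (S ×ˢ T).filter (fun x => x.1 = t), F x = ∑ j ∈ T, F (t, j) := by
  rw [sum_filter, sum_product_right]
  exact sum_congr rfl fun i _ => by simp [ht]

theorem card_row_le (a : Pt) (n₁ n₂ : ℕ) (t : ℤ) :
    ((rc a n₁ n₂).filter fun x => x.2 = t).card ≤ n₁ := by
  refine le_of_le_of_eq ?_ (card_Ico_add a.1 n₁)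
  exact card_le_card_of_injOn Prod.fst
    (fun x hx => mem_coe.2 (mem_product.1 (mem_filter.1 hx).1).1) fun x hx y hy h =>
      Prod.ext h ((mem_filter.1 hx).2.trans (mem_filter.1 hy).2.symm)

theorem card_col_le (a : Pt) (n₁ n₂ : ℕ) (t : ℤ) :
    ((rc a n₁ n₂).filter fun x => x.1 = t).card ≤ n₂ := by
  refine le_of_le_of_eq ?_ (card_Ico_add a.2 n₂)
  exact card_le_card_of_injOn Prod.snd
    (fun x hx => mem_coe.2 (mem_product.1 (mem_filter.1 hx).1).2) fun x hx y hy h =>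
      Prod.ext ((mem_filter.1 hx).2.trans (mem_filter.1 hy).2.symm) h

/-- R1 (a) -/
theorem Lat.Ok.r1_f2 {Λ : Lat} (hΛ : Λ.Ok) {a : Pt} {n₁ n₂ : ℕ} {f : Pt → ℝ}
    (hs : Sup (rc a n₁ n₂) f) (hf : ∑ x ∈ rc a n₁ n₂, f x = 0) :
    F2 (Λ.edI (rc a n₁ n₂)) f (((n₁ : ℝ) ^ 2 + (n₂ : ℝ) ^ 2) * ∑ x ∈ rc a n₁ n₂, f x ^ 2) := by
  obtain ⟨h, v, h1, -, h2, h3⟩ := hΛ.route_rows _ _ _ _ hf
  refine ⟨_, h1.eq_dv hs (Lat.edI_ends _), (hΛ.sum_nnF_sq _ h v).trans ?_⟩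
  rw [add_mul]
  rw [card_Ico_add] at h2 h3
  refine add_le_add ?_ ?_
  · refine (sum_le_sum fun x hx => h2 x (mem_rc.1 hx).1.1).trans (le_of_eq ?_)
    rw [rc, sum_product, sum_product_right]
    simp only [sum_const, card_Ico_add, nsmul_eq_mul, ← mul_sum]
    ring
  · refine (sum_le_card_nsmul _ _ ((n₂ : ℝ) / n₁ * ∑ x ∈ rc a n₁ n₂, f x ^ 2) fun x hx => ?_).trans ?_
    · have hp : (0 : ℝ) < n₁ := by have := mem_rc.1 hx; exact_mod_cast (by omega : 0 < n₁)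
      rw [← sq_abs]
      refine (pow_le_pow_left₀ (abs_nonneg _) (h3 x (mem_rc.1 hx).2.1) 2).trans ?_
      rw [div_pow, div_le_iff₀ (by positivity)]
      refine (sq_sum_abs_le (rc a n₁ n₂) f).trans (le_of_eq ?_)
      rw [card_rc]; push_cast; field_simp
    · rw [card_rc, nsmul_eq_mul, ← mul_assoc]
      refine mul_le_mul_of_nonneg_right ?_ (sum_nonneg fun _ _ => sq_nonneg _)
      rcases eq_or_ne (n₁ : ℝ) 0 with h0 | h0
      · rw [h0, div_zero, mul_zero]; positivity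
      · push_cast; exact le_of_eq (by field_simp)

/-- R1 (b), rows -/
theorem Lat.Ok.r1_rows {Λ : Lat} (hΛ : Λ.Ok) {a : Pt} {n₁ n₂ : ℕ} {f : Pt → ℝ}
    (hs : Sup (rc a n₁ n₂) f) (hf : ∑ x ∈ rc a n₁ n₂, f x = 0) {c : ℝ}
    (hc : ∀ t : ℤ, ∑ x ∈ (rc a n₁ n₂).filter (fun x => x.2 = t), |f x| ≤ c) :
    Fs (Λ.edI (rc a n₁ n₂)) f (c * (2 + (n₂ : ℝ) / n₁)) := by
  obtain ⟨h, v, h1, h2, -, h3⟩ := hΛ.route_rows _ _ _ _ hf
  have h0 : 0 ≤ c := (sum_nonneg fun _ _ => abs_nonneg _).trans (hc 0)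
  have hc' : ∀ t ∈ Ico a.2 (a.2 + n₂), ∑ i ∈ Ico a.1 (a.1 + n₁), |f (i, t)| ≤ c := fun t ht =>
    sum_row _ _ ht (fun x => |f x|) ▸ hc t
  have hq : 0 ≤ c * ((n₂ : ℝ) / n₁) := by positivity
  refine ⟨_, h1.eq_dv hs (Lat.edI_ends _), fun e he => abs_nnF_le (by positivity) ?_ ?_⟩
  · have := (Lat.mem_edI.1 he).2.1
    have h4 := hc' _ (mem_product.1 this).2
    have h5 := h2 _ (mem_rc.1 this).1.1
    linarith
  · have := (Lat.mem_edI.1 he).2.1
    refine (h3 _ (mem_rc.1 this).2.1).trans ?_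
    rw [card_Ico_add, sum_product_right]
    refine (div_le_div_of_nonneg_right (sum_le_card_nsmul _ _ c hc') (Nat.cast_nonneg _)).trans ?_
    rw [card_Ico_add, nsmul_eq_mul, mul_comm, mul_div_assoc]; linarith

/-- R1 (b), columns -/
theorem Lat.Ok.r1_cols {Λ : Lat} (hΛ : Λ.Ok) {a : Pt} {n₁ n₂ : ℕ} {f : Pt → ℝ}
    (hs : Sup (rc a n₁ n₂) f) (hf : ∑ x ∈ rc a n₁ n₂, f x = 0) {c : ℝ}
    (hc : ∀ t : ℤ, ∑ x ∈ (rc a n₁ n₂).filter (fun x => x.1 = t), |f x| ≤ c) :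
    Fs (Λ.edI (rc a n₁ n₂)) f (c * (2 + (n₁ : ℝ) / n₂)) := by
  obtain ⟨h, v, h1, h3, h2⟩ := hΛ.route_cols _ _ _ _ hf
  have h0 : 0 ≤ c := (sum_nonneg fun _ _ => abs_nonneg _).trans (hc 0)
  have hc' : ∀ t ∈ Ico a.1 (a.1 + n₁), ∑ j ∈ Ico a.2 (a.2 + n₂), |f (t, j)| ≤ c := fun t ht =>
    sum_col _ _ ht (fun x => |f x|) ▸ hc t
  have hq : 0 ≤ c * ((n₁ : ℝ) / n₂) := by positivity
  refine ⟨_, h1.eq_dv hs (Lat.edI_ends _), fun e he => abs_nnF_le (by positivity) ?_ ?_⟩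
  · have := (Lat.mem_edI.1 he).2.1
    refine (h3 _ (mem_rc.1 this).1.1).trans ?_
    rw [card_Ico_add, sum_product]
    refine (div_le_div_of_nonneg_right (sum_le_card_nsmul _ _ c hc') (Nat.cast_nonneg _)).trans ?_
    rw [card_Ico_add, nsmul_eq_mul, mul_comm, mul_div_assoc]; linarith
  · have := (Lat.mem_edI.1 he).2.1
    have h4 := hc' _ (mem_product.1 this).1
    have h5 := h2 _ (mem_rc.1 this).2.1
    linarith

theorem r1Stmt : R1Stmt := fun _ _ _ _ _ hΛ hs hf =>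
  ⟨hΛ.r1_f2 hs hf, fun _ => hΛ.r1_rows hs hf, fun _ => hΛ.r1_cols hs hf⟩

/-! ## Sides -/

theorem col_nonneg (n : ℕ) (c : ℤ) (x : Pt) : 0 ≤ col n c x :=
  div_nonneg (ind_nonneg _) (Nat.cast_nonneg _)

theorem row_nonneg (n : ℕ) (c : ℤ) (x : Pt) : 0 ≤ row n c x :=
  div_nonneg (ind_nonneg _) (Nat.cast_nonneg _)

theorem row_eq_col (n : ℕ) (c : ℤ) (x : Pt) : row n c x = col n c x.swap := rfl

theorem sup_col {n₁ n₂ : ℕ} {c : ℤ} (h0 : 0 ≤ c) (h1 : c < n₁) : Sup (rc 0 n₁ n₂) (col n₂ c) :=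
  fun x hx => by
    rw [col, ind_neg, zero_div]
    rw [mem_rc] at hx; simp only [Prod.fst_zero, Prod.snd_zero] at hx; omega

theorem sup_row {n₁ n₂ : ℕ} {c : ℤ} (h0 : 0 ≤ c) (h1 : c < n₂) : Sup (rc 0 n₁ n₂) (row n₁ c) :=
  fun x hx => by
    rw [row, ind_neg, zero_div]
    rw [mem_rc] at hx; simp only [Prod.fst_zero, Prod.snd_zero] at hx; omega

theorem sum_mul_col {n₁ n₂ : ℕ} {c : ℤ} (h0 : 0 ≤ c) (h1 : c < n₁) (u : Pt → ℝ) :
    ∑ x ∈ rc 0 n₁ n₂, col n₂ c x * u x = (∑ j ∈ Ico (0 : ℤ) n₂, u (c, j)) / n₂ := by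
  rw [← sum_col (Ico 0 n₁) _ (mem_Ico.2 ⟨h0, h1⟩), sum_div, sum_filter]
  simp only [rc, Prod.fst_zero, Prod.snd_zero, zero_add]
  refine sum_congr rfl fun x hx => ?_
  have := mem_Ico.1 (mem_product.1 hx).2
  simp only [col, ind_eq_ite, this, and_true]
  split_ifs <;> ring

theorem sum_mul_row {n₁ n₂ : ℕ} {c : ℤ} (h0 : 0 ≤ c) (h1 : c < n₂) (u : Pt → ℝ) :
    ∑ x ∈ rc 0 n₁ n₂, row n₁ c x * u x = (∑ i ∈ Ico (0 : ℤ) n₁, u (i, c)) / n₁ := by
  rw [← sum_row _ (Ico 0 n₂) (mem_Ico.2 ⟨h0, h1⟩), sum_div, sum_filter]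
  simp only [rc, Prod.fst_zero, Prod.snd_zero, zero_add]
  refine sum_congr rfl fun x hx => ?_
  have := mem_Ico.1 (mem_product.1 hx).1
  simp only [row, ind_eq_ite, this, and_true]
  split_ifs <;> ring

theorem sum_col_eq {n₁ n₂ : ℕ} {c : ℤ} (h0 : 0 ≤ c) (h1 : c < n₁) (hn : 1 ≤ n₂) :
    ∑ x ∈ rc 0 n₁ n₂, col n₂ c x = 1 := by
  have : (n₂ : ℝ) ≠ 0 := by positivity
  simpa [this] using sum_mul_col (n₂ := n₂) h0 h1 fun _ => 1

theorem sum_row_eq {n₁ n₂ : ℕ} {c : ℤ} (h0 : 0 ≤ c) (h1 : c < n₂) (hn : 1 ≤ n₁) :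
    ∑ x ∈ rc 0 n₁ n₂, row n₁ c x = 1 := by
  have : (n₁ : ℝ) ≠ 0 := by positivity
  simpa [this] using sum_mul_row (n₁ := n₁) h0 h1 fun _ => 1

theorem sum_ind_le_one {α : Type*} (S : Finset α) (y : α) : ∑ x ∈ S, ind (x = y) ≤ 1 := by
  classical
  simp only [ind_eq_ite, sum_ite_eq']
  split_ifs <;> norm_num

theorem row_sum_col_le (B : Finset Pt) (n : ℕ) (c t : ℤ) :
    ∑ x ∈ B.filter (fun x => x.2 = t), col n c x ≤ 1 / n := by
  simp only [col, ← sum_div]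
  exact div_le_div_of_nonneg_right ((sum_le_sum fun x hx => ind_mono fun h =>
    Prod.ext h.1 (mem_filter.1 hx).2).trans (sum_ind_le_one _ (c, t))) (Nat.cast_nonneg _)

theorem col_sum_row_le (B : Finset Pt) (n : ℕ) (c t : ℤ) :
    ∑ x ∈ B.filter (fun x => x.1 = t), row n c x ≤ 1 / n := by
  simp only [row, ← sum_div]
  exact div_le_div_of_nonneg_right ((sum_le_sum fun x hx => ind_mono fun h =>
    Prod.ext (mem_filter.1 hx).2 h.1).trans (sum_ind_le_one _ (t, c))) (Nat.cast_nonneg _)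

@[simp] theorem sd_zero (L : ℕ) : sd L 0 = col L (L - 1) := rfl
@[simp] theorem sd_one (L : ℕ) : sd L 1 = col L 0 := rfl
@[simp] theorem sd_two (L : ℕ) : sd L 2 = row L (L - 1) := rfl
@[simp] theorem sd_three (L : ℕ) : sd L 3 = row L 0 := rfl

theorem sd_nonneg (L : ℕ) (d : Fin 4) (x : Pt) : 0 ≤ sd L d x := by
  fin_cases d; exacts [col_nonneg .., col_nonneg .., row_nonneg .., row_nonneg ..]

theorem sup_sd {L : ℕ} (hL : 1 ≤ L) (d : Fin 4) : Sup (sq 0 L) (sd L d) := by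
  fin_cases d
  exacts [sup_col (by omega) (by omega), sup_col le_rfl (by omega), sup_row (by omega) (by omega),
    sup_row le_rfl (by omega)]

theorem sum_sd {L : ℕ} (hL : 1 ≤ L) (d : Fin 4) : ∑ x ∈ sq 0 L, sd L d x = 1 := by
  fin_cases d
  exacts [sum_col_eq (by omega) (by omega) hL, sum_col_eq le_rfl (by omega) hL,
    sum_row_eq (by omega) (by omega) hL, sum_row_eq le_rfl (by omega) hL]

theorem sup_side {L : ℕ} (hL : 1 ≤ L) (f : Fin 4 → ℝ) : Sup (sq 0 L) (side L f) := fun x hx =>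
  sum_eq_zero fun d _ => by rw [sup_sd hL d x hx, mul_zero]

theorem sum_side {L : ℕ} (hL : 1 ≤ L) (f : Fin 4 → ℝ) : ∑ x ∈ sq 0 L, side L f x = ∑ d, f d := by
  simp only [side]; rw [sum_comm]; simp only [← mul_sum, sum_sd hL, mul_one]

/-- the uniform density on the square -/
noncomputable def unif (L : ℕ) (x : Pt) : ℝ := ind (x ∈ sq 0 L) / (L : ℝ) ^ 2

theorem unif_nonneg (L : ℕ) (x : Pt) : 0 ≤ unif L x := div_nonneg (ind_nonneg _) (sq_nonneg _)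

theorem unif_le (L : ℕ) (x : Pt) : unif L x ≤ 1 / (L : ℝ) ^ 2 :=
  div_le_div_of_nonneg_right (ind_le_one _) (sq_nonneg _)

theorem sup_unif (L : ℕ) : Sup (sq 0 L) (unif L) := fun x hx => by rw [unif, ind_neg hx, zero_div]

theorem sum_unif {L : ℕ} (hL : 1 ≤ L) : ∑ x ∈ sq 0 L, unif L x = 1 := by
  have : (L : ℝ) ≠ 0 := by positivity
  rw [sum_congr rfl fun x hx => show unif L x = 1 / (L : ℝ) ^ 2 by rw [unif, ind_pos hx], sum_const,
    card_sq, nsmul_eq_mul]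
  push_cast; field_simp

theorem row_sum_le {L : ℕ} (hL : 1 ≤ L) {g : Pt → ℝ} {K : ℝ} (hg : ∀ x, |g x| ≤ K / (L : ℝ) ^ 2)
    (t : ℤ) : ∑ x ∈ (sq 0 L).filter (fun x => x.2 = t), |g x| ≤ K / L := by
  have hp : (0 : ℝ) < L := by positivity
  have h0 : 0 ≤ K / (L : ℝ) ^ 2 := (abs_nonneg _).trans (hg 0)
  refine (sum_le_card_nsmul _ _ _ fun x _ => hg x).trans ?_
  rw [nsmul_eq_mul]
  refine (mul_le_mul_of_nonneg_right (Nat.cast_le.2 (card_row_le 0 L L t)) h0).trans (le_of_eq ?_)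
  field_simp

theorem col_sum_le {L : ℕ} (hL : 1 ≤ L) {g : Pt → ℝ} {K : ℝ} (hg : ∀ x, |g x| ≤ K / (L : ℝ) ^ 2)
    (t : ℤ) : ∑ x ∈ (sq 0 L).filter (fun x => x.1 = t), |g x| ≤ K / L := by
  have hp : (0 : ℝ) < L := by positivity
  have h0 : 0 ≤ K / (L : ℝ) ^ 2 := (abs_nonneg _).trans (hg 0)
  refine (sum_le_card_nsmul _ _ _ fun x _ => hg x).trans ?_
  rw [nsmul_eq_mul]
  refine (mul_le_mul_of_nonneg_right (Nat.cast_le.2 (card_col_le 0 L L t)) h0).trans (le_of_eq ?_)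
  field_simp

/-- a bounded neutral density -/
theorem Lat.Ok.fs_dens {Λ : Lat} (hΛ : Λ.Ok) {L : ℕ} (hL : 1 ≤ L) {g : Pt → ℝ} {K : ℝ}
    (hs : Sup (sq 0 L) g) (hg : ∀ x, |g x| ≤ K / (L : ℝ) ^ 2) (h0 : ∑ x ∈ sq 0 L, g x = 0) :
    Fs (Λ.edI (sq 0 L)) g (3 * K / L) := by
  have : (L : ℝ) ≠ 0 := by positivity
  exact (hΛ.r1_rows hs h0 (row_sum_le hL hg)).mono (le_of_eq (by rw [div_self this]; ring))

/-- a side against the uniform density -/
theorem Lat.Ok.fs_sd {Λ : Lat} (hΛ : Λ.Ok) {L : ℕ} (hL : 1 ≤ L) (d : Fin 4) :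
    Fs (Λ.edI (sq 0 L)) (sd L d - unif L) (6 / L) := by
  have : (L : ℝ) ≠ 0 := by positivity
  have hs : Sup (sq 0 L) (sd L d - unif L) := fun x hx => by
    rw [Pi.sub_apply, sup_sd hL d x hx, sup_unif L x hx, sub_zero]
  have h0 : ∑ x ∈ sq 0 L, (sd L d - unif L) x = 0 := by
    simp only [Pi.sub_apply, sum_sub_distrib, sum_sd hL, sum_unif hL, sub_self]
  have hu : ∀ x, |unif L x| ≤ 1 / (L : ℝ) ^ 2 := fun x => by
    rw [abs_of_nonneg (unif_nonneg L x)]; exact unif_le L x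
  have hb : ∀ x, |(sd L d - unif L) x| ≤ sd L d x + |unif L x| := fun x =>
    (abs_sub _ _).trans (by rw [abs_of_nonneg (sd_nonneg L d x)])
  have e : (1 / L + 1 / L : ℝ) * (2 + (L : ℝ) / L) ≤ 6 / L := le_of_eq (by rw [div_self this]; ring)
  have hr : (∀ t, ∑ x ∈ (sq 0 L).filter (fun x => x.2 = t), sd L d x ≤ 1 / L) →
      Fs (Λ.edI (sq 0 L)) (sd L d - unif L) (6 / L) := fun h =>
    (hΛ.r1_rows hs h0 fun t => (sum_le_sum fun x _ => hb x).trans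
      (sum_add_distrib.le.trans (add_le_add (h t) (row_sum_le hL hu t)))).mono e
  have hc : (∀ t, ∑ x ∈ (sq 0 L).filter (fun x => x.1 = t), sd L d x ≤ 1 / L) →
      Fs (Λ.edI (sq 0 L)) (sd L d - unif L) (6 / L) := fun h =>
    (hΛ.r1_cols hs h0 fun t => (sum_le_sum fun x _ => hb x).trans
      (sum_add_distrib.le.trans (add_le_add (h t) (col_sum_le hL hu t)))).mono e
  fin_cases d
  exacts [hr (row_sum_col_le _ _ _), hr (row_sum_col_le _ _ _), hc (col_sum_row_le _ _ _),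
    hc (col_sum_row_le _ _ _)]

theorem r1cStmt : R1cStmt := by
  intro Λ L K q g f hΛ hL hs hg hf hq
  have hp : (0 : ℝ) < L := by positivity
  have hK : 0 ≤ K := (abs_nonneg _).trans (hf 0)
  set G := ∑ x ∈ sq 0 L, g x with hG
  have hGK : |G| ≤ K := by
    refine (abs_sum_le_sum_abs _ _).trans ((sum_le_card_nsmul _ _ _ fun x _ => hg x).trans ?_)
    rw [card_sq, nsmul_eq_mul]; push_cast; exact le_of_eq (by field_simp)
  have hQ : |2 * Real.pi * q| ≤ 5 * K := by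
    rw [← hq, Fin.sum_univ_four]
    have := abs_le.1 hGK; have := abs_le.1 (hf 0); have := abs_le.1 (hf 1)
    have := abs_le.1 (hf 2); have := abs_le.1 (hf 3)
    rw [abs_le]; constructor <;> linarith
  have h1 : Fs (Λ.edI (sq 0 L)) (g - G • unif L) (3 * (K + K) / L) := by
    refine hΛ.fs_dens hL (fun x hx => by simp [hs x hx, sup_unif L x hx]) (fun x => ?_) ?_
    · refine (abs_sub _ _).trans ?_
      rw [add_div, Pi.smul_apply, smul_eq_mul, abs_mul, abs_of_nonneg (unif_nonneg L x)]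
      exact add_le_add (hg x) ((mul_le_mul hGK (unif_le L x) (unif_nonneg L x) hK).trans
        (le_of_eq (by ring)))
    · simp only [Pi.sub_apply, Pi.smul_apply, smul_eq_mul, sum_sub_distrib, ← mul_sum, sum_unif hL,
        mul_one, ← hG, sub_self]
  have h2 := Fs.sum univ fun d _ => (hΛ.fs_sd hL d).smul (f d)
  refine ((h1.add h2).sub ((hΛ.fs_sd hL 0).smul (2 * Real.pi * q))).mono ?_ |>.congr ?_
  · have h3 : ∑ d, |f d| * (6 / (L : ℝ)) ≤ 4 * K * (6 / L) := by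
      rw [← sum_mul, Fin.sum_univ_four]
      exact mul_le_mul_of_nonneg_right (by linarith [hf 0, hf 1, hf 2, hf 3]) (by positivity)
    have h4 := mul_le_mul_of_nonneg_right hQ (by positivity : (0 : ℝ) ≤ 6 / L)
    have h5 : 0 ≤ K / L := by positivity
    calc _ ≤ 3 * (K + K) / L + 4 * K * (6 / L) + 5 * K * (6 / L) := by linarith
      _ = 60 * (K / L) := by ring
      _ ≤ 100 * K / L := by rw [mul_div_assoc]; linarith
  · funext x
    simp only [Pi.add_apply, Pi.sub_apply, Pi.smul_apply, smul_eq_mul, Finset.sum_apply, side,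
      mul_sub, sum_sub_distrib, ← sum_mul, ← hq]
    ring

end Crest.Agent.T145
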