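import Crest.Agent.T145.KvDef_8
import Crest.Agent.T145.Route_51

/-!
# Row 145, module Kv: DUAL (helper19)

`Kv.dualStmt : DualStmt`: twisted flows by duality (Riesz), lifting of plain flows, flow calculus.
-/

set_option autoImplicit false

namespace Crest.Agent.T145.Kv

open Finset
open Kr (cu)

namespace Du19

/-- Riesz: a functional dominated by a sum of squares is a combination of the squared functionals -/
theorem riesz {E ι : Type*} [AddCommGroup E] [Module ℝ E] (T : Finset ι) (G : ι → E →ₗ[ℝ] ℝ)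
    (l : E →ₗ[ℝ] ℝ) {n : ℝ} (hn : 0 ≤ n) (h : ∀ u, l u ^ 2 ≤ n * ∑ j ∈ T, G j u ^ 2) :
    ∃ φ : ι → ℝ, (∀ u, l u = ∑ j ∈ T, φ j * G j u) ∧ ∑ j ∈ T, φ j ^ 2 ≤ n := by
  classical
  let S : E →ₗ[ℝ] EuclideanSpace ℝ T :=
    (WithLp.linearEquiv 2 ℝ (T → ℝ)).symm.toLinearMap ∘ₗ LinearMap.pi fun j : T => G j.1
  have hS : ∀ u (j : T), S u j = G j.1 u := fun u e => rfl
  have hN : ∀ u, ‖S u‖ ^ 2 = ∑ j ∈ T, G j u ^ 2 := fun u => by
    rw [EuclideanSpace.real_norm_sq_eq, ← sum_coe_sort T]; rfl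
  have hk : LinearMap.ker S ≤ LinearMap.ker l := fun u hu => by
    have h1 := h u
    rw [← hN, LinearMap.mem_ker.1 hu] at h1
    exact (pow_eq_zero_iff two_ne_zero).1 (le_antisymm (a := l u ^ 2) (by simpa using h1) (sq_nonneg _))
  let L' : LinearMap.range S →ₗ[ℝ] ℝ :=
    (LinearMap.ker S).liftQ l hk ∘ₗ S.quotKerEquivRange.symm.toLinearMap
  have hL' : ∀ u, L' ⟨S u, LinearMap.mem_range_self S u⟩ = l u := fun u => by
    simp only [L', LinearMap.comp_apply, LinearEquiv.coe_coe,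
      LinearMap.quotKerEquivRange_symm_apply_image]
    rfl
  obtain ⟨⟨_, u₀, rfl⟩, hw⟩ := (InnerProductSpace.toDual ℝ (LinearMap.range S)).surjective
    (LinearMap.toContinuousLinearMap L')
  have h1 : ∀ u, l u = inner ℝ (S u₀) (S u) := fun u => by
    have := congrArg (fun f => f ⟨S u, LinearMap.mem_range_self S u⟩) hw
    simp only [InnerProductSpace.toDual_apply_apply, LinearMap.coe_toContinuousLinearMap', hL'] at this
    exact this.symm
  refine ⟨fun j => G j u₀, fun u => ?_, ?_⟩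
  · rw [h1, PiLp.inner_apply, ← sum_coe_sort T]
    exact sum_congr rfl fun e _ => by simp [hS, mul_comm]
  · have h2 := h u₀
    rw [h1, real_inner_self_eq_norm_sq, hN] at h2
    have h3 : 0 ≤ ∑ j ∈ T, G j u₀ ^ 2 := sum_nonneg fun _ _ => sq_nonneg _
    by_contra h4
    nlinarith [not_le.1 h4]

theorem pr_lin (l : (Pt → ℝ) →ₗ[ℝ] ℝ) (s : Cfg Pt) : pr (fun x => l (Pot.dl x)) s = l (cu s) := by
  have e : cu s = ∑ x ∈ s.support, (s x : ℝ) • Pot.dl x := by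
    funext y
    simp only [cu, Finset.sum_apply, Pi.smul_apply, Pi.single_apply, smul_eq_mul, mul_ite, mul_one,
      mul_zero, sum_ite_eq, Finsupp.mem_support_iff]
    split_ifs with h
    · rfl
    · rw [not_not.1 h, Int.cast_zero]
  rw [e, map_sum, pr_eq_sum]
  exact sum_congr rfl fun x _ => by rw [map_smul, smul_eq_mul, mul_comm]

theorem gfl_apply {G : Type} [AddCommGroup G] (ed : Finset (Pt × Pt)) (φ : Pt × Pt → ℝ)
    (g : Pt × Pt → G →+ ℤ) (s : G) : gfl ed φ g s = ∑ e ∈ ed, φ e * (g e s : ℝ) := by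
  simp [gfl, AddMonoidHom.finsetSum_apply]

variable (V : Gv)

theorem gk_apply (e : Pt × Pt) (s : Cfg Pt) :
    V.gk e s = dE e s + V.s1 e * s V.k1 + V.s2 e * s V.k2 := by
  simp [Gv.gk, dE]

theorem Gk_cu (e : Pt × Pt) (s : Cfg Pt) : V.Gk e (cu s) = V.gk e s := by
  simp [Gv.Gk, gk_apply, dE, cu]

theorem eT_self (ed : Finset (Pt × Pt)) (u : Pt → ℝ) : V.eT ed u u = ∑ e ∈ ed, V.Gk e u ^ 2 := by
  simp only [Gv.eT, Pot.sqF_apply, one_mul, pow_two]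

variable {V} {ed ed' : Finset (Pt × Pt)} {f f' : Pt → ℝ} {n n' : ℝ}

theorem fx_dual (l : (Pt → ℝ) →ₗ[ℝ] ℝ) (hn : 0 ≤ n) (h : ∀ u, l u ^ 2 ≤ n * V.eT ed u u) :
    V.Fx ed (fun x => l (Pot.dl x)) n := by
  simp only [eT_self] at h
  obtain ⟨φ, h1, h2⟩ := riesz ed V.Gk l hn h
  exact ⟨φ, fun s => by rw [pr_lin, h1]; simp only [gfl_apply, Gk_cu], h2⟩

theorem fx_lift (φ : Pt × Pt → ℝ) (h : ∑ e ∈ ed, φ e ^ 2 ≤ n) :
    V.Fx ed (dv ed φ + (∑ e ∈ ed, φ e * V.s1 e) • Pot.dl V.k1 +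
      (∑ e ∈ ed, φ e * V.s2 e) • Pot.dl V.k2) n := by
  refine ⟨φ, fun s => ?_, h⟩
  simp only [pr_add, pr_smul, AddMonoidHom.add_apply, AddMonoidHom.smul_apply, smul_eq_mul, pr_dv,
    pr_pi_single, one_mul, gfl_apply, gk_apply, sum_mul, ← sum_add_distrib]
  exact sum_congr rfl fun e _ => by push_cast; ring

theorem fx_subset (h : V.Fx ed f n) (hE : ed ⊆ ed') : V.Fx ed' f n := by
  obtain ⟨φ, h1, h2⟩ := h
  refine ⟨fun e => if e ∈ ed then φ e else 0, fun s => ?_, ?_⟩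
  · simp only [h1 s, gfl_apply, ite_mul, zero_mul, sum_ite_mem, inter_eq_right.2 hE]
  · simpa only [ite_pow, ne_eq, OfNat.ofNat_ne_zero, not_false_eq_true, zero_pow, sum_ite_mem,
      inter_eq_right.2 hE] using h2

theorem fx_mono (h : V.Fx ed f n) (hn : n ≤ n') : V.Fx ed f n' := h.imp fun _ h => ⟨h.1, h.2.trans hn⟩

theorem fx_smul (h : V.Fx ed f n) (c : ℝ) : V.Fx ed (c • f) (c ^ 2 * n) := by
  obtain ⟨φ, h1, h2⟩ := h
  refine ⟨fun e => c * φ e, fun s => ?_, ?_⟩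
  · simp only [pr_smul, AddMonoidHom.smul_apply, smul_eq_mul, h1 s, gfl_apply, mul_sum, mul_assoc]
  · simp only [mul_pow, ← mul_sum]
    exact mul_le_mul_of_nonneg_left h2 (sq_nonneg c)

theorem fx_add (h : V.Fx ed f n) (h' : V.Fx ed f' n') : V.Fx ed (f + f') (2 * n + 2 * n') := by
  obtain ⟨φ, h1, h2⟩ := h
  obtain ⟨ψ, h3, h4⟩ := h'
  refine ⟨fun e => φ e + ψ e, fun s => ?_, ?_⟩
  · simp only [pr_add, AddMonoidHom.add_apply, h1 s, h3 s, gfl_apply, add_mul, sum_add_distrib]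
  · calc _ ≤ ∑ e ∈ ed, 2 * (φ e ^ 2 + ψ e ^ 2) :=
          sum_le_sum fun e _ => by nlinarith [sq_nonneg (φ e - ψ e)]
      _ ≤ _ := by rw [← mul_sum, sum_add_distrib]; linarith

theorem fx_shift (h : V.Fx ed f n) {U : Finset Pt} (h1 : V.k1 ∉ U) (h2 : V.k2 ∉ U)
    (hE : ∀ e ∈ ed, e.1 ∈ U ∧ e.2 ∈ U) (s : Cfg Pt) (i : ℤ) : pr f (s + cst U i) = pr f s := by
  obtain ⟨φ, h3, -⟩ := h
  simp only [h3, gfl_apply]
  refine sum_congr rfl fun e he => ?_
  simp [gk_apply, dE, cst_apply, h1, h2, (hE e he).1, (hE e he).2]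

end Du19

open Du19

/-- DUAL -/
theorem dualStmt : DualStmt := fun V ed n =>
  ⟨fun l => ⟨pr_lin l, fx_dual l⟩, fun _ ⟨φ, h1, h2⟩ => ⟨_, _, h1 ▸ fx_lift φ h2,
    fun h => sum_eq_zero fun e he => by rw [h e he, Int.cast_zero, mul_zero],
    fun h => sum_eq_zero fun e he => by rw [h e he, Int.cast_zero, mul_zero]⟩,
  fun _ h => ⟨fun _ => fx_subset h, fx_smul h, fun _ _ => fx_add h, fx_shift h⟩⟩

end Crest.Agent.T145.Kv
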