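import Crest.Agent.T145.KrDef_77
import Crest.Agent.T145.NcGeo_51

/-!
# Row 145, module KERNEL: geometry of the condenser (helper87, task ALG-GEO)

The geometric fields of `Gm.Alg` (`r_le` .. `cells`, `map_an`, `sym`), the group `gp`, its action `ga`,
membership and inclusion lemmas for `In`, `A`, `Ou`, `Om`, `Ga`, `mid` and their edges.
-/

set_option autoImplicit false

namespace Crest.Agent.T145.Kr.Geo87

open Finset Nc

/-! ## The group of the square -/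

/-- the index set -/
abbrev D8 : Type := Fin 4 × Fin 2

@[simp] theorem rot_apply (x : Pt) : rotZ 0 x = (-x.2, x.1) := by ext <;> simp [rotZ]
@[simp] theorem swp_apply (x : Pt) : swpZ 0 x = (x.2, x.1) := by ext <;> simp [swpZ]

/-- the matrix of `gp k` -/
def mt (k : D8) : ℤ × ℤ × ℤ × ℤ :=
  ![![(1, 0, 0, 1), (0, 1, 1, 0)], ![(0, -1, 1, 0), (-1, 0, 0, 1)], ![(-1, 0, 0, -1), (0, -1, -1, 0)],
    ![(0, 1, -1, 0), (1, 0, 0, -1)]] k.1 k.2

theorem gp_apply (k : D8) (x : Pt) :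
    gp k x = ((mt k).1 * x.1 + (mt k).2.1 * x.2, (mt k).2.2.1 * x.1 + (mt k).2.2.2 * x.2) := by
  obtain ⟨a, b⟩ := k
  fin_cases a <;> fin_cases b <;> simp [gp, mt, pow_succ, Equiv.Perm.mul_apply]

theorem gp_one : gp (0, 0) = 1 := by simp [gp]
theorem gp_rot : gp (1, 0) = rotZ 0 := by simp [gp]
theorem gp_swp : gp (0, 1) = swpZ 0 := by simp [gp]

/-- the eight formulas -/
theorem gp_cases (k : D8) : (∀ x, gp k x = (x.1, x.2)) ∨ (∀ x, gp k x = (x.2, x.1)) ∨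
    (∀ x, gp k x = (-x.2, x.1)) ∨ (∀ x, gp k x = (-x.1, x.2)) ∨ (∀ x, gp k x = (-x.1, -x.2)) ∨
    (∀ x, gp k x = (-x.2, -x.1)) ∨ (∀ x, gp k x = (x.2, -x.1)) ∨ ∀ x, gp k x = (x.1, -x.2) := by
  obtain ⟨a, b⟩ := k
  fin_cases a <;> fin_cases b <;> simp [gp_apply, mt]

/-- induction over the group -/
theorem gp_ind {P : Equiv.Perm Pt → Prop} (h1 : P 1) (hr : P (rotZ 0)) (hs : P (swpZ 0))
    (hm : ∀ φ ψ, P φ → P ψ → P (φ * ψ)) (k : D8) : P (gp k) := by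
  have hp : ∀ φ, P φ → ∀ n : ℕ, P (φ ^ n) := fun φ h n => by
    induction n with
    | zero => simpa using h1
    | succ n ih => rw [pow_succ]; exact hm _ _ ih h
  exact hm _ _ (hp _ hr _) (hp _ hs _)

/-- product and inverse of indices -/
def gm (k k' : D8) : D8 := (if k.2 = 0 then k.1 + k'.1 else k.1 - k'.1, k.2 + k'.2)
def gi (k : D8) : D8 := (if k.2 = 0 then -k.1 else k.1, k.2)

theorem mt_gm : ∀ k k' : D8, mt (gm k k') =
    ((mt k).1 * (mt k').1 + (mt k).2.1 * (mt k').2.2.1, (mt k).1 * (mt k').2.1 + (mt k).2.1 * (mt k').2.2.2,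
      (mt k).2.2.1 * (mt k').1 + (mt k).2.2.2 * (mt k').2.2.1,
      (mt k).2.2.1 * (mt k').2.1 + (mt k).2.2.2 * (mt k').2.2.2) := by decide

theorem gp_gm (k k' : D8) : gp (gm k k') = gp k * gp k' := by
  ext x <;> simp only [Equiv.Perm.mul_apply, gp_apply, mt_gm] <;> ring

theorem gm_gi : ∀ k : D8, gm k (gi k) = (0, 0) := by decide
theorem gi_gm : ∀ k : D8, gm (gi k) k = (0, 0) := by decide
theorem gi_gi : ∀ k : D8, gi (gi k) = k := by decide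
theorem gm_assoc : ∀ k k' k'' : D8, gm (gm k k') k'' = gm k (gm k' k'') := by decide
theorem gm_one : ∀ k : D8, gm k (0, 0) = k := by decide
theorem one_gm : ∀ k : D8, gm (0, 0) k = k := by decide

theorem gp_gi (k : D8) : gp (gi k) = (gp k)⁻¹ :=
  eq_inv_of_mul_eq_one_left (by rw [← gp_gm, gi_gm, gp_one])

theorem gp_symm (k : D8) : (gp k).symm = gp (gi k) := (gp_gi k).symm

/-- right and left multiplication and inversion as permutations of the indices -/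
def gR (k' : D8) : D8 ≃ D8 :=
  ⟨fun k => gm k k', fun k => gm k (gi k'), fun k => by simp only [gm_assoc, gm_gi, gm_one],
    fun k => by simp only [gm_assoc, gi_gm, gm_one]⟩
def gL (k' : D8) : D8 ≃ D8 :=
  ⟨fun k => gm k' k, fun k => gm (gi k') k, fun k => by simp only [← gm_assoc, gi_gm, one_gm],
    fun k => by simp only [← gm_assoc, gm_gi, one_gm]⟩
def gI : D8 ≃ D8 := ⟨gi, gi, gi_gi, gi_gi⟩

theorem card_D8 : Fintype.card D8 = 8 := by simp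

theorem gp_zero (k : D8) : gp k 0 = 0 := by rw [gp_apply]; ext <;> simp
theorem gp_add (k : D8) (x y : Pt) : gp k (x + y) = gp k x + gp k y := by
  simp only [gp_apply]; ext <;> simp <;> ring
theorem gp_neg (k : D8) (x : Pt) : gp k (-x) = -gp k x := by
  simp only [gp_apply]; ext <;> simp <;> ring
theorem gp_sub (k : D8) (x y : Pt) : gp k (x - y) = gp k x - gp k y := by
  simp only [gp_apply]; ext <;> simp <;> ring

theorem gp_mem_bl (k : D8) {x : Pt} {R : ℕ} : gp k x ∈ bl 0 R ↔ x ∈ bl 0 R := by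
  rcases gp_cases k with h | h | h | h | h | h | h | h <;>
    simp only [h, mem_bl, Prod.fst_zero, Prod.snd_zero] <;> omega

theorem gp_mem_bl' (k : D8) {x z : Pt} {R : ℕ} : gp k x ∈ bl (gp k z) R ↔ x ∈ bl z R := by
  rcases gp_cases k with h | h | h | h | h | h | h | h <;> simp only [h, mem_bl] <;> omega

theorem gp_mem_an (k : D8) {x : Pt} {c R : ℕ} : gp k x ∈ an 0 c R ↔ x ∈ an 0 c R := by
  rw [Geo.mem_an, Geo.mem_an, gp_mem_bl, gp_mem_bl]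

theorem gp_sq (k : D8) (x : Pt) :
    ((gp k x).1 : ℝ) ^ 2 + ((gp k x).2 : ℝ) ^ 2 = (x.1 : ℝ) ^ 2 + (x.2 : ℝ) ^ 2 := by
  rcases gp_cases k with h | h | h | h | h | h | h | h <;> simp only [h] <;> push_cast <;> ring

theorem eu_gp (k : D8) (x : Pt) : Pot.eu (gp k x) = Pot.eu x := by rw [Pot.eu, gp_sq, Pot.eu]

/-- a set invariant under the group -/
def Iv (U : Finset Pt) : Prop := ∀ k x, gp k x ∈ U ↔ x ∈ U

theorem iv_bl (R : ℕ) : Iv (bl 0 R) := fun k _ => gp_mem_bl k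
theorem iv_an (c R : ℕ) : Iv (an 0 c R) := fun k _ => gp_mem_an k

theorem Iv.map {U : Finset Pt} (h : Iv U) (k : D8) : U.map (gp k).toEmbedding = U := by
  ext x; rw [mem_map_equiv, gp_symm, h]

theorem Iv.sum {U : Finset Pt} (h : Iv U) (k : D8) (f : Pt → ℝ) : ∑ x ∈ U, f (gp k x) = ∑ x ∈ U, f x := by
  conv_rhs => rw [← h.map k, sum_map]
  rfl

/-- field `map_an` -/
theorem map_an (k : D8) (c R : ℕ) : (an 0 c R).map (gp k).toEmbedding = an 0 c R ∧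
    (bl 0 R).map (gp k).toEmbedding = bl 0 R := ⟨(iv_an c R).map k, (iv_bl R).map k⟩

theorem gp_mem_J {Λ : Lat} (hΛ : Λ.Ok) (k : D8) {y : Pt} : gp k y ∈ Λ.J ↔ y ∈ Λ.J := by
  have key : ∀ (k : D8) (y : Pt), y ∈ Λ.J → gp k y ∈ Λ.J := fun k =>
    gp_ind (P := fun φ => ∀ y ∈ Λ.J, φ y ∈ Λ.J) (fun _ h => h)
      (fun _ h => by rw [rot_apply]; exact hΛ.rot h) (fun _ h => by rw [swp_apply]; exact hΛ.swap h)
      (fun _ _ h h' y hy => h _ (h' y hy)) k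
  refine ⟨fun h => ?_, key k y⟩
  have := key (gi k) _ h
  rwa [← gp_symm, Equiv.symm_apply_apply] at this

/-- field `sym` -/
theorem sym (k : D8) (Λ : Lat) (hΛ : Λ.Ok) : Λ.Sym (gp k) := fun x y => by
  rw [← gp_sub, gp_mem_J hΛ]

theorem gp_mem_nn (k : D8) {y : Pt} : gp k y ∈ nn ↔ y ∈ nn := gp_mem_J Pot.nL_ok k

theorem sym_nL (k : D8) : Pot.nL.Sym (gp k) := sym k _ Pot.nL_ok

/-! ## The action on configurations -/

theorem ga_apply (k : D8) (s : Cfg Pt) (x : Pt) : ga k s x = s (gp (gi k) x) := by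
  rw [ga_eq, mapH_apply, gp_symm]

theorem ga_gp (k : D8) (s : Cfg Pt) (x : Pt) : ga k s (gp k x) = s x := by
  rw [ga_eq, mapH_apply, Equiv.symm_apply_apply]

theorem ga_one (s : Cfg Pt) : ga (0, 0) s = s := by
  ext x; rw [ga_eq, mapH_apply, gp_one]; rfl

theorem ga_rot (s : Cfg Pt) : ga (1, 0) s = mapH (rotZ 0) s := by rw [ga_eq, gp_rot]
theorem ga_swp (s : Cfg Pt) : ga (0, 1) s = mapH (swpZ 0) s := by rw [ga_eq, gp_swp]

theorem ga_ga (k k' : D8) (s : Cfg Pt) : ga k (ga k' s) = ga (gm k k') s := by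
  ext x; simp only [ga_eq, mapH_apply, gp_gm]; rfl

theorem ga_gi (k : D8) (s : Cfg Pt) : ga (gi k) (ga k s) = s := by rw [ga_ga, gi_gm, ga_one]
theorem ga_gi' (k : D8) (s : Cfg Pt) : ga k (ga (gi k) s) = s := by rw [ga_ga, gm_gi, ga_one]

theorem ga_zero (k : D8) : ga k 0 = 0 := map_zero (mapH (gp k))
theorem ga_add (k : D8) (s t : Cfg Pt) : ga k (s + t) = ga k s + ga k t := map_add (mapH (gp k)) s t
theorem ga_neg (k : D8) (s : Cfg Pt) : ga k (-s) = -ga k s := map_neg (mapH (gp k)) s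
theorem ga_sub (k : D8) (s t : Cfg Pt) : ga k (s - t) = ga k s - ga k t := map_sub (mapH (gp k)) s t

theorem ga_cst {U : Finset Pt} (h : Iv U) (k : D8) (i : ℤ) : ga k (cst U i) = cst U i := by
  rw [ga_eq, mapH_cst, h.map]

theorem ga_resH {U : Finset Pt} (h : Iv U) (k : D8) (s : Cfg Pt) :
    ga k (resH U s) = resH U (ga k s) := by
  ext x; simp only [ga_apply, resH_apply, h (gi k) x]

theorem pr_ga (k : D8) (f : Pt → ℝ) (s : Cfg Pt) : pr f (ga k s) = pr (f ∘ gp k) s := pr_mapH _ _ _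

theorem cu_ga (k : D8) (s : Cfg Pt) : cu (ga k s) ∘ gp k = cu s := by
  funext x; simp only [cu, Function.comp, ga_gp]

theorem cu_ga' (k : D8) (s : Cfg Pt) : cu (ga k s) = cu s ∘ gp (gi k) := by
  funext x; simp only [cu, Function.comp, ga_apply]

/-- averages over the group -/
theorem sum_ga_right {M : Type*} [AddCommMonoid M] (k' : D8) (f : Cfg Pt → M) (s : Cfg Pt) :
    ∑ k, f (ga k (ga k' s)) = ∑ k, f (ga k s) := by
  simp only [ga_ga]; exact (gR k').sum_comp fun k => f (ga k s)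

theorem sum_ga_left {M : Type*} [AddCommMonoid M] (k' : D8) (f : Cfg Pt → M) (s : Cfg Pt) :
    ∑ k, f (ga k' (ga k s)) = ∑ k, f (ga k s) := by
  simp only [ga_ga]; exact (gL k').sum_comp fun k => f (ga k s)

theorem sum_ga_inv {M : Type*} [AddCommMonoid M] (f : Cfg Pt → M) (s : Cfg Pt) :
    ∑ k, f (ga (gi k) s) = ∑ k, f (ga k s) := gI.sum_comp fun k => f (ga k s)

theorem forall_ga (k' : D8) (P : Cfg Pt → Prop) (s : Cfg Pt) :
    (∀ k, P (ga k (ga k' s))) ↔ ∀ k, P (ga k s) := by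
  refine ⟨fun h k => ?_, fun h k => by rw [ga_ga]; exact h _⟩
  have := h (gm k (gi k'))
  rwa [ga_ga, gm_assoc, gi_gm, gm_one] at this

theorem d4_iff (F : Cfg Pt → ℝ) : D4 0 F ↔ ∀ k s, F (ga k s) = F s := by
  refine ⟨fun h k => ?_, fun h s => ⟨by rw [← ga_rot, h], by rw [← ga_swp, h]⟩⟩
  refine gp_ind (P := fun φ => ∀ s, F (mapH φ s) = F s) (fun s => ?_) (fun s => (h s).1)
    (fun s => (h s).2) (fun φ ψ h₁ h₂ s => ?_) k
  · exact congrArg F (Finsupp.ext fun _ => rfl)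
  · rw [← h₂ s, ← h₁ (mapH ψ s)]; exact congrArg F (Finsupp.ext fun _ => rfl)

/-- invariance of a function on the lattice -/
theorem comp_gp {β : Type*} {f : Pt → β} (hr : f ∘ rotZ 0 = f) (hs : f ∘ swpZ 0 = f) (k : D8) :
    f ∘ gp k = f :=
  gp_ind (P := fun φ => f ∘ φ = f) rfl hr hs
    (fun φ ψ h₁ h₂ => by rw [Equiv.Perm.coe_mul, ← Function.comp_assoc, h₁, h₂]) k

theorem depG_ga {U : Finset Pt} (h : Iv U) (k : D8) {F : Cfg Pt → ℝ} (hF : DepG U F) :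
    DepG U fun s => F (ga k s) := fun _ _ j hs =>
  hF _ _ j fun x hx => by simp only [ga_apply]; exact hs _ ((h _ _).2 hx)

theorem co_rot : co 0 ∘ rotZ 0 = -co 1 ∧ co 1 ∘ rotZ 0 = co 0 := by
  constructor <;> funext x <;> simp [co]
theorem co_swp : co 0 ∘ swpZ 0 = co 1 ∧ co 1 ∘ swpZ 0 = co 0 := by
  constructor <;> funext x <;> simp [co]

/-! ## Scales -/

variable {G : Gm} {W : ℝ}

theorem rho_pos (G : Gm) : 0 < G.rho := Nat.two_pow_pos _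

theorem r_R (h : G.Ok W) : 1024 * G.r ≤ G.R := by
  have h1 : (1024 : ℝ) * G.r ≤ W * G.r := mul_le_mul_of_nonneg_right h.hW (Nat.cast_nonneg _)
  exact_mod_cast h1.trans h.lo

/-- field `rho_le` -/
theorem rho_le (h : G.Ok W) : 32 * G.rho ≤ G.R := by
  have h1 := r_R h
  have h2 := h.hr
  have : G.rho ≤ G.R / 32 := Nat.pow_log_le_self 2 (by omega)
  omega

theorem lt_rho (G : Gm) : G.R < 64 * G.rho := by
  have : G.R / 32 < 2 ^ (G.p + 1) := Nat.lt_pow_succ_log_self one_lt_two _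
  rw [pow_succ] at this
  unfold Gm.rho
  omega

/-- field `le_rho` -/
theorem le_rho (G : Gm) : G.R ≤ 64 * G.rho := (lt_rho G).le

/-- field `r_le` -/
theorem r_le (h : G.Ok W) : 16 * G.r ≤ G.rho := by
  have := r_R h
  have := lt_rho G
  omega

theorem rho_ge (h : G.Ok W) : 1024 ≤ G.rho := by
  have := r_le h
  have := h.hr
  omega

theorem p_ge (h : G.Ok W) : 10 ≤ G.p := by
  have h1 : 2 ^ 10 ≤ 2 ^ G.p := rho_ge h
  exact (Nat.pow_le_pow_iff_right one_lt_two).1 h1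

/-- all the inequalities between the scales, for `omega` -/
theorem scales (h : G.Ok W) : 2 * G.c ≤ G.r ∧ 64 ≤ G.r ∧ 16 * G.r ≤ G.rho ∧ 32 * G.rho ≤ G.R ∧
    G.R < 64 * G.rho ∧ 1024 * G.r ≤ G.R ∧ 2 * G.R ≤ G.R₂ :=
  ⟨h.hc, h.hr, r_le h, rho_le h, lt_rho G, r_R h, h.out⟩

theorem rho_eq {q : ℕ} (hq : q ≤ G.p) : G.rho = 2 ^ q * 2 ^ (G.p - q) := by
  rw [← pow_add, Nat.add_sub_cancel' hq]; rfl

theorem W_pos (h : G.Ok W) : 0 < W := by linarith [h.hW]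

theorem ratio (h : G.Ok W) : W ≤ (G.R : ℝ) / G.r ∧ (G.R : ℝ) / G.r ≤ 2 * W := by
  have hr : (0 : ℝ) < G.r := by exact_mod_cast (by have := h.hr; omega : 0 < G.r)
  exact ⟨(le_div_iff₀ hr).2 h.lo, (div_le_iff₀ hr).2 h.hi⟩

theorem ms_pos (G : Gm) (a : ℕ) : 0 < G.ms a := by
  have : (0 : ℝ) < G.rho := by exact_mod_cast rho_pos G
  unfold Gm.ms; positivity

theorem ms_rho (G : Gm) (a : ℕ) : G.ms a * (G.rho : ℝ) ^ 2 = 4 ^ a := by
  have : (0 : ℝ) < G.rho := by exact_mod_cast rho_pos G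
  rw [Gm.ms, div_pow, div_mul_cancel₀ _ (by positivity), ← pow_mul, mul_comm, pow_mul]; norm_num

/-! ## The ring -/

theorem mem_Ga {x : Pt} : x ∈ G.Ga ↔
    (-(2 * G.rho : ℤ) ≤ x.1 ∧ x.1 < 2 * G.rho ∧ -(2 * G.rho : ℤ) ≤ x.2 ∧ x.2 < 2 * G.rho) ∧
      ¬ (-(G.rho : ℤ) ≤ x.1 ∧ x.1 < G.rho ∧ -(G.rho : ℤ) ≤ x.2 ∧ x.2 < G.rho) := by
  simp only [Gm.Ga, mem_sdiff, mem_sq]; push_cast; omega

/-- field `Ga_sub` -/
theorem Ga_sub (G : Gm) : G.Ga ⊆ an 0 (G.rho - 1) (2 * G.rho) := fun x hx => by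
  have := rho_pos G
  rw [mem_Ga] at hx
  simp only [Geo.mem_an, mem_bl, Prod.fst_zero, Prod.snd_zero]; omega

/-- field `sub_Ga` -/
theorem sub_Ga (G : Gm) : an 0 G.rho (2 * G.rho - 1) ⊆ G.Ga := fun x hx => by
  have := rho_pos G
  rw [mem_Ga]
  simp only [Geo.mem_an, mem_bl, Prod.fst_zero, Prod.snd_zero] at hx; omega

/-- field `card_Ga` -/
theorem card_Ga (G : Gm) : G.Ga.card = 12 * G.rho ^ 2 := by
  rw [Gm.Ga, card_sdiff_of_subset (sq_subset_sq (by simp only; omega) (by simp only; omega)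
    (by simp only; push_cast; omega) (by simp only; push_cast; omega)), card_sq, card_sq]
  have : (4 * G.rho) ^ 2 = 12 * G.rho ^ 2 + (2 * G.rho) ^ 2 := by ring
  omega

theorem Ga_nonempty (G : Gm) : G.Ga.Nonempty := by
  have := rho_pos G
  rw [← card_pos, card_Ga]; positivity

/-- the corner of the cell of side `2 ^ q` that contains `x` -/
def cn (q : ℕ) (x : Pt) : Pt := tile 0 (2 ^ q) (tileOf 0 (2 ^ q) x)

theorem mem_cn (q : ℕ) (x : Pt) : x ∈ sq (cn q x) (2 ^ q) := (mem_tile_iff (Nat.two_pow_pos q)).2 rfl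

theorem mem_cor {q : ℕ} {i : Pt} : i ∈ G.cor q ↔ i ∈ G.Ga ∧ (2 ^ q : ℤ) ∣ i.1 ∧ (2 ^ q : ℤ) ∣ i.2 :=
  mem_filter

theorem cn_dvd (q : ℕ) (x : Pt) : (2 ^ q : ℤ) ∣ (cn q x).1 ∧ (2 ^ q : ℤ) ∣ (cn q x).2 := by
  simp [cn, tile]

theorem cn_eq {q : ℕ} {i x : Pt} (h1 : (2 ^ q : ℤ) ∣ i.1) (h2 : (2 ^ q : ℤ) ∣ i.2)
    (hx : x ∈ sq i (2 ^ q)) : cn q x = i := by
  obtain ⟨a, ha⟩ := h1
  obtain ⟨b, hb⟩ := h2
  have e : i = tile 0 (2 ^ q) (a, b) := by ext <;> simp [tile, ha, hb]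
  rw [e] at hx ⊢
  rw [cn, (mem_tile_iff (Nat.two_pow_pos q)).1 hx]

theorem cn_mem_Ga {q : ℕ} (hq : q ≤ G.p) {x : Pt} : cn q x ∈ G.Ga ↔ x ∈ G.Ga := by
  have h0 : (0 : ℤ) < 2 ^ q := by positivity
  have e : (G.rho : ℤ) = 2 ^ q * 2 ^ (G.p - q) := by exact_mod_cast rho_eq hq
  generalize (2 : ℤ) ^ (G.p - q) = m at e
  have lo : ∀ u c : ℤ, 2 ^ q * c ≤ 2 ^ q * (u / 2 ^ q) ↔ 2 ^ q * c ≤ u := fun u c => by
    rw [mul_le_mul_iff_right₀ h0, Int.le_ediv_iff_mul_le h0, mul_comm]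
  have hi : ∀ u c : ℤ, 2 ^ q * (u / 2 ^ q) < 2 ^ q * c ↔ u < 2 ^ q * c := fun u c => by
    rw [← not_le, lo, not_le]
  have e1 : -(2 * (2 ^ q * m)) = 2 ^ q * (-(2 * m)) := by ring
  have e2 : 2 * (2 ^ q * m) = 2 ^ q * (2 * m) := by ring
  have e3 : -(2 ^ q * m) = 2 ^ q * (-m) := by ring
  rw [mem_Ga, mem_Ga, e, e1, e2, e3]
  simp only [cn, tile, tileOf, Prod.fst_zero, Prod.snd_zero, zero_add, sub_zero, Nat.cast_pow,
    Nat.cast_ofNat, lo, hi]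

theorem cn_mem_cor {q : ℕ} (hq : q ≤ G.p) {x : Pt} : cn q x ∈ G.cor q ↔ x ∈ G.Ga := by
  rw [mem_cor, cn_mem_Ga hq]; exact and_iff_left (cn_dvd q x)

theorem cel_subset {q : ℕ} (hq : q ≤ G.p) {i : Pt} (hi : i ∈ G.cor q) : sq i (2 ^ q) ⊆ G.Ga :=
  fun x hx => by
    obtain ⟨-, h1, h2⟩ := mem_cor.1 hi
    rwa [← cn_mem_cor hq, cn_eq h1 h2 hx]

theorem cel_union {q : ℕ} (hq : q ≤ G.p) : (G.cor q).biUnion (fun i => sq i (2 ^ q)) = G.Ga := by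
  ext x
  rw [mem_biUnion]
  exact ⟨fun ⟨i, hi, hx⟩ => cel_subset hq hi hx, fun hx => ⟨_, (cn_mem_cor hq).2 hx, mem_cn q x⟩⟩

theorem cel_disjoint (G : Gm) (q : ℕ) : (G.cor q : Set Pt).PairwiseDisjoint fun i => sq i (2 ^ q) :=
  fun _ hi _ hj hij => disjoint_left.2 fun _ hx hx' => hij <|
    (cn_eq (mem_cor.1 hi).2.1 (mem_cor.1 hi).2.2 hx).symm.trans
      (cn_eq (mem_cor.1 hj).2.1 (mem_cor.1 hj).2.2 hx')

theorem card_cor {q : ℕ} (hq : q ≤ G.p) : (G.cor q).card = 12 * 4 ^ (G.p - q) := by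
  have h1 := card_Ga G
  rw [← cel_union hq, card_biUnion (cel_disjoint G q), rho_eq hq] at h1
  simp only [card_sq, sum_const, smul_eq_mul] at h1
  have h2 : (4 : ℕ) ^ (G.p - q) = (2 ^ (G.p - q)) ^ 2 := by rw [← pow_mul, mul_comm, pow_mul]; norm_num
  refine Nat.eq_of_mul_eq_mul_right (m := (2 ^ q) ^ 2) (by positivity) ?_
  rw [h1, h2]; ring

/-- field `cells` -/
theorem cells (G : Gm) : ∀ q ≤ G.p, (G.cor q).biUnion (fun i => sq i (2 ^ q)) = G.Ga ∧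
    ((G.cor q : Set Pt).PairwiseDisjoint fun i => sq i (2 ^ q)) ∧
      (G.cor q).card = 12 * 4 ^ (G.p - q) :=
  fun q hq => ⟨cel_union hq, cel_disjoint G q, card_cor hq⟩

theorem sum_cells {M : Type*} [AddCommMonoid M] {q : ℕ} (hq : q ≤ G.p) (f : Pt → M) :
    ∑ x ∈ G.Ga, f x = ∑ i ∈ G.cor q, ∑ x ∈ sq i (2 ^ q), f x := by
  rw [← cel_union hq, sum_biUnion (cel_disjoint G q)]

theorem sum_cel {M : Type*} [AddCommMonoid M] {q : ℕ} (hq : q ≤ G.p) (f : Pt → M) :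
    ∑ x ∈ G.Ga, f x = ∑ i : G.cor q, ∑ x ∈ G.cel q i, f x := by
  rw [sum_cells hq, ← sum_coe_sort]; rfl

theorem card_cel (q : ℕ) (i : G.cor q) : (G.cel q i).card = 4 ^ q := by
  rw [Gm.cel, card_sq, ← pow_mul, mul_comm, pow_mul]; norm_num

theorem cel_nonempty (q : ℕ) (i : G.cor q) : (G.cel q i).Nonempty :=
  ⟨_, self_mem_sq _ (Nat.two_pow_pos q)⟩

theorem cel_sub {q : ℕ} (hq : q ≤ G.p) (i : G.cor q) : G.cel q i ⊆ G.Ga := cel_subset hq i.2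

theorem cel_disj (q : ℕ) {i j : G.cor q} (h : i ≠ j) : Disjoint (G.cel q i) (G.cel q j) :=
  cel_disjoint G q i.2 j.2 fun e => h (Subtype.ext e)

theorem cel_biUnion {q : ℕ} (hq : q ≤ G.p) : univ.biUnion (G.cel q) = G.Ga := by
  ext x
  simp only [mem_biUnion, mem_univ, true_and]
  exact ⟨fun ⟨i, hx⟩ => cel_sub hq i hx, fun hx => ⟨⟨_, (cn_mem_cor hq).2 hx⟩, mem_cn q x⟩⟩

/-! ## The pieces of the annulus -/

theorem mem_an0 {x : Pt} {r R : ℕ} : x ∈ an 0 r R ↔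
    (-(R : ℤ) ≤ x.1 ∧ x.1 ≤ R ∧ -(R : ℤ) ≤ x.2 ∧ x.2 ≤ R) ∧
      ¬ (-(r : ℤ) ≤ x.1 ∧ x.1 ≤ r ∧ -(r : ℤ) ≤ x.2 ∧ x.2 ≤ r) := by
  simp only [Geo.mem_an, mem_bl, Prod.fst_zero, Prod.snd_zero]; omega

theorem an_disj (z : Pt) {r r' : ℕ} (q R : ℕ) (h : r ≤ r') : Disjoint (an z q r) (an z r' R) :=
  (Geo.disjoint_bl_an z R h).mono_left (Geo.an_subset_bl z q r)

theorem iv_In (G : Gm) : Iv G.In := iv_an _ _
theorem iv_A (G : Gm) : Iv G.A := iv_an _ _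
theorem iv_Ou (G : Gm) : Iv G.Ou := iv_an _ _
theorem iv_Om (G : Gm) : Iv G.Om := iv_an _ _
theorem iv_mid (G : Gm) : Iv G.mid := iv_an _ _

theorem A_eq (G : Gm) : G.A = bl 0 G.R \ bl 0 G.r := rfl

theorem disj_In_A (G : Gm) : Disjoint G.In G.A := an_disj 0 _ _ le_rfl
theorem disj_A_Ou (G : Gm) : Disjoint G.A G.Ou := an_disj 0 _ _ le_rfl
theorem disj_In_Ou (h : G.Ok W) : Disjoint G.In G.Ou :=
  an_disj 0 _ _ (by have := scales h; omega)

theorem In_sub (h : G.Ok W) : G.In ⊆ G.Om := Geo.an_mono 0 le_rfl (by have := scales h; omega)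
theorem A_sub (h : G.Ok W) : G.A ⊆ G.Om :=
  Geo.an_mono 0 (by have := scales h; omega) (by have := scales h; omega)
theorem Ou_sub (h : G.Ok W) : G.Ou ⊆ G.Om := Geo.an_mono 0 (by have := scales h; omega) le_rfl
theorem In_sub_bl (G : Gm) : G.In ⊆ bl 0 G.r := Geo.an_subset_bl _ _ _
theorem A_sub_bl (G : Gm) : G.A ⊆ bl 0 G.R := Geo.an_subset_bl _ _ _
theorem bl_r_sub (h : G.Ok W) : bl 0 G.r ⊆ bl 0 G.R := bl_mono 0 (by have := scales h; omega)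

theorem union_Om (h : G.Ok W) : G.In ∪ G.A ∪ G.Ou = G.Om := by
  have := scales h
  rw [Gm.In, Gm.A, Gm.Ou, Gm.Om, Geo.an_union_an 0 (by omega) (by omega),
    Geo.an_union_an 0 (by omega) (by omega)]

theorem Om_sdiff_A (h : G.Ok W) : G.Om \ G.A = G.In ∪ G.Ou := by
  have := scales h
  ext x; simp only [Gm.In, Gm.A, Gm.Ou, Gm.Om, mem_sdiff, mem_union, mem_an0]; omega

theorem mem_Om (h : G.Ok W) {x : Pt} : x ∈ G.Om ↔ x ∈ G.In ∨ x ∈ G.A ∨ x ∈ G.Ou := by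
  rw [← union_Om h, mem_union, mem_union, or_assoc]

theorem rimI_sub (h : G.Ok W) : an 0 (G.r - 1) G.r ⊆ G.In :=
  Geo.an_mono 0 (by have := scales h; omega) le_rfl
theorem rimO_sub (h : G.Ok W) : an 0 G.R (G.R + 1) ⊆ G.Ou :=
  Geo.an_mono 0 le_rfl (by have := scales h; omega)
/-- the regions of the flows of `Ic`, `Oc`, `M3Stmt` lie in `Om` -/
theorem regI_sub (h : G.Ok W) : an 0 (G.r / 2) (3 * G.r) ⊆ G.Om :=
  Geo.an_mono 0 (by have := scales h; omega) (by have := scales h; omega)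
theorem regO_sub (h : G.Ok W) : an 0 (G.R / 8) (2 * G.R) ⊆ G.Om :=
  Geo.an_mono 0 (by have := scales h; omega) (by have := scales h; omega)
theorem regM_sub (h : G.Ok W) : an 0 (G.r / 2) (2 * G.R) ⊆ G.Om :=
  Geo.an_mono 0 (by have := scales h; omega) (by have := scales h; omega)

theorem Ga_sub_mid (G : Gm) : G.Ga ⊆ G.mid :=
  (Ga_sub G).trans (Geo.an_mono 0 (by have := rho_pos G; omega) (by omega))
theorem mid_sub_A (h : G.Ok W) : G.mid ⊆ G.A :=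
  Geo.an_mono 0 (by have := scales h; omega) (by have := scales h; omega)
theorem Ga_sub_A (h : G.Ok W) : G.Ga ⊆ G.A := (Ga_sub_mid G).trans (mid_sub_A h)
theorem Ga_sub_Om (h : G.Ok W) : G.Ga ⊆ G.Om := (Ga_sub_A h).trans (A_sub h)
theorem mid_sub_an (h : G.Ok W) : G.mid ⊆ an 0 (8 * G.r) (G.R / 8) :=
  Geo.an_mono 0 (by have := scales h; omega) (by have := scales h; omega)

theorem card_mid (G : Gm) : G.mid.card ≤ 81 * G.rho ^ 2 := by
  have := rho_pos G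
  refine (card_le_card (Geo.an_subset_bl _ _ _)).trans ?_
  rw [card_bl]
  calc (2 * (4 * G.rho) + 1) ^ 2 ≤ (9 * G.rho) ^ 2 := Nat.pow_le_pow_left (by omega) 2
    _ = _ := by ring

theorem In_nonempty (h : G.Ok W) : G.In.Nonempty := Geo.an_nonempty 0 (by have := scales h; omega)
theorem A_nonempty (h : G.Ok W) : G.A.Nonempty := Geo.an_nonempty 0 (by have := scales h; omega)
theorem Ou_nonempty (h : G.Ok W) : G.Ou.Nonempty := Geo.an_nonempty 0 (by have := scales h; omega)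
theorem Om_nonempty (h : G.Ok W) : G.Om.Nonempty := (In_nonempty h).mono (In_sub h)

theorem cn_Om {Λ : Lat} (hΛ : Λ.Ok) (h : G.Ok W) : Cn (Λ.N G.Om) G.Om :=
  (Geo.inL_N subset_rfl).cn (Geo.cnL_an hΛ 0 (by have := scales h; omega))

/-! ## Data -/

theorem dat_ga (G : Gm) (k : D8) (s : Cfg Pt) :
    G.dat (ga k s) = (ga k (G.dat s).1, ga k (G.dat s).2) := by
  simp only [Gm.dat, ga_resH (iv_In G), ga_resH (iv_Ou G)]

theorem dat_neg (G : Gm) (s : Cfg Pt) : G.dat (-s) = (-(G.dat s).1, -(G.dat s).2) := by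
  simp only [Gm.dat, map_neg]

theorem dat_add (G : Gm) (s t : Cfg Pt) : G.dat (s + t) = G.dat s + G.dat t := by
  simp only [Gm.dat, map_add, Prod.mk_add_mk]

theorem resH_cst {U U' : Finset Pt} (h : U ⊆ U') (i : ℤ) : resH U (cst U' i) = cst U i := by
  ext x
  rw [resH_apply, cst_apply, cst_apply]
  by_cases hx : x ∈ U
  · simp [hx, h hx]
  · simp [hx]

theorem dat_cst (h : G.Ok W) (s : Cfg Pt) (i : ℤ) :
    G.dat (s + cst G.Om i) = ((G.dat s).1 + cst G.In i, (G.dat s).2 + cst G.Ou i) := by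
  simp only [Gm.dat, map_add, resH_cst (In_sub h), resH_cst (Ou_sub h)]

theorem dat_fst {x : Pt} (hx : x ∈ G.In) (s : Cfg Pt) : (G.dat s).1 x = s x := by
  simp only [Gm.dat, resH_apply, hx, if_true]
theorem dat_snd {x : Pt} (hx : x ∈ G.Ou) (s : Cfg Pt) : (G.dat s).2 x = s x := by
  simp only [Gm.dat, resH_apply, hx, if_true]
theorem dat_fst' {x : Pt} (hx : x ∉ G.In) (s : Cfg Pt) : (G.dat s).1 x = 0 := by
  simp only [Gm.dat, resH_apply, hx, if_false]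
theorem dat_snd' {x : Pt} (hx : x ∉ G.Ou) (s : Cfg Pt) : (G.dat s).2 x = 0 := by
  simp only [Gm.dat, resH_apply, hx, if_false]

theorem pr_resH {U : Finset Pt} {f : Pt → ℝ} (hf : Sup U f) (s : Cfg Pt) : pr f (resH U s) = pr f s := by
  rw [pr_of_fsupp f _ hf, pr_of_fsupp f _ hf]
  exact sum_congr rfl fun x hx => by rw [resH_apply, if_pos hx]

theorem sup_mono {U U' : Finset Pt} {f : Pt → ℝ} (hf : Sup U f) (h : U ⊆ U') : Sup U' f :=
  fun x hx => hf x fun h' => hx (h h')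

theorem pr_dat_fst {f : Pt → ℝ} (hf : Sup G.In f) (s : Cfg Pt) : pr f (G.dat s).1 = pr f s :=
  pr_resH hf s
theorem pr_dat_snd {f : Pt → ℝ} (hf : Sup G.Ou f) (s : Cfg Pt) : pr f (G.dat s).2 = pr f s :=
  pr_resH hf s

theorem depG_dat_fst {F : Cfg Pt → ℝ} (hF : DepG G.In F) (s : Cfg Pt) : F (G.dat s).1 = F s :=
  hF _ _ 0 fun x hx => by rw [dat_fst hx, add_zero]
theorem depG_dat_snd {F : Cfg Pt → ℝ} (hF : DepG G.Ou F) (s : Cfg Pt) : F (G.dat s).2 = F s :=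
  hF _ _ 0 fun x hx => by rw [dat_snd hx, add_zero]

/-! ## Edges -/

theorem mem_nJp {d : Pt} : d ∈ Pot.nL.Jp ↔ d = (1, 0) ∨ d = (0, 1) := by
  rw [Pot.nL_Jp, mem_insert, mem_singleton]

theorem nJp_iff {e : Pt × Pt} : e.2 - e.1 ∈ Pot.nL.Jp ↔
    (e.2.1 = e.1.1 + 1 ∧ e.2.2 = e.1.2) ∨ (e.2.1 = e.1.1 ∧ e.2.2 = e.1.2 + 1) := by
  simp only [mem_nJp, Prod.ext_iff, Prod.fst_sub, Prod.snd_sub]; omega

theorem nL_edI_sub {Λ : Lat} (hΛ : Λ.Ok) {U U' : Finset Pt} (h : U ⊆ U') : Pot.nL.edI U ⊆ Λ.edI U' :=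
  fun e he => by
    rw [Lat.mem_edI] at *; exact ⟨Pot.nn_subset hΛ he.1, h he.2.1, h he.2.2⟩

theorem nL_edT_sub {Λ : Lat} (hΛ : Λ.Ok) {U U' : Finset Pt} (h : U ⊆ U') : Pot.nL.edT U ⊆ Λ.edT U' :=
  fun e he => by
    rw [Lat.mem_edT] at *; exact ⟨Pot.nn_subset hΛ he.1, he.2.imp (@h _) (@h _)⟩

theorem edT_an {Λ : Lat} (z : Pt) {r R r' R' : ℕ} (h : r' + Λ.rg ≤ r) (h' : R + Λ.rg ≤ R') :
    Λ.edT (an z r R) ⊆ Λ.edI (an z r' R') :=
  Lat.edT_subset_edI fun x hx y hy => by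
    simp only [Geo.mem_an, mem_bl] at *; omega

theorem nL_edT_an (z : Pt) {r : ℕ} (R : ℕ) (hr : 1 ≤ r) :
    Pot.nL.edT (an z r R) ⊆ Pot.nL.edI (an z (r - 1) (R + 1)) :=
  edT_an z (by rw [Pot.nL_rg]; omega) (by rw [Pot.nL_rg])

theorem nL_edT_bl (z : Pt) (R : ℕ) : Pot.nL.edT (bl z R) ⊆ Pot.nL.edI (bl z (R + 1)) :=
  Lat.edT_bl_subset z (by rw [Pot.nL_rg])

theorem nL_edT_A (h : G.Ok W) : Pot.nL.edT G.A ⊆ Pot.nL.edI G.Om :=
  edT_an 0 (by have := scales h; rw [Pot.nL_rg]; omega) (by have := scales h; rw [Pot.nL_rg]; omega)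

theorem edT_A {Λ : Lat} (h : G.Ok W) (hc : G.c + Λ.rg ≤ G.r) : Λ.edT G.A ⊆ Λ.edI G.Om :=
  edT_an 0 hc (by have := scales h; omega)

theorem edT_A' {Λ : Lat} (h : G.Ok W) (hc : 2 * Λ.rg ≤ G.r) : Λ.edT G.A ⊆ Λ.edI G.Om :=
  edT_A h (by have := scales h; omega)

theorem edT_A_sub (Λ : Lat) (G : Gm) : Λ.edT G.A ⊆ Λ.edT (bl 0 G.R) := Lat.edT_mono (A_sub_bl G)

/-- the edges meeting `bl 0 R` are those meeting `A` and those inside `bl 0 r` -/
theorem edT_split {Λ : Lat} (h : G.Ok W) (hc : G.r + Λ.rg ≤ G.R) :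
    Λ.edT (bl 0 G.R) = Λ.edT G.A ∪ Λ.edI (bl 0 G.r) := by
  refine Subset.antisymm (fun e he => ?_) (union_subset (edT_A_sub Λ G)
    ((Lat.edI_subset_edT _).trans (Lat.edT_mono (bl_r_sub h))))
  obtain ⟨hJ, he⟩ := Lat.mem_edT.1 he
  rw [mem_union, Lat.mem_edT, Lat.mem_edI, A_eq, mem_sdiff, mem_sdiff]
  by_cases h1 : e.1 ∈ bl 0 G.r <;> by_cases h2 : e.2 ∈ bl 0 G.r
  · exact Or.inr ⟨hJ, h1, h2⟩
  · exact Or.inl ⟨hJ, Or.inr ⟨bl_mono 0 hc (Geo.near_bl hJ (Or.inl h1)).2, h2⟩⟩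
  · exact Or.inl ⟨hJ, Or.inl ⟨bl_mono 0 hc (Geo.near_bl hJ (Or.inr h2)).1, h1⟩⟩
  · exact Or.inl ⟨hJ, he.imp (fun h => ⟨h, h1⟩) fun h => ⟨h, h2⟩⟩

theorem nL_edT_split (h : G.Ok W) :
    Pot.nL.edT (bl 0 G.R) = Pot.nL.edT G.A ∪ Pot.nL.edI (bl 0 G.r) :=
  edT_split h (by have := scales h; rw [Pot.nL_rg]; omega)

theorem edT_disj (Λ : Lat) (G : Gm) : Disjoint (Λ.edT G.A) (Λ.edI (bl 0 G.r)) :=
  disjoint_left.2 fun e he he' => by
    rw [Lat.mem_edT] at he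
    rw [Lat.mem_edI] at he'
    rcases he.2 with h | h
    · exact (mem_sdiff.1 h).2 he'.2.1
    · exact (mem_sdiff.1 h).2 he'.2.2

/-- the ends of a nearest neighbour edge meeting `A` -/
theorem ends_A (h : G.Ok W) {e : Pt × Pt} (he : e ∈ Pot.nL.edT G.A) :
    (e.1 ∈ G.A ∨ e.1 ∈ an 0 (G.r - 1) G.r ∨ e.1 ∈ an 0 G.R (G.R + 1)) ∧
      (e.2 ∈ G.A ∨ e.2 ∈ an 0 (G.r - 1) G.r ∨ e.2 ∈ an 0 G.R (G.R + 1)) := by
  have := scales h
  have h1 := Lat.mem_edI.1 (nL_edT_an 0 G.R (by omega) he)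
  simp only [Gm.A, mem_an0] at *
  omega

/-- the ends of a nearest neighbour edge meeting `bl 0 R` -/
theorem ends_D {R : ℕ} {e : Pt × Pt} (he : e ∈ Pot.nL.edT (bl 0 R)) :
    (e.1 ∈ bl 0 R ∨ e.1 ∈ an 0 R (R + 1)) ∧ (e.2 ∈ bl 0 R ∨ e.2 ∈ an 0 R (R + 1)) := by
  have h1 := Lat.mem_edI.1 (nL_edT_bl 0 R he)
  simp only [Geo.mem_an] at *
  tauto

/-- a point off `bl z R` with a neighbour inside lies on the outer rim -/
theorem rim_out {z x e : Pt} {R : ℕ} (hx : x ∉ bl z R) (he : e ∈ nn) (h : x + e ∈ bl z R) :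
    x ∈ an z R (R + 1) := by
  simp only [nn, mem_insert, mem_singleton] at he
  rcases he with rfl | rfl | rfl | rfl <;>
    simp only [Geo.mem_an, mem_bl, Prod.fst_add, Prod.snd_add] at * <;> omega

/-- a point of `bl z r` with a neighbour outside lies on the inner rim -/
theorem rim_in {z x e : Pt} {r : ℕ} (hx : x ∈ bl z r) (he : e ∈ nn) (h : x + e ∉ bl z r) (hr : 1 ≤ r) :
    x ∈ an z (r - 1) r := by
  simp only [nn, mem_insert, mem_singleton] at he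
  rcases he with rfl | rfl | rfl | rfl <;>
    simp only [Geo.mem_an, mem_bl, Prod.fst_add, Prod.snd_add] at * <;> omega

theorem shp_A (h : G.Ok W) {K : ℝ} {L : ℕ} (hK : 1 ≤ K) (hL : G.At K L) : Shp G.A (2 * W * K) L := by
  have hW := h.hW
  have hL0 : (0 : ℝ) ≤ L := Nat.cast_nonneg _
  refine ⟨0, G.r, (A_sub_bl G).trans (bl_mono 0 (Nat.le_floor ?_)), ?_, Pot.ext_an 0 G.r G.R⟩
  · have : (G.R : ℝ) ≤ L := by exact_mod_cast hL.1
    have h2 : (1 : ℝ) ≤ 2 * W * K := by nlinarith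
    nlinarith
  · have := mul_le_mul_of_nonneg_left h.hi (by linarith : 0 ≤ K)
    linarith [hL.2]

theorem shp_D {K : ℝ} {L : ℕ} (hK : 1 ≤ K) (hL : G.At K L) : Shp (bl 0 G.R) K L := by
  have hL0 : (0 : ℝ) ≤ L := Nat.cast_nonneg _
  refine ⟨0, G.R, bl_mono 0 (Nat.le_floor ?_), hL.2, Pot.ext_bl 0 G.R G.R⟩
  have : (G.R : ℝ) ≤ L := by exact_mod_cast hL.1
  nlinarith

end Crest.Agent.T145.Kr.Geo87
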