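import Crest.Agent.T145.GffDef3_8
import Crest.Agent.T145.Sq_46
import Crest.Agent.T145.ApiP_98

/-!
# Row 145, module (b) (helper40): comparison with product references in group form; `brgStmt`; cutting a
locally exact gradient field into free boxes
-/

set_option autoImplicit false

namespace Crest.Agent.T145

open Finset Sl46

namespace T140

section grp
variable {G L L' : Type} [AddCommGroup G] [AddCommGroup L] [AddCommGroup L']

/-- a weight that is a PD multiple of the pull-back of a centred weight -/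
theorem M_ref [IsAddTorsionFree L] {ρ H : G → ℝ} {ρ₀ : L → ℝ} (π : G →+ L) (hρ : Wt ρ) (hs : SE ρ)
    (hH : PD H) (h0 : ∀ a, 0 ≤ H a) (hc : Cen ρ₀) (hne : ∀ a, ρ₀ (π a) ≠ 0)
    (hW : ∀ a, ρ a = H a * ρ₀ (π a)) (ξ : L →+ ℝ) : M ρ (ξ.comp π) ≤ M ρ₀ ξ := by
  have hp : 0 < H 0 := by
    obtain ⟨a, ha⟩ := hρ.exists_pos
    have h1 : H a ≠ 0 := fun h => by rw [hW, h, zero_mul] at ha; exact lt_irrefl _ ha
    exact (abs_pos.2 h1).trans_le ((pdStmt G G).2.2.2.2.2.1 H hH a).2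
  obtain ⟨h4, h5, h6⟩ := Cut7.dens pdStmt π hH h0 hp hne hW hρ.summ
  have h8 := (Cut7.dens_ex π hW hρ.summ (F := fun k => Real.exp (ξ k)) (hs (ξ.comp π))).2
  exact (congrArg Real.log h8).trans_le (((monoStmt _ _ hc).1 _ h4 h5 h6).1 ξ)

theorem cen_pi {ι : Type} [Fintype ι] {w : ι → L → ℝ} (h : ∀ i, Cen (w i)) :
    Cen fun k : ι → L => ∏ i, w i (k i) := by
  classical
  refine ⟨Cut7.rsd_prod rsdStmt _ fun i _ =>
    (rsdStmt (ι → L) L).2.1 _ (Pi.evalAddMonoidHom (fun _ => L) i) (h i).toRSD,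
    prod_pos fun i _ => (h i).pos0, fun f => ?_⟩
  refine (Cut7.hasSum_pi fun i =>
    (h i).se (f.comp (AddMonoidHom.single (fun _ => L) i))).summable.congr fun k => ?_
  rw [prod_mul_distrib, ← Real.exp_sum]
  conv_rhs => rw [← univ_sum_single k, map_sum]
  simp only [univ_sum_single]
  rfl

theorem M_pi {ι : Type} [Fintype ι] {w : ι → L → ℝ} (h : ∀ i, Cen (w i)) (f : ι → L →+ ℝ) :
    M (fun k : ι → L => ∏ i, w i (k i)) (∑ i, (f i).comp (Pi.evalAddMonoidHom (fun _ => L) i)) =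
      ∑ i, M (w i) (f i) := by
  have e1 := (Cut7.hasSum_pi fun i => (h i).se (f i)).tsum_eq
  have e2 := (Cut7.hasSum_pi fun i => (h i).wt.summ).tsum_eq
  have e3 : ∀ k : ι → L, (∏ i, w i (k i)) *
      Real.exp ((∑ i, (f i).comp (Pi.evalAddMonoidHom (fun _ => L) i)) k) =
      ∏ i, w i (k i) * Real.exp (f i (k i)) := fun k => by
    rw [AddMonoidHom.finsetSum_apply, Real.exp_sum, prod_mul_distrib]
    rfl
  rw [M, Ex]
  simp only [e3]
  rw [e1, e2, ← prod_div_distrib]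
  exact Real.log_prod fun i _ => ((h i).wt.ex_exp_pos (h i).se (f i)).ne'

theorem cen_prod {W : L → ℝ} {U : L' → ℝ} (hW : Cen W) (hU : Cen U) :
    Cen fun p : L × L' => W p.1 * U p.2 := by
  refine ⟨(rsdStmt (L × L') L).1 _ _ ((rsdStmt (L × L') L).2.1 _ (AddMonoidHom.fst L L') hW.toRSD)
    ((rsdStmt (L × L') L').2.1 _ (AddMonoidHom.snd L L') hU.toRSD), mul_pos hW.pos0 hU.pos0,
    fun f => ?_⟩
  refine (summable_prod_mul (hW.se (f.comp (AddMonoidHom.inl L L')))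
    (hU.se (f.comp (AddMonoidHom.inr L L')))).congr fun p => ?_
  rw [show f p = f (p.1, 0) + f (0, p.2) by rw [← map_add]; simp, Real.exp_add]
  simp only [AddMonoidHom.comp_apply, AddMonoidHom.inl_apply, AddMonoidHom.inr_apply]
  ring

theorem M_prod {W : L → ℝ} {U : L' → ℝ} (hW : Cen W) (hU : Cen U) (f : L →+ ℝ) (g : L' →+ ℝ) :
    M (fun p : L × L' => W p.1 * U p.2) (f.coprod g) = M W f + M U g := by
  have h := Ex_prod_mul hW.wt.summ hU.wt.summ (hW.se f) (hU.se g)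
  rw [M, M, M, ← Real.log_mul (hW.wt.ex_exp_pos hW.se f).ne' (hU.wt.ex_exp_pos hU.se g).ne', ← h]
  simp only [AddMonoidHom.coprod_apply, Real.exp_add]

/-- multiplication by a real number on `ℤ` -/
noncomputable def mz (c : ℝ) : ℤ →+ ℝ := (AddMonoidHom.mulLeft c).comp (Int.castAddHom ℝ)

theorem gfl_apply (ed : Finset (Pt × Pt)) (φ : Pt × Pt → ℝ) (g : Pt × Pt → G →+ ℤ) (a : G) :
    gfl ed φ g a = ∑ e ∈ ed, φ e * (g e a : ℝ) := by
  rw [gfl, AddMonoidHom.finsetSum_apply]; rfl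

theorem cen_w {Λ : Lat} (hΛ : Λ.Ok) : Cen Λ.w := (kerStmt _ hΛ.fam).cen

theorem w_pos {Λ : Lat} (hΛ : Λ.Ok) (k : ℤ) : 0 < Λ.w k := (kerStmt _ hΛ.fam).lc.1 k

theorem M_edges {Λ : Lat} (hΛ : Λ.Ok) (E : Finset (Pt × Pt)) (φ : Pt × Pt → ℝ) :
    M (fun k : E → ℤ => ∏ e, Λ.w (k e))
      (∑ e : E, (mz (φ e)).comp (Pi.evalAddMonoidHom (fun _ => ℤ) e)) ≤
      ∑ e ∈ E, Λ.τ * (Real.cosh (φ e) - 1) := by
  rw [M_pi (w := fun _ => Λ.w) (fun _ => cen_w hΛ), ← sum_coe_sort E]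
  exact sum_le_sum fun e _ => Sl46.log_ex_kern Λ.xy hΛ.pos (φ e)

end grp

end T140

open T140 in
/-- BARE in group form -/
theorem brgStmt : BrgStmt := by
  intro Λ G _ ρ H g ed φ hΛ hρ hs hH h0 hW
  have h := M_ref (ρ₀ := fun k : ed → ℤ => ∏ e, Λ.w (k e)) (AddMonoidHom.pi fun e : ed => g e) hρ hs
    hH h0 (cen_pi (w := fun _ => Λ.w) fun _ => cen_w hΛ)
    (fun a => (prod_pos fun e _ => w_pos hΛ _).ne') (fun a => by
      rw [hW, ← prod_coe_sort ed]; rfl)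
    (∑ e : ed, (mz (φ e)).comp (Pi.evalAddMonoidHom (fun _ => ℤ) e))
  rw [mul_sum]
  refine le_trans (le_of_eq ?_) (h.trans (M_edges hΛ ed φ))
  congr 1
  ext a
  rw [gfl_apply, ← sum_coe_sort ed, AddMonoidHom.comp_apply, AddMonoidHom.finsetSum_apply]
  rfl

namespace T140

/-- translation of an edge -/
def sh (z : Pt) : Pt × Pt ≃ Pt × Pt := (Equiv.addRight z).prodCongr (Equiv.addRight z)

@[simp] theorem sh_fst (z : Pt) (e : Pt × Pt) : (sh z e).1 = e.1 + z := rfl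
@[simp] theorem sh_snd (z : Pt) (e : Pt × Pt) : (sh z e).2 = e.2 + z := rfl

theorem add_mem_sq {x z : Pt} {l : ℕ} : x + z ∈ sq z l ↔ x ∈ sq 0 l := by
  simp only [mem_sq, Prod.fst_add, Prod.snd_add, Prod.fst_zero, Prod.snd_zero]; omega

variable {Λ : Lat}

theorem sh_mem {z : Pt} {l : ℕ} {e : Pt × Pt} : sh z e ∈ Λ.edI (sq z l) ↔ e ∈ Λ.edI (sq 0 l) := by
  simp only [Lat.mem_edI, sh_fst, sh_snd, add_mem_sq, add_sub_add_right_eq_sub]

theorem edI_sq (z : Pt) (l : ℕ) : Λ.edI (sq z l) = (Λ.edI (sq 0 l)).map (sh z).toEmbedding := by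
  ext e
  rw [mem_map_equiv, ← sh_mem (z := z), Equiv.apply_symm_apply]

theorem eq_of_conn {ω : Finset (Pt × Pt)} {d : Cfg Pt} (h : ∀ e ∈ ω, dE e d = 0) {x y : Pt}
    (hc : Conn ω x y) : d x = d y := by
  induction hc with
  | refl => rfl
  | tail _ h1 ih =>
    rcases h1 with h1 | h1
    · exact ih.trans (sub_eq_zero.1 (h _ h1)).symm
    · exact ih.trans (sub_eq_zero.1 (h _ h1))

variable {G : Type} [AddCommGroup G] {g : Pt × Pt → G →+ ℤ} {l : ℕ}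

/-- a field that is exact on a box has an additive potential, read in the standard box -/
theorem exists_pot (hΛ : Λ.Ok) (hl : 0 < l) {z : Pt}
    (h : ∀ a, ∃ t : Cfg Pt, ∀ e ∈ Λ.edI (sq z l), g e a = dE e t) :
    ∃ π : G →+ Cfg Pt, ∀ a, (∀ x, x ∉ (sq 0 l).erase 0 → π a x = 0) ∧
      ∀ e ∈ Λ.edI (sq 0 l), dE e (π a) = g (sh z e) a := by
  have h0 : (0 : Pt) ∈ sq 0 l := self_mem_sq 0 hl
  have ex : ∀ a, ∃ t : Cfg Pt, (∀ x, x ∉ (sq 0 l).erase 0 → t x = 0) ∧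
      ∀ e ∈ Λ.edI (sq 0 l), dE e t = g (sh z e) a := fun a => by
    obtain ⟨t, ht⟩ := h a
    refine ⟨Finsupp.onFinset (sq 0 l) (fun x => if x ∈ sq 0 l then t (x + z) - t z else 0)
      fun x hx => by_contra fun h => hx (if_neg h), fun x hx => ?_, fun e he => ?_⟩
    · rw [Finsupp.onFinset_apply]
      split_ifs with h1
      · rw [show x = 0 from by_contra fun h2 => hx (mem_erase.2 ⟨h2, h1⟩), zero_add, sub_self]
      · rfl
    · rw [ht _ (sh_mem.2 he), dE, dE, Finsupp.onFinset_apply, Finsupp.onFinset_apply,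
        if_pos (Lat.mem_edI.1 he).2.1, if_pos (Lat.mem_edI.1 he).2.2, sub_sub_sub_cancel_right]
      rfl
  choose T hT using ex
  refine ⟨AddMonoidHom.mk' T fun a b => ?_, hT⟩
  rw [← sub_eq_zero]
  have z0 : ∀ x, x ∉ (sq 0 l).erase 0 → (T (a + b) - (T a + T b)) x = 0 := fun x hx => by
    simp [(hT _).1 x hx]
  ext x
  by_cases hx : x ∈ sq 0 l
  · rw [eq_of_conn (fun e he => ?_) (hΛ.conn_sq hx h0), z0 0 (notMem_erase _ _)]
    · rfl
    · rw [dE_sub, dE_add, (hT _).2 e he, (hT _).2 e he, (hT _).2 e he, map_add, sub_self]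
  · exact z0 x fun h => hx (mem_of_mem_erase h)

/-- cutting a locally exact gradient field into disjoint free boxes and single edges -/
theorem gcut (hΛ : Λ.Ok) (hl : 0 < l) {ρ : G → ℝ} {D : Finset Pt} (hG : Λ.GAmb ρ g D l)
    {Z : Finset Pt} (hZ : ∀ z ∈ Z, sq z l ⊆ D)
    (hd : ∀ z ∈ Z, ∀ z' ∈ Z, z ≠ z' → Disjoint (sq z l) (sq z' l)) (ψ : Pt × Pt → ℝ) :
    M ρ (gfl (Λ.edI D) ψ g) +
        ∑ z ∈ Z, ∑ e ∈ Λ.edI (sq 0 l), Λ.τ * (Real.cosh (ψ (sh z e)) - 1) ≤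
      ∑ z ∈ Z, M (Λ.WN l) (fl (Λ.edI (sq 0 l)) fun e => ψ (sh z e)) +
        ∑ e ∈ Λ.edI D, Λ.τ * (Real.cosh (ψ e) - 1) := by
  obtain ⟨hρ, hs, ⟨H, hH, h0, hW⟩, hex⟩ := hG
  choose π hπ using fun z : Z => exists_pot hΛ hl (hex z (hZ z z.2))
  set U := Z.biUnion fun z => Λ.edI (sq z l)
  have hU : U ⊆ Λ.edI D := biUnion_subset.2 fun z hz => Lat.edI_mono (hZ z hz)
  have hdU : (Z : Set Pt).PairwiseDisjoint fun z => Λ.edI (sq z l) := fun z hz z' hz' h =>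
    Lat.disjoint_edI (hd z hz z' hz' h)
  have es : ∀ F : Pt × Pt → ℝ, ∑ e ∈ Λ.edI D, F e =
      ∑ z ∈ Z, ∑ e ∈ Λ.edI (sq 0 l), F (sh z e) + ∑ e ∈ Λ.edI D \ U, F e := fun F => by
    rw [← sum_sdiff hU, add_comm, sum_biUnion hdU]
    congr 1
    exact sum_congr rfl fun z _ => by rw [edI_sq z l, sum_map]; rfl
  have ep : ∀ F : Pt × Pt → ℝ, ∏ e ∈ Λ.edI D, F e =
      (∏ z ∈ Z, ∏ e ∈ Λ.edI (sq 0 l), F (sh z e)) * ∏ e ∈ Λ.edI D \ U, F e := fun F => by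
    rw [← prod_sdiff hU, mul_comm, prod_biUnion hdU]
    congr 1
    exact prod_congr rfl fun z _ => by rw [edI_sq z l, prod_map]; rfl
  have hc0 : Cen (Λ.WN l) := hΛ.cen_Nr (self_mem_sq 0 hl)
  have c1 := cen_pi (w := fun _ : Z => Λ.WN l) fun _ => hc0
  have c2 := cen_pi (w := fun _ : ↥(Λ.edI D \ U) => Λ.w) fun _ => cen_w hΛ
  have eW : ∀ (z : Z) a, Λ.WN l (π z a) = ∏ e ∈ Λ.edI (sq 0 l), Λ.w (g (sh z e) a) := fun z a => by
    rw [Lat.WN, Mdl.W_of_eq _ (hπ z a).1]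
    simp only [Lat.Nr_site, prod_const_one, mul_one, Lat.Nr_ed, Lat.Nr_w]
    exact prod_congr rfl fun e he => by rw [(hπ z a).2 e he]
  have h := M_ref ((AddMonoidHom.pi π).prod (AddMonoidHom.pi fun e : ↥(Λ.edI D \ U) => g e)) hρ hs
    hH h0 (cen_prod c1 c2) (fun a => mul_ne_zero (prod_ne_zero_iff.2 fun z _ => by
      change Λ.WN l (π z a) ≠ 0
      rw [eW]
      exact (prod_pos fun e _ => w_pos hΛ _).ne') (prod_pos fun e _ => w_pos hΛ _).ne')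
    (fun a => by
      rw [hW, ep, ← prod_coe_sort Z, ← prod_coe_sort (Λ.edI D \ U), ← prod_congr rfl fun z _ => eW z a]
      rfl)
    ((∑ z : Z, (fl (Λ.edI (sq 0 l)) fun e => ψ (sh z e)).comp
        (Pi.evalAddMonoidHom (fun _ => Cfg Pt) z)).coprod
      (∑ e : ↥(Λ.edI D \ U), (mz (ψ e)).comp (Pi.evalAddMonoidHom (fun _ => ℤ) e)))
  rw [M_prod c1 c2, M_pi (w := fun _ : Z => Λ.WN l) fun _ => hc0,
    sum_coe_sort Z fun z => M (Λ.WN l) (fl (Λ.edI (sq 0 l)) fun e => ψ (sh z e))] at h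
  have h2 := M_edges hΛ (Λ.edI D \ U) ψ
  rw [es fun e => Λ.τ * (Real.cosh (ψ e) - 1)]
  refine le_trans (le_of_eq ?_) ((add_le_add_left (h.trans (add_le_add_right h2 _)) _).trans_eq
    (by rw [add_assoc, add_comm (∑ e ∈ Λ.edI D \ U, _)]))
  congr 2
  ext a
  rw [gfl_apply, es, ← sum_coe_sort Z, ← sum_coe_sort (Λ.edI D \ U), AddMonoidHom.comp_apply,
    AddMonoidHom.coprod_apply, AddMonoidHom.finsetSum_apply, AddMonoidHom.finsetSum_apply]
  congr 1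
  refine sum_congr rfl fun z _ => ?_
  change _ = fl _ _ (π z a)
  rw [fl_apply]
  exact sum_congr rfl fun e he => by rw [(hπ z a).2 e he]

end T140

end Crest.Agent.T145
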