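import Crest.Agent.T145.KvDef_8
import Crest.Agent.T145.KrGeo_87
import Crest.Agent.T145.ExplU_56
import Crest.Agent.T145.T1A_40

/-!
# Row 145, module Kv: the extended model, `ExtStmt` (helper46)
-/

set_option autoImplicit false

namespace Crest.Agent.T145.Kv

open Finset
open Vd (ray)
open Kr.Geo87 (mem_an0 nJp_iff scales)

namespace E46

section grp
variable {L : Type} [AddCommGroup L]

theorem rsd_sub (S : AddSubgroup L) : RSD fun s => ind (s ∈ S) := by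
  simpa only [QuotientAddGroup.mk'_apply, QuotientAddGroup.eq_zero_iff] using
    Md.rsd_ind (QuotientAddGroup.mk' S)

theorem pd_sub (S : AddSubgroup L) : PD fun s => ind (s ∈ S) := by
  simpa only [QuotientAddGroup.mk'_apply, QuotientAddGroup.eq_zero_iff] using
    pd_ind (QuotientAddGroup.mk' S)

/-- exponential moments from injectivity of the gradients -/
theorem se_inj {ι : Type} (S : AddSubgroup L) (E : Finset ι) (g : ι → L →+ ℤ) {w : ι → ℤ → ℝ}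
    (hw : ∀ i, Cen (w i)) (hi : ∀ s ∈ S, (∀ i ∈ E, g i s = 0) → s = 0) :
    SE fun s => ind (s ∈ S) * ∏ i ∈ E, w i (g i s) := fun f => by
  let G : S →+ (E → ℤ) := AddMonoidHom.pi fun i : E => (g i).comp S.subtype
  have hG : Function.Injective G := (injective_iff_map_eq_zero G).2 fun s h =>
    Subtype.ext (hi s s.2 fun i hi => congrFun h ⟨i, hi⟩)
  obtain ⟨F, hF⟩ := (Module.Baer.of_divisible ℝ).extension_property_addMonoidHom G hG
    (f.comp S.subtype)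
  have h1 := ((T140.cen_pi (ι := E) fun i => hw i).se F).comp_injective hG
  refine ((Subtype.val_injective (p := (· ∈ S))).summable_iff fun s hs => ?_).1 (h1.congr fun s => ?_)
  · simp only [ind_neg fun h : s ∈ S => hs ⟨⟨s, h⟩, rfl⟩, zero_mul]
  · have : F (G s) = f s := DFunLike.congr_fun hF s
    simp only [Function.comp, this, ind_pos s.2, one_mul, ← prod_coe_sort E]
    rfl

end grp

variable {Λ : Lat} {V : Gv} {W : ℝ}

theorem edI_eq (hJ : Λ.J = nn) (B : Finset Pt) : Λ.edI B = Pot.nL.edI B := by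
  ext e; simp only [Lat.mem_edI, Lat.Jp, hJ]; rfl

theorem edT_eq (hJ : Λ.J = nn) (B : Finset Pt) : Λ.edT B = Pot.nL.edT B := by
  ext e; simp only [Lat.mem_edT, Lat.Jp, hJ]; rfl

theorem gk_apply (V : Gv) (e : Pt × Pt) (s : Cfg Pt) :
    V.gk e s = dE e s + V.s1 e * s V.k1 + V.s2 e * s V.k2 := rfl

theorem gk_zero {s : Cfg Pt} (h1 : s V.k1 = 0) (h2 : s V.k2 = 0) (e : Pt × Pt) : V.gk e s = dE e s := by
  rw [gk_apply, h1, h2, mul_zero, mul_zero, add_zero, add_zero]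

theorem ray_eq (e : Pt × Pt) :
    ray 0 e = if e.1.2 = -1 ∧ e.2.2 = 0 ∧ e.1.1 = e.2.1 ∧ 0 ≤ e.1.1 then 1 else 0 := by simp [ray]

theorem s_zero {e : Pt × Pt} (h : ray 0 e = 0) : V.s1 e = 0 ∧ V.s2 e = 0 := by
  simp [Gv.s1, Gv.s2, h]

theorem gk_ray {e : Pt × Pt} (h : ray 0 e = 0) (s : Cfg Pt) : V.gk e s = dE e s := by
  rw [gk_apply, (s_zero h).1, (s_zero h).2, zero_mul, zero_mul, add_zero, add_zero]

theorem mem_kp {ed : Finset (Pt × Pt)} {e : Pt × Pt} :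
    e ∈ V.kp ed ↔ e ∈ ed ∧ ray 0 e = V.s1 e + V.s2 e := mem_filter

theorem kp_ray {ed : Finset (Pt × Pt)} {e : Pt × Pt} (he : e ∈ ed) (h : ray 0 e = 0) : e ∈ V.kp ed :=
  mem_kp.2 ⟨he, by rw [h, (s_zero h).1, (s_zero h).2, add_zero]⟩

theorem EO_ends {e : Pt × Pt} (he : e ∈ V.EO) : e.2 - e.1 ∈ Pot.nL.Jp ∧ e.1 ∈ V.G.Om ∧ e.2 ∈ V.G.Om :=
  Lat.mem_edI.1 (mem_kp.1 he).1

theorem s1_v (V : Gv) (i : ℤ) :
    V.s1 ((i, -1), (i, 0)) = if 0 ≤ i ∧ i < (V.G.rho : ℤ) - 4 * V.ω then 1 else 0 := by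
  simp only [Gv.s1, ray_eq, true_and]; split_ifs <;> omega

theorem s2_v (V : Gv) (i : ℤ) :
    V.s2 ((i, -1), (i, 0)) = if (V.G.rho : ℤ) + 4 * V.ω ≤ i then 1 else 0 := by
  simp only [Gv.s2, ray_eq, true_and]; split_ifs <;> omega

theorem ray_v (i : ℤ) : ray 0 ((i, -1), (i, 0)) = if 0 ≤ i then 1 else 0 := by
  simp only [ray_eq, true_and]

/-- no holonomy -/
theorem hol (hV : V.G.Ok W) (hG : V.Geo) {s : Cfg Pt} (h : ∀ e ∈ V.EO, V.gk e s = 0) :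
    s V.k1 = 0 ∧ s V.k2 = 0 := by
  have st : ∀ x y : Pt, (y.1 = x.1 + 1 ∧ y.2 = x.2) ∨ (y.1 = x.1 ∧ y.2 = x.2 + 1) → x ∈ V.G.Om →
      y ∈ V.G.Om → ray 0 (x, y) = 0 → s y = s x := fun x y h1 h2 h3 h4 => by
    have := h (x, y) (kp_ray (Lat.mem_edI.2 ⟨nJp_iff.2 h1, h2, h3⟩) h4)
    rw [gk_ray h4, dE] at this
    exact sub_eq_zero.1 this
  have lp : ∀ n : ℤ, V.G.c < n → n ≤ V.G.R₂ → dE ((n, -1), (n, 0)) s = 0 := fun n h1 h2 => by
    have hv : ∀ x a : ℤ, x = n ∨ x = -n → -n ≤ a → ∀ b, a ≤ b → b ≤ n → x < 0 ∨ 0 ≤ a ∨ b ≤ -1 →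
        s (x, b) = s (x, a) := fun x a hx ha b hb => by
      induction b, hb using Int.leInduction with
      | base => exact fun _ _ => rfl
      | succ b hb ih =>
        refine fun h3 h4 => (st (x, b) (x, b + 1) (Or.inr ⟨rfl, rfl⟩) ?_ ?_ ?_).trans
          (ih (by omega) (by omega))
        · rw [Kr.Gm.Om, mem_an0]; dsimp only; omega
        · rw [Kr.Gm.Om, mem_an0]; dsimp only; omega
        · rw [ray_eq, if_neg]; dsimp only; omega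
    have hh : ∀ y : ℤ, y = n ∨ y = -n → ∀ b, -n ≤ b → b ≤ n → s (b, y) = s (-n, y) := fun y hy b hb => by
      induction b, hb using Int.leInduction with
      | base => exact fun _ => rfl
      | succ b hb ih =>
        refine fun h3 => (st (b, y) (b + 1, y) (Or.inl ⟨rfl, rfl⟩) ?_ ?_ ?_).trans (ih (by omega))
        · rw [Kr.Gm.Om, mem_an0]; dsimp only; omega
        · rw [Kr.Gm.Om, mem_an0]; dsimp only; omega
        · rw [ray_eq, if_neg]; dsimp only; omega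
    have a1 := hv n 0 (Or.inl rfl) (by omega) n (by omega) le_rfl (by omega)
    have a2 := hh n (Or.inl rfl) n (by omega) le_rfl
    have a3 := hv (-n) (-n) (Or.inr rfl) le_rfl n (by omega) le_rfl (by omega)
    have a4 := hh (-n) (Or.inr rfl) n (by omega) le_rfl
    have a5 := hv n (-n) (Or.inl rfl) le_rfl (-1) (by omega) (by omega) (by omega)
    simp only [dE]; omega
  have sc := scales hV
  have := hG.ω16
  have := hG.ω_le
  have em : ∀ n : ℤ, V.G.c < n → n ≤ V.G.R₂ → n < (V.G.rho : ℤ) - 4 * V.ω ∨ (V.G.rho : ℤ) + 4 * V.ω ≤ n →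
      V.s1 ((n, -1), (n, 0)) * s V.k1 + V.s2 ((n, -1), (n, 0)) * s V.k2 = 0 := fun n h1 h2 h3 => by
    have := h ((n, -1), (n, 0)) (mem_kp.2 ⟨Lat.mem_edI.2 ⟨nJp_iff.2 (Or.inr ⟨rfl, rfl⟩), ?_, ?_⟩, ?_⟩)
    · rwa [gk_apply, lp n h1 h2, zero_add] at this
    · rw [Kr.Gm.Om, mem_an0]; dsimp only; omega
    · rw [Kr.Gm.Om, mem_an0]; dsimp only; omega
    · rw [s1_v, s2_v, ray_v]; split_ifs <;> omega
  have b1 := em V.G.r (by omega) (by omega) (by omega)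
  have b2 := em V.G.R₂ (by omega) (by omega) (by omega)
  rw [s1_v, s2_v, if_pos (by omega), if_neg (by omega)] at b1
  rw [s1_v, s2_v, if_neg (by omega), if_pos (by omega)] at b2
  omega

/-- the configurations that vanish off `Om`, `k1`, `k2` -/
def Sg (V : Gv) : AddSubgroup (Cfg Pt) where
  carrier := {s | ∀ x, x ∉ V.G.Om → x ≠ V.k1 → x ≠ V.k2 → s x = 0}
  add_mem' := fun h h' x a b c => by rw [Finsupp.add_apply, h x a b c, h' x a b c, add_zero]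
  zero_mem' := fun _ _ _ _ => rfl
  neg_mem' := fun h x a b c => by rw [Finsupp.neg_apply, h x a b c, neg_zero]

theorem rho_eq (s : Cfg Pt) : V.rho Λ s = ind (s ∈ Sg V) * ∏ e ∈ V.EO, Λ.w (V.gk e s) := rfl

theorem inj (hV : V.G.Ok W) (hG : V.Geo) {s : Cfg Pt} (hs : s ∈ Sg V) (h : ∀ e ∈ V.EO, V.gk e s = 0)
    {y : Pt} (hy : y ∈ V.G.Om) (h0 : s y = 0) : s = 0 := by
  obtain ⟨h1, h2⟩ := hol hV hG h
  have hc : ∀ x ∈ V.G.Om, s V.rt = s x := fun x hx =>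
    Md.conn_ind (P := fun z => s z = s x) (fun e he => by
      have := h e he
      rw [gk_zero h1 h2, dE, sub_eq_zero] at this
      rw [this]) (hG.conn x hx) rfl
  ext x
  by_cases hx : x ∈ V.G.Om
  · rw [← hc x hx, hc y hy, h0]; rfl
  by_cases a : x = V.k1
  · rw [a, h1]; rfl
  by_cases b : x = V.k2
  · rw [b, h2]; rfl
  exact hs x hx a b

theorem rt_Om (hV : V.G.Ok W) : V.rt ∈ V.G.Om := by
  have := scales hV
  rw [Kr.Gm.Om, mem_an0, Gv.rt]; dsimp only; omega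

theorem mid_A (hV : V.G.Ok W) (hG : V.Geo) : V.mid ⊆ V.G.A := fun x hx => by
  have := scales hV
  have h := hG.mid_sub hx
  rw [mem_an0] at h
  rw [Kr.Gm.A, mem_an0]; omega

theorem A_Om (hV : V.G.Ok W) : V.G.A ⊆ V.G.Om := fun x hx => by
  have := scales hV
  rw [Kr.Gm.A, mem_an0] at hx
  rw [Kr.Gm.Om, mem_an0]; omega

theorem rt_A (hV : V.G.Ok W) : V.rt ∉ V.G.A := by
  have := scales hV
  rw [Kr.Gm.A, mem_an0, Gv.rt]; dsimp only; omega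

theorem rsd (hΛ : Λ.Ok) : RSD (V.rho Λ) :=
  Md.rsd_mul (rsd_sub (Sg V)) (Md.rsd_prod fun e _ => Md.rsd_comp hΛ.fam.cen.toRSD (V.gk e))

theorem pos (hΛ : Λ.Ok) : 0 < V.rho Λ 0 := by
  rw [rho_eq, ind_pos (Sg V).zero_mem, one_mul]
  exact prod_pos fun _ _ => hΛ.fam.pos _

theorem cen (hΛ : Λ.Ok) (hV : V.G.Ok W) (hG : V.Geo) : Cen (V.rw Λ) := by
  refine ⟨Md.rsd_mul (Md.rsd_ind (Finsupp.applyAddHom V.rt : Cfg Pt →+ ℤ)) (rsd hΛ), ?_, ?_⟩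
  · rw [Gv.rw, ind_pos (Finsupp.zero_apply (a := V.rt)), one_mul]; exact pos hΛ
  · have := se_inj ((Finsupp.applyAddHom V.rt : Cfg Pt →+ ℤ).ker ⊓ Sg V) V.EO V.gk (fun _ => hΛ.fam.cen)
      fun s hs h => inj hV hG hs.2 h (rt_Om hV) hs.1
    convert this using 2 with s
    rw [Gv.rw, rho_eq, ← mul_assoc, ← ind_and]; rfl

theorem cenM (hΛ : Λ.Ok) (hV : V.G.Ok W) (hG : V.Geo) (a : ℕ) : Cen (V.rm Λ a) := by
  have hω : 0 < V.ω := lt_of_lt_of_le (by norm_num) hG.ω16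
  have hF : Fam (gau (V.ms a)⁻¹) := ⟨false, _, by unfold Gv.ms; positivity, rfl⟩
  refine ⟨Md.rsd_mul (rsd hΛ) (Md.rsd_prod fun x _ => Md.rsd_comp hF.cen.toRSD (Finsupp.applyAddHom x)),
    mul_pos (pos hΛ) (prod_pos fun _ _ => hF.pos _), ?_⟩
  obtain ⟨y, hy⟩ : V.Ga.Nonempty := card_pos.1 (by rw [hG.card_Ga]; positivity)
  have := se_inj (Sg V) (V.EO.disjSum V.Ga) (Sum.elim V.gk Finsupp.applyAddHom)
    (w := Sum.elim (fun _ => Λ.w) fun _ => gau (V.ms a)⁻¹) (by rintro (e | x); exacts [hΛ.fam.cen, hF.cen])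
    fun s hs h => inj hV hG hs (fun e he => h (.inl e) (inl_mem_disjSum.2 he))
      (A_Om hV (mid_A hV hG (hG.Ga_sub hy))) (h (.inr y) (inr_mem_disjSum.2 hy))
  convert this using 2 with s
  rw [Gv.rm, rho_eq, prod_disjSum, mul_assoc]; rfl

theorem m0 (hΛ : Λ.Ok) : (V.m0 Λ).Ctr ∧ (V.m0 Λ).Anch := by
  refine ⟨ctr_of_site_one (fun _ _ => hΛ.fam) rfl, fun x hx => ?_⟩
  obtain ⟨n, hn⟩ : ∃ n : ℕ, V.G.R - x.1 < n := ⟨(V.G.R - x.1).toNat + 1, by omega⟩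
  induction n generalizing x with
  | zero =>
    change x ∈ V.G.A at hx
    rw [Kr.Gm.A, mem_an0] at hx; omega
  | succ n ih =>
    have he : (x, x + (1, 0)) ∈ V.EA := kp_ray (Lat.mem_edT.2 ⟨nJp_iff.2 (by simp), Or.inl hx⟩)
      (by rw [ray_eq, if_neg]; simp only [Prod.fst_add]; omega)
    by_cases h : x + (1, 0) ∈ V.G.A
    · obtain ⟨y, h1, h2⟩ := ih _ h (by simp only [Prod.fst_add]; omega)
      exact ⟨y, Relation.ReflTransGen.head (Or.inl he) h1, h2⟩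
    · exact ⟨_, Relation.ReflTransGen.single (Or.inl he), Or.inl h⟩

theorem sl (hΛ : Λ.Ok) (hG : V.Geo) : (V.sl Λ).Ctr ∧ (V.sl Λ).Anch :=
  ⟨ctr_of_site_one (fun _ _ => hΛ.fam) rfl, fun x hx =>
    ⟨V.rt, hG.conn x (mem_of_mem_erase hx), Or.inl (notMem_erase _ _)⟩⟩

theorem shift (hG : V.Geo) (s : Cfg Pt) (i : ℤ) : V.rho Λ (s + cst V.G.Om i) = V.rho Λ s := by
  have hc : cst V.G.Om i ∈ Sg V := fun x hx _ _ => Md.cst_not hx i
  rw [rho_eq, rho_eq, ind_congr ((Sg V).add_mem_cancel_right hc)]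
  congr 1
  refine prod_congr rfl fun e he => ?_
  rw [gk_apply, gk_apply, Md.dE_cst (EO_ends he).2.1 (EO_ends he).2.2, Finsupp.add_apply,
    Finsupp.add_apply, Md.cst_not hG.k_off.1, Md.cst_not hG.k_off.2.1, add_zero, add_zero]

theorem rw_root (hV : V.G.Ok W) (hG : V.Geo) (s : Cfg Pt) :
    V.rw Λ (s - cst V.G.Om (s V.rt)) = V.rho Λ s := by
  rw [Gv.rw, ind_pos (by rw [Finsupp.sub_apply, Md.cst_mem (rt_Om hV), sub_self]), one_mul,
    sub_eq_add_neg, ← Md.cst_neg, shift hG]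

theorem rho_nn (hΛ : Λ.Ok) (s : Cfg Pt) : 0 ≤ V.rho Λ s := (rsd hΛ).nonneg s

theorem float (hΛ : Λ.Ok) (hV : V.G.Ok W) (hG : V.Geo) (u : Cfg Pt → ℝ) (h0 : ∀ s, 0 ≤ u s)
    (h1 : ∀ s, HasSum (fun i : ℤ => u (s + cst V.G.Om i)) 1) :
    Wt (fun s => u s * V.rho Λ s) ∧ Zs (fun s => u s * V.rho Λ s) = V.Z Λ ∧
    ∀ (F : Cfg Pt → ℝ) (C : ℝ), (∀ s, |F s| ≤ C) → (∀ s i, F (s + cst V.G.Om i) = F s) →
      Ex (fun s => u s * V.rho Λ s) F = V.EX Λ F := by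
  have hw := (cen hΛ hV hG).wt
  have key : ∀ F : Cfg Pt → ℝ, Ig (V.rw Λ) F → (∀ s i, F (s + cst V.G.Om i) = F s) →
      HasSum (fun s => u s * V.rho Λ s * F s) (∑' t, V.rw Λ t * F t) := fun F hF hi => by
    convert X56.hasSum_root (rt_Om hV) h0 h1 hF fun t ht =>
      ind_ne_zero.1 (left_ne_zero_of_mul (left_ne_zero_of_mul ht)) using 2 with s
    rw [rw_root hV hG, sub_eq_add_neg, ← Md.cst_neg, hi, mul_assoc]
  have k1 := key (fun _ => 1) (hw.ig_const 1) fun _ _ => rfl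
  simp only [mul_one] at k1
  have hZ : Zs (fun s => u s * V.rho Λ s) = V.Z Λ := k1.tsum_eq
  refine ⟨⟨fun s => mul_nonneg (h0 s) (rho_nn hΛ s), k1.summable, hZ ▸ hw.pos⟩, hZ, fun F C hC hi => ?_⟩
  rw [Ex_def, hZ, (key F (hw.ig_bdd hC) hi).tsum_eq]; rfl

/-- pinning everything off `U` -/
theorem pin (hΛ : Λ.Ok) (hG : V.Geo) {U : Finset Pt} (hU : U ⊆ V.G.Om) {E : Finset (Pt × Pt)}
    (hE : E ⊆ V.EO) (h : ∀ e ∈ V.EO, e ∉ E → e.1 ∉ U ∧ e.2 ∉ U) :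
    Pp (fun s => ind (∀ x, x ∉ U → s x = 0) * V.rho Λ s)
      ((⟨U, E, fun _ => Λ.w, fun _ _ => 1⟩ : Mdl Pt).W 0) := by
  refine ⟨∏ _e ∈ V.EO \ E, Λ.w 0, prod_pos fun _ _ => hΛ.fam.pos _, fun s => ?_⟩
  by_cases hs : ∀ x, x ∉ U → s x = 0
  · have h1 := hs _ fun h => hG.k_off.1 (hU h)
    have h2 := hs _ fun h => hG.k_off.2.1 (hU h)
    have h3 : s ∈ Sg V := fun x hx _ _ => hs x fun h => hx (hU h)
    simp only [Mdl.W, rho_eq, gk_zero h1 h2, Finsupp.zero_apply, ind_pos hs, ind_pos h3, one_mul,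
      prod_const_one, mul_one]
    rw [← prod_sdiff hE]
    congr 1
    refine prod_congr rfl fun e he => ?_
    obtain ⟨a, b⟩ := h e (mem_sdiff.1 he).1 (mem_sdiff.1 he).2
    rw [dE, hs _ a, hs _ b, sub_self]
  · simp only [Mdl.W, Finsupp.zero_apply, ind_neg hs, zero_mul, mul_zero]

theorem loc_pin (hΛ : Λ.Ok) (hV : V.G.Ok W) (hG : V.Geo) {U : Finset Pt} (hU : U ⊆ V.G.A)
    {E : Finset (Pt × Pt)} (hE : E ⊆ V.EO) (h : ∀ e ∈ V.EO, e ∉ E → e.1 ∉ U ∧ e.2 ∉ U) :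
    Loc ((⟨U, E, fun _ => Λ.w, fun _ _ => 1⟩ : Mdl Pt).W 0) (V.rw Λ) := by
  refine ((cen hΛ hV hG).loc_mul (pd_off U) (fun _ => ind_nonneg _) (by simp)).pp_left
    ((pin hΛ hG (hU.trans (A_Om hV)) hE h).symm.trans (Pp.of_eq fun s => ?_))
  by_cases hs : ∀ x, x ∉ U → s x = 0
  · rw [Gv.rw, ind_pos hs, ind_pos (hs _ fun h => rt_A hV (hU h)), mul_one]
  · rw [ind_neg hs, zero_mul, mul_zero]

theorem EA_off {e : Pt × Pt} (he : e ∈ V.EO) (h : e ∉ V.EA) : e.1 ∉ V.G.A ∧ e.2 ∉ V.G.A :=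
  not_or.1 fun h' => h (mem_kp.2 ⟨Lat.mem_edT.2 ⟨(EO_ends he).1, h'⟩, (mem_kp.1 he).2⟩)

theorem dH_zero (hV : V.G.Ok W) (hG : V.Geo) {s : Cfg Pt} (hs : s ∈ Sg V) :
    V.dH s = 0 ↔ ∀ x, x ∉ V.G.A → s x = 0 := by
  have sc := scales hV
  have e : V.dH s = 0 ↔ (∀ x ∈ V.In, s x = 0) ∧ ∀ x ∈ V.Ou, s x = 0 := by
    simp only [Gv.dH, AddMonoidHom.prod_apply, Prod.mk_eq_zero, Finsupp.ext_iff, resH_apply,
      Finsupp.zero_apply, ite_eq_right_iff]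
  rw [e]
  simp only [Gv.In, Gv.Ou, mem_insert, forall_eq_or_imp]
  refine ⟨fun ⟨⟨a, b⟩, c, d⟩ x hx => ?_, fun h => ⟨⟨h _ fun h => hG.k_off.1 (A_Om hV h), fun x hx => h x ?_⟩,
    h _ fun h => hG.k_off.2.1 (A_Om hV h), fun x hx => h x ?_⟩⟩
  · by_cases h1 : x ∈ V.G.In
    · exact b x h1
    by_cases h2 : x ∈ V.G.Ou
    · exact d x h2
    by_cases h3 : x = V.k1
    · exact h3 ▸ a
    by_cases h4 : x = V.k2
    · exact h4 ▸ c
    refine hs x ?_ h3 h4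
    rw [Kr.Gm.A, mem_an0] at hx; rw [Kr.Gm.In, mem_an0] at h1; rw [Kr.Gm.Ou, mem_an0] at h2
    rw [Kr.Gm.Om, mem_an0]; omega
  · rw [Kr.Gm.In, mem_an0] at hx; rw [Kr.Gm.A, mem_an0]; omega
  · rw [Kr.Gm.Ou, mem_an0] at hx; rw [Kr.Gm.A, mem_an0]; omega

theorem fib0 (hΛ : Λ.Ok) (hV : V.G.Ok W) (hG : V.Geo) :
    Pp (Kq75.fib (V.rho Λ) V.dH 0) ((V.m0 Λ).W 0) := by
  refine (Pp.of_eq fun s => ?_).trans (pin hΛ hG (A_Om hV) hG.EA_sub fun e => EA_off)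
  by_cases hs : s ∈ Sg V
  · rw [Kq75.fib, ind_congr (dH_zero hV hG hs)]
  · rw [Kq75.fib, rho_eq, ind_neg hs, zero_mul, mul_zero, mul_zero]

theorem summ (hΛ : Λ.Ok) (hV : V.G.Ok W) (hG : V.Geo) (q : Cfg Pt × Cfg Pt) :
    Summable (Kq75.fib (V.rho Λ) V.dH q) := by
  have h := (Equiv.subRight (cst V.G.Om (q.2 V.rt))).summable_iff.2 (cen hΛ hV hG).wt.summ
  refine h.of_nonneg_of_le (Kq75.fib_nonneg (rho_nn hΛ) q) fun s => ?_
  by_cases hs : V.dH s = q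
  · have : q.2 V.rt = s V.rt := by
      rw [← hs]
      exact (resH_apply _ _ _).trans (if_pos (mem_insert_of_mem hG.k_off.2.2.2))
    rw [Kq75.fib, ind_pos hs, one_mul, this]
    exact (rw_root hV hG s).ge
  · rw [Kq75.fib, ind_neg hs, zero_mul]
    exact (cen hΛ hV hG).nonneg _

theorem pd_ed (hΛ : Λ.Ok) (E : Finset (Pt × Pt)) : PD fun s => ∏ e ∈ E, Λ.w (V.gk e s) :=
  PD.prod fun e _ => hΛ.fam.pd.comp (V.gk e)

theorem split (hΛ : Λ.Ok) {E : Finset (Pt × Pt)} (hE : E ⊆ V.EO) : ∃ H : Cfg Pt → ℝ, PD H ∧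
    (∀ a, 0 ≤ H a) ∧ ∀ a, V.rw Λ a = H a * ∏ e ∈ E, Λ.w (V.gk e a) :=
  ⟨fun s => ind (s V.rt = 0) * (ind (s ∈ Sg V) * ∏ e ∈ V.EO \ E, Λ.w (V.gk e s)),
    (pd_ind (Finsupp.applyAddHom V.rt : Cfg Pt →+ ℤ)).mul ((pd_sub _).mul (pd_ed hΛ _)),
    fun _ => mul_nonneg (ind_nonneg _) (mul_nonneg (ind_nonneg _)
      (prod_nonneg fun _ _ => (hΛ.fam.pos _).le)),
    fun a => by rw [Gv.rw, rho_eq, ← prod_sdiff hE]; ring⟩

/-- the twisted gradient is exact on boxes -/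
theorem grad (hG : V.Geo) {z : Pt} {l : ℕ} (hA : sq z l ⊆ V.G.A) (hE : Pot.nL.edI (sq z l) ⊆ V.EA)
    (a : Cfg Pt) : ∃ t : Cfg Pt, ∀ e ∈ Pot.nL.edI (sq z l), V.gk e a = dE e t := by
  refine ⟨a + cst ((sq z l).filter fun x => 0 ≤ x.2) (V.s1 ((z.1, -1), (z.1, 0)) * a V.k1 +
    V.s2 ((z.1, -1), (z.1, 0)) * a V.k2), fun e he => ?_⟩
  obtain ⟨h1, h2, h3⟩ := Lat.mem_edI.1 he
  rw [nJp_iff] at h1
  rw [Md.dE_add, gk_apply, add_assoc, add_right_inj, dE, Md.cst_apply, Md.cst_apply]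
  simp only [mem_filter, h2, h3, true_and]
  by_cases hv : e.1.2 = -1 ∧ e.2.2 = 0
  · obtain ⟨⟨i, y⟩, i', y'⟩ := e
    dsimp only at h1 hv ⊢
    obtain ⟨rfl, rfl⟩ := hv
    obtain rfl : i' = i := by omega
    rw [mem_sq] at h2 h3
    dsimp only at h2 h3
    have hω := hG.ω16
    have ve : ∀ j : ℤ, z.1 ≤ j → j ≤ i' → j ≠ 0 ∧
        (0 ≤ j → j < (V.G.rho : ℤ) - 4 * V.ω ∨ (V.G.rho : ℤ) + 4 * V.ω ≤ j) := fun j a b => by
      have m1 : ((j, -1) : Pt) ∈ sq z l := by rw [mem_sq]; dsimp only; omega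
      have m2 : ((j, 0) : Pt) ∈ sq z l := by rw [mem_sq]; dsimp only; omega
      have m3 := hA m2
      rw [Kr.Gm.A, mem_an0] at m3
      have m4 := (mem_kp.1 (hE (Lat.mem_edI.2 ⟨nJp_iff.2 (Or.inr ⟨rfl, rfl⟩), m1, m2⟩ :
        (((j, -1), (j, 0)) : Pt × Pt) ∈ _))).2
      rw [s1_v, s2_v, ray_v] at m4
      dsimp only at m3
      split_ifs at m4 <;> omega
    have v0 := ve 0
    have v1 := ve z.1
    have v2 := ve ((V.G.rho : ℤ) - 4 * V.ω)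
    have := hG.ω_le
    have e1 : V.s1 ((z.1, -1), (z.1, 0)) = V.s1 ((i', -1), (i', 0)) := by
      rw [s1_v, s1_v]; split_ifs <;> omega
    have e2 : V.s2 ((z.1, -1), (z.1, 0)) = V.s2 ((i', -1), (i', 0)) := by
      rw [s2_v, s2_v]; split_ifs <;> omega
    rw [e1, e2, if_pos le_rfl, if_neg (by omega), sub_zero]
  · have h0 : ray 0 e = 0 := by rw [ray_eq, if_neg]; tauto
    rw [(s_zero h0).1, (s_zero h0).2, zero_mul, zero_mul, add_zero]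
    split_ifs <;> omega

theorem gamb (hΛ : Λ.Ok) (hJ : Λ.J = nn) (hV : V.G.Ok W) (hG : V.Geo) (D : Finset Pt) (l : ℕ)
    (hD : D ⊆ V.G.A) (hE : Pot.nL.edI D ⊆ V.EA) :
    Λ.GAmb (V.rw Λ) V.gk D l ∧ Λ.GAmb ((V.m0 Λ).W 0) V.gk D l := by
  have hg : ∀ z, sq z l ⊆ D → ∀ a, ∃ t : Cfg Pt, ∀ e ∈ Λ.edI (sq z l), V.gk e a = dE e t :=
    fun z hz a => by rw [edI_eq hJ]; exact grad hG (hz.trans hD) ((Lat.edI_mono hz).trans hE) a
  have hc := cen hΛ hV hG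
  have hm := (m0 (V := V) hΛ).1.cen (m0 hΛ).2
  refine ⟨⟨hc.wt, hc.se, by rw [edI_eq hJ]; exact split hΛ (hE.trans hG.EA_sub), hg⟩, hm.wt, hm.se,
    ⟨fun s => ind (∀ x, x ∉ V.G.A → s x = 0) * ∏ e ∈ V.EA \ Pot.nL.edI D, Λ.w (V.gk e s),
      (pd_off _).mul (pd_ed hΛ _), fun _ => mul_nonneg (ind_nonneg _)
      (prod_nonneg fun _ _ => (hΛ.fam.pos _).le), fun s => ?_⟩, hg⟩
  by_cases hs : ∀ x, x ∉ V.G.A → s x = 0
  · have h1 := hs _ fun h => hG.k_off.1 (A_Om hV h)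
    have h2 := hs _ fun h => hG.k_off.2.1 (A_Om hV h)
    simp only [Mdl.W, Gv.m0, gk_zero h1 h2, Finsupp.zero_apply, prod_const_one, mul_one, edI_eq hJ]
    rw [mul_assoc, prod_sdiff hE]
  · simp only [Mdl.W, Gv.m0, Finsupp.zero_apply, ind_neg hs, zero_mul]

theorem mem_lip {x : Pt} : x ∈ V.lip ↔ (V.G.rho : ℤ) - 4 * V.ω ≤ x.1 ∧ x.1 < (V.G.rho : ℤ) + 4 * V.ω ∧
    0 < V.ω ∧ (x.2 = 0 ∨ x.2 = -1) := by
  simp only [Gv.lip, Gv.up, Gv.lo, mem_filter, mem_union, mem_sq]; push_cast; omega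

theorem ga (hΛ : Λ.Ok) (hJ : Λ.J = nn) (hV : V.G.Ok W) (hG : V.Geo) :
    Uv.GA Λ (V.rw Λ) (AddMonoidHom.id _) (V.mid \ V.lip) (V.mid \ V.lip) := by
  have hc := cen hΛ hV hG
  have hA : V.mid \ V.lip ⊆ V.G.A := sdiff_subset.trans (mid_A hV hG)
  refine ⟨hc, subset_rfl, fun U hU Φ hΦ _ => (loc_pin hΛ hV hG (hU.trans hA) (E := Λ.edT U)
    (fun e he => ?_) fun e he h => ?_).2 Φ hΦ, fun a n hn hB f h0 h1 => ?_⟩
  · rw [edT_eq hJ] at he
    by_contra h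
    obtain ⟨h1, h2, h3⟩ := (hG.slit e (Kr.Geo87.nL_edT_A hV (Lat.edT_mono (hU.trans hA) he))).1 h
    rcases (Lat.mem_edT.1 he).2 with h4 | h4
    · exact (mem_sdiff.1 (hU h4)).2 h1
    · refine (mem_sdiff.1 (hU h4)).2 ?_
      rw [mem_lip] at h1 ⊢
      rw [h3]; simp only [Prod.fst_add, Prod.snd_add]; omega
  · rw [edT_eq hJ] at h
    exact not_or.1 fun h' => h (Lat.mem_edT.2 ⟨(EO_ends he).1, h'⟩)
  have hr := self_mem_sq a hn
  have hn := hΛ.cen_Nr hr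
  have hry : ∀ e ∈ Pot.nL.edI (sq a n), ray 0 e = 0 := fun e he => by
    obtain ⟨h2, h3⟩ := mem_sdiff.1 (hB (Lat.mem_edI.1 he).2.1)
    have := hG.ω16
    have := hG.ω_le
    rw [mem_lip] at h3
    simp only [Gv.mid, Gv.rng, mem_sdiff, mem_sq] at h2
    rw [ray_eq, if_neg]; omega
  obtain ⟨H, hH, hH0, hW⟩ := split (V := V) hΛ (E := Pot.nL.edI (sq a n)) fun e he =>
    kp_ray (Lat.edI_mono ((hB.trans hA).trans (A_Om hV)) he) (hry e he)
  let π : Cfg Pt →+ Cfg Pt := resH (sq a n) - (cstH (sq a n)).comp (Finsupp.applyAddHom a)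
  have hπ : ∀ s x, π s x = if x ∈ sq a n then s x - s a else 0 := fun s x => by
    change resH (sq a n) s x - cst (sq a n) (s a) x = _
    rw [resH_apply, Md.cst_apply]; split_ifs <;> simp
  have hρ : ∀ s, (Λ.Nr (sq a n) a).W 0 (π s) = ∏ e ∈ Pot.nL.edI (sq a n), Λ.w (V.gk e s) := fun s => by
    simp only [Mdl.W, Lat.Nr, Lat.N, Mdl.free, prod_const_one, mul_one, edI_eq hJ]
    rw [ind_pos fun x hx => ?_, one_mul]
    · refine prod_congr rfl fun e he => ?_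
      rw [gk_ray (hry e he), dE, dE, hπ, hπ, if_pos (Lat.mem_edI.1 he).2.1, if_pos (Lat.mem_edI.1 he).2.2,
        sub_sub_sub_cancel_right]
    · rw [hπ]; split_ifs with h
      · rw [mem_erase, not_and_or, not_not] at hx
        rw [hx.resolve_right fun h' => h' h, sub_self]; rfl
      · rfl
  refine Vr_le_of_M_le hn.wt hn.se hn.even hc.wt hc.se hc.even fun t => ?_
  have := T140.M_ref π hc.wt hc.se hH hH0 hn
    (fun s => by rw [hρ]; exact (prod_pos fun _ _ => hΛ.fam.pos _).ne') (fun s => by rw [hρ, hW]) (t • pr f)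
  convert this using 2
  refine AddMonoidHom.ext fun s => congrArg (t * ·) (Uv.depG_pr h0 h1 _ _ (-s a) fun x hx => ?_)
  rw [hπ, if_pos hx]; rfl

/-- the sectors -/
theorem ex_sec (hV : V.G.Ok W) (hG : V.Geo) (k : ℤ) (F : Cfg Pt → ℝ) :
    V.EX Λ (fun s => ind (s V.k1 = k ∧ s V.k2 = k) * F (resH V.G.Om s)) =
      (∑' t, (V.sl Λ).Ws 0 (k • ray 0) t * F t) / V.Z Λ := by
  obtain ⟨o1, o2, o3, -⟩ := hG.k_off
  let η : Cfg Pt := cst {V.k1, V.k2} k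
  have η1 : η V.k1 = k := Md.cst_mem (by simp) k
  have η2 : η V.k2 = k := Md.cst_mem (by simp) k
  have η0 : ∀ x, x ≠ V.k1 → x ≠ V.k2 → η x = 0 := fun x a b => Md.cst_not (by simp [a, b]) k
  have ηO : ∀ x ∈ V.G.Om, η x = 0 := fun x hx => η0 x (fun h => o1 (h ▸ hx)) fun h => o2 (h ▸ hx)
  rw [Gv.EX, Ex_def, ← (Equiv.addRight η).tsum_eq]
  congr 1
  refine tsum_congr fun t => ?_
  simp only [Equiv.coe_addRight, Gv.rw, rho_eq, Mdl.Ws, Gv.sl, Finsupp.add_apply, η1, η2,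
    ηO _ (rt_Om hV), add_zero, add_eq_right, prod_const_one, mul_one, Finsupp.zero_apply]
  by_cases ht : ∀ x, x ∉ V.G.Om.erase V.rt → t x = 0
  · have t0 : ∀ x, x ∉ V.G.Om → t x = 0 := fun x hx => ht x fun h => hx (mem_of_mem_erase h)
    have h3 : t + η ∈ Sg V := fun x a b c => by rw [Finsupp.add_apply, t0 x a, η0 x b c, add_zero]
    have h4 : resH V.G.Om (t + η) = t := by
      ext x
      rw [resH_apply]; split_ifs with h
      · rw [Finsupp.add_apply, ηO x h, add_zero]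
      · exact (t0 x h).symm
    rw [ind_pos ht, ind_pos (ht _ (notMem_erase _ _)), ind_pos h3, ind_pos ⟨t0 _ o1, t0 _ o2⟩, h4]
    simp only [one_mul]
    congr 1
    refine prod_congr rfl fun e he => ?_
    rw [gk_apply, Md.dE_add, Finsupp.add_apply, Finsupp.add_apply, t0 _ o1, t0 _ o2, η1, η2, dE, dE,
      ηO _ (EO_ends he).2.1, ηO _ (EO_ends he).2.2, Pi.smul_apply, (mem_kp.1 he).2, smul_eq_mul]
    congr 1; ring
  · rw [ind_neg ht, zero_mul, zero_mul]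
    by_contra h
    have a1 := ind_ne_zero.1 (left_ne_zero_of_mul (left_ne_zero_of_mul h))
    have a2 := ind_ne_zero.1 (left_ne_zero_of_mul (right_ne_zero_of_mul (left_ne_zero_of_mul h)))
    have a3 := ind_ne_zero.1 (left_ne_zero_of_mul (right_ne_zero_of_mul h))
    refine ht fun x hx => ?_
    by_cases b0 : x = V.rt
    · exact b0 ▸ a1
    by_cases b1 : x = V.k1
    · exact b1 ▸ a3.1
    by_cases b2 : x = V.k2
    · exact b2 ▸ a3.2
    have := a2 x (fun h => hx (mem_erase.2 ⟨b0, h⟩)) b1 b2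
    rwa [Finsupp.add_apply, η0 x b1 b2, add_zero] at this

theorem Pk_eq (hV : V.G.Ok W) (hG : V.Geo) (k : ℤ) :
    V.Pk Λ k = Zs ((V.sl Λ).Ws 0 (k • ray 0)) / V.Z Λ := by
  simpa only [mul_one, Gv.Pk, Zs] using ex_sec (Λ := Λ) hV hG k fun _ => 1

end E46

open E46 in
/-- the extended model -/
theorem extStmt (hGeo : GeoStmt) : ExtStmt := fun Λ V W hΛ hJ h =>
  have hG := hGeo V W h
  have hV := h.g
  have hs := E46.sl (V := V) hΛ hG
  { rsd := rsd hΛ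
    pos := pos hΛ
    cen := cen hΛ hV hG
    cenM := cenM hΛ hV hG
    m0 := m0 hΛ
    sl := hs
    shift := shift hG
    float := float hΛ hV hG
    fib0 := fib0 hΛ hV hG
    summ := summ hΛ hV hG
    loc := loc_pin hΛ hV hG subset_rfl hG.EA_sub fun _ => EA_off
    gamb := gamb hΛ hJ hV hG
    ga := ga hΛ hJ hV hG
    sec := fun F _ _ => by
      have := (Md.ctr_wts hs.1 hs.2 0 (ray 0)).ne
      rw [ex_sec hV hG, Pk_eq hV hG, one_smul, Gv.ES, Ex_def]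
      field_simp
    rat := by
      have := (hs.1.wt hs.2 0).ne
      rw [Pk_eq hV hG, Pk_eq hV hG, one_smul, zero_smul, Vd.rat, ← funext (Md.W_eq_Ws _ _)]
      field_simp }

end Crest.Agent.T145.Kv
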