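import Crest.Agent.T145.Bes_66

/-!
# Row 145, T0 (helper66): bounds, derivative, analyticity of `I_k(t)`; kernels decrease in `|k|`
-/

set_option autoImplicit false

open Finset
open scoped Nat ContDiff

namespace Crest.Agent.T145.Bes66

theorem bes_neg (t : ℝ) (k : ℤ) : bes t (-k) = bes t k := Xy48.besI_neg t k

theorem bes_nonneg {t : ℝ} (ht : 0 ≤ t) (k : ℤ) : 0 ≤ bes t k := Xy48.besI_nonneg ht k

theorem bes_pos {t : ℝ} (ht : 0 < t) (k : ℤ) : 0 < bes t k := Xy48.besI_pos ht k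

theorem bes_zero (k : ℤ) : bes 0 k = if k = 0 then 1 else 0 := by
  have h := hasSum_single (f := fun N => nu 0 N * ph N k) 0 fun N hN => by simp [nu, hN]
  rw [← (hasSum_bes 0 k).unique h |>.symm]
  simp [nu, ph]

theorem le_bes {t : ℝ} (ht : 0 ≤ t) (k : ℤ) : (t / 2) ^ k.natAbs / k.natAbs ! ≤ bes t k := by
  have h := le_hasSum (Xy48.hasSum_besI t k) 0 fun j _ => Xy48.bt_nonneg ht k j
  simpa [Xy48.bt, bes_eq] using h

theorem bes_le {t : ℝ} (ht : 0 ≤ t) (k : ℤ) :
    bes t k ≤ Real.exp (t ^ 2 / 4) * ((t / 2) ^ k.natAbs / k.natAbs !) := by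
  have h := (NormedSpace.expSeries_div_hasSum_exp (t ^ 2 / 4 : ℝ)).mul_right
    ((t / 2) ^ k.natAbs / k.natAbs !)
  rw [← Real.exp_eq_exp_ℝ] at h
  refine hasSum_le (fun j => ?_) (Xy48.hasSum_besI t k) h
  rw [Xy48.bt, div_mul_div_comm, pow_add, pow_mul, show (t / 2) ^ 2 = t ^ 2 / 4 by ring]
  gcongr
  omega

theorem bes_le_exp {t : ℝ} (ht : 0 ≤ t) (k : ℤ) : bes t k ≤ Real.exp t :=
  le_hasSum (Xy48.hasSum_besI_one t) k fun j _ => bes_nonneg ht j

theorem bes_mono (k : ℤ) {s t : ℝ} (hs : 0 ≤ s) (h : s ≤ t) : bes s k ≤ bes t k :=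
  hasSum_le (fun N => mul_le_mul_of_nonneg_right (by unfold nu; gcongr) (ph_nonneg N k))
    (hasSum_bes s k) (hasSum_bes t k)

theorem abs_nu (t : ℝ) (N : ℕ) : |nu t N| = nu |t| N := by
  simp [nu, abs_div, abs_pow]

theorem hasDerivAt_nu (t : ℝ) (N : ℕ) : HasDerivAt (fun s => nu s (N + 1)) (nu t N / 2) t := by
  have h := (((hasDerivAt_id t).div_const 2).fun_pow (N + 1)).div_const ((N + 1)! : ℝ)
  refine h.congr_deriv ?_
  simp only [nu, id, Nat.add_sub_cancel, Nat.factorial_succ]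
  push_cast
  field_simp

theorem hasSum_succ (t : ℝ) (k : ℤ) :
    HasSum (fun N => nu t N / 2 * ph (N + 1) k) ((bes t (k - 1) + bes t (k + 1)) / 2) :=
  hs_congr (((hasSum_bes t (k - 1)).add (hasSum_bes t (k + 1))).div_const 2)
    (fun N => by rw [ph_succ]; ring) rfl

/-- `d/dt I_k = (I_{k-1} + I_{k+1}) / 2` -/
theorem hasDerivAt_bes (t : ℝ) (k : ℤ) :
    HasDerivAt (fun s => bes s k) ((bes t (k - 1) + bes t (k + 1)) / 2) t := by
  have hs : ∀ s, HasSum (fun N => nu s (N + 1) * ph (N + 1) k) (bes s k - ph 0 k) := fun s => by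
    have := (hasSum_nat_add_iff' 1).2 (hasSum_bes s k)
    simpa [nu] using this
  have h := hasDerivAt_tsum_of_isPreconnected (hasSum_succ (|t| + 1) k).summable
    (Metric.isOpen_ball (x := (0 : ℝ)) (ε := |t| + 1)) (convex_ball _ _).isPreconnected
    (g := fun N s => nu s (N + 1) * ph (N + 1) k) (g' := fun N s => nu s N / 2 * ph (N + 1) k)
    (fun N s _ => (hasDerivAt_nu s N).mul_const _) (fun N s hs => ?_) (y₀ := t) (by simp)
    (hs t).summable (y := t) (by simp)
  · simp only [fun s => (hs s).tsum_eq, (hasSum_succ t k).tsum_eq] at h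
    simpa using h.add_const (ph 0 k)
  · rw [Real.norm_eq_abs, abs_mul, abs_div, abs_nu, abs_two, abs_of_nonneg (ph_nonneg _ _)]
    have h1 : |s| ≤ |t| + 1 := (mem_ball_zero_iff.1 hs).le
    have h2 := ph_nonneg (N + 1) k
    unfold nu
    gcongr

theorem continuous_bes (k : ℤ) : Continuous fun t => bes t k :=
  continuous_iff_continuousAt.2 fun t => (hasDerivAt_bes t k).continuousAt

theorem analyticAt_bes (k : ℤ) (t : ℝ) : AnalyticAt ℝ (fun s => bes s k) t := by
  obtain ⟨p, hp⟩ : ∃ p, p = FormalMultilinearSeries.ofScalars ℝ fun N => nu 1 N * ph N k := ⟨_, rfl⟩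
  have e : ∀ (s : ℝ) N, nu 1 N * ph N k * s ^ N = nu s N * ph N k := fun s N => by
    simp only [nu, div_pow, one_pow]; ring
  have hr : p.radius = ⊤ := p.radius_eq_top_of_summable_norm fun r =>
    (hasSum_bes r k).summable.congr fun N => by
      rw [hp, FormalMultilinearSeries.ofScalars_norm, Real.norm_of_nonneg
        (mul_nonneg (nu_nonneg zero_le_one N) (ph_nonneg N k)), e]
  have h := (p.hasFPowerSeriesOnBall (by simp [hr])).analyticAt_of_mem (y := t) (by simp [hr])
  convert h using 1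
  funext s
  rw [← (hasSum_bes s k).tsum_eq, FormalMultilinearSeries.sum]
  refine tsum_congr fun N => ?_
  rw [hp, FormalMultilinearSeries.ofScalars_apply_eq, smul_eq_mul, e]

theorem contDiff_bes (k : ℤ) {n : WithTop ℕ∞} : ContDiff ℝ n fun t => bes t k :=
  contDiff_iff_contDiffAt.2 fun t => (analyticAt_bes k t).contDiffAt

/-- a kernel decreases in `|k|` -/
theorem lc_succ_le {w : ℤ → ℝ} (h : LC w) (he : ∀ k, w (-k) = w k) {k : ℤ} (hk : 0 ≤ k) :
    w (k + 1) ≤ w k := by
  induction k, hk using Int.leInduction with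
  | base =>
    have h1 := h.2 0
    rw [zero_sub, he, zero_add, ← sq] at h1
    exact (pow_le_pow_iff_left₀ (h.1 _).le (h.1 _).le two_ne_zero).1 h1
  | succ k hk ih =>
    have h1 := h.2 (k + 1)
    rw [add_sub_cancel_right, sq] at h1
    exact le_of_mul_le_mul_left (h1.trans (mul_le_mul_of_nonneg_right ih (h.1 _).le)) (h.1 k)

theorem lc_anti {w : ℤ → ℝ} (h : LC w) (he : ∀ k, w (-k) = w k) {k l : ℤ} (hkl : |k| ≤ |l|) :
    w l ≤ w k := by
  have e : ∀ k, w |k| = w k := fun k => by rcases abs_choice k with h | h <;> rw [h]; exact he k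
  rw [← e k, ← e l]
  generalize |l| = m at hkl
  induction m, hkl using Int.leInduction with
  | base => exact le_rfl
  | succ m hm ih => exact (lc_succ_le h he ((abs_nonneg k).trans hm)).trans ih

theorem _root_.Crest.Agent.T145.IsKer.anti {w : ℤ → ℝ} (h : IsKer w) {k l : ℤ} (hkl : |k| ≤ |l|) :
    w l ≤ w k := lc_anti h.lc h.cen.even hkl

/-- log-concavity in ratio form: `w (k + 1) / w k` decreases -/
theorem lc_ratio {w : ℤ → ℝ} (h : LC w) {a b : ℤ} (hab : a ≤ b) :
    w (b + 1) * w a ≤ w (a + 1) * w b := by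
  induction b, hab using Int.leInduction with
  | base => exact le_rfl
  | succ b hb ih =>
    have h1 := h.2 (b + 1)
    rw [add_sub_cancel_right, sq] at h1
    refine le_of_mul_le_mul_left ?_ (h.1 b)
    have h2 := mul_le_mul_of_nonneg_right h1 (h.1 a).le
    have h3 := mul_le_mul_of_nonneg_right ih (h.1 (b + 1)).le
    linarith

end Crest.Agent.T145.Bes66
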