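import Crest.Agent.T145.Def2_97
import Crest.Agent.T145.Api_98
import Crest.Agent.T145.MdlA_73

/-!
# Row 145: the two-replica swap, `swapStmt : SwapStmt` (helper9)
-/

set_option autoImplicit false

namespace Crest.Agent.T145

open Finset

namespace Sw9

/-! ## log-concave kernels -/
section lc
variable {w : ℤ → ℝ}

/-- the ratios `w (k+1) / w k` decrease -/
theorem lc_step (hw : LC w) {p q : ℤ} (h : p ≤ q) : w p * w (q + 1) ≤ w (p + 1) * w q := by
  induction q, h using Int.leInduction with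
  | base => rw [mul_comm]
  | succ n _ ih =>
    have h1 := hw.2 (n + 1)
    rw [add_sub_cancel_right] at h1
    have a := hw.1 p
    have b := hw.1 n
    have c := hw.1 (n + 1)
    have d := hw.1 (n + 1 + 1)
    have e := hw.1 (p + 1)
    refine le_of_mul_le_mul_right ?_ (mul_pos b c)
    calc w p * w (n + 1 + 1) * (w n * w (n + 1)) = (w p * w (n + 1)) * (w n * w (n + 1 + 1)) := by
          ring
      _ ≤ (w (p + 1) * w n) * w (n + 1) ^ 2 :=
          mul_le_mul ih h1 (mul_pos b d).le (mul_pos e b).le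
      _ = _ := by ring

/-- the four-point inequality: an inner pair with the same sum weighs more -/
theorem lc4 (hw : LC w) {p q p' q' : ℤ} (h1 : p ≤ p') (h2 : p ≤ q') (hs : p + q = p' + q') :
    w p * w q ≤ w p' * w q' := by
  obtain ⟨t, rfl⟩ : ∃ t : ℤ, p' = p + t := ⟨p' - p, by ring⟩
  have ht : 0 ≤ t := by omega
  obtain rfl : q = q' + t := by omega
  clear hs h1
  induction t, ht using Int.leInduction with
  | base => simp
  | succ n hn ih =>
    have h3 := lc_step hw (p := p + n) (q := q' + n) (by omega)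
    have a := hw.1 p
    have b := hw.1 (p + n)
    have c := hw.1 (q' + n)
    have d := hw.1 (q' + n + 1)
    have e := hw.1 q'
    rw [← add_assoc, ← add_assoc]
    refine le_of_mul_le_mul_right ?_ (mul_pos b c)
    calc w p * w (q' + n + 1) * (w (p + n) * w (q' + n))
        = (w p * w (q' + n)) * (w (p + n) * w (q' + n + 1)) := by ring
      _ ≤ (w (p + n) * w q') * (w (p + n + 1) * w (q' + n)) :=
          mul_le_mul ih h3 (mul_pos b d).le (mul_pos b e).le
      _ = _ := by ring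

theorem lc4_log (hw : LC w) {p q p' q' : ℤ} (h1 : p ≤ p') (h2 : p ≤ q') (hs : p + q = p' + q') :
    Real.log (w p) + Real.log (w q) ≤ Real.log (w p') + Real.log (w q') := by
  rw [← Real.log_mul (hw.1 _).ne' (hw.1 _).ne', ← Real.log_mul (hw.1 _).ne' (hw.1 _).ne']
  exact Real.log_le_log (mul_pos (hw.1 _) (hw.1 _)) (lc4 hw h1 h2 hs)

/-- opposite signs of the replica differences: the swapped weight is larger -/
theorem orig_le (hw : LC w) {a a' b b' : ℤ} (h : (a - a') * (b - b') ≤ 0) :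
    w (b - a) * w (b' - a') ≤ w (b - a') * w (b' - a) := by
  rcases mul_nonpos_iff.1 h with ⟨h1, h2⟩ | ⟨h1, h2⟩
  · exact lc4 hw (by omega) (by omega) (by omega)
  · rw [mul_comm]; exact lc4 hw (by omega) (by omega) (by omega)

/-- the ratio swapped / original decreases when the replicas move apart -/
theorem ratio_le (hw : LC w) {a₁ a₁' b₁ b₁' a₂ a₂' b₂ b₂' : ℤ} (hα : a₁' ≤ a₁) (hβ : b₁' ≤ b₁)
    (ha : a₁ ≤ a₂) (ha' : a₂' ≤ a₁') (hb : b₁ ≤ b₂) (hb' : b₂' ≤ b₁') :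
    w (b₂ - a₂') * w (b₂' - a₂) / (w (b₂ - a₂) * w (b₂' - a₂')) ≤
      w (b₁ - a₁') * w (b₁' - a₁) / (w (b₁ - a₁) * w (b₁' - a₁')) := by
  have P : ∀ i j k l : ℤ, 0 < w i * w j / (w k * w l) := fun i j k l =>
    div_pos (mul_pos (hw.1 _) (hw.1 _)) (mul_pos (hw.1 _) (hw.1 _))
  have L : ∀ i j k l : ℤ, Real.log (w i * w j / (w k * w l)) =
      Real.log (w i) + Real.log (w j) - (Real.log (w k) + Real.log (w l)) := fun i j k l => by
    rw [Real.log_div (mul_pos (hw.1 _) (hw.1 _)).ne' (mul_pos (hw.1 _) (hw.1 _)).ne',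
      Real.log_mul (hw.1 _).ne' (hw.1 _).ne', Real.log_mul (hw.1 _).ne' (hw.1 _).ne']
  rw [← Real.log_le_log_iff (P _ _ _ _) (P _ _ _ _), L, L]
  have s1 := lc4_log hw (p := b₁ - a₁) (q := b₂ - a₁') (p' := b₁ - a₁') (q' := b₂ - a₁)
    (by omega) (by omega) (by omega)
  have s2 := lc4_log hw (p := b₂' - a₁) (q := b₁' - a₁') (p' := b₂' - a₁') (q' := b₁' - a₁)
    (by omega) (by omega) (by omega)
  have s3 := lc4_log hw (p := b₂' - a₂) (q := b₂ - a₁) (p' := b₂' - a₁) (q' := b₂ - a₂)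
    (by omega) (by omega) (by omega)
  have s4 := lc4_log hw (p := b₂' - a₁') (q := b₂ - a₂') (p' := b₂' - a₂') (q' := b₂ - a₁')
    (by omega) (by omega) (by omega)
  linarith

end lc

/-! ## product Bernoulli measures -/
section bern
variable {ι : Type*} [DecidableEq ι]

/-- Bernoulli expectation of `Φ (ω ∩ P)` -/
noncomputable def bern (E : Finset ι) (p : ι → ℝ) (P : ι → Prop) [DecidablePred P]
    (Φ : Finset ι → ℝ) : ℝ :=
  ∑ ω ∈ E.powerset, (∏ e ∈ E, if e ∈ ω then p e else 1 - p e) * Φ (ω.filter P)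

theorem bern_insert {E : Finset ι} {a : ι} (ha : a ∉ E) (p : ι → ℝ) (P : ι → Prop)
    [DecidablePred P] (Φ : Finset ι → ℝ) :
    bern (insert a E) p P Φ = (1 - if P a then p a else 0) * bern E p P Φ +
      (if P a then p a else 0) * bern E p P fun ω => Φ (insert a ω) := by
  unfold bern
  rw [sum_powerset_insert ha]
  have e1 : ∑ ω ∈ E.powerset, (∏ e ∈ insert a E, if e ∈ ω then p e else 1 - p e) * Φ (ω.filter P) =
      (1 - p a) * ∑ ω ∈ E.powerset, (∏ e ∈ E, if e ∈ ω then p e else 1 - p e) * Φ (ω.filter P) := by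
    rw [mul_sum]
    refine sum_congr rfl fun ω hω => ?_
    rw [prod_insert ha, if_neg fun h => ha (mem_powerset.1 hω h)]; ring
  have e2 : ∑ ω ∈ E.powerset, (∏ e ∈ insert a E, if e ∈ insert a ω then p e else 1 - p e) *
      Φ ((insert a ω).filter P) = p a * ∑ ω ∈ E.powerset,
        (∏ e ∈ E, if e ∈ ω then p e else 1 - p e) * Φ ((insert a ω).filter P) := by
    rw [mul_sum]
    refine sum_congr rfl fun ω _ => ?_
    rw [prod_insert ha, if_pos (mem_insert_self _ _), mul_assoc]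
    congr 2
    refine prod_congr rfl fun e he => ?_
    have : e ≠ a := fun h => ha (h ▸ he)
    simp only [mem_insert, this, false_or]
  rw [e1, e2]
  by_cases h : P a
  · simp only [filter_insert, if_pos h]
  · simp only [filter_insert, if_neg h]; ring

theorem bern_le {E : Finset ι} {p : ι → ℝ} (hp : ∀ e ∈ E, 0 ≤ p e ∧ p e ≤ 1) (P : ι → Prop)
    [DecidablePred P] {Φ Ψ : Finset ι → ℝ} (h : ∀ ω, Φ ω ≤ Ψ ω) : bern E p P Φ ≤ bern E p P Ψ := by
  refine sum_le_sum fun ω _ => mul_le_mul_of_nonneg_left (h _) (prod_nonneg fun e he => ?_)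
  split_ifs
  · exact (hp e he).1
  · exact sub_nonneg.2 (hp e he).2

/-- monotonicity in the effective open probabilities -/
theorem bern_mono (E : Finset ι) {p₁ p₂ : ι → ℝ} (P₁ P₂ : ι → Prop) [DecidablePred P₁]
    [DecidablePred P₂] (h₁ : ∀ e ∈ E, 0 ≤ p₁ e ∧ p₁ e ≤ 1) (h₂ : ∀ e ∈ E, 0 ≤ p₂ e ∧ p₂ e ≤ 1)
    (h : ∀ e ∈ E, (if P₁ e then p₁ e else 0) ≤ if P₂ e then p₂ e else 0)
    (Φ : Finset ι → ℝ) (hΦ : Monotone Φ) : bern E p₁ P₁ Φ ≤ bern E p₂ P₂ Φ := by
  induction E using Finset.induction_on generalizing Φ with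
  | empty => simp [bern]
  | insert a E ha ih =>
    have k₁ := fun e he => h₁ e (mem_insert_of_mem he)
    have k₂ := fun e he => h₂ e (mem_insert_of_mem he)
    have k := fun e he => h e (mem_insert_of_mem he)
    have i1 := ih k₁ k₂ k Φ hΦ
    have i2 := ih k₁ k₂ k (fun ω => Φ (insert a ω)) fun _ _ hh => hΦ (insert_subset_insert a hh)
    have i3 : bern E p₂ P₂ Φ ≤ bern E p₂ P₂ fun ω => Φ (insert a ω) :=
      bern_le k₂ P₂ fun ω => hΦ (subset_insert a ω)
    rw [bern_insert ha, bern_insert ha]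
    have a1 := h₁ a (mem_insert_self _ _)
    have a2 := h a (mem_insert_self _ _)
    have b0 : 0 ≤ if P₁ a then p₁ a else 0 := by split_ifs; exacts [a1.1, le_rfl]
    have b1 : (if P₁ a then p₁ a else 0) ≤ 1 := by split_ifs; exacts [a1.2, zero_le_one]
    generalize (if P₁ a then p₁ a else 0) = q₁ at *
    generalize (if P₂ a then p₂ a else 0) = q₂ at *
    nlinarith [mul_le_mul_of_nonneg_left i1 (sub_nonneg.2 b1), mul_le_mul_of_nonneg_left i2 b0,
      mul_le_mul_of_nonneg_left i3 (sub_nonneg.2 a2)]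

/-- total weight of independent open / closed bonds -/
theorem sum_ite_prod (E : Finset ι) (o c : ι → ℝ) :
    ∑ ω ∈ E.powerset, ∏ e ∈ E, (if e ∈ ω then o e else c e) = ∏ e ∈ E, (o e + c e) := by
  rw [prod_add]
  refine sum_congr rfl fun ω hω => ?_
  rw [prod_ite, filter_mem_eq_inter, inter_eq_right.2 (mem_powerset.1 hω), filter_not,
    filter_mem_eq_inter, inter_eq_right.2 (mem_powerset.1 hω)]

end bern

section mdl
variable {V : Type*} [DecidableEq V] {m : Mdl V}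

omit [DecidableEq V] in
theorem bw2_nonneg (hw : ∀ e ∈ m.ed, LC (m.w e)) (s s' : Cfg V) {e : V × V} (he : e ∈ m.ed)
    (o : Prop) [Decidable o] : 0 ≤ m.bw2 s s' e o := by
  unfold Mdl.bw2 Mdl.c2
  have h := (hw e he).1
  split_ifs
  · exact sub_nonneg.2 (min_le_left _ _)
  · exact le_min (mul_pos (h _) (h _)).le (mul_pos (h _) (h _)).le

theorem J2c_nonneg (hw : ∀ e ∈ m.ed, LC (m.w e)) (hn : m.Nn)
    (p : (Cfg V × Cfg V) × Finset (V × V)) : 0 ≤ m.J2c p :=
  mul_nonneg (mul_nonneg (ind_nonneg _) (prod_nonneg fun _ he => bw2_nonneg hw _ _ he _))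
    (prod_nonneg fun x hx => mul_nonneg (hn x hx _) (hn x hx _))

theorem J2_nonneg (hw : ∀ e ∈ m.ed, LC (m.w e)) (hn : m.Nn) (η η' : Cfg V)
    (p : (Cfg V × Cfg V) × Finset (V × V)) : 0 ≤ m.J2 η η' p :=
  mul_nonneg (mul_nonneg (ind_nonneg _) (ind_nonneg _)) (J2c_nonneg hw hn p)

theorem sum_bw2 (m : Mdl V) (s s' : Cfg V) :
    ∑ ω ∈ m.ed.powerset, ∏ e ∈ m.ed, m.bw2 s s' e (e ∈ ω) =
      ∏ e ∈ m.ed, m.w e (dE e s) * m.w e (dE e s') := by
  unfold Mdl.bw2
  rw [sum_ite_prod]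
  exact prod_congr rfl fun e _ => by rw [sub_add_cancel]; rfl

theorem sum_J2 (m : Mdl V) (η η' s s' : Cfg V) :
    ∑ ω ∈ m.ed.powerset, m.J2 η η' ((s, s'), ω) = m.W η s * m.W η' s' := by
  have : ∀ ω ∈ m.ed.powerset, m.J2 η η' ((s, s'), ω) =
      (ind (∀ x, x ∉ m.A → s x = η x) * ind (∀ x, x ∉ m.A → s' x = η' x) *
        ∏ x ∈ m.A, m.site x (s x) * m.site x (s' x)) * ∏ e ∈ m.ed, m.bw2 s s' e (e ∈ ω) := by
    intro ω hω
    simp only [Mdl.J2, Mdl.J2c]
    rw [ind_pos (mem_powerset.1 hω)]; ring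
  rw [sum_congr rfl this, ← mul_sum, sum_bw2, prod_mul_distrib, prod_mul_distrib]
  simp only [Mdl.W]; ring

theorem J2c_sub {p : (Cfg V × Cfg V) × Finset (V × V)} (h : m.J2c p ≠ 0) : p.2 ⊆ m.ed :=
  ind_ne_zero.1 (left_ne_zero_of_mul (left_ne_zero_of_mul h))

theorem J2_off {η η' : Cfg V} {p : (Cfg V × Cfg V) × Finset (V × V)} (h : m.J2 η η' p ≠ 0) :
    (∀ x, x ∉ m.A → p.1.1 x = η x) ∧ ∀ x, x ∉ m.A → p.1.2 x = η' x :=
  ⟨ind_ne_zero.1 (left_ne_zero_of_mul (left_ne_zero_of_mul h)),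
    ind_ne_zero.1 (right_ne_zero_of_mul (left_ne_zero_of_mul h))⟩

theorem J2_sub {η η' : Cfg V} {p : (Cfg V × Cfg V) × Finset (V × V)} (h : m.J2 η η' p ≠ 0) :
    p.2 ⊆ m.ed := J2c_sub (right_ne_zero_of_mul h)

theorem J2c_sign (hw : ∀ e ∈ m.ed, LC (m.w e)) {s s' : Cfg V} {ω : Finset (V × V)}
    (h : m.J2c ((s, s'), ω) ≠ 0) {e : V × V} (he : e ∈ ω) :
    0 < (s e.1 - s' e.1) * (s e.2 - s' e.2) := by
  have he' : e ∈ m.ed := J2c_sub h he
  have h1 := prod_ne_zero_iff.1 (right_ne_zero_of_mul (left_ne_zero_of_mul h)) e he'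
  by_contra hc
  apply h1
  simp only [Mdl.bw2, Mdl.c2, if_pos he]
  rw [min_eq_left (orig_le (hw e he') (not_lt.1 hc)), sub_self]

theorem J2c_symm (m : Mdl V) (s s' : Cfg V) (ω : Finset (V × V)) :
    m.J2c ((s', s), ω) = m.J2c ((s, s'), ω) := by
  simp only [Mdl.J2c, Mdl.bw2, Mdl.c2]
  congr 1
  · congr 1
    refine prod_congr rfl fun e _ => ?_
    rw [mul_comm (m.w e (s' e.2 - s' e.1)), mul_comm (m.w e (s' e.2 - s e.1))]
  · exact prod_congr rfl fun x _ => mul_comm _ _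

/-- swapping the replicas on a set not crossed by the bonds -/
theorem J2c_swap (m : Mdl V) (s s' : Cfg V) {ω : Finset (V × V)} {K : Finset V}
    (hK : ∀ e ∈ ω, e.1 ∈ K ↔ e.2 ∈ K) :
    m.J2c ((pw K s' s, pw K s s'), ω) = m.J2c ((s, s'), ω) := by
  simp only [Mdl.J2c, Mdl.bw2, Mdl.c2]
  congr 1
  · congr 1
    refine prod_congr rfl fun e _ => ?_
    by_cases h1 : e.1 ∈ K <;> by_cases h2 : e.2 ∈ K
    · simp only [Md.pw_mem h1, Md.pw_mem h2]
      rw [mul_comm (m.w e (s' e.2 - s' e.1)), mul_comm (m.w e (s' e.2 - s e.1))]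
    · have h : e ∉ ω := fun h => h2 ((hK e h).1 h1)
      simp only [Md.pw_mem h1, Md.pw_not h2, if_neg h]
      exact min_comm _ _
    · have h : e ∉ ω := fun h => h1 ((hK e h).2 h2)
      simp only [Md.pw_not h1, Md.pw_mem h2, if_neg h]
      rw [min_comm, mul_comm (m.w e (s' e.2 - s' e.1)), mul_comm (m.w e (s' e.2 - s e.1))]
    · simp only [Md.pw_not h1, Md.pw_not h2]
  · refine prod_congr rfl fun x _ => ?_
    by_cases h : x ∈ K
    · simp only [Md.pw_mem h]; exact mul_comm _ _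
    · simp only [Md.pw_not h]

/-- summing out a finite nonnegative fibre -/
theorem hasSum_fibre {α β : Type*} {J : α × β → ℝ} {W H : α → ℝ} (T : Finset β)
    (h0 : ∀ p, 0 ≤ J p) (hT : ∀ a b, J (a, b) ≠ 0 → b ∈ T) (hW : ∀ a, ∑ b ∈ T, J (a, b) = W a)
    (hH : Summable fun a => W a * H a) :
    HasSum (fun p : α × β => J p * H p.1) (∑' a, W a * H a) := by
  have h1 : ∀ (a : α) (c : ℝ), HasSum (fun b => J (a, b) * c) (W a * c) := by
    intro a c
    rw [← hW, sum_mul]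
    refine hasSum_sum_of_ne_finset_zero fun b hb => ?_
    by_contra h
    exact hb (hT a b (left_ne_zero_of_mul h))
  have hs : Summable fun p : α × β => J p * H p.1 := by
    refine Summable.of_abs ?_
    have e : ∀ p : α × β, |J p * H p.1| = J p * |H p.1| := fun p => by
      rw [abs_mul, abs_of_nonneg (h0 p)]
    simp_rw [e]
    refine (summable_prod_of_nonneg (f := fun p : α × β => J p * |H p.1|)
      fun p => mul_nonneg (h0 p) (abs_nonneg (H p.1))).2
      ⟨fun a => (h1 a |H a|).summable, ?_⟩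
    have e2 : ∀ a, |W a * H a| = ∑' b, J (a, b) * |H a| := fun a => by
      have : 0 ≤ W a := by rw [← hW a]; exact sum_nonneg fun b _ => h0 _
      rw [abs_mul, abs_of_nonneg this, (h1 a |H a|).tsum_eq]
    exact hH.abs.congr e2
  have h2 : HasSum (fun a => W a * H a) (∑' p : α × β, J p * H p.1) :=
    hs.hasSum.prod_fiberwise fun a => h1 a (H a)
  rw [h2.tsum_eq]
  exact hs.hasSum

/-- summing out the bonds -/
theorem hasSum_J2 (hw : ∀ e ∈ m.ed, LC (m.w e)) (hn : m.Nn) (η η' : Cfg V)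
    {H : Cfg V × Cfg V → ℝ} (hH : Summable fun q : Cfg V × Cfg V => m.W η q.1 * m.W η' q.2 * H q) :
    HasSum (fun p => m.J2 η η' p * H p.1) (∑' q : Cfg V × Cfg V, m.W η q.1 * m.W η' q.2 * H q) :=
  hasSum_fibre (J := m.J2 η η') (W := fun q => m.W η q.1 * m.W η' q.2) (H := H) m.ed.powerset
    (J2_nonneg hw hn η η') (fun _ _ h => mem_powerset.2 (J2_sub h))
    (fun q => sum_J2 m η η' q.1 q.2) hH

theorem hasSum_prod {α β : Type*} {u F : α → ℝ} {v G : β → ℝ} (hF : Ig u F) (hG : Ig v G) :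
    HasSum (fun q : α × β => u q.1 * v q.2 * (F q.1 * G q.2))
      ((∑' a, u a * F a) * ∑' b, v b * G b) := by
  have hF' : Summable fun a => ‖u a * F a‖ := Summable.norm hF
  have hG' : Summable fun b => ‖v b * G b‖ := Summable.norm hG
  have h := summable_mul_of_summable_norm (f := fun a => u a * F a) (g := fun b => v b * G b) hF' hG'
  have e : ∀ q : α × β, u q.1 * F q.1 * (v q.2 * G q.2) =
      u q.1 * v q.2 * (F q.1 * G q.2) := fun q => by ring
  rw [tsum_mul_tsum_of_summable_norm (f := fun a => u a * F a) (g := fun b => v b * G b) hF' hG',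
    tsum_congr e]
  exact (h.congr e).hasSum

theorem hasSum_J2_mul (hw : ∀ e ∈ m.ed, LC (m.w e)) (hn : m.Nn) {η η' : Cfg V}
    {F G : Cfg V → ℝ} (hF : Ig (m.W η) F) (hG : Ig (m.W η') G) :
    HasSum (fun p => m.J2 η η' p * (F p.1.1 * G p.1.2))
      ((∑' s, m.W η s * F s) * ∑' s, m.W η' s * G s) := by
  have h := hasSum_prod hF hG
  rw [← h.tsum_eq]
  exact hasSum_J2 hw hn η η' (H := fun q => F q.1 * G q.2) h.summable

theorem hasSum_J2_one (hw : ∀ e ∈ m.ed, LC (m.w e)) (hn : m.Nn) {η η' : Cfg V}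
    (h : Summable (m.W η)) (h' : Summable (m.W η')) :
    HasSum (m.J2 η η') (Zs (m.W η) * Zs (m.W η')) := by
  simpa [Zs] using hasSum_J2_mul hw hn (Ig.const h 1) (Ig.const h' 1)

theorem zs_J2 (hw : ∀ e ∈ m.ed, LC (m.w e)) (hn : m.Nn) {η η' : Cfg V}
    (h : Summable (m.W η)) (h' : Summable (m.W η')) :
    Zs (m.J2 η η') = Zs (m.W η) * Zs (m.W η') := (hasSum_J2_one hw hn h h').tsum_eq

theorem wt_J2 (hw : ∀ e ∈ m.ed, LC (m.w e)) (hn : m.Nn) {η η' : Cfg V}
    (h : Wt (m.W η)) (h' : Wt (m.W η')) : Wt (m.J2 η η') :=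
  ⟨J2_nonneg hw hn η η', (hasSum_J2_one hw hn h.summ h'.summ).summable, by
    rw [zs_J2 hw hn h.summ h'.summ]; exact mul_pos h.pos h'.pos⟩

theorem ig_J2_mul (hw : ∀ e ∈ m.ed, LC (m.w e)) (hn : m.Nn) {η η' : Cfg V}
    {F G : Cfg V → ℝ} (hF : Ig (m.W η) F) (hG : Ig (m.W η') G) :
    Ig (m.J2 η η') fun p => F p.1.1 * G p.1.2 := (hasSum_J2_mul hw hn hF hG).summable

/-- the replicas are independent -/
theorem ex_J2_mul (hw : ∀ e ∈ m.ed, LC (m.w e)) (hn : m.Nn) {η η' : Cfg V}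
    (h : Summable (m.W η)) (h' : Summable (m.W η'))
    {F G : Cfg V → ℝ} (hF : Ig (m.W η) F) (hG : Ig (m.W η') G) :
    Ex (m.J2 η η') (fun p => F p.1.1 * G p.1.2) = Ex (m.W η) F * Ex (m.W η') G := by
  rw [Ex_def, Ex_def, Ex_def, (hasSum_J2_mul hw hn hF hG).tsum_eq, zs_J2 hw hn h h',
    mul_div_mul_comm]

theorem ig_J2_fst (hw : ∀ e ∈ m.ed, LC (m.w e)) (hn : m.Nn) {η η' : Cfg V}
    (h' : Summable (m.W η')) {F : Cfg V → ℝ} (hF : Ig (m.W η) F) :
    Ig (m.J2 η η') fun p => F p.1.1 := by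
  simpa using ig_J2_mul hw hn hF (Ig.const h' 1)

theorem ig_J2_snd (hw : ∀ e ∈ m.ed, LC (m.w e)) (hn : m.Nn) {η η' : Cfg V}
    (h : Summable (m.W η)) {F : Cfg V → ℝ} (hF : Ig (m.W η') F) :
    Ig (m.J2 η η') fun p => F p.1.2 := by
  simpa using ig_J2_mul hw hn (Ig.const h 1) hF

theorem ex_J2_fst (hw : ∀ e ∈ m.ed, LC (m.w e)) (hn : m.Nn) {η η' : Cfg V}
    (h : Summable (m.W η)) (h' : Wt (m.W η')) {F : Cfg V → ℝ} (hF : Ig (m.W η) F) :
    Ex (m.J2 η η') (fun p => F p.1.1) = Ex (m.W η) F := by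
  simpa [h'.ex_const] using ex_J2_mul hw hn h h'.summ hF (h'.ig_const 1)

theorem ex_J2_snd (hw : ∀ e ∈ m.ed, LC (m.w e)) (hn : m.Nn) {η η' : Cfg V}
    (h : Wt (m.W η)) (h' : Summable (m.W η')) {F : Cfg V → ℝ} (hF : Ig (m.W η') F) :
    Ex (m.J2 η η') (fun p => F p.1.2) = Ex (m.W η') F := by
  simpa [h.ex_const] using ex_J2_mul hw hn h.summ h' (h.ig_const 1) hF

theorem pw_pw (K : Finset V) (s s' : Cfg V) : pw K (pw K s s') (pw K s' s) = s := by
  ext x
  by_cases h : x ∈ K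
  · simp only [Md.pw_mem h]
  · simp only [Md.pw_not h]

/-- swap the replicas on the cluster of `S` -/
noncomputable def swIn (S : Finset V) :
    (Cfg V × Cfg V) × Finset (V × V) ≃ (Cfg V × Cfg V) × Finset (V × V) :=
  Function.Involutive.toPerm
    (fun p => ((pw (cl S p.2) p.1.2 p.1.1, pw (cl S p.2) p.1.1 p.1.2), p.2)) fun p => by
      simp only [pw_pw]

/-- swap the replicas off the cluster of `S` -/
noncomputable def swOut (S : Finset V) :
    (Cfg V × Cfg V) × Finset (V × V) ≃ (Cfg V × Cfg V) × Finset (V × V) :=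
  Function.Involutive.toPerm
    (fun p => ((pw (cl S p.2) p.1.1 p.1.2, pw (cl S p.2) p.1.2 p.1.1), p.2)) fun p => by
      simp only [pw_pw]

theorem swIn_apply (S : Finset V) (s s' : Cfg V) (ω : Finset (V × V)) :
    swIn S ((s, s'), ω) = ((pw (cl S ω) s' s, pw (cl S ω) s s'), ω) := rfl

theorem swOut_apply (S : Finset V) (s s' : Cfg V) (ω : Finset (V × V)) :
    swOut S ((s, s'), ω) = ((pw (cl S ω) s s', pw (cl S ω) s' s), ω) := rfl

theorem not_cross {S I : Finset V} {ω : Finset (V × V)} (h : ¬ Cross S I ω)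
    {y : V} (hy : y ∈ I) : y ∉ cl S ω := fun hc =>
  let ⟨x, hx, hxy⟩ := Md.mem_cl.1 hc
  h ⟨x, hx, y, hy, hxy⟩

/-- no bond path from a site where replica 1 is below to a different site where it is above -/
theorem no_path (hw : ∀ e ∈ m.ed, LC (m.w e)) {t t' : Cfg V} {ω : Finset (V × V)}
    (h : m.J2c ((t, t'), ω) ≠ 0) {x y : V} (hxy : x ≠ y) (hx : t x ≤ t' x) (hy : t' y ≤ t y) :
    ¬ Conn ω x y := by
  intro hc
  have h1 : t y ≤ t' y := by
    refine Md.conn_ind (P := fun v => t v ≤ t' v) (fun e he => ?_) hc hx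
    have := J2c_sign hw h he
    constructor <;> intro hh <;> by_contra hh' <;> nlinarith
  have h2 : t y - t' y = 0 := by omega
  rcases Relation.ReflTransGen.cases_tail hc with h3 | ⟨z, -, h3 | h3⟩
  · exact hxy h3.symm
  · have := J2c_sign hw h h3
    simp only [h2, mul_zero, lt_self_iff_false] at this
  · have := J2c_sign hw h h3
    simp only [h2, zero_mul, lt_self_iff_false] at this

theorem J2_swIn (hw : ∀ e ∈ m.ed, LC (m.w e)) {η η' : Cfg V} {Gi Go : Finset V}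
    (hd : Disjoint Gi Go) (hi : Disjoint Gi m.A) (ho : Disjoint Go m.A)
    (hη : ∀ x, x ∉ m.A → η x ≠ η' x → x ∈ Gi ∨ x ∈ Go) (hle : η' ≤ η)
    (p : (Cfg V × Cfg V) × Finset (V × V)) :
    m.J2 (pw Go η' η) (pw Go η η') (swIn Go p) = m.J2 η η' p * ind (¬ Cross Go Gi p.2) := by
  obtain ⟨⟨s, s'⟩, ω⟩ := p
  rw [swIn_apply]
  by_cases hc : Cross Go Gi ω
  · rw [ind_neg (not_not.2 hc), mul_zero]
    by_contra h
    obtain ⟨x, hx, y, hy, hxy⟩ := hc
    have hx' : x ∉ m.A := disjoint_left.1 ho hx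
    have hy' : y ∉ m.A := disjoint_left.1 hi hy
    have hy'' : y ∉ Go := disjoint_left.1 hd hy
    obtain ⟨o1, o2⟩ := J2_off h
    refine no_path hw (right_ne_zero_of_mul h) (fun e : x = y => hy'' (e ▸ hx)) ?_ ?_ hxy
    · have a1 := o1 x hx'
      have a2 := o2 x hx'
      simp only [Md.pw_mem hx] at a1 a2
      rw [a1, a2]; exact hle x
    · have a1 := o1 y hy'
      have a2 := o2 y hy'
      simp only [Md.pw_not hy''] at a1 a2
      rw [a1, a2]; exact hle y
  · rw [ind_pos hc, mul_one]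
    simp only [Mdl.J2]
    rw [J2c_swap m s s' fun e he => Md.cl_closed he, ← ind_and, ← ind_and]
    congr 1
    refine ind_congr ?_
    rw [← forall_and, ← forall_and]
    refine forall_congr' fun x => ?_
    rw [← imp_and, ← imp_and]
    refine imp_congr_right fun hx => ?_
    by_cases h1 : x ∈ Go
    · simp only [Md.pw_mem h1, Md.pw_mem (Md.subset_cl Go ω h1)]
      exact and_comm
    · simp only [Md.pw_not h1]
      by_cases h2 : x ∈ cl Go ω
      · have : η x = η' x := by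
          by_contra hne
          rcases hη x hx hne with h | h
          · exact not_cross hc h h2
          · exact h1 h
        simp only [Md.pw_mem h2, this]
        exact and_comm
      · simp only [Md.pw_not h2]

theorem J2_swOut (m : Mdl V) {η η' : Cfg V} {S : Finset V}
    (hη : ∀ x, x ∉ m.A → η x ≠ η' x → x ∈ S) (p : (Cfg V × Cfg V) × Finset (V × V)) :
    m.J2 η η' (swOut S p) = m.J2 η η' p := by
  obtain ⟨⟨s, s'⟩, ω⟩ := p
  rw [swOut_apply]
  simp only [Mdl.J2]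
  rw [J2c_swap m s' s fun e he => Md.cl_closed he, J2c_symm, ← ind_and, ← ind_and]
  congr 1
  refine ind_congr ?_
  rw [← forall_and, ← forall_and]
  refine forall_congr' fun x => ?_
  rw [← imp_and, ← imp_and]
  refine imp_congr_right fun hx => ?_
  by_cases h2 : x ∈ cl S ω
  · simp only [Md.pw_mem h2]
  · have : η x = η' x := by
      by_contra hne
      exact h2 (Md.subset_cl S ω (hη x hx hne))
    simp only [Md.pw_not h2, this]
    exact and_comm

theorem swap_pr (hw : ∀ e ∈ m.ed, LC (m.w e)) (hn : m.Nn) {η η' : Cfg V} {Gi Go : Finset V}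
    (hd : Disjoint Gi Go) (hi : Disjoint Gi m.A) (ho : Disjoint Go m.A)
    (hη : ∀ x, x ∉ m.A → η x ≠ η' x → x ∈ Gi ∨ x ∈ Go) (hle : η' ≤ η) (h1 : Wt (m.W η))
    (h2 : Wt (m.W η')) (h3 : Summable (m.W (pw Go η' η))) (h4 : Summable (m.W (pw Go η η'))) :
    Pr (m.J2 η η') (fun p => ¬ Cross Go Gi p.2) * (Zs (m.W η) * Zs (m.W η')) =
      Zs (m.W (pw Go η' η)) * Zs (m.W (pw Go η η')) := by
  rw [← zs_J2 hw hn h1.summ h2.summ, ← zs_J2 hw hn h3 h4, Pr, mul_comm,
    ← (wt_J2 hw hn h1 h2).tsum_eq, ← Md.zs_equiv (swIn Go)]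
  exact tsum_congr fun p => (J2_swIn hw hd hi ho hη hle p).symm

theorem swap_ex (hw : ∀ e ∈ m.ed, LC (m.w e)) (hn : m.Nn) {η η' : Cfg V} {S I : Finset V}
    {F : Cfg V → ℝ} (hη : ∀ x, x ∉ m.A → η x ≠ η' x → x ∈ S) (h1 : Wt (m.W η)) (h2 : Wt (m.W η'))
    (hF : Dep I F) (i1 : Ig (m.W η) F) (i2 : Ig (m.W η') F) :
    Ex (m.W η) F - Ex (m.W η') F =
      Ex (m.J2 η η') fun p => ind (Cross S I p.2) * (F p.1.1 - F p.1.2) := by
  have j1 := ig_J2_fst hw hn h2.summ i1
  have j2 := ig_J2_snd hw hn h1.summ i2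
  have h0 := J2_nonneg hw hn η η'
  rw [← ex_J2_fst hw hn h1.summ h2 i1, ← ex_J2_snd hw hn h1 h2.summ i2, ← Ex_sub j1 j2,
    Ex_split h0 (j1.sub j2) fun p => Cross S I p.2]
  have z : Ex (m.J2 η η') (fun p => (F p.1.1 - F p.1.2) * ind (¬ Cross S I p.2)) = 0 := by
    have e := Md.ex_equiv (swOut S) (m.J2 η η')
      fun p => (F p.1.1 - F p.1.2) * ind (¬ Cross S I p.2)
    simp only [J2_swOut m hη] at e
    have e2 : ∀ p : (Cfg V × Cfg V) × Finset (V × V),
        (F (swOut S p).1.1 - F (swOut S p).1.2) * ind (¬ Cross S I (swOut S p).2) =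
          -((F p.1.1 - F p.1.2) * ind (¬ Cross S I p.2)) := by
      rintro ⟨⟨s, s'⟩, ω⟩
      rw [swOut_apply]
      by_cases hc : Cross S I ω
      · simp only [ind_neg (not_not.2 hc), mul_zero, neg_zero]
      · rw [hF (pw (cl S ω) s s') s' fun x hx => Md.pw_not (not_cross hc hx) _ _,
          hF (pw (cl S ω) s' s) s fun x hx => Md.pw_not (not_cross hc hx) _ _]
        ring
    simp only [e2] at e
    rw [Ex_neg] at e
    linarith
  rw [z, add_zero]
  exact Ex_congr fun p _ => mul_comm _ _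

/-- open probability of a swap bond -/
noncomputable def pO (m : Mdl V) (s s' : Cfg V) (e : V × V) : ℝ :=
  1 - m.c2 s s' e / (m.w e (s e.2 - s e.1) * m.w e (s' e.2 - s' e.1))

omit [DecidableEq V] in
theorem pO_eq {e : V × V} (he : LC (m.w e)) (s s' : Cfg V) : pO m s s' e = 1 - min 1
    (m.w e (s e.2 - s' e.1) * m.w e (s' e.2 - s e.1) /
      (m.w e (s e.2 - s e.1) * m.w e (s' e.2 - s' e.1))) := by
  have h := mul_pos (he.1 (s e.2 - s e.1)) (he.1 (s' e.2 - s' e.1))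
  unfold pO Mdl.c2
  rw [← min_div_div_right h.le, div_self h.ne']

omit [DecidableEq V] in
theorem pO_mem {e : V × V} (he : LC (m.w e)) (s s' : Cfg V) :
    0 ≤ pO m s s' e ∧ pO m s s' e ≤ 1 := by
  rw [pO_eq he]
  exact ⟨sub_nonneg.2 (min_le_left _ _), sub_le_self _ (le_min zero_le_one
    (div_pos (mul_pos (he.1 _) (he.1 _)) (mul_pos (he.1 _) (he.1 _))).le)⟩

omit [DecidableEq V] in
theorem pO_mono {e : V × V} (he : LC (m.w e)) {s₁ s₂ s₁' s₂' : Cfg V} (h : s₁ ≤ s₂)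
    (h' : s₂' ≤ s₁') : (if s₁' e.1 < s₁ e.1 then pO m s₁ s₁' e else 0) ≤
      if s₂' e.1 < s₂ e.1 then pO m s₂ s₂' e else 0 := by
  have a1 := h e.1
  have a2 := h e.2
  have b1 := h' e.1
  have b2 := h' e.2
  by_cases c : s₁' e.1 < s₁ e.1
  · rw [if_pos c, if_pos (by omega)]
    by_cases d : s₁' e.2 ≤ s₁ e.2
    · rw [pO_eq he, pO_eq he]
      exact sub_le_sub_left (min_le_min_left _ (ratio_le he c.le d a1 b1 a2 b2)) _
    · have : pO m s₁ s₁' e = 0 := by
        unfold pO Mdl.c2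
        rw [min_eq_left (orig_le he (mul_nonpos_of_nonneg_of_nonpos (by omega) (by omega))),
          div_self (mul_pos (he.1 _) (he.1 _)).ne', sub_self]
      rw [this]; exact (pO_mem he _ _).1
  · rw [if_neg c]
    split_ifs
    exacts [(pO_mem he _ _).1, le_rfl]

theorem norm_eq (hw : ∀ e ∈ m.ed, LC (m.w e)) (s s' : Cfg V) (P : V × V → Prop) [DecidablePred P]
    (Φ : Finset (V × V) → ℝ) :
    (∑ ω ∈ m.ed.powerset, (∏ e ∈ m.ed, m.bw2 s s' e (e ∈ ω)) * Φ (ω.filter P)) /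
      ∏ e ∈ m.ed, m.w e (dE e s) * m.w e (dE e s') = bern m.ed (pO m s s') P Φ := by
  unfold bern
  rw [sum_div]
  refine sum_congr rfl fun ω _ => ?_
  rw [mul_div_right_comm, ← prod_div_distrib]
  congr 1
  refine prod_congr rfl fun e he => ?_
  have h := mul_pos ((hw e he).1 (s e.2 - s e.1)) ((hw e he).1 (s' e.2 - s' e.1))
  unfold Mdl.bw2 pO dE
  split_ifs
  · rw [sub_div, div_self h.ne']
  · rw [sub_sub_cancel]

end mdl

end Sw9

theorem swapStmt : SwapStmt := by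
  intro V _ m hw hn
  refine ⟨Sw9.J2_nonneg hw hn, Sw9.sum_J2 m,
    fun η η' s s' ω h e he => Sw9.J2c_sign hw (right_ne_zero_of_mul h) he,
    fun s s' ω K hK => Sw9.J2c_swap m s s' hK,
    fun η η' Gi Go hd hi ho hη hle h1 h2 h3 h4 =>
      Sw9.swap_pr hw hn hd hi ho hη hle h1 h2 h3.summ h4.summ,
    fun η η' S I F hη h1 h2 hF i1 i2 => Sw9.swap_ex hw hn hη h1 h2 hF i1 i2,
    fun Φ hΦ s₁ s₂ s₁' s₂' h h' => ?_⟩
  rw [Sw9.norm_eq hw, Sw9.norm_eq hw]
  exact Sw9.bern_mono _ _ _ (fun e he => Sw9.pO_mem (hw e he) _ _)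
    (fun e he => Sw9.pO_mem (hw e he) _ _) (fun e he => Sw9.pO_mono (hw e he) h h') Φ hΦ

end Crest.Agent.T145
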