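import Crest.Agent.T145.ApiP_98
import Crest.Agent.T145.ApiC_98
import Crest.Agent.T145.Swap_9
import Crest.Agent.T145.BesB_66

/-!
# Row 145, T0: four functions / Holley / FKG, lattice condition of the models, bonds (helper86)
-/

set_option autoImplicit false
set_option linter.unusedVariables false

namespace Crest.Agent.T145

open Finset

namespace Fk86

section lat
variable {α : Type*} [DistribLattice α]

/-- four functions theorem for summable functions -/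
theorem four {f₁ f₂ f₃ f₄ : α → ℝ} (h₁ : ∀ a, 0 ≤ f₁ a) (h₂ : ∀ a, 0 ≤ f₂ a) (h₃ : ∀ a, 0 ≤ f₃ a)
    (h₄ : ∀ a, 0 ≤ f₄ a) (s₁ : Summable f₁) (s₂ : Summable f₂) (s₃ : Summable f₃)
    (s₄ : Summable f₄) (h : ∀ a b, f₁ a * f₂ b ≤ f₃ (a ⊓ b) * f₄ (a ⊔ b)) :
    Zs f₁ * Zs f₂ ≤ Zs f₃ * Zs f₄ := by
  classical
  have key : ∀ s t : Finset α, (∑ a ∈ s, f₁ a) * ∑ a ∈ t, f₂ a ≤ Zs f₃ * Zs f₄ := fun s t =>
    (four_functions_theorem f₁ f₂ f₃ f₄ h₁ h₂ h₃ h₄ h s t).trans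
      (mul_le_mul (s₃.sum_le_tsum _ fun a _ => h₃ a) (s₄.sum_le_tsum _ fun a _ => h₄ a)
        (sum_nonneg fun a _ => h₄ a) (tsum_nonneg h₃))
  have k2 : ∀ t : Finset α, Zs f₁ * ∑ a ∈ t, f₂ a ≤ Zs f₃ * Zs f₄ := fun t => by
    rw [Zs, ← tsum_mul_right]
    exact (s₁.mul_right _).tsum_le_of_sum_le fun s => by rw [← sum_mul]; exact key s t
  rw [Zs.eq_def f₂, ← tsum_mul_left]
  exact (s₂.mul_left _).tsum_le_of_sum_le fun t => by rw [← mul_sum]; exact k2 t

theorem pos_mono {F : α → ℝ} (hF : Monotone F) : Monotone fun a => max (F a) 0 :=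
  fun _ _ h => max_le_max_right _ (hF h)

theorem neg_anti {F : α → ℝ} (hF : Monotone F) : Antitone fun a => max (-F a) 0 :=
  fun _ _ h => max_le_max_right _ (neg_le_neg (hF h))

omit [DistribLattice α] in
theorem ig_pos {W F : α → ℝ} (h0 : ∀ a, 0 ≤ W a) (hF : Ig W F) : Ig W fun a => max (F a) 0 :=
  Ig.of_abs_le h0 (hF.abs h0) fun a _ => by
    rw [abs_of_nonneg (le_max_right _ _)]; exact max_le (le_abs_self _) (abs_nonneg _)

omit [DistribLattice α] in
theorem ig_neg {W F : α → ℝ} (h0 : ∀ a, 0 ≤ W a) (hF : Ig W F) : Ig W fun a => max (-F a) 0 :=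
  ig_pos h0 hF.neg

omit [DistribLattice α] in
theorem tsum_split {W F : α → ℝ} (h0 : ∀ a, 0 ≤ W a) (hF : Ig W F) :
    ∑' a, W a * F a = ∑' a, W a * max (F a) 0 - ∑' a, W a * max (-F a) 0 := by
  rw [← Summable.tsum_sub (ig_pos h0 hF) (ig_neg h0 hF)]
  exact tsum_congr fun a => by rw [← mul_sub, max_zero_sub_max_neg_zero_eq_self]

/-- Holley's inequality, not normalised -/
theorem hol {W' W F : α → ℝ} (s' : Summable W') (s : Summable W) (hD : Dom W' W) (hF : Monotone F)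
    (i' : Ig W' F) (i : Ig W F) : (∑' a, W' a * F a) * Zs W ≤ Zs W' * ∑' a, W a * F a := by
  obtain ⟨n', n, h⟩ := hD
  have p := four (f₁ := fun a => W' a * max (F a) 0) (f₂ := W) (f₃ := W')
    (f₄ := fun a => W a * max (F a) 0) (fun a => mul_nonneg (n' a) (le_max_right _ _)) n n'
    (fun a => mul_nonneg (n a) (le_max_right _ _)) (ig_pos n' i') s s' (ig_pos n i) fun a b => by
      calc W' a * max (F a) 0 * W b = W' a * W b * max (F a) 0 := by ring
        _ ≤ W' (a ⊓ b) * W (a ⊔ b) * max (F (a ⊔ b)) 0 :=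
          mul_le_mul (h a b) (pos_mono hF le_sup_left) (le_max_right _ _) (mul_nonneg (n' _) (n _))
        _ = _ := by ring
  have q := four (f₁ := W') (f₂ := fun a => W a * max (-F a) 0)
    (f₃ := fun a => W' a * max (-F a) 0) (f₄ := W) n'
    (fun a => mul_nonneg (n a) (le_max_right _ _)) (fun a => mul_nonneg (n' a) (le_max_right _ _)) n
    s' (ig_neg n i) (ig_neg n' i') s fun a b => by
      calc W' a * (W b * max (-F b) 0) = W' a * W b * max (-F b) 0 := by ring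
        _ ≤ W' (a ⊓ b) * W (a ⊔ b) * max (-F (a ⊓ b)) 0 :=
          mul_le_mul (h a b) (neg_anti hF inf_le_right) (le_max_right _ _) (mul_nonneg (n' _) (n _))
        _ = _ := by ring
  rw [tsum_split n' i', tsum_split n i]
  simp only [Zs] at p q ⊢
  nlinarith

end lat
end Fk86

section lat
variable {α : Type*} [DistribLattice α] {W W' W'' F G : α → ℝ}

theorem LSM.dom (h : LSM W) : Dom W W := ⟨h.1, h.1, h.2⟩
theorem Dom.lsm (h : Dom W W) : LSM W := ⟨h.1, h.2.2⟩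

/-- Holley's inequality -/
theorem Dom.ex_le (hD : Dom W' W) (h' : Wt W') (h : Wt W) (hF : Monotone F) (i' : Ig W' F)
    (i : Ig W F) : Ex W' F ≤ Ex W F := by
  rw [Ex_def, Ex_def, div_le_div_iff₀ h'.pos h.pos, mul_comm (∑' a, W a * F a)]
  exact Fk86.hol h'.summ h.summ hD hF i' i

theorem Dom.ex_ge (hD : Dom W' W) (h' : Wt W') (h : Wt W) (hF : Antitone F) (i' : Ig W' F)
    (i : Ig W F) : Ex W F ≤ Ex W' F := by
  have := hD.ex_le h' h hF.neg i'.neg i.neg
  simp only [Ex_neg] at this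
  linarith

omit [DistribLattice α] in
theorem ind_monotone [Preorder α] {p : α → Prop} (hp : ∀ a b, a ≤ b → p a → p b) :
    Monotone fun a => ind (p a) := fun a b h => ind_mono (hp a b h)

omit [DistribLattice α] in
theorem ind_antitone [Preorder α] {p : α → Prop} (hp : ∀ a b, a ≤ b → p b → p a) :
    Antitone fun a => ind (p a) := fun a b h => ind_mono (hp a b h)

theorem Dom.pr_le (hD : Dom W' W) (h' : Wt W') (h : Wt W) {p : α → Prop}
    (hp : ∀ a b, a ≤ b → p a → p b) : Pr W' p ≤ Pr W p :=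
  hD.ex_le h' h (ind_monotone hp) (h'.ig_ind p) (h.ig_ind p)

theorem Dom.pr_ge (hD : Dom W' W) (h' : Wt W') (h : Wt W) {p : α → Prop}
    (hp : ∀ a b, a ≤ b → p b → p a) : Pr W p ≤ Pr W' p :=
  hD.ex_ge h' h (ind_antitone hp) (h'.ig_ind p) (h.ig_ind p)

/-- products of Holley pairs -/
theorem Dom.mul {U U' : α → ℝ} (h : Dom W' W) (k : Dom U' U) :
    Dom (fun a => W' a * U' a) fun a => W a * U a :=
  ⟨fun a => mul_nonneg (h.1 a) (k.1 a), fun a => mul_nonneg (h.2.1 a) (k.2.1 a), fun a b => by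
    calc W' a * U' a * (W b * U b) = W' a * W b * (U' a * U b) := by ring
      _ ≤ W' (a ⊓ b) * W (a ⊔ b) * (U' (a ⊓ b) * U (a ⊔ b)) :=
        mul_le_mul (h.2.2 a b) (k.2.2 a b) (mul_nonneg (k.1 a) (k.2.1 b))
          (mul_nonneg (h.1 _) (h.2.1 _))
      _ = _ := by ring⟩

theorem LSM.mul {U : α → ℝ} (h : LSM W) (k : LSM U) : LSM fun a => W a * U a :=
  (h.dom.mul k.dom).lsm

/-- a decreasing factor below, an increasing factor above -/
theorem dom_anti_mono (hF : Antitone F) (hG : Monotone G) (F0 : ∀ a, 0 ≤ F a) (G0 : ∀ a, 0 ≤ G a) :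
    Dom F G :=
  ⟨F0, G0, fun a b => mul_le_mul (hF inf_le_left) (hG le_sup_right) (G0 _) (F0 _)⟩

theorem Dom.mul_mono (h : Dom W' W) (hG : Monotone G) (G0 : ∀ a, 0 ≤ G a) :
    Dom W' fun a => W a * G a := by
  simpa using h.mul (dom_anti_mono (F := fun _ => 1) antitone_const hG (fun _ => zero_le_one) G0)

theorem Dom.mul_anti (h : Dom W' W) (hF : Antitone F) (F0 : ∀ a, 0 ≤ F a) :
    Dom (fun a => W' a * F a) W := by
  simpa using h.mul (dom_anti_mono (G := fun _ => 1) hF monotone_const F0 fun _ => zero_le_one)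

/-- events in Holley order -/
theorem dom_ind {p q : α → Prop} (h : ∀ a b, p a → q b → p (a ⊓ b) ∧ q (a ⊔ b)) :
    Dom (fun a => ind (p a)) fun a => ind (q a) :=
  ⟨fun _ => ind_nonneg _, fun _ => ind_nonneg _, fun a b => by
    rw [← ind_and, ← ind_and]; exact ind_mono fun k => h a b k.1 k.2⟩

/-- conditioning on events in Holley order (`Wt.restrict` form) -/
theorem Dom.restrict (h : Dom W' W) {p q : α → Prop}
    (k : ∀ a b, p a → q b → p (a ⊓ b) ∧ q (a ⊔ b)) :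
    Dom (fun a => ind (p a) * W' a) fun a => ind (q a) * W a := (dom_ind k).mul h

/-- conditioning on a sublattice event -/
theorem LSM.restrict (h : LSM W) {p : α → Prop} (k : ∀ a b, p a → p b → p (a ⊓ b) ∧ p (a ⊔ b)) :
    LSM fun a => ind (p a) * W a := (h.dom.restrict k).lsm

/-- conditioning the upper law on an increasing event -/
theorem Dom.restrict_up (h : Dom W' W) {q : α → Prop} (k : ∀ a b, a ≤ b → q a → q b) :
    Dom W' fun a => ind (q a) * W a := by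
  simpa [mul_comm] using h.mul_mono (ind_monotone k) fun _ => ind_nonneg _

/-- conditioning the lower law on a decreasing event -/
theorem Dom.restrict_down (h : Dom W' W) {p : α → Prop} (k : ∀ a b, a ≤ b → p b → p a) :
    Dom (fun a => ind (p a) * W' a) W := by
  simpa [mul_comm] using h.mul_anti (ind_antitone k) fun _ => ind_nonneg _

theorem Dom.smul (h : Dom W' W) {c d : ℝ} (hc : 0 ≤ c) (hd : 0 ≤ d) :
    Dom (fun a => c * W' a) fun a => d * W a :=
  (dom_anti_mono (F := fun _ => c) (G := fun _ => d) antitone_const monotone_const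
    (fun _ => hc) fun _ => hd).mul h

/-- pull-back along a lattice homomorphism -/
theorem Dom.comp {β : Type*} [DistribLattice β] (h : Dom W' W) {π : β → α}
    (hi : ∀ a b, π (a ⊓ b) = π a ⊓ π b) (hs : ∀ a b, π (a ⊔ b) = π a ⊔ π b) :
    Dom (fun b => W' (π b)) fun b => W (π b) :=
  ⟨fun _ => h.1 _, fun _ => h.2.1 _, fun a b => by simp only [hi, hs]; exact h.2.2 _ _⟩

/-- push-forward along a pair of maps compatible with the lattice operations (marginals) -/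
theorem Dom.push₂ {β : Type*} [DistribLattice β] (h : Dom W' W) (s' : Summable W') (s : Summable W)
    {π' π : α → β} (hi : ∀ a b, π' (a ⊓ b) = π' a ⊓ π b) (hs : ∀ a b, π (a ⊔ b) = π' a ⊔ π b) :
    Dom (push W' π') (push W π) :=
  ⟨push_nonneg h.1 π', push_nonneg h.2.1 π, fun x y =>
    Fk86.four (f₁ := fun a => ind (π' a = x) * W' a) (f₂ := fun a => ind (π a = y) * W a)
      (f₃ := fun a => ind (π' a = x ⊓ y) * W' a) (f₄ := fun a => ind (π a = x ⊔ y) * W a)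
      (fun a => mul_nonneg (ind_nonneg _) (h.1 a)) (fun a => mul_nonneg (ind_nonneg _) (h.2.1 a))
      (fun a => mul_nonneg (ind_nonneg _) (h.1 a)) (fun a => mul_nonneg (ind_nonneg _) (h.2.1 a))
      (summable_ind_mul s' _) (summable_ind_mul s _) (summable_ind_mul s' _) (summable_ind_mul s _)
      fun a b => by
        calc ind (π' a = x) * W' a * (ind (π b = y) * W b)
            = ind (π' a = x ∧ π b = y) * (W' a * W b) := by rw [ind_and]; ring
          _ ≤ ind (π' (a ⊓ b) = x ⊓ y ∧ π (a ⊔ b) = x ⊔ y) * (W' (a ⊓ b) * W (a ⊔ b)) :=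
            mul_le_mul (ind_mono fun k => by rw [hi, hs, k.1, k.2]; exact ⟨rfl, rfl⟩) (h.2.2 a b)
              (mul_nonneg (h.1 a) (h.2.1 b)) (ind_nonneg _)
          _ = _ := by rw [ind_and]; ring⟩

/-- push-forward along a lattice homomorphism (marginals) -/
theorem Dom.push {β : Type*} [DistribLattice β] (h : Dom W' W) (s' : Summable W') (s : Summable W)
    {π : α → β} (hi : ∀ a b, π (a ⊓ b) = π a ⊓ π b) (hs : ∀ a b, π (a ⊔ b) = π a ⊔ π b) :
    Dom (push W' π) (push W π) := h.push₂ s' s hi hs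

theorem LSM.push {β : Type*} [DistribLattice β] (h : LSM W) (s : Summable W)
    {π : α → β} (hi : ∀ a b, π (a ⊓ b) = π a ⊓ π b) (hs : ∀ a b, π (a ⊔ b) = π a ⊔ π b) :
    LSM (push W π) := (h.dom.push s s hi hs).lsm

/-- the likelihood ratio of a Holley pair increases -/
theorem Dom.lr (h : Dom W' W) {a b : α} (hab : b ≤ a) : W' a * W b ≤ W' b * W a := by
  have := h.2.2 a b
  rwa [inf_eq_right.2 hab, sup_eq_left.2 hab] at this

/-- FKG -/
theorem LSM.cv_nonneg (hL : LSM W) (h : Wt W) (hF : Monotone F) (hG : Monotone G) (iF : Ig W F)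
    (iG : Ig W G) (iFG : Ig W fun a => F a * G a) : 0 ≤ Cv W F G := by
  have n := h.nonneg
  have b1 : ∀ a, |max (G a) 0 * F a| ≤ |F a * G a| := fun a => by
    rw [abs_mul, abs_mul, mul_comm]
    exact mul_le_mul_of_nonneg_left (by
      rw [abs_of_nonneg (le_max_right _ _)]; exact max_le (le_abs_self _) (abs_nonneg _))
      (abs_nonneg _)
  have b2 : ∀ a, |max (-G a) 0 * F a| ≤ |F a * G a| := fun a => by
    rw [abs_mul, abs_mul, mul_comm]
    exact mul_le_mul_of_nonneg_left (by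
      rw [abs_of_nonneg (le_max_right _ _)]; exact max_le (neg_le_abs _) (abs_nonneg _))
      (abs_nonneg _)
  have j1 : Ig W fun a => max (G a) 0 * F a := Ig.of_abs_le n (iFG.abs n) fun a _ => b1 a
  have j2 : Ig W fun a => max (-G a) 0 * F a := Ig.of_abs_le n (iFG.abs n) fun a _ => b2 a
  have p := Fk86.hol h.summ (Fk86.ig_pos n iG)
    (hL.dom.mul_mono (Fk86.pos_mono hG) fun _ => le_max_right _ _) hF iF (ig_mul_iff.2 j1)
  have q := Fk86.hol (Fk86.ig_neg n iG) h.summ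
    (hL.dom.mul_anti (Fk86.neg_anti hG) fun _ => le_max_right _ _) hF (ig_mul_iff.2 j2) iF
  have e : ∑' a, W a * (F a * G a) =
      ∑' a, W a * max (G a) 0 * F a - ∑' a, W a * max (-G a) 0 * F a := by
    rw [← Summable.tsum_sub (ig_mul_iff.2 j1) (ig_mul_iff.2 j2)]
    exact tsum_congr fun a => by
      rw [← sub_mul, ← mul_sub, max_zero_sub_max_neg_zero_eq_self]; ring
  have z := h.pos
  rw [Cv, Ex_def, Ex_def, Ex_def, e, Fk86.tsum_split n iG, div_mul_div_comm, sub_nonneg,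
    div_le_div_iff₀ (mul_pos z z) z]
  simp only [Zs] at p q z ⊢
  nlinarith

theorem LSM.ex_mul_ge (hL : LSM W) (h : Wt W) (hF : Monotone F) (hG : Monotone G) (iF : Ig W F)
    (iG : Ig W G) (iFG : Ig W fun a => F a * G a) :
    Ex W F * Ex W G ≤ Ex W fun a => F a * G a := sub_nonneg.1 (hL.cv_nonneg h hF hG iF iG iFG)

theorem LSM.cv_nonpos (hL : LSM W) (h : Wt W) (hF : Monotone F) (hG : Antitone G) (iF : Ig W F)
    (iG : Ig W G) (iFG : Ig W fun a => F a * G a) : Cv W F G ≤ 0 := by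
  have := hL.cv_nonneg h hF (G := fun a => -G a) hG.neg iF iG.neg
    (iFG.neg.congr fun a _ => by ring)
  rw [Cv_neg_right] at this
  linarith

theorem LSM.cv_nonneg_anti (hL : LSM W) (h : Wt W) (hF : Antitone F) (hG : Antitone G)
    (iF : Ig W F) (iG : Ig W G) (iFG : Ig W fun a => F a * G a) : 0 ≤ Cv W F G := by
  have := hL.cv_nonneg h (F := fun a => -F a) (G := fun a => -G a) hF.neg hG.neg iF.neg iG.neg
    (iFG.congr fun a _ => by ring)
  rwa [Cv_neg_right, Cv_neg_left, neg_neg] at this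

/-- Harris / FKG for increasing events -/
theorem LSM.pr_and_ge (hL : LSM W) (h : Wt W) {p q : α → Prop} (hp : ∀ a b, a ≤ b → p a → p b)
    (hq : ∀ a b, a ≤ b → q a → q b) : Pr W p * Pr W q ≤ Pr W fun a => p a ∧ q a := by
  have := hL.ex_mul_ge h (ind_monotone hp) (ind_monotone hq) (h.ig_ind p) (h.ig_ind q)
    ((h.ig_ind fun a => p a ∧ q a).congr fun a _ => ind_and _ _)
  simpa only [Pr, ind_and] using this

/-- Harris / FKG for decreasing events -/
theorem LSM.pr_and_ge_anti (hL : LSM W) (h : Wt W) {p q : α → Prop}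
    (hp : ∀ a b, a ≤ b → p b → p a) (hq : ∀ a b, a ≤ b → q b → q a) :
    Pr W p * Pr W q ≤ Pr W fun a => p a ∧ q a := by
  have := hL.cv_nonneg_anti h (ind_antitone hp) (ind_antitone hq) (h.ig_ind p) (h.ig_ind q)
    ((h.ig_ind fun a => p a ∧ q a).congr fun a _ => ind_and _ _)
  simpa only [Pr, Cv, ind_and, sub_nonneg] using this

/-- the total variation distance of a Holley pair is attained on an increasing event -/
theorem Dom.tv_eq (hD : Dom W' W) (h' : Wt W') (h : Wt W) :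
    ∃ p : α → Prop, (∀ a b, a ≤ b → p a → p b) ∧ TV W W' = Pr W p - Pr W' p := by
  have z := h.pos
  have z' := h'.pos
  refine ⟨fun a => ∃ b, b ≤ a ∧ W' b / Zs W' < W b / Zs W,
    fun a c hac ⟨b, hb, k⟩ => ⟨b, hb.trans hac, k⟩, le_antisymm ?_
      ((le_abs_self _).trans (abs_Pr_sub_le h h' _))⟩
  refine TV_le_of_Pr h h' fun q => ?_
  have h1 := Ex_sub_Ex (h.ig_ind q) (h'.ig_ind q)
  have h2 := Ex_sub_Ex (h.ig_ind fun a => ∃ b, b ≤ a ∧ W' b / Zs W' < W b / Zs W) (h'.ig_ind _)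
  refine hasSum_le (fun a => ?_) h1 h2
  by_cases ha : ∃ b, b ≤ a ∧ W' b / Zs W' < W b / Zs W
  · rw [ind_pos ha]
    refine mul_le_mul_of_nonneg_left (ind_le_one _) (sub_nonneg.2 ?_)
    obtain ⟨b, hb, k⟩ := ha
    have l := hD.lr hb
    rw [div_lt_div_iff₀ z' z] at k
    rw [div_le_div_iff₀ z' z]
    have wb : 0 < W b := by
      have := mul_nonneg (hD.1 b) z.le
      exact (mul_pos_iff_of_pos_right z').1 (lt_of_le_of_lt this k)
    refine le_of_mul_le_mul_right ?_ wb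
    have := hD.2.1 a
    nlinarith
  · rw [ind_neg ha, mul_zero]
    exact mul_nonpos_of_nonpos_of_nonneg
      (sub_nonpos.2 (not_lt.1 fun k => ha ⟨a, le_rfl, k⟩)) (ind_nonneg _)

/-- bound on the distance of a Holley pair by increasing events -/
theorem Dom.tv_le (hD : Dom W' W) (h' : Wt W') (h : Wt W) {ε : ℝ}
    (H : ∀ p : α → Prop, (∀ a b, a ≤ b → p a → p b) → Pr W p - Pr W' p ≤ ε) : TV W W' ≤ ε := by
  obtain ⟨p, hp, e⟩ := hD.tv_eq h' h
  rw [e]; exact H p hp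

/-- H3, likelihood-ratio sandwich `L ≤ P ≤ U`: `TV (P, L) ≤ TV (U, L)`; only stochastic domination of
`P` by `U` is used -/
theorem Dom.tv_sandwich' {L P U : α → ℝ} (hL : Wt L) (hP : Wt P) (hU : Wt U) (h1 : Dom L P)
    (h2 : ∀ p : α → Prop, (∀ a b, a ≤ b → p a → p b) → Pr P p ≤ Pr U p) : TV P L ≤ TV U L :=
  h1.tv_le hL hP fun p hp =>
    (sub_le_sub_right (h2 p hp) _).trans ((le_abs_self _).trans (abs_Pr_sub_le hU hL p))

theorem Dom.tv_sandwich {L P U : α → ℝ} (hL : Wt L) (hP : Wt P) (hU : Wt U) (h1 : Dom L P)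
    (h2 : Dom P U) : TV P L ≤ TV U L :=
  Dom.tv_sandwich' hL hP hU h1 fun _ hp => h2.pr_le hP hU hp

theorem Dom.tv_sandwich_up {L P U : α → ℝ} (hL : Wt L) (hP : Wt P) (hU : Wt U) (h1 : Dom L P)
    (h2 : Dom P U) : TV U P ≤ TV U L :=
  h2.tv_le hP hU fun p hp =>
    (sub_le_sub_left (h1.pr_le hL hP hp) _).trans ((le_abs_self _).trans (abs_Pr_sub_le hU hL p))

/-- after a marginalisation -/
theorem Dom.tv_push_eq {β : Type*} [DistribLattice β] (hD : Dom W' W) (h' : Wt W') (h : Wt W)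
    {π : α → β} (hi : ∀ a b, π (a ⊓ b) = π a ⊓ π b) (hs : ∀ a b, π (a ⊔ b) = π a ⊔ π b) :
    ∃ p : β → Prop, (∀ a b, a ≤ b → p a → p b) ∧
      TV (T145.push W π) (T145.push W' π) = Pr W (fun a => p (π a)) - Pr W' fun a => p (π a) := by
  obtain ⟨p, hp, e⟩ := (hD.push h'.summ h.summ hi hs).tv_eq (h'.push π) (h.push π)
  exact ⟨p, hp, by rw [e, h.pr_push, h'.pr_push]⟩

end lat

theorem fkgStmt : FkgStmt := fun α _ =>
  ⟨fun _ _ _ _ h₁ h₂ h₃ h₄ s₁ s₂ s₃ s₄ h => Fk86.four h₁ h₂ h₃ h₄ s₁ s₂ s₃ s₄ h,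
    fun _ _ _ h' h hD hF i' i => hD.ex_le h' h hF i' i,
    fun _ _ _ h hL hF hG iF iG iFG => hL.cv_nonneg h hF hG iF iG iFG⟩

/-! ## log-concave kernels -/
section lc
variable {w : ℤ → ℝ}

theorem LC.pos (h : LC w) (k : ℤ) : 0 < w k := h.1 k

/-- ratios decrease -/
theorem LC.step (h : LC w) {p q : ℤ} (hpq : p ≤ q) : w p * w (q + 1) ≤ w (p + 1) * w q :=
  Sw9.lc_step h hpq

/-- an inner pair with the same sum weighs more -/
theorem LC.four (h : LC w) {a b c d : ℤ} (h1 : a ≤ c) (h2 : a ≤ d) (hs : a + b = c + d) :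
    w a * w b ≤ w c * w d := Sw9.lc4 h h1 h2 hs

/-- even and log-concave: decreasing in `|k|` -/
theorem LC.anti (h : LC w) (he : ∀ k, w (-k) = w k) {k l : ℤ} (hkl : |k| ≤ |l|) : w l ≤ w k :=
  Bes66.lc_anti h he hkl

/-- the lattice condition for one edge -/
theorem LC.edge (h : LC w) (x₁ x₂ y₁ y₂ : ℤ) :
    w (x₂ - x₁) * w (y₂ - y₁) ≤ w (min x₂ y₂ - min x₁ y₁) * w (max x₂ y₂ - max x₁ y₁) := by
  rcases le_total x₁ y₁ with a | a <;> rcases le_total x₂ y₂ with b | b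
  · rw [min_eq_left a, min_eq_left b, max_eq_right a, max_eq_right b]
  · rw [min_eq_left a, min_eq_right b, max_eq_right a, max_eq_left b, mul_comm]
    exact h.four (by omega) (by omega) (by omega)
  · rw [min_eq_right a, min_eq_left b, max_eq_left a, max_eq_right b]
    exact h.four (by omega) (by omega) (by omega)
  · rw [min_eq_right a, min_eq_right b, max_eq_left a, max_eq_left b, mul_comm]

theorem Fam.ker (h : Fam w) : IsKer w := kerStmt w h
theorem Fam.lc' (h : Fam w) : LC w := (kerStmt w h).lc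
theorem Fam.pos' (h : Fam w) (k : ℤ) : 0 < w k := h.lc'.1 k
theorem Fam.anti (h : Fam w) {k l : ℤ} (hkl : |k| ≤ |l|) : w l ≤ w k := h.lc'.anti h.even hkl

end lc

/-! ## models -/
section mdl
variable {V : Type*} [DecidableEq V]

omit [DecidableEq V] in
theorem Mdl.Fm.lc {m : Mdl V} (h : m.Fm) : ∀ e ∈ m.ed, LC (m.w e) := fun e he => (h e he).lc'

/-- two models with the same sites and edges, site weights in Holley order -/
theorem Mdl.W_four {m m' : Mdl V} (hA : m'.A = m.A) (hE : m'.ed = m.ed)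
    (hw : ∀ e ∈ m.ed, m'.w e = m.w e) (lc : ∀ e ∈ m.ed, LC (m.w e)) (n' : m'.Nn) (n : m.Nn)
    (hs : ∀ x ∈ m.A, ∀ j k : ℤ, k ≤ j → m'.site x j * m.site x k ≤ m'.site x k * m.site x j)
    (η' η s' s : Cfg V) :
    m'.W η' s' * m.W η s ≤ m'.W (η' ⊓ η) (s' ⊓ s) * m.W (η' ⊔ η) (s' ⊔ s) := by
  have lc' : ∀ e ∈ m'.ed, ∀ k, 0 ≤ m'.w e k := fun e he k => by
    rw [hE] at he; rw [hw e he]; exact ((lc e he).1 k).le
  have r0 := mul_nonneg (Mdl.W_nonneg lc' n' (η' ⊓ η) (s' ⊓ s))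
    (Mdl.W_nonneg (fun e he k => ((lc e he).1 k).le) n (η' ⊔ η) (s' ⊔ s))
  by_cases z : m'.W η' s' * m.W η s = 0
  · rw [z]; exact r0
  have o' : ∀ x, x ∉ m'.A → s' x = η' x := fun x hx => Mdl.W_ne_zero (left_ne_zero_of_mul z) hx
  have o : ∀ x, x ∉ m.A → s x = η x := fun x hx => Mdl.W_ne_zero (right_ne_zero_of_mul z) hx
  rw [Mdl.W_of_eq _ o', Mdl.W_of_eq _ o, Mdl.W_of_eq _ (fun x hx => by
      rw [cfg_inf_apply, cfg_inf_apply, o' x hx, o x (hA ▸ hx)]),
    Mdl.W_of_eq _ (fun x hx => by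
      rw [cfg_sup_apply, cfg_sup_apply, o' x (hA ▸ hx), o x hx]), hA, hE,
    mul_mul_mul_comm, mul_mul_mul_comm (∏ e ∈ m.ed, m'.w e (dE e (s' ⊓ s))), ← prod_mul_distrib,
    ← prod_mul_distrib,
    ← prod_mul_distrib, ← prod_mul_distrib]
  rw [Mdl.Nn, hA] at n'
  refine mul_le_mul (prod_le_prod (fun e he => ?_) fun e he => ?_)
    (prod_le_prod (fun x hx => mul_nonneg (n' x hx _) (n x hx _)) fun x hx => ?_)
    (prod_nonneg fun x hx => mul_nonneg (n' x hx _) (n x hx _)) (prod_nonneg fun e he => ?_)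
  · rw [hw e he]; exact (mul_pos ((lc e he).1 _) ((lc e he).1 _)).le
  · rw [hw e he]
    simp only [dE, cfg_inf_apply, cfg_sup_apply]
    exact (lc e he).edge _ _ _ _
  · rw [cfg_inf_apply, cfg_sup_apply]
    rcases le_total (s' x) (s x) with a | a
    · rw [min_eq_left a, max_eq_right a]
    · rw [min_eq_right a, max_eq_left a]; exact hs x hx _ _ a
  · rw [hw e he]; exact (mul_pos ((lc e he).1 _) ((lc e he).1 _)).le

/-- the general comparison: boundary conditions ordered off `A`, site weights in likelihood-ratio order -/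
theorem Mdl.dom_of {m m' : Mdl V} (hA : m'.A = m.A) (hE : m'.ed = m.ed)
    (hw : ∀ e ∈ m.ed, m'.w e = m.w e) (lc : ∀ e ∈ m.ed, LC (m.w e)) (n' : m'.Nn) (n : m.Nn)
    (hs : ∀ x ∈ m.A, ∀ j k : ℤ, k ≤ j → m'.site x j * m.site x k ≤ m'.site x k * m.site x j)
    {η' η : Cfg V} (hη : ∀ x, x ∉ m.A → η' x ≤ η x) : Dom (m'.W η') (m.W η) := by
  refine ⟨Mdl.W_nonneg (fun e he k => ?_) n' η',
    Mdl.W_nonneg (fun e he k => ((lc e he).1 k).le) n η, fun s' s => ?_⟩
  · rw [hE] at he; rw [hw e he]; exact ((lc e he).1 k).le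
  have := Mdl.W_four hA hE hw lc n' n hs η' η s' s
  rwa [m'.W_congr (η := η' ⊓ η) (η' := η') fun x hx => by
      rw [cfg_inf_apply, min_eq_left (hη x (hA ▸ hx))],
    m.W_congr (η := η' ⊔ η) (η' := η) fun x hx => by
      rw [cfg_sup_apply, max_eq_right (hη x hx)]] at this

theorem Mdl.dom_bc {m : Mdl V} (lc : ∀ e ∈ m.ed, LC (m.w e)) (n : m.Nn) {η' η : Cfg V}
    (hη : ∀ x, x ∉ m.A → η' x ≤ η x) : Dom (m.W η') (m.W η) :=
  Mdl.dom_of rfl rfl (fun _ _ => rfl) lc n n (fun _ _ _ _ _ => (mul_comm _ _).le) hη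

theorem Mdl.lsm {m : Mdl V} (lc : ∀ e ∈ m.ed, LC (m.w e)) (n : m.Nn) (η : Cfg V) : LSM (m.W η) :=
  (Mdl.dom_bc lc n fun _ _ => le_rfl).lsm

/-- site factors in likelihood-ratio order -/
theorem Mdl.dom_mulSite {m : Mdl V} (lc : ∀ e ∈ m.ed, LC (m.w e)) (n : m.Nn) {u' u : V → ℤ → ℝ}
    (u0' : ∀ x ∈ m.A, ∀ k, 0 ≤ u' x k) (u0 : ∀ x ∈ m.A, ∀ k, 0 ≤ u x k)
    (hu : ∀ x ∈ m.A, ∀ j k : ℤ, k ≤ j → u' x j * u x k ≤ u' x k * u x j) {η' η : Cfg V}
    (hη : ∀ x, x ∉ m.A → η' x ≤ η x) : Dom ((m.mulSite u').W η') ((m.mulSite u).W η) :=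
  Mdl.dom_of (m := m.mulSite u) (m' := m.mulSite u') rfl rfl (fun _ _ => rfl) lc
    (fun x hx k => mul_nonneg (n x hx k) (u0' x hx k))
    (fun x hx k => mul_nonneg (n x hx k) (u0 x hx k)) (fun x hx j k h => by
      have := mul_le_mul_of_nonneg_left (hu x hx j k h) (mul_nonneg (n x hx j) (n x hx k))
      simp only [Mdl.mulSite]
      nlinarith) hη

/-- ordered forces and boundary conditions -/
theorem Mdl.dom_force {m : Mdl V} (lc : ∀ e ∈ m.ed, LC (m.w e)) (n : m.Nn) {f' f : V → ℝ}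
    (hf : ∀ x ∈ m.A, f' x ≤ f x) {η' η : Cfg V} (hη : ∀ x, x ∉ m.A → η' x ≤ η x) :
    Dom ((m.force f').W η') ((m.force f).W η) :=
  Mdl.dom_mulSite lc n (fun _ _ _ => (Real.exp_pos _).le) (fun _ _ _ => (Real.exp_pos _).le)
    (fun x hx j k h => by
      rw [← Real.exp_add, ← Real.exp_add, Real.exp_le_exp]
      have : (k : ℝ) ≤ j := Int.cast_le.2 h
      nlinarith [hf x hx]) hη

/-- pinning `A \ A'` from above: on `{s ≤ η on A \ A'}` the free model is below the pinned one -/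
theorem Mdl.dom_pin_up {m : Mdl V} (lc : ∀ e ∈ m.ed, LC (m.w e)) (n : m.Nn) {A' : Finset V}
    (hA : A' ⊆ m.A) {η' η : Cfg V} (hη : ∀ x, x ∉ m.A → η' x ≤ η x) :
    Dom (fun s => ind (∀ x ∈ m.A, x ∉ A' → s x ≤ η x) * m.W η' s)
      fun s => ind (∀ x ∈ m.A, x ∉ A' → s x = η x) * m.W η s :=
  (Mdl.dom_bc lc n hη).restrict fun a b ha hb =>
    ⟨fun x hx hx' => by rw [cfg_inf_apply]; exact (min_le_left _ _).trans (ha x hx hx'),
      fun x hx hx' => by rw [cfg_sup_apply, hb x hx hx', max_eq_right (ha x hx hx')]⟩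

/-- pinning `A \ A'` from below -/
theorem Mdl.dom_pin_down {m : Mdl V} (lc : ∀ e ∈ m.ed, LC (m.w e)) (n : m.Nn) {A' : Finset V}
    (hA : A' ⊆ m.A) {η' η : Cfg V} (hη : ∀ x, x ∉ m.A → η' x ≤ η x) :
    Dom (fun s => ind (∀ x ∈ m.A, x ∉ A' → s x = η' x) * m.W η' s)
      fun s => ind (∀ x ∈ m.A, x ∉ A' → η' x ≤ s x) * m.W η s :=
  (Mdl.dom_bc lc n hη).restrict fun a b ha hb =>
    ⟨fun x hx hx' => by rw [cfg_inf_apply, ha x hx hx', min_eq_left (hb x hx hx')],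
      fun x hx hx' => by rw [cfg_sup_apply]; exact (hb x hx hx').trans (le_max_right _ _)⟩

/-- sub-configurations: `pw U · t` is a lattice homomorphism -/
theorem pw_inf (U : Finset V) (t a b : Cfg V) : pw U (a ⊓ b) t = pw U a t ⊓ pw U b t := by
  ext x; simp only [pw_apply, cfg_inf_apply]; split_ifs <;> simp
theorem pw_sup (U : Finset V) (t a b : Cfg V) : pw U (a ⊔ b) t = pw U a t ⊔ pw U b t := by
  ext x; simp only [pw_apply, cfg_sup_apply]; split_ifs <;> simp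
theorem filter_inf (p : V → Prop) [DecidablePred p] (a b : Cfg V) :
    (a ⊓ b).filter p = a.filter p ⊓ b.filter p := by
  ext x; simp only [Finsupp.filter_apply, cfg_inf_apply]; split_ifs <;> simp
theorem filter_sup (p : V → Prop) [DecidablePred p] (a b : Cfg V) :
    (a ⊔ b).filter p = a.filter p ⊔ b.filter p := by
  ext x; simp only [Finsupp.filter_apply, cfg_sup_apply]; split_ifs <;> simp

/-! ### bonds -/
variable {m : Mdl V}

omit [DecidableEq V] in
theorem Mdl.bw_nonneg (hm : m.Fm) (h : ℤ) (s : Cfg V) {e : V × V} (he : e ∈ m.ed) (o : Prop)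
    [Decidable o] : 0 ≤ m.bw h s e o := by
  unfold Mdl.bw
  split_ifs
  · refine sub_nonneg.2 ((hm e he).anti ?_)
    rw [abs_of_nonneg (add_nonneg (abs_nonneg (s e.1 - h)) (abs_nonneg (s e.2 - h)))]
    have : dE e s = (s e.2 - h) - (s e.1 - h) := by simp [dE]
    rw [this, add_comm]; exact abs_sub _ _
  · exact (hm e he).nonneg _

theorem Mdl.J_nonneg (hm : m.Fm) (hn : m.Nn) (h : ℤ) (η : Cfg V) (p : Cfg V × Finset (V × V)) :
    0 ≤ m.J h η p :=
  mul_nonneg (mul_nonneg (mul_nonneg (ind_nonneg _) (ind_nonneg _))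
    (prod_nonneg fun e he => Mdl.bw_nonneg hm h _ he _)) (prod_nonneg fun x hx => hn x hx _)

theorem Mdl.sum_bw (m : Mdl V) (h : ℤ) (s : Cfg V) :
    ∑ ω ∈ m.ed.powerset, ∏ e ∈ m.ed, m.bw h s e (e ∈ ω) = ∏ e ∈ m.ed, m.w e (dE e s) := by
  unfold Mdl.bw
  rw [Sw9.sum_ite_prod]
  exact prod_congr rfl fun e _ => sub_add_cancel _ _

theorem Mdl.sum_J (m : Mdl V) (h : ℤ) (η s : Cfg V) :
    ∑ ω ∈ m.ed.powerset, m.J h η (s, ω) = m.W η s := by
  rw [Mdl.W, ← m.sum_bw h s, mul_sum, sum_mul]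
  exact sum_congr rfl fun ω hω => by rw [Mdl.J, ind_pos (mem_powerset.1 hω), mul_one]

theorem Mdl.J_sign (hm : m.Fm) {h : ℤ} {η s : Cfg V} {ω : Finset (V × V)}
    (hJ : m.J h η (s, ω) ≠ 0) {e : V × V} (he : e ∈ ω) : 0 < (s e.1 - h) * (s e.2 - h) := by
  have hs : ω ⊆ m.ed := Md.J_sub hJ
  have h1 := prod_ne_zero_iff.1 (right_ne_zero_of_mul (left_ne_zero_of_mul hJ)) e (hs he)
  by_contra hc
  apply h1
  simp only [Mdl.bw, if_pos he]
  have e1 : |dE e s| = |s e.1 - h| + |s e.2 - h| := by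
    simp only [dE]
    rcases mul_nonpos_iff.1 (not_lt.1 hc) with ⟨a, b⟩ | ⟨a, b⟩
    · rw [abs_of_nonneg a, abs_of_nonpos b, abs_of_nonpos (by omega)]; ring
    · rw [abs_of_nonpos a, abs_of_nonneg b, abs_of_nonneg (by omega)]; ring
  rw [← e1, (hm e (hs he)).abs, sub_self]

/-- open probability of a bond at level `h` -/
noncomputable def Mdl.pB (m : Mdl V) (h : ℤ) (s : Cfg V) (e : V × V) : ℝ :=
  1 - m.w e (|s e.1 - h| + |s e.2 - h|) / m.w e (dE e s)

omit [DecidableEq V] in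
theorem Mdl.bw_eq (hm : m.Fm) (h : ℤ) (s : Cfg V) {e : V × V} (he : e ∈ m.ed) (o : Prop)
    [Decidable o] :
    m.bw h s e o = m.w e (dE e s) * if o then m.pB h s e else 1 - m.pB h s e := by
  have := ((hm e he).pos' (dE e s)).ne'
  unfold Mdl.bw Mdl.pB
  split_ifs <;> field_simp
  ring

omit [DecidableEq V] in
theorem Mdl.pB_mem (hm : m.Fm) (h : ℤ) (s : Cfg V) {e : V × V} (he : e ∈ m.ed) :
    0 ≤ m.pB h s e ∧ m.pB h s e ≤ 1 := by
  have p := (hm e he).pos' (dE e s)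
  have a := Mdl.bw_nonneg hm h s he True
  rw [Mdl.bw_eq hm h s he, if_pos trivial] at a
  exact ⟨(mul_nonneg_iff_of_pos_left p).1 a, sub_le_self _ (div_nonneg ((hm e he).nonneg _) p.le)⟩

omit [DecidableEq V] in
theorem Mdl.pB_zero (hm : m.Fm) {h : ℤ} {s : Cfg V} {e : V × V} (he : e ∈ m.ed)
    (hc : (s e.1 - h) * (s e.2 - h) ≤ 0) : m.pB h s e = 0 := by
  have e1 : |dE e s| = |s e.1 - h| + |s e.2 - h| := by
    simp only [dE]
    rcases mul_nonpos_iff.1 hc with ⟨a, b⟩ | ⟨a, b⟩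
    · rw [abs_of_nonneg a, abs_of_nonpos b, abs_of_nonpos (by omega)]; ring
    · rw [abs_of_nonpos a, abs_of_nonneg b, abs_of_nonneg (by omega)]; ring
  rw [Mdl.pB, ← e1, (hm e he).abs, div_self ((hm e he).pos' _).ne', sub_self]

omit [DecidableEq V] in
theorem Mdl.pB_mono (hm : m.Fm) (h : ℤ) {s t : Cfg V} (hst : s ≤ t) {e : V × V} (he : e ∈ m.ed) :
    (if h < s e.1 then m.pB h s e else 0) ≤ if h < t e.1 then m.pB h t e else 0 := by
  have a1 := hst e.1
  have a2 := hst e.2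
  have F := hm e he
  by_cases c : h < s e.1
  · rw [if_pos c, if_pos (by omega)]
    by_cases d : h < s e.2
    · unfold Mdl.pB dE
      rw [abs_of_pos (by omega), abs_of_pos (by omega), abs_of_pos (by omega),
        abs_of_pos (by omega)]
      refine sub_le_sub_left ?_ _
      rw [div_le_div_iff₀ (F.pos' _) (F.pos' _)]
      have k1 := F.lc'.four (a := s e.1 - t e.2) (b := t e.1 - h + (t e.2 - h))
        (c := s e.1 - h + (t e.2 - h)) (d := t e.1 - t e.2) (by omega) (by omega) (by omega)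
      have k2 := F.lc'.four (a := s e.2 - s e.1) (b := s e.1 - h + (t e.2 - h))
        (c := s e.1 - h + (s e.2 - h)) (d := t e.2 - s e.1) (by omega) (by omega) (by omega)
      rw [← neg_sub (t e.2) (s e.1), F.even, ← neg_sub (t e.2) (t e.1), F.even] at k1
      have p1 := F.pos' (t e.2 - s e.1)
      have p2 := F.pos' (s e.1 - h + (t e.2 - h))
      refine le_of_mul_le_mul_right ?_ (mul_pos p1 p2)
      calc _ = (m.w e (t e.2 - s e.1) * m.w e (t e.1 - h + (t e.2 - h))) *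
            (m.w e (s e.2 - s e.1) * m.w e (s e.1 - h + (t e.2 - h))) := by ring
        _ ≤ _ := mul_le_mul k1 k2 (mul_pos (F.pos' _) p2).le (mul_pos p2 (F.pos' _)).le
        _ = _ := by ring
    · rw [Mdl.pB_zero hm he (mul_nonpos_of_nonneg_of_nonpos (by omega) (by omega))]
      exact (Mdl.pB_mem hm h t he).1
  · rw [if_neg c]
    split_ifs
    exacts [(Mdl.pB_mem hm h t he).1, le_rfl]

theorem Mdl.bern_eq (hm : m.Fm) (h : ℤ) (s : Cfg V) (P : V × V → Prop) [DecidablePred P]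
    (Φ : Finset (V × V) → ℝ) :
    (∑ ω ∈ m.ed.powerset, (∏ e ∈ m.ed, m.bw h s e (e ∈ ω)) * Φ (ω.filter P)) /
      ∏ e ∈ m.ed, m.w e (dE e s) = Sw9.bern m.ed (m.pB h s) P Φ := by
  unfold Sw9.bern
  rw [div_eq_iff (prod_pos fun e he => (hm e he).pos' _).ne', sum_mul]
  refine sum_congr rfl fun ω _ => ?_
  rw [prod_congr rfl fun e he => Mdl.bw_eq hm h s he (e ∈ ω), prod_mul_distrib]
  ring

theorem Mdl.bond_mono (hm : m.Fm) (h : ℤ) {Φ : Finset (V × V) → ℝ} (hΦ : Monotone Φ) :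
    Monotone fun s : Cfg V =>
      (∑ ω ∈ m.ed.powerset, (∏ e ∈ m.ed, m.bw h s e (e ∈ ω)) * Φ (ω.filter fun e => h < s e.1)) /
        ∏ e ∈ m.ed, m.w e (dE e s) := fun s t hst => by
  simp only [Mdl.bern_eq hm]
  exact Sw9.bern_mono _ _ _ (fun e he => Mdl.pB_mem hm h s he) (fun e he => Mdl.pB_mem hm h t he)
    (fun e he => Mdl.pB_mono hm h hst he) Φ hΦ

/-! ### transfer between `J` and `W` -/

theorem Mdl.hasSum_J_fib (m : Mdl V) (h : ℤ) (η s : Cfg V) (F : Cfg V × Finset (V × V) → ℝ) :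
    HasSum (fun ω => m.J h η (s, ω) * F (s, ω))
      (∑ ω ∈ m.ed.powerset, m.J h η (s, ω) * F (s, ω)) :=
  hasSum_sum_of_ne_finset_zero fun ω hω => by
    rw [Mdl.J, ind_neg fun k => hω (mem_powerset.2 k)]; simp

theorem Mdl.push_J (m : Mdl V) (h : ℤ) (η : Cfg V) : push (m.J h η) Prod.fst = m.W η := by
  funext s
  rw [← m.sum_J h η s, push]
  have e : (fun ω : Finset (V × V) => (s, ω)).Injective := fun a b k => congrArg Prod.snd k
  rw [← e.tsum_eq (f := fun p => ind (p.1 = s) * m.J h η p) fun p hp => ?_]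
  · simp only [ind_true, one_mul]
    simpa using (m.hasSum_J_fib h η s fun _ => 1).tsum_eq
  · exact ⟨p.2, Prod.ext (ind_ne_zero.1 (left_ne_zero_of_mul hp)).symm rfl⟩

theorem Mdl.summable_J (hm : m.Fm) (hn : m.Nn) (h : ℤ) {η : Cfg V} (hs : Summable (m.W η)) :
    Summable (m.J h η) := by
  refine (summable_prod_of_nonneg (Mdl.J_nonneg hm hn h η)).2 ⟨fun s => ?_, hs.congr fun s => ?_⟩
  · simpa using (m.hasSum_J_fib h η s fun _ => 1).summable
  · rw [← m.sum_J h η s]; simpa using (m.hasSum_J_fib h η s fun _ => 1).tsum_eq.symm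

theorem Mdl.zs_J (hm : m.Fm) (hn : m.Nn) (h : ℤ) {η : Cfg V} (hs : Summable (m.W η)) :
    Zs (m.J h η) = Zs (m.W η) := by
  rw [← m.push_J h η, Zs_push (Mdl.summable_J hm hn h hs)]

theorem Mdl.wt_J (hm : m.Fm) (hn : m.Nn) (h : ℤ) {η : Cfg V} (hW : Wt (m.W η)) : Wt (m.J h η) :=
  ⟨Mdl.J_nonneg hm hn h η, Mdl.summable_J hm hn h hW.summ, by
    rw [Mdl.zs_J hm hn h hW.summ]; exact hW.pos⟩

theorem Mdl.wt_of_J {h : ℤ} {η : Cfg V} (hW : Wt (m.J h η)) : Wt (m.W η) :=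
  m.push_J h η ▸ hW.push Prod.fst

theorem Mdl.wt_J_iff (hm : m.Fm) (hn : m.Nn) (h : ℤ) (η : Cfg V) : Wt (m.J h η) ↔ Wt (m.W η) :=
  ⟨Mdl.wt_of_J, Mdl.wt_J hm hn h⟩

theorem Mdl.ig_J_fst {h : ℤ} {η : Cfg V} (hW : Wt (m.J h η)) (F : Cfg V → ℝ) :
    Ig (m.J h η) (fun p => F p.1) ↔ Ig (m.W η) F := by
  rw [← m.push_J h η, hW.ig_push]

theorem Mdl.ex_J_fst {h : ℤ} {η : Cfg V} (hW : Wt (m.J h η)) (F : Cfg V → ℝ) :
    Ex (m.J h η) (fun p => F p.1) = Ex (m.W η) F := by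
  rw [← m.push_J h η, hW.ex_push]

theorem Mdl.pr_J_fst {h : ℤ} {η : Cfg V} (hW : Wt (m.J h η)) (p : Cfg V → Prop) :
    Pr (m.J h η) (fun q => p q.1) = Pr (m.W η) p := Mdl.ex_J_fst hW fun s => ind (p s)

/-- conditional expectation of `F` given the heights -/
noncomputable def Mdl.cB (m : Mdl V) (h : ℤ) (F : Cfg V × Finset (V × V) → ℝ) (s : Cfg V) : ℝ :=
  (∑ ω ∈ m.ed.powerset, (∏ e ∈ m.ed, m.bw h s e (e ∈ ω)) * F (s, ω)) / ∏ e ∈ m.ed, m.w e (dE e s)

theorem Mdl.W_mul_cB (hm : m.Fm) (h : ℤ) (η : Cfg V) (F : Cfg V × Finset (V × V) → ℝ) (s : Cfg V) :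
    m.W η s * m.cB h F s = ∑ ω ∈ m.ed.powerset, m.J h η (s, ω) * F (s, ω) := by
  have z := (prod_pos fun e he => (hm e he).pos' (dE e s)).ne'
  rw [Mdl.W, Mdl.cB, mul_right_comm, mul_assoc (ind _), mul_div_cancel₀ _ z, mul_sum, sum_mul]
  exact sum_congr rfl fun ω hω => by rw [Mdl.J, ind_pos (mem_powerset.1 hω)]; ring

/-- integrate out the bonds -/
theorem Mdl.ex_J_cB (hm : m.Fm) (hn : m.Nn) {h : ℤ} {η : Cfg V} (hW : Wt (m.W η))
    {F : Cfg V × Finset (V × V) → ℝ} (hF : Ig (m.J h η) F) :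
    Ig (m.W η) (m.cB h F) ∧ Ex (m.J h η) F = Ex (m.W η) (m.cB h F) := by
  have k : HasSum (fun s => m.W η s * m.cB h F s) (∑' p, m.J h η p * F p) :=
    hF.hasSum.prod_fiberwise fun s => by
      rw [Mdl.W_mul_cB hm]; exact m.hasSum_J_fib h η s F
  exact ⟨k.summable, by rw [Ex_def, Ex_def, k.tsum_eq, Mdl.zs_J hm hn h hW.summ]⟩

theorem Mdl.abs_cB_le (hm : m.Fm) (h : ℤ) {F : Cfg V × Finset (V × V) → ℝ} {C : ℝ}
    (hF : ∀ p, |F p| ≤ C) (s : Cfg V) : |m.cB h F s| ≤ C := by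
  have z := prod_pos fun e he => (hm e he).pos' (dE e s)
  rw [Mdl.cB, abs_div, abs_of_pos z, div_le_iff₀ z, ← m.sum_bw h s, mul_sum]
  refine (abs_sum_le_sum_abs _ _).trans (sum_le_sum fun ω _ => ?_)
  have := prod_nonneg fun e he => Mdl.bw_nonneg hm h s he (e ∈ ω)
  rw [abs_mul, abs_of_nonneg this, mul_comm]
  exact mul_le_mul_of_nonneg_right (hF _) this

/-- Holley for increasing functions of the heights and of the bonds above the level: two models with the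
same edges -/
theorem Mdl.ex_J_plus_le {m m' : Mdl V} (hm : m.Fm) (hE : m'.ed = m.ed) (hw : m'.w = m.w)
    (n' : m'.Nn) (n : m.Nn) {η' η : Cfg V} (w' : Wt (m'.W η')) (w : Wt (m.W η))
    (hD : Dom (m'.W η') (m.W η)) (h : ℤ) {Φ : Finset (V × V) → ℝ} (hΦ : Monotone Φ) {C : ℝ}
    (hC : ∀ ω, |Φ ω| ≤ C) :
    Ex (m'.J h η') (fun p => Φ (p.2.filter fun e => h < p.1 e.1)) ≤
      Ex (m.J h η) fun p => Φ (p.2.filter fun e => h < p.1 e.1) := by
  have hm' : m'.Fm := fun e he => by rw [hw]; exact hm e (hE ▸ he)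
  have a' := Mdl.ex_J_cB hm' n' w' (h := h) (F := fun p => Φ (p.2.filter fun e => h < p.1 e.1))
    ((Mdl.wt_J hm' n' h w').ig_bdd fun p => hC _)
  have a := Mdl.ex_J_cB hm n w (h := h) (F := fun p => Φ (p.2.filter fun e => h < p.1 e.1))
    ((Mdl.wt_J hm n h w).ig_bdd fun p => hC _)
  have e : m'.cB h (fun p => Φ (p.2.filter fun e => h < p.1 e.1)) =
      m.cB h fun p => Φ (p.2.filter fun e => h < p.1 e.1) := by
    funext s; simp only [Mdl.cB, Mdl.bw, hE, hw]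
  rw [a'.2, a.2]
  rw [e] at a' ⊢
  exact hD.ex_le w' w (Mdl.bond_mono hm h hΦ) a'.1 a.1

end mdl

theorem lsmStmt : LsmStmt := fun V _ m lc n η η' s s' =>
  Mdl.W_four rfl rfl (fun _ _ => rfl) lc n n (fun _ _ _ _ _ => (mul_comm _ _).le) η η' s s'

theorem bondStmt : BondStmt := fun V _ m h η hm hn =>
  ⟨Mdl.J_nonneg hm hn h η, m.sum_J h η, fun _ _ hJ _ he => Mdl.J_sign hm hJ he,
    fun _ hΦ => Mdl.bond_mono hm h hΦ⟩

theorem bond_of (_ : KerStmt) : BondStmt := bondStmt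

end Crest.Agent.T145
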