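import Crest.Agent.T145.MxA_9
import Crest.Agent.T145.Fkg_86
import Crest.Agent.T145.Cut_7
import Crest.Agent.T145.CE_56
import Crest.Agent.T145.MdlD_73

/-!
# Row 145: ambient versions of the crossing bound (MIXA, RING), Dirichlet comparison (DL core), and the
cut bound (F), for abstract models (helper31)
-/

set_option autoImplicit false

namespace Crest.Agent.T145

open Finset

namespace Mx31

open Mx (PP)

/-! ## bonds read on a subset of the edges -/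

theorem sum_pow_inter {ι : Type*} [DecidableEq ι] (x y : ι → ℝ) (E : Finset ι) (Φ : Finset ι → ℝ)
    (D : Finset ι) (hD : Disjoint E D) :
    ∑ ω ∈ (E ∪ D).powerset, (∏ e ∈ E ∪ D, if e ∈ ω then x e else y e) * Φ (ω ∩ E) =
      (∑ ω ∈ E.powerset, (∏ e ∈ E, if e ∈ ω then x e else y e) * Φ ω) * ∏ e ∈ D, (x e + y e) := by
  induction D using Finset.induction_on with
  | empty =>
    simp only [union_empty, prod_empty, mul_one]
    exact sum_congr rfl fun ω hω => by rw [inter_eq_left.2 (mem_powerset.1 hω)]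
  | insert a D ha ih =>
    have haE : a ∉ E := fun h => disjoint_left.1 hD h (mem_insert_self _ _)
    have hn : a ∉ E ∪ D := by simp [haE, ha]
    rw [union_insert, sum_powerset_insert hn, prod_insert ha, mul_comm (x a + y a), ← mul_assoc,
      ← ih (hD.mono_right (subset_insert _ _)), mul_add, add_comm, sum_mul, sum_mul]
    congr 1
    · refine sum_congr rfl fun ω hω => ?_
      have e : ∏ e ∈ E ∪ D, (if e ∈ insert a ω then x e else y e) =
          ∏ e ∈ E ∪ D, if e ∈ ω then x e else y e := prod_congr rfl fun e he => by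
        have : e ≠ a := fun h => hn (h ▸ he)
        simp [this]
      rw [prod_insert hn, if_pos (mem_insert_self _ _), e, insert_inter_of_notMem haE]
      ring
    · refine sum_congr rfl fun ω hω => ?_
      rw [prod_insert hn, if_neg fun h => hn (mem_powerset.1 hω h)]
      ring

variable {V : Type} [DecidableEq V] {m P : Mdl V}

theorem cB_keep (hm : m.Fm) {E : Finset (V × V)} (hE : E ⊆ m.ed) (h : ℤ) {F : PP V → ℝ}
    (hF : ∀ s ω, F (s, ω) = F (s, ω ∩ E)) (s : Cfg V) : m.cB h F s = (m.keep E).cB h F s := by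
  have hU : E ∪ (m.ed \ E) = m.ed := union_sdiff_of_subset hE
  have k := sum_pow_inter (fun e => m.w e (dE e s) - m.w e (|s e.1 - h| + |s e.2 - h|))
    (fun e => m.w e (|s e.1 - h| + |s e.2 - h|)) E (fun ω => F (s, ω)) (m.ed \ E) disjoint_sdiff
  rw [hU] at k
  simp only [sub_add_cancel, ← hF] at k
  have z : ∏ e ∈ m.ed \ E, m.w e (dE e s) ≠ 0 :=
    (prod_pos fun e he => (hm e (sdiff_subset he)).pos' _).ne'
  have e2 : ∏ e ∈ m.ed, m.w e (dE e s) =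
      (∏ e ∈ E, m.w e (dE e s)) * ∏ e ∈ m.ed \ E, m.w e (dE e s) := by
    rw [← prod_union disjoint_sdiff, hU]
  simp only [Mdl.cB, Mdl.bw, Mdl.keep]
  rw [k, e2, mul_div_mul_right _ _ z]

theorem cB_congr {E : Finset (V × V)} (hw : ∀ e ∈ E, m.w e = P.w e) (h : ℤ) (F : PP V → ℝ) :
    (m.keep E).cB h F = (P.keep E).cB h F := by
  funext s
  simp only [Mdl.cB, Mdl.bw, Mdl.keep]
  congr 1
  · exact sum_congr rfl fun ω _ => by
      congr 1
      exact prod_congr rfl fun e he => by rw [hw e he]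
  · exact prod_congr rfl fun e he => by rw [hw e he]

theorem cB_dep (m : Mdl V) {E : Finset (V × V)} {B : Finset V} (hE : ∀ e ∈ E, e.1 ∈ B ∧ e.2 ∈ B)
    (h : ℤ) {F : PP V → ℝ} (hF : ∀ ω, Dep B fun s => F (s, ω)) : Dep B ((m.keep E).cB h F) := by
  intro s s' k
  simp only [Mdl.cB, Mdl.bw, Mdl.keep]
  congr 1
  · exact sum_congr rfl fun ω _ => by
      rw [show F (s, ω) = F (s', ω) from hF ω s s' k]
      congr 1
      exact prod_congr rfl fun e he => by simp only [dE, k _ (hE e he).1, k _ (hE e he).2]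
  · exact prod_congr rfl fun e he => by simp only [dE, k _ (hE e he).1, k _ (hE e he).2]

theorem cB_nonneg (hm : m.Fm) (h : ℤ) {F : PP V → ℝ} (hF : ∀ p, 0 ≤ F p) (s : Cfg V) :
    0 ≤ m.cB h F s :=
  div_nonneg (sum_nonneg fun _ _ => mul_nonneg
    (prod_nonneg fun _ he => Mdl.bw_nonneg hm h s he _) (hF _))
    (prod_nonneg fun e he => ((hm e he).pos' _).le)

/-- an observable read on the bonds of `E`: integrate out the bonds -/
theorem exJ_loc (hm : m.Fm) (hn : m.Nn) {η : Cfg V} (hW : Wt (m.W η)) {E : Finset (V × V)}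
    (hE : E ⊆ m.ed) (h : ℤ) {F : PP V → ℝ} (hF : ∀ s ω, F (s, ω) = F (s, ω ∩ E)) {C : ℝ}
    (hC : ∀ p, |F p| ≤ C) : Ex (m.J h η) F = Ex (m.W η) ((m.keep E).cB h F) := by
  rw [(Mdl.ex_J_cB hm hn hW ((Mdl.wt_J hm hn h hW).ig_bdd hC)).2]
  exact congrArg _ (funext (cB_keep hm hE h hF))

/-! ## MIXA -/

theorem res_zero (B : Finset V) (s : Cfg V) : resH B s = 0 ↔ ∀ x ∈ B, s x = 0 := by
  refine ⟨fun h x hx => ?_, fun h => Finsupp.ext fun x => ?_⟩
  · have := DFunLike.congr_fun h x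
    rwa [resH_apply, if_pos hx] at this
  · rw [resH_apply]
    split_ifs with hx
    exacts [h x hx, rfl]

theorem pr_zero_pos (hc : m.Ctr) (hA : m.Anch) (B : Finset V) :
    0 < Pr (m.W 0) fun s => ∀ x ∈ B, s x = 0 :=
  (hc.wt hA 0).ex_pos ((hc.wt hA 0).ig_ind _) (fun _ => ind_nonneg _) (hc.cen hA).pos0
    (one_pos.trans_eq (ind_pos fun _ _ => rfl).symm)

variable [Countable V]

/-- ND with no extra weight -/
theorem nd1 (hc : m.Ctr) (hA : m.Anch) (S : Finset V) {B : Finset V} {G : Cfg V → ℝ} (hG : PD G)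
    (h0 : ∀ s, 0 ≤ G s) (hB : Dep B G) :
    (1 - Pr (m.J 0 0) fun p => Cross S B p.2) * Ex ((m.free (m.A \ S)).W 0) G ≤ Ex (m.W 0) G := by
  have := ndStmt V m S B (fun _ => 1) G hc (hA.free sdiff_subset) (Dep.const _ _)
    (fun _ => zero_le_one) (by simpa using hc.wt hA 0) hG h0 hB
  simp only [one_mul] at this
  rwa [(Mx.wtJ hc hA).pr_not] at this

/-- a PD density on a centred model: comparison of the laws on `B` -/
theorem mixa_dens (hc : P.Ctr) (hA : P.Anch) {U B : Finset V} (hU : U ⊆ P.A) {G : Cfg V → ℝ}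
    (hG : PD G) (h0 : ∀ s, 0 ≤ G s) (hp : 0 < G 0)
    (hD : (Pr (fun s => P.W 0 s * G s) fun s => ∀ x ∈ B, s x = 0) ≤
      Pr ((P.free U).W 0) fun s => ∀ x ∈ B, s x = 0)
    {F : Cfg V → ℝ} (hF : Dep B F) (hF0 : ∀ s, 0 ≤ F s) (hI : Ig (P.W 0) F) :
    Ex (fun s => P.W 0 s * G s) F * (1 - Pr (P.J 0 0) fun p => Cross (P.A \ U) B p.2) ≤
      Ex (P.W 0) F := by
  have eF : (fun s => F (resH B s)) = F := funext fun s => hF _ _ fun x hx => by
    rw [resH_apply, if_pos hx]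
  have d := (densStmt (Cfg V) (Cfg V) (P.W 0) G (resH B) (hc.cen hA) hG h0 hp).2 F hF0
    (by rw [eF]; exact hI)
  simp only [eF, res_zero] at d
  have n := nd1 hc hA (P.A \ U) (B := B) (pd_on B) (fun _ => ind_nonneg _)
    fun s s' k => ind_congr (forall₂_congr fun x hx => by rw [k x hx])
  rw [Finset.sdiff_sdiff_eq_self hU] at n
  have z := pr_zero_pos (hc.free hU) (hA.free hU) B
  have e0 : 0 ≤ Ex (fun s => P.W 0 s * G s) F :=
    Ex_nonneg (fun s => mul_nonneg ((hc.cen hA).nonneg s) (h0 s)) fun s _ => hF0 s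
  have e1 : 0 ≤ Ex (P.W 0) F := Ex_nonneg (hc.cen hA).nonneg fun s _ => hF0 s
  refine le_of_mul_le_mul_right ?_ z
  calc _ = Ex (fun s => P.W 0 s * G s) F * ((1 - Pr (P.J 0 0) fun p => Cross (P.A \ U) B p.2) *
        Pr ((P.free U).W 0) fun s => ∀ x ∈ B, s x = 0) := by ring
    _ ≤ Ex (fun s => P.W 0 s * G s) F * Pr (P.W 0) fun s => ∀ x ∈ B, s x = 0 :=
        mul_le_mul_of_nonneg_left n e0
    _ ≤ _ := d.trans (by rw [mul_comm]; exact mul_le_mul_of_nonneg_left hD e1)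

/-- **MIXA, group form**: the ambient weight is `H * (P ∘ φ)` with `H` PD (seams, extra variables) -/
theorem mixa_grp {L : Type} [AddCommGroup L] (hc : P.Ctr) (hA : P.Anch) {U B : Finset V}
    (hU : U ⊆ P.A) (φ : L →+ Cfg V) {W H : L → ℝ} (hH : PD H) (h0 : ∀ l, 0 ≤ H l) (hp : 0 < H 0)
    (hne : ∀ l, P.W 0 (φ l) ≠ 0) (hW : ∀ l, W l = H l * P.W 0 (φ l)) (hs : Summable W)
    (hD : (Pr W fun l => ∀ x ∈ B, φ l x = 0) ≤ Pr ((P.free U).W 0) fun s => ∀ x ∈ B, s x = 0)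
    {F : Cfg V → ℝ} (hF : Dep B F) (hF0 : ∀ s, 0 ≤ F s) {C : ℝ} (hC : ∀ s, |F s| ≤ C) :
    Ex W (fun l => F (φ l)) * (1 - Pr (P.J 0 0) fun p => Cross (P.A \ U) B p.2) ≤ Ex (P.W 0) F := by
  obtain ⟨g1, g2, g3⟩ := Cut7.dens pdStmt φ hH h0 hp hne hW hs
  have W0 : ∀ l, 0 ≤ W l := fun l => by rw [hW]; exact mul_nonneg (h0 l) ((hc.cen hA).nonneg _)
  have b : ∀ {F : Cfg V → ℝ} {C : ℝ}, (∀ s, |F s| ≤ C) → Ig W fun l => F (φ l) := fun h =>
    Ig.of_abs_le W0 (Ig.const hs _) fun l _ => h _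
  rw [(Cut7.dens_ex φ hW hs (b hC)).2]
  refine mixa_dens hc hA hU g1 g2 g3 ?_ hF hF0 ((hc.wt hA 0).ig_bdd hC)
  exact (Cut7.dens_ex φ hW hs (F := fun s => ind (∀ x ∈ B, s x = 0))
    (b (F := fun s => ind (∀ x ∈ B, s x = 0)) fun _ => abs_ind_le _)).2.symm.trans_le hD

/-- the ambient model `m` contains the model `P` (up to PD site factors and pins) and agrees with it
on `U` -/
structure Agr (m P : Mdl V) (U : Finset V) : Prop where
  sub : P.ed ⊆ m.ed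
  w : ∀ e ∈ P.ed, m.w e = P.w e
  ends : ∀ e ∈ P.ed, (e.1 ∈ m.A → e.1 ∈ P.A) ∧ (e.2 ∈ m.A → e.2 ∈ P.A)
  site : ∀ x ∈ P.A, x ∈ m.A → ∃ u : ℤ → ℝ, PD u ∧ (∀ k, 0 ≤ u k) ∧ 0 < u 0 ∧
    ∀ k, m.site x k = P.site x k * u k
  pos : ∀ x ∈ P.A, ∀ k, 0 < P.site x k
  Um : U ⊆ m.A
  UP : U ⊆ P.A
  Ued : ∀ e ∈ m.ed, e.1 ∈ U ∨ e.2 ∈ U → e ∈ P.ed
  Usite : ∀ x ∈ U, ∀ k, m.site x k = P.site x k

omit [Countable V] in
theorem Agr.pp {U : Finset V} (h : Agr m P U) (hm : m.Fm) (hP : P.Fm) (η : Cfg V) :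
    Pp ((m.free U).W η) ((P.free U).W η) :=
  Mdl.pp_of_touch (m := m.free U) (m' := P.free U) hm hP rfl h.Usite
    (fun e he => ⟨fun k => h.Ued e k he, fun k => h.sub k⟩) (fun e k he => h.w e (h.Ued e k he)) η

omit [Countable V] in
theorem Agr.dens {U : Finset V} (h : Agr m P U) (hm : m.Ctr) (hP : P.Fm) :
    ∃ H : Cfg V → ℝ, PD H ∧ (∀ s, 0 ≤ H s) ∧ 0 < H 0 ∧ (∀ s, P.W 0 (resH P.A s) ≠ 0) ∧
      ∀ s, m.W 0 s = H s * P.W 0 (resH P.A s) := by
  classical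
  choose! u hu using h.site
  have c0 : 0 < ∏ x ∈ P.A \ m.A, P.site x 0 := prod_pos fun x hx => h.pos x (sdiff_subset hx) 0
  refine ⟨fun s => (∏ x ∈ P.A \ m.A, P.site x 0)⁻¹ * (ind (∀ x, x ∉ m.A → s x = 0) *
    (∏ e ∈ m.ed \ P.ed, m.w e (dE e s)) * (∏ x ∈ m.A \ P.A, m.site x (s x)) *
      ∏ x ∈ P.A ∩ m.A, u x (s x)), ?_, fun s => ?_, ?_, fun s => ?_, fun s => ?_⟩
  · exact ((((Md.pd_off _).mul (Md.pd_edges hm.1 sdiff_subset)).mul
      (Md.pd_sites fun x hx => (hm.2 x (sdiff_subset hx)).2.1)).mul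
      (Md.pd_sites fun x hx => (hu x (mem_inter.1 hx).1 (mem_inter.1 hx).2).1)).const_mul
      (inv_pos.2 c0).le
  · exact mul_nonneg (inv_pos.2 c0).le (mul_nonneg (mul_nonneg (mul_nonneg (ind_nonneg _)
      (prod_nonneg fun e he => (hm.1 e (sdiff_subset he)).nonneg _))
      (prod_nonneg fun x hx => hm.nn x (sdiff_subset hx) _))
      (prod_nonneg fun x hx => (hu x (mem_inter.1 hx).1 (mem_inter.1 hx).2).2.1 _))
  · refine mul_pos (inv_pos.2 c0) (mul_pos (mul_pos (mul_pos ?_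
      (prod_pos fun e he => (hm.1 e (sdiff_subset he)).pos' _))
      (prod_pos fun x hx => (hm.2 x (sdiff_subset hx)).2.2))
      (prod_pos fun x hx => (hu x (mem_inter.1 hx).1 (mem_inter.1 hx).2).2.2.1))
    exact one_pos.trans_eq (ind_pos fun _ _ => rfl).symm
  · exact (Md.W_pos hP (fun x hx => by rw [resH_apply, if_neg hx]; rfl)
      fun x hx => h.pos x hx _).ne'
  · by_cases hs : ∀ x, x ∉ m.A → s x = 0
    swap
    · simp only [Mdl.W, Finsupp.coe_zero, Pi.zero_apply, ind_neg hs, zero_mul, mul_zero]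
    have r : ∀ x, (x ∈ m.A → x ∈ P.A) → resH P.A s x = s x := fun x hx => by
      rw [resH_apply]
      split_ifs with k
      exacts [rfl, (hs x fun k' => k (hx k')).symm]
    beta_reduce
    rw [Mdl.W_of_eq _ hs, Mdl.W_of_eq _ fun x hx => by rw [resH_apply, if_neg hx]; rfl, ind_pos hs]
    have e1 : ∏ e ∈ m.ed, m.w e (dE e s) =
        (∏ e ∈ m.ed \ P.ed, m.w e (dE e s)) * ∏ e ∈ P.ed, P.w e (dE e (resH P.A s)) := by
      rw [← prod_sdiff h.sub]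
      congr 1
      exact prod_congr rfl fun e he => by
        rw [h.w e he, dE, dE, r _ (h.ends e he).1, r _ (h.ends e he).2]
    have e2 : ∏ x ∈ m.A, m.site x (s x) = (∏ x ∈ m.A \ P.A, m.site x (s x)) *
        ((∏ x ∈ P.A ∩ m.A, P.site x (s x)) * ∏ x ∈ P.A ∩ m.A, u x (s x)) := by
      rw [← prod_mul_distrib, ← prod_sdiff (inter_subset_right (s₁ := P.A) (s₂ := m.A)),
        sdiff_inter_self_right]
      congr 1
      exact prod_congr rfl fun x hx => (hu x (mem_inter.1 hx).1 (mem_inter.1 hx).2).2.2.2 _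
    have e3 : ∏ x ∈ P.A, P.site x (resH P.A s x) =
        (∏ x ∈ P.A \ m.A, P.site x 0) * ∏ x ∈ P.A ∩ m.A, P.site x (s x) := by
      rw [← prod_sdiff (inter_subset_left (s₁ := P.A) (s₂ := m.A)), sdiff_inter_self_left]
      congr 1
      · exact prod_congr rfl fun x hx => by
          rw [r x fun _ => (mem_sdiff.1 hx).1, hs x (mem_sdiff.1 hx).2]
      · exact prod_congr rfl fun x hx => by rw [r x fun _ => (mem_inter.1 hx).1]
    rw [e1, e2, e3]
    field_simp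

/-- **MIXA** for functions of the heights on `B` -/
theorem Agr.mixa {U B : Finset V} (h : Agr m P U) (hm : m.Ctr) (hmA : m.Anch) (hc : P.Ctr)
    (hA : P.Anch) (hB : B ⊆ P.A) {F : Cfg V → ℝ} (hF : Dep B F) (hF0 : ∀ s, 0 ≤ F s) {C : ℝ}
    (hC : ∀ s, |F s| ≤ C) :
    Ex (m.W 0) F * (1 - Pr (P.J 0 0) fun p => Cross (P.A \ U) B p.2) ≤ Ex (P.W 0) F := by
  obtain ⟨H, g1, g2, g3, g4, g5⟩ := h.dens hm hc.1
  have r : ∀ (s : Cfg V), ∀ x ∈ B, resH P.A s x = s x := fun s x hx => by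
    rw [resH_apply, if_pos (hB hx)]
  have := mixa_grp hc hA h.UP (resH P.A) g1 g2 g3 g4 g5 (hm.wt hmA 0).summ (B := B) ?_ hF hF0 hC
  · rwa [show (fun s => F (resH P.A s)) = F from funext fun s => hF _ _ (r s)] at this
  · rw [← (h.pp hm.1 hc.1 0).pr]
    refine le_trans (Pr_congr fun s _ => forall₂_congr fun x hx => by rw [r s x hx]).le ?_
    exact (loc_free hm hmA h.Um).ex_le (pd_on B)

/-- **MIXA** for functions of the heights on `B` and of the bonds of `E` -/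
theorem Agr.mixaJ {U B : Finset V} (h : Agr m P U) (hm : m.Ctr) (hmA : m.Anch) (hc : P.Ctr)
    (hA : P.Anch) (hB : B ⊆ P.A) {E : Finset (V × V)} (hE : E ⊆ P.ed)
    (hEB : ∀ e ∈ E, e.1 ∈ B ∧ e.2 ∈ B) {F : PP V → ℝ} (hF : ∀ ω, Dep B fun s => F (s, ω))
    (hFE : ∀ s ω, F (s, ω) = F (s, ω ∩ E)) (hF0 : ∀ p, 0 ≤ F p) {C : ℝ} (hC : ∀ p, |F p| ≤ C) :
    Ex (m.J 0 0) F * (1 - Pr (P.J 0 0) fun p => Cross (P.A \ U) B p.2) ≤ Ex (P.J 0 0) F := by
  rw [exJ_loc hm.1 hm.nn (hm.wt hmA 0) (hE.trans h.sub) 0 hFE hC,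
    exJ_loc hc.1 hc.nn (hc.wt hA 0) hE 0 hFE hC, cB_congr (P := P) fun e he => h.w e (hE he)]
  exact h.mixa hm hmA hc hA hB (cB_dep P hEB 0 hF) (cB_nonneg (hc.1.keep hE) 0 hF0)
    (Mdl.abs_cB_le (hc.1.keep hE) 0 hC)

/-! ## local crossings, RING -/

/-- `I` is joined to the complement of `B` -/
def Lx {V : Type} (I B : Finset V) (ω : Finset (V × V)) : Prop := ∃ x ∈ I, ∃ y, y ∉ B ∧ Conn ω x y

omit [Countable V] in
/-- first exit -/
theorem conn_exit {ω : Finset (V × V)} {B : Finset V} {x y : V} (h : Conn ω x y) (hy : y ∉ B) :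
    ∃ z, z ∉ B ∧ Conn (ω.filter fun e => e.1 ∈ B ∨ e.2 ∈ B) x z := by
  induction h using Relation.ReflTransGen.head_induction_on with
  | refl => exact ⟨y, hy, Md.conn_refl _ _⟩
  | @head a c hac _ ih =>
    by_cases ha : a ∈ B
    · obtain ⟨z, hz, k⟩ := ih
      exact ⟨z, hz, Relation.ReflTransGen.head (hac.imp (fun k => mem_filter.2 ⟨k, Or.inl ha⟩)
        fun k => mem_filter.2 ⟨k, Or.inr ha⟩) k⟩
    · exact ⟨a, ha, Md.conn_refl _ _⟩

omit [Countable V] [DecidableEq V] in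
theorem Lx.mono {I I' B B' : Finset V} {ω ω' : Finset (V × V)} (h : Lx I B ω) (hI : I ⊆ I')
    (hB : B' ⊆ B) (hω : ω ⊆ ω') : Lx I' B' ω' :=
  let ⟨x, hx, y, hy, k⟩ := h
  ⟨x, hI hx, y, fun k => hy (hB k), Md.conn_mono hω k⟩

omit [Countable V] in
theorem Lx.inter {I B : Finset V} {ω E : Finset (V × V)} (h : Lx I B ω)
    (hE : ∀ e ∈ ω, e.1 ∈ B ∨ e.2 ∈ B → e ∈ E) : Lx I B (ω ∩ E) :=
  let ⟨x, hx, _, hy, k⟩ := h
  let ⟨z, hz, k'⟩ := conn_exit k hy
  ⟨x, hx, z, hz, Md.conn_mono (fun e he => mem_inter.2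
    ⟨(mem_filter.1 he).1, hE e (mem_filter.1 he).1 (mem_filter.1 he).2⟩) k'⟩

omit [Countable V] in
theorem Lx.cross {I B A : Finset V} {ω : Finset (V × V)} (h : Lx I B ω) (hI : I ⊆ B)
    (hA : ∀ e ∈ ω, e.1 ∈ A ∧ e.2 ∈ A) : Cross (A \ B) I ω := by
  obtain ⟨x, hx, y, hy, k⟩ := h
  refine ⟨y, mem_sdiff.2 ⟨?_, hy⟩, x, hx, Md.conn_symm k⟩
  rcases Relation.ReflTransGen.cases_tail k with rfl | ⟨c, _, k | k⟩
  exacts [(hy (hI hx)).elim, (hA _ k).2, (hA _ k).1]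

omit [Countable V] [DecidableEq V] in
theorem lx_of_cross {S I B : Finset V} {ω : Finset (V × V)} (h : Cross S I ω) (hS : Disjoint S B) :
    Lx I B ω :=
  let ⟨x, hx, y, hy, k⟩ := h
  ⟨y, hy, x, disjoint_left.1 hS hx, Md.conn_symm k⟩

omit [Countable V] [DecidableEq V] in
theorem cross_mono {S I S' I' : Finset V} {ω ω' : Finset (V × V)} (h : Cross S I ω) (hS : S ⊆ S')
    (hI : I ⊆ I') (hω : ω ⊆ ω') : Cross S' I' ω' :=
  let ⟨x, hx, y, hy, k⟩ := h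
  ⟨x, hS hx, y, hI hy, Md.conn_mono hω k⟩

omit [Countable V] [DecidableEq V] in
theorem cross_comm {S I : Finset V} {ω : Finset (V × V)} (h : Cross S I ω) : Cross I S ω :=
  let ⟨x, hx, y, hy, k⟩ := h
  ⟨y, hy, x, hx, Md.conn_symm k⟩

/-- **MIXA** for a local crossing `I ↔ B₁ᶜ`; `I ⊆ B₁`, the edges meeting `B₁` lie in `B`, `B` is far
from the complement of `U` -/
theorem Agr.mixa_lx {U B B₁ I : Finset V} (h : Agr m P U) (hm : m.Ctr) (hmA : m.Anch) (hc : P.Ctr)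
    (hA : P.Anch) (hB : B ⊆ P.A) (hI : I ⊆ B₁)
    (hE : ∀ e ∈ m.ed, e.1 ∈ B₁ ∨ e.2 ∈ B₁ → e ∈ P.ed ∧ e.1 ∈ B ∧ e.2 ∈ B) :
    Pr (m.J 0 0) (fun p => Lx I B₁ p.2) * (1 - Pr (P.J 0 0) fun p => Cross (P.A \ U) B p.2) ≤
      Pr (P.J 0 0) fun p => Cross (P.A \ B₁) I p.2 := by
  have k : ∀ e ∈ m.edM B₁, e ∈ P.ed ∧ e.1 ∈ B ∧ e.2 ∈ B := fun e he =>
    hE e (Mdl.mem_edM.1 he).1 (Mdl.mem_edM.1 he).2
  have := h.mixaJ hm hmA hc hA hB (E := m.edM B₁) (fun e he => (k e he).1) (fun e he => (k e he).2)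
    (F := fun p => ind (Lx I B₁ (p.2 ∩ m.edM B₁))) (fun _ _ _ _ => rfl)
    (fun s ω => by simp only [inter_assoc, inter_self]) (fun _ => ind_nonneg _) fun _ => abs_ind_le _
  have e : Pr (m.J 0 0) (fun p => Lx I B₁ p.2) =
      Pr (m.J 0 0) fun p => Lx I B₁ (p.2 ∩ m.edM B₁) := Pr_congr fun p hp =>
    ⟨fun k => k.inter fun e he k' => Mdl.mem_edM.2 ⟨Md.J_sub hp he, k'⟩,
      fun k => k.mono subset_rfl subset_rfl inter_subset_left⟩
  rw [e]
  refine le_trans this ((Mx.wtJ hc hA).pr_mono fun p _ k' => cross_mono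
    (k'.cross hI fun e he => ?_) subset_rfl subset_rfl inter_subset_left)
  exact ⟨hB (k e (mem_inter.1 he).2).2.1, hB (k e (mem_inter.1 he).2).2.2⟩

/-- the form `q / (1 - q)` -/
theorem Agr.lx_le {U B B₁ I : Finset V} (h : Agr m P U) (hm : m.Ctr) (hmA : m.Anch) (hc : P.Ctr)
    (hA : P.Anch) (hB : B ⊆ P.A) (hI : I ⊆ B₁)
    (hE : ∀ e ∈ m.ed, e.1 ∈ B₁ ∨ e.2 ∈ B₁ → e ∈ P.ed ∧ e.1 ∈ B ∧ e.2 ∈ B) {q : ℝ} (hq : q ≤ 1 / 2)
    (h1 : (Pr (P.J 0 0) fun p => Cross (P.A \ U) B p.2) ≤ q)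
    (h2 : (Pr (P.J 0 0) fun p => Cross (P.A \ B₁) I p.2) ≤ q) :
    Pr (m.J 0 0) (fun p => Lx I B₁ p.2) ≤ 2 * q := by
  have a := h.mixa_lx hm hmA hc hA hB hI hE
  have b := Pr_nonneg (Mx.J0 hm) fun p : PP V => Lx I B₁ p.2
  nlinarith

omit [Countable V] [DecidableEq V] in
/-- a path along which `d` moves by at most `ρ` per step meets every level -/
theorem conn_mid {ω : Finset (V × V)} {d : V → ℝ} {ρ t : ℝ} (hd : ∀ e ∈ ω, |d e.1 - d e.2| ≤ ρ)
    {x y : V} (h : Conn ω x y) (hx : d x < t) (hy : t ≤ d y) :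
    ∃ z, Conn ω x z ∧ Conn ω z y ∧ t ≤ d z ∧ d z < t + ρ ∧ ∃ e ∈ ω, z = e.1 ∨ z = e.2 := by
  induction h using Relation.ReflTransGen.head_induction_on with
  | refl => exact absurd hy (not_le.2 hx)
  | @head a c hac hc ih =>
    by_cases k : d c < t
    · obtain ⟨z, h1, h2⟩ := ih k
      exact ⟨z, Relation.ReflTransGen.head hac h1, h2⟩
    · refine ⟨c, Relation.ReflTransGen.single hac, hc, not_lt.1 k, ?_⟩
      rcases hac with k' | k'
      · exact ⟨by linarith [(abs_le.1 (hd _ k')).1], _, k', Or.inr rfl⟩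
      · exact ⟨by linarith [(abs_le.1 (hd _ k')).2], _, k', Or.inl rfl⟩

omit [Countable V] in
/-- **RING**: a crossing of the level `t` passes through one of the sets `I i` -/
theorem ring {η : Cfg V} {h : ℤ} (hW : Wt (m.J h η)) {S S' : Finset V} {d : V → ℝ} {ρ t : ℝ}
    (hd : ∀ e ∈ m.ed, |d e.1 - d e.2| ≤ ρ) (hS : ∀ x ∈ S, d x < t) (hS' : ∀ x ∈ S', t ≤ d x)
    {ι : Type*} (T : Finset ι) {I B : ι → Finset V}
    (hT : ∀ e ∈ m.ed, ∀ z, z = e.1 ∨ z = e.2 → t ≤ d z → d z < t + ρ →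
      ∃ i ∈ T, z ∈ I i ∧ (Disjoint S (B i) ∨ Disjoint S' (B i))) :
    Pr (m.J h η) (fun p => Cross S S' p.2) ≤ ∑ i ∈ T, Pr (m.J h η) fun p => Lx (I i) (B i) p.2 := by
  refine le_trans (hW.pr_mono fun p hp k => ?_) (hW.pr_exists_le T fun i p => Lx (I i) (B i) p.2)
  obtain ⟨x, hx, y, hy, k⟩ := k
  obtain ⟨z, h1, h2, h3, h4, e, he, hz⟩ :=
    conn_mid (fun e he => hd e (Md.J_sub hp he)) k (hS x hx) (hS' y hy)
  obtain ⟨i, hi, hz, k | k⟩ := hT e (Md.J_sub hp he) z hz h3 h4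
  exacts [⟨i, hi, z, hz, x, disjoint_left.1 k hx, Md.conn_symm h1⟩,
    ⟨i, hi, z, hz, y, disjoint_left.1 k hy, h2⟩]

/-! ## DL core -/

/-- **DL core**: the variance against the variance in the model pinned on `S` -/
theorem vr_le_free (hc : m.Ctr) (hA : m.Anch) (S : Finset V) {T : Finset V} {f : V → ℝ}
    (hf : ∀ x, x ∉ T → f x = 0) :
    Vr (m.W 0) (pr f) (pr f) ≤ Vr ((m.free (m.A \ S)).W 0) (pr f) (pr f) +
      Real.sqrt (Ex (m.W 0) fun s => pr f s ^ 4) *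
        Real.sqrt (Pr (m.J 0 0) fun p => Cross S T p.2) := by
  have t2 : Tame fun s : Cfg V => pr f s ^ 2 := (Tame.hom _).pow 2
  have t4 : Tame fun s : Cfg V => pr f s ^ 4 := (Tame.hom _).pow 4
  have hJ := Mx.wtJ hc hA
  have i2 : Ig (m.J 0 0) fun p => pr f p.1 ^ 2 := (Mx.TB.fst t2).ig hc hA
  have i4 : Ig (m.J 0 0) fun p => (pr f p.1 ^ 2) ^ 2 :=
    ((Mx.TB.fst t4).ig hc hA).congr fun p _ => by ring
  have e0 : Vr (m.W 0) (pr f) (pr f) = Ex (m.J 0 0) fun p => pr f p.1 ^ 2 := by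
    rw [Mx.exJ hc hA t2, (hc.cen hA).Vr_eq]; simp only [pow_two]
  have e4 : Ex (m.J 0 0) (fun p => (pr f p.1 ^ 2) ^ 2) = Ex (m.W 0) fun s => pr f s ^ 4 := by
    rw [← Mx.exJ hc hA t4]; exact Ex_congr fun p _ => by ring
  rw [e0, Ex_split hJ.nonneg i2 fun p => Cross S T p.2, add_comm, ← e4]
  refine add_le_add ?_ ((le_abs_self _).trans (hJ.abs_ex_ind_le i4 _))
  have x : ∀ ω, Cross S T ω ↔ ∃ y ∈ T, y ∈ cl S ω := fun ω =>
    ⟨fun ⟨x, hx, y, hy, k⟩ => ⟨y, hy, Md.mem_cl.2 ⟨x, hx, k⟩⟩, fun ⟨y, hy, k⟩ =>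
      let ⟨x, hx, k⟩ := Md.mem_cl.1 k
      ⟨x, hx, y, hy, k⟩⟩
  obtain ⟨i, e⟩ := Md.expl_mul m 0 0 S (F := fun p => pr f p.1 ^ 2)
    (H := fun p => ind (¬ Cross S T p.2)) hJ
    (fun p q k => by simp only [x, Mx.dat_cl k]) (i2.ind_mul hJ.nonneg _)
  have v0 := ((hc.free (sdiff_subset (t := S))).wt (hA.free sdiff_subset) 0).Vr_nonneg
    ((hc.free (sdiff_subset (t := S))).se (hA.free sdiff_subset) 0) (pr f)
  refine ((Ex_congr fun p _ => mul_comm _ _).trans e).trans_le (hJ.ex_le i fun p hp => ?_)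
  by_cases k : Cross S T p.2
  · rwa [ind_neg (not_not.2 k), zero_mul]
  have hAC : (m.free (m.A \ cl S p.2)).Anch := hA.free sdiff_subset
  have z : pr f (p.1.filter (· ∈ cl S p.2)) = 0 := by
    rw [pr_of_fsupp f _ hf]
    exact sum_eq_zero fun y hy => by
      rw [Finsupp.filter_apply, if_neg fun k' => k ((x _).2 ⟨y, hy, k'⟩), Int.cast_zero, mul_zero]
  rw [ind_pos k, one_mul, Mx.ex_rest hc hA S hp t2]
  simp only [map_add, z, add_zero, pow_two]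
  rw [← Vr_even (Mix53.rest_even hc _ p.1)]
  refine (Mix53.rest_vr_le hc hAC p.1 _).trans ?_
  have s : m.A \ cl S p.2 ⊆ m.A \ S := sdiff_subset_sdiff subset_rfl (Md.subset_cl S p.2)
  exact (loc_free (hc.free sdiff_subset) (hA.free sdiff_subset) s).Vr_le
    ((hc.free sdiff_subset).cen hAC) ((hc.free sdiff_subset).cen (hA.free sdiff_subset)) _

/-- signed PD functions: the pinned model against the model -/
theorem pd_free_le (hc : m.Ctr) (hA : m.Anch) (S : Finset V) {B : Finset V} {G : Cfg V → ℝ}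
    (hG : PD G) (hB : Dep B G) :
    Ex ((m.free (m.A \ S)).W 0) G ≤
      Ex (m.W 0) G + 2 * G 0 * Pr (m.J 0 0) fun p => Cross S B p.2 := by
  have n := nd1 hc hA S (hG.add (pd_const hG.nonneg0))
    (fun s => by linarith [(abs_le.1 (hG.abs_le s)).1]) (hB.add (Dep.const _ _))
  have w := (hc.free (sdiff_subset (t := S))).wt (hA.free sdiff_subset) 0
  rw [w.ex_add_const (w.ig_bdd hG.abs_le), (hc.wt hA 0).ex_add_const
    ((hc.wt hA 0).ig_bdd hG.abs_le)] at n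
  have a := w.ex_le (w.ig_bdd hG.abs_le) fun s _ => hG.le s
  have b := Pr_nonneg (Mx.J0 hc) fun p : PP V => Cross S B p.2
  nlinarith

theorem ph_free_le (hc : m.Ctr) (hA : m.Anch) (S : Finset V) {T : Finset V} {f : V → ℝ}
    (hf : ∀ x, x ∉ T → f x = 0) :
    Ph ((m.free (m.A \ S)).W 0) (pr f) ≤
      Ph (m.W 0) (pr f) + 2 * Pr (m.J 0 0) fun p => Cross S T p.2 := by
  simpa [Ph] using pd_free_le hc hA S (pd_cos (pr f)) ((Dep.pr hf).comp Real.cos)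

/-! ## arbitrary data: inequality (1), ND with a boundary condition, the cut bound (F) -/

omit [Countable V] in
/-- (1): a PD function has its largest mean for the flat boundary condition -/
theorem ex_bc_le (hc : m.Ctr) (hA : m.Anch) {G : Cfg V → ℝ} (hG : PD G) (η : Cfg V) :
    |Ex (m.W η) G| ≤ Ex (m.W 0) G := by
  have := (Md.ctr_rsd_W hc).abs_ex_le (hG.comp (AddMonoidHom.fst _ _)) (q := η) (f := 0)
    (hc.wt hA 0) (by rw [tilt_zero]; exact hc.wt hA η)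
  rwa [tilt_zero] at this

/-- ND with a boundary condition supported in `S` -/
theorem nd_bc (hc : m.Ctr) (hA : m.Anch) {η : Cfg V} {S B : Finset V}
    (hη : ∀ x, x ∉ m.A → x ∉ S → η x = 0) {G : Cfg V → ℝ} (hG : PD G) (h0 : ∀ s, 0 ≤ G s)
    (hB : Dep B G) :
    (1 - Pr (m.J 0 η) fun p => Cross S B p.2) * Ex ((m.free (m.A \ S)).W 0) G ≤ Ex (m.W η) G := by
  have hJ := Mdl.wt_J hc.1 hc.nn 0 (hc.wt hA η)
  have hI : Ig (m.J 0 η) fun p => G p.1 := hJ.ig_bdd fun _ => hG.abs_le _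
  obtain ⟨hI', hE'⟩ := Md.expl m 0 η S hJ hI
  rw [← Mdl.ex_J_fst hJ, hE', ← hJ.pr_not, Pr, ← Ex_mul_const]
  refine Ex_mono' hJ.nonneg ((hJ.ig_ind _).mul_const _) hI' fun p hp => ?_
  have hF := D52.rest_fm hc.1 0 (cl S p.2) p.1
  have hN := D52.rest_nn hc.1 hc.nn 0 (cl S p.2) p.1
  by_cases hx : Cross S B p.2
  · rw [ind_neg (not_not.2 hx), zero_mul]
    exact Ex_nonneg (D52.J_nonneg hF hN 0 _) fun _ _ => h0 _
  rw [ind_pos hx, one_mul]
  set C := cl S p.2 with hC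
  have hAC : (m.free (m.A \ C)).Anch := hA.free sdiff_subset
  set u : Cfg V := p.1.filter (· ∈ C) with hu
  have hu1 : ∀ x ∈ (m.rest 0 C p.1).A, u x = 0 := fun x hx => by
    rw [hu, Finsupp.filter_apply, if_neg (mem_sdiff.1 hx).2]
  have hu2 : ∀ e ∈ (m.rest 0 C p.1).ed, u e.1 = 0 ∧ u e.2 = 0 := fun e he => by
    simp only [hu, Finsupp.filter_apply, if_neg (mem_filter.1 he).2.1,
      if_neg (mem_filter.1 he).2.2, and_self]
  have e1 : (m.rest 0 C p.1).W p.1 = (m.rest 0 C p.1).W (0 + u) := Mdl.W_congr _ fun x hx => by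
    rw [zero_add, hu, Finsupp.filter_apply]
    split_ifs with h
    · rfl
    · have k : x ∉ m.A := fun h' => hx (mem_sdiff.2 ⟨h', h⟩)
      exact (Md.J_off hp x k).trans (hη x k fun h' => h (Md.subset_cl S p.2 h'))
  have hR0 := Mix53.rest_wt0 hc hAC p.1
  have hR : Wt ((m.rest 0 C p.1).W p.1) := by
    rw [e1, ← Md.wt_equiv (Equiv.addRight u)]
    simpa only [Equiv.coe_addRight, Md.W_far _ 0 u _ hu1 hu2] using hR0
  rw [Mdl.ex_J_fst (Mdl.wt_J hF hN 0 hR), e1, Md.ex_far _ 0 u hu1 hu2]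
  have e2 : (fun s => G (s + u)) = G := funext fun s => hB _ _ fun x hxB => by
    rw [Finsupp.add_apply, hu, Finsupp.filter_apply, if_neg, add_zero]
    intro h
    obtain ⟨y, hy, h⟩ := Md.mem_cl.1 h
    exact hx ⟨y, hy, x, hxB, h⟩
  rw [e2]
  refine le_trans ?_ ((Mix53.rest_loc hc hAC p.1).ex_le hG)
  exact (loc_free (hc.free sdiff_subset) (hA.free sdiff_subset)
    (sdiff_subset_sdiff subset_rfl (Md.subset_cl S p.2))).ex_le hG

/-- **(F), PD form**: a PD factor read on `M` changes the law off `R` by at most `1 / P(NC)` -/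
theorem pd_out (hc : m.Ctr) (hA : m.Anch) {R M : Finset V} (hR : R ⊆ m.A) {G F : Cfg V → ℝ}
    (hG : PD G) (h0 : ∀ s, 0 ≤ G s) (hM : Dep M G) (hF : Out R F) (hF0 : ∀ s, 0 ≤ F s)
    (hI : Ig (m.W 0) F) :
    Ex (m.W 0) (fun s => G s * F s) * (1 - Pr (m.J 0 0) fun p => Cross (m.A \ R) M p.2) ≤
      Ex (m.W 0) G * Ex (m.W 0) F := by
  have w := hc.wt hA 0
  have n := nd1 hc hA (m.A \ R) hG h0 hM
  rw [Finset.sdiff_sdiff_eq_self hR] at n
  obtain ⟨i, e⟩ := Mdl.tower_cE_mul hR hF w (hI.mul_bdd w.nonneg hG.abs_le)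
  have a : Ex (m.W 0) (fun s => G s * F s) ≤ Ex (m.W 0) F * Ex ((m.free R).W 0) G := by
    rw [Ex_congr (G := fun s => F s * G s) fun s _ => mul_comm _ _, e, ← Ex_mul_const]
    exact Ex_mono w.nonneg i (hI.mul_const _) fun s => mul_le_mul_of_nonneg_left
      ((le_abs_self _).trans (ex_bc_le (hc.free hR) (hA.free hR) hG s)) (hF0 s)
  have b := (Mx.wtJ hc hA).pr_le_one fun p : PP V => Cross (m.A \ R) M p.2
  have c : 0 ≤ Ex (m.W 0) F := Ex_nonneg w.nonneg fun s _ => hF0 s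
  calc _ ≤ Ex (m.W 0) F * Ex ((m.free R).W 0) G *
        (1 - Pr (m.J 0 0) fun p => Cross (m.A \ R) M p.2) :=
        mul_le_mul_of_nonneg_right a (sub_nonneg.2 b)
    _ ≤ _ := by rw [mul_assoc, mul_comm _ (Ex (m.W 0) F)]
                exact mul_le_mul_of_nonneg_left (by rwa [mul_comm]) c

/-- **(F)**: cutting the edges off `E` (ends in `M`); laws off the ring `R` -/
theorem cut_out (hc : m.Ctr) {E : Finset (V × V)} (hE : E ⊆ m.ed) (hA : (m.keep E).Anch)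
    {R M : Finset V} (hR : R ⊆ m.A) (hM : ∀ e ∈ m.ed, e ∉ E → e.1 ∈ M ∧ e.2 ∈ M) {F : Cfg V → ℝ}
    (hF : Out R F) (hF0 : ∀ s, 0 ≤ F s) (hI : Ig ((m.keep E).W 0) F) :
    Ex (m.W 0) F * (1 - Pr ((m.keep E).J 0 0) fun p => Cross (m.A \ R) M p.2) ≤
      Ex ((m.keep E).W 0) F := by
  have w := (hc.keep hE).wt hA 0
  have g := Md.pd_edges hc.1 (sdiff_subset (s := m.ed) (t := E))
  have g0 : ∀ s : Cfg V, 0 < ∏ e ∈ m.ed \ E, m.w e (dE e s) := fun s =>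
    prod_pos fun e he => (hc.1 e (sdiff_subset he)).pos' _
  have := pd_out (hc.keep hE) hA (M := M) hR g (fun s => (g0 s).le)
    (Dep.prod fun e he => (Dep.dE (hM e (mem_sdiff.1 he).1 (mem_sdiff.1 he).2).1
      (hM e (mem_sdiff.1 he).1 (mem_sdiff.1 he).2).2).comp _) hF hF0 hI
  have z := w.ex_pos' (w.ig_bdd g.abs_le) g0
  rw [show m.W 0 = _ from funext (Md.W_keep hE 0), w.ex_mul, div_mul_eq_mul_div, div_le_iff₀' z]
  exact this

end Mx31

end Crest.Agent.T145
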