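import Crest.Agent.T145.GffDef_8

/-!
# Row 145, module (b): the discrete `C²` calculus `Sm2` (helper58)
-/

set_option autoImplicit false

namespace Crest.Agent.T145

open Finset

namespace S58

theorem mem_bl {x y : Pt} {r : ℕ} :
    y ∈ bl x r ↔ (x.1 - r ≤ y.1 ∧ y.1 ≤ x.1 + r) ∧ x.2 - r ≤ y.2 ∧ y.2 ≤ x.2 + r := by
  simp [bl]

theorem co_add (i : Fin 2) (x y : Pt) : co i (x + y) = co i x + co i y := by
  fin_cases i <;> simp [co]

theorem co_sub (i : Fin 2) (x y : Pt) : co i (x - y) = co i x - co i y := by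
  fin_cases i <;> simp [co]

theorem co_neg (i : Fin 2) (x : Pt) : co i (-x) = -co i x := by
  fin_cases i <;> simp [co]

theorem co_zero (i : Fin 2) : co i 0 = 0 := by
  fin_cases i <;> simp [co]

theorem co_zsmul (i : Fin 2) (n : ℤ) (x : Pt) : co i (n • x) = n * co i x := by
  fin_cases i <;> simp [co]

theorem co_fst (x : Pt) : co 0 x = x.1 := rfl
theorem co_snd (x : Pt) : co 1 x = x.2 := rfl

theorem co_ev (i j : Fin 2) : co i (ev j) = if i = j then 1 else 0 := by
  fin_cases i <;> fin_cases j <;> simp [co, ev]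

theorem lin_ev (k : Fin 2 → ℝ) (x : Pt) (j : Fin 2) :
    ∑ i, k i * co i (x + ev j) = ∑ i, k i * co i x + k j := by
  simp only [co_add, mul_add, sum_add_distrib, co_ev]
  simp

theorem df_comm (i j : Fin 2) (u : Pt → ℝ) : df j (df i u) = df i (df j u) := by
  funext x
  simp only [df]
  rw [add_right_comm x (ev j) (ev i)]
  ring

theorem df_df (i j : Fin 2) (u : Pt → ℝ) (x : Pt) :
    df j (df i u) x = u (x + ev j + ev i) - u (x + ev j) - u (x + ev i) + u x := by
  simp only [df]; ring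

theorem mem_bl_self (x : Pt) (r : ℕ) : x ∈ bl x r := by
  rw [mem_bl]; omega

theorem mem_bl_ev (x : Pt) (i : Fin 2) : x ∈ bl (x + ev i) 2 := by
  fin_cases i <;> simp [mem_bl, ev] <;> omega

theorem mem_bl_ev2 (x : Pt) (i j : Fin 2) : x ∈ bl (x + ev i + ev j) 2 := by
  fin_cases i <;> fin_cases j <;> simp [mem_bl, ev] <;> omega

/-- mean value inequality -/
theorem mvt {g : ℝ → ℝ} {K : ℝ} (hg : Differentiable ℝ g) (h : ∀ t, |deriv g t| ≤ K)
    (s t : ℝ) : |g s - g t| ≤ K * |s - t| := by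
  have := Convex.norm_image_sub_le_of_norm_deriv_le (𝕜 := ℝ) (f := g) (s := Set.univ) (C := K)
    (x := t) (y := s) (fun x _ => hg x) (fun x _ => by simpa using h x) convex_univ trivial trivial
  simpa using this

/-- second difference -/
theorem abs_dd_le {g : ℝ → ℝ} {K : ℝ} (hg : Differentiable ℝ g)
    (h : ∀ t t', |deriv g t - deriv g t'| ≤ K * |t - t'|) (t a b : ℝ) :
    |g (t + b + a) - g (t + b) - g (t + a) + g t| ≤ K * |a| * |b| := by
  have hd : Differentiable ℝ (fun s => g (s + a) - g s) :=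
    (hg.comp (differentiable_id.add_const a)).sub hg
  have h1 : ∀ s, deriv (fun s => g (s + a) - g s) s = deriv g (s + a) - deriv g s := by
    intro s
    have e1 : HasDerivAt (fun s => g (s + a)) (deriv g (s + a)) s := by
      simpa using (hg (s + a)).hasDerivAt.comp_add_const s a
    exact (e1.sub (hg s).hasDerivAt).deriv
  have := mvt (K := K * |a|) hd (fun s => by rw [h1]; simpa using h (s + a) s) (t + b) t
  have e : g (t + b + a) - g (t + b) - g (t + a) + g t =
      g (t + b + a) - g (t + b) - (g (t + a) - g t) := by ring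
  rw [e]
  simpa using this

/-- Lipschitz bound along lattice paths -/
theorem lip {w : Pt → ℝ} {c : ℝ} (h : ∀ i x, |df i w x| ≤ c) (x y : Pt) :
    |w y - w x| ≤ c * ∑ i, |co i (y - x)| := by
  have hc : 0 ≤ c := (abs_nonneg _).trans (h 0 0)
  have line : ∀ (i : Fin 2) (x : Pt) (n : ℤ), |w (x + n • ev i) - w x| ≤ c * |(n : ℝ)| := by
    intro i x n
    induction n using Int.induction_on with
    | zero => simp
    | succ n ih =>
      have e : x + ((n : ℤ) + 1) • ev i = x + (n : ℤ) • ev i + ev i := by rw [add_smul, one_smul, add_assoc]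
      have h1 := h i (x + (n : ℤ) • ev i)
      simp only [df] at h1
      rw [e]
      have h2 : |(((n : ℤ) + 1 : ℤ) : ℝ)| = |((n : ℤ) : ℝ)| + 1 := by
        push_cast
        rw [abs_of_nonneg (by positivity), abs_of_nonneg (by positivity)]
      rw [h2]
      have := abs_sub_le (w (x + (n : ℤ) • ev i + ev i)) (w (x + (n : ℤ) • ev i)) (w x)
      linarith
    | pred n ih =>
      have e : x + (-(n : ℤ)) • ev i = x + (-(n : ℤ) - 1) • ev i + ev i := by
        rw [sub_smul, one_smul, add_assoc, sub_add_cancel]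
      have h1 := h i (x + (-(n : ℤ) - 1) • ev i)
      simp only [df] at h1
      rw [← e, abs_sub_comm] at h1
      have h2 : |((-(n : ℤ) - 1 : ℤ) : ℝ)| = |((-(n : ℤ) : ℤ) : ℝ)| + 1 := by
        push_cast
        rw [abs_of_nonpos (by have : (0 : ℝ) ≤ n := Nat.cast_nonneg n; linarith),
          abs_of_nonpos (by have : (0 : ℝ) ≤ n := Nat.cast_nonneg n; linarith)]
        ring
      rw [h2]
      have := abs_sub_le (w (x + (-(n : ℤ) - 1) • ev i)) (w (x + (-(n : ℤ)) • ev i)) (w x)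
      linarith
  have e : y = x + (y.1 - x.1) • ev 0 + (y.2 - x.2) • ev 1 := by
    ext <;> simp [ev]
  have h1 := line 0 x (y.1 - x.1)
  have h2 := line 1 (x + (y.1 - x.1) • ev 0) (y.2 - x.2)
  rw [← e] at h2
  have := abs_sub_le (w y) (w (x + (y.1 - x.1) • ev 0)) (w x)
  simp only [Fin.sum_univ_two, co_fst, co_snd, Prod.fst_sub, Prod.snd_sub]
  linarith

/-- the `ℓ¹` norm -/
theorem l1_eq (y : Pt) : ∑ i, |co i y| = |(y.1 : ℝ)| + |(y.2 : ℝ)| := by
  simp [Fin.sum_univ_two, co]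

/-- Taylor along a lattice line, error measured from a base point at `ℓ¹` distance `d` -/
theorem line2 {w : Pt → ℝ} {c d : ℝ} (hc : 0 ≤ c) (i : Fin 2) (x : Pt)
    (h : ∀ n : ℤ, |df i w (x + n • ev i)| ≤ c * (d + |(n : ℝ)|)) (n : ℤ) :
    |w (x + n • ev i) - w x| ≤ c * (d * |(n : ℝ)| + (n : ℝ) ^ 2) := by
  induction n using Int.induction_on with
  | zero => simp
  | succ n ih =>
    have e : x + ((n : ℤ) + 1) • ev i = x + (n : ℤ) • ev i + ev i := by
      rw [add_smul, one_smul, add_assoc]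
    have h1 := h n
    simp only [df] at h1
    rw [e]
    have hn : (0 : ℝ) ≤ n := Nat.cast_nonneg n
    push_cast at h1 ih ⊢
    rw [abs_of_nonneg hn] at h1 ih
    rw [abs_of_nonneg (by positivity : (0 : ℝ) ≤ n + 1)]
    have := abs_sub_le (w (x + (n : ℤ) • ev i + ev i)) (w (x + (n : ℤ) • ev i)) (w x)
    nlinarith [mul_nonneg hc hn]
  | pred n ih =>
    have e : x + (-(n : ℤ)) • ev i = x + (-(n : ℤ) - 1) • ev i + ev i := by
      rw [sub_smul, one_smul, add_assoc, sub_add_cancel]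
    have h1 := h (-(n : ℤ) - 1)
    simp only [df] at h1
    rw [← e, abs_sub_comm] at h1
    have hn : (0 : ℝ) ≤ n := Nat.cast_nonneg n
    push_cast at h1 ih ⊢
    rw [abs_neg, abs_of_nonneg hn] at ih
    rw [abs_of_nonpos (by linarith : -(n : ℝ) - 1 ≤ 0)] at h1 ⊢
    have := abs_sub_le (w (x + (-(n : ℤ) - 1) • ev i)) (w (x + (-(n : ℤ)) • ev i)) (w x)
    nlinarith [mul_nonneg hc hn]

end S58

open S58

namespace Sm2
variable {u v : Pt → ℝ} {K K' L : ℝ}

theorem nonneg (h : Sm2 u K L) (hL : 0 < L) : 0 ≤ K := by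
  have := (abs_nonneg _).trans (h.1 0 0)
  by_contra hK
  have := div_neg_of_neg_of_pos (not_le.1 hK) hL
  linarith

/-- first order bound -/
theorem lip (h : Sm2 u K L) (x y : Pt) : |u y - u x| ≤ K / L * ∑ i, |co i (y - x)| :=
  S58.lip h.1 x y

/-- first order bound for the differences -/
theorem lip_df (h : Sm2 u K L) (i : Fin 2) (x y : Pt) :
    |df i u y - df i u x| ≤ K / L ^ 2 * ∑ j, |co j (y - x)| :=
  S58.lip (h.2 i) x y

/-- Taylor's formula -/
theorem taylor (h : Sm2 u K L) (x y : Pt) :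
    |u y - u x - ∑ i, df i u x * co i (y - x)| ≤ K / L ^ 2 * (∑ i, |co i (y - x)|) ^ 2 := by
  have hc : 0 ≤ K / L ^ 2 := (abs_nonneg _).trans (h.2 0 0 0)
  set w : Pt → ℝ := fun y => u y - ∑ i, df i u x * co i y with hw
  have hd : ∀ j z, df j w z = df j u z - df j u x := by
    intro j z
    simp only [hw, df, lin_ev]
    ring
  have e : y = x + (y.1 - x.1) • ev 0 + (y.2 - x.2) • ev 1 := by
    ext <;> simp [ev]
  have h1 := line2 (w := w) (d := 0) hc 0 x (fun n => by
    rw [hd]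
    refine (h.lip_df 0 x _).trans (le_of_eq ?_)
    rw [l1_eq]; simp [ev]) (y.1 - x.1)
  have h2 := line2 (w := w) (d := |((y.1 - x.1 : ℤ) : ℝ)|) hc 1 (x + (y.1 - x.1) • ev 0) (fun n => by
    rw [hd]
    refine (h.lip_df 1 x _).trans (le_of_eq ?_)
    rw [l1_eq]; simp [ev]) (y.2 - x.2)
  rw [← e] at h2
  have h3 := abs_sub_le (w y) (w (x + (y.1 - x.1) • ev 0)) (w x)
  have e2 : u y - u x - ∑ i, df i u x * co i (y - x) = w y - w x := by
    simp only [hw, co_sub, mul_sub, sum_sub_distrib]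
    ring
  rw [e2, l1_eq, Prod.fst_sub, Prod.snd_sub]
  set a : ℝ := ((y.1 - x.1 : ℤ) : ℝ)
  set b : ℝ := ((y.2 - x.2 : ℤ) : ℝ)
  have := mul_nonneg hc (mul_nonneg (abs_nonneg a) (abs_nonneg b))
  have ea := sq_abs a
  have eb := sq_abs b
  nlinarith

theorem mono (h : Sm2 u K L) (hL : 0 < L) (hK : K ≤ K') : Sm2 u K' L :=
  ⟨fun i x => (h.1 i x).trans (by gcongr), fun i j x => (h.2 i j x).trans (by gcongr)⟩

theorem add (h : Sm2 u K L) (h' : Sm2 v K' L) : Sm2 (u + v) (K + K') L := by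
  refine ⟨fun i x => ?_, fun i j x => ?_⟩
  · have e : df i (u + v) x = df i u x + df i v x := by simp only [df, Pi.add_apply]; ring
    rw [e, add_div]
    exact (abs_add_le _ _).trans (add_le_add (h.1 i x) (h'.1 i x))
  · have e : df j (df i (u + v)) x = df j (df i u) x + df j (df i v) x := by
      simp only [df, Pi.add_apply]; ring
    rw [e, add_div]
    exact (abs_add_le _ _).trans (add_le_add (h.2 i j x) (h'.2 i j x))

theorem smul (h : Sm2 u K L) (c : ℝ) : Sm2 (c • u) (|c| * K) L := by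
  refine ⟨fun i x => ?_, fun i j x => ?_⟩
  · have e : df i (c • u) x = c * df i u x := by simp only [df, Pi.smul_apply, smul_eq_mul]; ring
    rw [e, abs_mul, mul_div_assoc]
    exact mul_le_mul_of_nonneg_left (h.1 i x) (abs_nonneg c)
  · have e : df j (df i (c • u)) x = c * df j (df i u) x := by
      simp only [df, Pi.smul_apply, smul_eq_mul]; ring
    rw [e, abs_mul, mul_div_assoc]
    exact mul_le_mul_of_nonneg_left (h.2 i j x) (abs_nonneg c)

theorem const_mul (h : Sm2 u K L) (c : ℝ) : Sm2 (fun x => c * u x) (|c| * K) L := h.smul c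

theorem neg (h : Sm2 u K L) : Sm2 (-u) K L := by
  have := h.smul (-1)
  simpa using this

theorem sub (h : Sm2 u K L) (h' : Sm2 v K' L) : Sm2 (u - v) (K + K') L := by
  rw [sub_eq_add_neg]; exact h.add h'.neg

theorem const (c : ℝ) (hK : 0 ≤ K) (hL : 0 ≤ L) : Sm2 (fun _ => c) K L :=
  ⟨fun i x => by simp only [df, sub_self, abs_zero]; positivity,
    fun i j x => by simp only [df, sub_self, abs_zero]; positivity⟩

theorem zero (hK : 0 ≤ K) (hL : 0 ≤ L) : Sm2 0 K L := const 0 hK hL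

theorem add_const (h : Sm2 u K L) (c : ℝ) : Sm2 (fun x => u x + c) K L :=
  ⟨fun i x => by simpa [df] using h.1 i x, fun i j x => by simpa [df] using h.2 i j x⟩

theorem sub_const (h : Sm2 u K L) (c : ℝ) : Sm2 (fun x => u x - c) K L :=
  ⟨fun i x => by simpa [df] using h.1 i x, fun i j x => by simpa [df] using h.2 i j x⟩

theorem const_sub (h : Sm2 u K L) (c : ℝ) : Sm2 (fun x => c - u x) K L := by
  have := h.neg.add_const c
  simpa [sub_eq_add_neg, add_comm] using this

theorem sum {ι : Type*} (I : Finset ι) {f : ι → Pt → ℝ} {k : ι → ℝ} (hL : 0 ≤ L)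
    (h : ∀ a ∈ I, Sm2 (f a) (k a) L) : Sm2 (fun x => ∑ a ∈ I, f a x) (∑ a ∈ I, k a) L := by
  classical
  induction I using Finset.induction_on with
  | empty => simpa using const (K := 0) 0 le_rfl hL
  | insert a I ha ih =>
    simp only [sum_insert ha]
    exact (h a (mem_insert_self _ _)).add (ih fun b hb => h b (mem_insert_of_mem hb))

theorem shift' (h : Sm2 u K L) (z : Pt) : Sm2 (fun x => u (x + z)) K L := by
  refine ⟨fun i x => ?_, fun i j x => ?_⟩
  · have := h.1 i (x + z)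
    simp only [df] at this ⊢
    rwa [add_right_comm x (ev i) z]
  · have := h.2 i j (x + z)
    rw [df_df] at this ⊢
    rwa [add_right_comm (x + ev j) (ev i) z, add_right_comm x (ev j) z, add_right_comm x (ev i) z]

theorem shift (h : Sm2 u K L) (z : Pt) : Sm2 (fun x => u (x - z)) K L := by
  simpa [sub_eq_add_neg] using h.shift' (-z)

/-- any change of constants -/
theorem of_le {L' : ℝ} (h : Sm2 u K L) (h₁ : K / L ≤ K' / L') (h₂ : K / L ^ 2 ≤ K' / L' ^ 2) :
    Sm2 u K' L' :=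
  ⟨fun i x => (h.1 i x).trans h₁, fun i j x => (h.2 i j x).trans h₂⟩

/-- to a larger scale -/
theorem scale (h : Sm2 u K L) (hL : 0 < L) {c : ℝ} (hc : 1 ≤ c) : Sm2 u (K * c ^ 2) (c * L) := by
  have hK := h.nonneg hL
  have hc0 : 0 < c := by linarith
  refine h.of_le ?_ (le_of_eq ?_)
  · have e : K * c ^ 2 / (c * L) = K * c / L := by field_simp
    rw [e]
    exact div_le_div_of_nonneg_right (le_mul_of_one_le_right hK hc) hL.le
  · field_simp

/-- to a larger scale `L' ≤ c L` -/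
theorem scale_up {L' c : ℝ} (h : Sm2 u K L) (hL : 0 < L) (hL' : 0 < L') (hc : 1 ≤ c)
    (hle : L' ≤ c * L) : Sm2 u (K * c ^ 2) L' := by
  have hK := h.nonneg hL
  have h1 := h.scale hL hc
  have hK' : 0 ≤ K * c ^ 2 := by positivity
  exact h1.of_le (by gcongr) (by gcongr)

/-- to a smaller scale -/
theorem scale_down {L' : ℝ} (h : Sm2 u K L) (hL' : 0 < L') (hle : L' ≤ L) : Sm2 u K L' := by
  have hK := h.nonneg (hL'.trans_le hle)
  exact h.of_le (by gcongr) (by gcongr)

/-- exchange of the coordinates -/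
theorem swap (h : Sm2 u K L) : Sm2 (fun x => u x.swap) K L := by
  have e : ∀ (i : Fin 2) (x : Pt), (x + ev i).swap = x.swap + ev i.rev := by
    intro i x; fin_cases i <;> simp [ev]
  refine ⟨fun i x => ?_, fun i j x => ?_⟩
  · have := h.1 i.rev x.swap
    simpa only [df, e] using this
  · have := h.2 i.rev j.rev x.swap
    simpa only [df, e] using this

/-- product with a local bound on the first factor -/
theorem mul_loc (h : Sm2 u K L) (h' : Sm2 v K' L) (hL : 0 < L) (hv : ∀ x, |v x| ≤ K')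
    (hu : ∀ x y, v x ≠ 0 → y ∈ bl x 2 → |u y| ≤ K) : Sm2 (u * v) (4 * K * K') L := by
  have hK := h.nonneg hL
  have hK' := h'.nonneg hL
  refine ⟨fun i x => ?_, fun i j x => ?_⟩
  · have e : df i (u * v) x = df i u x * v (x + ev i) + u x * df i v x := by
      simp only [df, Pi.mul_apply]; ring
    have h1 : |df i u x * v (x + ev i)| ≤ K / L * K' := by
      rw [abs_mul]; exact mul_le_mul (h.1 i x) (hv _) (abs_nonneg _) (by positivity)
    have h2 : |u x * df i v x| ≤ K * (K' / L) := by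
      by_cases h0 : v x = 0 ∧ v (x + ev i) = 0
      · simp only [df, h0.1, h0.2, sub_self, mul_zero, abs_zero]; positivity
      · have : |u x| ≤ K := by
          rcases not_and_or.1 h0 with h0 | h0
          · exact hu _ _ h0 (mem_bl_self _ _)
          · exact hu _ _ h0 (mem_bl_ev _ _)
        rw [abs_mul]; exact mul_le_mul this (h'.1 i x) (abs_nonneg _) hK
    rw [e]
    have h3 : 0 ≤ K * K' / L := by positivity
    have e1 : K / L * K' = K * K' / L := by ring
    have e2 : K * (K' / L) = K * K' / L := by ring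
    have e3 : 4 * K * K' / L = 4 * (K * K' / L) := by ring
    have := abs_add_le (df i u x * v (x + ev i)) (u x * df i v x)
    linarith
  · have e : df j (df i (u * v)) x = df j (df i u) x * v (x + ev j + ev i) +
        df i u x * df j v (x + ev i) + df j u x * df i v (x + ev j) + u x * df j (df i v) x := by
      simp only [df, Pi.mul_apply, add_right_comm x (ev i) (ev j)]; ring
    have h1 : |df j (df i u) x * v (x + ev j + ev i)| ≤ K / L ^ 2 * K' := by
      rw [abs_mul]; exact mul_le_mul (h.2 i j x) (hv _) (abs_nonneg _) (by positivity)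
    have h2 : |df i u x * df j v (x + ev i)| ≤ K / L * (K' / L) := by
      rw [abs_mul]; exact mul_le_mul (h.1 i x) (h'.1 _ _) (abs_nonneg _) (by positivity)
    have h3 : |df j u x * df i v (x + ev j)| ≤ K / L * (K' / L) := by
      rw [abs_mul]; exact mul_le_mul (h.1 j x) (h'.1 _ _) (abs_nonneg _) (by positivity)
    have h4 : |u x * df j (df i v) x| ≤ K * (K' / L ^ 2) := by
      by_cases h0 : (v x = 0 ∧ v (x + ev i) = 0) ∧ v (x + ev j) = 0 ∧ v (x + ev j + ev i) = 0
      · rw [df_df, h0.1.1, h0.1.2, h0.2.1, h0.2.2]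
        simp only [sub_self, add_zero, mul_zero, abs_zero]; positivity
      · have : |u x| ≤ K := by
          rcases not_and_or.1 h0 with h0 | h0 <;> rcases not_and_or.1 h0 with h0 | h0
          · exact hu _ _ h0 (mem_bl_self _ _)
          · exact hu _ _ h0 (mem_bl_ev _ _)
          · exact hu _ _ h0 (mem_bl_ev _ _)
          · exact hu _ _ h0 (mem_bl_ev2 _ _ _)
        rw [abs_mul]; exact mul_le_mul this (h'.2 i j x) (abs_nonneg _) hK
    rw [e]
    have e1 : K / L ^ 2 * K' = K * K' / L ^ 2 := by ring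
    have e2 : K / L * (K' / L) = K * K' / L ^ 2 := by ring
    have e3 : K * (K' / L ^ 2) = K * K' / L ^ 2 := by ring
    have e4 : 4 * K * K' / L ^ 2 = 4 * (K * K' / L ^ 2) := by ring
    have a1 := abs_add_le (df j (df i u) x * v (x + ev j + ev i)) (df i u x * df j v (x + ev i))
    have a2 := abs_add_le (df j (df i u) x * v (x + ev j + ev i) + df i u x * df j v (x + ev i))
      (df j u x * df i v (x + ev j))
    have a3 := abs_add_le (df j (df i u) x * v (x + ev j + ev i) + df i u x * df j v (x + ev i) +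
      df j u x * df i v (x + ev j)) (u x * df j (df i v) x)
    linarith

/-- product of bounded functions -/
theorem mul (h : Sm2 u K L) (h' : Sm2 v K' L) (hL : 0 < L) (hu : ∀ x, |u x| ≤ K)
    (hv : ∀ x, |v x| ≤ K') : Sm2 (u * v) (4 * K * K') L :=
  h.mul_loc h' hL hv fun _ y _ _ => hu y

theorem mul' (h : Sm2 u K L) (h' : Sm2 v K' L) (hL : 0 < L) (hu : ∀ x, |u x| ≤ K)
    (hv : ∀ x, |v x| ≤ K') : Sm2 (fun x => u x * v x) (4 * K * K') L :=
  h.mul h' hL hu hv

end Sm2

/-- `g` is differentiable, `|g'| ≤ K`, and `g'` is `K`-Lipschitz -/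
def C11 (g : ℝ → ℝ) (K : ℝ) : Prop :=
  Differentiable ℝ g ∧ (∀ t, |deriv g t| ≤ K) ∧ ∀ t t', |deriv g t - deriv g t'| ≤ K * |t - t'|

/-- plane waves -/
theorem sm2_wave {g : ℝ → ℝ} {K L : ℝ} (hg : C11 g K) (hL : 0 < L) (c : ℝ) {k : Fin 2 → ℝ}
    (hk : ∀ i, |k i| ≤ 1) : Sm2 (fun x => g ((∑ i, k i * co i x) / L + c)) K L := by
  have hK : 0 ≤ K := (abs_nonneg _).trans (hg.2.1 0)
  have hkL : ∀ i, |k i / L| ≤ 1 / L := fun i => by
    rw [abs_div, abs_of_pos hL]; exact div_le_div_of_nonneg_right (hk i) hL.le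
  refine ⟨fun i x => ?_, fun i j x => ?_⟩
  · simp only [df, lin_ev]
    refine (mvt hg.1 hg.2.1 _ _).trans ?_
    have e : (∑ i, k i * co i x + k i) / L + c - ((∑ i, k i * co i x) / L + c) = k i / L := by ring
    rw [e, div_eq_mul_one_div K L]
    exact mul_le_mul_of_nonneg_left (hkL i) hK
  · rw [df_df]
    simp only [lin_ev]
    have := abs_dd_le hg.1 hg.2.2 ((∑ i, k i * co i x) / L + c) (k i / L) (k j / L)
    have e1 : (∑ i, k i * co i x + k j + k i) / L + c =
      (∑ i, k i * co i x) / L + c + k j / L + k i / L := by ring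
    have e2 : ∀ j, (∑ i, k i * co i x + k j) / L + c = (∑ i, k i * co i x) / L + c + k j / L :=
      fun j => by ring
    rw [e1, e2, e2]
    refine this.trans ?_
    have e3 : K / L ^ 2 = K * (1 / L) * (1 / L) := by ring
    rw [e3]
    exact mul_le_mul (mul_le_mul_of_nonneg_left (hkL i) hK) (hkL j) (abs_nonneg _) (by positivity)

/-- functions of one coordinate -/
theorem sm2_coord {g : ℝ → ℝ} {K L : ℝ} (hg : C11 g K) (hL : 0 < L) (i : Fin 2) (c : ℝ) :
    Sm2 (fun x => g (co i x / L + c)) K L := by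
  have := sm2_wave hg hL c (k := fun j => if j = i then 1 else 0) (fun j => by
    split_ifs <;> simp)
  simpa using this

namespace C11
variable {g h : ℝ → ℝ} {K K' : ℝ}

theorem nonneg (hg : C11 g K) : 0 ≤ K := (abs_nonneg _).trans (hg.2.1 0)

theorem mono (hg : C11 g K) (hK : K ≤ K') : C11 g K' :=
  ⟨hg.1, fun t => (hg.2.1 t).trans hK,
    fun t t' => (hg.2.2 t t').trans (mul_le_mul_of_nonneg_right hK (abs_nonneg _))⟩

theorem of_hasDerivAt {g' : ℝ → ℝ} (hd : ∀ t, HasDerivAt g (g' t) t) (h₁ : ∀ t, |g' t| ≤ K)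
    (h₂ : ∀ t t', |g' t - g' t'| ≤ K * |t - t'|) : C11 g K :=
  ⟨fun t => (hd t).differentiableAt, fun t => by rw [(hd t).deriv]; exact h₁ t,
    fun t t' => by rw [(hd t).deriv, (hd t').deriv]; exact h₂ t t'⟩

/-- from bounds on two derivatives -/
theorem of_deriv2 (h₀ : Differentiable ℝ g) (h₁ : Differentiable ℝ (deriv g))
    (b₁ : ∀ t, |deriv g t| ≤ K) (b₂ : ∀ t, |deriv (deriv g) t| ≤ K) : C11 g K :=
  ⟨h₀, b₁, mvt h₁ b₂⟩

theorem add (hg : C11 g K) (hh : C11 h K') : C11 (fun t => g t + h t) (K + K') := by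
  refine of_hasDerivAt (g' := fun t => deriv g t + deriv h t)
    (fun t => (hg.1 t).hasDerivAt.add (hh.1 t).hasDerivAt)
    (fun t => (abs_add_le _ _).trans (add_le_add (hg.2.1 t) (hh.2.1 t))) fun t t' => ?_
  have e : deriv g t + deriv h t - (deriv g t' + deriv h t') =
    (deriv g t - deriv g t') + (deriv h t - deriv h t') := by ring
  rw [e, add_mul]
  exact (abs_add_le _ _).trans (add_le_add (hg.2.2 t t') (hh.2.2 t t'))

theorem const_mul (hg : C11 g K) (c : ℝ) : C11 (fun t => c * g t) (|c| * K) := by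
  refine of_hasDerivAt (g' := fun t => c * deriv g t)
    (fun t => (hg.1 t).hasDerivAt.const_mul c) (fun t => ?_) fun t t' => ?_
  · rw [abs_mul]; exact mul_le_mul_of_nonneg_left (hg.2.1 t) (abs_nonneg c)
  · rw [← mul_sub, abs_mul, mul_assoc]; exact mul_le_mul_of_nonneg_left (hg.2.2 t t') (abs_nonneg c)

theorem neg (hg : C11 g K) : C11 (fun t => -g t) K := by
  simpa using hg.const_mul (-1)

theorem sub (hg : C11 g K) (hh : C11 h K') : C11 (fun t => g t - h t) (K + K') := by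
  simpa [sub_eq_add_neg] using hg.add hh.neg

theorem add_const (hg : C11 g K) (c : ℝ) : C11 (fun t => g t + c) K :=
  of_hasDerivAt (g' := deriv g) (fun t => (hg.1 t).hasDerivAt.add_const c) hg.2.1 hg.2.2

theorem const_sub (hg : C11 g K) (c : ℝ) : C11 (fun t => c - g t) K := by
  simpa [sub_eq_add_neg, add_comm] using hg.neg.add_const c

/-- affine change of the variable -/
theorem comp_affine (hg : C11 g K) (a b : ℝ) {m : ℝ} (hm : 1 ≤ m) (ha : |a| ≤ m) :
    C11 (fun t => g (a * t + b)) (K * m ^ 2) := by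
  have hK := hg.nonneg
  have hm0 : 0 ≤ m := by linarith
  refine of_hasDerivAt (g' := fun t => deriv g (a * t + b) * a) (fun t => ?_) (fun t => ?_)
    fun t t' => ?_
  · have h1 : HasDerivAt (fun t => a * t + b) a t := by
      simpa using ((hasDerivAt_id t).const_mul a).add_const b
    exact (hg.1 _).hasDerivAt.comp t h1
  · rw [abs_mul]
    refine (mul_le_mul (hg.2.1 _) ha (abs_nonneg _) hK).trans ?_
    exact mul_le_mul_of_nonneg_left (by nlinarith) hK
  · rw [← sub_mul, abs_mul]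
    have h1 := hg.2.2 (a * t + b) (a * t' + b)
    have e : a * t + b - (a * t' + b) = a * (t - t') := by ring
    rw [e, abs_mul] at h1
    have h2 : K * (|a| * |t - t'|) ≤ K * (m * |t - t'|) := by gcongr
    calc _ ≤ K * (m * |t - t'|) * m := mul_le_mul (h1.trans h2) ha (abs_nonneg _) (by positivity)
      _ = _ := by ring

theorem shift (hg : C11 g K) (b : ℝ) : C11 (fun t => g (t + b)) K := by
  simpa using hg.comp_affine 1 b (m := 1) le_rfl (by simp)

theorem reflect (hg : C11 g K) (b : ℝ) : C11 (fun t => g (b - t)) K := by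
  simpa [sub_eq_add_neg, add_comm] using hg.comp_affine (-1) b (m := 1) le_rfl (by simp)

theorem id' : C11 (fun t => t) 1 :=
  of_hasDerivAt (g' := fun _ => 1) (fun t => hasDerivAt_id t) (by simp) (by simp)

theorem cos : C11 Real.cos 1 :=
  of_hasDerivAt (g' := fun t => -Real.sin t) Real.hasDerivAt_cos
    (fun t => by simpa using Real.abs_sin_le_one t) fun t t' => by
      rw [neg_sub_neg, abs_sub_comm, one_mul]; exact Real.abs_sin_sub_sin_le t t'

theorem sin : C11 Real.sin 1 :=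
  of_hasDerivAt (g' := Real.cos) Real.hasDerivAt_sin Real.abs_cos_le_one fun t t' => by
    rw [one_mul]; exact Real.abs_cos_sub_cos_le t t'

end C11

theorem sm2_co (i : Fin 2) {L : ℝ} (hL : 0 < L) : Sm2 (fun x => co i x / L) 1 L := by
  simpa using sm2_coord C11.id' hL i 0

/-- tensor products -/
theorem sm2_tensor {g h : ℝ → ℝ} {K K' L : ℝ} (hg : C11 g K) (hh : C11 h K') (bg : ∀ t, |g t| ≤ K)
    (bh : ∀ t, |h t| ≤ K') (hL : 0 < L) :
    Sm2 (fun x : Pt => g (x.1 / L) * h (x.2 / L)) (4 * K * K') L := by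
  have h1 := sm2_coord hg hL 0 0
  have h2 := sm2_coord hh hL 1 0
  simp only [add_zero] at h1 h2
  exact h1.mul' h2 hL (fun x => bg _) fun x => bh _

/-- cosine waves of frequency `|k i| ≤ m` -/
theorem sm2_cos {L m : ℝ} (hL : 0 < L) (hm : 1 ≤ m) (c : ℝ) {k : Fin 2 → ℝ} (hk : ∀ i, |k i| ≤ m) :
    Sm2 (fun x => Real.cos ((∑ i, k i * co i x) / L + c)) (m ^ 2) L := by
  have hm0 : 0 < m := by linarith
  have := sm2_wave (C11.cos.comp_affine m c hm (by rw [abs_of_pos hm0])) hL 0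
    (k := fun i => k i / m) (fun i => by rw [abs_div, abs_of_pos hm0, div_le_one hm0]; exact hk i)
  rw [one_mul] at this
  convert this using 3 with x
  simp only [Fin.sum_univ_two]
  field_simp
  ring

/-- sine waves of frequency `|k i| ≤ m` -/
theorem sm2_sin {L m : ℝ} (hL : 0 < L) (hm : 1 ≤ m) (c : ℝ) {k : Fin 2 → ℝ} (hk : ∀ i, |k i| ≤ m) :
    Sm2 (fun x => Real.sin ((∑ i, k i * co i x) / L + c)) (m ^ 2) L := by
  have := sm2_cos hL hm (c - Real.pi / 2) hk
  simpa only [← add_sub_assoc, Real.cos_sub_pi_div_two] using this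

/-! ## The smooth step -/

namespace S58

/-- clamp to `[0, 1]` -/
noncomputable def clp (t : ℝ) : ℝ := max 0 (min 1 t)

theorem clp_mem (t : ℝ) : 0 ≤ clp t ∧ clp t ≤ 1 :=
  ⟨le_max_left _ _, max_le zero_le_one (min_le_left _ _)⟩

theorem clp_lip (t t' : ℝ) : |clp t - clp t'| ≤ |t - t'| := by
  unfold clp
  rw [max_comm 0, max_comm 0]
  refine (abs_max_sub_max_le_abs _ _ _).trans ?_
  have := abs_min_sub_min_le_max 1 t 1 t'
  simpa using this

theorem clp_cont : Continuous clp := by unfold clp; fun_prop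

noncomputable def dstp (t : ℝ) : ℝ := 6 * (clp t * (1 - clp t))

theorem dstp_cont : Continuous dstp := by
  have := clp_cont
  unfold dstp; fun_prop

theorem dstp_nonneg (t : ℝ) : 0 ≤ dstp t := by
  have := clp_mem t
  unfold dstp; nlinarith

end S58

/-- smooth step: `0` on `(-∞, 0]`, `1` on `[1, ∞)` -/
noncomputable def stp (t : ℝ) : ℝ := ∫ s in (0 : ℝ)..t, S58.dstp s

theorem stp_hasDerivAt (t : ℝ) : HasDerivAt stp (S58.dstp t) t :=
  (dstp_cont.integral_hasStrictDerivAt 0 t).hasDerivAt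

theorem stp_c11 : C11 stp 6 := by
  refine C11.of_hasDerivAt stp_hasDerivAt (fun t => ?_) fun t t' => ?_
  · have := clp_mem t
    rw [abs_of_nonneg (dstp_nonneg t)]
    unfold dstp; nlinarith
  · have h1 := clp_mem t
    have h2 := clp_mem t'
    have e : dstp t - dstp t' = 6 * ((clp t - clp t') * (1 - clp t - clp t')) := by unfold dstp; ring
    have h3 : |1 - clp t - clp t'| ≤ 1 := abs_le.2 ⟨by linarith, by linarith⟩
    rw [e, abs_mul, abs_mul, abs_of_pos (by norm_num : (0 : ℝ) < 6)]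
    have := mul_le_mul (clp_lip t t') h3 (abs_nonneg _) (abs_nonneg _)
    linarith

theorem stp_mono : Monotone stp :=
  monotone_of_deriv_nonneg stp_c11.1 fun t => by rw [(stp_hasDerivAt t).deriv]; exact dstp_nonneg t

theorem stp_zero {t : ℝ} (ht : t ≤ 0) : stp t = 0 := by
  unfold stp
  rw [intervalIntegral.integral_congr (g := fun _ => 0) fun s hs => ?_]
  · simp
  · rw [Set.uIcc_of_ge ht] at hs
    have : clp s = 0 := max_eq_left ((min_le_right _ _).trans hs.2)
    simp [dstp, this]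

theorem stp_one {t : ℝ} (ht : 1 ≤ t) : stp t = 1 := by
  have h1 : ∫ s in (0 : ℝ)..1, dstp s = 1 := by
    rw [intervalIntegral.integral_congr (g := fun s => 6 * s - 6 * s ^ 2) fun s hs => ?_]
    · have := intervalIntegral.integral_eq_sub_of_hasDerivAt (a := 0) (b := 1)
        (f := fun s : ℝ => 3 * s ^ 2 - 2 * s ^ 3) (f' := fun s => 6 * s - 6 * s ^ 2) (fun s _ => by
          refine (((hasDerivAt_pow 2 s).const_mul 3).fun_sub
            ((hasDerivAt_pow 3 s).const_mul 2)).congr_deriv ?_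
          push_cast; ring)
        ((by fun_prop : Continuous fun s : ℝ => 6 * s - 6 * s ^ 2).intervalIntegrable _ _)
      rw [this]; norm_num
    · rw [Set.uIcc_of_le zero_le_one] at hs
      have : clp s = s := by unfold clp; rw [min_eq_right hs.2, max_eq_right hs.1]
      simp only [dstp, this]; ring
  have h2 : ∫ s in (1 : ℝ)..t, dstp s = 0 := by
    rw [intervalIntegral.integral_congr (g := fun _ => 0) fun s hs => ?_]
    · simp
    · rw [Set.uIcc_of_le ht] at hs
      have : clp s = 1 := by unfold clp; rw [min_eq_left hs.1, max_eq_right zero_le_one]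
      simp [dstp, this]
  unfold stp
  rw [← intervalIntegral.integral_add_adjacent_intervals (b := 1)
    (dstp_cont.intervalIntegrable _ _) (dstp_cont.intervalIntegrable _ _), h1, h2, add_zero]

theorem stp_nonneg (t : ℝ) : 0 ≤ stp t := by
  have := stp_mono (min_le_left t 0)
  rwa [stp_zero (min_le_right _ _)] at this

theorem stp_le_one (t : ℝ) : stp t ≤ 1 := by
  have := stp_mono (le_max_left t 1)
  rwa [stp_one (le_max_right _ _)] at this

theorem abs_stp_le (t : ℝ) : |stp t| ≤ 1 := by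
  rw [abs_of_nonneg (stp_nonneg t)]; exact stp_le_one t

/-- plateau: `0` off `(a, b + 1)`, `1` on `[a + 1, b]` (for `a ≤ b`) -/
noncomputable def plat (a b t : ℝ) : ℝ := stp (t - a) - stp (t - b)

theorem plat_c11 (a b : ℝ) : C11 (plat a b) 12 := by
  have := (stp_c11.shift (-a)).sub (stp_c11.shift (-b))
  norm_num at this
  simp only [← sub_eq_add_neg] at this
  exact this

theorem plat_nonneg {a b : ℝ} (h : a ≤ b) (t : ℝ) : 0 ≤ plat a b t :=
  sub_nonneg.2 (stp_mono (by linarith))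

theorem plat_le_one (a b t : ℝ) : plat a b t ≤ 1 := by
  have := stp_le_one (t - a); have := stp_nonneg (t - b); unfold plat; linarith

theorem abs_plat_le (a b t : ℝ) : |plat a b t| ≤ 1 := by
  have := stp_le_one (t - a); have := stp_nonneg (t - b)
  have := stp_le_one (t - b); have := stp_nonneg (t - a)
  unfold plat; exact abs_le.2 ⟨by linarith, by linarith⟩

theorem plat_one {a b t : ℝ} (h₁ : a + 1 ≤ t) (h₂ : t ≤ b) : plat a b t = 1 := by
  unfold plat; rw [stp_one (by linarith), stp_zero (by linarith), sub_zero]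

theorem plat_ne {a b t : ℝ} (h : a ≤ b) (h0 : plat a b t ≠ 0) : a < t ∧ t < b + 1 := by
  by_contra hc
  apply h0
  unfold plat
  rcases not_and_or.1 hc with hc | hc
  · rw [stp_zero (by linarith [not_lt.1 hc]), stp_zero (by linarith [not_lt.1 hc]), sub_zero]
  · rw [stp_one (by linarith [not_lt.1 hc]), stp_one (by linarith [not_lt.1 hc]), sub_self]

/-- plateau bump with margins of width `w`: `1` on `[a₁ + w, b₁] × [a₂ + w, b₂]`,
`0` off `(a₁, b₁ + w) × (a₂, b₂ + w)` -/
noncomputable def bump (a₁ b₁ a₂ b₂ w : ℝ) (x : Pt) : ℝ :=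
  plat (a₁ / w) (b₁ / w) (x.1 / w) * plat (a₂ / w) (b₂ / w) (x.2 / w)

section bump
variable {a₁ b₁ a₂ b₂ w : ℝ}

theorem bump_sm2 (a₁ b₁ a₂ b₂ : ℝ) (hw : 0 < w) : Sm2 (bump a₁ b₁ a₂ b₂ w) 576 w := by
  have := sm2_tensor (plat_c11 (a₁ / w) (b₁ / w)) (plat_c11 (a₂ / w) (b₂ / w))
    (fun t => (abs_plat_le _ _ _).trans (by norm_num))
    (fun t => (abs_plat_le _ _ _).trans (by norm_num)) hw
  norm_num at this
  exact this

/-- at scale `L ≤ c w` -/
theorem bump_sm2' (a₁ b₁ a₂ b₂ : ℝ) (hw : 0 < w) {L c : ℝ} (hL : 0 < L) (hc : 1 ≤ c)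
    (h : L ≤ c * w) : Sm2 (bump a₁ b₁ a₂ b₂ w) (576 * c ^ 2) L :=
  (bump_sm2 a₁ b₁ a₂ b₂ hw).scale_up hw hL hc h

theorem bump_nonneg (hw : 0 < w) (h₁ : a₁ ≤ b₁) (h₂ : a₂ ≤ b₂) (x : Pt) :
    0 ≤ bump a₁ b₁ a₂ b₂ w x :=
  mul_nonneg (plat_nonneg (by gcongr) _) (plat_nonneg (by gcongr) _)

theorem abs_bump_le (x : Pt) : |bump a₁ b₁ a₂ b₂ w x| ≤ 1 := by
  unfold bump
  rw [abs_mul]
  exact mul_le_one₀ (abs_plat_le _ _ _) (abs_nonneg _) (abs_plat_le _ _ _)

theorem bump_le_one (x : Pt) : bump a₁ b₁ a₂ b₂ w x ≤ 1 := (le_abs_self _).trans (abs_bump_le x)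

theorem bump_one (hw : 0 < w) {x : Pt} (h₁ : a₁ + w ≤ x.1) (h₂ : (x.1 : ℝ) ≤ b₁)
    (h₃ : a₂ + w ≤ x.2) (h₄ : (x.2 : ℝ) ≤ b₂) : bump a₁ b₁ a₂ b₂ w x = 1 := by
  have e : ∀ a : ℝ, a / w + 1 = (a + w) / w := fun a => by field_simp
  unfold bump
  rw [plat_one (by rw [e]; gcongr) (by gcongr), plat_one (by rw [e]; gcongr) (by gcongr), mul_one]

theorem bump_ne (hw : 0 < w) (h₁ : a₁ ≤ b₁) (h₂ : a₂ ≤ b₂) {x : Pt} (h : bump a₁ b₁ a₂ b₂ w x ≠ 0) :
    (a₁ < x.1 ∧ (x.1 : ℝ) < b₁ + w) ∧ a₂ < x.2 ∧ (x.2 : ℝ) < b₂ + w := by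
  have e : ∀ a : ℝ, a / w + 1 = (a + w) / w := fun a => by field_simp
  have p := plat_ne (a := a₁ / w) (b := b₁ / w) (by gcongr) (left_ne_zero_of_mul h)
  have q := plat_ne (a := a₂ / w) (b := b₂ / w) (by gcongr) (right_ne_zero_of_mul h)
  rw [e, div_lt_div_iff_of_pos_right hw, div_lt_div_iff_of_pos_right hw] at p q
  exact ⟨p, q⟩

end bump

/-! ## The partition of unity -/

/-- tent of width `r` -/
noncomputable def tent (r : ℕ) (x : Pt) : ℝ := plat (-1) 0 (x.1 / r) * plat (-1) 0 (x.2 / r)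

theorem tent_eq {r : ℕ} (hr : 1 ≤ r) : tent r = bump (-r) 0 (-r) 0 r := by
  have h : (r : ℝ) ≠ 0 := by positivity
  funext x
  simp [tent, bump, neg_div, div_self h]

theorem tent_sm2 {r : ℕ} (hr : 1 ≤ r) : Sm2 (tent r) 576 r := by
  rw [tent_eq hr]; exact bump_sm2 _ _ _ _ (by positivity)

theorem tent_nonneg (r : ℕ) (x : Pt) : 0 ≤ tent r x :=
  mul_nonneg (plat_nonneg (by norm_num) _) (plat_nonneg (by norm_num) _)

theorem tent_le_one (r : ℕ) (x : Pt) : tent r x ≤ 1 :=
  mul_le_one₀ (plat_le_one _ _ _) (plat_nonneg (by norm_num) _) (plat_le_one _ _ _)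

theorem tent_ne {r : ℕ} (hr : 1 ≤ r) {x : Pt} (h : tent r x ≠ 0) : |x.1| < r ∧ |x.2| < r := by
  rw [tent_eq hr] at h
  have := bump_ne (by positivity) (by simp) (by simp) h
  simp only [zero_add] at this
  obtain ⟨⟨h1, h2⟩, h3, h4⟩ := this
  rw [abs_lt, abs_lt]
  exact ⟨⟨by exact_mod_cast h1, by exact_mod_cast h2⟩, by exact_mod_cast h3, by exact_mod_cast h4⟩

theorem tent_sup {r : ℕ} (hr : 1 ≤ r) {x : Pt} (h : tent r x ≠ 0) : x ∈ bl 0 r := by
  have := tent_ne hr h
  rw [abs_lt, abs_lt] at this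
  rw [mem_bl]
  simp only [Prod.fst_zero, Prod.snd_zero]
  omega

theorem S58.plat_sum (t : ℝ) : ∑ i ∈ ({⌊t⌋, ⌊t⌋ + 1} : Finset ℤ), plat (-1) 0 (t - i) = 1 := by
  have h1 := Int.floor_le t
  have h2 := Int.lt_floor_add_one t
  rw [sum_pair (by omega)]
  unfold plat
  push_cast
  rw [stp_one (t := t - ⌊t⌋ - -1) (by linarith), stp_zero (t := t - (⌊t⌋ + 1) - 0) (by linarith)]
  have e : t - (⌊t⌋ + 1) - -1 = t - ⌊t⌋ - 0 := by ring
  rw [e]; ring

theorem S58.plat_mem {t : ℝ} {i : ℤ} (h : plat (-1) 0 (t - i) ≠ 0) :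
    i ∈ ({⌊t⌋, ⌊t⌋ + 1} : Finset ℤ) := by
  have p := plat_ne (by norm_num) h
  have h1 := Int.floor_le t
  have h2 := Int.lt_floor_add_one t
  have a : ((⌊t⌋ - 1 : ℤ) : ℝ) < i := by push_cast; linarith
  have b : (i : ℝ) < ((⌊t⌋ + 2 : ℤ) : ℝ) := by push_cast; linarith
  have a' : ⌊t⌋ - 1 < i := by exact_mod_cast a
  have b' : i < ⌊t⌋ + 2 := by exact_mod_cast b
  simp only [mem_insert, mem_singleton]
  omega

theorem tent_sum' {r : ℕ} (hr : 1 ≤ r) (x : Pt) (I : Finset Pt)
    (hI : ∀ i : Pt, tent r (x - (r : ℤ) • i) ≠ 0 → i ∈ I) :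
    ∑ i ∈ I, tent r (x - (r : ℤ) • i) = 1 := by
  have h : (r : ℝ) ≠ 0 := by positivity
  have e : ∀ i : Pt, tent r (x - (r : ℤ) • i) =
      plat (-1) 0 (x.1 / r - i.1) * plat (-1) 0 (x.2 / r - i.2) := by
    intro i
    simp only [tent, Prod.fst_sub, Prod.snd_sub, Prod.smul_fst, Prod.smul_snd, smul_eq_mul]
    push_cast
    rw [sub_div, sub_div, mul_div_cancel_left₀ _ h, mul_div_cancel_left₀ _ h]
  set B : Finset Pt := ({⌊(x.1 : ℝ) / r⌋, ⌊(x.1 : ℝ) / r⌋ + 1} : Finset ℤ) ×ˢ
    ({⌊(x.2 : ℝ) / r⌋, ⌊(x.2 : ℝ) / r⌋ + 1} : Finset ℤ) with hB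
  have h1 : ∑ i ∈ B, tent r (x - (r : ℤ) • i) = 1 := by
    simp only [e, hB]
    rw [sum_product (f := fun i : ℤ × ℤ =>
      plat (-1) 0 (x.1 / r - i.1) * plat (-1) 0 (x.2 / r - i.2))]
    simp only [← mul_sum, plat_sum, mul_one]
  have h2 : ∑ i ∈ I, tent r (x - (r : ℤ) • i) = ∑ i ∈ I ∪ B, tent r (x - (r : ℤ) • i) :=
    sum_subset subset_union_left fun i _ hi => by_contra fun h0 => hi (hI i h0)
  have h3 : ∑ i ∈ B, tent r (x - (r : ℤ) • i) = ∑ i ∈ I ∪ B, tent r (x - (r : ℤ) • i) :=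
    sum_subset subset_union_right fun i _ hi => by_contra fun h0 => hi (by
      rw [e] at h0
      exact mem_product.2 ⟨plat_mem (left_ne_zero_of_mul h0), plat_mem (right_ne_zero_of_mul h0)⟩)
  rw [h2, ← h3, h1]

theorem tent_sum {r : ℕ} (hr : 1 ≤ r) (x : Pt) (I : Finset Pt)
    (hI : ∀ i : Pt, x - (r : ℤ) • i ∈ bl 0 r → i ∈ I) : ∑ i ∈ I, tent r (x - (r : ℤ) • i) = 1 :=
  tent_sum' hr x I fun i h => hI i (tent_sup hr h)

theorem smStmt : SmStmt := by
  refine ⟨fun g K L c k hL h₀ h₁ h₂ hk => sm2_wave ⟨h₀, h₁, h₂⟩ hL c hk,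
    fun u v K K' L hL hu hv bv bu => hu.mul_loc hv hL bv bu,
    fun u K L x y h => ⟨h.lip x y, h.taylor x y⟩, ?_,
    576, fun r hr => ⟨tent r, tent_sm2 hr, fun x => ⟨tent_nonneg r x, tent_le_one r x⟩,
      fun x h => tent_sup hr h, tent_sum hr⟩⟩
  have h := stp_c11.mono (K' := 10) (by norm_num)
  exact ⟨stp, h.1, h.2.1, h.2.2, fun t => ⟨stp_nonneg t, stp_le_one t⟩, fun t => stp_zero,
    fun t => stp_one, stp_mono⟩

end Crest.Agent.T145
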