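import Crest.Agent.T145.NcDef_78
import Crest.Agent.T145.UvB_49
import Crest.Agent.T145.Sm_58

/-!
# Row 145, module Mx: UV, the massive free square, MIX0, DL.  Definitions and target Props (helper9)

`P = (ms Λ (sq 0 L) μ).W 0` is the free square with mass `μ` on every site, `1 ≤ μ L² ≤ K`.
`f_u = (A / θ + μ) u`, `v_u = E (u, u) / θ + μ |u|²`; in a window `Cov_P (f_u, f) = (u, f) + o (1)`.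
-/

set_option autoImplicit false

namespace Crest.Agent.T145.Mx

open Finset Uv

/-- the free model on `B` with the mass `μ` on every site -/
noncomputable def ms (Λ : Lat) (B : Finset Pt) (μ : ℝ) : Mdl Pt := (Λ.N B).mulSite fun _ => gau μ⁻¹

/-- `f_u` -/
noncomputable def fu (Λ : Lat) (L : ℕ) (θ μ : ℝ) (u : Pt → ℝ) (x : Pt) : ℝ :=
  Λ.Au (sq 0 L) u x / θ + μ * (ind (x ∈ sq 0 L) * u x)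

/-- `v_u` -/
noncomputable def vu (Λ : Lat) (L : ℕ) (θ μ : ℝ) (u : Pt → ℝ) : ℝ :=
  Λ.En (sq 0 L) u u / θ + μ * ip (sq 0 L) u u

/-- `z · ℓ` -/
noncomputable def zl {L ι : Type*} [AddCommGroup L] (T : Finset ι) (ℓ : ι → L →+ ℝ) (z : ι → ℝ) :
    L →+ ℝ := ∑ j ∈ T, z j • ℓ j

/-- few points of `Z` are close to the complement of `U` -/
def Thn (Z U : Finset Pt) (b : ℝ) : Prop :=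
  ∀ ρ : ℕ, 1 ≤ ρ → (#(Z.filter fun x => ¬ bl x ρ ⊆ U) : ℝ) ≤ b * ρ

/-- Haar coefficient of `u`: the value of `hl μ t` on the real function `u` -/
noncomputable def hc (μ : ℝ) (L : ℕ) (u : Pt → ℝ) (t : Ix) : ℝ :=
  Real.sqrt μ * 2 ^ t.2.1 * ip (sq 0 L) (hf t.1 t.2.1 t.2.2) u

/-- the `r`-neighbourhood of the tile `i` of side `ρ` -/
noncomputable def nb (ρ : ℕ) (i : Pt) (r : ℕ) : Finset Pt :=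
  sq (ρ * i.1 - r, ρ * i.2 - r) (ρ + 2 * r)

/-- the bump of the tile `i`: `1` on `nb ρ i (ρ / 8)`, `0` off `nb ρ i (ρ / 4)` -/
noncomputable def ub (ρ : ℕ) (i : Pt) : Pt → ℝ :=
  bump (ρ * i.1 - ρ / 4) (ρ * (i.1 + 1) + ρ / 8 - 1) (ρ * i.2 - ρ / 4) (ρ * (i.2 + 1) + ρ / 8 - 1)
    (ρ / 8)

/-- the colour of a tile -/
def cls (i : Pt) : Pt := (i.1 % 2, i.2 % 2)

/-- `K` meets all the distance shells of width `g` around the tile `i`, inside the box -/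
def Hit (g L ρ : ℕ) (K : Finset Pt) (i : Pt) : Prop :=
  ∀ r : ℕ, r + g ≤ ρ / 2 → ∃ x ∈ K, x ∈ sq 0 L ∧ x ∈ nb ρ i (r + g) ∧ x ∉ nb ρ i r

/-- sup distance at least `d` -/
def Far (d : ℝ) (S S' : Finset Pt) : Prop :=
  ∀ x ∈ S, ∀ y ∈ S', d ≤ |co 0 (x - y)| ∨ d ≤ |co 1 (x - y)|

/-! ## Input from (T4) -/

/-- the form of (T4) used here -/
def GdStmt : Prop := ∀ (F : Fa) (θ₀ : ℝ), 0 < θ₀ → ∃ (W r₀ : ℕ) (δ : ℝ), 0 < δ ∧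
  ∀ Λ, F.Mem Λ → ∀ l L, Λ.Win θ₀ δ l L → Nc.Gd Λ (1 / 400) W r₀ (L / W)

/-! ## UV -/

/-- UV: any collection of Haar bands in dyadic cells, any centred ambient model -/
def UvStmt : Prop := ∀ (F : Fa) (W r₀ : ℕ) (K : ℝ), ∃ C : ℝ, ∀ ε : ℝ, 0 < ε → ∃ (δ : ℝ) (L₀ : ℕ), 0 < δ ∧
  ∀ Λ, F.Mem Λ → ∀ L : ℕ, L₀ ≤ L → Nc.Gd Λ (1 / 400) W r₀ (L / W) →
  ∀ (m : Mdl Pt) (U I : Finset Pt) (c : ℕ) (Jv : Finset ℕ) (μ : ℝ), Nc.Amb Λ m U →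
    (∀ a ∈ I, Λ.Amb m (sq a (2 ^ c))) →
    (∀ a ∈ I, ∀ a' ∈ I, a ≠ a' → Disjoint (sq a (2 ^ c)) (sq a' (2 ^ c))) → Jv ⊆ range c →
    0 ≤ μ → μ * (L : ℝ) ^ 2 ≤ K → 2 ^ c ≤ L → (#I : ℝ) * 4 ^ c ≤ K * (L : ℝ) ^ 2 →
    Thn (I.biUnion fun a => sq a (2 ^ c)) U (K * L) →
      Ex (m.W 0) (fun s => gq (terms I c Jv) (hl μ) s ^ 2) ≤
        Real.exp C * Ex (m.W 0) (gq (terms I c Jv) (hl μ)) ^ 2 ∧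
      ((∀ j ∈ Jv, (2 : ℝ) ^ j ≤ δ * L) → Ex (m.W 0) (fun s => gq (terms I c Jv) (hl μ) s ^ 2) ≤
        Real.exp ε * Ex (m.W 0) (gq (terms I c Jv) (hl μ)) ^ 2)

/-! ## Abstract lemmas -/

/-- Hubbard–Stratonovich: charged, diagonal Gaussian, and shifted functionals -/
def HsStmt : Prop := ∀ (n : ℕ) (K ε : ℝ), 0 < ε → ∃ R η : ℝ, 0 < R ∧ 0 < η ∧
  ∀ (L ι : Type) [AddCommGroup L] [IsAddTorsionFree L] (ρ : L → ℝ) (T : Finset ι) (ℓ : ι → L →+ ℝ),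
    Cen ρ → #T ≤ n →
    (∀ X : L →+ ℝ, (∀ z : ι → ℝ, (∀ j ∈ T, |z j| ≤ R) → Ph ρ (X + zl T ℓ z) ≤ η) →
      Ex ρ (fun s => Real.cos (X s) * gq T ℓ s) ≤ ε) ∧
    (∀ v : ι → ℝ, (∀ j ∈ T, 0 ≤ v j) → (∀ z : ι → ℝ, (∀ j ∈ T, |z j| ≤ R) →
      Ph ρ (zl T ℓ z) ≤ Real.exp (-(∑ j ∈ T, v j * z j ^ 2) / 2) + η) →
      Ex ρ (gq T ℓ) ≤ ∏ j ∈ T, 1 / Real.sqrt (1 + v j) + ε) ∧
    ∀ (X : L →+ ℝ) (h : ι → ℝ) (E : ℝ), (∀ j ∈ T, |h j| ≤ K) → (∀ z : ι → ℝ, (∀ j ∈ T, |z j| ≤ R) →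
      Ph ρ (X + zl T ℓ z) ≤ Real.exp (-E / 2 - ∑ j ∈ T, z j * h j) * Ph ρ (zl T ℓ z) + η) →
      Ex ρ (fun s => Real.cos ((X + zl T ℓ h) s) * gq T ℓ s) ≤
        Real.exp (-(E + ∑ j ∈ T, h j ^ 2) / 2) * Ex ρ (gq T ℓ) + ε

/-- integration of the Stein identity -/
def OdeStmt : Prop := ∀ (L : Type) [AddCommGroup L] [IsAddTorsionFree L] (ρ : L → ℝ) (X ζ : L →+ ℝ)
  (E c ε : ℝ), Cen ρ → 0 ≤ E → (∀ t : ℝ, 0 ≤ t → t ≤ 1 →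
    |Ex ρ (fun s => X s * Real.sin ((t • X + ζ) s)) - (t * E + c) * Ph ρ (t • X + ζ)| ≤ ε) →
    |Ph ρ (X + ζ) - Real.exp (-E / 2 - c) * Ph ρ ζ| ≤ ε * Real.exp |c|

/-- the zero mode (Poisson summation) and the removal of the high modes `H` -/
def ZmStmt : Prop := ∀ K ε : ℝ, 0 < ε → ∃ (Q : ℕ) (η : ℝ), 0 < η ∧
  ∀ (α : Type) (ρ G H ξ b : α → ℝ) (a ω A : ℝ), Wt ρ → (∀ s, 0 < G s ∧ G s ≤ 1) →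
    (∀ s, 0 < H s ∧ H s ≤ 1) → 1 ≤ a → a ≤ K → |ω| ≤ K → 0 ≤ A → A ≤ K →
    Ex ρ (fun s => G s ^ 2) ≤ K * Ex ρ G ^ 2 → Ex ρ (fun s => H s ^ 2) ≤ (1 + η) * Ex ρ H ^ 2 →
    Ex ρ (fun s => Real.cos (ξ s) * G s) ≤ A * Ex ρ G →
    (∀ q : ℤ, q ≠ 0 → |q| ≤ Q → Ex ρ (fun s => Real.cos (ξ s + 2 * Real.pi * q * b s) * G s) ≤ η * Ex ρ G) →
    (∀ q : ℤ, 0 ≤ Ex ρ fun s => Real.cos (2 * Real.pi * q * b s) * G s) →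
    Ex ρ (fun s => (∑' k : ℤ, Real.cos (ξ s + ω * (b s + k)) * Real.exp (-a * (b s + k) ^ 2 / 2)) *
        (G s * H s)) ≤ (Real.exp (-ω ^ 2 / (2 * a)) * A + ε) *
      Ex ρ fun s => (∑' k : ℤ, Real.exp (-a * (b s + k) ^ 2 / 2)) * (G s * H s)

/-- the abstract assembly of MIX0 from `Mx.palm` and `Mx.cross` -/
def AsmStmt : Prop := ∀ C c α : ℝ, 0 < c → 0 < α → ∃ P₀ : ℕ, ∀ P : ℕ, P₀ ≤ P → ∃ η : ℝ, 0 < η ∧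
  ∀ (V ι κ : Type) [DecidableEq V] [Countable V] [DecidableEq κ] (m : Mdl V) (S I : Finset V)
    (Ti To : Finset ι) (Cs : Finset κ) (col : ι → κ) (f ψ : ι → V → ℝ) (v : ι → ℝ)
    (H : Finset V → ι → Prop) (n : ℕ), m.Ctr → m.Anch → #Ti ≤ P ^ 2 → #To ≤ P ^ 2 → #Cs ≤ 4 →
    α * P ≤ n →
    (∀ t, t ∈ Ti ∨ t ∈ To → (∀ y, |f t y| ≤ ψ t y) ∧ 0 ≤ v t ∧ v t ≤ C ∧
      (∀ a : ℝ, M (m.W 0) (a • pr (ψ t)) ≤ C * a ^ 2) ∧ ∀ K : Finset V,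
        Vr ((m.free (m.A \ K)).W 0) (pr (f t)) (pr (f t)) ≤ v t + η ∧
        (H K t → Vr ((m.free (m.A \ K)).W 0) (pr (f t)) (pr (f t)) ≤ v t - c)) →
    (∀ g : Finset ι, g ⊆ Ti ∨ g ⊆ To → (∀ t ∈ g, ∀ t' ∈ g, col t = col t') →
      Ex (m.W 0) (gq g fun t => pr (f t)) ≤ ∏ t ∈ g, 1 / Real.sqrt (1 + v t) + η) →
    (∀ t ∈ Ti, ∀ t' ∈ To, Vr (m.W 0) (pr (ψ t)) (pr (ψ t')) ≤ 1 / (P : ℝ) ^ 20) →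
    (∀ ω ⊆ m.ed, Cross S I ω →
      ∃ k ∈ Cs, ∃ g ⊆ Ti, n ≤ #g ∧ ∀ t ∈ g, col t = k ∧ H (cl S ω) t) →
    (∀ t ∈ Ti, ∀ x ∈ m.A, ψ t x ≠ 0 → ∀ ω ⊆ m.ed, x ∈ cl S ω →
      ∃ k ∈ Cs, ∃ g ⊆ To, n ≤ #g ∧ ∀ t' ∈ g, col t' = k ∧ H (cl {x} ω) t') →
    Pr (m.J 0 0) (fun p => Cross S I p.2) ≤ 1 / (P : ℝ) ^ 8

/-! ## The massive box -/

/-- SITE: independent sites bound; removal of the mass by inf-convolution -/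
def SiteStmt : Prop := ∀ (Λ : Lat) (B : Finset Pt) (μ : ℝ), Λ.Ok → 0 < μ → Λ.Amb (ms Λ B μ) B ∧
  (∀ f : Pt → ℝ, M ((ms Λ B μ).W 0) (pr f) ≤ ip B f f / (2 * μ) ∧
    Vr ((ms Λ B μ).W 0) (pr f) (pr f) ≤ ip B f f / μ) ∧
  ∀ (A : Finset Pt) (f g : Pt → ℝ), A ⊆ B → ((Λ.N B).free A).Anch →
    M (((ms Λ B μ).free A).W 0) (pr f + pr g) ≤
      M (((Λ.N B).free A).W 0) (pr f) + ip B g g / (2 * μ) ∧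
    Vr (((ms Λ B μ).free A).W 0) (pr f + pr g) (pr f + pr g) ≤
      Vr (((Λ.N B).free A).W 0) (pr f) (pr f) + ip B g g / μ

/-- T1x in the massive box, with the mass term -/
def MupStmt : Prop := ∀ (F : Fa) (K ε : ℝ), 0 < ε → ∃ δ : ℝ, 0 < δ ∧ ∀ Λ, F.Mem Λ →
  ∀ l L, Sep δ l L → ∀ (μ : ℝ) (u g : Pt → ℝ) (φ : Pt × Pt → ℝ), 0 < μ → Sm2 u K L →
    (∀ e ∈ Λ.edI (sq 0 L), |φ e| ≤ K / L) →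
      M ((ms Λ (sq 0 L) μ).W 0) (Λ.X L u + pr (dv (Λ.edI (sq 0 L)) φ) + pr g) ≤
        (Λ.tN l * Λ.En (sq 0 L) u u + 2 * Λ.tN l * ∑ e ∈ Λ.edI (sq 0 L), φ e * (u e.2 - u e.1) +
          Λ.τ * ∑ e ∈ Λ.edI (sq 0 L), φ e ^ 2 + ip (sq 0 L) g g / μ) / 2 + ε

/-- unfolding of the zero mode -/
def UnfStmt : Prop := ∀ (Λ : Lat) (L : ℕ) (μ : ℝ) (ξ : Pt → ℝ), Λ.Ok → 1 ≤ L → 0 < μ → Sup (sq 0 L) ξ →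
  Ph ((ms Λ (sq 0 L) μ).W 0) (pr ξ) =
    Ex (Λ.WN L) (fun s => ∑' k : ℤ, Real.cos (pr ξ s + k * ∑ x ∈ sq 0 L, ξ x) *
      Real.exp (-(μ * ∑ x ∈ sq 0 L, ((s x : ℝ) + k) ^ 2) / 2)) /
    Ex (Λ.WN L) fun s => ∑' k : ℤ, Real.exp (-(μ * ∑ x ∈ sq 0 L, ((s x : ℝ) + k) ^ 2) / 2)

/-- the free box with finitely many Haar bands as mass: neutral and charged functionals -/
def PloStmt : Prop := Soft fun Λ K ε _ l L => ∀ (μ : ℝ) (u : Pt → ℝ) (c c₀ : ℕ), L = 2 ^ c →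
  (2 : ℝ) ^ c₀ ≤ K → 0 ≤ μ → μ * (L : ℝ) ^ 2 ≤ K → Sm2 u K L → (∀ x ∈ sq 0 L, |u x| ≤ K) →
    let T := terms {0} c (Ico (c - c₀) c)
    let ξ := (Λ.tN l)⁻¹ • Λ.X L u + zl T (hl μ) (hc μ L u)
    Ex (Λ.WN L) (fun s => Real.cos (ξ s) * gq T (hl μ) s) ≤
      (Real.exp (-(Λ.En (sq 0 L) u u / Λ.tN l + ∑ t ∈ T, hc μ L u t ^ 2) / 2) + ε) *
        Ex (Λ.WN L) (gq T (hl μ)) ∧
    ∀ q : ℤ, q ≠ 0 → |(q : ℝ)| ≤ K →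
      Ex (Λ.WN L) (fun s => Real.cos (ξ s + 2 * Real.pi * q * pr (ua 0 L) s) * gq T (hl μ) s) ≤
        ε * Ex (Λ.WN L) (gq T (hl μ))

/-- PHM: the characteristic function of `f_u` in the massive box -/
def PhmStmt : Prop := Soft fun Λ K ε _ l L => ∀ (μ : ℝ) (u : Pt → ℝ), 1 ≤ μ * (L : ℝ) ^ 2 →
  μ * (L : ℝ) ^ 2 ≤ K → Sm2 u K L → (∀ x ∈ sq 0 L, |u x| ≤ K) →
    Ph ((ms Λ (sq 0 L) μ).W 0) (pr (fu Λ L (Λ.tN l) μ u)) ≤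
      Real.exp (-vu Λ L (Λ.tN l) μ u / 2) + ε

/-- GM: the massive box is a massive free field -/
def GmStmt : Prop := Soft fun Λ K ε _ l L => ∀ (μ : ℝ) (u f : Pt → ℝ), 1 ≤ μ * (L : ℝ) ^ 2 →
  μ * (L : ℝ) ^ 2 ≤ K → Sm2 u K L → (∀ x ∈ sq 0 L, |u x| ≤ K) → ip (sq 0 L) f f ≤ K * μ →
    Gs3 ((ms Λ (sq 0 L) μ).W 0) (pr (fu Λ L (Λ.tN l) μ u)) (vu Λ L (Λ.tN l) μ u) ε ∧
    |Vr ((ms Λ (sq 0 L) μ).W 0) (pr (fu Λ L (Λ.tN l) μ u)) (pr f) - ip (sq 0 L) u f| ≤ ε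

/-! ## Cells -/

/-- CEL: the bumps of the tiles (reflection pairing at the sides of the box) -/
def CelStmt : Prop := ∀ F : Fa, ∃ (C : ℝ) (ρ₀ : ℕ), ∀ Λ, F.Mem Λ → ∀ ρ P : ℕ, ρ₀ ≤ ρ → 8 ∣ ρ →
  ∀ i ∈ sq 0 P,
    Sm2 (ub ρ i) C ρ ∧ (∀ x, 0 ≤ ub ρ i x ∧ ub ρ i x ≤ 1) ∧ (∀ x ∈ nb ρ i (ρ / 8), ub ρ i x = 1) ∧
    (∀ x, x ∉ nb ρ i (ρ / 4) → ub ρ i x = 0) ∧
    (∀ x, |Λ.Au (sq 0 (P * ρ)) (ub ρ i) x| ≤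
      C / (ρ : ℝ) ^ 2 * ind (x ∈ nb ρ i (ρ / 2) ∧ x ∈ sq 0 (P * ρ))) ∧
    Λ.En (sq 0 (P * ρ)) (ub ρ i) (ub ρ i) ≤ C ∧
    ∀ j ∈ sq 0 P, i ≠ j → cls i = cls j → Λ.En (sq 0 (P * ρ)) (ub ρ i) (ub ρ j) = 0 ∧
      ip (sq 0 (P * ρ)) (ub ρ i) (ub ρ j) = 0

/-- ROWS: a set that crosses the cell carries a spread out dipole -/
def RowStmt : Prop := ∀ F : Fa, ∃ (C : ℝ) (ρ₀ : ℕ), ∀ Λ, F.Mem Λ → ∀ ρ P : ℕ, ρ₀ ≤ ρ →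
  ∀ i ∈ sq 0 P, ∀ (K : Finset Pt) (u : Pt → ℝ), (∀ x ∈ nb ρ i (ρ / 8), u x = 1) →
    (∀ x, x ∉ nb ρ i (ρ / 4) → u x = 0) → Hit Λ.rg (P * ρ) ρ K i →
    ∃ φ : Pt × Pt → ℝ, (∀ e ∈ Λ.edI (sq 0 (P * ρ)), |φ e| ≤ C / ρ) ∧
      ∑ e ∈ Λ.edI (sq 0 (P * ρ)), φ e ^ 2 ≤ C ∧ Sup K (dv (Λ.edI (sq 0 (P * ρ))) φ) ∧
      ∑ e ∈ Λ.edI (sq 0 (P * ρ)), φ e * (u e.2 - u e.1) = 1

/-- HIT: a cluster along which a Lipschitz function moves far hits many tiles of one colour -/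
def HitStmt : Prop := ∀ (Λ : Lat) (ρ P n : ℕ) (d : Pt → ℝ) (d₀ : ℝ) (ω : Finset (Pt × Pt)) (x y : Pt)
  (K : Finset Pt), Λ.Ok → Λ.rg ≤ ρ / 2 →
    (∀ z z', |d z - d z'| ≤ max |co 0 (z - z')| |co 1 (z - z')|) → ω ⊆ Λ.edI (sq 0 (P * ρ)) →
    Conn ω x y → d x ≤ d₀ → d₀ + 2 * ρ * (4 * n + 1) ≤ d y →
    (∀ z, Conn ω x z → z ∈ K) →
    ∃ k ∈ sq 0 2, ∃ g ⊆ sq 0 P, n ≤ #g ∧ ∀ i ∈ g, cls i = k ∧ Hit Λ.rg (P * ρ) ρ K i ∧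
      ∀ z ∈ nb ρ i (ρ / 2), d₀ ≤ d z ∧ d z ≤ d₀ + 2 * ρ * (4 * n + 1)

/-- TV: variances after pinning a set, and the joint Gaussian bound for one colour -/
def TvStmt : Prop := ∀ F : Fa, ∃ c : ℝ, 0 < c ∧ ∀ θ₀ K ε : ℝ, 0 < θ₀ → 1 ≤ K → 0 < ε →
  ∃ δ : ℝ, 0 < δ ∧ ∀ Λ, F.Mem Λ → ∀ l L, Λ.Win θ₀ δ l L → ∀ (μ : ℝ) (ρ P : ℕ), L = P * ρ →
    (P : ℝ) ≤ K → 1 ≤ μ * (L : ℝ) ^ 2 → μ * (L : ℝ) ^ 2 ≤ K →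
    let m := ms Λ (sq 0 L) μ
    let f : Pt → Cfg Pt →+ ℝ := fun i => pr (fu Λ L (Λ.tN l) μ (ub ρ i))
    let v : Pt → ℝ := fun i => vu Λ L (Λ.tN l) μ (ub ρ i)
    (∀ i ∈ sq 0 P, ∀ S : Finset Pt, Vr ((m.free (m.A \ S)).W 0) (f i) (f i) ≤ v i + ε ∧
      (Hit Λ.rg L ρ S i → Vr ((m.free (m.A \ S)).W 0) (f i) (f i) ≤ v i - c)) ∧
    ∀ g ⊆ sq 0 P, (∀ i ∈ g, ∀ j ∈ g, cls i = cls j) →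
      Ex (m.W 0) (gq g f) ≤ ∏ i ∈ g, 1 / Real.sqrt (1 + v i) + ε

/-- FF: exponential decay of the covariance (supersolution) -/
def FfStmt : Prop := ∀ (F : Fa) (θ₀ α : ℝ), 0 < θ₀ → 0 < α → ∃ κ : ℝ, 0 < κ ∧ ∀ K ε : ℝ, 1 ≤ K → 0 < ε →
  ∃ δ : ℝ, 0 < δ ∧ ∀ Λ, F.Mem Λ → ∀ l L, Λ.Win θ₀ δ l L → ∀ (μ t : ℝ) (i : Fin 2) (f g : Pt → ℝ),
    1 ≤ μ * (L : ℝ) ^ 2 → μ * (L : ℝ) ^ 2 ≤ K → (∀ x, 0 ≤ f x ∧ f x ≤ μ) → (∀ x, 0 ≤ g x ∧ g x ≤ μ) →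
    (∀ x, f x ≠ 0 → co i x ≤ t) → (∀ y, g y ≠ 0 → t + α * L ≤ co i y) →
      Vr ((ms Λ (sq 0 L) μ).W 0) (pr f) (pr g) ≤
        2 * (μ * (L : ℝ) ^ 2) * Real.exp (-κ * Real.sqrt (μ * (L : ℝ) ^ 2)) + ε

/-! ## Outputs -/

/-- MIX0: crossings of the massive free square between any two sets at distance `α L` -/
def Mix0Stmt : Prop := ∀ (F : Fa) (θ₀ α : ℝ), 0 < θ₀ → 0 < α → ∃ K₀ : ℝ, 1 ≤ K₀ ∧ ∀ K : ℝ,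
  ∃ δ : ℝ, 0 < δ ∧ ∀ Λ, F.Mem Λ → ∀ l L, Λ.Win θ₀ δ l L → ∀ (μ : ℝ) (a : Pt) (S S' : Finset Pt),
    K₀ ≤ μ * (L : ℝ) ^ 2 → μ * (L : ℝ) ^ 2 ≤ K → Far (α * L) S S' →
      Pr ((ms Λ (sq a L) μ).J 0 0) (fun p => Cross S S' p.2) ≤ 1 / (μ * (L : ℝ) ^ 2) ^ 4

end Crest.Agent.T145.Mx
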