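import Crest.Agent.T145.KrDef_77
import Crest.Agent.T145.MxDef_9
import Crest.Agent.T145.MxC_31
import Crest.Agent.T145.NcGeo_51
import Crest.Agent.T145.Soft_23

/-!
# Row 145, module Kr: (F), the screened model factorises (helper9)
-/

set_option autoImplicit false

namespace Crest.Agent.T145

open Finset

namespace F9

/-- cutting a model into two parts across a region that is rarely crossed -/
theorem fac {V : Type} [DecidableEq V] [Countable V] {m : Mdl V} (hc : m.Ctr) {E : Finset (V × V)}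
    (hE : E ⊆ m.ed) (hA : (m.keep E).Anch) {A₁ A₂ R M I O : Finset V} (h12 : m.A = A₁ ∪ A₂)
    (hS : Md.Sep (m.keep E) A₁ A₂) (hR : R ⊆ m.A) (hM : ∀ e ∈ m.ed, e ∉ E → e.1 ∈ M ∧ e.2 ∈ M)
    (hI : Disjoint I A₂) (hO : Disjoint O A₁) (hIR : Disjoint I R) (hOR : Disjoint O R) :
    ∃ p₁ p₂ : Cfg V → ℝ, (∀ s, 0 ≤ p₁ s) ∧ (∀ s, 0 ≤ p₂ s) ∧ ∀ S : Finset (Cfg V × Cfg V),
      ∑ z ∈ S, |push (m.W 0) (fun s => (resH I s, resH O s)) z / Zs (m.W 0) - p₁ z.1 * p₂ z.2| ≤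
        2 * Pr ((m.keep E).J 0 0) fun p => Cross (m.A \ R) M p.2 := by
  set q := Pr ((m.keep E).J 0 0) fun p => Cross (m.A \ R) M p.2 with hq
  set π : Cfg V → Cfg V × Cfg V := fun s => (resH I s, resH O s) with hπ
  have kc := Md.ctr_keep hc hE
  have w := (Md.ctr_cen hc (Md.anch_of_keep hE hA)).wt
  have w' := (Md.ctr_cen kc hA).wt
  have s1 : A₁ ⊆ (m.keep E).A := h12 ▸ subset_union_left
  have s2 : A₂ ⊆ (m.keep E).A := h12 ▸ subset_union_right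
  have w1 := (Md.ctr_cen (Md.ctr_free kc s1) (Md.anch_free hA s1)).wt
  have w2 := (Md.ctr_cen (Md.ctr_free kc s2) (Md.anch_free hA s2)).wt
  have dep : ∀ {U B : Finset V}, Disjoint U B → ∀ s t : Cfg V, (∀ x, x ∉ B → s x = t x) →
      resH U s = resH U t := fun h s t e => Finsupp.ext fun x => by
    rw [resH_apply, resH_apply]
    split_ifs with hx
    · exact e x (disjoint_left.1 h hx)
    · rfl
  have q0 : 0 ≤ q := Ex_nonneg (Mx.J0 kc) fun _ _ => ind_nonneg _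
  refine ⟨fun a => Pr (((m.keep E).free A₁).W 0) fun s => resH I s = a,
    fun b => Pr (((m.keep E).free A₂).W 0) fun s => resH O s = b,
    fun _ => Ex_nonneg w1.nonneg fun _ _ => ind_nonneg _,
    fun _ => Ex_nonneg w2.nonneg fun _ _ => ind_nonneg _, fun S => ?_⟩
  have e1 : ∀ z : Cfg V × Cfg V, (Pr (((m.keep E).free A₁).W 0) fun s => resH I s = z.1) *
      (Pr (((m.keep E).free A₂).W 0) fun s => resH O s = z.2) =
      push ((m.keep E).W 0) π z / Zs ((m.keep E).W 0) := fun z => by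
    rw [w'.push_eq, mul_div_cancel_left₀ _ w'.pos.ne', Pr, Pr, Pr, ← (Md.ex_split kc.1 h12 hS
      (fun s t e => by rw [dep hI s t e]) (fun s t e => by rw [dep hO s t e]) w1.summ w2.summ
      (w1.ig_ind _) (w2.ig_ind _)).2]
    exact congrArg _ (funext fun s => by rw [← ind_and]; exact ind_congr (Prod.ext_iff (x := π s)).symm)
  have e2 : ∀ z, push (m.W 0) π z / Zs (m.W 0) * (1 - q) ≤
      push ((m.keep E).W 0) π z / Zs ((m.keep E).W 0) := fun z => by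
    rw [w'.push_eq, mul_div_cancel_left₀ _ w'.pos.ne', w.push_eq, mul_div_cancel_left₀ _ w.pos.ne']
    exact Mx31.cut_out hc hE hA hR hM (fun s t e => by simp only [hπ, dep hIR s t e, dep hOR s t e])
      (fun _ => ind_nonneg _) (w'.ig_ind _)
  have a1 := (hasSum_push w.summ π).div_const (Zs (m.W 0))
  have a2 := (hasSum_push w'.summ π).div_const (Zs ((m.keep E).W 0))
  have a3 := ((a1.mul_left (2 * q)).add a2).sub a1
  have key : ∀ z, |push (m.W 0) π z / Zs (m.W 0) - push ((m.keep E).W 0) π z / Zs ((m.keep E).W 0)| ≤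
      2 * q * (push (m.W 0) π z / Zs (m.W 0)) + push ((m.keep E).W 0) π z / Zs ((m.keep E).W 0) -
        push (m.W 0) π z / Zs (m.W 0) := fun z => by
    have b1 := e2 z
    have b2 := mul_nonneg q0 (div_nonneg (push_nonneg w.nonneg π z) w.pos.le)
    rw [abs_le]
    constructor <;> linarith
  simp only [e1]
  refine (sum_le_sum fun z _ => key z).trans ((sum_le_hasSum S
    (fun z _ => (abs_nonneg _).trans (key z)) a3).trans (le_of_eq ?_))
  have c1 : (∑' s, m.W 0 s) / Zs (m.W 0) = 1 := div_self w.pos.ne'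
  have c2 : (∑' s, (m.keep E).W 0 s) / Zs ((m.keep E).W 0) = 1 := div_self w'.pos.ne'
  rw [c1, c2]; ring

theorem far_of {h : ℕ} {S S' : Finset Pt}
    (H : ∀ x ∈ S, ∀ y ∈ S', (h : ℤ) ≤ |x.1 - y.1| ∨ (h : ℤ) ≤ |x.2 - y.2|) : Mx.Far h S S' :=
  fun x hx y hy => by
    simp only [co, Matrix.cons_val_zero, Matrix.cons_val_one, Prod.fst_sub, Prod.snd_sub]
    exact_mod_cast H x hx y hy

theorem ctr_ms {Λ : Lat} (hΛ : Λ.Ok) (B : Finset Pt) {μ : ℝ} (hμ : 0 < μ) :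
    (Mx.ms Λ B μ).Ctr ∧ (Mx.ms Λ B μ).Anch := by
  have k := (gauStmt _ (inv_pos.2 hμ)).1
  refine ⟨Md.ctr_mulSite (hΛ.ctr_N B) fun _ _ => ⟨k.cen.toRSD, k.pd, gau_pos _ _⟩,
    Md.anch_of_se fun x _ => ?_⟩
  have : (Mx.ms Λ B μ).site x = gau μ⁻¹ := funext fun k => one_mul _
  rw [this]; exact k.cen.se

/-- a local crossing inside a massive square of the ambient model -/
theorem lx_sq {Λ : Lat} (hΛ : Λ.Ok) {m : Mdl Pt} (hc : m.Ctr) (hA : m.Anch) {a : Pt} {h : ℕ} {μ q : ℝ}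
    (hμ : 0 < μ) (hh : 2 * Λ.rg ≤ h) (h1 : sq a (8 * h) ⊆ m.A) (h2 : Λ.edI (sq a (8 * h)) ⊆ m.ed)
    (h3 : ∀ e ∈ m.ed, e.2 - e.1 ∈ Λ.Jp ∧ m.w e = Λ.w)
    (h4 : ∀ x ∈ sq a (8 * h), ∀ k, m.site x k = gau μ⁻¹ k) (hq : q ≤ 1 / 2)
    (hm : ∀ S S', Mx.Far h S S' →
      Pr ((Mx.ms Λ (sq a (8 * h)) μ).J 0 0) (fun p => Cross S S' p.2) ≤ q) :
    Pr (m.J 0 0) (fun p => Mx31.Lx (sq (a.1 + 4 * h, a.2 + 4 * h) h)
      (sq (a.1 + 3 * h, a.2 + 3 * h) (3 * h)) p.2) ≤ 2 * q := by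
  obtain ⟨u, hu⟩ : ∃ u, u + 2 * Λ.rg = 8 * h := ⟨8 * h - 2 * Λ.rg, by omega⟩
  obtain ⟨c1, c2⟩ := ctr_ms hΛ (sq a (8 * h)) hμ
  have hA' : (Mx.ms Λ (sq a (8 * h)) μ).A = sq a (8 * h) := rfl
  have hE' : (Mx.ms Λ (sq a (8 * h)) μ).ed = Λ.edI (sq a (8 * h)) := rfl
  have hU : sq (a.1 + Λ.rg, a.2 + Λ.rg) u ⊆ sq a (8 * h) := fun x hx => by
    simp only [mem_sq] at *; omega
  refine Mx31.Agr.lx_le (P := Mx.ms Λ (sq a (8 * h)) μ) (U := sq (a.1 + Λ.rg, a.2 + Λ.rg) u)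
    (B := sq (a.1 + 3 * h - Λ.rg, a.2 + 3 * h - Λ.rg) (3 * h + 2 * Λ.rg))
    ⟨h2, fun e he => (h3 e (h2 he)).2, fun e he => ⟨fun _ => (Lat.mem_edI.1 he).2.1,
      fun _ => (Lat.mem_edI.1 he).2.2⟩, fun x hx _ => ⟨fun _ => 1, pd_one, fun _ => zero_le_one, one_pos,
      fun k => by rw [h4 x hx, mul_one]; exact (one_mul _).symm⟩,
      fun x _ k => mul_pos one_pos (gau_pos _ _), hU.trans h1, hU, fun e he h' => ?_,
      fun x hx k => by rw [h4 x (hU hx)]; exact (one_mul _).symm⟩ hc hA c1 c2 (fun x hx => ?_)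
    (fun x hx => ?_) (fun e he h' => ?_) hq (hm _ _ (far_of fun x hx y hy => ?_))
    (hm _ _ (far_of fun x hx y hy => ?_))
  · have := mem_bl.1 (Lat.edge_near (h3 e he).1)
    rw [hE', Lat.mem_edI]
    refine ⟨(h3 e he).1, ?_⟩
    simp only [mem_sq] at *; omega
  · rw [hA']; simp only [mem_sq] at *; omega
  · simp only [mem_sq] at *; omega
  · have := mem_bl.1 (Lat.edge_near (h3 e he).1)
    rw [hE', Lat.mem_edI, and_iff_right (h3 e he).1]
    simp only [mem_sq] at *; omega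
  · rw [hA'] at hx; simp only [mem_sdiff, mem_sq, le_abs] at *; omega
  · rw [hA'] at hx; simp only [mem_sdiff, mem_sq, le_abs] at *; omega

open Nc Nc.Geo Pot.H59 in
/-- the massive ring in the free annulus -/
theorem core {Λ : Lat} (hΛ : Λ.Ok) {c r R R₂ h : ℕ} {Z : Finset Pt} {μ q : ℝ} (hμ : 0 < μ)
    (hh : 2 * Λ.rg ≤ h) (h0 : 0 < h) (hc : c ≤ r) (hr : r ≤ 80 * h) (hR : 112 * h ≤ R) (hR₂ : R ≤ R₂)
    (hZ : an 0 (80 * h) (112 * h) ⊆ Z) (hq : q ≤ 1 / 2) (hm : ∀ a S S', Mx.Far h S S' →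
      Pr ((Mx.ms Λ (sq a (8 * h)) μ).J 0 0) (fun p => Cross S S' p.2) ≤ q) :
    let m := (Λ.N (an 0 c R₂)).mulSite fun x k => if x ∈ Z then gau μ⁻¹ k else 1
    ∃ p₁ p₂ : Cfg Pt → ℝ, (∀ s, 0 ≤ p₁ s) ∧ (∀ s, 0 ≤ p₂ s) ∧ ∀ S : Finset (Cfg Pt × Cfg Pt),
      ∑ z ∈ S, |push (m.W 0) (fun s => (resH (an 0 c r) s, resH (an 0 R R₂) s)) z / Zs (m.W 0) -
        p₁ z.1 * p₂ z.2| ≤ 2 ^ 18 * q := by
  intro m
  have k := (gauStmt _ (inv_pos.2 hμ)).1
  have ma : ∀ {x : Pt} {a b : ℕ}, x ∈ an 0 a b ↔ ds 0 x ≤ b ∧ (a : ℤ) < ds 0 x := by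
    intro x a b; rw [mem_an, mem_bl_ds, mem_bl_ds, not_le]
  have hc' : m.Ctr := Md.ctr_mulSite (hΛ.ctr_N _) fun x _ => by
    by_cases hx : x ∈ Z
    · simp only [if_pos hx]; exact ⟨k.cen.toRSD, k.pd, gau_pos _ _⟩
    · simp only [if_neg hx]; exact ⟨rsd_one51, pd_one, one_pos⟩
  have hs : ∀ x ∈ an 0 (80 * h) (112 * h), m.site x = gau μ⁻¹ := fun x hx => funext fun k => by
    show 1 * (if x ∈ Z then gau μ⁻¹ k else 1) = _
    rw [if_pos (hZ hx), one_mul]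
  set E := (Λ.edI (an 0 c R₂)).filter fun e => ds 0 e.1 ≤ 96 * h ↔ ds 0 e.2 ≤ 96 * h with hE
  have mE : ∀ {e : Pt × Pt}, e ∈ E ↔ (e.2 - e.1 ∈ Λ.Jp ∧ e.1 ∈ an 0 c R₂ ∧ e.2 ∈ an 0 c R₂) ∧
      (ds 0 e.1 ≤ 96 * h ↔ ds 0 e.2 ≤ 96 * h) := by
    intro e; rw [hE, mem_filter, Lat.mem_edI]
  have sub : ∀ U : Finset Pt, U ⊆ an 0 c (96 * h) ∨ U ⊆ an 0 (96 * h) R₂ →
      U ⊆ an 0 c R₂ ∧ Λ.edI U ⊆ E := fun U hU => by
    have a : U ⊆ an 0 c R₂ :=
      hU.elim (fun h => h.trans (an_mono _ le_rfl (by omega))) fun h => h.trans (an_mono _ (by omega) le_rfl)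
    refine ⟨a, fun e he => ?_⟩
    obtain ⟨b1, b2, b3⟩ := Lat.mem_edI.1 he
    refine mE.2 ⟨⟨b1, a b2, a b3⟩, ?_⟩
    rcases hU with h | h <;> have d2 := ma.1 (h b2) <;> have d3 := ma.1 (h b3) <;> omega
  have hA : (m.keep E).Anch := fun x hx => by
    have hx' := ma.1 hx
    have key : ∀ (a b : ℕ) (y : Pt), a < b → x ∈ an 0 a b → y ∈ an 0 a b → y ∈ an 0 (80 * h) (112 * h) →
        Λ.edI (an 0 a b) ⊆ E → ∃ y, Conn E x y ∧ (y ∉ m.A ∨ SE (m.site y)) := fun a b y h1 h2 h3 h4 h5 =>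
      ⟨y, (cnL_an hΛ 0 h1 x h2 y h3).mono h5, Or.inr (by rw [hs y h4]; exact k.cen.se)⟩
    by_cases h1 : ds 0 x ≤ 96 * h
    · refine key c (96 * h) (96 * h, 0) (by omega) (ma.2 (by omega)) ?_ ?_ (sub _ (Or.inl le_rfl)).2 <;>
        simp only [mem_an, mem_bl, Prod.fst_zero, Prod.snd_zero] <;> omega
    · refine key (96 * h) R₂ (97 * h, 0) (by omega) (ma.2 (by omega)) ?_ ?_ (sub _ (Or.inr le_rfl)).2 <;>
        simp only [mem_an, mem_bl, Prod.fst_zero, Prod.snd_zero] <;> omega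
  have lip : ∀ e : Pt × Pt, e.2 - e.1 ∈ Λ.Jp → |ds 0 e.2 - ds 0 e.1| ≤ Λ.rg := fun e he =>
    ds_lip 0 (Lat.edge_near he)
  have dj : ∀ a b a' b' : ℕ, b ≤ a' ∨ b' ≤ a → Disjoint (an 0 a b) (an 0 a' b') := fun a b a' b' h =>
    disjoint_left.2 fun x h1 h2 => by have := ma.1 h1; have := ma.1 h2; omega
  obtain ⟨p₁, p₂, a1, a2, a3⟩ := fac (m := m) hc' (E := E) (filter_subset _ _) hA
    (A₁ := an 0 c (96 * h)) (A₂ := an 0 (96 * h) R₂) (R := an 0 (80 * h) (112 * h))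
    (M := an 0 (95 * h) (97 * h)) (I := an 0 c r) (O := an 0 R R₂)
    (an_union_an 0 (by omega) (by omega)).symm
    ⟨dj _ _ _ _ (Or.inl le_rfl), fun e he => by
      have := (mE.1 he).2
      simp only [ma]; omega⟩
    (an_mono _ (by omega) (by omega))
    (fun e he he' => by
      obtain ⟨b1, b2, b3⟩ := Lat.mem_edI.1 he
      have b4 := lip e b1
      rw [mE, and_iff_right ⟨b1, b2, b3⟩] at he'
      simp only [ma, abs_le] at *; omega)
    (dj _ _ _ _ (by omega)) (dj _ _ _ _ (by omega)) (dj _ _ _ _ (by omega)) (dj _ _ _ _ (by omega))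
  refine ⟨p₁, p₂, a1, a2, fun S => (a3 S).trans ?_⟩
  have kc : (m.keep E).Ctr := Md.ctr_keep hc' (filter_subset _ _)
  set a : Pt → Pt := fun i => ((tile (-(128 * h), -(128 * h)) h i).1 - 4 * h,
    (tile (-(128 * h), -(128 * h)) h i).2 - 4 * h) with ha
  obtain ⟨n, hn⟩ : ∃ n : ℕ, n = 256 := ⟨_, rfl⟩
  set T := (sq 0 n).filter fun i => sq (a i) (8 * h) ⊆ an 0 (80 * h) (96 * h) ∨
    sq (a i) (8 * h) ⊆ an 0 (96 * h) (112 * h) with hT
  have b1 := Mx31.ring (m := m.keep E) (Mx.wtJ kc hA) (S := m.A \ an 0 (80 * h) (112 * h))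
    (S' := an 0 (95 * h) (97 * h)) (d := fun x => ((-|ds 0 x - 96 * h| : ℤ) : ℝ)) (ρ := Λ.rg)
    (t := ((-(8 * h) : ℤ) : ℝ))
    (fun e he => by
      have := lip e (mE.1 he).1.1
      have b : |(-|ds 0 e.1 - 96 * h|) - (-|ds 0 e.2 - 96 * h|)| ≤ (Λ.rg : ℤ) := by
        simp only [abs_eq_max_neg] at *; omega
      exact_mod_cast b)
    (fun x hx => Int.cast_lt.2 (by
      have := (mem_sdiff.1 hx).2
      simp only [ma, abs_eq_max_neg] at *; omega))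
    (fun x hx => Int.cast_le.2 (by simp only [ma, abs_eq_max_neg] at *; omega)) T
    (I := fun i => sq ((a i).1 + 4 * h, (a i).2 + 4 * h) h)
    (B := fun i => sq ((a i).1 + 3 * h, (a i).2 + 3 * h) (3 * h)) fun e _ z _ h1 h2 => by
      have h1' : -(8 * h : ℤ) ≤ -|ds 0 z - 96 * h| := by exact_mod_cast h1
      have h2' : -|ds 0 z - 96 * h| < -(8 * h : ℤ) + Λ.rg := by exact_mod_cast h2
      set i := tileOf (-(128 * h), -(128 * h)) h z with hi
      have c1 := mem_sq.1 ((mem_tile_iff h0).2 hi.symm)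
      have c2 : ∀ y ∈ sq (a i) (8 * h), |ds 0 y - ds 0 z| ≤ (5 * h : ℕ) := fun y hy =>
        ds_lip 0 (by simp only [ha, mem_sq, mem_bl] at *; omega)
      have c3 : sq (a i) (8 * h) ⊆ an 0 (80 * h) (96 * h) ∨ sq (a i) (8 * h) ⊆ an 0 (96 * h) (112 * h) := by
        rcases le_total (ds 0 z) (96 * h) with h3 | h3
        · exact Or.inl fun y hy => by
            have := c2 y hy
            simp only [ma, abs_eq_max_neg] at *; omega
        · exact Or.inr fun y hy => by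
            have := c2 y hy
            simp only [ma, abs_eq_max_neg] at *; omega
      refine ⟨i, mem_filter.2 ⟨(tileOf_mem h0).2 ?_, c3⟩, ?_, Or.inl (disjoint_left.2 fun y hy hy' => ?_)⟩
      · have : z ∈ bl 0 (104 * h) := mem_bl_ds.2 (by simp only [abs_eq_max_neg] at h1'; omega)
        rw [show n * h = 256 * h by rw [hn]]
        simp only [mem_sq, mem_bl, Prod.fst_zero, Prod.snd_zero] at this ⊢; omega
      · simp only [ha, mem_sq]; omega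
      · have c4 : y ∈ sq (a i) (8 * h) := by simp only [mem_sq] at hy' ⊢; omega
        exact (mem_sdiff.1 hy).2 (c3.elim (fun h => an_mono _ le_rfl (by omega) (h c4))
          fun h => an_mono _ (by omega) le_rfl (h c4))
  have q0 : 0 ≤ q := le_trans (Ex_nonneg (Mx.J0 (ctr_ms hΛ _ hμ).1) fun _ _ => ind_nonneg _)
    (hm 0 ∅ ∅ fun _ h => absurd h (notMem_empty _))
  have b2 := sum_le_card_nsmul T _ (2 * q) fun i hi => by
    have c3 := (mem_filter.1 hi).2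
    have c4 := sub (sq (a i) (8 * h)) (c3.imp (fun h => h.trans (an_mono _ (by omega) le_rfl))
      fun h => h.trans (an_mono _ le_rfl (by omega)))
    exact lx_sq hΛ kc hA hμ hh c4.1 c4.2 (fun e he => ⟨(mE.1 he).1.1, rfl⟩) (fun x hx k => congrFun
      (hs x (c3.elim (fun h => an_mono _ le_rfl (by omega) (h hx))
        fun h => an_mono _ (by omega) le_rfl (h hx))) k) hq (hm _)
  have b3 : (#T : ℝ) ≤ 2 ^ 16 := by
    have := (card_filter_le (sq 0 n) _ : #T ≤ _)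
    rw [card_sq] at this
    have b4 : (#T : ℝ) ≤ (n : ℝ) ^ 2 := by exact_mod_cast this
    have b5 : (n : ℝ) = 256 := by exact_mod_cast hn
    rw [b5] at b4
    linarith
  rw [nsmul_eq_mul] at b2
  nlinarith [b1.trans b2]

end F9

namespace Kr

theorem fStmt (hM : Mx.Mix0Stmt) (hAl : AlgStmt) (hm : T1mStmt) : FStmt := by
  intro F θ₀ W K ε hθ hK hε
  obtain ⟨K₀, hK₀, H⟩ := hM F (θ₀ / 2) (1 / 8) (by positivity) (by norm_num)
  obtain ⟨a₀, ha₀⟩ := pow_unbounded_of_one_lt (64 * (K₀ + 1 + 2 ^ 18 / ε)) (by norm_num : (1 : ℝ) < 4)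
  refine ⟨a₀, fun a ha => ?_⟩
  set x : ℝ := 4 ^ a / 64 with hx
  have x1 : K₀ + 1 + 2 ^ 18 / ε ≤ x := by
    have := pow_le_pow_right₀ (by norm_num : (1 : ℝ) ≤ 4) ha
    rw [hx, le_div_iff₀ (by norm_num)]; linarith
  have e0 : 0 < 2 ^ 18 / ε := by positivity
  have x2 : 1 / x ^ 4 ≤ 1 / x := one_div_le_one_div_of_le (by linarith)
    (le_self_pow₀ (by linarith) (by norm_num))
  obtain ⟨δ₁, hδ₁, H⟩ := H x
  obtain ⟨k, hk⟩ := pow_unbounded_of_one_lt (512 * K) (by norm_num : (1 : ℝ) < 2)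
  refine exists_of_ev ?_
  filter_upwards [ev_subwin hm F hθ hδ₁ k, ev_large' (64 * K * (128 * (F.base.rg + 1)))]
    with δ h1 h2 Λ hΛ l L hw G hG hA
  have A := hAl G W hG
  have r1 : (L : ℝ) ≤ 64 * K * G.rho := by
    have : (G.R : ℝ) ≤ 64 * G.rho := by exact_mod_cast A.le_rho
    nlinarith [hA.2]
  have r2 : 128 * (Λ.rg + 1) ≤ G.rho := by
    have := le_of_mul_le_mul_left ((h2 l L hw.sep).2.2.trans r1) (by positivity)
    rw [hΛ.rg_eq]; exact_mod_cast this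
  obtain ⟨j, hj⟩ : ∃ j, G.p = j + 6 := Nat.exists_eq_add_of_le' (by
    by_contra h
    have : 2 ^ G.p ≤ 2 ^ 6 := Nat.pow_le_pow_right two_pos (by omega)
    unfold Gm.rho at r2; omega)
  have r3 : G.rho = 64 * 2 ^ j := by rw [Gm.rho, hj]; ring
  have r4 : 2 ^ (j + 3) = 8 * 2 ^ j := by ring
  have h0 : 0 < 2 ^ j := by positivity
  have w := h1 Λ hΛ l L hw (j + 3) (by have := A.rho_le; have := hA.1; omega) (Or.inl (by
    have : (L : ℝ) ≤ 2 ^ (j + 3 + k) := by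
      rw [r3] at r1
      push_cast at r1
      rw [pow_add, pow_add]
      nlinarith [mul_le_mul_of_nonneg_right hk.le (by positivity : (0 : ℝ) ≤ 2 ^ j)]
    exact_mod_cast this))
  rw [r4] at w
  have m1 : G.ms a * ((8 * 2 ^ j : ℕ) : ℝ) ^ 2 = x := by
    rw [Gm.ms, r3, hx, show (4 : ℝ) ^ a = (2 ^ a) ^ 2 by rw [← pow_mul, mul_comm, pow_mul]; norm_num]
    push_cast
    field_simp
    norm_num
  have m0 : 0 < G.ms a := by rw [Gm.ms, r3]; positivity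
  obtain ⟨p₁, p₂, a1, a2, a3⟩ := F9.core hΛ.ok (c := G.c) (r := G.r) (R := G.R) (R₂ := G.R₂)
    (h := 2 ^ j) (Z := G.Ga) (q := 1 / x ^ 4) m0 (by omega) h0 (by have := hG.hc; omega)
    (by have := A.r_le; omega) (by have := A.rho_le; omega) (by have := hG.out; omega)
    ((Nc.Geo.an_mono _ (by omega) (by omega)).trans A.sub_Ga)
    (x2.trans (one_div_le_one_div_of_le two_pos (by linarith))) fun b S S' hS => by
      have := H Λ hΛ l _ w (G.ms a) b S S' (by rw [m1]; linarith) m1.le (by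
        rwa [show (1 / 8 : ℝ) * ((8 * 2 ^ j : ℕ) : ℝ) = ((2 ^ j : ℕ) : ℝ) by push_cast; ring])
      rwa [m1] at this
  refine ⟨p₁, p₂, a1, a2, fun S => (a3 S).trans ?_⟩
  refine (mul_le_mul_of_nonneg_left x2 (by norm_num)).trans ?_
  rw [mul_one_div, div_le_comm₀ (by linarith) hε]
  linarith

end Kr

end Crest.Agent.T145
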