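import Crest.Agent.T145.MxRg_31
import Crest.Agent.T145.KrFs_9

/-!
# Row 145, module Kv: factorisation across a massive ring for weights with seam factors (helper9)
-/

set_option autoImplicit false

namespace Crest.Agent.T145

open Finset

namespace F9

section abs
variable {V : Type} [DecidableEq V] [Countable V] {m P : Mdl V}

omit [Countable V] in
theorem wtU (hc : m.Ctr) {U : Cfg V → ℝ} (U0 : ∀ s, 0 ≤ U s) (Up : 0 < U 0)
    (hW : Summable fun s => U s * m.W 0 s) : Wt fun s => U s * m.W 0 s :=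
  Wt.of_pos (fun s => mul_nonneg (U0 s) (Mdl.W_nonneg (fun e he k => (hc.1 e he).nonneg k) hc.nn 0 s)) hW
    (a := 0) (mul_pos Up (Md.W_pos hc.1 (fun _ _ => rfl) fun x hx => (hc.2 x hx).2.2))

/-- a PD factor read on `M` changes the law off `R` by at most `1 / P(NC)`; the weight carries a PD factor `U`
blind to `R`, the crossing is measured in a model `P` that agrees with `m` on `R` -/
theorem pd_outX (hc : m.Ctr) (hP : P.Ctr) (hA : P.Anch) {R M : Finset V} (hg : Mx31.Agr m P R)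
    {U G F : Cfg V → ℝ} (hU : PD U) (U0 : ∀ s, 0 ≤ U s) (Up : 0 < U 0) (hUR : Out R U)
    (hW : Summable fun s => U s * m.W 0 s) (hG : PD G) (h0 : ∀ s, 0 ≤ G s) (hM : Dep M G)
    (hMP : M ⊆ P.A) (hF : Out R F) (hF0 : ∀ s, 0 ≤ F s) {C : ℝ} (hC : ∀ s, |F s| ≤ C) :
    Ex (fun s => U s * m.W 0 s) (fun s => G s * F s) *
        (1 - Pr (P.J 0 0) fun p => Cross (P.A \ R) M p.2) ≤
      Ex (fun s => U s * m.W 0 s) G * Ex (fun s => U s * m.W 0 s) F := by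
  have w := wtU hc U0 Up hW
  have n := Mx31.nd1 hP hA (P.A \ R) hG h0 hM
  rw [Finset.sdiff_sdiff_eq_self hg.UP] at n
  obtain ⟨H, g1, g2, g3, g4, g5⟩ := hg.dens hc hP.1
  have e : ∀ s, U s * m.W 0 s = U s * H s * P.W 0 (resH P.A s) := fun s => by rw [g5, mul_assoc]
  obtain ⟨d1, d2, d3⟩ := Cut7.dens pdStmt (resH P.A) (hU.mul g1) (fun s => mul_nonneg (U0 s) (g2 s))
    (mul_pos Up g3) g4 e hW
  have eG : (fun s => G (resH P.A s)) = G := funext fun s => hM _ _ fun x hx => by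
    rw [resH_apply, if_pos (hMP hx)]
  have d := (Cut7.dens_ex (resH P.A) e hW (F := G) (w.ig_bdd fun _ => hG.abs_le _)).2
  rw [eG] at d
  have lo := (((hP.cen hA).loc_mul d1 d2 d3).ex_le hG).trans_eq d.symm
  have hI := w.ig_bdd hC
  obtain ⟨i, e'⟩ := Mdl.towerU_mul hg.Um hUR hF w (hI.mul_bdd w.nonneg hG.abs_le)
  have a : Ex (fun s => U s * m.W 0 s) (fun s => G s * F s) ≤
      Ex (fun s => U s * m.W 0 s) F * Ex ((P.free R).W 0) G := by
    rw [Ex_congr (G := fun s => F s * G s) fun s _ => mul_comm _ _, e', ← Ex_mul_const]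
    refine Ex_mono w.nonneg i (hI.mul_const _) fun s => mul_le_mul_of_nonneg_left ?_ (hF0 s)
    rw [Mdl.cE_def, (hg.pp hc.1 hP.1 s).ex]
    exact (le_abs_self _).trans (Mx31.ex_bc_le (hP.free hg.UP) (hA.free hg.UP) hG s)
  have b := (Mx.wtJ hP hA).pr_le_one fun p : Mx.PP V => Cross (P.A \ R) M p.2
  have c : 0 ≤ Ex (fun s => U s * m.W 0 s) F := Ex_nonneg w.nonneg fun s _ => hF0 s
  calc _ ≤ Ex (fun s => U s * m.W 0 s) F * Ex ((P.free R).W 0) G *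
        (1 - Pr (P.J 0 0) fun p => Cross (P.A \ R) M p.2) :=
        mul_le_mul_of_nonneg_right a (sub_nonneg.2 b)
    _ ≤ _ := by rw [mul_assoc, mul_comm _ (Ex (fun s => U s * m.W 0 s) F)]
                exact mul_le_mul_of_nonneg_left (by rw [mul_comm]; exact n.trans lo) c

omit [DecidableEq V] [Countable V] in
/-- one-sided comparison of two laws gives total variation -/
theorem tv_of_le {α β : Type*} {W W' : α → ℝ} (w : Wt W) (w' : Wt W') (π : α → β) {q : ℝ} (q0 : 0 ≤ q)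
    (h : ∀ z, (Pr W fun s => π s = z) * (1 - q) ≤ Pr W' fun s => π s = z) (S : Finset β) :
    ∑ z ∈ S, |push W π z / Zs W - Pr W' fun s => π s = z| ≤ 2 * q := by
  have e : ∀ {W : α → ℝ}, Wt W → ∀ z, (Pr W fun s => π s = z) = push W π z / Zs W := fun w z => by
    rw [w.push_eq, mul_div_cancel_left₀ _ w.pos.ne']
  simp only [e w, e w'] at h ⊢
  have a1 := (hasSum_push w.summ π).div_const (Zs W)
  have a2 := (hasSum_push w'.summ π).div_const (Zs W')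
  have a3 := ((a1.mul_left (2 * q)).add a2).sub a1
  have key : ∀ z, |push W π z / Zs W - push W' π z / Zs W'| ≤
      2 * q * (push W π z / Zs W) + push W' π z / Zs W' - push W π z / Zs W := fun z => by
    have b1 := h z
    have b2 := mul_nonneg q0 (div_nonneg (push_nonneg w.nonneg π z) w.pos.le)
    rw [abs_le]
    constructor <;> linarith
  refine (sum_le_sum fun z _ => key z).trans ((sum_le_hasSum S
    (fun z _ => (abs_nonneg _).trans (key z)) a3).trans (le_of_eq ?_))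
  have c1 : (∑' s, W s) / Zs W = 1 := div_self w.pos.ne'
  have c2 : (∑' s, W' s) / Zs W' = 1 := div_self w'.pos.ne'
  rw [c1, c2]; ring

/-- **(F) with seam factors**: the weight `U₁ U₂ m.W 0`; the kept edges `E` separate `A₁` from `A₂`, the
dropped edges lie in `M`; the crossing is measured in the model `P` -/
theorem facX (hc : m.Ctr) {E : Finset (V × V)} (hE : E ⊆ m.ed) (hP : P.Ctr) (hA : P.Anch)
    {A₁ A₂ R M I O : Finset V} (hg : Mx31.Agr (m.keep E) P R) (h12 : m.A = A₁ ∪ A₂)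
    (hS : Md.Sep (m.keep E) A₁ A₂) (hM : ∀ e ∈ m.ed, e ∉ E → e.1 ∈ M ∧ e.2 ∈ M) (hMP : M ⊆ P.A)
    {U₁ U₂ : Cfg V → ℝ} (p1 : PD U₁) (n1 : ∀ s, 0 ≤ U₁ s) (z1 : 0 < U₁ 0) (o1 : Out A₂ U₁)
    (r1 : Out R U₁) (p2 : PD U₂) (n2 : ∀ s, 0 ≤ U₂ s) (z2 : 0 < U₂ 0) (o2 : Out A₁ U₂) (r2 : Out R U₂)
    (s1 : Summable fun s => U₁ s * ((m.keep E).free A₁).W 0 s)
    (s2 : Summable fun s => U₂ s * ((m.keep E).free A₂).W 0 s)
    (hI : Disjoint I A₂) (hO : Disjoint O A₁) (hIR : Disjoint I R) (hOR : Disjoint O R)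
    {W : Cfg V → ℝ} (hW : ∀ s, W s = U₁ s * U₂ s * m.W 0 s) :
    ∃ p₁ p₂ : Cfg V → ℝ, (∀ s, 0 ≤ p₁ s) ∧ (∀ s, 0 ≤ p₂ s) ∧ ∀ S : Finset (Cfg V × Cfg V),
      ∑ z ∈ S, |push W (fun s => (resH I s, resH O s)) z / Zs W - p₁ z.1 * p₂ z.2| ≤
        2 * Pr (P.J 0 0) fun p => Cross (P.A \ R) M p.2 := by
  set π : Cfg V → Cfg V × Cfg V := fun s => (resH I s, resH O s) with hπ
  have kc : (m.keep E).Ctr := hc.keep hE
  have w1 := wtU (kc.free (A' := A₁) (h12 ▸ subset_union_left)) n1 z1 s1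
  have w2 := wtU (kc.free (A' := A₂) (h12 ▸ subset_union_right)) n2 z2 s2
  have dep : ∀ {U B : Finset V}, Disjoint U B → Out B (resH U) := fun h s t e => Finsupp.ext fun x => by
    rw [resH_apply, resH_apply]
    split_ifs with hx
    · exact e x (disjoint_left.1 h hx)
    · rfl
  set c := ∏ e ∈ (m.keep E).ed, (m.keep E).w e (dE e 0) with hc'
  have c0 : 0 < c := prod_pos fun e he => (kc.1 e he).pos' _
  have sp : ∀ F₁ F₂ : Cfg V → ℝ, Out A₂ F₁ → Out A₁ F₂ → (∀ s, |F₁ s| ≤ 1) → (∀ s, |F₂ s| ≤ 1) →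
      HasSum (fun s => c * (U₁ s * U₂ s * (m.keep E).W 0 s * (F₁ s * F₂ s)))
        ((∑' s, U₁ s * ((m.keep E).free A₁).W 0 s * F₁ s) *
          ∑' s, U₂ s * ((m.keep E).free A₂).W 0 s * F₂ s) := fun F₁ F₂ a1 a2 b1 b2 => by
    have := Md.hasSum_split (m := m.keep E) h12 hS 0 (o1.mul a1) (o2.mul a2)
      (Bes66.hs_congr (w1.ig_bdd b1).hasSum (fun s => by ring) rfl)
      (Bes66.hs_congr (w2.ig_bdd b2).hasSum (fun s => by ring) rfl)
    exact Bes66.hs_congr this (fun s => by ring) rfl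
  have sp1 := sp (fun _ => 1) (fun _ => 1) (Out.const _ _) (Out.const _ _) (by simp) (by simp)
  simp only [mul_one] at sp1
  have sK := (summable_mul_left_iff c0.ne').1 sp1.summable
  have n12 : ∀ s, 0 ≤ U₁ s * U₂ s := fun s => mul_nonneg (n1 s) (n2 s)
  have w' := wtU kc n12 (mul_pos z1 z2) sK
  have g := Md.pd_edges hc.1 (sdiff_subset (s := m.ed) (t := E))
  have g0 : ∀ s : Cfg V, 0 < ∏ e ∈ m.ed \ E, m.w e (dE e s) := fun s =>
    prod_pos fun e he => (hc.1 e (sdiff_subset he)).pos' _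
  have z := w'.ex_pos' (w'.ig_bdd g.abs_le) g0
  have eW : W = fun s => U₁ s * U₂ s * (m.keep E).W 0 s * ∏ e ∈ m.ed \ E, m.w e (dE e s) :=
    funext fun s => by rw [hW, Md.W_keep hE 0, mul_assoc (U₁ s * U₂ s)]
  have w : Wt W := eW ▸ w'.mul (w'.ig_bdd g.abs_le) (fun s => (g0 s).le) z
  refine ⟨fun a => Pr (fun s => U₁ s * ((m.keep E).free A₁).W 0 s) fun s => resH I s = a,
    fun b => Pr (fun s => U₂ s * ((m.keep E).free A₂).W 0 s) fun s => resH O s = b,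
    fun _ => Ex_nonneg w1.nonneg fun _ _ => ind_nonneg _,
    fun _ => Ex_nonneg w2.nonneg fun _ _ => ind_nonneg _, fun S => ?_⟩
  refine le_of_eq_of_le (sum_congr rfl fun y _ => ?_) (tv_of_le w w' π
    (Ex_nonneg (Mx.J0 hP) fun _ _ => ind_nonneg _) (fun y => ?_) S)
  · have := sp _ _ ((dep hI).comp fun a => ind (a = y.1)) ((dep hO).comp fun a => ind (a = y.2))
      (fun _ => abs_ind_le _) fun _ => abs_ind_le _
    congr 2
    beta_reduce
    rw [Pr, Pr, Pr, Ex, Ex, Ex, div_mul_div_comm, ← this.tsum_eq, ← sp1.tsum_eq, tsum_mul_left,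
      tsum_mul_left, mul_div_mul_left _ _ c0.ne']
    congr 2
    exact funext fun s => by rw [← ind_and]; exact congrArg _ (ind_congr (Prod.ext_iff (x := π s)).symm)
  · have := pd_outX kc hP hA hg (p1.mul p2) n12 (mul_pos z1 z2) (r1.mul r2) sK g (fun s => (g0 s).le)
      (Dep.prod fun e he => (Dep.dE (hM e (mem_sdiff.1 he).1 (mem_sdiff.1 he).2).1
        (hM e (mem_sdiff.1 he).1 (mem_sdiff.1 he).2).2).comp _) hMP (F := fun s => ind (π s = y))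
      (((dep hIR).comp₂ (dep hOR) Prod.mk).comp fun a => ind (a = y)) (fun _ => ind_nonneg _)
      fun _ => abs_ind_le _
    rw [eW, Pr, w'.ex_mul, div_mul_eq_mul_div, div_le_iff₀' z]
    exact this

omit [Countable V] in
/-- **extra variables**: the sites of `K` carry no edge and no weight; each of them enters through one kernel
`w κ (φ κ s + s κ)`; then all exponential moments exist -/
theorem se_shear (hc : m.Ctr) {K : Finset V} (hK : K ⊆ m.A) (he : ∀ e ∈ m.ed, e.1 ∉ K ∧ e.2 ∉ K)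
    (hs : ∀ x ∈ K, ∀ k, m.site x k = 1) (hA : (m.free (m.A \ K)).Anch) {w : V → ℤ → ℝ}
    (hw : ∀ κ ∈ K, Fam (w κ)) (φ : V → Cfg V →+ ℤ) (hφ : ∀ κ ∈ K, Out K (φ κ)) {U : Cfg V → ℝ} {C : ℝ}
    (hU : ∀ s, |U s| ≤ C * ∏ κ ∈ K, w κ (φ κ s + s κ)) : SE fun s => U s * m.W 0 s := by
  set n := m.mulSite fun x k => if x ∈ K then w x k else 1 with hn
  have c : n.Ctr := Md.ctr_mulSite hc fun x _ => by
    by_cases hx : x ∈ K
    · have k := kerStmt _ (hw x hx)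
      simp only [if_pos hx]; exact ⟨k.cen.toRSD, k.pd, k.cen.pos0⟩
    · simp only [if_neg hx]; exact ⟨rsd_one51, pd_one, one_pos⟩
  have sK : ∀ x ∈ K, SE (n.site x) := fun x hx => by
    have : n.site x = w x := funext fun k => by
      show m.site x k * (if x ∈ K then w x k else 1) = _
      rw [hs x hx, if_pos hx, one_mul]
    rw [this]; exact (kerStmt _ (hw x hx)).cen.se
  have a : n.Anch := fun x hx => by
    by_cases h : x ∈ K
    · exact ⟨x, .refl, Or.inr (sK x h)⟩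
    obtain ⟨y, h1, h2⟩ := hA x (mem_sdiff.2 ⟨hx, h⟩)
    refine ⟨y, h1, ?_⟩
    by_cases h' : y ∈ K
    · exact Or.inr (sK y h')
    refine h2.imp (fun k k' => k (mem_sdiff.2 ⟨k', h'⟩)) fun k => ?_
    have : n.site y = m.site y := funext fun k => by
      show m.site y k * (if y ∈ K then w y k else 1) = _
      rw [if_neg h', mul_one]
    rwa [this]
  set u : Cfg V →+ Cfg V := ∑ κ ∈ K, (Finsupp.singleAddHom κ).comp (φ κ) with hu
  have u1 : ∀ s x, u s x = if x ∈ K then φ x s else 0 := fun s x => by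
    simp only [hu, AddMonoidHom.finsetSum_apply, AddMonoidHom.comp_apply, Finsupp.singleAddHom_apply,
      Finsupp.finsetSum_apply, Finsupp.single_apply, sum_ite_eq']
  have u2 : ∀ s, u (u s) = 0 := fun s => Finsupp.ext fun x => by
    rw [u1]
    split_ifs with h
    · rw [hφ x h (u s) 0 fun y hy => by rw [u1, if_neg hy]; rfl, map_zero]; rfl
    · rfl
  let T : Cfg V ≃ Cfg V := ⟨fun s => s + u s, fun s => s - u s,
    fun s => by simp [u2], fun s => by simp [u2]⟩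
  have e : ∀ s, n.W 0 (s + u s) = (∏ κ ∈ K, w κ (φ κ s + s κ)) * m.W 0 s := fun s => by
    have o : ∀ x, x ∉ K → (s + u s) x = s x := fun x hx => by
      rw [Finsupp.add_apply, u1, if_neg hx, add_zero]
    have e1 : ∏ e ∈ m.ed, m.w e (dE e (s + u s)) = ∏ e ∈ m.ed, m.w e (dE e s) :=
      prod_congr rfl fun e h => by rw [dE, dE, o _ (he e h).1, o _ (he e h).2]
    have e2 : ∏ x ∈ m.A, m.site x ((s + u s) x) * (if x ∈ K then w x ((s + u s) x) else 1) =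
        (∏ κ ∈ K, w κ (φ κ s + s κ)) * ∏ x ∈ m.A, m.site x (s x) := by
      rw [prod_mul_distrib, mul_comm, ← prod_filter, filter_mem_eq_inter, inter_eq_right.2 hK]
      congr 1
      · exact prod_congr rfl fun x hx => by rw [Finsupp.add_apply, u1, if_pos hx, add_comm]
      · refine prod_congr rfl fun x _ => ?_
        by_cases h : x ∈ K
        · rw [hs x h, hs x h]
        · rw [o x h]
    show ind (∀ x, x ∉ m.A → (s + u s) x = _) * (∏ e ∈ m.ed, m.w e (dE e (s + u s))) *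
      ∏ x ∈ m.A, m.site x ((s + u s) x) * (if x ∈ K then w x ((s + u s) x) else 1) = _
    rw [e1, e2, Mdl.W, ind_congr (forall₂_congr fun x hx => by rw [o x fun k => hx (hK k)])]
    ring
  have se : SE fun s => n.W 0 (s + u s) := fun f =>
    (T.summable_iff.2 ((c.cen a).se (f - f.comp u))).congr fun s => by
      simp [T, u2]
  have W0 := Mdl.W_nonneg (fun e he k => (hc.1 e he).nonneg k) hc.nn 0
  refine se.of_le (C := C) fun s => ?_
  rw [e, abs_mul, abs_mul, ← mul_assoc, abs_of_nonneg (prod_nonneg fun κ h => (hw κ h).nonneg _)]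
  exact mul_le_mul_of_nonneg_right (hU s) (abs_nonneg _)

/-- the edges of `T` twisted by the extra variable `s κ` -/
noncomputable def sea (w : ℤ → ℝ) (T : Finset (V × V)) (σ : V × V → ℤ) (κ : V) (s : Cfg V) : ℝ :=
  ∏ e ∈ T, w (dE e s + σ e * s κ)

section
omit [Countable V]
variable {w : ℤ → ℝ} {T : Finset (V × V)} {σ : V × V → ℤ} {κ : V}

omit [DecidableEq V] in
theorem sea_pd (hw : Fam w) : PD (sea w T σ κ) :=
  PD.prod fun e _ => hw.pd.comp (dH e + σ e • Finsupp.applyAddHom κ)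

omit [DecidableEq V] in
theorem sea_pos (hw : Fam w) (s : Cfg V) : 0 < sea w T σ κ s := prod_pos fun _ _ => hw.pos _

omit [DecidableEq V] in
theorem sea_out {B : Finset V} (hκ : κ ∉ B) (hT : ∀ e ∈ T, e.1 ∉ B ∧ e.2 ∉ B) : Out B (sea w T σ κ) :=
  fun s t h => prod_congr rfl fun e he => by rw [dE, dE, h _ hκ, h _ (hT e he).1, h _ (hT e he).2]

theorem sea_se (hc : m.Ctr) (hw : Fam w) (hκ : κ ∈ m.A) (he : ∀ e ∈ m.ed, e.1 ≠ κ ∧ e.2 ≠ κ)
    (hs : ∀ k, m.site κ k = 1) (hA : (m.free (m.A \ {κ})).Anch) {e : V × V} (hT : e ∈ T) (h1 : σ e = 1)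
    (h2 : e.1 ≠ κ ∧ e.2 ≠ κ) : SE fun s => sea w T σ κ s * m.W 0 s := by
  refine se_shear hc (K := {κ}) (singleton_subset_iff.2 hκ) (by simpa using he) (by simpa using hs) hA
    (w := fun _ => w) (fun _ _ => hw) (fun _ => dH e) (fun _ _ s t h => ?_)
    (C := ∏ _e ∈ T.erase e, w 0) fun s => ?_
  · rw [dH_apply, dH_apply, dE, dE, h _ (by simpa using h2.2), h _ (by simpa using h2.1)]
  · rw [abs_of_pos (sea_pos hw s), sea, ← prod_erase_mul _ _ hT, prod_singleton, h1, one_mul, dH_apply]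
    exact mul_le_mul_of_nonneg_right (prod_le_prod (fun _ _ => hw.nonneg _) fun _ _ => hw.pd.le _)
      (hw.nonneg _)

end

end abs

/-- the edge crosses the positive horizontal half line between the rows `-1` and `0` -/
def Sl (e : Pt × Pt) : Prop := 0 < e.1.1 ∧ ¬ (e.1.2 < 0 ↔ e.2.2 < 0)

open Nc Nc.Geo Pot.H59 in
/-- the crossing bound in the massive ring of width `64 h`, cut along its middle circle and along the slit -/
theorem ringX {Λ : Lat} (hΛ : Λ.Ok) {P : Mdl Pt} (hc : P.Ctr) (hA : P.Anch) {ρ h n : ℕ} {μ q : ℝ}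
    (hμ : 0 < μ) (hh : Λ.rg ≤ h) (h0 : 0 < h) (hρ : 16 * h ≤ ρ) (hn : ρ + 64 * h ≤ n * h)
    (hq : q ≤ 1 / 2) (hm : Mx31.Mx1 Λ μ (16 * h) h q) (hPA : P.A = an 0 ρ (ρ + 64 * h))
    (hs : ∀ x ∈ P.A, ∀ k, P.site x k = gau μ⁻¹ k) (hw : ∀ e ∈ P.ed, P.w e = Λ.w)
    (hE : ∀ e, e ∈ P.ed ↔ e ∈ Λ.edI (an 0 ρ (ρ + 64 * h)) ∧
      (ds 0 e.1 ≤ ρ + 32 * h ↔ ds 0 e.2 ≤ ρ + 32 * h) ∧ ¬ Sl e) :
    Pr (P.J 0 0) (fun p => Cross (P.A \ an 0 (ρ + h) (ρ + 63 * h))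
      (an 0 (ρ + 31 * h) (ρ + 33 * h)) p.2) ≤ (2 * n + 1) ^ 2 * (2 * q) := by
  have ma : ∀ {x : Pt} {a b : ℕ}, x ∈ an 0 a b ↔ ds 0 x ≤ b ∧ (a : ℤ) < ds 0 x := by
    intro x a b; rw [mem_an, mem_bl_ds, mem_bl_ds, not_le]
  have dd : ∀ x : Pt, ds 0 x = max |x.1| |x.2| := fun x => by simp [ds]
  set z : Pt → Pt := tile (-(n * h), -(n * h)) h with hz
  set a : Pt → Pt := fun i => ((z i).1 - 8 * h, if 0 < (z i).1 then
    (if 0 ≤ (z i).2 then max ((z i).2 - 8 * h) 0 else min ((z i).2 - 8 * h) (-(16 * h))) else (z i).2 - 8 * h)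
    with ha
  set T := (sq 0 (2 * n + 1)).filter fun i => (14 * h : ℤ) ≤ |ds 0 (z i) - (ρ + 32 * h)| ∧
    |ds 0 (z i) - (ρ + 32 * h)| ≤ 17 * h with hT
  have z2 : ∀ i, 0 ≤ (z i).2 ∨ (z i).2 ≤ -h := fun i => by
    have : (z i).2 = h * (i.2 - n) := by simp only [hz, tile]; ring
    rw [this]
    rcases le_or_gt 0 (i.2 - n) with k | k
    · exact Or.inl (by positivity)
    · exact Or.inr (by nlinarith)
  have q0 : 0 ≤ q := le_trans (Ex_nonneg (Mx.J0 (ctr_ms hΛ _ hμ).1) fun _ _ => ind_nonneg _)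
    (hm 0 ∅ ∅ fun _ h => absurd h (notMem_empty _))
  refine (Mx31.ring_le hΛ hμ hc hA hh le_rfl hq hm (D := fun x => ((-|ds 0 x - (ρ + 32 * h)| : ℤ) : ℝ))
    (ρ := Λ.rg) (d₀ := ((-(16 * h) : ℤ) : ℝ)) (fun e he => ?_) (fun x hx => Int.cast_lt.2 ?_)
    (fun x hx => Int.cast_le.2 ?_) T a z (fun i hi => ?_) fun e he x hx h1 h2 => ?_).trans ?_
  · have := ds_lip 0 (Lat.edge_near (Lat.mem_edI.1 ((hE e).1 he).1).1)
    have b : |(-|ds 0 e.1 - (ρ + 32 * h)|) - (-|ds 0 e.2 - (ρ + 32 * h)|)| ≤ (Λ.rg : ℤ) := by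
      simp only [abs_eq_max_neg] at *; omega
    exact_mod_cast b
  · rw [hPA] at hx
    simp only [mem_sdiff, ma, abs_eq_max_neg] at *; omega
  · simp only [ma, abs_eq_max_neg] at *; omega
  · have c0 := (mem_filter.1 hi).2
    have c1 := z2 i
    have c2 : ∀ y ∈ sq (a i) (16 * h), (ds 0 y ≤ ρ + 32 * h ↔ ds 0 (z i) ≤ ρ + 32 * h) ∧
        (ρ + 5 * h : ℤ) ≤ ds 0 y ∧ ds 0 y ≤ ρ + 59 * h ∧ (0 < y.1 → ∀ y' ∈ sq (a i) (16 * h),
          (y.2 < 0 ↔ y'.2 < 0)) := fun y hy => by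
      refine ⟨?_, ?_, ?_, fun k y' hy' => ?_⟩ <;>
      · simp only [ha, dd, mem_sq, abs_eq_max_neg] at *
        split_ifs at * <;> omega
    have c3 : Λ.edI (sq (a i) (16 * h)) ⊆ P.ed := fun e he => by
      obtain ⟨b1, b2, b3⟩ := Lat.mem_edI.1 he
      have d2 := c2 _ b2
      have d3 := c2 _ b3
      exact (hE e).2 ⟨Lat.mem_edI.2 ⟨b1, ma.2 (by omega), ma.2 (by omega)⟩, d2.1.trans d3.1.symm,
        fun k => k.2 (d2.2.2.2 k.1 _ b3)⟩
    refine ⟨Mx31.agr_of' inter_subset_left c3 (fun e he => hw e (c3 he)) (fun e he k => ?_)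
      (fun y hy => ?_) fun y _ hy => hs y hy, Or.inl (disjoint_left.2 fun y hy hy' => ?_)⟩
    · obtain ⟨b1, -, b2⟩ := (hE e).1 he
      have b3 := (Lat.mem_edI.1 b1).1
      have b4 := mem_bl.1 (Lat.edge_near b3)
      rw [Lat.mem_edI, and_iff_right b3]
      simp only [ha, dd, Sl, mem_inter, mem_sq, mem_bl, abs_eq_max_neg] at *
      split_ifs at * <;> omega
    · have := c2 y (mem_inter.1 hy).1
      rw [hPA]; exact ma.2 (by omega)
    · have := c2 y (mem_inter.1 hy').1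
      exact (mem_sdiff.1 hy).2 (ma.2 (by omega))
  · have h1' : -(16 * h : ℤ) ≤ -|ds 0 x - (ρ + 32 * h)| := by exact_mod_cast h1
    have h2' : -|ds 0 x - (ρ + 32 * h)| < -(16 * h : ℤ) + Λ.rg := by exact_mod_cast h2
    set i := tileOf (-(n * h), -(n * h)) h x with hi
    have c1 : x ∈ sq (z i) h := (mem_tile_iff h0).2 hi.symm
    have c2 := z2 i
    refine ⟨i, mem_filter.2 ⟨(tileOf_mem h0).2 ?_, ?_⟩, ?_⟩
    · rw [show (2 * n + 1) * h = 2 * (n * h) + h by ring]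
      have : ((n * h : ℕ) : ℤ) = n * h := by push_cast; rfl
      simp only [dd, mem_sq, abs_eq_max_neg] at *; omega
    · simp only [dd, mem_sq, abs_eq_max_neg] at *; omega
    · simp only [ha, mem_inter, mem_sq, mem_bl] at *
      split_ifs <;> omega
  · refine mul_le_mul_of_nonneg_right ?_ (by positivity)
    have := (card_filter_le (sq 0 (2 * n + 1)) _ : #T ≤ _)
    rw [card_sq] at this
    exact_mod_cast this

theorem conn_half {Λ : Lat} (hΛ : Λ.Ok) {U : Finset Pt} {E : Finset (Pt × Pt)}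
    (hE : ∀ e ∈ Λ.edI U, (e.1.2 < 0 ↔ e.2.2 < 0) → e ∈ E) {x y : Pt} (hxy : x.2 < 0 ↔ y.2 < 0)
    (h : Rect U x y) : Conn E x y := by
  refine (hΛ.conn_rect (B := U.filter fun z => z.2 < 0 ↔ x.2 < 0) fun z a b c d =>
    mem_filter.2 ⟨h z a b c d, by omega⟩).mono fun e he => ?_
  obtain ⟨b1, b2, b3⟩ := Lat.mem_edI.1 he
  exact hE e (Lat.mem_edI.2 ⟨b1, (mem_filter.1 b2).1, (mem_filter.1 b3).1⟩)
    ((mem_filter.1 b2).2.trans (mem_filter.1 b3).2.symm)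

open Nc Nc.Geo Pot.H59 in
/-- **(F) on the extended lattice**: free annulus, slit through the massive ring, the two seams carry the
extra variables `l k₁`, `l k₂` -/
theorem coreX {Λ : Lat} (hΛ : Λ.Ok) {c ρ R₂ h n : ℕ} {Z I O : Finset Pt} {μ q : ℝ} {k₁ k₂ : Pt}
    {ed : Finset (Pt × Pt)} {σ₁ σ₂ : Pt × Pt → ℤ} (hμ : 0 < μ) (hh : Λ.rg ≤ h) (h0 : 0 < h)
    (hρ : 16 * h ≤ ρ) (hn : ρ + 64 * h ≤ n * h) (hq : q ≤ 1 / 2) (hm : Mx31.Mx1 Λ μ (16 * h) h q)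
    (hc : c ≤ ρ) (hR : ρ + 64 * h ≤ R₂) (hZ : an 0 ρ (ρ + 64 * h) ⊆ Z) (hZ' : Z ⊆ an 0 c R₂)
    (hk₁ : k₁ ∉ an 0 c R₂) (hk₂ : k₂ ∉ an 0 c R₂) (hk : k₁ ≠ k₂) (h1 : ed ⊆ Λ.edI (an 0 c R₂))
    (h2 : ∀ e ∈ Λ.edI (an 0 c R₂), ¬ Sl e → e ∈ ed ∧ σ₁ e = 0 ∧ σ₂ e = 0)
    (h3 : ∀ e ∈ ed, Sl e → (ds 0 e.1 ≤ ρ ∧ ds 0 e.2 ≤ ρ ∧ σ₂ e = 0) ∨
      ((ρ + 64 * h : ℤ) < ds 0 e.1 ∧ (ρ + 64 * h : ℤ) < ds 0 e.2 ∧ σ₁ e = 0))
    (h4 : ∃ e ∈ ed, σ₁ e = 1) (h5 : ∃ e ∈ ed, σ₂ e = 1) (hI : I ⊆ insert k₁ (an 0 c ρ))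
    (hO : O ⊆ insert k₂ (an 0 (ρ + 64 * h) R₂)) {W : Cfg Pt → ℝ}
    (hW : ∀ l, W l = ind (∀ x, x ∉ insert k₁ (insert k₂ (an 0 c R₂)) → l x = 0) *
      (∏ e ∈ ed, Λ.w (dE e l + σ₁ e * l k₁ + σ₂ e * l k₂)) * ∏ x ∈ Z, gau μ⁻¹ (l x)) :
    ∃ p₁ p₂ : Cfg Pt → ℝ, (∀ s, 0 ≤ p₁ s) ∧ (∀ s, 0 ≤ p₂ s) ∧ ∀ S : Finset (Cfg Pt × Cfg Pt),
      ∑ z ∈ S, |push W (fun s => (resH I s, resH O s)) z / Zs W - p₁ z.1 * p₂ z.2| ≤
        4 * (2 * n + 1) ^ 2 * q := by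
  classical
  have k := (gauStmt _ (inv_pos.2 hμ)).1
  have f := hΛ.fam
  have ma : ∀ {x : Pt} {a b : ℕ}, x ∈ an 0 a b ↔ ds 0 x ≤ b ∧ (a : ℤ) < ds 0 x := by
    intro x a b; rw [mem_an, mem_bl_ds, mem_bl_ds, not_le]
  have dd : ∀ x : Pt, ds 0 x = max |x.1| |x.2| := fun x => by simp [ds]
  set m : Mdl Pt := ⟨insert k₁ (insert k₂ (an 0 c R₂)), ed.filter fun e => ¬ Sl e, fun _ => Λ.w,
    fun x j => if x ∈ Z then gau μ⁻¹ j else 1⟩ with hm'
  have mc : m.Ctr := ⟨fun _ _ => f, fun x _ => by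
    by_cases hx : x ∈ Z
    · simp only [hm', if_pos hx]; exact ⟨k.cen.toRSD, k.pd, gau_pos _ _⟩
    · simp only [hm', if_neg hx]; exact ⟨rsd_one51, pd_one, one_pos⟩⟩
  have hs : ∀ x ∈ an 0 ρ (ρ + 64 * h), m.site x = gau μ⁻¹ := fun x hx => funext fun j => if_pos (hZ hx)
  have me : ∀ {e : Pt × Pt}, e ∈ m.ed ↔ e ∈ Λ.edI (an 0 c R₂) ∧ ¬ Sl e := fun {e} =>
    ⟨fun h => ⟨h1 (mem_filter.1 h).1, (mem_filter.1 h).2⟩, fun h => mem_filter.2 ⟨(h2 e h.1 h.2).1, h.2⟩⟩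
  set E := m.ed.filter fun e => ds 0 e.1 ≤ ρ + 32 * h ↔ ds 0 e.2 ≤ ρ + 32 * h with hE
  have mE : ∀ {e : Pt × Pt}, e ∈ E ↔ ((e.2 - e.1 ∈ Λ.Jp ∧ e.1 ∈ an 0 c R₂ ∧ e.2 ∈ an 0 c R₂) ∧ ¬ Sl e) ∧
      (ds 0 e.1 ≤ ρ + 32 * h ↔ ds 0 e.2 ≤ ρ + 32 * h) := by
    intro e; rw [hE, mem_filter, me, Lat.mem_edI]
  have kc : (m.keep E).Ctr := mc.keep (filter_subset _ _)
  have lip : ∀ e : Pt × Pt, e.2 - e.1 ∈ Λ.Jp → |ds 0 e.2 - ds 0 e.1| ≤ Λ.rg := fun e he =>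
    ds_lip 0 (Lat.edge_near he)
  set P := (Mx.ms Λ (an 0 ρ (ρ + 64 * h)) μ).keep (inn (an 0 ρ (ρ + 64 * h)) E) with hP
  have sB : an 0 ρ (ρ + 64 * h) ⊆ an 0 c R₂ := an_mono _ hc hR
  have mP : ∀ e, e ∈ P.ed ↔ e ∈ Λ.edI (an 0 ρ (ρ + 64 * h)) ∧
      (ds 0 e.1 ≤ ρ + 32 * h ↔ ds 0 e.2 ≤ ρ + 32 * h) ∧ ¬ Sl e := fun e => by
    show e ∈ inn _ E ↔ _
    rw [inn, mem_filter, mE, Lat.mem_edI]
    exact ⟨fun h => ⟨⟨h.1.1.1.1, h.2⟩, h.1.2, h.1.1.2⟩,
      fun h => ⟨⟨⟨⟨h.1.1, sB h.1.2.1, sB h.1.2.2⟩, h.2.2⟩, h.2.1⟩, h.1.2⟩⟩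
  have Pc : P.Ctr := (ctr_ms hΛ _ hμ).1.keep fun e he => ((mP e).1 he).1
  have Ps : ∀ x j, P.site x j = gau μ⁻¹ j := fun x j => one_mul _
  have Pa : P.Anch := Md.anch_of_se fun x _ => by rw [funext (Ps x)]; exact k.cen.se
  have n1 : ∀ {x}, x ∈ an 0 c R₂ → x ≠ k₁ ∧ x ≠ k₂ := fun hx => ⟨fun e => hk₁ (e ▸ hx), fun e => hk₂ (e ▸ hx)⟩
  have sm : ∀ {κ : Pt} {a b : ℕ} {T : Finset (Pt × Pt)} {σ : Pt × Pt → ℤ}, κ ∉ an 0 c R₂ →
      insert κ (an 0 a b) ⊆ m.A → (∀ e ∈ Λ.edI (an 0 a b), ¬ Sl e → e ∈ E) →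
      (∀ x ∈ an 0 a b, ∃ y ∈ an 0 ρ (ρ + 64 * h), (x.2 < 0 ↔ y.2 < 0) ∧ Rect (an 0 a b) x y) →
      (∃ e ∈ T, e ∈ ed ∧ σ e = 1) →
      Summable fun s => sea Λ.w T σ κ s * ((m.keep E).free (insert κ (an 0 a b))).W 0 s := by
    intro κ a b T σ a1 a2 a3 a4 ⟨e, a5, a6, a7⟩
    have a8 : ∀ e ∈ Λ.edI (an 0 c R₂), e.1 ≠ κ ∧ e.2 ≠ κ := fun e he =>
      ⟨fun j => a1 (j ▸ (Lat.mem_edI.1 he).2.1), fun j => a1 (j ▸ (Lat.mem_edI.1 he).2.2)⟩
    refine (sea_se (kc.free a2) f (mem_insert_self _ _) (fun e he => a8 e (me.1 (mem_filter.1 he).1).1)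
      (fun j => if_neg fun j => a1 (hZ' j)) (fun x hx => ?_) a5 a7 (a8 e (h1 a6))).summable
    obtain ⟨b1, b2⟩ := mem_sdiff.1 hx
    obtain ⟨y, c1, c2, c3⟩ := a4 x ((mem_insert.1 b1).resolve_left (by simpa using b2))
    exact ⟨y, conn_half hΛ (fun e he j => a3 e he fun i => i.2 j) c2 c3,
      Or.inr (show SE (m.site y) by rw [hs y c1]; exact k.cen.se)⟩
  have sub : ∀ a b : ℕ, c ≤ a → b ≤ R₂ → b ≤ ρ + 32 * h ∨ ρ + 32 * h ≤ a →
      ∀ e ∈ Λ.edI (an 0 a b), ¬ Sl e → e ∈ E := fun a b a1 a2 a3 e he j => by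
    obtain ⟨b1, b2, b3⟩ := Lat.mem_edI.1 he
    refine mE.2 ⟨⟨⟨b1, an_mono _ a1 a2 b2, an_mono _ a1 a2 b3⟩, j⟩, ?_⟩
    have := ma.1 b2; have := ma.1 b3; omega
  have sl : ∀ e ∈ ed, σ₁ e = 1 ∨ σ₂ e = 1 → Sl e := fun e he j => by
    by_contra i
    have := h2 e (h1 he) i
    omega
  have mT : ∀ e ∈ ed, e.1 ∈ an 0 c R₂ ∧ e.2 ∈ an 0 c R₂ := fun e he => (Lat.mem_edI.1 (h1 he)).2
  refine Exists.elim (facX (m := m) (P := P) mc (E := E) (filter_subset _ _) Pc Pa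
    (A₁ := insert k₁ (an 0 c (ρ + 32 * h))) (A₂ := insert k₂ (an 0 (ρ + 32 * h) R₂))
    (R := an 0 (ρ + h) (ρ + 63 * h)) (M := an 0 (ρ + 31 * h) (ρ + 33 * h)) (I := I) (O := O)
    ⟨filter_subset _ _, fun _ _ => rfl, fun e he => ⟨fun _ => (mem_filter.1 he).2.1,
      fun _ => (mem_filter.1 he).2.2⟩, fun x hx _ => ⟨fun _ => 1, pd_one, fun _ => zero_le_one, one_pos,
      fun j => by rw [Ps, mul_one]; exact congrFun (hs x hx) j⟩, fun x _ j => by rw [Ps]; exact gau_pos _ _,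
      fun x hx => mem_insert_of_mem (mem_insert_of_mem (an_mono _ (by omega) (by omega) hx)),
      an_mono _ (by omega) (by omega), fun e he j => mem_filter.2 ⟨he, by
        have := lip e (mE.1 he).1.1.1
        simp only [ma, abs_le] at j this ⊢; omega⟩,
      fun x hx j => by rw [Ps]; exact congrFun (hs x (an_mono _ (by omega) (by omega) hx)) j⟩
    (by rw [insert_union, union_insert, an_union_an 0 (by omega) (by omega)])
    ⟨disjoint_left.2 fun x b1 b2 => by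
      rcases mem_insert.1 b1 with rfl | b1 <;> rcases mem_insert.1 b2 with b2 | b2
      · exact hk b2
      · exact hk₁ (an_mono _ (by omega) le_rfl b2)
      · exact hk₂ (b2 ▸ an_mono _ le_rfl (by omega) b1)
      · have := ma.1 b1; have := ma.1 b2; omega, fun e he => by
      obtain ⟨⟨⟨-, b1, b2⟩, -⟩, b3⟩ := mE.1 he
      simp only [mem_insert, (n1 b1).1, (n1 b1).2, (n1 b2).1, (n1 b2).2, false_or, ma]; omega⟩
    (fun e he he' => by
      obtain ⟨b1, b2⟩ := me.1 he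
      have b4 := lip e (Lat.mem_edI.1 b1).1
      rw [mE, and_iff_right ⟨Lat.mem_edI.1 b1, b2⟩] at he'
      simp only [ma, abs_le] at b4 ⊢; omega)
    (an_mono _ (by omega) (by omega))
    (U₁ := sea Λ.w ((ed.filter Sl).filter fun e => ds 0 e.1 ≤ ρ) σ₁ k₁)
    (U₂ := sea Λ.w ((ed.filter Sl).filter fun e => ¬ ds 0 e.1 ≤ ρ) σ₂ k₂)
    (sea_pd f) (fun s => (sea_pos f s).le) (sea_pos f 0)
    (sea_out (by rw [mem_insert, not_or]; exact ⟨hk, fun j => hk₁ (an_mono _ (by omega) le_rfl j)⟩)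
      fun e he => by
        simp only [mem_filter] at he
        have := h3 e he.1.1 he.1.2
        simp only [mem_insert, (n1 (mT e he.1.1).1).2, (n1 (mT e he.1.1).2).2, false_or, ma]; omega)
    (sea_out (fun j => hk₁ (an_mono _ (by omega) (by omega) j)) fun e he => by
        simp only [mem_filter] at he
        have := h3 e he.1.1 he.1.2
        simp only [ma]; omega)
    (sea_pd f) (fun s => (sea_pos f s).le) (sea_pos f 0)
    (sea_out (by rw [mem_insert, not_or]; exact ⟨hk.symm, fun j => hk₂ (an_mono _ le_rfl (by omega) j)⟩)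
      fun e he => by
        simp only [mem_filter] at he
        have := h3 e he.1.1 he.1.2
        simp only [mem_insert, (n1 (mT e he.1.1).1).1, (n1 (mT e he.1.1).2).1, false_or, ma]; omega)
    (sea_out (fun j => hk₂ (an_mono _ (by omega) (by omega) j)) fun e he => by
        simp only [mem_filter] at he
        have := h3 e he.1.1 he.1.2
        simp only [ma]; omega)
    (sm hk₁ (insert_subset_insert _ ((an_mono _ le_rfl (by omega)).trans (subset_insert _ _)))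
      (sub _ _ le_rfl (by omega) (Or.inl le_rfl)) (fun x hx => ?_) ?_)
    (sm hk₂ ((insert_subset_insert _ (an_mono _ (by omega) le_rfl)).trans (subset_insert _ _))
      (sub _ _ (by omega) le_rfl (Or.inr le_rfl)) (fun x hx => ?_) ?_)
    (disjoint_left.2 fun x b1 b2 => by
      rcases mem_insert.1 (hI b1) with rfl | b1 <;> rcases mem_insert.1 b2 with b2 | b2
      · exact hk b2
      · exact hk₁ (an_mono _ (by omega) le_rfl b2)
      · exact hk₂ (b2 ▸ an_mono _ le_rfl (by omega) b1)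
      · have := ma.1 b1; have := ma.1 b2; omega)
    (disjoint_left.2 fun x b1 b2 => by
      rcases mem_insert.1 (hO b1) with rfl | b1 <;> rcases mem_insert.1 b2 with b2 | b2
      · exact hk b2.symm
      · exact hk₂ (an_mono _ le_rfl (by omega) b2)
      · exact hk₁ (b2 ▸ an_mono _ (by omega) le_rfl b1)
      · have := ma.1 b1; have := ma.1 b2; omega)
    (disjoint_left.2 fun x b1 b2 => by
      rcases mem_insert.1 (hI b1) with rfl | b1
      · exact hk₁ (an_mono _ (by omega) (by omega) b2)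
      · have := ma.1 b1; have := ma.1 b2; omega)
    (disjoint_left.2 fun x b1 b2 => by
      rcases mem_insert.1 (hO b1) with rfl | b1
      · exact hk₂ (an_mono _ (by omega) (by omega) b2)
      · have := ma.1 b1; have := ma.1 b2; omega) (W := W) fun s => ?_) fun p₁ ⟨p₂, a1, a2, a3⟩ => ?_
  · refine ⟨(if |x.2| ≤ |x.1| then if 0 ≤ x.1 then ρ + 32 * h else -(ρ + 32 * h) else x.1,
      if |x.2| ≤ |x.1| then x.2 else if 0 ≤ x.2 then ρ + 32 * h else -(ρ + 32 * h)), ?_, ?_, fun z => ?_⟩ <;>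
    · simp only [ma, dd, abs_eq_max_neg] at hx ⊢
      split_ifs <;> omega
  · obtain ⟨e, b1, b2⟩ := h4
    have := h3 e b1 (sl e b1 (Or.inl b2))
    exact ⟨e, mem_filter.2 ⟨mem_filter.2 ⟨b1, sl e b1 (Or.inl b2)⟩, by omega⟩, b1, b2⟩
  · refine ⟨(max (-(ρ + 32 * h + 1)) (min x.1 (ρ + 32 * h + 1)),
      max (-(ρ + 32 * h + 1)) (min x.2 (ρ + 32 * h + 1))), ?_, ?_, fun z => ?_⟩ <;>
    · simp only [ma, dd, abs_eq_max_neg] at hx ⊢
      omega
  · obtain ⟨e, b1, b2⟩ := h5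
    have := h3 e b1 (sl e b1 (Or.inr b2))
    exact ⟨e, mem_filter.2 ⟨mem_filter.2 ⟨b1, sl e b1 (Or.inr b2)⟩, by omega⟩, b1, b2⟩
  · have e1 : ∏ x ∈ m.A, m.site x (s x) = ∏ x ∈ Z, gau μ⁻¹ (s x) := by
      show ∏ x ∈ m.A, (if x ∈ Z then gau μ⁻¹ (s x) else 1) = _
      rw [← prod_filter, filter_mem_eq_inter, inter_eq_right.2
        (hZ'.trans ((subset_insert _ _).trans (subset_insert _ _)))]
    have e2 : ∏ e ∈ ed, Λ.w (dE e s + σ₁ e * s k₁ + σ₂ e * s k₂) =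
        sea Λ.w ((ed.filter Sl).filter fun e => ds 0 e.1 ≤ ρ) σ₁ k₁ s *
        sea Λ.w ((ed.filter Sl).filter fun e => ¬ ds 0 e.1 ≤ ρ) σ₂ k₂ s *
        ∏ e ∈ m.ed, m.w e (dE e s) := by
      rw [← prod_filter_mul_prod_filter_not ed Sl,
        ← prod_filter_mul_prod_filter_not (ed.filter Sl) fun e => ds 0 e.1 ≤ ρ]
      congr 1
      · congr 1 <;> refine prod_congr rfl fun e he => ?_ <;> simp only [mem_filter] at he <;>
          have := h3 e he.1.1 he.1.2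
        · rw [show σ₂ e = 0 by omega, zero_mul, add_zero]
        · rw [show σ₁ e = 0 by omega, zero_mul, add_zero]
      · refine prod_congr rfl fun e he => ?_
        have := h2 e (me.1 he).1 (me.1 he).2
        rw [this.2.1, this.2.2, zero_mul, zero_mul, add_zero, add_zero]
    rw [hW, Mdl.W, e1, e2]
    simp only [Finsupp.coe_zero, Pi.zero_apply]
    ring
  · refine ⟨p₁, p₂, a1, a2, fun S => (a3 S).trans ?_⟩
    have := ringX hΛ Pc Pa hμ hh h0 hρ hn hq hm rfl (fun x _ => Ps x) (fun _ _ => rfl) mP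
    linarith

end F9

end Crest.Agent.T145
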