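import Crest.Agent.T145.KvDef_8
import Crest.Agent.T145.KvF_9

/-!
# Row 145, module Kv: (F), the screened extended model factorises (helper9)
-/

set_option autoImplicit false

namespace Crest.Agent.T145.Kv

open Finset Nc Nc.Geo Pot.H59

theorem fStmt (hM : Mx.Mix0Stmt) (hGe : GeoStmt) (hm : T1mStmt) : FStmt := by
  intro F θ₀ W K j hJ hθ hK ε hε
  obtain ⟨K₀, hK₀, H⟩ := hM F (θ₀ / 2) (1 / 16) (by positivity) (by norm_num)
  set N : ℝ := 4 * (2 * ((64 * 2 ^ j : ℕ) : ℝ) + 1) ^ 2 with hN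
  obtain ⟨a₀, ha₀⟩ := pow_unbounded_of_one_lt (16 * (K₀ + 1 + N / ε)) (by norm_num : (1 : ℝ) < 4)
  refine ⟨a₀, fun a ha => ?_⟩
  set x : ℝ := 4 ^ a / 16 with hx
  have x1 : K₀ + 1 + N / ε ≤ x := by
    have := pow_le_pow_right₀ (by norm_num : (1 : ℝ) ≤ 4) ha
    rw [hx, le_div_iff₀ (by norm_num)]; linarith
  have e0 : 0 < N / ε := by positivity
  have x2 : 1 / x ^ 4 ≤ 1 / x := one_div_le_one_div_of_le (by linarith)
    (le_self_pow₀ (by linarith) (by norm_num))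
  obtain ⟨δ₁, hδ₁, H⟩ := H x
  obtain ⟨k, hk⟩ := pow_unbounded_of_one_lt (256 * K * 2 ^ j) (by norm_num : (1 : ℝ) < 2)
  refine exists_of_ev ?_
  filter_upwards [ev_subwin hm F hθ hδ₁ k, ev_large' (64 * K * 2 ^ j * 64)]
    with δ h1 h2 Λ hΛ l L hw V hV hj hA
  have A := hGe V W hV
  have r0 := A.rho_eq
  rw [hj] at r0
  have r1 : (L : ℝ) ≤ 64 * K * 2 ^ j * V.ω := by
    have : (V.G.R : ℝ) ≤ 64 * (2 ^ j * V.ω) := by exact_mod_cast r0 ▸ A.le_rho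
    nlinarith [hA.2]
  have r2 : 64 ≤ V.ω := by
    have := le_of_mul_le_mul_left ((h2 l L hw.sep).2.2.trans r1) (by positivity)
    exact_mod_cast this
  obtain ⟨i, hi⟩ : ∃ i, V.om2 = i + 6 := Nat.exists_eq_add_of_le' (by
    by_contra h
    have : 2 ^ V.om2 ≤ 2 ^ 5 := Nat.pow_le_pow_right two_pos (by omega)
    unfold Gv.ω at r2; omega)
  have r3 : V.ω = 64 * 2 ^ i := by rw [Gv.ω, hi]; ring
  have r4 : 2 ^ (i + 4) = 16 * 2 ^ i := by ring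
  have h0 : 0 < 2 ^ i := by positivity
  have g1 := A.rho_le
  have g2 := A.ω_le
  have g3 := A.r_le
  have g4 := hV.g.hc
  have g5 := hV.g.out
  have w := h1 Λ hΛ l L hw (i + 4) (by have := hA.1; omega) (Or.inl (by
    have : (L : ℝ) ≤ 2 ^ (i + 4 + k) := by
      rw [r3] at r1
      push_cast at r1
      rw [pow_add, pow_add]
      nlinarith [mul_le_mul_of_nonneg_right hk.le (by positivity : (0 : ℝ) ≤ 2 ^ i)]
    exact_mod_cast this))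
  rw [r4] at w
  have m1 : V.ms a * ((16 * 2 ^ i : ℕ) : ℝ) ^ 2 = x := by
    rw [Gv.ms, r3, hx, show (4 : ℝ) ^ a = (2 ^ a) ^ 2 by rw [← pow_mul, mul_comm, pow_mul]; norm_num]
    push_cast
    field_simp
    norm_num
  have m0 : 0 < V.ms a := by rw [Gv.ms, r3]; positivity
  have hJ' : Λ.J = nn := hΛ.1.trans hJ
  have eI : ∀ D, Λ.edI D = Pot.nL.edI D := fun D => by
    simp only [Lat.edI, Lat.edT, Lat.Jp, hJ', Pot.nL_J]
  have jp : ∀ y, y ∈ Pot.nL.Jp ↔ y = (1, 0) ∨ y = (0, 1) := fun y => by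
    rw [show Pot.nL.Jp = {(1, 0), (0, 1)} by decide, mem_insert, mem_singleton]
  have mI : ∀ {e : Pt × Pt}, e ∈ Pot.nL.edI V.G.Om ↔ (e.2.1 = e.1.1 + 1 ∧ e.2.2 = e.1.2 ∨
      e.2.1 = e.1.1 ∧ e.2.2 = e.1.2 + 1) ∧ e.1 ∈ an 0 V.G.c V.G.R₂ ∧ e.2 ∈ an 0 V.G.c V.G.R₂ := by
    intro e
    rw [Lat.mem_edI, jp]
    refine and_congr ?_ Iff.rfl
    simp only [Prod.ext_iff, Prod.fst_sub, Prod.snd_sub]; omega
  have mE : ∀ {e : Pt × Pt}, e ∈ V.EO ↔ e ∈ Pot.nL.edI V.G.Om ∧ Vd.ray 0 e = V.s1 e + V.s2 e := mem_filter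
  have dd : ∀ x : Pt, ds 0 x = max |x.1| |x.2| := fun x => by simp [ds]
  obtain ⟨ρ, hρ⟩ : ∃ ρ, V.G.rho = ρ + 64 * 2 ^ i := ⟨V.G.rho - 64 * 2 ^ i, by omega⟩
  have mG : ∀ {x : Pt}, x ∈ V.Ga ↔ (-(ρ + 128 * 2 ^ i : ℤ) ≤ x.1 ∧ x.1 < ρ + 128 * 2 ^ i ∧
      -(ρ + 128 * 2 ^ i : ℤ) ≤ x.2 ∧ x.2 < ρ + 128 * 2 ^ i) ∧
      ¬ (-(ρ : ℤ) ≤ x.1 ∧ x.1 < ρ ∧ -(ρ : ℤ) ≤ x.2 ∧ x.2 < ρ) := by
    intro x
    simp only [Gv.Ga, Gv.rng, mem_sdiff, mem_sq, hρ, r3, Nat.add_sub_cancel]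
    push_cast
    omega
  have p0 : ((2 ^ i : ℕ) : ℤ) = 2 ^ i := by push_cast; rfl
  obtain ⟨p₁, p₂, a1, a2, a3⟩ := F9.coreX hΛ.ok (c := V.G.c) (ρ := ρ) (R₂ := V.G.R₂) (h := 2 ^ i)
    (n := 64 * 2 ^ j) (Z := V.Ga) (I := V.In) (O := V.Ou) (q := 1 / x ^ 4) (k₁ := V.k1) (k₂ := V.k2)
    (ed := V.EO) (σ₁ := V.s1) (σ₂ := V.s2) (W := V.rm Λ a) m0
    (by rw [Lat.rg, hJ']; exact h0) h0 (by omega) (by rw [← hρ, r0, r3]; exact le_of_eq (by ring))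
    (x2.trans (one_div_le_one_div_of_le two_pos (by linarith)))
    (fun b S S' hS => by
      have := H Λ hΛ l _ w (V.ms a) b S S' (by rw [m1]; linarith) m1.le (by
        rwa [show (1 / 16 : ℝ) * ((16 * 2 ^ i : ℕ) : ℝ) = ((2 ^ i : ℕ) : ℝ) by push_cast; ring])
      rwa [m1] at this)
    (by omega) (by omega)
    (fun y hy => by simp only [mG, mem_an, mem_bl, Prod.fst_zero, Prod.snd_zero] at hy ⊢; omega)
    (fun y hy => by simp only [mG, mem_an, mem_bl, Prod.fst_zero, Prod.snd_zero] at hy ⊢; omega)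
    A.k_off.1 A.k_off.2.1 A.k_off.2.2.1 (by rw [eI]; exact filter_subset _ _)
    (fun e he hs => by
      rw [eI] at he
      have r : Vd.ray 0 e = 0 := if_neg fun k => by
        have := mI.1 he
        simp only [F9.Sl, mem_an, mem_bl, Prod.fst_zero, Prod.snd_zero] at this k hs; omega
      have s1 : V.s1 e = 0 := by rw [Gv.s1, r, ite_self]
      have s2 : V.s2 e = 0 := by rw [Gv.s2, r, ite_self]
      exact ⟨mE.2 ⟨he, by rw [r, s1, s2, add_zero]⟩, s1, s2⟩)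
    (fun e he hs => by
      obtain ⟨b1, b2⟩ := mE.1 he
      have b3 := (mI.1 b1).1
      have r : Vd.ray 0 e = 1 := if_pos (by
        simp only [F9.Sl, Prod.fst_zero, Prod.snd_zero] at hs ⊢; omega)
      simp only [F9.Sl, Gv.s1, Gv.s2, r, dd, abs_eq_max_neg] at b2 hs ⊢
      split_ifs at b2 ⊢ <;> omega)
    ⟨((V.G.c + 1, -1), (V.G.c + 1, 0)), mE.2 ⟨mI.2 ⟨Or.inr ⟨rfl, rfl⟩, by
      simp only [mem_an, mem_bl, Prod.fst_zero, Prod.snd_zero]; omega⟩, by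
      simp only [Gv.s1, Gv.s2]; split_ifs <;> omega⟩,
      (if_pos (by simp only; omega)).trans (if_pos ⟨rfl, rfl, rfl, by simp only [Prod.fst_zero]; omega⟩)⟩
    ⟨((V.G.R₂, -1), (V.G.R₂, 0)), mE.2 ⟨mI.2 ⟨Or.inr ⟨rfl, rfl⟩, by
      simp only [mem_an, mem_bl, Prod.fst_zero, Prod.snd_zero]; omega⟩, by
      simp only [Gv.s1, Gv.s2]; split_ifs <;> omega⟩,
      (if_pos (by simp only; omega)).trans (if_pos ⟨rfl, rfl, rfl, by simp only [Prod.fst_zero]; omega⟩)⟩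
    (insert_subset_insert _ (an_mono _ le_rfl (by omega)))
    (insert_subset_insert _ (an_mono _ (by omega) le_rfl)) fun s => by
      rw [Gv.rm, Gv.rho]
      congr 2
      exact ind_congr (forall_congr' fun y => by
        simp only [mem_insert, not_or]; exact ⟨fun k k' => k k'.2.2 k'.1 k'.2.1, fun k a b c => k ⟨b, c, a⟩⟩)
  refine ⟨p₁, p₂, a1, a2, fun S => (a3 S).trans ?_⟩
  refine (mul_le_mul_of_nonneg_left x2 (by positivity)).trans ?_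
  rw [mul_one_div, div_le_comm₀ (by linarith) hε]
  linarith

end Crest.Agent.T145.Kv
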