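import Crest.Agent.T145.KvDef_8
import Crest.Agent.T145.KrGeo_87

/-!
# Row 145, module Kv: geometry of the slit condenser (helper32, task KV GEO)
-/

set_option autoImplicit false

namespace Crest.Agent.T145.Kv

open Finset Nc
open Kr (Gm)
open Kr.Geo87 (mem_an0 cn mem_cn cn_dvd cn_eq nJp_iff)
open Vd (ray)

namespace Geo32

variable {V : Gv} {W : ℝ}

theorem rho_eq (h : V.Ok W) : V.G.rho = 2 ^ V.j * V.ω := by
  have := h.jp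
  rw [Gv.ω, Gv.om2, ← pow_add, Nat.add_sub_cancel' (by omega)]; rfl

theorem ω16 (h : V.Ok W) : 16 ≤ V.ω := by
  have := h.jp
  calc 16 = 2 ^ 4 := rfl
    _ ≤ 2 ^ V.om2 := Nat.pow_le_pow_right two_pos (by rw [Gv.om2]; omega)

theorem ω_le (h : V.Ok W) : 16 * V.ω ≤ V.G.rho := by
  rw [rho_eq h]
  exact Nat.mul_le_mul_right _ (Nat.pow_le_pow_right two_pos h.j4 : 2 ^ 4 ≤ 2 ^ V.j)

/-- all the inequalities between the scales, for `omega` -/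
theorem scales (h : V.Ok W) : 2 * V.G.c ≤ V.G.r ∧ 64 ≤ V.G.r ∧ 16 * V.G.r ≤ V.G.rho ∧
    32 * V.G.rho ≤ V.G.R ∧ V.G.R < 64 * V.G.rho ∧ 1024 * V.G.r ≤ V.G.R ∧ 2 * V.G.R ≤ V.G.R₂ ∧
    16 ≤ V.ω ∧ 16 * V.ω ≤ V.G.rho :=
  let ⟨a, b, c, d, e, f, g⟩ := Kr.Geo87.scales h.g
  ⟨a, b, c, d, e, f, g, ω16 h, ω_le h⟩

theorem mem_rng {n : ℕ} (hn : n ≤ V.G.rho) {x : Pt} : x ∈ V.rng n ↔
    (-(V.G.rho + n : ℤ) ≤ x.1 ∧ x.1 < V.G.rho + n ∧ -(V.G.rho + n : ℤ) ≤ x.2 ∧ x.2 < V.G.rho + n) ∧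
      ¬ (-(V.G.rho - n : ℤ) ≤ x.1 ∧ x.1 < V.G.rho - n ∧ -(V.G.rho - n : ℤ) ≤ x.2 ∧
        x.2 < V.G.rho - n) := by
  simp only [Gv.rng, mem_sdiff, mem_sq]; omega

theorem card_rng {n : ℕ} (hn : n ≤ V.G.rho) : (V.rng n).card = 16 * V.G.rho * n := by
  rw [Gv.rng, card_sdiff_of_subset (fun x hx => by simp only [mem_sq] at *; omega), card_sq, card_sq]
  obtain ⟨m, hm⟩ := Nat.exists_eq_add_of_le hn
  rw [hm, Nat.add_sub_cancel_left]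
  have : (2 * (n + m + n)) ^ 2 = 16 * (n + m) * n + (2 * m) ^ 2 := by ring
  omega

theorem mem_Ga (h : V.Ok W) {x : Pt} : x ∈ V.Ga ↔
    (-(V.G.rho + V.ω : ℤ) ≤ x.1 ∧ x.1 < V.G.rho + V.ω ∧ -(V.G.rho + V.ω : ℤ) ≤ x.2 ∧
      x.2 < V.G.rho + V.ω) ∧
      ¬ (-(V.G.rho - V.ω : ℤ) ≤ x.1 ∧ x.1 < V.G.rho - V.ω ∧ -(V.G.rho - V.ω : ℤ) ≤ x.2 ∧
        x.2 < V.G.rho - V.ω) := mem_rng (by have := ω_le h; omega)

theorem mem_mid (h : V.Ok W) {x : Pt} : x ∈ V.mid ↔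
    (-(V.G.rho + 2 * V.ω : ℤ) ≤ x.1 ∧ x.1 < V.G.rho + 2 * V.ω ∧ -(V.G.rho + 2 * V.ω : ℤ) ≤ x.2 ∧
      x.2 < V.G.rho + 2 * V.ω) ∧
      ¬ (-(V.G.rho - 2 * V.ω : ℤ) ≤ x.1 ∧ x.1 < V.G.rho - 2 * V.ω ∧ -(V.G.rho - 2 * V.ω : ℤ) ≤ x.2 ∧
        x.2 < V.G.rho - 2 * V.ω) := by
  rw [Gv.mid, mem_rng (by have := ω_le h; omega)]; push_cast; rfl

theorem mem_up {x : Pt} : x ∈ V.up ↔
    (V.G.rho : ℤ) - 4 * V.ω ≤ x.1 ∧ x.1 < V.G.rho + 4 * V.ω ∧ 0 ≤ x.2 ∧ x.2 < 8 * V.ω := by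
  simp only [Gv.up, mem_sq]; omega

theorem mem_lo {x : Pt} : x ∈ V.lo ↔
    (V.G.rho : ℤ) - 4 * V.ω ≤ x.1 ∧ x.1 < V.G.rho + 4 * V.ω ∧ -(8 * V.ω : ℤ) ≤ x.2 ∧ x.2 < 0 := by
  simp only [Gv.lo, mem_sq]; omega

theorem mem_ul {x : Pt} : x ∈ V.up ∪ V.lo ↔
    (V.G.rho : ℤ) - 4 * V.ω ≤ x.1 ∧ x.1 < V.G.rho + 4 * V.ω ∧ -(8 * V.ω : ℤ) ≤ x.2 ∧ x.2 < 8 * V.ω := by
  rw [mem_union, mem_up, mem_lo]; omega

theorem mem_lip {x : Pt} : x ∈ V.lip ↔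
    (V.G.rho : ℤ) - 4 * V.ω ≤ x.1 ∧ x.1 < V.G.rho + 4 * V.ω ∧ (x.2 = 0 ∨ x.2 = -1) := by
  rw [Gv.lip, mem_filter, mem_ul]; omega

theorem ray0 (e : Pt × Pt) :
    ray 0 e = if e.1.2 = -1 ∧ e.2.2 = 0 ∧ e.1.1 = e.2.1 ∧ 0 ≤ e.1.1 then 1 else 0 := by
  simp only [ray, Prod.fst_zero, Prod.snd_zero, zero_sub]

/-- the kept edges -/
theorem mem_kp (h : V.Ok W) {ed : Finset (Pt × Pt)} {e : Pt × Pt} : e ∈ V.kp ed ↔ e ∈ ed ∧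
    ¬ (e.1.2 = -1 ∧ e.2.2 = 0 ∧ e.1.1 = e.2.1 ∧ (V.G.rho : ℤ) - 4 * V.ω ≤ e.1.1 ∧
      e.1.1 < V.G.rho + 4 * V.ω) := by
  have := scales h
  rw [Gv.kp, mem_filter, Gv.s1, Gv.s2, ray0]
  refine and_congr_right fun _ => ?_
  split_ifs <;> omega

/-- `V.kp ed = ed \ slit`; for `ed = nL.edT A` the right side is `Pot.Sl.eds A (ρ - 4 ω) (ρ + 4 ω)` by `rfl` -/
theorem kp_eq (h : V.Ok W) (ed : Finset (Pt × Pt)) : V.kp ed =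
    ed \ (Ico ((V.G.rho : ℤ) - 4 * V.ω) (V.G.rho + 4 * V.ω)).image fun i => ((i, -1), (i, 0)) := by
  ext ⟨⟨a, b⟩, c, d⟩
  simp only [mem_kp h, mem_sdiff, mem_image, mem_Ico, Prod.mk.injEq]
  refine and_congr_right fun _ => not_congr ⟨fun k => ⟨a, by omega⟩, fun ⟨i, k⟩ => by omega⟩

theorem EA_eq (h : V.Ok W) : V.EA = Pot.nL.edT V.G.A \
    (Ico ((V.G.rho : ℤ) - 4 * V.ω) (V.G.rho + 4 * V.ω)).image fun i => ((i, -1), (i, 0)) := kp_eq h _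

theorem Ga_sub (h : V.Ok W) : V.Ga ⊆ V.mid := fun x hx => by
  rw [mem_Ga h] at hx; rw [mem_mid h]; omega

theorem mid_sub (h : V.Ok W) : V.mid ⊆ an 0 (V.G.rho / 2) (2 * V.G.rho) := fun x hx => by
  have := scales h
  rw [mem_mid h] at hx; rw [mem_an0]; omega

theorem ul_sub (h : V.Ok W) : V.up ∪ V.lo ⊆ an 0 (V.G.rho / 2) (2 * V.G.rho) := fun x hx => by
  have := scales h
  rw [mem_ul] at hx; rw [mem_an0]; omega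

theorem an_sub_A (h : V.Ok W) : an 0 (V.G.rho / 2) (2 * V.G.rho) ⊆ V.G.A :=
  Geo.an_mono 0 (by have := scales h; omega) (by have := scales h; omega)

theorem mid_sub_A (h : V.Ok W) : V.mid ⊆ V.G.A := (mid_sub h).trans (an_sub_A h)
theorem Ga_sub_A (h : V.Ok W) : V.Ga ⊆ V.G.A := (Ga_sub h).trans (mid_sub_A h)
theorem ul_sub_A (h : V.Ok W) : V.up ∪ V.lo ⊆ V.G.A := (ul_sub h).trans (an_sub_A h)
theorem lip_sub_A (h : V.Ok W) : V.lip ⊆ V.G.A := (filter_subset _ _).trans (ul_sub_A h)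

theorem card_Ga (h : V.Ok W) : V.Ga.card = 16 * 2 ^ V.j * V.ω ^ 2 := by
  rw [Gv.Ga, card_rng (by have := ω_le h; omega), rho_eq h]; ring

theorem card_mid (h : V.Ok W) : V.mid.card = 32 * 2 ^ V.j * V.ω ^ 2 := by
  rw [Gv.mid, card_rng (by have := ω_le h; omega), rho_eq h]; ring

/-! ## Cells -/

theorem mem_cor {q : ℕ} {i : Pt} : i ∈ V.cor q ↔ i ∈ V.Ga ∧ (2 ^ q : ℤ) ∣ i.1 ∧ (2 ^ q : ℤ) ∣ i.2 :=
  mem_filter

theorem ω_eq {q : ℕ} (hq : q ≤ V.om2) : V.ω = 2 ^ q * 2 ^ (V.om2 - q) := by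
  rw [← pow_add, Nat.add_sub_cancel' hq]; rfl

theorem cn_mem_Ga (h : V.Ok W) {q : ℕ} (hq : q ≤ V.om2) {x : Pt} : cn q x ∈ V.Ga ↔ x ∈ V.Ga := by
  have h0 : (0 : ℤ) < 2 ^ q := by positivity
  have e : (V.ω : ℤ) = 2 ^ q * 2 ^ (V.om2 - q) := by exact_mod_cast ω_eq hq
  have e' : (V.G.rho : ℤ) = 2 ^ V.j * V.ω := by exact_mod_cast rho_eq h
  generalize (2 : ℤ) ^ (V.om2 - q) = m at e
  generalize (2 : ℤ) ^ V.j = n at e'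
  have lo : ∀ u c : ℤ, 2 ^ q * c ≤ 2 ^ q * (u / 2 ^ q) ↔ 2 ^ q * c ≤ u := fun u c => by
    rw [mul_le_mul_iff_right₀ h0, Int.le_ediv_iff_mul_le h0, mul_comm]
  have hi : ∀ u c : ℤ, 2 ^ q * (u / 2 ^ q) < 2 ^ q * c ↔ u < 2 ^ q * c := fun u c => by
    rw [← not_le, lo, not_le]
  have e2 : (V.G.rho : ℤ) + V.ω = 2 ^ q * (n * m + m) := by rw [e', e]; ring
  have e4 : (V.G.rho : ℤ) - V.ω = 2 ^ q * (n * m - m) := by rw [e', e]; ring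
  rw [mem_Ga h, mem_Ga h, e2, e4, ← mul_neg, ← mul_neg]
  simp only [cn, tile, tileOf, Prod.fst_zero, Prod.snd_zero, zero_add, sub_zero, Nat.cast_pow,
    Nat.cast_ofNat, lo, hi]

theorem cn_mem_cor (h : V.Ok W) {q : ℕ} (hq : q ≤ V.om2) {x : Pt} : cn q x ∈ V.cor q ↔ x ∈ V.Ga := by
  rw [mem_cor, cn_mem_Ga h hq]; exact and_iff_left (cn_dvd q x)

theorem cel_subset (h : V.Ok W) {q : ℕ} (hq : q ≤ V.om2) {i : Pt} (hi : i ∈ V.cor q) :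
    sq i (2 ^ q) ⊆ V.Ga := fun x hx => by
  obtain ⟨-, h1, h2⟩ := mem_cor.1 hi
  rwa [← cn_mem_cor h hq, cn_eq h1 h2 hx]

theorem cel_union (h : V.Ok W) {q : ℕ} (hq : q ≤ V.om2) :
    (V.cor q).biUnion (fun i => sq i (2 ^ q)) = V.Ga := by
  ext x
  rw [mem_biUnion]
  exact ⟨fun ⟨i, hi, hx⟩ => cel_subset h hq hi hx, fun hx => ⟨_, (cn_mem_cor h hq).2 hx, mem_cn q x⟩⟩

theorem cel_disjoint (V : Gv) (q : ℕ) : (V.cor q : Set Pt).PairwiseDisjoint fun i => sq i (2 ^ q) :=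
  fun _ hi _ hj hij => disjoint_left.2 fun _ hx hx' => hij <|
    (cn_eq (mem_cor.1 hi).2.1 (mem_cor.1 hi).2.2 hx).symm.trans
      (cn_eq (mem_cor.1 hj).2.1 (mem_cor.1 hj).2.2 hx')

theorem card_cor (h : V.Ok W) {q : ℕ} (hq : q ≤ V.om2) :
    (V.cor q).card = 16 * 2 ^ V.j * 4 ^ (V.om2 - q) := by
  have h1 := card_Ga h
  rw [← cel_union h hq, card_biUnion (cel_disjoint V q), ω_eq hq] at h1
  simp only [card_sq, sum_const, smul_eq_mul] at h1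
  have h2 : (4 : ℕ) ^ (V.om2 - q) = (2 ^ (V.om2 - q)) ^ 2 := by
    rw [← pow_mul, mul_comm, pow_mul]; norm_num
  refine Nat.eq_of_mul_eq_mul_right (m := (2 ^ q) ^ 2) (by positivity) ?_
  rw [h1, h2]; ring

theorem cel_EA (h : V.Ok W) {q : ℕ} (hq : q ≤ V.om2) {i : Pt} (hi : i ∈ V.cor q) :
    Pot.nL.edI (sq i (2 ^ q)) ⊆ V.EA := fun e he => by
  obtain ⟨hJ, h1, h2⟩ := Lat.mem_edI.1 he
  rw [Gv.EA, mem_kp h, Lat.mem_edT]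
  refine ⟨⟨hJ, Or.inl (Ga_sub_A h (cel_subset h hq hi h1))⟩, fun ⟨a, b, _⟩ => ?_⟩
  obtain ⟨-, -, ⟨t, ht⟩⟩ := mem_cor.1 hi
  have h0 : (0 : ℤ) < 2 ^ q := by positivity
  rw [mem_sq] at h1 h2
  push_cast at h1 h2
  have k1 : 2 ^ q * t < 2 ^ q * 0 := by omega
  have k2 : 2 ^ q * 0 < 2 ^ q * (t + 1) := by rw [mul_add]; omega
  have := lt_of_mul_lt_mul_left k1 h0.le
  have := lt_of_mul_lt_mul_left k2 h0.le
  omega

/-! ## Sites, edges, seams -/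

theorem k_off (h : V.Ok W) : V.k1 ∉ V.G.Om ∧ V.k2 ∉ V.G.Om ∧ V.k1 ≠ V.k2 ∧ V.rt ∈ V.G.Ou := by
  have := scales h
  simp only [Gv.k1, Gv.k2, Gv.rt, Gm.Om, Gm.Ou, mem_an0, Ne, Prod.ext_iff, Prod.fst_zero, Prod.snd_zero]
  omega

theorem kp_mono {ed ed' : Finset (Pt × Pt)} (h : ed ⊆ ed') : V.kp ed ⊆ V.kp ed' :=
  filter_subset_filter _ h

theorem kp_sub (V : Gv) (ed : Finset (Pt × Pt)) : V.kp ed ⊆ ed := filter_subset _ _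

theorem EA_sub (h : V.Ok W) : V.EA ⊆ V.EO := kp_mono (Kr.Geo87.nL_edT_A h.g)

theorem slit (h : V.Ok W) {e : Pt × Pt} (he : e ∈ Pot.nL.edI V.G.Om) :
    e ∉ V.EO ↔ e.1 ∈ V.lip ∧ e.1.2 = -1 ∧ e.2 = e.1 + (0, 1) := by
  rw [Gv.EO, mem_kp h, mem_lip, Prod.ext_iff]
  simp only [he, true_and, Prod.fst_add, Prod.snd_add]
  omega

theorem seam (V : Gv) (e : Pt × Pt) :
    (V.s1 e ≠ 0 → V.s1 e = 1 ∧ V.s2 e = 0 ∧ e.1.2 = -1 ∧ e.2 = e.1 + (0, 1) ∧ 0 ≤ e.1.1 ∧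
      e.1.1 < (V.G.rho : ℤ) - 4 * V.ω) ∧
    (V.s2 e ≠ 0 → V.s2 e = 1 ∧ V.s1 e = 0 ∧ e.1.2 = -1 ∧ e.2 = e.1 + (0, 1) ∧
      (V.G.rho : ℤ) + 4 * V.ω ≤ e.1.1) := by
  simp only [Gv.s1, Gv.s2, ray0, Prod.ext_iff, Prod.fst_add, Prod.snd_add]
  split_ifs <;> omega

/-! ## Connectedness -/

theorem row (h : V.Ok W) (y a b : ℤ) (hab : a ≤ b) (hO : ∀ t, a ≤ t → t ≤ b → (t, y) ∈ V.G.Om) :
    Conn V.EO (a, y) (b, y) := by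
  induction b, hab using Int.leInduction with
  | base => exact Conn.refl _ _
  | succ n hn ih =>
    refine (ih fun t h1 h2 => hO t h1 (by omega)).trans (Conn.edge ?_)
    rw [Gv.EO, mem_kp h, Lat.mem_edI, nJp_iff]
    exact ⟨⟨by simp, hO _ hn (by omega), hO _ (by omega) le_rfl⟩, by simp only; omega⟩

theorem col (h : V.Ok W) (x a b : ℤ) (hab : a ≤ b) (hO : ∀ t, a ≤ t → t ≤ b → (x, t) ∈ V.G.Om)
    (hx : x < (V.G.rho : ℤ) - 4 * V.ω ∨ (V.G.rho : ℤ) + 4 * V.ω ≤ x) : Conn V.EO (x, a) (x, b) := by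
  induction b, hab using Int.leInduction with
  | base => exact Conn.refl _ _
  | succ n hn ih =>
    refine (ih fun t h1 h2 => hO t h1 (by omega)).trans (Conn.edge ?_)
    rw [Gv.EO, mem_kp h, Lat.mem_edI, nJp_iff]
    exact ⟨⟨by simp, hO _ hn (by omega), hO _ (by omega) le_rfl⟩, by simp only; omega⟩

theorem conn (h : V.Ok W) {x : Pt} (hx : x ∈ V.G.Om) : Conn V.EO x V.rt := by
  have := scales h
  obtain ⟨a, b⟩ := x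
  simp only [Gm.Om, mem_an0] at hx
  by_cases hc : a < -(V.G.c : ℤ)
  · refine ((row h b (-V.G.R₂) a (by omega) fun t h1 h2 => ?_).symm.trans
      (col h (-V.G.R₂) b V.G.R₂ (by omega) (fun t h1 h2 => ?_) (by omega))).trans
      (row h V.G.R₂ (-V.G.R₂) V.G.R₂ (by omega) fun t h1 h2 => ?_) <;>
    simp only [Gm.Om, mem_an0] <;> omega
  · refine (row h b a V.G.R₂ (by omega) fun t h1 h2 => ?_).trans
      (col h V.G.R₂ b V.G.R₂ (by omega) (fun t h1 h2 => ?_) (by omega)) <;>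
    simp only [Gm.Om, mem_an0] <;> omega

end Geo32

theorem geoStmt : GeoStmt := fun V _ h =>
  { r_le := Kr.Geo87.r_le h.g
    rho_le := Kr.Geo87.rho_le h.g
    le_rho := Kr.Geo87.le_rho V.G
    rho_eq := Geo32.rho_eq h
    ω16 := Geo32.ω16 h
    ω_le := Geo32.ω_le h
    Ga_sub := Geo32.Ga_sub h
    mid_sub := Geo32.mid_sub h
    ul_sub := Geo32.ul_sub h
    card_Ga := Geo32.card_Ga h
    card_mid := Geo32.card_mid h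
    cells := fun q hq => ⟨Geo32.cel_union h hq, Geo32.cel_disjoint V q, Geo32.card_cor h hq,
      fun _ hi => Geo32.cel_EA h hq hi⟩
    k_off := Geo32.k_off h
    EA_sub := Geo32.EA_sub h
    slit := fun _ he => Geo32.slit h he
    seam := Geo32.seam V
    conn := fun _ hx => Geo32.conn h hx }

end Crest.Agent.T145.Kv
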