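import Crest.Agent.T145.KrDef_77
import Crest.Agent.T145.Fac_45
import Crest.Agent.T145.Br_73
import Crest.Agent.T145.PotGs_57

/-!
# Row 145, module KERNEL: `Kr.gffAStmt` (helper45)
-/

set_option autoImplicit false

namespace Crest.Agent.T145.Kr

open Finset

namespace Ga45

/-- a Gaussian functional plus a small flow is Gaussian -/
theorem core (hA : AFacStmt) (F : Fa) (G : ℝ) {ε : ℝ} (hε : 0 < ε) :
    ∃ R ε₁ n₀ : ℝ, 0 < R ∧ 0 < ε₁ ∧ 0 < n₀ ∧ ∀ Λ, F.Mem Λ → ∀ (m : Mdl Pt) (ed : Finset (Pt × Pt))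
      (f a : Pt → ℝ) (v : ℝ), m.Ctr → m.Anch → ed ⊆ m.ed → (∀ e ∈ ed, m.w e = Λ.w) → |v| ≤ G →
      F2A ed m.A (f - a) n₀ → (∀ t : ℝ, |t| ≤ R → M (m.W 0) (t • pr a) ≤ v * t ^ 2 / 2 + ε₁) →
      v - ε₁ ≤ Vr (m.W 0) (pr a) (pr a) → Gs3 (m.W 0) (pr f) v ε := by
  obtain ⟨R, ε₁, hR, hε₁, H⟩ := hA.2.2 G ε hε
  set T : ℝ := |F.τ₂| + 1 with hT
  have hT0 : 0 < T := by positivity
  set n₀ : ℝ := min (1 / R ^ 2) (ε₁ / (T * R ^ 2)) with hn₀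
  have hn0 : 0 < n₀ := by positivity
  have b2 : n₀ * R ^ 2 ≤ 1 := (le_div_iff₀ (by positivity)).1 (min_le_left _ _)
  have b3 : n₀ * (T * R ^ 2) ≤ ε₁ := (le_div_iff₀ (by positivity)).1 (min_le_right _ _)
  refine ⟨R, ε₁, n₀, hR, hε₁, hn0, fun Λ hΛ m ed f a v hc han hE hw hv hf hM hV => ?_⟩
  have hO := F45.ok hΛ
  have hτ : Λ.τ ≤ T := by linarith [hΛ.2.2.2, le_abs_self F.τ₂]
  have e : pr f = pr a + pr (f - a) := by rw [pr_sub]; abel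
  rw [e]
  refine H _ (m.W 0) (pr a) (pr (f - a)) v (hc.cen han) hv hM hV fun t ht => ?_
  have hR2 : t ^ 2 ≤ R ^ 2 := by rw [← sq_abs]; exact pow_le_pow_left₀ (abs_nonneg t) ht 2
  have hn : t ^ 2 * n₀ ≤ R ^ 2 * n₀ := mul_le_mul_of_nonneg_right hR2 hn0.le
  have h2 := (brStmt.2.1 Λ m _ _ hO hc han ed hE hw ((hf.smul t).mono hn)).2.1
  rw [pr_smul] at h2
  have h0 : 0 ≤ R ^ 2 * n₀ := by positivity
  have h3 := F45.cosh_sqrt_le h0 (by linarith)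
  have h4 : Λ.τ * (R ^ 2 * n₀) ≤ ε₁ := by nlinarith [mul_le_mul_of_nonneg_right hτ h0]
  have h5 := mul_le_mul h4 h3 (Real.cosh_pos _).le hε₁.le
  linarith

theorem xg_on (D : Finset Pt) (f : Pt → ℝ) {x : Pt} (hx : x ∈ D) : xg D f x = f x :=
  (Pot.co_eD Pot.nL_ok D).op_gr f hx

theorem edT_sub {Λ : Lat} (h : Λ.Ok) (D : Finset Pt) : Pot.nL.edT D ⊆ Λ.edT D := fun _ he =>
  Lat.mem_edT.2 ⟨Pot.nn_subset h (Lat.mem_edT.1 he).1, (Lat.mem_edT.1 he).2⟩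

theorem f2_op (D : Finset Pt) (u : Pt → ℝ) :
    F2 (Pot.nL.edT D) (Pot.op (Pot.eD Pot.nL D) u) (Pot.eD Pot.nL D u u) :=
  ⟨fun e => u e.2 - u e.1, Pot.op_edF_eq _ u, (Pot.edF_self _ u).ge⟩

/-- the Green energy of a bounded density -/
theorem GD_le {D : Finset Pt} {z : Pt} {K : ℝ} {L : ℕ} (hK : 1 ≤ K) (hL : 1 ≤ L)
    (hD : D ⊆ bl z ⌊K * L⌋₊) {f : Pt → ℝ} (hf : ∀ x ∈ D, |f x| ≤ K / (L : ℝ) ^ 2) :
    Pot.GD Pot.nL D f f ≤ 36 * K ^ 6 := by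
  obtain ⟨C, hC⟩ := Pot.gszStmt
  have hL' : (1 : ℝ) ≤ L := by exact_mod_cast hL
  have hKL : (1 : ℝ) ≤ K * L := one_le_mul_of_one_le_of_one_le hK hL'
  have h1 : 1 ≤ ⌊K * L⌋₊ := Nat.le_floor (by simpa using hKL)
  have h2 : (⌊K * L⌋₊ : ℝ) ≤ K * L := Nat.floor_le (by linarith)
  have h0 : (0 : ℝ) ≤ ⌊K * L⌋₊ := Nat.cast_nonneg _
  have hk : 0 ≤ K / (L : ℝ) ^ 2 := by positivity
  have h3 := (hC Pot.nL z _ D Pot.nL_ok h1 hD).2.2.1 f _ hk hf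
  rw [Pot.nL_rg, Nat.cast_one] at h3
  have h4 : (D.card : ℝ) ≤ (3 * (K * L)) ^ 2 := by
    have := card_le_card hD
    rw [card_bl] at this
    have h5 : (D.card : ℝ) ≤ (2 * (⌊K * L⌋₊ : ℝ) + 1) ^ 2 := by exact_mod_cast this
    exact h5.trans (pow_le_pow_left₀ (by positivity) (by linarith) 2)
  have h5 : ∀ x ∈ D, f x * Pot.gr D (Pot.eD Pot.nL D) f x ≤
      K / (L : ℝ) ^ 2 * (K / (L : ℝ) ^ 2 * (2 * (K * L)) ^ 2) := fun x hx => by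
    refine (le_abs_self _).trans ?_
    rw [abs_mul]
    refine mul_le_mul (hf x hx) ((h3 x).trans ?_) (abs_nonneg _) hk
    exact mul_le_mul_of_nonneg_left (pow_le_pow_left₀ (by positivity) (by linarith) 2) hk
  have h6 := sum_le_card_nsmul _ _ _ h5
  rw [nsmul_eq_mul] at h6
  refine h6.trans ((mul_le_mul_of_nonneg_right h4 (by positivity)).trans (le_of_eq ?_))
  field_simp
  ring

theorem inv_e0 {F : Fa} {Λ : Lat} (h : F.Mem Λ) : 0 < Λ.e0 ∧ Λ.e0⁻¹ ≤ |F.τ₂| + 1 := by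
  have hO := F45.ok h
  have h1 := hO.one_le_a
  have h2 : 0 < Λ.τ := hO.2
  refine ⟨div_pos (by linarith) h2, ?_⟩
  rw [Lat.e0, inv_div]
  exact (div_le_self h2.le h1).trans (by linarith [h.2.2.2, le_abs_self F.τ₂])

/-- the smooth approximant: `A₀ G^D f` is almost `Λ.Au D w` -/
theorem apx (hP : Pot.P0Stmt) (hR : RjlStmt) (F : Fa) {K η : ℝ} (hK : 1 ≤ K) (hη : 0 < η) :
    ∃ (K' : ℝ) (L₀ : ℕ), 1 ≤ K' ∧ ∀ Λ, F.Mem Λ → ∀ L : ℕ, L₀ ≤ L → ∀ (D : Finset Pt) (f : Pt → ℝ),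
      Shp D K L → (∀ x ∈ D, |f x| ≤ K / (L : ℝ) ^ 2) → ∃ (z : Pt) (w : Pt → ℝ), Sm2 w K' L ∧
        (∀ K'' : ℝ, K' ≤ K'' → ∀ x, w x ≠ 0 → x ∈ bl z ⌊K'' * L⌋₊ ∧ bl x ⌊(L : ℝ) / K''⌋₊ ⊆ D) ∧
        (∀ A, F2A (Λ.edT D) A (xg D f - Λ.Au D w) η) ∧
        |Λ.En D w w - Λ.e0⁻¹ * Pot.GD Pot.nL D f f| ≤ η := by
  set T : ℝ := |F.τ₂| + 1 with hT
  have hT1 : 1 ≤ T := by linarith [abs_nonneg F.τ₂]
  set G : ℝ := 36 * K ^ 6 with hG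
  set s : ℝ := min 1 (η / (2 * T * (2 * Real.sqrt G + 1))) with hs
  have hs0 : 0 < s := by positivity
  set εa : ℝ := min (s ^ 2) (η / (4 * T ^ 2)) with hεa
  have hεa0 : 0 < εa := by positivity
  have b1 : s * (2 * T * (2 * Real.sqrt G + 1)) ≤ η := (le_div_iff₀ (by positivity)).1 (min_le_right _ _)
  have b2 : εa * (4 * T ^ 2) ≤ η := (le_div_iff₀ (by positivity)).1 (min_le_right _ _)
  obtain ⟨K₁, L₁, hK₁, P⟩ := hP nn 2 (K ^ 3) (K ^ 2) εa Pot.nL_ok.1 hεa0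
  have hK₁' : (1 : ℝ) ≤ K₁ := by exact_mod_cast hK₁
  obtain ⟨L₂, Q⟩ := hR F (K + K₁) εa (by linarith) hεa0
  refine ⟨T * (K + K₁), L₁ + L₂ + 1, one_le_mul_of_one_le_of_one_le hT1 (by linarith),
    fun Λ hΛ L hL D f ⟨z, r, hD, hr, hX⟩ hf => ?_⟩
  have hO := F45.ok hΛ
  obtain ⟨he0, he1⟩ := inv_e0 hΛ
  have hi0 : 0 < Λ.e0⁻¹ := inv_pos.2 he0
  have hL1 : 1 ≤ L := by omega
  have hL' : (1 : ℝ) ≤ L := by exact_mod_cast hL1
  have hLL : L ≤ ⌊K * L⌋₊ := Nat.le_floor (by nlinarith)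
  have hLL' : (L : ℝ) ≤ ⌊K * L⌋₊ := by exact_mod_cast hLL
  have h2 : (⌊K * L⌋₊ : ℝ) ≤ K * L := Nat.floor_le (by positivity)
  obtain ⟨u, hu, hsu, hE⟩ := P Pot.nL Pot.nL_ok rfl z ⌊K * L⌋₊ r D (by omega) hD (by nlinarith) hX f
    fun x hx => (hf x hx).trans (by
      rw [div_le_div_iff₀ (by positivity) (pow_pos (by linarith) 2)]
      calc K * (⌊K * L⌋₊ : ℝ) ^ 2 ≤ K * (K * L) ^ 2 := by gcongr
        _ = K ^ 3 * (L : ℝ) ^ 2 := by ring)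
  have hu2 : Sm2 u (K + K₁) L :=
    ((hu.scale (by linarith) hLL').mono le_rfl subset_rfl (by linarith) (by linarith)).sm2 le_rfl
  have hsup : ∀ K'' : ℝ, K + K₁ ≤ K'' → ∀ x, u x ≠ 0 →
      x ∈ bl z ⌊K'' * L⌋₊ ∧ bl x ⌊(L : ℝ) / K''⌋₊ ⊆ D := fun K'' hK'' x hx => by
    refine ⟨bl_mono z (Nat.floor_le_floor (by nlinarith)) (hD (hsu x hx (self_mem_bl _ _))),
      (bl_mono x ?_).trans (hsu x hx)⟩
    calc ⌊(L : ℝ) / K''⌋₊ ≤ ⌊(L : ℝ) / K₁⌋₊ := Nat.floor_le_floor (by gcongr; linarith)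
      _ = L / K₁ := Nat.floor_div_eq_div _ _
      _ ≤ _ := Nat.div_le_div_right hLL
  obtain ⟨q1, q2⟩ := Q Λ hΛ L (by omega) D z u hu2 (hsup _ le_rfl)
  have hKK : K + K₁ ≤ T * (K + K₁) := le_mul_of_one_le_left (by linarith) hT1
  refine ⟨z, Λ.e0⁻¹ • u, F45.sm2_smul hu2 (by linarith) ?_, fun K'' hK'' x hx =>
    hsup K'' (hKK.trans hK'') x fun h => hx (by simp [h]), fun A => ?_, ?_⟩
  · rw [abs_of_pos hi0]; exact mul_le_mul_of_nonneg_right he1 (by linarith)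
  · have h3 := ((F45.f2A_of (f2_op D (Pot.gr D (Pot.eD Pot.nL D) f - u)) A).ed_mono (edT_sub hO D)).mono hE
    have h4 := ((F45.f2A_of q1 A).ed_mono (Lat.edI_subset_edT D)).smul Λ.e0⁻¹
    have e : xg D f - Λ.Au D (Λ.e0⁻¹ • u) = Pot.op (Pot.eD Pot.nL D) (Pot.gr D (Pot.eD Pot.nL D) f - u) -
        Λ.e0⁻¹ • (Λ.Au D u - Λ.e0 • Pot.op (Pot.eD Pot.nL D) u) := by
      rw [F45.au_smul, Pot.op_sub, smul_sub, smul_smul, inv_mul_cancel₀ he0.ne', one_smul, xg]; abel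
    rw [e]
    refine (h3.sub h4).mono ?_
    have : Λ.e0⁻¹ ^ 2 ≤ T ^ 2 := pow_le_pow_left₀ hi0.le he1 2
    nlinarith [mul_le_mul_of_nonneg_right this hεa0.le, one_le_pow₀ (n := 2) hT1]
  · have hc := Pot.co_eD Pot.nL_ok D
    have hg : Pot.GD Pot.nL D f f = Pot.eD Pot.nL D (Pot.gr D (Pot.eD Pot.nL D) f)
        (Pot.gr D (Pot.eD Pot.nL D) f) := hc.G_eq f f
    set v := Pot.gr D (Pot.eD Pot.nL D) f
    have hs1 : Real.sqrt (Pot.eD Pot.nL D (v - u) (v - u)) ≤ s :=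
      (Real.sqrt_le_left hs0.le).2 (hE.trans (min_le_left _ _))
    have t1 := hc.toSy.sqrt_add u (v - u)
    have t2 := hc.toSy.sqrt_add v (u - v)
    have t3 : Pot.eD Pot.nL D (u - v) (u - v) = Pot.eD Pot.nL D (v - u) (v - u) := by
      rw [← neg_sub v u]; simp only [map_neg, LinearMap.neg_apply, neg_neg]
    rw [add_sub_cancel] at t1 t2
    rw [t3] at t2
    have h5 := F45.abs_sub_of_sqrt (g := Pot.GD Pot.nL D f f) (E := Pot.eD Pot.nL D u u) (G := G) (s := s)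
      (hc.G_nonneg f) (hc.nonneg u) (GD_le hK hL1 hD hf)
      (by rw [hg, abs_le]; constructor <;> linarith) (min_le_left _ _)
    have e : Λ.En D (Λ.e0⁻¹ • u) (Λ.e0⁻¹ • u) - Λ.e0⁻¹ * Pot.GD Pot.nL D f f =
        Λ.e0⁻¹ ^ 2 * (Λ.En D u u - Λ.e0 * Pot.eD Pot.nL D u u) +
          Λ.e0⁻¹ * (Pot.eD Pot.nL D u u - Pot.GD Pot.nL D f f) := by
      rw [F45.en_smul]; field_simp; ring
    rw [e]
    refine (abs_add_le _ _).trans ?_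
    rw [abs_mul, abs_mul, abs_of_pos hi0, abs_of_nonneg (sq_nonneg _)]
    have h6 := mul_le_mul (pow_le_pow_left₀ hi0.le he1 2) q2 (abs_nonneg _) (by positivity)
    have h7 := mul_le_mul he1 h5 (abs_nonneg _) (by positivity)
    nlinarith

end Ga45

open Ga45

/-- GffA -/
theorem gffAStmt (hP : Pot.P0Stmt) (hR : RjlStmt) (hD : DlgStmt) (hA : AFacStmt) (ha : T1aStmt) :
    GffAStmt := by
  intro F θ₀ K ε hθ hK hε
  obtain ⟨_, hT⟩ := ha F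
  obtain ⟨R, ε₁, n₀, hR0, hε₁, hn₀, H⟩ := core hA F ((|F.τ₂| + 1) * (36 * K ^ 6)) hε
  set η : ℝ := min n₀ (ε₁ / (2 * (1 + R ^ 2))) with hη
  have hη0 : 0 < η := by positivity
  have b1 : η * (2 * (1 + R ^ 2)) ≤ ε₁ := (le_div_iff₀ (by positivity)).1 (min_le_right _ _)
  obtain ⟨K', L₀, hK', P⟩ := apx hP hR F hK hη0
  have hKR : K' ≤ (R + 1) * K' := by nlinarith
  obtain ⟨δ, hδ, Q⟩ := hD F θ₀ ((R + 1) * K') (ε₁ / 2) hθ (hK'.trans hKR) (by positivity)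
  refine ⟨min δ (1 / ((L₀ : ℝ) + 1)), by positivity, fun Λ hΛ l L hw D f hS hf => ?_⟩
  have hO := F45.ok hΛ
  have hL := F45.win_L hw
  have hL' : (0 : ℝ) < L := by exact_mod_cast hL
  obtain ⟨h0, h1, -⟩ := hT Λ hΛ l (F45.win_l hw)
  obtain ⟨he0, he1⟩ := inv_e0 hΛ
  obtain ⟨z, w, hw2, hsup, hfl, hen⟩ := P Λ hΛ L (F45.win_large hw (min_le_right _ _)) D f hS hf
  have hg0 : 0 ≤ Pot.GD Pot.nL D f f := (Pot.co_eD Pot.nL_ok D).G_nonneg f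
  have hg1 : Pot.GD Pot.nL D f f ≤ 36 * K ^ 6 := by
    obtain ⟨z', r, h2, -⟩ := hS
    exact GD_le hK hL h2 hf
  have hv : |Λ.tN l * Λ.En D w w - Λ.gN l * Pot.GD Pot.nL D f f| ≤ η := by
    rw [Lat.gN, div_eq_mul_inv, mul_assoc, ← mul_sub, abs_mul, abs_of_nonneg h0]
    exact (mul_le_of_le_one_left (abs_nonneg _) h1).trans hen
  have key : ∀ (m : Mdl Pt) (g : Pt → ℝ), m.Ctr → m.Anch → Λ.edT D ⊆ m.ed →
      (∀ e ∈ Λ.edT D, m.w e = Λ.w) → Loc ((Λ.D D).W 0) (m.W 0) → (∀ x ∈ m.A, xg D f x = g x) →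
      Gs3 (m.W 0) (pr g) (Λ.gN l * Pot.GD Pot.nL D f f) ε := fun m g hc han hE hw' hl hg => by
    have hq : ∀ t : ℝ, |t| ≤ R + 1 → Gs3 (m.W 0) (t • pr (Λ.Au D w))
        (Λ.tN l * (t ^ 2 * Λ.En D w w)) (ε₁ / 2) := fun t ht => by
      rw [← pr_smul, ← F45.au_smul, ← F45.en_smul]
      exact Q Λ hΛ l L (F45.win_mono hw (min_le_left _ _)) m D z (t • w)
        ⟨hc, han, (Lat.edI_subset_edT D).trans hE, fun e he => hw' e (Lat.edI_subset_edT D he)⟩ hl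
        (F45.sm2_smul hw2 hL' (mul_le_mul_of_nonneg_right ht (by linarith)))
        fun x hx => hsup _ hKR x fun h => hx (by simp [h])
    refine H Λ hΛ m _ g (Λ.Au D w) _ hc han hE hw' ?_
      (((hfl m.A).congr fun x hx => by simp only [Pi.sub_apply, hg x hx]).mono (min_le_left _ _))
      (fun t ht => ?_) ?_
    · have h2 : Λ.gN l ≤ |F.τ₂| + 1 := by
        rw [Lat.gN, div_eq_mul_inv]; exact (mul_le_of_le_one_left (inv_pos.2 he0).le h1).trans he1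
      rw [abs_of_nonneg (mul_nonneg (show 0 ≤ Λ.gN l from div_nonneg h0 he0.le) hg0)]
      exact mul_le_mul h2 hg1 hg0 (by positivity)
    · have h2 := (abs_le.1 (hq t (by linarith)).2.1).2
      have h3 : t ^ 2 ≤ R ^ 2 := by rw [← sq_abs]; exact pow_le_pow_left₀ (abs_nonneg t) ht 2
      have h4 := mul_le_mul (abs_le.1 hv).2 h3 (sq_nonneg t) hη0.le
      nlinarith
    · have h2 := (abs_le.1 (hq 1 (by rw [abs_one]; linarith)).1).1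
      rw [one_smul, one_pow, one_mul] at h2
      nlinarith [(abs_le.1 hv).1, mul_nonneg hη0.le (sq_nonneg R)]
  exact ⟨key (Λ.D D) f (hO.ctr_D _) (hO.anch_D _) subset_rfl (fun _ _ => rfl) (Loc.refl _)
    fun x hx => xg_on D f hx, fun m hc han hE hw' hl => key m _ hc han hE hw' hl fun _ _ => rfl⟩

end Crest.Agent.T145.Kr
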