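import Crest.Agent.T145.KvDef_8
import Crest.Agent.T145.KrGa_45

/-!
# Row 145, module Kv: `Kv.gffStmt` (helper16)
-/

set_option autoImplicit false

namespace Crest.Agent.T145.Kv

open Finset Real

namespace Gf16

variable {V : Gv}

theorem X_add (V : Gv) (u v : Pt → ℝ) : V.X (u + v) = V.X u + V.X v := by
  simp only [Gv.X, gfl, map_add, add_smul, sum_add_distrib]

theorem X_smul (V : Gv) (t : ℝ) (u : Pt → ℝ) : V.X (t • u) = t • V.X u := by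
  simp only [Gv.X, gfl, map_smul, smul_eq_mul, mul_smul, smul_sum]

theorem glue_smul (V : Gv) (t : ℝ) (u : Fin 3 → Pt → ℝ) : V.glue (t • u) = t • V.glue u := by
  simp only [Gv.glue, Pi.smul_apply, Pot.on_smul, smul_add]

theorem pc_smul {K K' t : ℝ} {u : Fin 3 → Pt → ℝ} (h : V.Pc K u) (hR : (0 : ℝ) < V.G.R) (hK : 0 < K)
    (hKK : K ≤ K') (ht : |t| * K ≤ K') : V.Pc K' (t • u) := by
  have hb : ∀ x : Pt, bl x ⌊(V.G.R : ℝ) / K'⌋₊ ⊆ bl x ⌊(V.G.R : ℝ) / K⌋₊ := fun x =>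
    bl_mono x (Nat.floor_le_floor (by gcongr))
  have hne : ∀ i x, (t • u) i x ≠ 0 → u i x ≠ 0 := fun i x h1 h2 => h1 (by simp [h2])
  refine ⟨fun i => ⟨F45.sm2_smul (h.sm i).1 hR ht, fun x => ?_⟩,
    fun x hx => (hb x).trans (h.s0 x (hne 0 x hx)),
    fun x hx => (hb x).trans (h.s12 x (hx.imp (hne 1 x) (hne 2 x)))⟩
  rw [Pi.smul_apply, Pi.smul_apply, smul_eq_mul, abs_mul]
  exact (mul_le_mul_of_nonneg_left ((h.sm i).2 x) (abs_nonneg t)).trans ht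

/-- the extended weight is a product of edge kernels and of a positive definite factor -/
theorem rw_eq (V : Gv) (Λ : Lat) : ∃ H : Cfg Pt → ℝ, PD H ∧ (∀ s, 0 ≤ H s) ∧
    ∀ s, V.rw Λ s = H s * ∏ e ∈ V.EO, Λ.w (V.gk e s) := by
  refine ⟨fun s => ind (Finsupp.applyAddHom V.rt s = 0) *
      ind (∀ x, x ∉ insert V.k1 (insert V.k2 V.G.Om) → s x = 0),
    (pd_ind _).mul (pd_off _), fun s => mul_nonneg (ind_nonneg _) (ind_nonneg _), fun s => ?_⟩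
  rw [Gv.rw, Gv.rho, ← mul_assoc]
  congr 2
  refine ind_congr (forall_congr' fun x => ?_)
  simp only [mem_insert, not_or]
  tauto

/-- the bare bound for `X_w` -/
theorem bare (hB : BrgStmt) {Λ : Lat} (hO : Λ.Ok) (hE : V.EA ⊆ V.EO) (hc : Cen (V.rw Λ)) {w : Pt → ℝ}
    (hw : V.B w w ≤ 1) : M (V.rw Λ) (V.X w) ≤ Λ.τ * V.B w w := by
  obtain ⟨H, h1, h2, h3⟩ := rw_eq V Λ
  have h4 := hB Λ _ (V.rw Λ) H V.gk V.EO (fun e => if e ∈ V.EA then V.Gk e w else 0) hO hc.wt hc.se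
    h1 h2 h3
  have e1 : gfl V.EO (fun e => if e ∈ V.EA then V.Gk e w else 0) V.gk = V.X w := by
    rw [Gv.X, gfl, gfl, ← sum_subset hE fun e _ he => by rw [if_neg he, zero_smul]]
    exact sum_congr rfl fun e he => by rw [if_pos he]
  have e2 : V.B w w = ∑ e ∈ V.EA, V.Gk e w ^ 2 := by
    rw [Gv.B, Gv.eT, Pot.sqF_apply]
    exact sum_congr rfl fun e _ => by ring
  rw [e1, ← sum_subset hE fun e _ he => by rw [if_neg he, cosh_zero, sub_self]] at h4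
  refine h4.trans (mul_le_mul_of_nonneg_left ?_ hO.2.le)
  rw [e2] at hw ⊢
  refine sum_le_sum fun e he => ?_
  rw [if_pos he]
  have h5 : V.Gk e w ^ 2 ≤ 1 := (single_le_sum (f := fun e => V.Gk e w ^ 2)
    (fun _ _ => sq_nonneg _) he).trans hw
  have h6 : cosh (V.Gk e w) ≤ cosh 1 := cosh_le_cosh.2 (by
    rw [abs_one]; exact (sq_le_one_iff_abs_le_one _).1 h5)
  nlinarith [cosh_sub_one_le (V.Gk e w), cosh_one_le_two, sq_nonneg (V.Gk e w)]

theorem A_sub {W : ℝ} (h : V.Ok W) : V.G.A ⊆ V.G.Om :=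
  sdiff_subset_sdiff (bl_mono 0 (by have := h.g.out; omega)) (bl_mono 0 (by have := h.g.hc; omega))

theorem ul_sub (hg : V.Geo) : V.up ∪ V.lo ⊆ V.G.A :=
  hg.ul_sub.trans (sdiff_subset_sdiff (bl_mono 0 (by have := hg.rho_le; omega))
    (bl_mono 0 (by have := hg.r_le; omega)))

theorem sup_glue (hg : V.Geo) {K : ℝ} {u : Fin 3 → Pt → ℝ} (h : V.Pc K u) :
    Pot.Sup V.G.A (V.glue u) := by
  refine (Pot.Sup.add (fun x hx => ?_) ((Pot.sup_on _ _).mono (subset_union_left.trans (ul_sub hg)))).add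
    ((Pot.sup_on _ _).mono (subset_union_right.trans (ul_sub hg)))
  by_contra h0
  exact hx (mem_sdiff.1 (h.s0 x h0 (self_mem_bl _ _))).1

theorem B_eq {W : ℝ} (h : V.Ok W) (hg : V.Geo) (ha : V.Alg) {u v : Pt → ℝ} (hu : Pot.Sup V.G.A u)
    (hv : Pot.Sup V.G.A v) : V.B u v = Pot.edF V.EA u v :=
  ha.plain _ u v (hu _ fun hx => hg.k_off.1 (A_sub h hx)) (hu _ fun hx => hg.k_off.2.1 (A_sub h hx))
    (hv _ fun hx => hg.k_off.1 (A_sub h hx)) (hv _ fun hx => hg.k_off.2.1 (A_sub h hx))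

theorem G_eq (ha : V.Alg) (f g : Pt → ℝ) :
    Pot.G V.G.A V.B f g = Pot.G V.G.A (Pot.edF V.EA) f g := by rw [Pot.G, Pot.G, ha.gr_eq]

theorem one_le_R (hg : V.Geo) : 1 ≤ V.G.R := by
  have h1 := hg.rho_le
  have h2 := hg.ω16
  have h3 := hg.ω_le
  omega

/-- the Green energy of a bounded density -/
theorem G_le (hg : V.Geo) (ha : V.Alg) {f : Pt → ℝ} {K : ℝ}
    (hf : ∀ x ∈ V.G.A, |f x| ≤ K / (V.G.R : ℝ) ^ 2) : Pot.G V.G.A (Pot.edF V.EA) f f ≤ 36 * K ^ 2 := by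
  have hR : (1 : ℝ) ≤ V.G.R := by exact_mod_cast one_le_R hg
  refine ha.coE.G_le_of (by positivity) fun u hu => ?_
  have h1 : Pot.ip V.G.A f u ^ 2 ≤ (∑ x ∈ V.G.A, f x ^ 2) * ∑ x ∈ V.G.A, u x ^ 2 :=
    sum_mul_sq_le_sq_mul_sq _ _ _
  have h2 : (V.G.A.card : ℝ) ≤ (3 * V.G.R) ^ 2 := by
    have := card_le_card (sdiff_subset : V.G.A ⊆ bl 0 V.G.R)
    rw [card_bl] at this
    have h5 : (V.G.A.card : ℝ) ≤ (2 * (V.G.R : ℝ) + 1) ^ 2 := by exact_mod_cast this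
    exact h5.trans (pow_le_pow_left₀ (by positivity) (by linarith) 2)
  have h3 : ∑ x ∈ V.G.A, f x ^ 2 ≤ (3 * V.G.R) ^ 2 * (K / (V.G.R : ℝ) ^ 2) ^ 2 := by
    have := sum_le_card_nsmul V.G.A (fun x => f x ^ 2) ((K / (V.G.R : ℝ) ^ 2) ^ 2) fun x hx => by
      rw [← sq_abs]; exact pow_le_pow_left₀ (abs_nonneg _) (hf x hx) 2
    rw [nsmul_eq_mul] at this
    exact this.trans (mul_le_mul_of_nonneg_right h2 (sq_nonneg _))
  refine h1.trans ((mul_le_mul h3 (ha.poin u hu) (sum_nonneg fun _ _ => sq_nonneg _)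
    (by positivity)).trans (le_of_eq ?_))
  field_simp
  ring

end Gf16

open Gf16

set_option maxHeartbeats 1600000 in
/-- GFF -/
theorem gffStmt (hP : P0Stmt) (h1 : T1Stmt) (hD : DlStmt) (hB : BrgStmt) (hA : AFacStmt)
    (hT : T1aStmt) (hG : GeoStmt) (hAl : AlgStmt) (hX : ExtStmt) : GffStmt := by
  intro F θ₀ W K j hJ hθ hK K' ε hε
  obtain ⟨_, hT⟩ := hT F
  set T : ℝ := |F.τ₂| + 1 with hTd
  have hT1 : 1 ≤ T := by linarith [abs_nonneg F.τ₂]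
  set C : ℝ := 36 * K' ^ 2 with hC
  have hC0 : 0 ≤ C := by positivity
  obtain ⟨R, ε₁, hR0, hε₁, H⟩ := hA.2.2 (T * C) ε hε
  set s : ℝ := min 1 (ε₁ / (2 * T * (1 + R ^ 2) * (2 * √C + 1))) with hs
  have hs0 : 0 < s := by positivity
  have b1 : s * (2 * T * (1 + R ^ 2) * (2 * √C + 1)) ≤ ε₁ :=
    (le_div_iff₀ (by positivity)).1 (min_le_right _ _)
  set n : ℝ := min (s ^ 2) (min (1 / R ^ 2) (ε₁ / (T * R ^ 2))) with hn
  have hn0 : 0 < n := by positivity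
  have b2 : n * R ^ 2 ≤ 1 := (le_div_iff₀ (by positivity)).1 ((min_le_right _ _).trans (min_le_left _ _))
  have b3 : n * (T * R ^ 2) ≤ ε₁ :=
    (le_div_iff₀ (by positivity)).1 ((min_le_right _ _).trans (min_le_right _ _))
  obtain ⟨K₁, R₀, hK₁, P⟩ := hP W K' n j hn0
  have hKR : K₁ ≤ (R + 1) * K₁ := by nlinarith
  obtain ⟨δ₁, hδ₁, Q₁⟩ := h1 F θ₀ W K j hJ hθ hK ((R + 1) * K₁) (ε₁ / 2) (hK₁.trans hKR) (by positivity)
  obtain ⟨δ₂, hδ₂, Q₂⟩ := hD F θ₀ W K j hJ hθ hK K₁ (ε₁ / 2) hK₁ (by positivity)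
  refine ⟨min (min δ₁ δ₂) (1 / ((⌈K * R₀⌉₊ : ℝ) + 1)), by positivity,
    fun Λ hΛ l L hw V hV hj hAt f hf => ?_⟩
  have hO := F45.ok hΛ
  have hg := hG V W hV
  have ha := hAl V W hV
  have hx := hX Λ V W hO (hΛ.1.trans hJ) hV
  have hτ : Λ.τ ≤ T := by linarith [hΛ.2.2.2, le_abs_self F.τ₂]
  obtain ⟨h0, h1', -⟩ := hT Λ hΛ l (F45.win_l hw)
  obtain ⟨he0, he1⟩ := Kr.Ga45.inv_e0 hΛ
  have g0 : 0 ≤ Λ.gN l := div_nonneg h0 he0.le
  have g1 : Λ.gN l ≤ T := by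
    rw [Lat.gN, div_eq_mul_inv]; exact (mul_le_of_le_one_left (inv_pos.2 he0).le h1').trans he1
  have hR : (1 : ℝ) ≤ V.G.R := by exact_mod_cast one_le_R hg
  have hR₀ : R₀ ≤ V.G.R := by
    have h2 : (⌈K * R₀⌉₊ : ℝ) ≤ L := by exact_mod_cast F45.win_large hw (min_le_right _ _)
    have h3 := (Nat.le_ceil (K * R₀)).trans (h2.trans hAt.2)
    exact_mod_cast le_of_mul_le_mul_left h3 (by linarith)
  obtain ⟨u, hu, hE⟩ := P V hV hj hR₀ f hf
  rw [G_eq ha, ha.gr_eq]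
  have hc := ha.coE
  have hG0 := hc.G_nonneg f
  have hG1 : Pot.G V.G.A (Pot.edF V.EA) f f ≤ C := G_le hg ha hf
  have hGe := hc.G_eq f f
  have hsv := hc.gr_sup f
  set v := Pot.gr V.G.A (Pot.edF V.EA) f
  set G := Pot.G V.G.A (Pot.edF V.EA) f f
  have q1 := fun (t : ℝ) (ht : |t| ≤ R) => (Q₁ Λ hΛ l L
    (F45.win_mono hw ((min_le_left _ _).trans (min_le_left _ _))) V hV hj hAt (t • u)
    (pc_smul hu (by linarith) (by linarith) hKR (mul_le_mul_of_nonneg_right (by linarith) (by linarith)))).2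
  have q2 := Q₂ Λ hΛ l L (F45.win_mono hw ((min_le_left _ _).trans (min_le_right _ _))) V hV hj hAt u hu
  have hsw := sup_glue hg hu
  simp only [glue_smul, X_smul, map_smul, LinearMap.smul_apply, smul_eq_mul] at q1
  set w := V.glue u
  set E := Pot.edF V.EA w w with hEd
  have hEG : |E - G| ≤ s * (2 * √C + 1) := by
    have hs1 : √(Pot.edF V.EA (v - w) (v - w)) ≤ s :=
      (Real.sqrt_le_left hs0.le).2 (hE.trans (min_le_left _ _))
    have t1 := hc.toSy.sqrt_add w (v - w)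
    have t2 := hc.toSy.sqrt_add v (w - v)
    have t3 : Pot.edF V.EA (w - v) (w - v) = Pot.edF V.EA (v - w) (v - w) := by
      rw [← neg_sub v w]; simp only [map_neg, LinearMap.neg_apply, neg_neg]
    rw [add_sub_cancel] at t1 t2
    rw [t3] at t2
    exact F45.abs_sub_of_sqrt hG0 (hc.nonneg w) hG1
      (by rw [hGe, abs_le]; constructor <;> linarith) (min_le_left _ _)
  have hv : |Λ.gN l * E - Λ.gN l * G| ≤ ε₁ / (2 * (1 + R ^ 2)) := by
    rw [← mul_sub, abs_mul, abs_of_nonneg g0, le_div_iff₀ (by positivity)]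
    have := mul_le_mul g1 hEG (abs_nonneg _) (by linarith)
    nlinarith [mul_le_mul_of_nonneg_right this (by positivity : 0 ≤ 2 * (1 + R ^ 2))]
  set η := ε₁ / (2 * (1 + R ^ 2)) with hη
  have hη0 : 0 < η := by positivity
  have hη1 : η * (2 * (1 + R ^ 2)) = ε₁ := div_mul_cancel₀ _ (by positivity)
  have hR2 : ∀ t : ℝ, |t| ≤ R → t ^ 2 ≤ R ^ 2 := fun t ht => by
    rw [← sq_abs]; exact pow_le_pow_left₀ (abs_nonneg t) ht 2
  have m1 : ∀ t : ℝ, |t| ≤ R → M (V.rw Λ) (t • V.X w) ≤ Λ.gN l * G * t ^ 2 / 2 + ε₁ := fun t ht => by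
    have h4 := mul_le_mul (abs_le.1 hv).2 (hR2 t ht) (sq_nonneg t) hη0.le
    nlinarith [q1 t ht]
  have m2 : ∀ t : ℝ, |t| ≤ R → M (V.rw Λ) (t • V.X (v - w)) ≤ ε₁ := fun t ht => by
    have e : V.B (t • (v - w)) (t • (v - w)) = t ^ 2 * Pot.edF V.EA (v - w) (v - w) := by
      rw [← B_eq hV hg ha (hsv.sub hsw) (hsv.sub hsw)]
      simp only [map_smul, LinearMap.smul_apply, smul_eq_mul]; ring
    have h4 : V.B (t • (v - w)) (t • (v - w)) ≤ R ^ 2 * n := by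
      rw [e]; exact mul_le_mul (hR2 t ht) hE (hc.nonneg _) (sq_nonneg R)
    rw [← X_smul]
    refine (bare hB hO hg.EA_sub hx.cen (by linarith)).trans ?_
    have h5 := mul_le_mul hτ h4 (ha.coA.nonneg _) (by linarith)
    linarith
  have m3 : Λ.gN l * G - ε₁ ≤ Vr ((V.m0 Λ).W 0) (V.X w) (V.X w) := by
    nlinarith [(abs_le.1 hv).1, mul_nonneg hη0.le (sq_nonneg R)]
  have hab : |Λ.gN l * G| ≤ T * C := by
    rw [abs_of_nonneg (mul_nonneg g0 hG0)]; exact mul_le_mul g1 hG1 hG0 (by linarith)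
  have c0 := hx.m0.1.cen hx.m0.2
  have e : V.X v = V.X w + V.X (v - w) := by rw [← X_add, add_sub_cancel]
  rw [e]
  exact ⟨H _ _ _ _ _ c0 hab (fun t ht => (hx.loc.1 _).trans (m1 t ht)) m3
      fun t ht => (hx.loc.1 _).trans (m2 t ht),
    H _ _ _ _ _ hx.cen hab m1 (m3.trans (hx.loc.Vr_le c0 hx.cen _)) m2⟩

end Crest.Agent.T145.Kv
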