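import Crest.Agent.T145.KrDef_77
import Crest.Agent.T145.Soft_23

/-!
# Row 145, module KERNEL (helper40): windowed (K0) from (R), (F) and the tightness of the level
-/

set_option autoImplicit false

namespace Crest.Agent.T145.Kr

open Finset Real Filter Topology

namespace K040

theorem lev {u : ℝ} {N : ℕ} (h : |u| ≤ N) : ∑ j ∈ Icc (-(N : ℤ)) N, KrA.tw (u - j) = 1 := by
  refine (hasSum_sum_of_ne_finset_zero fun j hj => KrA.tw_zero ?_).unique (KrA.hasSum_tw' u)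
  rw [mem_Icc] at hj
  rw [abs_le] at h
  rcases (by omega : (N : ℤ) + 1 ≤ j ∨ j ≤ -N - 1) with h1 | h1
  · have : (N : ℝ) + 1 ≤ j := by exact_mod_cast h1
    exact le_abs.2 (Or.inr (by linarith))
  · have : (j : ℝ) ≤ -N - 1 := by exact_mod_cast h1
    exact le_abs.2 (Or.inl (by linarith))

variable {Z : Type*} {H f : Z → ℝ}

/-- from the levels to a window of levels -/
theorem win {e : ℝ} (h : ∀ (j : ℤ) (S : Finset Z), ∑ z ∈ S, KrA.tw (H z - j) * f z ≤ e) (N : ℕ)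
    {S : Finset Z} (hS : ∀ z ∈ S, |H z| ≤ N) : ∑ z ∈ S, f z ≤ (2 * N + 1) * e := by
  rw [sum_congr rfl fun z hz => (by rw [← sum_mul, lev (hS z hz), one_mul] :
    ∑ j ∈ Icc (-(N : ℤ)) N, KrA.tw (H z - j) * f z = f z).symm, sum_comm]
  refine (sum_le_card_nsmul _ _ e fun j _ => h j S).trans_eq ?_
  rw [nsmul_eq_mul, Int.card_Icc, show ((N : ℤ) + 1 - -N).toNat = 2 * N + 1 by omega]
  push_cast
  rfl

/-- abstract (K0) -/
theorem k0 {ν μ β q : Z → ℝ} {c e e' Zm : ℝ} {N N₀ : ℕ} (hν : ∀ z, 0 ≤ ν z) (hμ : ∀ z, 0 ≤ μ z)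
    (hβ : ∀ z, β z ≤ 1) (hc : 0 < c) (hZ : 0 < Zm) (he : e ≤ 1)
    (h1 : ∀ (j : ℤ) (S : Finset Z), ∑ z ∈ S, KrA.tw (H z - j) * ν z ≤ 1)
    (hR : ∀ (j : ℤ) (S : Finset Z), ∑ z ∈ S, KrA.tw (H z - j) * |μ z / c - ν z * β z| ≤ e)
    (hs : HasSum μ Zm) (hL : ∑' z, μ z * ind ((N₀ : ℝ) < |H z|) ≤ Zm / 2)
    (hF : ∀ S : Finset Z, ∑ z ∈ S, |μ z / Zm - q z| ≤ e') {S : Finset Z} (hS : ∀ z ∈ S, |H z| ≤ N) :
    ∑ z ∈ S, |ν z * β z - Zm / c * q z| ≤ (2 * N + 1) * e + 4 * (2 * N₀ + 1) * e' := by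
  classical
  have h2 : Zm ≤ Zm / 2 + c * (2 * (2 * N₀ + 1)) := hasSum_le_of_sum_le hs fun T => by
    rw [← sum_filter_add_sum_filter_not T fun z => (N₀ : ℝ) < |H z|]
    refine add_le_add (le_trans ?_ hL) ?_
    · rw [sum_congr rfl fun z hz => (by rw [ind_pos (mem_filter.1 hz).2, mul_one] :
        μ z * ind ((N₀ : ℝ) < |H z|) = μ z).symm]
      exact (Summable.of_nonneg_of_le (fun z => mul_nonneg (hμ z) (ind_nonneg _))
        (fun z => mul_le_of_le_one_right (hμ z) (ind_le_one _)) hs.summable).sum_le_tsum _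
        fun z _ => mul_nonneg (hμ z) (ind_nonneg _)
    · have hT : ∀ z ∈ T.filter fun z => ¬ (N₀ : ℝ) < |H z|, |H z| ≤ N₀ := fun z hz =>
        not_lt.1 (mem_filter.1 hz).2
      have h3 := add_le_add (win hR N₀ hT) (win h1 N₀ hT)
      rw [← sum_add_distrib] at h3
      rw [← div_le_iff₀' hc, sum_div]
      refine (sum_le_sum fun z _ => ?_).trans (h3.trans ?_)
      · linarith [le_abs_self (μ z / c - ν z * β z), mul_le_of_le_one_right (hν z) (hβ z)]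
      · linarith [mul_le_mul_of_nonneg_left he (by positivity : (0 : ℝ) ≤ 2 * N₀ + 1)]
  have h4 : Zm / c ≤ 4 * (2 * N₀ + 1) := by rw [div_le_iff₀' hc]; linarith
  have h5 := add_le_add (win hR N hS)
    (mul_le_mul h4 (hF S) (sum_nonneg fun _ _ => abs_nonneg _) (by positivity))
  rw [mul_sum, ← sum_add_distrib] at h5
  refine (sum_le_sum fun z _ => ?_).trans h5
  rw [← abs_of_pos (div_pos hZ hc), ← abs_mul, abs_of_pos (div_pos hZ hc), abs_sub_comm (μ z / c)]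
  refine le_trans (le_of_eq ?_) (abs_add_le _ _)
  congr 1
  field_simp
  ring

/-- the action on the data in `U`, level read by `f`, everything typical -/
noncomputable def act (U : Finset Pt) (f : Pt → ℝ) (h : ∑ x ∈ U, f x = 1) : KrA.Act (Cfg Pt) where
  s i := Equiv.addRight (cst U i)
  ng := Equiv.neg _
  H a := pr f a
  T _ := True
  s_add i j a := by simp only [Equiv.coe_addRight, cst_add]; abel
  s_zero a := by simp
  ng_s i a := by simp only [Equiv.coe_addRight, Equiv.neg_apply, cst_neg]; abel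
  H_s i a := by simp only [Equiv.coe_addRight, map_add, pr_cst, h, one_mul]
  H_ng a := map_neg _ a
  T_s _ _ := Iff.rfl
  T_ng _ := Iff.rfl

theorem lev_le {X Y : Type} {A : KrA.Act X} {B : KrA.Act Y} {ν : X × Y → ℝ} {y : X → Y → ℝ}
    (h : Pre A B ν y) (j : ℤ) (S : Finset (X × Y)) : ∑ z ∈ S, KrA.tw (A.H z.1 - j) * ν z ≤ 1 := by
  have h1 := ((A.s (-j)).prodCongr (B.s (-j))).hasSum_iff.2 h.one
  have h2 : HasSum (fun z : X × Y => KrA.tw (A.H z.1 - j) * ν z) 1 := by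
    convert h1 using 2 with z
    simp only [Function.comp_apply, Equiv.prodCongr_apply, Prod.map, A.H_s, h.shift, Int.cast_neg,
      sub_eq_add_neg]
  exact sum_le_hasSum S (fun z _ => mul_nonneg (KrA.tw_nonneg _) (h.nonneg z)) h2

theorem ev_wn {F : Fa} {θ₀ W K : ℝ} {P : Lat → ℝ → Gm → Prop} (h : Wn F θ₀ W K P) :
    ∀ᶠ δ in 𝓝[>] (0 : ℝ), ∀ Λ, F.Mem Λ → ∀ l L, Λ.Win θ₀ δ l L → ∀ G : Gm, G.Ok W → G.At K L →
      P Λ (Λ.gN l) G := by
  obtain ⟨δ₀, h0, h⟩ := h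
  filter_upwards [ev_le h0] with δ hδ Λ hΛ l L hw using h Λ hΛ l L (hw.mono_d hδ)

end K040

open K040 in
/-- (K0) -/
theorem k0Stmt (hR : RStmt) (hF : FStmt) (hL : LamStmt) (hK : K2Stmt) (hB : BarStmt) (hA : AlgStmt)
    (h1a : T1aStmt) (h1m : T1mStmt) : K0Stmt := by
  intro F θ₀ W K A ε a₀ hθ hK1 hε
  obtain ⟨C, hC, HL⟩ := hL F W
  obtain ⟨P, hP, HP⟩ := F.exists_bound
  obtain ⟨C₂, -, HK⟩ := hK (θ₀ / 2 / P) P (by positivity)
  obtain ⟨C₁, H1⟩ := h1a F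
  obtain ⟨N, hN⟩ := exists_nat_ge A
  obtain ⟨N₀, hN₀⟩ := exists_nat_ge (2 * C + 1)
  obtain ⟨a₁, HF⟩ := hF F θ₀ W K (ε / 2 / (4 * (2 * N₀ + 1))) hθ hK1 (by positivity)
  obtain ⟨b, HR⟩ := hR F θ₀ W K (min 1 (ε / 2 / (2 * N + 1))) (max a₀ a₁) hθ hK1 (by positivity)
  refine ⟨max a₀ a₁, b, le_max_left _ _, exists_of_ev ?_⟩
  filter_upwards [ev_wn HR, ev_wn (HF _ (le_max_right a₀ a₁)), ev_win h1m F hθ one_pos] with
    δ r f w Λ hΛ l L hw G hG hGL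
  obtain ⟨hab, c, hc, r⟩ := r Λ hΛ l L hw G hG hGL
  obtain ⟨p₁, p₂, hp₁, hp₂, f⟩ := f Λ hΛ l L hw G hG hGL
  obtain ⟨l1, l2, l3, l4, l5⟩ := HL Λ hΛ G hG (max a₀ a₁)
  have al := hA G W hG
  have hZ := (l1.wt l2 0).pos
  have he := hΛ.e0_pos
  obtain ⟨-, -, b1, b2, -⟩ := HP Λ hΛ
  have g1 : θ₀ / 2 / P ≤ Λ.gN l := div_le_div₀ ((half_pos hθ).le.trans (w Λ hΛ l L hw).2)
    (w Λ hΛ l L hw).2 he b1
  have g2 : Λ.gN l ≤ P := (div_le_div_of_nonneg_right (H1 Λ hΛ l hw.one_le_l).2.1 he.le).trans b2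
  have pre := (hB Λ G W (Λ.gN l) (act _ _ al.eq_sum) (act _ _ al.te_sum) hΛ.ok hG
    ⟨fun _ _ => rfl, fun _ => rfl, fun _ => rfl⟩ ⟨fun _ _ => rfl, fun _ => rfl, fun _ => rfl⟩).1
  have h0 : (0 : ℝ) < N₀ := by linarith
  refine ⟨hab, fun s => Zs ((G.mm Λ (max a₀ a₁)).W 0) / c * p₁ s, p₂,
    fun s => mul_nonneg (div_pos hZ hc).le (hp₁ s), hp₂, fun S hS => ?_⟩
  have h := k0 (N₀ := N₀) pre.nonneg l4 (fun z => exp_le_one_iff.2 (by
      linarith [(HK _ g1 g2 G W hG _ _ hab z.1 z.2).1])) hc hZ (min_le_left _ _)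
    (lev_le pre) r l3 ((l5 N₀ h0).trans (by
      rw [div_eq_mul_inv _ 2, mul_comm _ 2⁻¹]
      refine mul_le_mul_of_nonneg_right ((div_le_iff₀ (by positivity)).2 ?_) hZ.le
      nlinarith)) f fun z hz => (hS z hz).trans hN
  simp only [mul_assoc]
  refine h.trans ?_
  rw [mul_div_cancel₀ _ (by positivity)]
  linarith [(le_div_iff₀' (by positivity)).1 (min_le_right 1 (ε / 2 / (2 * N + 1)))]

end Crest.Agent.T145.Kr
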