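import Crest.Agent.T145.KvDef_8
import Crest.Agent.T145.KrK0_40

/-!
# Row 145, module Kv: `Kv.k0Stmt` (helper16), an instance of `Kr.K040.k0`
-/

set_option autoImplicit false

namespace Crest.Agent.T145.Kv

open Finset Real Filter Topology

namespace K016

theorem ev_wv {F : Fa} {θ₀ W K : ℝ} {j : ℕ} {P : Lat → ℝ → Gv → Prop} (h : Wv F θ₀ W K j P) :
    ∀ᶠ δ in 𝓝[>] (0 : ℝ), ∀ Λ, F.Mem Λ → ∀ l L, Λ.Win θ₀ δ l L → ∀ V : Gv, V.Ok W → V.j = j →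
      V.G.At K L → P Λ (Λ.gN l) V := by
  obtain ⟨δ₀, h0, h⟩ := h
  filter_upwards [ev_le h0] with δ hδ Λ hΛ l L hw using h Λ hΛ l L (hw.mono_d hδ)

end K016

open K016 Kr.K040 in
/-- (K0) -/
theorem k0Stmt (hR : RStmt) (hF : FStmt) (hL : LamStmt) (hK : K2Stmt) (hB : BarStmt) (hA : AlgStmt)
    (h1a : T1aStmt) (h1m : T1mStmt) : K0Stmt := by
  intro F θ₀ W K j hJ hθ hK1 A ε a₀ hε
  obtain ⟨C, hC, HL⟩ := hL F W j hJ
  obtain ⟨P, hP, HP⟩ := F.exists_bound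
  obtain ⟨C₂, -, HK⟩ := hK (θ₀ / 2 / P) P (by positivity)
  obtain ⟨C₁, H1⟩ := h1a F
  obtain ⟨N, hN⟩ := exists_nat_ge A
  obtain ⟨N₀, hN₀⟩ := exists_nat_ge (2 * C + 1)
  obtain ⟨a₁, HF⟩ := hF F θ₀ W K j hJ hθ hK1 (ε / 2 / (4 * (2 * N₀ + 1))) (by positivity)
  obtain ⟨b, HR⟩ := hR F θ₀ W K j hJ hθ hK1 (min 1 (ε / 2 / (2 * N + 1))) (max a₀ a₁) (by positivity)
  refine ⟨max a₀ a₁, b, le_max_left _ _, exists_of_ev ?_⟩
  filter_upwards [ev_wv HR, ev_wv (HF _ (le_max_right a₀ a₁)), ev_win h1m F hθ one_pos] with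
    δ r f w Λ hΛ l L hw V hV hj hGL
  obtain ⟨hab, c, hc, r⟩ := r Λ hΛ l L hw V hV hj hGL
  obtain ⟨p₁, p₂, hp₁, hp₂, f⟩ := f Λ hΛ l L hw V hV hj hGL
  obtain ⟨l3, hZ, l4, l5⟩ := HL Λ hΛ V hV hj (max a₀ a₁)
  obtain ⟨A₁, B₁, hI, hO⟩ := (hA V W hV).act 1
  have he := hΛ.e0_pos
  obtain ⟨-, -, b1, b2, -⟩ := HP Λ hΛ
  have g1 : θ₀ / 2 / P ≤ Λ.gN l := div_le_div₀ ((half_pos hθ).le.trans (w Λ hΛ l L hw).2)
    (w Λ hΛ l L hw).2 he b1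
  have g2 : Λ.gN l ≤ P := (div_le_div_of_nonneg_right (H1 Λ hΛ l hw.one_le_l).2.1 he.le).trans b2
  have pre := (hB Λ V W (Λ.gN l) 1 A₁ B₁ hΛ.ok (hΛ.1.trans hJ) hV hI hO).1
  have hlev := lev_le pre
  simp only [hI.2.2.1] at hlev
  have h0 : (0 : ℝ) < N₀ := by linarith
  refine ⟨hab, fun s => Zs (V.rm Λ (max a₀ a₁)) / c * p₁ s, p₂,
    fun s => mul_nonneg (div_pos hZ hc).le (hp₁ s), hp₂, fun S hS => ?_⟩
  have h := k0 (N₀ := N₀) pre.nonneg l4 (fun z => exp_le_one_iff.2 (by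
      linarith [(HK _ g1 g2 V W hV _ _ hab z.1 z.2).1])) hc hZ (min_le_left _ _)
    hlev r l3 ((l5 N₀ h0).trans (by
      rw [div_eq_mul_inv _ 2, mul_comm _ 2⁻¹]
      refine mul_le_mul_of_nonneg_right ((div_le_iff₀ (by positivity)).2 ?_) hZ.le
      nlinarith)) f fun z hz => (hS z hz).trans hN
  simp only [mul_assoc]
  refine h.trans ?_
  rw [mul_div_cancel₀ _ (by positivity)]
  linarith [(le_div_iff₀' (by positivity)).1 (min_le_right 1 (ε / 2 / (2 * N + 1)))]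

end Crest.Agent.T145.Kv
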