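import Crest.Agent.T145.KrDef_77

/-!
# Row 145, module KERNEL: K2 (screening) for the condenser (helper56)
-/

set_option autoImplicit false

namespace Crest.Agent.T145.Kr

open Finset Real Pot Kw56

namespace K256

theorem num {c c₁ ρ t n w X Y : ℝ} (hc : 0 < c) (hc₁ : c ≤ c₁) (hρ : 0 < ρ) (ht : 0 < t)
    (hn : 0 ≤ n) (hnt : n * t ≤ ρ) (hw : 0 < w) (h5 : ρ ≤ 5 * w) (hX : 0 ≤ X) (hY : 0 ≤ Y) :
    (8 * c * 1 * √2 * √((c + 4 * ((t / ρ) ^ 2 * (2 * n ^ 2))) / (t / ρ) ^ 2) +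
      2 * n * (c + 4 * ((t / ρ) ^ 2 * (2 * n ^ 2)))) / w * ((4 * 1 / w) ^ 2 * 2) * (√X * √Y) ≤
      2000 * (16 * c₁ + 2) * (c₁ + 8) / t * (X / ρ ^ 2 + Y / ρ ^ 2) := by
  have h1 : (t / ρ) ^ 2 * (2 * n ^ 2) ≤ 2 := by
    have : n * t / ρ ≤ 1 := (div_le_one hρ).2 hnt
    have h0 : 0 ≤ n * t / ρ := by positivity
    calc _ = 2 * (n * t / ρ) ^ 2 := by ring
      _ ≤ 2 * 1 ^ 2 := by gcongr
      _ = 2 := by ring
  have h1' : 0 ≤ (t / ρ) ^ 2 * (2 * n ^ 2) := by positivity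
  set K := c + 4 * ((t / ρ) ^ 2 * (2 * n ^ 2)) with hK
  have hK1 : K ≤ c₁ + 8 := by linarith
  have hK0 : 0 ≤ K := by linarith
  have hc0 : 0 < c₁ := by linarith
  have h2 : √(K / (t / ρ) ^ 2) ≤ (c₁ + 8) * (ρ / t) := by
    rw [Real.sqrt_le_left (by positivity)]
    calc K / (t / ρ) ^ 2 = K * (ρ / t) ^ 2 := by field_simp
      _ ≤ (c₁ + 8) ^ 2 * (ρ / t) ^ 2 := by gcongr; nlinarith
      _ = _ := by ring
  have h3 : √2 ≤ 2 := by rw [Real.sqrt_le_left (by norm_num)]; norm_num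
  have h4 : n ≤ ρ / t := (le_div_iff₀ ht).2 hnt
  have h6 : 1 / w ≤ 5 / ρ := by rw [div_le_div_iff₀ hw hρ]; linarith
  have h7 : √X * √Y ≤ (X + Y) / 2 := by
    nlinarith [sq_nonneg (√X - √Y), Real.sq_sqrt hX, Real.sq_sqrt hY]
  calc _ = (8 * c * √2 * √(K / (t / ρ) ^ 2) + 2 * n * K) * (1 / w) * (32 * (1 / w) ^ 2) *
        (√X * √Y) := by ring
    _ ≤ (8 * c₁ * 2 * ((c₁ + 8) * (ρ / t)) + 2 * (ρ / t) * (c₁ + 8)) * (5 / ρ) *
        (32 * (5 / ρ) ^ 2) * ((X + Y) / 2) := by gcongr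
    _ = _ := by field_simp; ring

end K256

theorem k2Stmt (hA : AlgStmt) : K2Stmt := by
  intro g₁ g₂ hg₁
  refine ⟨2000 * (16 * g₁⁻¹ + 2) * (g₁⁻¹ + 8), by positivity, fun g hg _ G W hG a b hab s t => ?_⟩
  have H := hA G W hG
  have hg0 : 0 < g := hg₁.trans_le hg
  have hc : 0 < g⁻¹ := inv_pos.2 hg0
  have hc₁ : g⁻¹ ≤ g₁⁻¹ := inv_anti₀ hg₁ hg
  have hr := hG.hr
  have h1 := H.r_le
  have h2 := H.rho_le
  have hρ : (0 : ℝ) < G.rho := by exact_mod_cast (show 0 < G.rho by omega)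
  have hκ : 0 < G.ms a := by unfold Gm.ms; positivity
  have he : ∀ e ∈ nL.edT (bl 0 G.R), e.2 - e.1 ∈ nL.Jp := fun e h => (Lat.mem_edT.1 h).1
  have hco : Co G.A (edF (nL.edT (bl 0 G.R))) := H.coA
  have hM : bl 0 (4 * G.rho) \ bl 0 (G.rho / 2) ⊆ G.A :=
    sdiff_subset_sdiff (bl_mono 0 (by omega)) (bl_mono 0 (by omega))
  obtain ⟨hcov, hdis, -⟩ := H.cells (G.p - (a + b)) (Nat.sub_le _ _)
  have hsub : ∀ i : G.cor (G.p - (a + b)), sq i.1 (2 ^ (G.p - (a + b))) ⊆ G.Ga := fun i =>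
    hcov ▸ subset_biUnion_of_mem (fun i => sq i (2 ^ (G.p - (a + b)))) i.2
  have hGR : G.Ga ⊆ bl 0 G.R := H.Ga_sub.trans (sdiff_subset.trans (bl_mono 0 (by omega)))
  have hC : Cells (nL.edT (bl 0 G.R)) univ (G.cel (G.p - (a + b))) G.Ga
      (2 * ((2 ^ (G.p - (a + b)) : ℕ) : ℝ) ^ 2) := by
    have := cells_sq nL_ok (ed := nL.edT (bl 0 G.R)) (T := univ)
      (a := fun i : G.cor (G.p - (a + b)) => i.1) (k := fun _ => 2 ^ (G.p - (a + b)))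
      (n := 2 ^ (G.p - (a + b)))
      (fun i _ j _ hne => hdis i.2 j.2 fun h => hne (Subtype.ext h)) (fun _ _ => le_rfl)
      fun i _ e h => Lat.mem_edT.2 ⟨(Lat.mem_edI.1 h).1, Or.inl (hGR (hsub i (Lat.mem_edI.1 h).2.1))⟩
    have hu : (univ : Finset (G.cor (G.p - (a + b)))).biUnion
        (fun i => sq i.1 (2 ^ (G.p - (a + b)))) = G.Ga := by
      rw [← hcov, univ_eq_attach]
      ext x; simp only [mem_biUnion, mem_attach, true_and, Subtype.exists, exists_prop]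
    rwa [hu] at this
  have hma : Hm G.A (edF (nL.edT (bl 0 G.R))) (G.ma s) := H.ma_hm s
  have hmb : Hm G.A (edF (nL.edT (bl 0 G.R))) (G.mb t) := H.mb_hm t
  have hw5 : (G.rho : ℝ) ≤ 5 * (G.rho / 4 : ℕ) := by exact_mod_cast (show G.rho ≤ 5 * (G.rho / 4) by omega)
  have hw0 : (0 : ℝ) < (G.rho / 4 : ℕ) := by exact_mod_cast (show 0 < G.rho / 4 by omega)
  have hJ : nL.Jp.card = 2 := by rw [nL_Jp]; rfl
  have hn0 : ∀ m : Pt → ℝ, 0 ≤ ∑ x ∈ G.mid, m x ^ 2 := fun m => sum_nonneg fun _ _ => sq_nonneg _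
  refine ⟨rgB_nonneg hco hc hκ.le (Hm.add' hma hmb), ?_, ?_⟩
  · have := rgB_le_ring (Λ := nL) (z := 0) (p' := G.rho / 2) (p := G.rho - 1) (q := 2 * G.rho)
      (q' := 4 * G.rho) (w := G.rho / 4) (T := univ) (β := G.cel (G.p - (a + b))) he hco hc hκ.le
      (by rw [nL_rg]; omega) (by omega) (by omega) (by omega) (by omega) hM
      (fun i _ => (hsub i).trans H.Ga_sub) (Hm.add' hma hmb)
    refine this.trans ?_
    rw [nL_rg, hJ]
    have h3 : ∑ x ∈ G.mid, (G.ma s + G.mb t) x ^ 2 ≤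
        2 * (∑ x ∈ G.mid, G.ma s x ^ 2 + ∑ x ∈ G.mid, G.mb t x ^ 2) := by
      rw [← sum_add_distrib, mul_sum]
      exact sum_le_sum fun x _ => by rw [Pi.add_apply]; nlinarith [sq_nonneg (G.ma s x - G.mb t x)]
    have h6 : 1 / ((G.rho / 4 : ℕ) : ℝ) ≤ 5 / G.rho := by rw [div_le_div_iff₀ hw0 hρ]; linarith
    calc _ = g⁻¹ * (32 * (1 / ((G.rho / 4 : ℕ) : ℝ)) ^ 2 * ∑ x ∈ G.mid, (G.ma s + G.mb t) x ^ 2) := by
          simp only [Gm.mid, Nc.an]; push_cast; ring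
      _ ≤ g₁⁻¹ * (32 * (5 / G.rho) ^ 2 *
          (2 * (∑ x ∈ G.mid, G.ma s x ^ 2 + ∑ x ∈ G.mid, G.mb t x ^ 2))) := by
          have h7 := hn0 (G.ma s + G.mb t)
          exact mul_le_mul hc₁ (mul_le_mul (by gcongr) h3 h7 (by positivity))
            (mul_nonneg (by positivity) h7) (by positivity)
      _ = 1600 * g₁⁻¹ * (G.nm (G.ma s) + G.nm (G.mb t)) := by unfold Gm.nm; ring
      _ ≤ _ := by
          have h8 : 0 < g₁⁻¹ := by positivity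
          exact mul_le_mul_of_nonneg_right (by nlinarith) (add_nonneg
            (div_nonneg (hn0 _) (sq_nonneg _)) (div_nonneg (hn0 _) (sq_nonneg _)))
  · have hnt : ((2 ^ (G.p - (a + b)) : ℕ) : ℝ) * 2 ^ a ≤ G.rho := by
      have : 2 ^ (G.p - (a + b)) * 2 ^ a ≤ G.rho := by
        rw [← pow_add]; exact Nat.pow_le_pow_right two_pos (by omega)
      exact_mod_cast this
    have := screen_ring (Λ := nL) (z := 0) (p' := G.rho / 2) (p := G.rho - 1) (q := 2 * G.rho)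
      (q' := 4 * G.rho) (w := G.rho / 4) (p₁ := G.rho) (q₁ := 2 * G.rho - 1)
      (d := 2 ^ (G.p - (a + b))) he hco hC (fun i _ x hx y hy => sq_diam le_rfl hx hy) hc hκ
      (by rw [nL_rg]; omega) (by omega) (by omega) (by omega) (by omega) (by omega) (by omega) hM
      H.sub_Ga H.Ga_sub hma hmb
      (fun x hx hx' => (H.coA.hx_off _ hx).trans
        (on_of_not fun h => hx' (bl_mono 0 (by omega) h)))
      fun x hx hx' => (H.coA.hx_off _ hx).trans (off_of_mem (by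
        by_contra h
        exact hx (mem_sdiff.2 ⟨bl_mono 0 (by omega) hx', h⟩)))
    rw [nL_rg, hJ] at this
    have e : G.Bz g a b (s, t) / 2 - (G.Bq g a b (G.ma s) (G.ma s) / 2 +
        G.Bq g a b (G.mb t) (G.mb t) / 2 - G.B (G.ma s) (G.mb t) / g) =
        G.Bq g a b (G.ma s) (G.mb t) + g⁻¹ * edF (nL.edT (bl 0 G.R)) (G.ma s) (G.mb t) := by
      simp only [Gm.Bz, Gm.Bq, rgB_add_sq hco hc hκ.le, Gm.B, eD]; ring
    rw [e]
    refine this.trans ?_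
    have := K256.num hc hc₁ hρ (show (0 : ℝ) < 2 ^ a by positivity) (Nat.cast_nonneg _) hnt hw0 hw5
      (hn0 (G.ma s)) (hn0 (G.mb t))
    simpa only [Gm.ms, Gm.nm, Gm.mid, Nc.an, Nat.cast_one, Nat.cast_ofNat] using this

end Crest.Agent.T145.Kr
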