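import Crest.Agent.T145.KrDef_77
import Crest.Agent.T145.PotGs_57

/-!
# Row 145, module KERNEL: traces of the cell matrices (helper57, task 302): `trStmt`
-/

set_option autoImplicit false

namespace Crest.Agent.T145.Kr

open Finset

namespace Tr57

open Pot

section abs
variable {V ι : Type*} [DecidableEq V] [Fintype ι] [DecidableEq ι] {A : Finset V} {ed : Finset (V × V)}

theorem unC_eq (S : Finset V) : Kw56.unC S = (S.card : ℝ)⁻¹ • on S 1 := by
  funext x; by_cases hx' : x ∈ S <;> simp [Kw56.unC, on, hx']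

theorem ent (h : Co A (edF ed)) (g κ : ℝ) (β : ι → Finset V) (i j : ι) :
    (Kw56.msM β κ * Kw56.sgM A g⁻¹ ed β) i j = κ * g * ((β i).card * ((β i).card : ℝ)⁻¹) *
      (((β j).card : ℝ)⁻¹ * G A (edF ed) (on (β i) 1) (on (β j) 1)) := by
  rw [Kw56.msM, Matrix.diagonal_mul, Kw56.sgM, Matrix.of_apply, inv_inv, unC_eq, unC_eq,
    G_smul_left, h.G_smul_right]
  ring

theorem ent' (h : Co A (edF ed)) (g κ : ℝ) (β : ι → Finset V) (i j : ι) :
    (Kw56.msM β κ * Kw56.sgM A g⁻¹ ed β) i j =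
      κ * g * (((β j).card : ℝ)⁻¹ * G A (edF ed) (on (β i) 1) (on (β j) 1)) := by
  rw [ent h]
  by_cases h0 : (β i).card = 0
  · rw [Gs57.G_on h, card_eq_zero.1 h0]; simp
  · rw [mul_inv_cancel₀ (Nat.cast_ne_zero.2 h0), mul_one]

theorem tr_one (h : Co A (edF ed)) (g κ : ℝ) (β : ι → Finset V) :
    (Kw56.msM β κ * Kw56.sgM A g⁻¹ ed β).trace =
      κ * g * ∑ i, ((β i).card : ℝ)⁻¹ * G A (edF ed) (on (β i) 1) (on (β i) 1) := by
  simp only [Matrix.trace, Matrix.diag_apply, ent' h, mul_sum]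

theorem tr_two (h : Co A (edF ed)) (g κ : ℝ) (β : ι → Finset V) :
    (Kw56.msM β κ * Kw56.sgM A g⁻¹ ed β * (Kw56.msM β κ * Kw56.sgM A g⁻¹ ed β)).trace =
      (κ * g) ^ 2 * ∑ i, ∑ j, ((β i).card : ℝ)⁻¹ * ((β j).card : ℝ)⁻¹ *
        G A (edF ed) (on (β i) 1) (on (β j) 1) ^ 2 := by
  simp only [Matrix.trace, Matrix.diag_apply, mul_sum]
  refine sum_congr rfl fun i _ => ?_
  rw [Matrix.mul_apply]
  refine sum_congr rfl fun j _ => ?_
  rw [ent' h, ent' h, h.G_comm (on (β j) 1)]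
  ring

end abs

/-- the logarithm averaged over a cell -/
theorem avg_log {a x : Pt} {s R : ℕ} {t : ℝ} (hs : 1 ≤ s) (hR : 1 ≤ R) (ht : Real.log (R / s) ≤ t)
    (ht0 : 0 ≤ t) (hx' : x ∈ sq a s) {B : Finset Pt} (hB : B ⊆ sq a s) :
    ∑ y ∈ B, (1 + Real.log (4 * R / (1 + eu (x - y)))) ≤ (37 + t) * (s : ℝ) ^ 2 := by
  have h1 : (1 : ℝ) ≤ s := by exact_mod_cast hs
  have h2 : (1 : ℝ) ≤ R := by exact_mod_cast hR
  have h3 : (B.card : ℝ) ≤ (s : ℝ) ^ 2 := by
    have := card_le_card hB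
    rw [card_sq] at this
    exact_mod_cast this
  have h4 : ∑ y ∈ B, (1 + eu (x - y))⁻¹ ≤ 9 * s := by
    refine le_trans ?_ ((Gs57.sum_inv x s).trans (by linarith))
    refine sum_le_sum_of_subset_of_nonneg (fun y hy => Kw56.sq_diam le_rfl (hB hy) hx') fun y _ _ => ?_
    have := eu_nonneg (x - y); positivity
  calc _ ≤ ∑ y ∈ B, ((1 + t) + 4 * s * (1 + eu (x - y))⁻¹) := sum_le_sum fun y _ => by
        have h0 : 0 < 1 + eu (x - y) := by linarith [eu_nonneg (x - y)]
        have h5 : 4 * (R : ℝ) / (1 + eu (x - y)) = R / s * (4 * s * (1 + eu (x - y))⁻¹) := by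
          field_simp
        rw [h5, Real.log_mul (by positivity) (by positivity)]
        linarith [Real.log_le_sub_one_of_pos (show 0 < 4 * s * (1 + eu (x - y))⁻¹ by positivity)]
    _ = B.card * (1 + t) + 4 * s * ∑ y ∈ B, (1 + eu (x - y))⁻¹ := by
        rw [sum_add_distrib, sum_const, nsmul_eq_mul, mul_sum]
    _ ≤ (s : ℝ) ^ 2 * (1 + t) + 4 * s * (9 * s) := by gcongr
    _ = _ := by ring

end Tr57

open Tr57 Pot in
/-- TR: traces of the cell matrices -/
theorem trStmt (hG : Pot.GszStmt) (hA : AlgStmt) : TrStmt := by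
  obtain ⟨C, hC⟩ := hG
  have hC0 : 0 ≤ C := by simpa using (hC nL 0 1 ∅ nL_ok le_rfl (empty_subset _)).2.1
  intro g₂
  refine ⟨g₂ ^ 2 * C * 64 ^ 4 + |g₂| * C * 516, fun g hg hg₂ G W hW a b hab => ?_⟩
  have al := hA G W hW
  set q := G.p - (a + b) with hq
  have hqp : q ≤ G.p := Nat.sub_le _ _
  have hρ : (G.rho : ℝ) = 2 ^ (a + b) * 2 ^ q := by
    rw [← pow_add, Gm.rho, show a + b + q = G.p by omega]; push_cast; rfl
  have hρ0 : (0 : ℝ) < G.rho := by rw [hρ]; positivity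
  have hρ1 : 0 < G.rho := by exact_mod_cast hρ0
  have hR : 1 ≤ G.R := by have := al.rho_le; omega
  have hRρ : (G.R : ℝ) ≤ 64 * G.rho := by exact_mod_cast al.le_rho
  have hsub : G.A ⊆ bl 0 G.R := sdiff_subset
  have hco : Co G.A (edF (nL.edT (bl 0 G.R))) := al.coA
  have hGD : ∀ f f', Pot.G G.A (edF (nL.edT (bl 0 G.R))) f f' = GD nL G.A f f' := G_eD nL_ok hsub
  obtain ⟨h1, -, -, h4⟩ := hC nL 0 G.R G.A nL_ok hR hsub
  have hms : G.ms a * (G.rho : ℝ) ^ 2 = 4 ^ a := by
    rw [Gm.ms, div_pow, div_mul_cancel₀ _ (by positivity), ← pow_mul, mul_comm, pow_mul]; norm_num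
  have hms0 : 0 ≤ G.ms a := sq_nonneg _
  have hg' : g ≤ |g₂| := hg₂.trans (le_abs_self _)
  constructor
  · rw [tr_two hco]
    simp only [hGD]
    have h5 := h4 (G.cor q) univ (G.cel q) fun i _ j _ hne =>
      (al.cells q hqp).2.1 i.2 j.2 fun h => hne (Subtype.ext h)
    calc _ ≤ (G.ms a * g₂) ^ 2 * (C * (64 * G.rho) ^ 4) := by
          refine mul_le_mul (by gcongr) (h5.trans (by gcongr)) ?_ (sq_nonneg _)
          exact sum_nonneg fun _ _ => sum_nonneg fun _ _ => by positivity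
      _ = g₂ ^ 2 * C * 64 ^ 4 * (G.ms a * (G.rho : ℝ) ^ 2) ^ 2 := by ring
      _ = g₂ ^ 2 * C * 64 ^ 4 * 16 ^ a := by
          rw [hms, ← pow_mul, mul_comm a, pow_mul]; norm_num
      _ ≤ _ := by
          gcongr
          exact le_add_of_nonneg_right (by positivity)
  · rw [tr_one hco]
    have hs : 1 ≤ 2 ^ q := Nat.one_le_two_pow
    have ht : Real.log (G.R / (2 ^ q : ℕ)) ≤ 6 + a + b := by
      have h6 : (G.R : ℝ) / (2 ^ q : ℕ) ≤ 2 ^ (6 + a + b) := by
        rw [div_le_iff₀ (by positivity)]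
        refine hRρ.trans_eq ?_
        rw [hρ]; push_cast; ring
      have h7 : (0 : ℝ) < G.R := by exact_mod_cast hR
      refine (Real.log_le_log (by positivity) h6).trans ?_
      rw [Real.log_pow]
      push_cast
      exact mul_le_of_le_one_right (by positivity) (by linarith [Real.log_two_lt_d9])
    have h8 : ∀ i : G.cor q, ((G.cel q i).card : ℝ)⁻¹ * Pot.G G.A (edF (nL.edT (bl 0 G.R)))
        (on (G.cel q i) 1) (on (G.cel q i) 1) ≤ 4 ^ q * (C * (43 * (1 + a + b))) := fun i => by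
      have h9 : ((G.cel q i).card : ℝ) = ((2 ^ q : ℕ) : ℝ) ^ 2 := by rw [Gm.cel, card_sq]; push_cast; rfl
      have h10 : ((2 ^ q : ℕ) : ℝ) ^ 2 = 4 ^ q := by
        push_cast; rw [← pow_mul, mul_comm, pow_mul]; norm_num
      rw [Gs57.G_on hco, h9, h10, inv_mul_le_iff₀ (by positivity)]
      refine (sum_le_card_nsmul _ _ (4 ^ q * (C * (43 * (1 + a + b)))) fun x hx' => ?_).trans ?_
      · calc _ ≤ ∑ y ∈ G.A ∩ G.cel q i, C * (1 + Real.log (4 * G.R / (1 + eu (x - y)))) :=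
              sum_le_sum fun y hy => by
                rw [hGD]; exact h1 x (mem_inter.1 hx').1 y (mem_inter.1 hy).1
          _ ≤ C * ((37 + (6 + a + b)) * ((2 ^ q : ℕ) : ℝ) ^ 2) := by
              rw [← mul_sum]
              exact mul_le_mul_of_nonneg_left (avg_log hs hR ht (by positivity)
                (mem_inter.1 hx').2 inter_subset_right) hC0
          _ = 4 ^ q * (C * (43 + a + b)) := by rw [h10]; ring
          _ ≤ _ := by
              have : (0 : ℝ) ≤ a + b := by positivity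
              gcongr; linarith
      · rw [nsmul_eq_mul]
        refine mul_le_mul_of_nonneg_right ?_ (by positivity)
        rw [← h10, ← h9]
        exact_mod_cast card_le_card inter_subset_right
    have h11 : ((G.cor q).card : ℝ) * 4 ^ q = 12 * (G.rho : ℝ) ^ 2 := by
      rw [(al.cells q hqp).2.2, Gm.rho]
      push_cast
      rw [mul_assoc, ← pow_add, Nat.sub_add_cancel hqp, ← pow_mul, mul_comm G.p, pow_mul]; norm_num
    calc _ ≤ G.ms a * |g₂| * ((G.cor q).card * (4 ^ q * (C * (43 * (1 + a + b))))) := by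
          refine (mul_le_mul_of_nonneg_left (sum_le_card_nsmul _ _ _ fun i _ => h8 i)
            (by positivity)).trans ?_
          rw [nsmul_eq_mul, card_univ, Fintype.card_coe]
          gcongr
      _ = |g₂| * C * 516 * (G.ms a * (G.rho : ℝ) ^ 2) * (1 + a + b) := by
          rw [← mul_assoc ((G.cor q).card : ℝ), h11]; ring
      _ ≤ _ := by
          rw [hms]
          gcongr
          exact le_add_of_nonneg_left (by positivity)

end Crest.Agent.T145.Kr
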