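import Crest.Agent.T145.KrWL_56
import Crest.Agent.T145.PotS_17

/-!
# Row 145 (helper17): the ring form and screening for a general (twisted) energy form

`Kw56.rgB` with `edF ed` replaced by a form `B` that agrees with `edF ed` on functions supported in `A`.
-/

set_option autoImplicit false
set_option linter.unusedSectionVars false

namespace Crest.Agent.T145.Pot.Tw

open Finset Kw56

section abstract
variable {V ι : Type*} [DecidableEq V] {ed : Finset (V × V)} {T : Finset ι} {β : ι → Finset V}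
  {A Γ : Finset V} {P c κ : ℝ} {B : Bf V}

/-- the screened form -/
noncomputable def scG (c : ℝ) (B : Bf V) (T : Finset ι) (β : ι → Finset V) (κ : ℝ) : Bf V :=
  c • B + cellF T β κ

/-- the ring form -/
noncomputable def rgG (A : Finset V) (c : ℝ) (B : Bf V) (T : Finset ι) (β : ι → Finset V) (κ : ℝ)
    (m m' : V → ℝ) : ℝ :=
  scG c B T β κ (hx A (scG c B T β κ) m) (hx A (scG c B T β κ) m') - c * B m m'

theorem rgG_edF (A : Finset V) (c : ℝ) (ed : Finset (V × V)) (T : Finset ι) (β : ι → Finset V) (κ : ℝ) :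
    rgG A c (edF ed) T β κ = rgB A c ed T β κ := rfl

theorem scG_apply (u v : V → ℝ) : scG c B T β κ u v = c * B u v + cellF T β κ u v := by simp [scG]

theorem co_scG (hA : Co A B) (hc : 0 < c) (hκ : 0 ≤ κ) (T : Finset ι) (β : ι → Finset V) :
    Co A (scG c B T β κ) := (hA.smul hc).add (sy_cellF T β hκ)

theorem add_of_hm (hA : Co A B) {m u : V → ℝ} (hm : Hm A B m) (hu : Sup A u) :
    B (m + u) (m + u) = B m m + B u u := by rw [hA.toSy.sq_add, hm u hu]; ring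

theorem rgG_le (hA : Co A B) (hc : 0 < c) (hκ : 0 ≤ κ) {m u : V → ℝ} (hm : Hm A B m) (hu : Sup A u) :
    rgG A c B T β κ m m ≤ c * B u u + cellF T β κ (m + u) (m + u) := by
  have := (co_scG hA hc hκ T β).hx_min (η := m) (u := m + u) fun x hx => by simp [hu x hx]
  rw [scG_apply (m + u), add_of_hm hA hm hu] at this
  unfold rgG; linarith

theorem rgG_eq (hA : Co A B) (hc : 0 < c) (hκ : 0 ≤ κ) {m : V → ℝ} (hm : Hm A B m) :
    rgG A c B T β κ m m = c * B (hx A (scG c B T β κ) m - m) (hx A (scG c B T β κ) m - m) +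
      cellF T β κ (hx A (scG c B T β κ) m) (hx A (scG c B T β κ) m) := by
  have := add_of_hm hA hm (sup_hx_sub (co_scG hA hc hκ T β) m)
  rw [add_sub_cancel] at this
  unfold rgG
  rw [scG_apply, this]; ring

theorem rgG_nonneg (hA : Co A B) (hc : 0 < c) (hκ : 0 ≤ κ) {m : V → ℝ} (hm : Hm A B m) :
    0 ≤ rgG A c B T β κ m m := by
  rw [rgG_eq hA hc hκ hm]
  exact add_nonneg (mul_nonneg hc.le (hA.nonneg _)) ((sy_cellF T β hκ).nonneg _)

theorem rgG_le_cut (hA : Co A B) (hc : 0 < c) (hκ : 0 ≤ κ) {m ζ : V → ℝ} (hm : Hm A B m)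
    (hs : Sup A fun x => ζ x * m x) (hζ : ∀ i ∈ T, ∀ x ∈ β i, ζ x = 1) :
    rgG A c B T β κ m m ≤ c * B (fun x => ζ x * m x) (fun x => ζ x * m x) := by
  have := rgG_le (T := T) (β := β) hA hc hκ hm hs.neg
  rw [cellF_congr κ (u' := 0) (v' := 0) (fun i hi x hx => by simp [hζ i hi x hx])
    (fun i hi x hx => by simp [hζ i hi x hx])] at this
  simpa using this

theorem rgG_comm (hA : Co A B) (hc : 0 < c) (hκ : 0 ≤ κ) (m m' : V → ℝ) :
    rgG A c B T β κ m m' = rgG A c B T β κ m' m := by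
  rw [rgG, rgG, (co_scG hA hc hκ T β).symm, hA.symm]

theorem rgG_add_left (hA : Co A B) (hc : 0 < c) (hκ : 0 ≤ κ) (m₁ m₂ m' : V → ℝ) :
    rgG A c B T β κ (m₁ + m₂) m' = rgG A c B T β κ m₁ m' + rgG A c B T β κ m₂ m' := by
  simp only [rgG, (co_scG hA hc hκ T β).hx_add, map_add, LinearMap.add_apply]; ring

theorem rgG_smul_left (hA : Co A B) (hc : 0 < c) (hκ : 0 ≤ κ) (a : ℝ) (m m' : V → ℝ) :
    rgG A c B T β κ (a • m) m' = a * rgG A c B T β κ m m' := by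
  simp only [rgG, (co_scG hA hc hκ T β).hx_smul, map_smul, LinearMap.smul_apply, smul_eq_mul]; ring

theorem rgG_add_sq (hA : Co A B) (hc : 0 < c) (hκ : 0 ≤ κ) (m m' : V → ℝ) :
    rgG A c B T β κ (m + m') (m + m') =
      rgG A c B T β κ m m + 2 * rgG A c B T β κ m m' + rgG A c B T β κ m' m' := by
  rw [rgG_add_left hA hc hκ, rgG_comm hA hc hκ m, rgG_comm hA hc hκ m', rgG_add_left hA hc hκ,
    rgG_add_left hA hc hκ, rgG_comm hA hc hκ m' m]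
  ring

theorem rgG_add_le (hA : Co A B) (hc : 0 < c) (hκ : 0 ≤ κ) {m m' : V → ℝ} (hm : Hm A B m)
    (hm' : Hm A B m') : rgG A c B T β κ (m + m') (m + m') ≤
      2 * (rgG A c B T β κ m m + rgG A c B T β κ m' m') := by
  have h := rgG_nonneg (T := T) (β := β) hA hc hκ (Hm.add' hm (Hm.smul' hm' (-1)))
  rw [rgG_add_sq hA hc hκ, rgG_smul_left hA hc hκ, rgG_comm hA hc hκ m ((-1 : ℝ) • m'),
    rgG_smul_left hA hc hκ, rgG_comm hA hc hκ m' ((-1 : ℝ) • m'), rgG_smul_left hA hc hκ,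
    rgG_comm hA hc hκ m' m] at h
  rw [rgG_add_sq hA hc hκ]; linarith

theorem rgG_eq_cell (hA : Co A B) (hc : 0 < c) (hκ : 0 ≤ κ) (m : V → ℝ) {m' : V → ℝ}
    (hm' : Hm A B m') : rgG A c B T β κ m m' = cellF T β κ (hx A (scG c B T β κ) m) m' := by
  have hF := co_scG hA hc hκ T β
  have h1 := hF.hx_hm m _ (sup_hx_sub hF m')
  have h2 := hm' _ (sup_hx_sub hF m)
  rw [map_sub] at h1
  rw [hA.symm, map_sub, LinearMap.sub_apply] at h2
  rw [rgG, sub_eq_zero.1 h1, scG_apply, sub_eq_zero.1 h2]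
  ring

theorem hx_scG (hA : Co A B) (hc : 0 < c) (hκ : 0 ≤ κ) (hβ : ∀ i ∈ T, β i ⊆ A) {m : V → ℝ}
    (hm : Hm A B m) : hx A (scG c B T β κ) m =
      m - c⁻¹ • gr A B (chC T β κ (hx A (scG c B T β κ) m)) := by
  have hF := co_scG hA hc hκ T β
  have : gr A B (chC T β κ (hx A (scG c B T β κ) m)) = c • (m - hx A (scG c B T β κ) m) := by
    refine hA.gr_unique (Sup.smul (fun x hx' => by simp [hF.hx_off m hx']) c) fun φ hφ => ?_
    have h1 := hF.hx_hm m φ hφ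
    rw [scG_apply] at h1
    rw [ip_chC hβ, map_smul, LinearMap.smul_apply, map_sub, LinearMap.sub_apply, hm φ hφ,
      smul_eq_mul]
    linarith
  rw [this, smul_smul, inv_mul_cancel₀ hc.ne', one_smul, sub_sub_cancel]

theorem co_of_agree (hA : Co A B) (hE : ∀ u v, Sup A u → Sup A v → B u v = edF ed u v) :
    Co A (edF ed) := ⟨sy_edF ed, fun u hu h => hA.defn u hu ((hE u u hu hu).trans h)⟩

open Matrix in
/-- `B (m, m') = m̄ · (Σ + S⁻¹)⁻¹ m̄'` -/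
theorem rgG_eq_tl [Fintype ι] [DecidableEq ι] (hA : Co A B)
    (hE : ∀ u v, Sup A u → Sup A v → B u v = edF ed u v) (hc : 0 < c) (hκ : 0 ≤ κ)
    (hβ : ∀ i, β i ⊆ A) {m m' : V → ℝ} (hm : Hm A B m) (hm' : Hm A B m') :
    rgG A c B univ β κ m m' =
      (fun i => avL (β i) m) ⬝ᵥ Gs.tl (msM β κ) (sgM A c ed β) *ᵥ fun i => avL (β i) m' := by
  have hA' := co_of_agree hA hE
  rw [rgG_comm hA hc hκ, rgG_eq_cell hA hc hκ m' hm, (sy_cellF univ β hκ).symm, cellF_eq_dot]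
  congr 1
  have h1 := hx_scG (T := univ) hA hc hκ (fun i _ => hβ i) hm'
  rw [gr_congr_form hE] at h1
  set v := hx A (scG c B univ β κ) m'
  have h2 : ((1 + sgM A c ed β * msM β κ) *ᵥ fun i => avL (β i) v) = fun i => avL (β i) m' := by
    funext i
    have h3 := congrArg (avL (β i)) h1
    rw [map_sub, map_smul, ← ip_unC (hβ i) (gr _ _ _), chC_eq_sum] at h3
    have h4 := sgM_quad hA' c β (Pi.single i 1) (msM β κ *ᵥ fun i => avL (β i) v)
    simp only [single_dotProduct, one_mul, Pi.single_apply, ite_smul, one_smul, zero_smul,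
      sum_ite_eq', mem_univ, if_true] at h4
    rw [add_mulVec, one_mulVec, ← mulVec_mulVec, Pi.add_apply, h4, h3, G, smul_eq_mul]
    ring
  rw [← h2, Gs.tl, mulVec_mulVec, Matrix.mul_assoc, nonsing_inv_mul _
    (Gs.unit_psd (sgM_psd hA' hc.le β) (msM_psd β hκ)), Matrix.mul_one]

theorem apriori (h : Cells ed T β Γ P) (hA : Co A B)
    (hE : ∀ u v, Sup A u → Sup A v → B u v = edF ed u v) (hc : 0 < c) (hκ : 0 ≤ κ) {m ζ : V → ℝ}
    (hm : Hm A B m) (hs : Sup A fun x => ζ x * m x) (hζ : ∀ x ∈ Γ, ζ x = 1) :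
    edF (inn Γ ed) (hx A (scG c B T β κ) m) (hx A (scG c B T β κ) m) ≤
        4 * edF ed (fun x => ζ x * m x) (fun x => ζ x * m x) ∧
      κ * ∑ x ∈ Γ, hx A (scG c B T β κ) m x ^ 2 ≤
        (c + 4 * (κ * P)) * edF ed (fun x => ζ x * m x) (fun x => ζ x * m x) := by
  have h1 := rgG_le_cut (T := T) (β := β) hA hc hκ hm hs fun i hi x hx => hζ x (h.sub hi hx)
  have s0 := sup_hx_sub (co_scG hA hc hκ T β) m
  rw [rgG_eq hA hc hκ hm, hE _ _ hs hs, hE _ _ s0 s0] at h1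
  set v := hx A (scG c B T β κ) m
  set Ea := edF ed (fun x => ζ x * m x) (fun x => ζ x * m x)
  have q0 := (sy_cellF T β hκ).nonneg v
  have e0 := (sy_edF ed).nonneg (v - m)
  have h2 : edF ed (v - m) (v - m) ≤ Ea := by
    refine le_of_mul_le_mul_left ?_ hc; linarith
  have h3 : edF (inn Γ ed) m m ≤ Ea := by
    refine le_trans (le_of_eq ?_) (edF_mono (filter_subset _ _ : inn Γ ed ⊆ ed) _)
    rw [edF_self, edF_self]
    refine sum_congr rfl fun e he => ?_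
    rw [hζ _ (mem_filter.1 he).2.1, hζ _ (mem_filter.1 he).2.2, one_mul, one_mul]
  have h4 : edF (inn Γ ed) (v - m) (v - m) ≤ edF ed (v - m) (v - m) :=
    edF_mono (filter_subset _ _) (v - m)
  have h5 : edF (inn Γ ed) v v ≤ 4 * Ea := by
    have a := (sy_edF (inn Γ ed)).sq_add m (v - m)
    have b := (sy_edF (inn Γ ed)).sq_sub m (v - m)
    have := (sy_edF (inn Γ ed)).nonneg (m - (v - m))
    rw [add_sub_cancel] at a
    linarith
  refine ⟨h5, (h.norm_le hκ v).trans ?_⟩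
  have := mul_le_mul_of_nonneg_left h5 (mul_nonneg hκ h.nn)
  nlinarith [mul_nonneg hc.le e0]

theorem screen (h : Cells ed T β Γ P) (hA : Co A B)
    (hE : ∀ u v, Sup A u → Sup A v → B u v = edF ed u v) {lam lam' D : ℝ} (hc : 0 < c)
    (hκ : 0 < κ) {m m' ζ χ : V → ℝ} (hm : Hm A B m) (hm' : Hm A B m')
    (hs : Sup A fun x => ζ x * m x) (hs' : Sup A fun x => ζ x * m' x) (hζ : ∀ x ∈ Γ, ζ x = 1)
    (hχ : Sup A fun x => (1 - χ x) * m x) (hχ' : Sup A fun x => χ x * m' x)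
    (hC : ∀ u v : V → ℝ, B (fun x => χ x * u x) v - B u (fun x => χ x * v x) =
      edF ed (fun x => χ x * u x) v - edF ed u (fun x => χ x * v x))
    (h0 : 0 ≤ lam) (h0' : 0 ≤ lam') (hD0 : 0 ≤ D) (h1 : ∀ e ∈ ed, |χ e.2 - χ e.1| ≤ lam)
    (h2 : ∀ e ∈ ed, χ e.1 ≠ χ e.2 → e.1 ∈ Γ ∧ e.2 ∈ Γ)
    (h3 : ∀ i ∈ T, ∀ x ∈ β i, ∀ y ∈ β i, |χ x - χ y| ≤ lam')
    (hD : ∀ x, ((ed.filter fun e => e.1 = x).card : ℝ) ≤ D) :
    |rgG A c B T β κ m m' + c * B m m'| ≤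
      (4 * c * lam * √D * √((c + 4 * (κ * P)) / κ) + lam' * (c + 4 * (κ * P))) *
        (√(edF ed (fun x => ζ x * m x) (fun x => ζ x * m x)) *
          √(edF ed (fun x => ζ x * m' x) (fun x => ζ x * m' x))) := by
  have hF := co_scG hA hc hκ.le T β
  obtain ⟨a1, a2⟩ := apriori h hA hE hc hκ.le hm hs hζ
  obtain ⟨b1, b2⟩ := apriori h hA hE hc hκ.le hm' hs' hζ
  rw [rgG, sub_add_cancel, wronski hF.toSy (hF.hx_hm m) (hF.hx_hm m') (χ := χ)
    (fun x hx => by simpa only [hF.hx_off m hx] using hχ x hx)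
    (fun x hx => by simpa only [hF.hx_off m' hx] using hχ' x hx), scG_apply, scG_apply]
  set u := hx A (scG c B T β κ) m
  set v := hx A (scG c B T β κ) m'
  set Ea := edF ed (fun x => ζ x * m x) (fun x => ζ x * m x)
  set Eb := edF ed (fun x => ζ x * m' x) (fun x => ζ x * m' x)
  set K := c + 4 * (κ * P)
  have hK : 0 ≤ K := add_nonneg hc.le (mul_nonneg (by norm_num) (mul_nonneg hκ.le h.nn))
  have e1 := abs_edF_comm h0 hD0 h1 h2 hD u v
  have e2 := abs_cellF_comm hκ.le h0' h.disj (fun i hi => h.sub hi) h3 u v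
  have s1 : ∀ {x E : ℝ}, x ≤ 4 * E → √x ≤ 2 * √E := fun {x E} hx => by
    rw [show (2 : ℝ) = √4 by rw [show (4 : ℝ) = 2 ^ 2 by norm_num, Real.sqrt_sq (by norm_num)],
      ← Real.sqrt_mul (by norm_num)]
    exact Real.sqrt_le_sqrt hx
  have s2 : ∀ {x E : ℝ}, κ * x ≤ K * E → √x ≤ √(K / κ) * √E := fun {x E} hx => by
    rw [← Real.sqrt_mul (div_nonneg hK hκ.le)]
    refine Real.sqrt_le_sqrt ?_
    rw [div_mul_eq_mul_div, le_div_iff₀ hκ]; linarith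
  have n := Real.sqrt_nonneg
  have t1 : √(∑ x ∈ Γ, u x ^ 2) * √(edF (inn Γ ed) v v) ≤ (√(K / κ) * √Ea) * (2 * √Eb) :=
    mul_le_mul (s2 a2) (s1 b1) (n _) (mul_nonneg (n _) (n _))
  have t2 : √(∑ x ∈ Γ, v x ^ 2) * √(edF (inn Γ ed) u u) ≤ (√(K / κ) * √Eb) * (2 * √Ea) :=
    mul_le_mul (s2 b2) (s1 a1) (n _) (mul_nonneg (n _) (n _))
  have t3 : √(∑ x ∈ Γ, u x ^ 2) * √(∑ x ∈ Γ, v x ^ 2) ≤ (√(K / κ) * √Ea) * (√(K / κ) * √Eb) :=
    mul_le_mul (s2 a2) (s2 b2) (n _) (mul_nonneg (n _) (n _))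
  have t4 : κ * lam' * ((√(K / κ) * √Ea) * (√(K / κ) * √Eb)) = lam' * K * (√Ea * √Eb) := by
    have := Real.mul_self_sqrt (div_nonneg hK hκ.le)
    calc _ = κ * (√(K / κ) * √(K / κ)) * lam' * (√Ea * √Eb) := by ring
      _ = _ := by rw [this]; field_simp
  have f1 := e1.trans (mul_le_mul_of_nonneg_left (add_le_add t1 t2) (mul_nonneg h0 (n D)))
  have f2 := e2.trans (mul_le_mul_of_nonneg_left t3 (mul_nonneg hκ.le h0'))
  rw [t4] at f2
  rw [show ∀ a b a' b' : ℝ, c * a + b - (c * a' + b') = c * (a - a') + (b - b') from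
    fun _ _ _ _ => by ring, hC]
  refine (abs_add_le _ _).trans ?_
  rw [abs_mul, abs_of_pos hc]
  have f3 := mul_le_mul_of_nonneg_left f1 hc.le
  calc _ ≤ c * (lam * √D * (√(K / κ) * √Ea * (2 * √Eb) + √(K / κ) * √Eb * (2 * √Ea))) +
        lam' * K * (√Ea * √Eb) := add_le_add f3 f2
    _ = _ := by ring

/-- `B` is the edge form of `ed` twisted along seams inside `I` (flux at `k₁`) and inside `O` (flux at `k₂`) -/
structure IsTw (B : Bf V) (ed : Finset (V × V)) (k₁ k₂ : V) (I O : Set V) : Prop where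
  ex : ∃ s₁ s₂ : V × V → ℝ, (∀ u v, B u v = ∑ e ∈ ed, (u e.2 - u e.1 + s₁ e * u k₁ + s₂ e * u k₂) *
      (v e.2 - v e.1 + s₁ e * v k₁ + s₂ e * v k₂)) ∧
    (∀ e ∈ ed, s₁ e ≠ 0 → e.1 ∈ I ∧ e.2 ∈ I) ∧ ∀ e ∈ ed, s₂ e ≠ 0 → e.1 ∈ O ∧ e.2 ∈ O
  k1 : k₁ ∈ I
  k2 : k₂ ∈ O
  disj : Disjoint I O

namespace IsTw
variable {k₁ k₂ : V} {I O : Set V}

theorem sy (h : IsTw B ed k₁ k₂ I O) : Sy B := by
  obtain ⟨s₁, s₂, e, -⟩ := h.ex
  exact ⟨fun u v => by rw [e, e]; exact sum_congr rfl fun _ _ => mul_comm _ _,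
    fun u => by rw [e]; exact sum_nonneg fun _ _ => mul_self_nonneg _⟩

theorem agree (h : IsTw B ed k₁ k₂ I O) {u v : V → ℝ} (h1 : u k₁ = 0) (h2 : u k₂ = 0) (h3 : v k₁ = 0)
    (h4 : v k₂ = 0) : B u v = edF ed u v := by
  obtain ⟨s₁, s₂, e, -⟩ := h.ex
  simp [e, edF_apply, h1, h2, h3, h4]

theorem agree' (h : IsTw B ed k₁ k₂ I O) (h1 : k₁ ∉ A) (h2 : k₂ ∉ A) (u v : V → ℝ) (hu : Sup A u)
    (hv : Sup A v) : B u v = edF ed u v := h.agree (hu _ h1) (hu _ h2) (hv _ h1) (hv _ h2)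

theorem co (h : IsTw B ed k₁ k₂ I O) (h1 : k₁ ∉ A) (h2 : k₂ ∉ A) (hA : Co A (edF ed)) : Co A B :=
  ⟨h.sy, fun u hu h0 => hA.defn u hu ((h.agree' h1 h2 u u hu hu).symm.trans h0)⟩

/-- test functions that vanish on `I` and `O` do not see the seams -/
theorem mid (h : IsTw B ed k₁ k₂ I O) (u : V → ℝ) {v : V → ℝ} (hI : ∀ x ∈ I, v x = 0)
    (hO : ∀ x ∈ O, v x = 0) : B u v = edF ed u v := by
  obtain ⟨s₁, s₂, e, a1, a2⟩ := h.ex
  rw [e, edF_apply]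
  refine sum_congr rfl fun e he => ?_
  rw [hI _ h.k1, hO _ h.k2]
  by_cases b1 : s₁ e = 0
  · by_cases b2 : s₂ e = 0
    · simp [b1, b2]
    · simp [hO _ (a2 e he b2).1, hO _ (a2 e he b2).2]
  · simp [hI _ (a1 e he b1).1, hI _ (a1 e he b1).2]

theorem comm (h : IsTw B ed k₁ k₂ I O) {χ : V → ℝ} (hI : ∀ x ∈ I, χ x = 1) (hO : ∀ x ∈ O, χ x = 0)
    (u v : V → ℝ) : B (fun x => χ x * u x) v - B u (fun x => χ x * v x) =
      edF ed (fun x => χ x * u x) v - edF ed u (fun x => χ x * v x) := by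
  obtain ⟨s₁, s₂, e, a1, a2⟩ := h.ex
  rw [e, e, edF_apply, edF_apply, ← sum_sub_distrib, ← sum_sub_distrib]
  refine sum_congr rfl fun e he => ?_
  simp only [hI _ h.k1, hO _ h.k2]
  by_cases b1 : s₁ e = 0
  · by_cases b2 : s₂ e = 0
    · simp [b1, b2]
    · simp [b1, hO _ (a2 e he b2).1, hO _ (a2 e he b2).2]
  · have b2 : s₂ e = 0 := by_contra fun b2 =>
      Set.disjoint_left.1 h.disj (a1 e he b1).1 (a2 e he b2).1
    simp [b2, hI _ (a1 e he b1).1, hI _ (a1 e he b1).2]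

end IsTw

end abstract

section ring
open H59
variable {Λ : Lat} {ι : Type*} {z k₁ k₂ : Pt} {p' p q q' w : ℕ} {A Γ : Finset Pt} {ed : Finset (Pt × Pt)}
  {T : Finset ι} {β : ι → Finset Pt} {c κ P : ℝ} {B : Bf Pt}

theorem hm_ring (h : IsTw B ed k₁ k₂ (bl z p') (bl z q' : Set Pt)ᶜ) (hM : bl z q' \ bl z p' ⊆ A)
    {m : Pt → ℝ} (hm : Hm A B m) : Hm (bl z q' \ bl z p') (edF ed) m := fun v hv => by
  rw [← h.mid m (fun x hx => hv x fun h' => (mem_sdiff.1 h').2 hx)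
    fun x hx => hv x fun h' => hx (mem_sdiff.1 h').1]
  exact hm v (hv.mono hM)

theorem rgG_le_ring (h : IsTw B ed k₁ k₂ (bl z p') (bl z q' : Set Pt)ᶜ)
    (he : ∀ e ∈ ed, e.2 - e.1 ∈ Λ.Jp) (hA : Co A B) (a1 : k₁ ∉ A) (a2 : k₂ ∉ A) (hc : 0 < c)
    (hκ : 0 ≤ κ) (hw : 4 * Λ.rg ≤ w) (h0 : 0 < w) (h1 : p' + w ≤ p) (hpq : p ≤ q)
    (h2 : q + w ≤ q') (hM : bl z q' \ bl z p' ⊆ A) (hβ : ∀ i ∈ T, β i ⊆ bl z q \ bl z p)
    {m : Pt → ℝ} (hm : Hm A B m) :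
    rgG A c B T β κ m m ≤
      c * ((4 * Λ.rg / w) ^ 2 * Λ.Jp.card * ∑ x ∈ bl z q' \ bl z p', m x ^ 2) := by
  have s : Sup A fun x => zt Λ z p' p q q' x * m x := fun x hx => mul_eq_zero_of_left
    (zt_sup hw h0 h1 hpq h2 x fun h' => hx (hM h')) _
  refine (rgG_le_cut hA hc hκ hm s fun i hi _ hx => zt_one hw h0 h1 h2 (hβ i hi hx)).trans ?_
  rw [h.agree' a1 a2 _ _ s s]
  exact mul_le_mul_of_nonneg_left (cacc_ring he hw h0 h1 hpq h2 subset_rfl (hm_ring h hM hm)) hc.le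

/-- **K2 for the twisted form** -/
theorem screen_ringG {p₁ q₁ d : ℕ} (h : IsTw B ed k₁ k₂ (bl z p') (bl z q' : Set Pt)ᶜ)
    (he : ∀ e ∈ ed, e.2 - e.1 ∈ Λ.Jp) (hA : Co A B) (k1 : k₁ ∉ A) (k2 : k₂ ∉ A)
    (hC : Cells ed T β Γ P) (hd : ∀ i ∈ T, ∀ x ∈ β i, ∀ y ∈ β i, x ∈ bl y d) (hc : 0 < c)
    (hκ : 0 < κ) (hw : 4 * Λ.rg ≤ w) (h0 : 0 < w) (h1 : p' + w ≤ p) (hp : p ≤ p₁)
    (h3 : p₁ + w ≤ q₁) (hq : q₁ ≤ q) (h2 : q + w ≤ q') (hM : bl z q' \ bl z p' ⊆ A)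
    (hΓ : bl z q₁ \ bl z p₁ ⊆ Γ) (hΓ' : Γ ⊆ bl z q \ bl z p) {m m' : Pt → ℝ}
    (hm : Hm A B m) (hm' : Hm A B m') (ho : ∀ x, x ∉ A → x ∉ bl z q' → m x = 0)
    (hi : ∀ x, x ∉ A → x ∈ bl z p' → m' x = 0) :
    |rgG A c B T β κ m m' + c * B m m'| ≤
      (8 * c * Λ.rg * √(Λ.Jp.card) * √((c + 4 * (κ * P)) / κ) + 2 * d * (c + 4 * (κ * P))) / w *
        ((4 * Λ.rg / w) ^ 2 * Λ.Jp.card) *
        (√(∑ x ∈ bl z q' \ bl z p', m x ^ 2) * √(∑ x ∈ bl z q' \ bl z p', m' x ^ 2)) := by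
  have a1 : (4 * Λ.rg : ℝ) ≤ w := by exact_mod_cast hw
  have a2 : (p' + w : ℝ) ≤ p := by exact_mod_cast h1
  have a3 : (q + w : ℝ) ≤ q' := by exact_mod_cast h2
  have a4 : (0 : ℝ) < w := by exact_mod_cast h0
  have a5 : (p₁ + w : ℝ) ≤ q₁ := by exact_mod_cast h3
  have a6 : (0 : ℝ) ≤ Λ.rg := Nat.cast_nonneg _
  have a7 : (p : ℝ) ≤ p₁ := by exact_mod_cast hp
  have a8 : (q₁ : ℝ) ≤ q := by exact_mod_cast hq
  have hpq : p ≤ q := by omega
  have b1 : (p₁ + Λ.rg : ℝ) < q₁ - Λ.rg := by linarith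
  have lip : ∀ {x y : Pt} {r : ℕ}, y ∈ bl x r →
      |rmp z (p₁ + Λ.rg) (q₁ - Λ.rg) y - rmp z (p₁ + Λ.rg) (q₁ - Λ.rg) x| ≤ 2 * r / w := by
    intro x y r h
    refine (rmp_lip z b1 h).trans ?_
    rw [div_le_div_iff₀ (by linarith) a4]
    nlinarith [mul_nonneg (Nat.cast_nonneg (α := ℝ) r)
      (show (0 : ℝ) ≤ 2 * (q₁ - Λ.rg - (p₁ + Λ.rg)) - w by linarith)]
  have nA : ∀ x, x ∉ A → x ∈ bl z p' ∨ x ∉ bl z q' := fun x hx => by
    by_contra h'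
    push Not at h'
    exact hx (hM (mem_sdiff.2 ⟨h'.2, h'.1⟩))
  have c1 : ∀ x ∈ bl z p', rmp z (p₁ + Λ.rg) (q₁ - Λ.rg) x = 1 := fun x h' => by
    have : (ds z x : ℝ) ≤ p' := by exact_mod_cast mem_bl_ds.1 h'
    exact rmp_one b1 (by linarith)
  have c0 : ∀ x, x ∉ bl z q' → rmp z (p₁ + Λ.rg) (q₁ - Λ.rg) x = 0 := fun x h' => by
    have : (q' : ℝ) < ds z x := by exact_mod_cast not_le.1 (mt mem_bl_ds.2 h')
    exact rmp_zero b1 (by linarith)
  have sup : ∀ m : Pt → ℝ, Sup A fun x => zt Λ z p' p q q' x * m x := fun m x hx =>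
    mul_eq_zero_of_left (zt_sup hw h0 h1 hpq h2 x fun h' => hx (hM h')) _
  have key := screen hC hA (h.agree' k1 k2) hc hκ hm hm' (sup m) (sup m')
    (fun x hx => zt_one hw h0 h1 h2 (hΓ' hx))
    (χ := rmp z (p₁ + Λ.rg) (q₁ - Λ.rg)) (lam := 2 * Λ.rg / w) (lam' := 2 * d / w)
    (D := Λ.Jp.card) (fun x hx => by
      rcases nA x hx with h' | h'
      · simp only [c1 x h', sub_self, zero_mul]
      · simp only [ho x hx h', mul_zero])
    (fun x hx => by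
      rcases nA x hx with h' | h'
      · simp only [hi x hx h', mul_zero]
      · simp only [c0 x h', zero_mul]) (h.comm c1 c0)
    (by positivity) (by positivity) (Nat.cast_nonneg _) (fun e h' => lip (Lat.edge_near (he e h')))
    (fun e h' hne => by
      have := rmp_ne b1 (Lat.edge_near (he e h')) hne
      refine ⟨hΓ (mem_ring.2 ⟨?_, ?_⟩), hΓ (mem_ring.2 ⟨?_, ?_⟩)⟩ <;>
        linarith [this.1.1, this.1.2, this.2.1, this.2.2])
    (fun i hi x hx y hy => lip (hd i hi x hx y hy)) (deg_fst he)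
  refine key.trans ?_
  have hK : 0 ≤ c + 4 * (κ * P) := by have := hC.nn; positivity
  have s : ∀ {m : Pt → ℝ}, Hm A B m →
      √(edF ed (fun x => zt Λ z p' p q q' x * m x) (fun x => zt Λ z p' p q q' x * m x)) ≤
        √((4 * Λ.rg / w) ^ 2 * Λ.Jp.card) * √(∑ x ∈ bl z q' \ bl z p', m x ^ 2) := fun hm => by
    rw [← Real.sqrt_mul (by positivity)]
    exact Real.sqrt_le_sqrt (cacc_ring he hw h0 h1 hpq h2 subset_rfl (hm_ring h hM hm))
  have t := mul_le_mul (s hm) (s hm') (Real.sqrt_nonneg _) (by positivity)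
  rw [mul_mul_mul_comm, Real.mul_self_sqrt (by positivity)] at t
  calc _ ≤ (4 * c * (2 * Λ.rg / w) * √(Λ.Jp.card) * √((c + 4 * (κ * P)) / κ) +
        2 * d / w * (c + 4 * (κ * P))) * ((4 * Λ.rg / w) ^ 2 * Λ.Jp.card *
        (√(∑ x ∈ bl z q' \ bl z p', m x ^ 2) * √(∑ x ∈ bl z q' \ bl z p', m' x ^ 2))) :=
        mul_le_mul_of_nonneg_left t (by positivity)
    _ = _ := by ring

end ring

end Crest.Agent.T145.Pot.Tw
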