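import Crest.Agent.T145.KvDef_8
import Crest.Agent.T145.KrK2_56
import Crest.Agent.T145.KrTr_57
import Crest.Agent.T145.PotW_17

/-!
# Row 145, module Kv: screening, traces and capacity of the slit condenser (helper17)
-/

set_option autoImplicit false

namespace Crest.Agent.T145.Kv

open Finset Real Pot Kw56 Pot.Tw

namespace K17
variable {V : Gv} {W : ℝ}

theorem Gk_apply (V : Gv) (e : Pt × Pt) (u : Pt → ℝ) :
    V.Gk e u = u e.2 - u e.1 + V.s1 e * u V.k1 + V.s2 e * u V.k2 := by simp [Gv.Gk]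

theorem eT_apply (V : Gv) (ed : Finset (Pt × Pt)) (u v : Pt → ℝ) :
    V.eT ed u v = ∑ e ∈ ed, V.Gk e u * V.Gk e v := by simp [Gv.eT, sqF_apply]

theorem isTw (V : Gv) (ed : Finset (Pt × Pt)) {p q : ℕ} (h1 : (V.G.rho : ℤ) - 4 * V.ω ≤ p) (h0 : 1 ≤ p)
    (hpq : p ≤ q) (h2 : (q : ℤ) < V.G.rho + 4 * V.ω) (h3 : q ≤ V.G.R₂) :
    IsTw (V.eT ed) ed V.k1 V.k2 (bl 0 p) (bl 0 q : Set Pt)ᶜ where
  ex := ⟨fun e => V.s1 e, fun e => V.s2 e, fun u v => by simp only [eT_apply, Gk_apply],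
    fun e _ h => by
      simp only [Gv.s1, Vd.ray, ne_eq, Int.cast_eq_zero, mem_coe, mem_bl, Prod.fst_zero,
        Prod.snd_zero] at h ⊢
      split_ifs at h <;> omega,
    fun e _ h => by
      simp only [Gv.s2, Vd.ray, ne_eq, Int.cast_eq_zero, mem_coe, mem_bl, Prod.fst_zero,
        Prod.snd_zero, Set.mem_compl_iff] at h ⊢
      split_ifs at h <;> omega⟩
  k1 := self_mem_bl _ _
  k2 := by simp [Gv.k2, mem_bl]; omega
  disj := Set.disjoint_compl_right_iff_subset.2 (bl_mono 0 hpq)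

theorem mem_kp {ed : Finset (Pt × Pt)} {e : Pt × Pt} (h : 4 * V.ω ≤ V.G.rho) : e ∈ V.kp ed ↔
    e ∈ ed ∧ ∀ i, (V.G.rho : ℤ) - 4 * V.ω ≤ i → i < V.G.rho + 4 * V.ω → Sl.se i ≠ e := by
  obtain ⟨⟨a, b⟩, ⟨c, d⟩⟩ := e
  simp only [Gv.kp, mem_filter, Gv.s1, Gv.s2, Vd.ray, Sl.se, ne_eq, Prod.mk.injEq, Prod.fst_zero,
    Prod.snd_zero]
  refine and_congr_right fun _ => ⟨fun h1 i _ _ h2 => ?_, fun h1 => ?_⟩
  · split_ifs at h1 <;> omega
  · have := h1 a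
    split_ifs <;> omega

theorem EA_eq (h : 4 * V.ω ≤ V.G.rho) :
    V.EA = Sl.eds V.G.A (V.G.rho - 4 * V.ω) (V.G.rho + 4 * V.ω) := by
  ext e; rw [Gv.EA, mem_kp h, Sl.mem_eds]

theorem EA_nn : ∀ e ∈ V.EA, e.2 - e.1 ∈ nL.Jp := fun _ h => (Lat.mem_edT.1 (mem_filter.1 h).1).1

theorem k1_not : V.k1 ∉ V.G.A := fun h => (mem_sdiff.1 h).2 (self_mem_bl _ _)

theorem k2_not (h : V.Ok W) : V.k2 ∉ V.G.A := fun h' => by
  have := mem_bl.1 (mem_sdiff.1 h').1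
  have := h.g.out
  simp only [Gv.k2, Prod.fst_zero] at *; omega

theorem mem_rng {n : ℕ} (h : n ≤ V.G.rho) {x : Pt} : x ∈ V.rng n ↔
    ((-(V.G.rho + n : ℤ) ≤ x.1 ∧ x.1 < V.G.rho + n) ∧ -(V.G.rho + n : ℤ) ≤ x.2 ∧ x.2 < V.G.rho + n) ∧
    ¬ ((-(V.G.rho - n : ℤ) ≤ x.1 ∧ x.1 < V.G.rho - n) ∧ -(V.G.rho - n : ℤ) ≤ x.2 ∧
      x.2 < V.G.rho - n) := by
  simp only [Gv.rng, mem_sdiff, mem_sq]
  omega

end K17

open K17

theorem k2Stmt (hG : GeoStmt) (hA : AlgStmt) : K2Stmt := by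
  intro g₁ g₂ hg₁
  set C₀ := 2000 * (16 * g₁⁻¹ + 2) * (g₁⁻¹ + 8) with hC₀
  have h8 : 0 < g₁⁻¹ := by positivity
  have C0 : 0 < C₀ := by positivity
  have C1 : 1600 * g₁⁻¹ ≤ C₀ := by rw [hC₀]; nlinarith
  have C2 : C₀ ≤ C₀ * (1 + 2 * |g₂|) := le_mul_of_one_le_right C0.le (by linarith [abs_nonneg g₂])
  refine ⟨C₀ * (1 + 2 * |g₂|), by positivity, fun g hg hg' V W hV a b hab s t => ?_⟩
  have Ge := hG V W hV
  have H := hA V W hV
  have hg0 : 0 < g := hg₁.trans_le hg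
  have hc : 0 < g⁻¹ := inv_pos.2 hg0
  have hc₁ : g⁻¹ ≤ g₁⁻¹ := inv_anti₀ hg₁ hg
  have hω := Ge.ω16
  have h1 := Ge.r_le
  have h2 := Ge.rho_le
  have h3 := Ge.ω_le
  have h4 := hV.g.out
  have hr := hV.g.hr
  have hρ : (0 : ℝ) < V.ω := by exact_mod_cast (show 0 < V.ω by omega)
  have hκ : 0 < V.ms a := by unfold Gv.ms; positivity
  have tw : IsTw V.B V.EA V.k1 V.k2 (bl 0 (V.G.rho - 2 * V.ω)) (bl 0 (V.G.rho + 2 * V.ω - 1) : Set Pt)ᶜ :=
    isTw V _ (by omega) (by omega) (by omega) (by omega) (by omega)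
  have hM : bl 0 (V.G.rho + 2 * V.ω - 1) \ bl 0 (V.G.rho - 2 * V.ω) ⊆ V.G.A :=
    sdiff_subset_sdiff (bl_mono 0 (by omega)) (bl_mono 0 (by omega))
  have hM' : bl 0 (V.G.rho + 2 * V.ω - 1) \ bl 0 (V.G.rho - 2 * V.ω) ⊆ V.mid := fun x hx => by
    rw [Gv.mid, mem_rng (by omega)]
    simp only [mem_sdiff, mem_bl, Prod.fst_zero, Prod.snd_zero] at hx; omega
  have hΓ : bl 0 (V.G.rho + V.ω - 1) \ bl 0 (V.G.rho - V.ω) ⊆ V.Ga := fun x hx => by
    rw [Gv.Ga, mem_rng (by omega)]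
    simp only [mem_sdiff, mem_bl, Prod.fst_zero, Prod.snd_zero] at hx; omega
  have hΓ' : V.Ga ⊆ bl 0 (V.G.rho + V.ω) \ bl 0 (V.G.rho - V.ω - 1) := fun x hx => by
    rw [Gv.Ga, mem_rng (by omega)] at hx
    simp only [mem_sdiff, mem_bl, Prod.fst_zero, Prod.snd_zero]; omega
  set q := V.om2 - (a + b) with hq
  obtain ⟨hcov, hdis, -, hed⟩ := Ge.cells q (Nat.sub_le _ _)
  have hsub : ∀ i : V.cor q, sq i.1 (2 ^ q) ⊆ V.Ga := fun i =>
    hcov ▸ subset_biUnion_of_mem (fun i => sq i (2 ^ q)) i.2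
  have hC : Cells V.EA univ (V.cel q) V.Ga (2 * ((2 ^ q : ℕ) : ℝ) ^ 2) := by
    have := cells_sq nL_ok (ed := V.EA) (T := univ) (a := fun i : V.cor q => i.1) (k := fun _ => 2 ^ q)
      (n := 2 ^ q) (fun i _ j _ hne => hdis i.2 j.2 fun h => hne (Subtype.ext h)) (fun _ _ => le_rfl)
      fun i _ => hed i.1 i.2
    have hu : (univ : Finset (V.cor q)).biUnion (fun i => sq i.1 (2 ^ q)) = V.Ga := by
      rw [← hcov, univ_eq_attach]
      ext x; simp only [mem_biUnion, mem_attach, true_and, Subtype.exists, exists_prop]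
    rwa [hu] at this
  have hma : Hm V.G.A V.B (V.ma s) := (H.hm _).1
  have hmb : Hm V.G.A V.B (V.mb t) := (H.hm _).2
  have hβ : ∀ i, V.cel q i ⊆ V.G.A := fun i => (hsub i).trans (hΓ'.trans
    (sdiff_subset_sdiff (bl_mono 0 (by omega)) (bl_mono 0 (by omega))))
  have eq : ∀ m m', Hm V.G.A V.B m → Hm V.G.A V.B m' →
      V.Bq g a b m m' = rgG V.G.A g⁻¹ V.B univ (V.cel q) (V.ms a) m m' := fun m m' h h' =>
    (rgG_eq_tl H.coA (tw.agree' k1_not (k2_not hV)) hc hκ.le hβ h h').symm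
  have hw5 : (V.ω : ℝ) ≤ 5 * (V.ω - 1 : ℕ) := by exact_mod_cast (show V.ω ≤ 5 * (V.ω - 1) by omega)
  have hw0 : (0 : ℝ) < (V.ω - 1 : ℕ) := by exact_mod_cast (show 0 < V.ω - 1 by omega)
  have hJ : nL.Jp.card = 2 := by rw [nL_Jp]; rfl
  have hn0 : ∀ m : Pt → ℝ, 0 ≤ ∑ x ∈ V.mid, m x ^ 2 := fun m => sum_nonneg fun _ _ => sq_nonneg _
  have hn1 : ∀ m : Pt → ℝ, 0 ≤ V.nm m := fun m => div_nonneg (hn0 m) (sq_nonneg _)
  have hs : ∀ m : Pt → ℝ, ∑ x ∈ bl 0 (V.G.rho + 2 * V.ω - 1) \ bl 0 (V.G.rho - 2 * V.ω), m x ^ 2 ≤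
      ∑ x ∈ V.mid, m x ^ 2 := fun m => sum_le_sum_of_subset_of_nonneg hM' fun _ _ _ => sq_nonneg _
  have up : ∀ m, Hm V.G.A V.B m →
      rgG V.G.A g⁻¹ V.B univ (V.cel q) (V.ms a) m m ≤ 800 * g₁⁻¹ * V.nm m := fun m hm => by
    have := rgG_le_ring (Λ := nL) (p := V.G.rho - V.ω - 1) (q := V.G.rho + V.ω) (w := V.ω - 1)
      (T := univ) (β := V.cel q) tw EA_nn H.coA k1_not (k2_not hV) hc hκ.le
      (by rw [nL_rg]; omega) (by omega) (by omega) (by omega) (by omega) hM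
      (fun i _ => (hsub i).trans hΓ') hm
    refine this.trans ?_
    rw [nL_rg, hJ]
    have h6 : 1 / ((V.ω - 1 : ℕ) : ℝ) ≤ 5 / V.ω := by rw [div_le_div_iff₀ hw0 hρ]; linarith
    calc _ = g⁻¹ * (32 * (1 / ((V.ω - 1 : ℕ) : ℝ)) ^ 2 *
          ∑ x ∈ bl 0 (V.G.rho + 2 * V.ω - 1) \ bl 0 (V.G.rho - 2 * V.ω), m x ^ 2) := by push_cast; ring
      _ ≤ g₁⁻¹ * (32 * (5 / V.ω) ^ 2 * ∑ x ∈ V.mid, m x ^ 2) :=
          mul_le_mul hc₁ (mul_le_mul (by gcongr) (hs m) (by positivity) (by positivity))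
            (by positivity) (by positivity)
      _ = _ := by unfold Gv.nm; ring
  have hnt : ((2 ^ q : ℕ) : ℝ) * 2 ^ a ≤ V.ω := by
    have : 2 ^ q * 2 ^ a ≤ V.ω := by
      rw [← pow_add]; exact Nat.pow_le_pow_right two_pos (by omega)
    exact_mod_cast this
  have sc : |rgG V.G.A g⁻¹ V.B univ (V.cel q) (V.ms a) (V.ma s) (V.mb t) + g⁻¹ * V.B (V.ma s) (V.mb t)| ≤
      C₀ / 2 ^ a * (V.nm (V.ma s) + V.nm (V.mb t)) := by
    have := screen_ringG (Λ := nL) (p := V.G.rho - V.ω - 1) (q := V.G.rho + V.ω) (w := V.ω - 1)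
      (p₁ := V.G.rho - V.ω) (q₁ := V.G.rho + V.ω - 1) (d := 2 ^ q) tw EA_nn H.coA k1_not (k2_not hV) hC
      (fun i _ x hx y hy => sq_diam le_rfl hx hy) hc hκ
      (by rw [nL_rg]; omega) (by omega) (by omega) (by omega) (by omega) (by omega) (by omega) hM
      hΓ hΓ' hma hmb
      (fun x hx hx' => (H.coA.hx_off _ hx).trans (on_of_not fun h => hx' (by
        rcases mem_insert.1 h with rfl | h
        · exact self_mem_bl _ _
        · exact bl_mono 0 (by omega) (mem_sdiff.1 h).1)))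
      fun x hx hx' => (H.coA.hx_off _ hx).trans (on_of_not fun h => by
        rcases mem_insert.1 h with rfl | h
        · simp only [Gv.k2, mem_bl, Prod.fst_zero] at hx'; omega
        · exact (mem_sdiff.1 h).2 (bl_mono 0 (by omega) hx'))
    rw [nL_rg, hJ] at this
    refine this.trans (le_trans (mul_le_mul_of_nonneg_left (mul_le_mul (Real.sqrt_le_sqrt (hs _))
      (Real.sqrt_le_sqrt (hs _)) (sqrt_nonneg _) (sqrt_nonneg _)) (by positivity)) ?_)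
    have := Kr.K256.num hc hc₁ hρ (show (0 : ℝ) < 2 ^ a by positivity) (Nat.cast_nonneg _) hnt hw0 hw5
      (hn0 (V.ma s)) (hn0 (V.mb t))
    simpa only [Gv.ms, Gv.nm, Nat.cast_one, Nat.cast_ofNat] using this
  have n0 := add_nonneg (hn1 (V.ma s)) (hn1 (V.mb t))
  have a1 := rgG_nonneg (T := univ) (β := V.cel q) H.coA hc hκ.le (Hm.add' hma hmb)
  have a2 := rgG_add_le (T := univ) (β := V.cel q) H.coA hc hκ.le hma hmb
  have a3 := rgG_add_sq (T := univ) (β := V.cel q) H.coA hc hκ.le (V.ma s) (V.mb t)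
  have a4 := up _ hma
  have a5 := up _ hmb
  have a6 := mul_le_mul_of_nonneg_right C1 n0
  have a7 := mul_le_mul_of_nonneg_right C2 n0
  simp only [Gv.Bz, eq _ _ (Hm.add' hma hmb) (Hm.add' hma hmb), eq _ _ hma hma, eq _ _ hmb hmb]
  refine ⟨a1, by linarith, ?_, ?_⟩
  · have b1 : C₀ / 2 ^ a ≤ C₀ := div_le_self C0.le (one_le_pow₀ one_le_two)
    have b2 := sc.trans (mul_le_mul_of_nonneg_right b1 n0)
    have b3 : |g⁻¹ * V.B (V.ma s) (V.mb t)| ≤ 2 * (C₀ * (V.nm (V.ma s) + V.nm (V.mb t))) := by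
      rw [abs_le] at b2 ⊢
      constructor <;> nlinarith [mul_nonneg C0.le n0]
    rw [abs_mul, abs_of_pos hc, inv_mul_le_iff₀ hg0] at b3
    refine b3.trans ((mul_le_mul_of_nonneg_right (hg'.trans (le_abs_self _)) (by positivity)).trans ?_)
    nlinarith [mul_nonneg C0.le n0]
  · rw [a3]
    refine le_trans (le_of_eq (congrArg _ (by ring))) (sc.trans ?_)
    gcongr

theorem K17.trS (hG : GeoStmt) : TrStmt := by
  obtain ⟨C, C0, hC⟩ := Sl.hs_bd
  intro g₂ j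
  refine ⟨g₂ ^ 2 * C * (64 * 2 ^ j) ^ 4 + |g₂| * (16 * 2 ^ j * (128 * 2 ^ j) ^ 2),
    fun g hg hg₂ V W hV hj a b hab => ?_⟩
  have Ge := hG V W hV
  have h1 := Ge.rho_le
  have h2 := Ge.ω_le
  have h3 := Ge.ω16
  set q := V.om2 - (a + b) with hq
  obtain ⟨-, hdis, hcard, -⟩ := Ge.cells q (Nat.sub_le _ _)
  have hω : (0 : ℝ) < V.ω := by exact_mod_cast (show 0 < V.ω by omega)
  have hR : (V.G.R : ℝ) ≤ 64 * 2 ^ j * V.ω := by
    have := Ge.le_rho
    rw [Ge.rho_eq, hj, ← mul_assoc] at this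
    exact_mod_cast this
  have hR1 : (1 : ℝ) ≤ V.G.R := by exact_mod_cast (show 1 ≤ V.G.R by omega)
  have hsub : V.G.A ⊆ bl 0 V.G.R := sdiff_subset
  have e := EA_eq (V := V) (by omega)
  have hco : Co V.G.A (edF V.EA) := e ▸ Sl.co_eS _ _ _
  have hms : V.ms a * (V.ω : ℝ) ^ 2 = 4 ^ a := by
    rw [Gv.ms, div_pow, div_mul_cancel₀ _ (by positivity), ← pow_mul, mul_comm, pow_mul]; norm_num
  have hms0 : 0 ≤ V.ms a := sq_nonneg _
  have hg' : g ≤ |g₂| := hg₂.trans (le_abs_self _)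
  constructor
  · rw [Gv.Sm, Gv.Vm, Kr.Tr57.tr_two hco]
    have h5 := Gs57.blks_le hco (T := univ) (β := V.cel q) fun i _ j _ hne =>
      hdis i.2 j.2 fun h => hne (Subtype.ext h)
    have h6 : ∑ x ∈ V.G.A, ∑ y ∈ V.G.A, G V.G.A (edF V.EA) (dl x) (dl y) ^ 2 ≤ C * (V.G.R : ℝ) ^ 4 :=
      e ▸ hC _ _ _ _ (by omega) hsub
    calc _ ≤ (V.ms a * g₂) ^ 2 * (C * (64 * 2 ^ j * V.ω) ^ 4) := by
          refine mul_le_mul (by gcongr) (h5.trans (h6.trans (by gcongr))) ?_ (sq_nonneg _)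
          exact sum_nonneg fun _ _ => sum_nonneg fun _ _ => by positivity
      _ = g₂ ^ 2 * C * (64 * 2 ^ j) ^ 4 * (V.ms a * (V.ω : ℝ) ^ 2) ^ 2 := by ring
      _ = g₂ ^ 2 * C * (64 * 2 ^ j) ^ 4 * 16 ^ a := by
          rw [hms, ← pow_mul, mul_comm a, pow_mul]; norm_num
      _ ≤ _ := by
          gcongr
          exact le_add_of_nonneg_right (by positivity)
  · rw [Gv.Sm, Gv.Vm, Kr.Tr57.tr_one hco]
    have h8 : ∀ i : V.cor q, ((V.cel q i).card : ℝ)⁻¹ * G V.G.A (edF V.EA)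
        (on (V.cel q i) 1) (on (V.cel q i) 1) ≤ (128 * 2 ^ j * V.ω) ^ 2 := fun i => by
      have h9 : (0 : ℝ) < (V.cel q i).card := by rw [Gv.cel, card_sq]; positivity
      have h10 : ∀ x, gr V.G.A (edF V.EA) (on (V.cel q i) 1) x ≤ (128 * 2 ^ j * V.ω) ^ 2 := fun x => by
        rw [e]
        refine (le_abs_self _).trans ((Sl.abs_gr_le hsub zero_le_one (fun y _ => ?_) x).trans ?_)
        · by_cases h : y ∈ V.cel q i <;> simp [on, h]
        · rw [one_mul]; gcongr; linarith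
      rw [inv_mul_le_iff₀ h9, G, Pot.ip]
      calc _ ≤ ∑ x ∈ V.G.A, if x ∈ V.cel q i then (128 * 2 ^ j * V.ω : ℝ) ^ 2 else 0 :=
            sum_le_sum fun x _ => by by_cases h : x ∈ V.cel q i <;> simp [on, h, h10 x]
        _ ≤ _ := by
            rw [sum_ite_mem, sum_const, nsmul_eq_mul]
            gcongr
            exact inter_subset_right
    calc _ ≤ V.ms a * |g₂| * ((V.cor q).card * (128 * 2 ^ j * V.ω) ^ 2) := by
          refine (mul_le_mul_of_nonneg_left (sum_le_card_nsmul _ _ _ fun i _ => h8 i)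
            (by positivity)).trans ?_
          rw [nsmul_eq_mul, card_univ, Fintype.card_coe]
          gcongr
      _ = |g₂| * (16 * 2 ^ j * (128 * 2 ^ j) ^ 2) * (V.ms a * (V.ω : ℝ) ^ 2) * 4 ^ (a + b) := by
          rw [hcard, hj, show V.om2 - q = a + b by omega]; push_cast; ring
      _ ≤ _ := by
          rw [hms]
          gcongr
          exact le_add_of_nonneg_left (by positivity)

theorem K17.capS (hA : AlgStmt) (hK : Kr.AlgStmt) : CapStmt := fun V W hV => by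
  have H := hA V W hV
  have K := hK V.G W hV.g
  have hc := hV.g.hc
  have hr := hV.g.hr
  have hR : 512 * V.G.r ≤ V.G.R := by have := K.r_le; have := K.rho_le; omega
  have ho := hV.g.out
  have i1 : V.k1 ∉ V.G.In := fun h => (mem_sdiff.1 h).2 (self_mem_bl _ _)
  have i2 : V.k2 ∉ V.G.In := fun h => by
    have := mem_bl.1 (mem_sdiff.1 h).1
    simp only [Gv.k2, Prod.fst_zero] at this; omega
  have o : ∀ x, x ∉ V.G.A → V.om x = on V.G.In 1 x := fun x hx => H.coA.hx_off _ hx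
  constructor
  · have e : V.cp = edF V.EA V.om V.om := by
      have a1 := (o _ k1_not).trans (on_of_not i1)
      have a2 := (o _ (k2_not hV)).trans (on_of_not i2)
      exact H.plain _ _ _ a1 a2 a1 a2
    set n := V.G.R + 1 - V.G.r with hn
    let φ : ℤ × ℕ → Pt × Pt := fun p => ((V.G.r + p.2, p.1), (V.G.r + (p.2 + 1 : ℕ), p.1))
    have inj : Set.InjOn φ ↑(Icc (-(V.G.r : ℤ)) V.G.r ×ˢ range n) := fun p _ p' _ h => by
      simp only [φ, Prod.mk.injEq] at h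
      exact Prod.ext h.1.2 (by omega)
    have h1 : ∑ p ∈ Icc (-(V.G.r : ℤ)) V.G.r ×ˢ range n, (V.om (φ p).2 - V.om (φ p).1) ^ 2 ≤ V.cp := by
      rw [e, edF_self, ← sum_image (f := fun e : Pt × Pt => (V.om e.2 - V.om e.1) ^ 2) inj]
      refine sum_le_sum_of_subset_of_nonneg (fun e he => ?_) fun _ _ _ => sq_nonneg _
      obtain ⟨p, hp, rfl⟩ := mem_image.1 he
      simp only [mem_product, mem_Icc, mem_range] at hp
      refine mem_filter.2 ⟨Lat.mem_edT.2 ⟨by simp [φ, nL_Jp], ?_⟩, by simp [φ, Gv.s1, Gv.s2, Vd.ray]⟩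
      simp only [φ, Kr.Gm.A, Nc.an, mem_sdiff, mem_bl, Prod.fst_zero, Prod.snd_zero]; omega
    have h2 : ∑ p ∈ Icc (-(V.G.r : ℤ)) V.G.r ×ˢ range n, 1 * (V.om (φ p).2 - V.om (φ p).1) =
        -(2 * V.G.r + 1) := by
      rw [sum_product, sum_congr rfl (g := fun _ => (-1 : ℝ)) fun y hy => ?_]
      · simp only [sum_const, Int.card_Icc, nsmul_eq_mul]
        rw [show (V.G.r + 1 - -(V.G.r : ℤ)).toNat = 2 * V.G.r + 1 by omega]; push_cast; ring
      rw [mem_Icc] at hy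
      simp only [one_mul, φ]
      rw [sum_range_sub (fun i : ℕ => V.om (V.G.r + i, y)), o, o, on_of_not, on_of_mem]
      · simp
      all_goals simp only [Kr.Gm.A, Kr.Gm.In, Nc.an, mem_sdiff, mem_bl, Prod.fst_zero, Prod.snd_zero]; omega
    have h3 := sum_mul_sq_le_sq_mul_sq (Icc (-(V.G.r : ℤ)) V.G.r ×ˢ range n) (fun _ => (1 : ℝ))
      fun p => V.om (φ p).2 - V.om (φ p).1
    rw [h2] at h3
    simp only [one_pow, sum_const, card_product, Int.card_Icc, card_range, nsmul_eq_mul, mul_one] at h3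
    rw [show (V.G.r + 1 - -(V.G.r : ℤ)).toNat = 2 * V.G.r + 1 by omega] at h3
    have h4 : (n : ℝ) ≤ V.G.R := by exact_mod_cast (show n ≤ V.G.R by omega)
    have h5 := h3.trans (mul_le_mul_of_nonneg_left h1 (by positivity))
    have h6 := hV.g.hi
    have h7 := hV.g.hW
    have h8 : (64 : ℝ) ≤ V.G.r := by exact_mod_cast hr
    have h9 := H.cp_pos
    push_cast at h5
    have h10 : 2 * (V.G.r : ℝ) + 1 ≤ n * V.cp :=
      le_of_mul_le_mul_left (by linarith) (show (0 : ℝ) < 2 * V.G.r + 1 by linarith)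
    have h11 := h10.trans (mul_le_mul_of_nonneg_right (h4.trans h6) h9.le)
    rw [div_le_iff₀ (by linarith)]
    exact le_of_mul_le_mul_left (by linarith) (show (0 : ℝ) < V.G.r by linarith)
  · have hs : bl 0 V.G.r ⊆ bl 0 V.G.R := bl_mono 0 (by omega)
    set u : Pt → ℝ := fun x => if x ∈ V.G.A then V.G.om x else on V.G.In 1 x with hu
    have a1 : u V.k1 = 0 := (if_neg k1_not).trans (on_of_not i1)
    have a2 : u V.k2 = 0 := (if_neg (k2_not hV)).trans (on_of_not i2)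
    refine (H.coA.hx_min (u := u) fun x hx => if_neg hx).trans ?_
    rw [Gv.B, H.plain _ _ _ a1 a2 a1 a2, Kr.Gm.cp, K.coD.cap_eq hs]
    have key : ∀ x y, y ∈ V.G.A → x ∈ bl y 1 → u x = V.G.om x := fun x y hy hx => by
      by_cases h : x ∈ V.G.A
      · exact if_pos h
      rw [hu]
      simp only [if_neg h]
      by_cases h' : x ∈ bl 0 V.G.r
      · rw [on_of_mem, Kr.Gm.om, K.coD.ex_on _ h']
        simp only [Kr.Gm.A, Kr.Gm.In, Nc.an, mem_sdiff, mem_bl, Prod.fst_zero, Prod.snd_zero] at *; omega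
      · rw [on_of_not (K := V.G.In) fun k => h' (mem_sdiff.1 k).1, Kr.Gm.om,
          K.coD.ex_sup hs _ x fun k => h (mem_sdiff.2 ⟨k, h'⟩)]
    refine le_trans (le_of_eq ?_) (Pot.edF_mono (ed' := V.EA) ((filter_subset _ _).trans
      (Lat.edT_mono sdiff_subset)) V.G.om)
    rw [edF_self, edF_self]
    refine sum_congr rfl fun e he => ?_
    obtain ⟨b1, b2⟩ := Lat.mem_edT.1 (mem_filter.1 he).1
    rcases b2 with b2 | b2
    · rw [key _ _ b2 (self_mem_bl _ _), key _ _ b2 (nL_rg ▸ Lat.edge_near b1)]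
    · rw [key _ _ b2 (self_mem_bl _ _), key _ _ b2 (nL_rg ▸ Lat.edge_near' b1)]

end Crest.Agent.T145.Kv
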