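import Crest.Agent.T145.KrK_85

/-!
# Row 145: K3 of docs/T145_c90.md, outer half; Taylor expansions of the kernel (helper85)
-/

set_option autoImplicit false

namespace Crest.Agent.T145.Pot.K85

open Finset H59 Kw56

theorem fn_of_abs {V : Type*} {E : Finset (V × V)} {ℓ : (V → ℝ) → ℝ} {K : ℝ}
    (hadd : ∀ u v, ℓ (u + v) = ℓ u + ℓ v) (hsmul : ∀ (c : ℝ) u, ℓ (c • u) = c * ℓ u)
    (h : ∀ u, |ℓ u| ≤ K * √(edF E u u)) : Fn E ℓ (K ^ 2) :=
  fn_of_dual (sq_nonneg _) hadd hsmul fun u => by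
    rw [← sq_abs, ← Real.sq_sqrt ((sy_edF E).nonneg u), ← mul_pow]
    exact pow_le_pow_left₀ (abs_nonneg _) (h u) 2

/-- filling a hole, free form -/
theorem fillN (z : Pt) {p Q : ℕ} (hp : 4 ≤ p) (hQ : p ≤ Q) (u : Pt → ℝ) : ∃ c, ∃ v : Pt → ℝ,
    (∀ x, (p : ℤ) ≤ ds z x → v x = u x - c) ∧
      eN nL (bl z Q) v v ≤ 200000 * eN nL (an z (p / 2) Q) u u := by
  have p4 : (4 : ℝ) ≤ p := by exact_mod_cast hp
  have a0 : 2 * (p / 2) ≤ p := by omega
  generalize p / 2 = q at *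
  have a1 : 2 * (q : ℝ) ≤ p := by exact_mod_cast a0
  have b1 : (q : ℝ) + 1 < p := by linarith
  obtain ⟨c, hc⟩ := cut_gen (ed := nL.edI (bl z Q)) (fun e he => (Lat.mem_edI.1 he).1)
    (S := an z q Q) (z := z) (a := q) (b := p) (by omega) (κ := 5) (L := 4 / p)
    (by linarith) (fun x hx => by rw [mem_an] at *; omega)
    (ζ := fun x => 1 - rmp z (q + 1) p x)
    (fun x => abs_le.2 ⟨by linarith [(rmp_mem z (q + 1) p x).2],
      by linarith [(rmp_mem z (q + 1) p x).1]⟩)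
    (fun e he hne => by
      rw [Lat.mem_edI, mem_bl_ds, mem_bl_ds] at he
      have h1 := abs_le.1 (edge_ds z he.1).2
      have h2 : (q : ℤ) + 1 < ds z e.1 := by
        by_contra h
        exact hne (by rw [rmp_one b1 (by exact_mod_cast not_lt.1 h), sub_self])
      rw [mem_an, mem_an]; omega)
    (fun e he hne => by
      rw [Lat.mem_edI] at he
      have h1 := rmp_ne b1 (edge_ds z he.1).1 fun h => hne (by rw [h])
      refine ⟨mem_ring.2 ⟨by simpa using h1.2.1, ?_⟩, ?_⟩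
      · have : ds z e.2 < p + 1 := by exact_mod_cast h1.2.2
        exact_mod_cast (by omega : ds z e.2 ≤ p)
      · rw [sub_sub_sub_cancel_left, abs_sub_comm]
        refine (rmp_lip z b1 (edge_ds z he.1).1).trans ?_
        rw [div_le_div_iff₀ (by linarith) (by linarith)]; push_cast; linarith) u
  refine ⟨c, _, fun x hx => ?_, hc.trans (mul_le_mul_of_nonneg_right ?_ (Po44.eN_nonneg _ _ _))⟩
  · simp only [rmp_zero b1 (show (p : ℝ) ≤ ds z x by exact_mod_cast hx), sub_zero, one_mul]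
  · have : (2 * p + 1 : ℝ) * (4 / p) ≤ 9 := by
      rw [← mul_div_assoc, div_le_iff₀ (by linarith)]; linarith
    have := pow_le_pow_left₀ (by positivity) this 2
    linarith

variable {z : Pt} {r R : ℕ}

theorem Mh_add (u v : Pt → ℝ) : Mh z R (u + v) = Mh z R u + Mh z R v := (co_eD nL_ok _).hx_add u v
theorem Mh_sub (u v : Pt → ℝ) : Mh z R (u - v) = Mh z R u - Mh z R v := (co_eD nL_ok _).hx_sub u v
theorem Mh_smul (c : ℝ) (u : Pt → ℝ) : Mh z R (c • u) = c • Mh z R u := (co_eD nL_ok _).hx_smul c u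
theorem Mh_congr {u v : Pt → ℝ} (h : ∀ x, x ∉ bl z R → u x = v x) : Mh z R u = Mh z R v :=
  (co_eD nL_ok _).hx_congr h
theorem Mh_const (c : ℝ) : Mh z R (fun _ => c) = fun _ => c :=
  (co_eD nL_ok _).hx_unique (fun _ _ => rfl) fun v _ => edF_const _ c v
theorem Mh_shift (u : Pt → ℝ) (c : ℝ) : Mh z R (fun x => u x + c) = fun x => Mh z R u x + c :=
  (Mh_add u fun _ => c).trans (by rw [Mh_const]; rfl)
theorem lap_Mh (u : Pt → ℝ) {x : Pt} (hx : x ∈ bl z R) : lap (Mh z R u) x = 0 :=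
  (hm_eD nL_ok Subset.rfl).1 ((co_eD nL_ok _).hx_hm u) x hx

theorem av_add (S : Finset Pt) (u v : Pt → ℝ) : av S (u + v) = av S u + av S v := by
  simp only [av, Pi.add_apply, sum_add_distrib, add_div]
theorem av_smul (S : Finset Pt) (c : ℝ) (u : Pt → ℝ) : av S (c • u) = c * av S u := by
  simp only [av, Pi.smul_apply, smul_eq_mul, ← mul_sum, mul_div_assoc]

theorem card_an_ge (z : Pt) (R : ℕ) : (R : ℝ) ^ 2 ≤ (an z R (2 * R)).card := by
  have := card_sdiff_add_card_eq_card (bl_mono z (by omega : R ≤ 2 * R))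
  rw [card_bl, card_bl] at this
  have h : ((an z R (2 * R)).card : ℝ) + (2 * R + 1) ^ 2 = (2 * (2 * R) + 1) ^ 2 := by
    exact_mod_cast this
  nlinarith [R.cast_nonneg (α := ℝ)]

/-- the harmonic extension is almost constant on the scale of the energy near the boundary -/
theorem outer : ∃ C : ℝ, 0 ≤ C ∧ ∀ (z : Pt) (R : ℕ), 16 ≤ R → ∀ u : Pt → ℝ, ∃ c,
    (∀ x ∈ bl z (R / 2), |Mh z R u x - c| ≤ C * √(eN nL (an z (R / 8) (2 * R)) u u)) ∧
      |av (an z R (2 * R)) u - c| ≤ C * √(eN nL (an z (R / 8) (2 * R)) u u) := by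
  obtain ⟨C, hC⟩ := (harmStmt pkStmt).1
  refine ⟨448 * (8 + |C| * 9000), by positivity, fun z R hR u => ?_⟩
  obtain ⟨c₀, v, v1, v2⟩ := fillN z (p := R / 2) (Q := 2 * R) (by omega) (by omega) u
  have R1 : (16 : ℝ) ≤ R := by exact_mod_cast hR
  have E0 := Po44.eN_nonneg nL (bl z (2 * R)) v
  set s := √(eN nL (bl z (2 * R)) v v) with hs
  have s0 : 0 ≤ s := Real.sqrt_nonneg _
  have s1 : s ≤ 448 * √(eN nL (an z (R / 8) (2 * R)) u u) := by
    rw [hs, Real.sqrt_le_left (by positivity), mul_pow, Real.sq_sqrt (Po44.eN_nonneg _ _ _)]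
    have := eN_mono (Λ := nL) (show an z (R / 2 / 2) (2 * R) ⊆ an z (R / 8) (2 * R) from
      fun x hx => by rw [mem_an] at *; omega) u
    linarith [Po44.eN_nonneg nL (an z (R / 8) (2 * R)) u]
  have s2 : eN nL (bl z (2 * R)) v v = s ^ 2 := (Real.sq_sqrt E0).symm
  set c₁ := av (bl z (2 * R)) v with hc₁
  have P : ∑ x ∈ bl z (2 * R), (v x - c₁) ^ 2 ≤ 50 * (R * s) ^ 2 := by
    have := Po44.poin1 (z.1 - (2 * R : ℕ), z.2 - (2 * R : ℕ)) (2 * (2 * R) + 1) v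
    rw [← bl_eq_sq, s2] at this
    refine this.trans ?_
    push_cast
    nlinarith [mul_le_mul_of_nonneg_right (show (2 * (2 * R) + 1 : ℝ) ^ 2 ≤ 25 * R ^ 2 by nlinarith)
      (sq_nonneg s)]
  have huv : ∀ x, x ∉ bl z R → u x = v x + c₀ := fun x hx => by
    rw [mem_bl_ds] at hx; rw [v1 x (by omega)]; ring
  have hM : Mh z R u = fun x => Mh z R v x + c₀ := by rw [← Mh_shift]; exact Mh_congr huv
  have fin : ∀ {t K : ℝ}, 0 ≤ K → K ≤ 8 + |C| * 9000 → t ≤ K * s →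
      t ≤ 448 * (8 + |C| * 9000) * √(eN nL (an z (R / 8) (2 * R)) u u) := fun {t K} h0 h1 h2 =>
    h2.trans ((mul_le_mul h1 s1 s0 (by positivity)).trans_eq (by ring))
  refine ⟨c₁ + c₀, fun x hx => ?_, ?_⟩
  · have hD := co_eD nL_ok (bl z R)
    have q1 := poin_bl nL_ok z R (u := v - Mh z R v) fun y hy => by
      rw [Pi.sub_apply, Mh, hD.hx_off v hy, sub_self]
    have q2 : eD nL (bl z R) (v - Mh z R v) (v - Mh z R v) ≤ s ^ 2 := by
      have a1 := hD.hx_pyth (η := v) (u := v) fun _ _ => rfl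
      have a2 := hD.nonneg (Pot.hx (bl z R) (eD nL (bl z R)) v)
      have a3 : eD nL (bl z R) v v ≤ eN nL (bl z (2 * R)) v v :=
        edF_mono (Lat.edT_subset_edI fun y hy => bl_subset_bl hy (by rw [nL_rg]; omega)) v
      rw [Mh]; linarith
    have q3 : ∑ y ∈ bl z R, (v y - c₁) ^ 2 ≤ 50 * (R * s) ^ 2 :=
      (sum_le_sum_of_subset_of_nonneg (bl_mono z (by omega)) fun _ _ _ => sq_nonneg _).trans P
    have q4 : ∑ y ∈ bl z R, (Mh z R v y - c₁) ^ 2 ≤ 136 * (R * s) ^ 2 := by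
      have a1 : ∑ y ∈ bl z R, (Mh z R v y - c₁) ^ 2 ≤
          ∑ y ∈ bl z R, 2 * ((v y - c₁) ^ 2 + (v - Mh z R v) y ^ 2) := sum_le_sum fun y _ => by
        rw [Pi.sub_apply]; nlinarith [sq_nonneg (2 * v y - c₁ - Mh z R v y)]
      rw [← mul_sum, sum_add_distrib] at a1
      have a2 := mul_le_mul (show 2 * (2 * R + 2 : ℝ) ^ 2 ≤ 18 * R ^ 2 by nlinarith) q2
        (hD.nonneg _) (by positivity)
      nlinarith
    have q5 : ∑ y ∈ bl z R, |Mh z R v y - c₁| ≤ 35 * (R : ℝ) ^ 2 * s := by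
      refine abs_le_of_sq_le_sq' ((sq_sum_abs_le _ _).trans ?_) (by positivity) |>.2
      have a1 : ((bl z R).card : ℝ) ≤ 9 * (R : ℝ) ^ 2 := by rw [card_bl]; push_cast; nlinarith
      refine (mul_le_mul a1 q4 (sum_nonneg fun _ _ => sq_nonneg _) (by positivity)).trans ?_
      nlinarith [sq_nonneg ((R : ℝ) ^ 2 * s)]
    have q6 := hC (R / 8) (fun y => Mh z R v y - c₁) x 0 (by omega) fun y hy => by
      rw [lap_sub_const, lap_Mh v (bl_subset_bl hx (by omega) hy), abs_zero]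
    have q7 : ∑ y ∈ bl x (2 * (R / 8) + 1) \ bl x (R / 8), |Mh z R v y - c₁| ≤ 35 * (R : ℝ) ^ 2 * s :=
      (sum_le_sum_of_subset_of_nonneg (sdiff_subset.trans (bl_subset_bl hx (by omega)))
        fun _ _ _ => abs_nonneg _).trans q5
    have q8 : (R : ℝ) ≤ 16 * (R / 8 : ℕ) := by exact_mod_cast (by omega : R ≤ 16 * (R / 8))
    have q9 : (0 : ℝ) < (R / 8 : ℕ) := by linarith
    rw [hM, add_sub_add_right_eq_sub]
    refine fin (K := |C| * 9000) (by positivity) (by linarith) (q6.trans ?_)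
    rw [mul_zero, add_zero, mul_assoc]
    refine mul_le_mul (le_abs_self C) ?_ (by positivity) (abs_nonneg _)
    rw [div_le_iff₀ (by positivity)]
    nlinarith [mul_le_mul_of_nonneg_right (pow_le_pow_left₀ (by positivity) q8 2) s0,
      mul_nonneg (sq_nonneg ((R / 8 : ℕ) : ℝ)) s0]
  · have q1 := card_an_ge z R
    have q0 : (0 : ℝ) < (an z R (2 * R)).card := lt_of_lt_of_le (by positivity) q1
    have q2 : av (an z R (2 * R)) u = av (an z R (2 * R)) v + c₀ := by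
      rw [av, av, sum_congr rfl fun x (hx : x ∈ an z R (2 * R)) => huv x (mem_sdiff.1 hx).2,
        sum_add_distrib, sum_const, nsmul_eq_mul, add_div, mul_div_cancel_left₀ _ q0.ne']
    have q3 := (Po44.card_mul_av_sub (an z R (2 * R)) v c₁).trans
      ((sum_le_sum_of_subset_of_nonneg sdiff_subset fun _ _ _ => sq_nonneg _).trans P)
    rw [q2, add_sub_add_right_eq_sub]
    refine fin (K := 8) (by positivity) (by linarith [abs_nonneg C]) (abs_le_of_sq_le_sq' ?_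
      (by positivity) |> abs_le.2)
    have q4 := mul_le_mul_of_nonneg_right q1 (sq_nonneg (av (an z R (2 * R)) v - c₁))
    refine le_of_mul_le_mul_left (a := (R : ℝ) ^ 2) ?_ (by positivity)
    nlinarith [sq_nonneg (R * s)]

theorem dif_sub_const (e : Pt) (φ : Pt → ℝ) (c : ℝ) (x : Pt) :
    dif e (fun y => φ y - c) x = dif e φ x := by simp only [dif, sub_sub_sub_cancel_right]

theorem pc_add (u v : Pt → ℝ) (i : Fin 2) : pc z (u + v) i = pc z u i + pc z v i := by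
  simp only [pc, Pi.add_apply]; ring
theorem pc_smul (c : ℝ) (u : Pt → ℝ) (i : Fin 2) : pc z (c • u) i = c * pc z u i := by
  simp only [pc, Pi.smul_apply, smul_eq_mul]; ring

theorem ev_nn (i : Fin 2) : ev i ∈ nn := by fin_cases i <;> decide
theorem neg_nn {e : Pt} (he : e ∈ nn) : -e ∈ nn := nL_ok.neg he

/-- flows of the outer functionals -/
theorem fn_out : ∃ C : ℝ, 0 ≤ C ∧ ∀ (z : Pt) (R : ℕ), 16 ≤ R →
    (∀ w ∈ bl z (R / 2), Fn (nL.edI (an z (R / 8) (2 * R))) (fun u => Mh z R u w - Mh z R u z) (C ^ 2)) ∧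
    (∀ i, Fn (nL.edI (an z (R / 8) (2 * R))) (fun u => pc z (Mh z R u) i) ((C / R) ^ 2)) ∧
    (∀ r, 4 * r ≤ R → Fn (nL.edI (an z (R / 8) (2 * R)))
      (fun u => Hh z r R (Mh z R u) - Mh z R u z) ((C * r / R) ^ 2)) ∧
    Fn (nL.edI (an z (R / 8) (2 * R))) (fun u => Mh z R u z - av (an z R (2 * R)) u) (C ^ 2) := by
  obtain ⟨C, C0, hC⟩ := outer
  refine ⟨128 * C, by positivity, fun z R hR => ?_⟩
  replace hC := hC z R hR
  have R1 : (16 : ℝ) ≤ R := by exact_mod_cast hR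
  have two : ∀ {a b c t : ℝ}, 0 ≤ t → |a - c| ≤ C * t → |b - c| ≤ C * t → |a - b| ≤ 128 * C * t :=
    fun {a b c t} ht h1 h2 => by
      have := mul_nonneg C0 ht
      rw [abs_le] at *; constructor <;> linarith [h1.1, h1.2, h2.1, h2.2]
  have gr : ∀ u, ∀ x ∈ bl z (R / 4), ∀ e ∈ nn,
      |dif e (Mh z R u) x| ≤ 64 * C / R * √(eN nL (an z (R / 8) (2 * R)) u u) := fun u x hx e he => by
    obtain ⟨c, h1, -⟩ := hC u
    have q8 : (R : ℝ) ≤ 16 * (R / 8 : ℕ) := by exact_mod_cast (by omega : R ≤ 16 * (R / 8))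
    have := Ha91.grad (r := R / 8) (by omega) (u := fun y => Mh z R u y - c) (z := x) (δ := 0)
      (fun y hy => by rw [lap_sub_const, lap_Mh u (bl_subset_bl hx (by omega) hy), abs_zero])
      (fun y hy => h1 y (bl_subset_bl hx (by omega) hy)) he
    rw [dif_sub_const, mul_zero, add_zero] at this
    refine this.trans ?_
    rw [← mul_div_assoc, div_mul_eq_mul_div, div_le_div_iff₀ (by linarith) (by linarith)]
    nlinarith [mul_le_mul_of_nonneg_left q8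
      (mul_nonneg C0 (Real.sqrt_nonneg (eN nL (an z (R / 8) (2 * R)) u u)))]
  refine ⟨fun w hw => fn_of_abs (fun u v => by simp only [Mh_add, Pi.add_apply]; ring)
      (fun c u => by simp only [Mh_smul, Pi.smul_apply, smul_eq_mul]; ring) fun u => ?_,
    fun i => fn_of_abs (fun u v => by rw [Mh_add, pc_add]) (fun c u => by rw [Mh_smul, pc_smul])
      fun u => ?_,
    fun r hr => fn_of_abs (fun u v => by simp only [Mh_add, Hh_add, Pi.add_apply]; ring)
      (fun c u => by simp only [Mh_smul, Hh_smul, Pi.smul_apply, smul_eq_mul]; ring) fun u => ?_,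
    fn_of_abs (fun u v => by simp only [Mh_add, av_add, Pi.add_apply]; ring)
      (fun c u => by simp only [Mh_smul, av_smul, Pi.smul_apply, smul_eq_mul]; ring) fun u => ?_⟩
  · obtain ⟨c, h1, -⟩ := hC u
    exact two (Real.sqrt_nonneg _) (h1 w hw) (h1 z (self_mem_bl _ _))
  · have h1 := gr u z (self_mem_bl _ _) _ (ev_nn i)
    have h2 := gr u z (self_mem_bl _ _) _ (neg_nn (ev_nn i))
    have h3 : 0 ≤ C / R * √(eN nL (an z (R / 8) (2 * R)) u u) := by positivity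
    simp only [dif, ← sub_eq_add_neg, mul_div_assoc, mul_assoc] at h1 h2
    rw [pc, mul_div_assoc, mul_assoc, ← eN, abs_le] at *
    constructor <;> linarith [h1.1, h1.2, h2.1, h2.2]
  · have h1 := abs_Hh_le (z := z) (r := r) (R := R) (by omega)
      (u := fun x => Mh z R u x + -Mh z R u z) fun x hx =>
        osc_bl (fun y hy => gr u y (bl_mono z (by omega) hy)) hx
    rw [Hh_shift (by omega)] at h1
    exact h1.trans_eq (by rw [eN]; ring)
  · obtain ⟨c, h1, h2⟩ := hC u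
    exact two (Real.sqrt_nonneg _) (h1 z (self_mem_bl _ _)) h2

/-! ## Taylor expansions -/

/-- K3 (ii) from a sup bound -/
theorem fn_Yb' (hr : 4 ≤ r) (hR : 2 * r ≤ R) {φ : Pt → ℝ} (hφ : ∀ x ∈ bl z (3 * r), lap φ x = 0)
    {c K : ℝ} (hK : ∀ x ∈ bl z (4 * r), |φ x - c| ≤ K) :
    Fn (nL.edI (an z (r / 2) (2 * r))) (fun u => Yb z r R u φ) ((4 * 10 ^ 6 * K) ^ 2) := by
  have p4 : (4 : ℝ) ≤ r := by exact_mod_cast hr
  refine (fn_Yb hr hR (fun x hx => hφ x (mem_bl_ds.2 (by push_cast; omega))) (K := 4 * (K / r))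
    fun x hx e he => ?_).mono (le_of_eq (by field_simp))
  have := Ha91.grad (r := r) (by omega) (u := fun y => φ y - c) (z := x) (δ := 0)
    (fun y hy => by rw [lap_sub_const, hφ y (bl_subset_bl hx (by omega) hy), abs_zero])
    (fun y hy => hK y (bl_subset_bl hx (by omega) hy)) he
  rwa [dif_sub_const, mul_zero, add_zero] at this

theorem difs_kk : ∃ C : ℝ, 0 ≤ C ∧ ∀ (z : Pt) (ρ : ℕ), 2 ≤ ρ → ∀ w ∈ an z (3 * ρ) (6 * ρ),
    ∀ x ∈ bl z (ρ - 1), ∀ e ∈ nn, |dif e (kk z ρ w) x| ≤ C / (ρ : ℝ) ^ 3 ∧ ∀ e' ∈ nn,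
      |difs [e', e] (kk z ρ w) x| ≤ C / (ρ : ℝ) ^ 4 ∧ ∀ e'' ∈ nn,
        |difs [e'', e', e] (kk z ρ w) x| ≤ C / (ρ : ℝ) ^ 5 := by
  obtain ⟨C, C0, hC⟩ := dif_kk
  obtain ⟨C₁, c1, h₁⟩ := Ha91.harm3 1
  obtain ⟨C₂, c2, h₂⟩ := Ha91.harm3 2
  refine ⟨(1 + C₁ + C₂) * C, by positivity, fun z ρ hρ w hw x hx e he => ?_⟩
  have p : (2 : ℝ) ≤ ρ := by exact_mod_cast hρ
  have a1 : ∀ y ∈ bl x ρ, lap (dif e (kk z ρ w)) y = 0 := fun y hy => by
    have b1 := mem_bl_ds.1 (bl_subset_bl hx (le_refl (ρ + (ρ - 1))) hy)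
    have b2 : ∀ y', ds z y' ≤ 2 * ρ → lap (kk z ρ w) y' = 0 := fun y' h => lap_kk fun h' => by
      have := abs_le.1 (ds_lip z h')
      rw [mem_an] at hw; push_cast at *; omega
    have b3 := abs_le.1 (ds_lip z (add_nn_mem_bl he y))
    rw [lap, lapJ_dif, dif, ← lap, b2 _ (by push_cast at *; omega), b2 _ (by omega), sub_self]
  have a2 : ∀ y ∈ bl x (ρ + 1), |dif e (kk z ρ w) y| ≤ C / (ρ : ℝ) ^ 3 := fun y hy =>
    hC z ρ (by omega) w hw y (bl_subset_bl hx (by omega) hy) e he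
  have b1 := mul_nonneg c1 C0
  have b2 := mul_nonneg c2 C0
  refine ⟨(a2 x (self_mem_bl _ _)).trans (by gcongr; nlinarith), fun e' he' =>
    ⟨(h₁ ρ _ x _ (by omega) (by omega) a1 a2 [e'] rfl (by simpa using he')).trans ?_, fun e'' he'' =>
      (h₂ ρ _ x _ hρ (by omega) a1 a2 [e'', e'] rfl (by simp [he', he''])).trans ?_⟩⟩
  · rw [← mul_div_assoc, div_div, ← pow_add]; gcongr; nlinarith
  · rw [← mul_div_assoc, div_div, ← pow_add]; gcongr; nlinarith

theorem tay_pc {n : ℕ} {f : Pt → ℝ} {K : ℝ}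
    (h : ∀ x ∈ bl z (n + 1), ∀ e ∈ nn, ∀ e' ∈ nn, |difs [e, e'] f x| ≤ K) {x : Pt} (hx : x ∈ bl z n) :
    |f x - ∑ i, pc z f i * cx z i x - f z| ≤ 5 * (n : ℝ) ^ 2 * K := by
  have h1 := (tayStmt n f z (x - z) ((Ha91.add_mem_bl (z := z)).1 (by simpa using hx))).2.1 K h
  have h2 := h z (self_mem_bl _ _) _ Ha91.e1_nn _ (neg_nn Ha91.e1_nn)
  have h3 := h z (self_mem_bl _ _) _ Ha91.e2_nn _ (neg_nn Ha91.e2_nn)
  simp only [difs, dif, add_sub_cancel_right, ← sub_eq_add_neg] at h2 h3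
  rw [mem_bl_abs] at hx
  have h4 : |((x - z).1 : ℝ)| ≤ n := by exact_mod_cast hx.1
  have h5 : |((x - z).2 : ℝ)| ≤ n := by exact_mod_cast hx.2
  have K0 := (abs_nonneg _).trans h2
  have h6 := mul_le_mul h4 h2 (abs_nonneg _) n.cast_nonneg
  have h7 := mul_le_mul h5 h3 (abs_nonneg _) n.cast_nonneg
  have h8 : (n : ℝ) * K ≤ n ^ 2 * K := mul_le_mul_of_nonneg_right (by
    exact_mod_cast Nat.le_self_pow two_ne_zero n) K0
  rw [← abs_mul] at h6 h7
  simp only [add_sub_cancel, dif] at h1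
  simp only [Fin.sum_univ_two, pc, cx, co, ev, Matrix.cons_val_zero, Matrix.cons_val_one]
  rw [abs_le] at *
  constructor <;> linarith [h1.1, h1.2, h6.1, h6.2, h7.1, h7.2]

theorem tay_rot {n : ℕ} (hn : 1 ≤ n) {f : Pt → ℝ} {K : ℝ} (h0 : lap f z = 0)
    (h : ∀ x ∈ bl z (n + 2), ∀ e ∈ nn, ∀ e' ∈ nn, ∀ e'' ∈ nn, |difs [e, e', e''] f x| ≤ K) {y : Pt}
    (hy : y ∈ bl 0 n) : |f (z + y) + f (z + (-y.2, y.1)) + f (z + (-y.1, -y.2)) + f (z + (y.2, -y.1)) -
      4 * f z| ≤ 36 * (n : ℝ) ^ 3 * K := by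
  have m : |y.1| ≤ n ∧ |y.2| ≤ n := by simpa [mem_bl_abs] using hy
  have h1 := (tayStmt n f z y hy).2.2 K h
  have h2 := (tayStmt n f z (-y.2, y.1) (by simp [mem_bl_abs, m])).2.2 K h
  have h3 := (tayStmt n f z (-y.1, -y.2) (by simp [mem_bl_abs, m])).2.2 K h
  have h4 := (tayStmt n f z (y.2, -y.1) (by simp [mem_bl_abs, m])).2.2 K h
  have h5 := h z (self_mem_bl _ _) _ (neg_nn Ha91.e1_nn) _ Ha91.e1_nn _ Ha91.e1_nn
  have h6 := h z (self_mem_bl _ _) _ (neg_nn Ha91.e2_nn) _ Ha91.e2_nn _ Ha91.e2_nn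
  have h7 : difs [(1, 0), (1, 0)] f z + difs [(0, 1), (0, 1)] f z = lap f z -
      difs [-(1, 0), (1, 0), (1, 0)] f z - difs [-(0, 1), (0, 1), (0, 1)] f z := by
    obtain ⟨a, b⟩ := z
    simp only [difs, dif, lap_apply, Prod.neg_mk, Prod.mk_add_mk, add_zero, neg_zero,
      ← sub_eq_add_neg, sub_add_cancel]
    ring
  have K0 := (abs_nonneg _).trans h5
  have h8 : |difs [(1, 0), (1, 0)] f z + difs [(0, 1), (0, 1)] f z| ≤ 2 * K := by
    rw [h7, h0, abs_le] at *; constructor <;> linarith [h5.1, h5.2, h6.1, h6.2]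
  have h9 : |(y.1 : ℝ) ^ 2 + (y.2 : ℝ) ^ 2| ≤ 2 * (n : ℝ) ^ 3 := by
    have a1 : |(y.1 : ℝ)| ≤ n := by exact_mod_cast m.1
    have a2 : |(y.2 : ℝ)| ≤ n := by exact_mod_cast m.2
    have a3 : (n : ℝ) ^ 2 ≤ n ^ 3 := pow_le_pow_right₀ (by exact_mod_cast hn) (by norm_num)
    rw [abs_of_nonneg (by positivity), ← sq_abs (y.1 : ℝ), ← sq_abs (y.2 : ℝ)]
    linarith [pow_le_pow_left₀ (abs_nonneg _) a1 2, pow_le_pow_left₀ (abs_nonneg _) a2 2]
  have h10 := mul_le_mul h9 h8 (abs_nonneg _) (by positivity)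
  rw [← abs_mul] at h10
  push_cast at h2 h3 h4
  rw [abs_le] at *
  constructor <;> linarith [h1.1, h1.2, h2.1, h2.2, h3.1, h3.2, h4.1, h4.2, h10.1, h10.2]

theorem lap_cx (i : Fin 2) (x : Pt) : lap (cx z i) x = 0 := by
  fin_cases i <;> simp [lap_apply, cx, co] <;> ring

theorem dif_cx (i : Fin 2) {e : Pt} (he : e ∈ nn) (x : Pt) : |dif e (cx z i) x| ≤ 1 := by
  have := abs_nn_le he
  fin_cases i
  · simpa [dif, cx, co] using this.1
  · simpa [dif, cx, co] using this.2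

theorem Hh_cx (i : Fin 2) : Hh z r R (cx z i) = 0 := by
  have h := ((dq_rot z).trans (dq_rot z)).Hh (r := r) (R := R) (cx z i)
  rw [show cx z i ∘ (rotZ z).trans (rotZ z) = fun x => -cx z i x by
    funext x; fin_cases i <;> simp [cx, co, rotZ], Hh_neg] at h
  linarith

end Crest.Agent.T145.Pot.K85
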