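import Crest.Agent.T145.KrDef_77
import Crest.Agent.T145.KrO_85

/-!
# Row 145: `K3Stmt` (helper85)
-/

set_option autoImplicit false

namespace Crest.Agent.T145.Pot.K85

open Finset H59 Kw56 Kr

theorem f2_of_fn {E : Finset (Pt × Pt)} {ℓ : (Pt → ℝ) → ℝ} {n : ℝ} (h : Fn E ℓ n) {f : Pt → ℝ}
    (hf : ∀ s, pr f s = ℓ (cu s)) : F2 E f n := by
  obtain ⟨g, h1, h2⟩ := h.f2
  refine h1.congr (funext fun x => ?_)
  simpa using (hf (Finsupp.single x 1)).trans (h2 _)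

theorem pr_sw {D : Finset Pt} {f : Pt → ℝ} (hf : Sup D f) (s : Cfg Pt) :
    pr (sw D f) s = ip D f (hx D (eD nL D) (cu s)) := by
  have h : Sup s.support (cu s) := fun x hx => by simp [cu, Finsupp.notMem_support_iff.1 hx]
  rw [(co_eD nL_ok D).ip_hx, sw, pr_sub, AddMonoidHom.sub_apply, pr_of_fsupp f s hf,
    ← ip_op s.support _ _ h, pr_eq_sum]
  rfl

theorem sup_sw {R : ℕ} {f : Pt → ℝ} (hf : Sup (bl 0 R) f) : Sup (an 0 R (R + 1)) (sw (bl 0 R) f) :=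
  fun x hx => by
  by_cases h : x ∈ bl 0 R
  · rw [sw, Pi.sub_apply, xg, (co_eD nL_ok _).op_gr f h, sub_self]
  · rw [sw, Pi.sub_apply, hf x h, zero_sub, neg_eq_zero, xg, op, eD, edF_apply]
    refine sum_eq_zero fun e he => ?_
    have h1 := (Lat.mem_edI.1 (Lat.edT_subset_edI (B := bl 0 (R + 1))
      (fun y hy => bl_subset_bl hy (by rw [nL_rg]; omega)) he)).2
    have h2 : x ∉ bl 0 (R + 1) := fun h' => hx (mem_sdiff.2 ⟨h', h⟩)
    rw [dl, Pi.single_eq_of_ne fun h' : e.2 = x => h2 (h' ▸ h1.2),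
      Pi.single_eq_of_ne fun h' : e.1 = x => h2 (h' ▸ h1.1), sub_self, mul_zero]

/-- the charge of `Yb · φ` -/
noncomputable def yc (G : Gm) (φ : Pt → ℝ) : Pt → ℝ := G.ch fun x => φ x - Hh 0 G.r G.R φ

theorem pr_yc (G : Gm) (φ : Pt → ℝ) (a : Cfg Pt) : pr (yc G φ) a = Yb 0 G.r G.R (cu a) φ := by
  rw [yc, Gm.ch, pr_of_fsupp _ a (chg_sup _), Yb, ip_comm]; rfl

theorem ic_of {G : Gm} (h : G.r ≤ G.R) {φ : Pt → ℝ} (hφ : ∀ x ∈ bl 0 (3 * G.r), lap φ x = 0) {n n' : ℝ}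
    (hn : Fn (nL.edI (an 0 (G.r / 2) (2 * G.r))) (fun u => Yb 0 G.r G.R u φ) n) (c : ℝ)
    (hr : 1 ≤ G.r) (hc : c ^ 2 * n ≤ n') : G.Ic (c • yc G φ) n' := by
  refine ⟨fun x hx => ?_, ((f2_of_fn hn (pr_yc G φ)).smul c).subset
    (Lat.edI_mono fun x hx => ?_) |>.mono hc⟩
  · refine mul_eq_zero_of_right c (by_contra fun h0 => hx (mem_an.2 ?_))
    have := chg_bd h (fun y hy => (lap_sub_const _ _ _).trans
      (hφ y (mem_bl_ds.2 (by push_cast; omega)))) h0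
    omega
  · exact mem_an.2 (by have := mem_an.1 hx; push_cast at *; omega)

theorem pr_te (G : Gm) (h : G.r ≤ G.R) (b : Cfg Pt) :
    pr G.te b = Hh 0 G.r G.R (Mh 0 G.R (cu b)) := by
  rw [Gm.te, Gm.eq, pr_sw ((eqm_sup (B := G.B)).mono (bl_mono 0 h)), ip_comm,
    ip_of_sup (bl_mono 0 h) _ eqm_sup, ip_comm]
  rfl

theorem y0_eq (G : Gm) (h : G.r ≤ G.R) (a b : Cfg Pt) :
    G.y0 a b = Yb 0 G.r G.R (cu a) (Mh 0 G.R (cu b)) := by
  rw [← pr_yc, Gm.y0, pr_te G h]; rfl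

theorem pr_hm (R : ℕ) (b : Cfg Pt) : pr (hm 0 R) b = Mh 0 R (cu b) 0 := by
  rw [hm, pr_sw (sup_dl (self_mem_bl _ _)), ip_dl (self_mem_bl _ _)]; rfl

theorem sup_dp {R : ℕ} (hR : 1 ≤ R) (i : Fin 2) :
    Sup (bl 0 R) ((1 / 2 : ℝ) • (dl (0 + ev i) - dl (0 - ev i))) :=
  ((sup_dl (bl_mono 0 hR (add_nn_mem_bl (ev_nn i) 0))).sub (sup_dl (bl_mono 0 hR (by
    rw [sub_eq_add_neg]; exact add_nn_mem_bl (neg_nn (ev_nn i)) 0)))).smul _

theorem pr_dp {R : ℕ} (hR : 1 ≤ R) (i : Fin 2) (b : Cfg Pt) :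
    pr (dp 0 R i) b = pc 0 (Mh 0 R (cu b)) i := by
  rw [dp, pr_sw (sup_dp hR i), ip_smul_left, ip_sub_left,
    ip_dl (bl_mono 0 hR (add_nn_mem_bl (ev_nn i) 0)), ip_dl (bl_mono 0 hR (by
      rw [sub_eq_add_neg]; exact add_nn_mem_bl (neg_nn (ev_nn i)) 0)), pc, Mh]
  ring

theorem yc_cx (G : Gm) (i : Fin 2) : yc G (cx 0 i) = G.ch (co i) := by
  simp only [yc, Hh_cx, sub_zero, cx]

theorem dq_gp (k : Fin 4 × Fin 2) : Dq 0 (gp k) := ((dq_swp 0).pow _).trans ((dq_rot 0).pow _)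

theorem sum_gp (f : Pt → ℝ) (y : Pt) : ∑ k, f (gp k y) =
    f (0 + y) + f (0 + (-y.2, y.1)) + f (0 + (-y.1, -y.2)) + f (0 + (y.2, -y.1)) +
      (f (0 + (y.2, y.1)) + f (0 + (-y.1, y.2)) + f (0 + (-y.2, -y.1)) + f (0 + (y.1, -y.2))) := by
  simp [Fintype.sum_prod_type, Fin.sum_univ_four, gp, pow_succ, rotZ, swpZ]
  ring

theorem Yb_rep {r R ρ : ℕ} (h : r ≤ R) (hρ : 1 ≤ ρ) (h1 : r ≤ 3 * ρ) {M : Pt → ℝ}
    (hM : ∀ x ∈ bl 0 (6 * ρ), lap M x = 0) {σ : Pt ≃ Pt} (hσ : Dq 0 σ) (u : Pt → ℝ) :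
    Yb 0 r R u (M ∘ σ) =
      ∑ w ∈ an 0 (3 * ρ) (6 * ρ), (M w - M 0) * Yb 0 r R u (kk 0 ρ w ∘ σ) := by
  rw [← Yb_sum, ← Yb_shift h u _ (-M 0)]
  refine Yb_congr u fun x hx => ?_
  rw [Finset.sum_apply]
  exact kk_rep hρ (φ := fun y => M y - M 0) (fun y hy => (lap_sub_const _ _ _).trans (hM y hy))
    (hσ.mem_bl.2 (bl_mono 0 h1 hx))

theorem pc_rep {ρ : ℕ} (hρ : 1 ≤ ρ) {M : Pt → ℝ} (hM : ∀ x ∈ bl 0 (6 * ρ), lap M x = 0) (i : Fin 2) :
    pc 0 M i = ∑ w ∈ an 0 (3 * ρ) (6 * ρ), (M w - M 0) * pc 0 (kk 0 ρ w) i := by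
  have h := fun x hx => kk_rep hρ (z := 0) (φ := fun y => M y - M 0) (x := x)
    (fun y hy => (lap_sub_const _ _ _).trans (hM y hy)) hx
  have h1 := h _ (bl_mono 0 (by omega) (add_nn_mem_bl (ev_nn i) 0))
  have h2 := h _ (bl_mono 0 (by omega) (add_nn_mem_bl (neg_nn (ev_nn i)) 0))
  rw [← sub_eq_add_neg] at h2
  simp only [pc, ← mul_div_assoc, ← sum_div, mul_sub, sum_sub_distrib, ← h1, ← h2]
  ring

theorem nrm {N ρ r W A C : ℝ} {j : ℕ} (hj : j ≤ 3) (N0 : 0 ≤ N) (hN : N ≤ 169 * ρ ^ 2) (hρ : 0 < ρ)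
    (r0 : 0 ≤ r) (W0 : 0 < W) (hW : W * r ≤ 17 * ρ) (A0 : 0 ≤ A) (hA : A ≤ 5000) (C0 : 0 ≤ C) :
    N ^ 2 * (4 * 10 ^ 6 * (A * r ^ j * (C / ρ ^ (j + 2)))) ^ 2 ≤ (10 ^ 17 * C) ^ 2 / W ^ (2 * j) := by
  rw [← mul_pow, mul_comm 2 j, pow_mul, ← div_pow]
  refine pow_le_pow_left₀ (by positivity) ?_ 2
  rw [le_div_iff₀ (by positivity)]
  have h1 : (W * r / ρ) ^ j ≤ 17 ^ 3 :=
    (pow_le_pow_left₀ (by positivity) ((div_le_iff₀ hρ).2 hW) j).trans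
      (pow_le_pow_right₀ (by norm_num) hj)
  calc _ = 4 * 10 ^ 6 * (N / ρ ^ 2) * A * (W * r / ρ) ^ j * C := by
        rw [div_pow, mul_pow, pow_add]; field_simp
    _ ≤ 4 * 10 ^ 6 * 169 * 5000 * 17 ^ 3 * C := by
        gcongr; exact (div_le_iff₀ (by positivity)).2 hN
    _ ≤ _ := by gcongr; norm_num

end Crest.Agent.T145.Pot.K85

namespace Crest.Agent.T145.Kr

open Finset Pot Pot.K85 Pot.H59

theorem k3Stmt : K3Stmt := by
  obtain ⟨C₁, c1, h₁⟩ := difs_kk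
  obtain ⟨C₂, c2, h₂⟩ := fn_out
  refine ⟨(10 ^ 17 * C₁) ^ 2 + C₂ ^ 2 + 10 ^ 12, by positivity, fun G W hG => ?_⟩
  set C := (10 ^ 17 * C₁) ^ 2 + C₂ ^ 2 + 10 ^ 12 with hC
  have hr := hG.hr
  have W0 : 0 < W := by linarith [hG.hW]
  have hR : 1024 * G.r ≤ G.R := by
    have : (1024 * G.r : ℝ) ≤ G.R := (mul_le_mul_of_nonneg_right hG.hW G.r.cast_nonneg).trans hG.lo
    exact_mod_cast this
  have h : G.r ≤ G.R := by omega
  have a1 : (10 ^ 17 * C₁) ^ 2 ≤ C := by rw [hC]; linarith [sq_nonneg C₂]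
  have a2 : C₂ ^ 2 ≤ C := by rw [hC]; linarith [sq_nonneg (10 ^ 17 * C₁)]
  have a3 : 10 ^ 12 ≤ C := by rw [hC]; linarith [sq_nonneg C₂, sq_nonneg (10 ^ 17 * C₁)]
  obtain ⟨o1, o2, o3, o4⟩ := h₂ 0 G.R (by omega)
  refine ⟨?_, fun i => ⟨?_, sup_sw (sup_dp (by omega) i), (f2_of_fn (o2 i) (pr_dp (by omega) i)).mono ?_⟩,
    ⟨(sup_sw ((eqm_sup (B := G.B)).mono (bl_mono 0 h))).sub (sup_sw (sup_dl (self_mem_bl _ _))),
      (f2_of_fn (o3 G.r (by omega)) fun s => by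
        rw [pr_sub, AddMonoidHom.sub_apply, pr_te G h, pr_hm]).mono ?_⟩,
    (f2_of_fn o4 fun s => ?_).mono a2⟩
  · obtain ⟨ρ, hρ⟩ : ∃ ρ, ρ = G.R / 16 := ⟨_, rfl⟩
    set S := an 0 (3 * ρ) (6 * ρ) with hS
    have S0 : S.Nonempty := ⟨(6 * ρ, 0), mem_an.2 (by simp [ds]; omega)⟩
    have S1 : (0 : ℝ) < S.card := by exact_mod_cast S0.card_pos
    have p1 : (1 : ℝ) ≤ ρ := by exact_mod_cast (by omega : 1 ≤ ρ)
    have S2 : (S.card : ℝ) ≤ 169 * (ρ : ℝ) ^ 2 := by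
      have : (S.card : ℝ) ≤ (bl 0 (6 * ρ)).card := by exact_mod_cast card_le_card sdiff_subset
      rw [card_bl] at this; push_cast at this; nlinarith
    have hW : W * G.r ≤ 17 * ρ := hG.lo.trans (by exact_mod_cast (by omega : G.R ≤ 17 * ρ))
    have hk : ∀ w ∈ S, ∀ x ∈ bl 0 (3 * G.r), lap (kk 0 ρ w) x = 0 := fun w hw x hx =>
      harm_kk hw x (by have := mem_bl_ds.1 hx; omega)
    have ic : ∀ {φ : Pt → ℝ} {c A : ℝ} {j : ℕ}, j ≤ 3 → 0 ≤ A → A ≤ 5000 →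
        (∀ x ∈ bl 0 (3 * G.r), lap φ x = 0) →
        (∀ x ∈ bl 0 (4 * G.r), |φ x - c| ≤ A * (G.r : ℝ) ^ j * (C₁ / (ρ : ℝ) ^ (j + 2))) →
        G.Ic ((S.card : ℝ) • yc G φ) (C / W ^ (2 * j)) := fun {φ c A j} hj A0 hA hφ hb =>
      ic_of h hφ (fn_Yb' (by omega) (by omega) hφ hb) _ (by omega)
        ((nrm hj S1.le S2 (by linarith) G.r.cast_nonneg W0 hW A0 hA c1).trans (by gcongr))
    refine ⟨S, fun w => sw (bl 0 G.R) (dl w - dl 0), fun w => (S.card : ℝ) • yc G (kk 0 ρ w),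
      fun w => (S.card : ℝ) • yc G (kk 0 ρ w - ∑ i, pc 0 (kk 0 ρ w) i • cx 0 i),
      fun w => (S.card : ℝ) • yc G (∑ k, (1 : ℝ) • (kk 0 ρ w ∘ gp k)), S0, fun w hw => ?_,
      fun a b => ?_⟩
    · have hw' : w ∈ bl 0 (G.R / 2) := bl_mono 0 (by omega) (mem_sdiff.1 hw).1
      have hw2 : w ∈ bl 0 G.R := bl_mono 0 (by omega) hw'
      have d := fun x (hx : x ∈ bl 0 (4 * G.r + 2)) =>
        h₁ 0 ρ (by omega) w hw x (bl_mono 0 (by omega) hx)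
      refine ⟨⟨sup_sw ((sup_dl hw2).sub (sup_dl (self_mem_bl _ _))), (f2_of_fn (o1 w hw') fun s => by
          rw [pr_sw ((sup_dl hw2).sub (sup_dl (self_mem_bl _ _))), ip_sub_left, ip_dl hw2,
            ip_dl (self_mem_bl _ _)]; rfl).mono a2⟩,
        ic (j := 1) (c := kk 0 ρ w 0) (A := 8) (by omega) (by norm_num) (by norm_num) (hk w hw)
          fun x hx => ?_,
        ic (j := 2) (c := kk 0 ρ w 0) (A := 80) (by omega) (by norm_num) (by norm_num)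
          (fun x hx => ?_) fun x hx => ?_,
        ic (j := 3) (c := 8 * kk 0 ρ w 0) (A := 4608) (by omega) (by norm_num) (by norm_num)
          (fun x hx => ?_) fun x hx => ?_⟩
      · exact (osc_bl (fun y hy e he => (d y (bl_mono 0 (by omega) hy) e he).1) hx).trans_eq
          (by push_cast; ring)
      · rw [lap, lapJ_sub, Pi.sub_apply, ← lap, ← lap, hk w hw x hx, Fin.sum_univ_two, lap, lapJ_add,
          lapJ_smul, lapJ_smul, Pi.add_apply, Pi.smul_apply, Pi.smul_apply, ← lap, ← lap, lap_cx, lap_cx]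
        simp
      · have := tay_pc (fun y hy e he e' he' => ((d y (bl_mono 0 (by omega) hy) e' he').2 e he).1) hx
        simp only [Pi.sub_apply, Finset.sum_apply, Pi.smul_apply, smul_eq_mul]
        exact this.trans_eq (by push_cast; ring)
      · refine (congrFun (congrArg lap (funext fun y => Finset.sum_apply y _ _)) x).trans
          ((lap_sum univ (fun _ => 1) _ x).trans (sum_eq_zero fun k _ => ?_))
        rw [(dq_gp k).lap, hk w hw _ ((dq_gp k).mem_bl.2 hx), mul_zero]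
      · have d3 := fun y hy e he e' he' e'' he'' => ((d y hy e'' he'').2 e' he').2 e he
        have t1 := tay_rot (by omega) (hk w hw 0 (self_mem_bl _ _)) d3 hx
        have t2 := tay_rot (by omega) (hk w hw 0 (self_mem_bl _ _)) d3 (y := (x.2, x.1))
          (by simpa [mem_bl_abs, and_comm] using hx)
        simp only [Finset.sum_apply, one_smul, Function.comp_apply, sum_gp]
        push_cast at t1 t2
        rw [abs_le] at *
        constructor <;> linarith [t1.1, t1.2, t2.1, t2.2]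
    · have hM : ∀ x ∈ bl 0 (6 * ρ), lap (Mh 0 G.R (cu b)) x = 0 := fun x hx =>
        lap_Mh _ (bl_mono 0 (by omega) hx)
      have key : ∀ φ : Pt → Pt → ℝ, (∑ w ∈ S, pr ((S.card : ℝ) • yc G (φ w)) a *
          pr (sw (bl 0 G.R) (dl w - dl 0)) b) / S.card =
          ∑ w ∈ S, (Mh 0 G.R (cu b) w - Mh 0 G.R (cu b) 0) * Yb 0 G.r G.R (cu a) (φ w) := fun φ => by
        rw [sum_div]
        refine sum_congr rfl fun w hw => ?_
        have hw2 : w ∈ bl 0 G.R := bl_mono 0 (by omega) (mem_sdiff.1 hw).1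
        rw [pr_sw ((sup_dl hw2).sub (sup_dl (self_mem_bl _ _))), ip_sub_left, ip_dl hw2,
          ip_dl (self_mem_bl _ _), pr_smul, AddMonoidHom.smul_apply, pr_yc, smul_eq_mul, Mh]
        field_simp
      have r1 := Yb_rep h (by omega) (by omega) hM (Dq.one 0) (cu a)
      rw [key, key, key, y0_eq G h]
      refine ⟨r1, ?_, ?_⟩
      · simp only [← yc_cx, pr_yc, Gm.di, pr_dp (by omega : 1 ≤ G.R), pc_rep (by omega) hM, Yb_sub,
          Yb_sum, mul_sub _ (Yb _ _ _ _ _), sum_sub_distrib, mul_sum]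
        rw [sum_comm]
        exact congrArg₂ _ r1 (sum_congr rfl fun _ _ => sum_congr rfl fun _ _ => by ring)
      · simp only [Yb_sum, one_mul, mul_sum]
        rw [sum_comm]
        refine sum_congr rfl fun k _ => ?_
        rw [y0_eq G h, ← Yb_rep h (by omega) (by omega) hM (dq_gp k), ← (dq_gp k).Yb']
        rfl
  · have := ic_of h (φ := cx 0 i) (fun x _ => lap_cx i x) (fn_Yb (by omega) (by omega) (fun x _ => lap_cx i x)
      fun x _ e he => dif_cx i he x) 1 (by omega) (n' := C * (G.r : ℝ) ^ 2)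
      (by nlinarith [mul_le_mul_of_nonneg_right a3 (sq_nonneg (G.r : ℝ))])
    rwa [one_smul, yc_cx] at this
  · rw [div_pow]; gcongr
  · have r0 : (64 : ℝ) ≤ G.r := by exact_mod_cast hr
    have R0 : (0 : ℝ) < G.R := lt_of_lt_of_le (by positivity) hG.lo
    refine le_trans ?_ (div_le_div_of_nonneg_right a2 (sq_nonneg W))
    rw [← div_pow]
    refine pow_le_pow_left₀ (by positivity) ?_ 2
    rw [div_le_div_iff₀ R0 W0]
    nlinarith [mul_le_mul_of_nonneg_left hG.lo c2]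
  · rw [pr_sub, AddMonoidHom.sub_apply, pr_hm,
      pr_of_fsupp (Kw56.unC _) s (U := Nc.an 0 G.R (2 * G.R)) fun x hx => if_neg hx]
    exact congrArg _ ((Kw56.ip_unC Subset.rfl (cu s)).trans (Kw56.avL_apply _ _))

end Crest.Agent.T145.Kr
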