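import Crest.Agent.T145.KvV_85
import Crest.Agent.T145.KrK3_85

/-!
# Row 145: K3 for the slit condenser, the part that does not depend on the definitions of Kv (helper85)
-/

set_option autoImplicit false

namespace Crest.Agent.T145.Pot.V85

open Finset H59 Kw56 K85

/-- filling a hole with a constant -/
theorem fill0 (z : Pt) {p R : ℕ} (hp : 4 ≤ p) (hR : p ≤ R + 1) (u : Pt → ℝ) : ∃ c, ∃ v : Pt → ℝ,
    (∀ x, (p : ℤ) ≤ ds z x → v x = u x) ∧ (∀ x, ds z x ≤ (p / 2 : ℕ) → v x = c) ∧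
      eD nL (bl z R) v v ≤ 200000 * eN nL (an z (p / 2) (R + 1)) u u := by
  have p4 : (4 : ℝ) ≤ p := by exact_mod_cast hp
  have a0 : 2 * (p / 2) ≤ p := by omega
  generalize p / 2 = q at *
  have a1 : 2 * (q : ℝ) ≤ p := by exact_mod_cast a0
  have b1 : (q : ℝ) + 1 < p := by linarith
  obtain ⟨c, hc⟩ := cut_gen (ed := nL.edT (bl z R)) (fun e he => (Lat.mem_edT.1 he).1)
    (S := an z q (R + 1)) (z := z) (a := q) (b := p) (by omega) (κ := 5) (L := 4 / p)
    (by linarith) (fun x hx => by rw [K85.mem_an] at *; omega)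
    (ζ := fun x => 1 - rmp z (q + 1) p x)
    (fun x => abs_le.2 ⟨by linarith [(rmp_mem z (q + 1) p x).2],
      by linarith [(rmp_mem z (q + 1) p x).1]⟩)
    (fun e he hne => by
      rw [Lat.mem_edT, mem_bl_ds, mem_bl_ds] at he
      have h1 := abs_le.1 (edge_ds z he.1).2
      have h2 : (q : ℤ) + 1 < ds z e.1 := by
        by_contra h
        exact hne (by rw [rmp_one b1 (by exact_mod_cast not_lt.1 h), sub_self])
      rw [K85.mem_an, K85.mem_an]; push_cast at *; omega)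
    (fun e he hne => by
      rw [Lat.mem_edT] at he
      have h1 := rmp_ne b1 (edge_ds z he.1).1 fun h => hne (by rw [h])
      refine ⟨mem_ring.2 ⟨by simpa using h1.2.1, ?_⟩, ?_⟩
      · have : ds z e.2 < p + 1 := by exact_mod_cast h1.2.2
        exact_mod_cast (by omega : ds z e.2 ≤ p)
      · rw [sub_sub_sub_cancel_left, abs_sub_comm]
        refine (rmp_lip z b1 (edge_ds z he.1).1).trans ?_
        rw [div_le_div_iff₀ (by linarith) (by linarith)]; push_cast; linarith) u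
  refine ⟨c, fun x => (1 - rmp z (q + 1) p x) * (u x - c) + c, fun x hx => ?_, fun x hx => ?_,
    le_trans (le_of_eq ?_) (hc.trans (mul_le_mul_of_nonneg_right ?_ (Po44.eN_nonneg _ _ _)))⟩
  · simp only [rmp_zero b1 (show (p : ℝ) ≤ ds z x by exact_mod_cast hx), sub_zero, one_mul, sub_add_cancel]
  · simp only [rmp_one b1 (show (ds z x : ℝ) ≤ q + 1 by exact_mod_cast hx.trans (by omega)), sub_self,
      zero_mul, zero_add]
  · simp only [eD, edF_self, add_sub_add_right_eq_sub]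
  · have : (2 * p + 1 : ℝ) * (4 / p) ≤ 9 := by
      rw [← mul_div_assoc, div_le_iff₀ (by linarith)]; linarith
    have := pow_le_pow_left₀ (by positivity) this 2
    linarith

theorem edF_eq {V : Type*} [DecidableEq V] {E E' : Finset (V × V)} {u v : V → ℝ}
    (h : ∀ e : V × V, u e.2 ≠ u e.1 → v e.2 ≠ v e.1 → (e ∈ E ↔ e ∈ E')) : edF E u v = edF E' u v := by
  have k : ∀ e : V × V, (u e.2 - u e.1) * (v e.2 - v e.1) ≠ 0 → (e ∈ E ↔ e ∈ E') := fun e he =>
    h e (sub_ne_zero.1 (left_ne_zero_of_mul he)) (sub_ne_zero.1 (right_ne_zero_of_mul he))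
  rw [edF_apply, edF_apply, ← sum_filter_ne_zero E, ← sum_filter_ne_zero E']
  exact sum_congr (by ext e; simp only [mem_filter]; exact and_congr_left (k e)) fun _ _ => rfl

/-- the pairing with an inner function of a function that is constant on the inner rim, harmonic around it and
carries no flux -/
theorem pair {E : Finset (Pt × Pt)} {c r R : ℕ} (hc : c < r) (hr' : r < R)
    (h1 : nL.edT (an 0 r R) ⊆ E) (h2 : ∀ e ∈ E, e.2 - e.1 ∈ nL.Jp ∧ (e.1 ∉ bl 0 r ∨ e.2 ∉ bl 0 r))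
    {Ψ : Pt → ℝ} {t : ℝ} (h3 : ∀ x ∈ an 0 c r, Ψ x = t) (h4 : ∀ x ∈ an 0 r R, edF E Ψ (dl x) = 0)
    (h5 : edF E Ψ (on (an 0 c r) 1) = 0) (u : Pt → ℝ) :
    -edF E Ψ (on (an 0 c r) u) = Yb 0 r R u (Mh 0 R Ψ) := by
  have hr := hr'.le
  set ψ : Pt → ℝ := fun x => if x ∈ bl 0 r then 0 else Ψ x - t with hψ
  have z0 : ∀ x ∈ bl 0 r, ψ x = 0 := fun x hx => if_pos hx
  have key : ∀ v, Sup (bl 0 R) v → edF E Ψ v = -∑ x ∈ bl 0 R, lap ψ x * v x := fun v hv => by
    have e1 : ∀ x, (c : ℤ) < ds 0 x → Ψ x - t = ψ x := fun x hx => by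
      simp only [hψ]
      split_ifs with h
      · rw [h3 x (K85.mem_an.2 ⟨hx, mem_bl_ds.1 h⟩), sub_self]
      · rfl
    rw [← edF_sub_const E t, edF_congr (u' := ψ) fun e he => by
      have a1 := abs_le.1 (edge_ds 0 (h2 e he).1).2
      have a2 := (h2 e he).2
      rw [mem_bl_ds, mem_bl_ds] at a2
      exact ⟨e1 _ (by omega), e1 _ (by omega)⟩, edF_eq (E' := nL.edT (bl 0 R)) fun e a1 a2 => ?_,
      ← eD, ← ip_op _ _ _ hv, ip, ← sum_neg_distrib]
    · exact sum_congr rfl fun x hx => by rw [op_eD nL_ok hx, neg_mul]; rfl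
    · have a3 : e.1 ∈ bl 0 R ∨ e.2 ∈ bl 0 R := by
        by_contra h
        rw [not_or] at h
        exact a2 (by rw [hv _ h.1, hv _ h.2])
      have a4 : e.1 ∉ bl 0 r ∨ e.2 ∉ bl 0 r := by
        by_contra h
        rw [not_or, not_not, not_not] at h
        exact a1 (by rw [z0 _ h.1, z0 _ h.2])
      refine ⟨fun he => Lat.mem_edT.2 ⟨(h2 e he).1, a3⟩, fun he => ?_⟩
      have a5 := (Lat.mem_edT.1 he).1
      have a6 := abs_le.1 (edge_ds 0 a5).2
      refine h1 (Lat.mem_edT.2 ⟨a5, ?_⟩)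
      rw [mem_bl_ds, mem_bl_ds] at a3 a4
      rw [K85.mem_an, K85.mem_an]; omega
  have l1 : ∀ x ∈ an 0 r R, lap ψ x = 0 := fun x hx => by
    have := key _ (sup_dl (mem_sdiff.1 hx).1)
    rw [h4 x hx, ← ip, ip_dl' (mem_sdiff.1 hx).1] at this
    linarith
  have l2 : ∀ v : Pt → ℝ, -edF E Ψ (on (an 0 c r) v) = ∑ x ∈ bl 0 r, v x * lap ψ x := fun v => by
    have a1 : an 0 c r ⊆ bl 0 r := sdiff_subset
    rw [key _ ((sup_on _ v).mono (a1.trans (bl_mono 0 hr))), neg_neg, ← ip,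
      ip_of_sup (a1.trans (bl_mono 0 hr)) _ (sup_on _ v), ip_comm, ip_on, ip_comm, ip]
    refine (sum_subset a1 fun x hx hx' => ?_).trans (sum_congr rfl fun _ _ => mul_comm _ _)
    rw [K85.mem_an, not_and_or, ← mem_bl_ds] at hx'
    rw [lap_congr (v := fun _ => 0) fun y hy => z0 y (mem_bl_ds.2 (by
      have := abs_le.1 (ds_lip 0 hy)
      have := hx'.resolve_right (not_not.2 hx)
      push_cast at *; omega)), show lap (fun _ => (0 : ℝ)) x = 0 from lapJ_const _ 0 x, zero_mul]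
  have l3 := l2 1
  rw [h5, neg_zero] at l3
  rw [l2, ind_eq hr z0 l1 (by simpa using l3.symm), Mh_congr (v := fun x => Ψ x + -t) fun x hx => by
    simp only [hψ, if_neg fun h => hx (bl_mono 0 hr h), sub_eq_add_neg], Mh_shift, Yb_shift hr]

/-- second order expansion of the bilinear form -/
theorem inner : ∃ C : ℝ, 0 ≤ C ∧ ∀ r R : ℕ, 4 ≤ r → 128 * r ≤ R → ∃ (S : Finset Pt) (Y : Pt → Pt → ℝ),
    S.Nonempty ∧ S ⊆ bl 0 (R / 2) ∧
    (∀ w ∈ S, (∀ x ∈ bl 0 (3 * r), lap (Y w) x = 0) ∧ Fn (nL.edI (an 0 (r / 2) (2 * r)))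
      (fun u => S.card * Yb 0 r R u (Y w)) (C * ((r : ℝ) / R) ^ 4)) ∧
    ∀ M : Pt → ℝ, (∀ x ∈ bl 0 R, lap M x = 0) → ∀ u, Yb 0 r R u M =
      ∑ i, Yb 0 r R u (cx 0 i) * pc 0 M i + ∑ w ∈ S, Yb 0 r R u (Y w) * (M w - M 0) := by
  obtain ⟨C₁, c1, h₁⟩ := difs_kk
  refine ⟨(10 ^ 17 * C₁) ^ 2, by positivity, fun r R hr hR => ?_⟩
  obtain ⟨ρ, hρ⟩ : ∃ ρ, ρ = R / 16 := ⟨_, rfl⟩
  set S := an 0 (3 * ρ) (6 * ρ) with hS
  have S0 : S.Nonempty := ⟨(6 * ρ, 0), K85.mem_an.2 (by simp [ds]; omega)⟩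
  have p1 : (1 : ℝ) ≤ ρ := by exact_mod_cast (by omega : 1 ≤ ρ)
  have r1 : (4 : ℝ) ≤ r := by exact_mod_cast hr
  have R1 : (128 * r : ℝ) ≤ R := by exact_mod_cast hR
  have S2 : (S.card : ℝ) ≤ 169 * (ρ : ℝ) ^ 2 := by
    have : (S.card : ℝ) ≤ (bl 0 (6 * ρ)).card := by exact_mod_cast card_le_card sdiff_subset
    rw [card_bl] at this; push_cast at this; nlinarith
  have hW : (R : ℝ) / r * r ≤ 17 * ρ := by
    rw [div_mul_cancel₀ _ (by linarith)]; exact_mod_cast (by omega : R ≤ 17 * ρ)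
  refine ⟨S, fun w => kk 0 ρ w - ∑ i, pc 0 (kk 0 ρ w) i • cx 0 i, S0,
    fun w hw => bl_mono 0 (by omega) (mem_sdiff.1 hw).1, fun w hw => ?_, fun M hM u => ?_⟩
  · have hk : ∀ x ∈ bl 0 (3 * r), lap (kk 0 ρ w - ∑ i, pc 0 (kk 0 ρ w) i • cx 0 i) x = 0 := fun x hx => by
      rw [lap, lapJ_sub, Pi.sub_apply, ← lap, ← lap, harm_kk hw x (by have := mem_bl_ds.1 hx; omega),
        Fin.sum_univ_two, lap, lapJ_add, lapJ_smul, lapJ_smul, Pi.add_apply, Pi.smul_apply, Pi.smul_apply,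
        ← lap, ← lap, lap_cx, lap_cx]
      simp
    refine ⟨hk, ((fn_Yb' hr (by omega) hk (c := kk 0 ρ w 0)
      (K := 80 * (r : ℝ) ^ 2 * (C₁ / (ρ : ℝ) ^ (2 + 2))) fun x hx => ?_).smul _).mono ?_⟩
    · have := tay_pc (fun y hy e he e' he' =>
        ((h₁ 0 ρ (by omega) w hw y (bl_mono 0 (by omega) hy) e' he').2 e he).1) hx
      simp only [Pi.sub_apply, Finset.sum_apply, Pi.smul_apply, smul_eq_mul]
      exact this.trans_eq (by push_cast; ring)
    · refine (nrm (j := 2) (by omega) S.card.cast_nonneg S2 (by linarith) r.cast_nonneg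
        (div_pos (by linarith) (by linarith)) hW (by norm_num) (by norm_num) c1).trans_eq ?_
      rw [div_eq_mul_inv, ← inv_pow, inv_div]
  · have hM' : ∀ x ∈ bl 0 (6 * ρ), lap M x = 0 := fun x hx => hM x (bl_mono 0 (by omega) hx)
    have r1 := Yb_rep (r := r) (R := R) (by omega) (by omega) (by omega) hM' (Dq.one 0) u
    simp only [pc_rep (by omega) hM', Yb_sub, Yb_sum, sub_mul (Yb _ _ _ _ _), sum_sub_distrib, mul_sum,
      sum_mul]
    rw [sum_comm, add_sub_left_comm, sub_eq_zero.2 (sum_congr rfl fun _ _ => sum_congr rfl fun _ _ => by ring),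
      add_zero]
    exact r1.trans (sum_congr rfl fun _ _ => mul_comm _ _)

end Crest.Agent.T145.Pot.V85
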