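import Crest.Agent.T145.KvDef_8
import Crest.Agent.T145.KvI_85

/-!
# Row 145: `Kv.K3Stmt` (helper85)
-/

set_option autoImplicit false

namespace Crest.Agent.T145.Kv.K85

open Finset Pot Pot.K85 Pot.V85 Pot.H59
open Kr (cu)
open Vd (ray)

variable {V : Gv}

theorem cu_single (x : Pt) : cu (Finsupp.single x 1) = dl x := by
  funext y; simp only [cu, dl, Finsupp.single_apply, Pi.single_apply, eq_comm]; split_ifs <;> simp

theorem dl_ne {x y : Pt} (h : y ≠ x) : dl x y = 0 := Pi.single_eq_of_ne h _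

theorem lift (hD : DualStmt) {ed : Finset (Pt × Pt)} (hed : ed ⊆ V.EO) {ℓ : (Pt → ℝ) → ℝ} {n : ℝ}
    (h : Fn ed ℓ n) : ∃ (f : Pt → ℝ) (c₁ c₂ : ℝ), V.Fx V.EO f n ∧
      f = (fun x => ℓ (dl x)) + c₁ • dl V.k1 + c₂ • dl V.k2 ∧
      (∀ s, pr f s = ℓ (cu s) + c₁ * s V.k1 + c₂ * s V.k2) ∧
      ((∀ e ∈ ed, V.s1 e = 0) → c₁ = 0) ∧ ((∀ e ∈ ed, V.s2 e = 0) → c₂ = 0) := by
  obtain ⟨g, h1, h2⟩ := h.f2
  obtain ⟨c₁, c₂, h3, h4⟩ := (hD V ed n).2.1 g h1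
  refine ⟨_, c₁, c₂, ((hD V ed n).2.2 _ h3).1 _ hed, ?_, fun s => ?_, h4⟩
  · congr 2; funext x; rw [← cu_single]; exact (by simp : g x = _).trans (h2 (Finsupp.single x 1)).symm
  · simp only [pr_add, pr_smul, AddMonoidHom.add_apply, AddMonoidHom.smul_apply, smul_eq_mul, dl,
      pr_pi_single, one_mul, ← h2]
    rfl

theorem liftI (hD : DualStmt) {ed : Finset (Pt × Pt)} (hed : ed ⊆ V.EO) (h2 : ∀ e ∈ ed, V.s2 e = 0)
    {ℓ : (Pt → ℝ) → ℝ} {n : ℝ} (h : Fn ed ℓ n) (h0 : ∀ x, x ∉ V.G.In → ℓ (dl x) = 0) :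
    ∃ (f : Pt → ℝ) (c : ℝ), V.Ic f n ∧ ∀ s, pr f s = ℓ (cu s) + c * s V.k1 := by
  obtain ⟨f, c₁, c₂, a1, a2, a3, -, a4⟩ := lift hD hed h
  refine ⟨f, c₁, ⟨fun x hx => ?_, a1⟩, fun s => by rw [a3, a4 h2, zero_mul, add_zero]⟩
  rw [Gv.In, mem_insert, not_or] at hx
  simp [a2, a4 h2, h0 x hx.2, Pi.single_eq_of_ne hx.1]

theorem liftO (hD : DualStmt) {ed : Finset (Pt × Pt)} (hed : ed ⊆ V.EO) (h2 : ∀ e ∈ ed, V.s1 e = 0)
    {ℓ : (Pt → ℝ) → ℝ} {n : ℝ} (h : Fn ed ℓ n) (h0 : ∀ x, x ∉ V.G.Ou → ℓ (dl x) = 0) :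
    ∃ (f : Pt → ℝ) (c : ℝ), V.Oc f n ∧ ∀ s, pr f s = ℓ (cu s) + c * s V.k2 := by
  obtain ⟨f, c₁, c₂, a1, a2, a3, a4, -⟩ := lift hD hed h
  refine ⟨f, c₂, ⟨fun x hx => ?_, a1⟩, fun s => by rw [a3, a4 h2, zero_mul, add_zero]⟩
  rw [Gv.Ou, mem_insert, not_or] at hx
  simp [a2, a4 h2, h0 x hx.2, Pi.single_eq_of_ne hx.1]

theorem hm_hx {A : Finset Pt} {B : Bf Pt} (h : Co A B) {u : Pt → ℝ} (hu : Hm A B u) (w : Pt → ℝ) :
    B u (hx A B w) = B u w := by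
  rw [hx, map_sub, hu _ (h.gr_sup _), sub_zero]

theorem on_insert {K : Finset Pt} {k : Pt} (hk : k ∉ K) (u : Pt → ℝ) :
    on (insert k K) u = on K u + u k • dl k := by
  funext x
  by_cases h : x = k
  · simp [on, h, hk]
  · simp [on, h]

theorem pr_op (K : Finset Pt) (B : Bf Pt) (c : ℝ) (u : Pt → ℝ) (s : Cfg Pt) :
    pr (c • on K (op B u)) s = c * B u (on K (cu s)) := by
  rw [pr_smul, AddMonoidHom.smul_apply, pr_of_fsupp _ s (sup_on K _), ← ip_op K B u (sup_on K _)]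
  exact congrArg _ (sum_congr rfl fun x hx => by rw [on_of_mem hx, on_of_mem hx]; rfl)

/-- the extension of `w` without flux -/
noncomputable def ps (V : Gv) (w : Pt → ℝ) : Pt → ℝ := hx V.G.A V.B w - (V.cp⁻¹ * V.B V.om w) • V.om

theorem ps_add (a : V.Alg) (w w' : Pt → ℝ) : ps V (w + w') = ps V w + ps V w' := by
  simp only [ps, a.coA.hx_add, map_add, mul_add, add_smul]; abel
theorem ps_smul (a : V.Alg) (c : ℝ) (w : Pt → ℝ) : ps V (c • w) = c • ps V w := by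
  simp only [ps, a.coA.hx_smul, map_smul, smul_sub, smul_smul, smul_eq_mul, mul_left_comm c]
theorem ps_hm (a : V.Alg) (w : Pt → ℝ) : Hm V.G.A V.B (ps V w) := fun v hv => by
  simp [ps, a.coA.hx_hm w v hv, a.om_hm v hv]
theorem ps_off (a : V.Alg) (w : Pt → ℝ) {x : Pt} (hx : x ∉ V.G.A) :
    ps V w x = w x - V.cp⁻¹ * V.B V.om w * on V.G.In 1 x := by
  rw [ps, Pi.sub_apply, Pi.smul_apply, a.coA.hx_off _ hx, smul_eq_mul]
  exact congrArg (fun t => w x - _ * t) (a.coA.hx_off _ hx)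
theorem ps_flux (a : V.Alg) (w : Pt → ℝ) : V.B (ps V w) (on V.G.In 1) = 0 := by
  rw [← hm_hx a.coA (ps_hm a w), ← Gv.om, a.coA.symm, ps, map_sub, map_smul, hm_hx a.coA a.om_hm, ← Gv.cp,
    smul_eq_mul, mul_right_comm, inv_mul_cancel₀ a.cp_pos.ne', one_mul, sub_self]

theorem y0_eq (a : V.Alg) (s t : Cfg Pt) :
    V.y0 s t = -V.B (ps V (on V.Ou (cu t))) (on V.In (cu s)) := by
  have := a.cp_pos
  rw [Gv.y0, Gv.eq, Gv.te, pr_op, pr_op, a.coA.symm, Gv.ma, Gv.mI, Gv.mb, hm_hx a.coA (a.hm _).2, Gv.mO, ps,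
    map_sub, map_smul, LinearMap.sub_apply, LinearMap.smul_apply, smul_eq_mul]
  field_simp
  ring

theorem mem_an' {x : Pt} {p q : ℕ} : x ∈ Nc.an 0 p q ↔ (p : ℤ) < ds 0 x ∧ ds 0 x ≤ q := Pot.K85.mem_an

theorem ds0 (x : Pt) : ds 0 x = max (max x.1 (-x.1)) (max x.2 (-x.2)) := by
  simp only [ds, Prod.fst_zero, Prod.snd_zero, sub_zero, abs_eq_max_neg]

/-- edges left of the slit -/
theorem kp_in {ed : Finset (Pt × Pt)} {e : Pt × Pt} (he : e ∈ ed) (h : e.1.1 < (V.G.rho : ℤ) - 4 * V.ω) :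
    e ∈ V.kp ed ∧ V.s2 e = 0 := by
  have : V.s2 e = 0 := if_neg (by omega)
  exact ⟨mem_filter.2 ⟨he, by rw [this, Gv.s1, if_pos h, add_zero]⟩, this⟩

/-- edges outside the slit -/
theorem kp_out {ed : Finset (Pt × Pt)} {e : Pt × Pt} (he : e ∈ ed) (h : (V.G.rho : ℤ) + 4 * V.ω ≤ ds 0 e.2) :
    e ∈ V.kp ed ∧ V.s1 e = 0 := by
  rw [ds0] at h
  rw [Gv.kp, mem_filter]
  simp only [he, Gv.s1, Gv.s2, ray, Prod.fst_zero, Prod.snd_zero, true_and]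
  split_ifs <;> omega

end Crest.Agent.T145.Kv.K85

namespace Crest.Agent.T145.Kv

open Finset Pot Pot.K85 Pot.V85 Pot.H59 K85
open Kr (cu)

theorem k3Stmt (hG : GeoStmt) (hA : AlgStmt) (hD : DualStmt) : K3Stmt := by
  obtain ⟨C₁, c1, h₁⟩ := V85.inner
  obtain ⟨C₂, c2, h₂⟩ := fn_out
  refine ⟨10 ^ 12 * (1 + C₁ + C₂ ^ 2), 2 ^ 16, by positivity, fun V W hW hV => ?_⟩
  set C := 10 ^ 12 * (1 + C₁ + C₂ ^ 2) with hC
  have g := hG V W hV
  have a := hA V W hV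
  have W0 : 0 < W := by linarith
  obtain ⟨r, hr⟩ : ∃ r, r = V.G.r := ⟨_, rfl⟩
  obtain ⟨R, hR⟩ : ∃ R, R = V.G.rho / 4 := ⟨_, rfl⟩
  have n1 := hV.g.hc
  have n2 := hV.g.hr
  have n3 := hV.g.out
  have n4 := g.rho_le
  have n5 := g.le_rho
  have n6 := g.ω_le
  have n7 : 65536 * V.G.r ≤ V.G.R := by
    have : (65536 * V.G.r : ℝ) ≤ V.G.R :=
      (mul_le_mul_of_nonneg_right (by linarith) V.G.r.cast_nonneg).trans hV.g.lo
    exact_mod_cast this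
  have r0 : (64 : ℝ) ≤ r := by exact_mod_cast (by omega : 64 ≤ r)
  have R0 : (0 : ℝ) < R := by exact_mod_cast (by omega : 0 < R)
  have q1 : (r : ℝ) / R ≤ 257 / W := by
    rw [div_le_div_iff₀ R0 W0, mul_comm, hr]
    exact hV.g.lo.trans (by exact_mod_cast (by omega : V.G.R ≤ 257 * R))
  have q0 : 0 ≤ (r : ℝ) / R := by positivity
  have mA : ∀ {x}, x ∈ V.G.A ↔ (r : ℤ) < ds 0 x ∧ ds 0 x ≤ V.G.R := by rw [hr]; exact mem_an'
  have mI : ∀ {x}, x ∈ V.G.In ↔ (V.G.c : ℤ) < ds 0 x ∧ ds 0 x ≤ r := by rw [hr]; exact mem_an'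
  have mO : ∀ {x}, x ∈ V.G.Ou ↔ (V.G.R : ℤ) < ds 0 x ∧ ds 0 x ≤ V.G.R₂ := mem_an'
  have mm : ∀ {x}, x ∈ V.G.Om ↔ (V.G.c : ℤ) < ds 0 x ∧ ds 0 x ≤ V.G.R₂ := mem_an'
  have d1 : ds 0 V.k1 = 0 := by simp [ds0, Gv.k1]
  have d2 : ds 0 V.k2 = V.G.R₂ + 1 := by simp only [ds0, Gv.k2]; omega
  have eA : ∀ e ∈ V.EA, e.2 - e.1 ∈ nL.Jp ∧ (e.1 ∈ V.G.A ∨ e.2 ∈ V.G.A) := fun e he =>
    Lat.mem_edT.1 (mem_filter.1 he).1
  -- the extension of plain outer data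
  obtain ⟨Ψ, hΨ⟩ : ∃ Ψ : (Pt → ℝ) → Pt → ℝ, ∀ u, Ψ u = ps V (on V.G.Ou u) := ⟨_, fun _ => rfl⟩
  have p1 : ∀ u x, x ∉ V.G.Om → Ψ u x = 0 := fun u x hx => by
    rw [mm] at hx
    rw [hΨ, ps_off a _ (by rw [mA]; omega), on_of_not (by rw [mO]; omega), on_of_not (by rw [mI]; omega),
      mul_zero, sub_zero]
  have p2 : ∀ u v : Pt → ℝ, v V.k1 = 0 → v V.k2 = 0 → V.B (Ψ u) v = edF V.EA (Ψ u) v := fun u v =>
    a.plain _ _ _ (p1 u _ g.k_off.1) (p1 u _ g.k_off.2.1)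
  have p3 : ∀ u v, -V.B (Ψ u) (on V.G.In v) = Yb 0 r R v (Mh 0 R (Ψ u)) := fun u v => by
    have k : ∀ v, V.B (Ψ u) (on V.G.In v) = edF V.EA (Ψ u) (on (an 0 V.G.c r) v) := fun v => by
      rw [hr]; exact p2 u _ (on_of_not (by rw [mI]; omega)) (on_of_not (by rw [mI]; omega))
    rw [k]
    refine pair (t := -(V.cp⁻¹ * V.B V.om (on V.G.Ou u))) (by omega) (by omega) (fun e he => ?_)
      (fun e he => ⟨(eA e he).1, ?_⟩) (fun x hx => ?_) (fun x hx => ?_) ((k 1).symm.trans (hΨ u ▸ ps_flux a _)) v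
    · rw [Lat.mem_edT, Pot.K85.mem_an, Pot.K85.mem_an] at he
      have := abs_le.1 (edge_ds 0 he.1).2
      have := ds0 e.1
      exact (kp_in (Lat.mem_edT.2 ⟨he.1, by rw [mA, mA]; omega⟩) (by omega)).1
    · have := (eA e he).2
      rw [mA, mA] at this; rw [mem_bl_ds, mem_bl_ds]; omega
    · rw [Pot.K85.mem_an] at hx
      rw [hΨ, ps_off a _ (by rw [mA]; omega), on_of_not (by rw [mO]; omega), on_of_mem (mI.2 hx)]
      simp
    · rw [Pot.K85.mem_an] at hx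
      rw [← p2 u (dl x) (dl_ne fun h => by rw [← h] at hx; omega) (dl_ne fun h => by rw [← h] at hx; omega)]
      exact hΨ u ▸ ps_hm a _ _ (sup_dl (mA.2 (by omega)))
  set O := nL.edI (an 0 (V.G.R / 8) (2 * V.G.R)) with hO
  have p4 : ∀ u, edF (nL.edI (an 0 (R / 8) (2 * R))) (Ψ u) (Ψ u) ≤ 200000 * edF O u u := fun u => by
    obtain ⟨c, v, v1, v2, v3⟩ := fill0 0 (p := V.G.R / 2) (R := V.G.R) (by omega) (by omega) u
    set w := on V.G.Om v - Ψ u with hw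
    have b1 : V.B (Ψ u) w = 0 := by
      have := ps_hm a (on V.G.Ou u) (w - (c + V.cp⁻¹ * V.B V.om (on V.G.Ou u)) • on V.G.In 1) fun x hx => by
        rw [hw, hΨ, Pi.sub_apply, Pi.sub_apply, ps_off a _ hx, Pi.smul_apply, smul_eq_mul]
        rw [mA] at hx
        by_cases h : x ∈ V.G.In
        · have := mI.1 h
          rw [on_of_mem h, on_of_mem (mm.2 (by omega)), on_of_not (by rw [mO]; omega), v2 x (by omega)]
          simp
        · rw [on_of_not h]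
          rw [mI] at h
          by_cases h' : x ∈ V.G.Ou
          · have := mO.1 h'
            rw [on_of_mem h', on_of_mem (mm.2 (by omega)), v1 x (by omega)]; simp
          · rw [on_of_not h']
            rw [mO] at h'
            rw [on_of_not (by rw [mm]; omega)]; simp
      rwa [map_sub, map_smul, ps_flux a, smul_zero, sub_zero, ← hΨ] at this
    have b2 := a.coA.sq_add (Ψ u) w
    have b3 := a.coA.nonneg w
    rw [b1, hw, add_sub_cancel, ← hw, p2 u _ (p1 u _ g.k_off.1) (p1 u _ g.k_off.2.1)] at b2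
    have b4 : V.B (on V.G.Om v) (on V.G.Om v) = edF V.EA v v := by
      rw [Gv.B, a.plain _ _ _ (on_of_not g.k_off.1) (on_of_not g.k_off.2.1) (on_of_not g.k_off.1)
        (on_of_not g.k_off.2.1), edF_self, edF_self]
      refine sum_congr rfl fun e he => ?_
      have := (Lat.mem_edI.1 (mem_filter.1 (g.EA_sub he)).1).2
      rw [on_of_mem this.1, on_of_mem this.2]
    have b5 : edF V.EA v v ≤ eD nL (bl 0 V.G.R) v v :=
      edF_mono ((filter_subset _ _).trans (Lat.edT_mono sdiff_subset)) v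
    have b6 : eN nL (an 0 (V.G.R / 2 / 2) (V.G.R + 1)) u u ≤ edF O u u :=
      eN_mono (fun x hx => by rw [Pot.K85.mem_an] at *; push_cast at *; omega) u
    have b7 : edF (nL.edI (an 0 (R / 8) (2 * R))) (Ψ u) (Ψ u) ≤ edF V.EA (Ψ u) (Ψ u) :=
      edF_mono (fun e he => by
        rw [Lat.mem_edI, Pot.K85.mem_an, Pot.K85.mem_an] at he
        have := ds0 e.1
        exact (kp_in (Lat.mem_edT.2 ⟨he.1, by rw [mA, mA]; omega⟩) (by omega)).1) _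
    linarith
  have lO : ∀ {ℓ : (Pt → ℝ) → ℝ} {n n' : ℝ}, Fn (nL.edI (an 0 (R / 8) (2 * R))) ℓ n → 200000 * n ≤ n' →
      ∃ (f : Pt → ℝ) (c : ℝ), V.Oc f n' ∧ ∀ s, pr f s = ℓ (Ψ (cu s)) + c * s V.k2 := fun {ℓ n n'} h hn => by
    have k : ∀ e ∈ O, e ∈ V.EO ∧ V.s1 e = 0 := fun e he => by
      rw [hO, Lat.mem_edI, Pot.K85.mem_an, Pot.K85.mem_an] at he
      exact kp_out (Lat.mem_edI.2 ⟨he.1, by rw [mm, mm]; omega⟩) (by omega)
    obtain ⟨φ, h1, h2⟩ := id h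
    have l2 : ∀ (c : ℝ) u, ℓ (Ψ (c • u)) = c * ℓ (Ψ u) := fun c u => by
      simp only [hΨ, on_smul, ps_smul a, h1, Pi.smul_apply, smul_eq_mul, mul_sum]
      exact sum_congr rfl fun _ _ => by ring
    refine liftO hD (ℓ := fun u => ℓ (Ψ u)) (fun e he => (k e he).1) (fun e he => (k e he).2)
      (fn_of_dual (by linarith [h.nonneg]) (fun u v => ?_) l2 fun u => (h.sq_le _).trans ?_) fun x hx => ?_
    · simp only [hΨ, on_add, ps_add a, h1, Pi.add_apply, ← sum_add_distrib]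
      exact sum_congr rfl fun _ _ => by ring
    · nlinarith [mul_le_mul_of_nonneg_left (p4 u) h.nonneg,
        mul_le_mul_of_nonneg_right hn ((sy_edF O).nonneg u)]
    · have := l2 0 0
      rw [zero_mul] at this
      rw [← this, hΨ, hΨ]
      congr 2
      funext y
      by_cases hy : y ∈ V.G.Ou
      · rw [on_of_mem hy, on_of_mem hy, dl_ne fun h : y = x => hx (h ▸ hy)]; simp
      · rw [on_of_not hy, on_of_not hy]
  have lI : ∀ {φ : Pt → ℝ} {t n n' : ℝ}, (∀ x ∈ bl 0 (3 * r), lap φ x = 0) →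
      Fn (nL.edI (an 0 (r / 2) (2 * r))) (fun u => t * Yb 0 r R u φ) n → n ≤ n' →
      ∃ (f : Pt → ℝ) (c : ℝ), V.Ic f n' ∧ ∀ s, pr f s = t * Yb 0 r R (cu s) φ + c * s V.k1 :=
    fun {φ t n n'} hφ h hn => by
      have k : ∀ e ∈ nL.edI (an 0 (r / 2) (2 * r)), e ∈ V.EO ∧ V.s2 e = 0 := fun e he => by
        rw [Lat.mem_edI, Pot.K85.mem_an, Pot.K85.mem_an] at he
        have := ds0 e.1
        exact kp_in (Lat.mem_edI.2 ⟨he.1, by rw [mm, mm]; omega⟩) (by omega)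
      refine liftI hD (fun e he => (k e he).1) (fun e he => (k e he).2) (h.mono hn) fun x hx => ?_
      rw [Yb_loc (by omega) (fun y hy => hφ y (mem_bl_ds.2 (by omega))) (v := (0 : ℝ) • 0) fun y hy => by
        rw [dl_ne fun h : y = x => hx (h ▸ mI.2 (by omega))]; simp, Yb_smul_left, zero_mul, mul_zero]
  obtain ⟨S, Y, S0, S1, hY, hM⟩ := h₁ r R (by omega) (by omega)
  obtain ⟨o1, o2, -⟩ := h₂ 0 R (by omega)
  have Sp : (0 : ℝ) < S.card := by exact_mod_cast S0.card_pos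
  choose yi ci hyi using fun i => lI (t := (r : ℝ)⁻¹) (n' := C) (fun x _ => lap_cx (z := 0) i x)
    ((fn_Yb (by omega) (by omega) (fun x _ => lap_cx i x) fun x _ e he => dif_cx i he x).smul _) (by
      rw [← mul_pow, hC, show (r : ℝ)⁻¹ * (10 ^ 6 * r * 1) = 10 ^ 6 by field_simp]; nlinarith [sq_nonneg C₂])
  choose di cd hdi using fun i => lO (n' := C / W ^ 2) ((o2 i).smul r) (by
    have := mul_le_mul_of_nonneg_left (pow_le_pow_left₀ q0 q1 2) (sq_nonneg C₂)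
    rw [div_pow 257, ← mul_div_assoc, le_div_iff₀ (by positivity)] at this
    rw [le_div_iff₀ (by positivity), show (r : ℝ) ^ 2 * (C₂ / R) ^ 2 = C₂ ^ 2 * (r / R) ^ 2 by ring, hC]
    nlinarith [sq_nonneg C₂])
  choose! y₂ cy hy₂ using fun w hw => lI (n' := C / W ^ 4) (hY w hw).1 (hY w hw).2 (by
    refine (mul_le_mul_of_nonneg_left (pow_le_pow_left₀ q0 q1 4) c1).trans ?_
    rw [div_pow, ← mul_div_assoc, hC]
    exact div_le_div_of_nonneg_right (by nlinarith [sq_nonneg C₂]) (by positivity))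
  choose! al ca hal using fun w (hw : w ∈ S) => lO (n' := C) (o1 w (S1 hw)) (by
    rw [hC]; nlinarith [sq_nonneg C₂])
  refine ⟨fun s => -V.B (ps V (dl V.k2)) (on V.In (cu s)) - ∑ i, pr (yi i) s * cd i -
      (∑ w ∈ S, pr (y₂ w) s * ca w) / S.card,
    fun s => -V.B (Ψ (cu s)) (dl V.k1) - ∑ i, ci i * (r * pc 0 (Mh 0 R (Ψ (cu s))) i) -
      (∑ w ∈ S, cy w * (Mh 0 R (Ψ (cu s)) w - Mh 0 R (Ψ (cu s)) 0)) / S.card, yi, di, S, y₂, al, S0,
    fun i => ⟨(hyi i).1, (hdi i).1⟩, fun w hw => ⟨(hy₂ w hw).1, (hal w hw).1⟩, fun s t h1 h2 => ?_⟩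
  have e1 : V.y0 s t = -V.B (ps V (dl V.k2)) (on V.In (cu s)) - V.B (Ψ (cu t)) (dl V.k1) +
      Yb 0 r R (cu s) (Mh 0 R (Ψ (cu t))) := by
    rw [y0_eq a, Gv.Ou, on_insert (by rw [mO]; omega), ps_add a, ps_smul a, show cu t V.k2 = 1 by simp [cu, h2],
      one_smul, map_add, LinearMap.add_apply, ← p3, ← hΨ]
    conv_lhs => enter [1, 1]; rw [Gv.In, on_insert (by rw [mI]; omega), show cu s V.k1 = 1 by simp [cu, h1],
      one_smul, map_add]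
    ring
  have e2 : ∑ w ∈ S, pr (y₂ w) s * pr (al w) t = S.card * ∑ w ∈ S, Yb 0 r R (cu s) (Y w) *
      (Mh 0 R (Ψ (cu t)) w - Mh 0 R (Ψ (cu t)) 0) + ∑ w ∈ S, pr (y₂ w) s * ca w +
      ∑ w ∈ S, cy w * (Mh 0 R (Ψ (cu t)) w - Mh 0 R (Ψ (cu t)) 0) := by
    rw [mul_sum, ← sum_add_distrib, ← sum_add_distrib]
    exact sum_congr rfl fun w hw => by rw [(hy₂ w hw).2, (hal w hw).2, h1, h2]; push_cast; ring
  rw [e1, e2, hM _ fun x hx => lap_Mh _ hx]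
  simp only [Fin.sum_univ_two, (hyi _).2, (hdi _).2, h1, h2]
  push_cast
  field_simp
  ring

end Crest.Agent.T145.Kv
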