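import Crest.Agent.T145.PotD_17
import Crest.Agent.T145.PotPo_44

/-!
# Row 145 (helper44): Poincaré inequalities on rectangles and annuli (`AnnStmt`)
-/

set_option autoImplicit false

namespace Crest.Agent.T145.Pot

open Finset Po44

namespace An44

/-- the rectangle `a + [0, p) × [0, q)` -/
noncomputable def rec (a : Pt) (p q : ℕ) : Finset Pt := Ico a.1 (a.1 + p) ×ˢ Ico a.2 (a.2 + q)

theorem mem_rec {a x : Pt} {p q : ℕ} :
    x ∈ rec a p q ↔ (a.1 ≤ x.1 ∧ x.1 < a.1 + p) ∧ a.2 ≤ x.2 ∧ x.2 < a.2 + q := by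
  simp only [rec, mem_product, mem_Ico]

theorem card_rec (a : Pt) (p q : ℕ) : (rec a p q).card = p * q := by simp [rec]

theorem eN_rec (a : Pt) (p q : ℕ) (u : Pt → ℝ) : eN nL (rec a p q) u u =
    ∑ j ∈ Ico a.2 (a.2 + q), rw' a p u j + ∑ i ∈ Ico a.1 (a.1 + p), cl' a q u i := by
  have h1 : (rec a p q).filter (fun x => x + (1, 0) ∈ rec a p q) =
      Ico a.1 (a.1 + p - 1) ×ˢ Ico a.2 (a.2 + q) := by
    ext x; simp only [mem_filter, mem_rec, mem_product, mem_Ico, Prod.fst_add, Prod.snd_add]; omega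
  have h2 : (rec a p q).filter (fun x => x + (0, 1) ∈ rec a p q) =
      Ico a.1 (a.1 + p) ×ˢ Ico a.2 (a.2 + q - 1) := by
    ext x; simp only [mem_filter, mem_rec, mem_product, mem_Ico, Prod.fst_add, Prod.snd_add]; omega
  rw [eN_apply, nL_Jp, sum_pair (by decide), h1, h2, sum_product_right, sum_product]
  simp only [rw', cl', dif, Prod.mk_add_mk, add_zero, pow_two]

/-- the mean minimises -/
theorem var_le (S : Finset Pt) (u : Pt → ℝ) (c : ℝ) :
    ∑ x ∈ S, (u x - av S u) ^ 2 ≤ ∑ x ∈ S, (u x - c) ^ 2 := by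
  rcases S.eq_empty_or_nonempty with rfl | hS
  · simp
  have h0 : (0 : ℝ) < S.card := by exact_mod_cast hS.card_pos
  have h1 : ∑ x ∈ S, (u x - av S u) = 0 := by
    rw [sum_sub_distrib, sum_const, nsmul_eq_mul, av]; field_simp; ring
  have h2 : ∑ x ∈ S, (u x - c) ^ 2 = ∑ x ∈ S, (u x - av S u) ^ 2 +
      2 * (av S u - c) * ∑ x ∈ S, (u x - av S u) + ∑ x ∈ S, (av S u - c) ^ 2 := by
    rw [mul_sum, ← sum_add_distrib, ← sum_add_distrib]; exact sum_congr rfl fun x _ => by ring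
  rw [h2, h1]
  have : 0 ≤ ∑ x ∈ S, (av S u - c) ^ 2 := by positivity
  linarith

/-- Poincaré inequality on a rectangle -/
theorem poin_rec (a : Pt) {p q n : ℕ} (hp : p ≤ n) (hq : q ≤ n) (u : Pt → ℝ) :
    ∑ x ∈ rec a p q, (u x - av (rec a p q) u) ^ 2 ≤ 2 * (n : ℝ) ^ 2 * eN nL (rec a p q) u u := by
  rcases (p * q).eq_zero_or_pos with h | hn
  · rw [card_eq_zero.1 ((card_rec a p q).trans h), sum_empty]
    have := eN_nonneg nL ∅ u
    positivity
  have h0 : (0 : ℝ) < (p : ℝ) * q := by exact_mod_cast hn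
  have hp' : (p : ℝ) ≤ n := by exact_mod_cast hp
  have hq' : (q : ℝ) ≤ n := by exact_mod_cast hq
  have h2 : (p : ℝ) * q * ∑ x ∈ rec a p q, (u x - av (rec a p q) u) ^ 2 ≤
      ∑ x ∈ rec a p q, ∑ y ∈ rec a p q, (u x - u y) ^ 2 := by
    rw [mul_sum]
    refine sum_le_sum fun x _ => ?_
    have := card_mul_av_sub (rec a p q) u (u x)
    rw [card_rec] at this
    push_cast at this
    rw [← neg_sub, neg_sq]
    exact this.trans (le_of_eq (sum_congr rfl fun y _ => by ring))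
  refine le_of_mul_le_mul_left (h2.trans ?_) h0
  have hR : 0 ≤ ∑ j ∈ Ico a.2 (a.2 + q), rw' a p u j := sum_nonneg fun _ _ => rw_nonneg _ _ _ _
  have hC : 0 ≤ ∑ j ∈ Ico a.1 (a.1 + p), cl' a q u j := sum_nonneg fun _ _ => cl_nonneg _ _ _ _
  simp only [eN_rec]
  simp only [rec, sum_product]
  calc _ ≤ ∑ i ∈ Ico a.1 (a.1 + p), ∑ j ∈ Ico a.2 (a.2 + q), ∑ i' ∈ Ico a.1 (a.1 + p),
        ∑ j' ∈ Ico a.2 (a.2 + q), (2 * p * rw' a p u j + 2 * q * cl' a q u i') := by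
        refine sum_le_sum fun i hi => sum_le_sum fun j hj => sum_le_sum fun i' hi' =>
          sum_le_sum fun j' hj' => ?_
        have e1 : (u (i, j) - u (i', j)) ^ 2 ≤ p * rw' a p u j := oneD (fun i => u (i, j)) hi hi'
        have e2 : (u (i', j) - u (i', j')) ^ 2 ≤ q * cl' a q u i' :=
          oneD (fun j => u (i', j)) hj hj'
        nlinarith [sq_nonneg (u (i, j) - u (i', j) - (u (i', j) - u (i', j')))]
    _ = (p : ℝ) * q * (2 * (p : ℝ) ^ 2 * ∑ j ∈ Ico a.2 (a.2 + q), rw' a p u j +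
          2 * (q : ℝ) ^ 2 * ∑ j ∈ Ico a.1 (a.1 + p), cl' a q u j) := by
        simp only [sum_add_distrib, sum_const, card_I, nsmul_eq_mul, ← mul_sum]
        ring
    _ ≤ _ := by
        rw [mul_add (2 * (n : ℝ) ^ 2)]
        gcongr

/-- gluing two Poincaré inequalities along a common subset -/
theorem glue {A B T : Finset Pt} {u : Pt → ℝ} {K₁ K₂ M : ℝ} (hM : 0 ≤ M) (hA : T ⊆ A) (hB : T ⊆ B)
    (hA' : (A.card : ℝ) ≤ M * T.card) (hB' : (B.card : ℝ) ≤ M * T.card)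
    (h1 : ∑ x ∈ A, (u x - av A u) ^ 2 ≤ K₁) (h2 : ∑ x ∈ B, (u x - av B u) ^ 2 ≤ K₂) :
    ∑ x ∈ A ∪ B, (u x - av (A ∪ B) u) ^ 2 ≤ (2 + 2 * M) * (K₁ + K₂) := by
  have key : ∀ {A : Finset Pt} {K : ℝ}, T ⊆ A → (A.card : ℝ) ≤ M * T.card →
      ∑ x ∈ A, (u x - av A u) ^ 2 ≤ K → ∑ x ∈ A, (u x - av T u) ^ 2 ≤ (2 + 2 * M) * K := by
    intro A K hA hA' h
    have e1 : T.card * (av T u - av A u) ^ 2 ≤ K := (card_mul_av_sub T u _).trans
      ((sum_le_sum_of_subset_of_nonneg hA fun _ _ _ => sq_nonneg _).trans h)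
    have e2 : ∑ x ∈ A, (u x - av T u) ^ 2 ≤
        2 * ∑ x ∈ A, (u x - av A u) ^ 2 + 2 * (A.card * (av T u - av A u) ^ 2) := by
      rw [← nsmul_eq_mul, ← sum_const, mul_sum, mul_sum, ← sum_add_distrib]
      exact sum_le_sum fun x _ => by nlinarith [sq_nonneg (u x - 2 * av A u + av T u)]
    have e3 : A.card * (av T u - av A u) ^ 2 ≤ M * K :=
      (mul_le_mul_of_nonneg_right hA' (sq_nonneg _)).trans
        (by rw [mul_assoc]; exact mul_le_mul_of_nonneg_left e1 hM)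
    linarith
  refine (var_le _ u (av T u)).trans ?_
  have e4 := sum_union_inter (s₁ := A) (s₂ := B) (f := fun x => (u x - av T u) ^ 2)
  have e5 : 0 ≤ ∑ x ∈ A ∩ B, (u x - av T u) ^ 2 := by positivity
  linarith [key hA hA' h1, key hB hB' h2]

theorem mem_an {z x : Pt} {r R : ℕ} : x ∈ an z r R ↔ x ∈ bl z R ∧ x ∉ bl z r := mem_sdiff

theorem an_mono (z : Pt) {r R r' R' : ℕ} (h : r' ≤ r) (h' : R ≤ R') : an z r R ⊆ an z r' R' :=
  sdiff_subset_sdiff (bl_mono z h') (bl_mono z h)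

theorem an_disjoint (z : Pt) {r R r' R' : ℕ} (h : R ≤ r') : Disjoint (an z r R) (an z r' R') :=
  disjoint_left.2 fun _ h1 h2 => (mem_an.1 h2).2 (bl_mono z h (mem_an.1 h1).1)

theorem card_an (z : Pt) {r R : ℕ} (h : r ≤ R) :
    ((an z r R).card : ℝ) = (2 * R + 1) ^ 2 - (2 * r + 1) ^ 2 := by
  have := card_sdiff_add_card_eq_card (bl_mono z h)
  rw [card_bl, card_bl] at this
  rw [eq_sub_iff_add_eq, an]
  exact_mod_cast this

theorem poin_an (lam : ℕ) : ∃ C : ℝ, 0 ≤ C ∧ ∀ (z : Pt) (r R : ℕ) (u : Pt → ℝ), R ≤ lam * (R - r) →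
    ∑ x ∈ an z r R, (u x - av (an z r R) u) ^ 2 ≤ C * (R : ℝ) ^ 2 * eN nL (an z r R) u u := by
  set c : ℝ := 2 + 2 * (9 * (lam : ℝ) ^ 2) with hc
  refine ⟨c * (c * (c * 2 + 1) + 1) * 18, by positivity, fun z r R u h => ?_⟩
  have hE := eN_nonneg nL (an z r R) u
  rcases le_or_gt R r with hr | hr
  · rw [show an z r R = ∅ from sdiff_eq_empty_iff_subset.2 (bl_mono z hr), sum_empty]
    have := eN_nonneg nL ∅ u
    positivity
  obtain ⟨w, rfl⟩ : ∃ w, R = r + w := ⟨R - r, by omega⟩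
  rw [Nat.add_sub_cancel_left] at h
  set K : ℝ := 18 * ((r + w : ℕ) : ℝ) ^ 2 * eN nL (an z r (r + w)) u u with hK
  have h1 : (1 : ℝ) ≤ (r + w : ℕ) := by exact_mod_cast (by omega : 1 ≤ r + w)
  have base : ∀ (a : Pt) (p q : ℕ), p ≤ 2 * (r + w) + 1 → q ≤ 2 * (r + w) + 1 →
      rec a p q ⊆ an z r (r + w) → ∑ x ∈ rec a p q, (u x - av (rec a p q) u) ^ 2 ≤ K := by
    intro a p q hp hq hs
    refine (poin_rec a hp hq u).trans (mul_le_mul ?_ (eN_mono hs u) (eN_nonneg _ _ _) (by positivity))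
    rw [Nat.cast_add (2 * (r + w)), Nat.cast_mul]
    push_cast at h1 ⊢
    nlinarith
  have crd : ∀ (A : Finset Pt) (a : Pt), A ⊆ an z r (r + w) →
      (A.card : ℝ) ≤ 9 * (lam : ℝ) ^ 2 * (rec a w w).card := by
    intro A a hA
    have e1 := card_le_card (hA.trans sdiff_subset)
    rw [card_bl] at e1
    have e2 : (2 * (r + w) + 1) ^ 2 ≤ (3 * (lam * w)) ^ 2 := Nat.pow_le_pow_left (by omega) 2
    have e3 : A.card ≤ 9 * lam ^ 2 * (w * w) := (e1.trans e2).trans (le_of_eq (by ring))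
    rw [card_rec]
    exact_mod_cast e3
  set L := rec (z.1 - r - w, z.2 - r - w) w (2 * (r + w) + 1)
  set T := rec (z.1 - r - w, z.2 + r + 1) (2 * (r + w) + 1) w
  set Rr := rec (z.1 + r + 1, z.2 - r - w) w (2 * (r + w) + 1)
  set B := rec (z.1 - r - w, z.2 - r - w) (2 * (r + w) + 1) w
  have hL : L ⊆ an z r (r + w) := fun x => by simp only [L, mem_rec, mem_an, mem_bl]; omega
  have hT : T ⊆ an z r (r + w) := fun x => by simp only [T, mem_rec, mem_an, mem_bl]; omega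
  have hR : Rr ⊆ an z r (r + w) := fun x => by simp only [Rr, mem_rec, mem_an, mem_bl]; omega
  have hB : B ⊆ an z r (r + w) := fun x => by simp only [B, mem_rec, mem_an, mem_bl]; omega
  have g1 := glue (A := L) (B := T) (T := rec (z.1 - r - w, z.2 + r + 1) w w) (by positivity)
    (fun x => by simp only [L, mem_rec]; omega) (fun x => by simp only [T, mem_rec]; omega)
    (crd _ _ hL) (crd _ _ hT) (base _ _ _ (by omega) le_rfl hL) (base _ _ _ le_rfl (by omega) hT)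
  have g2 := glue (A := L ∪ T) (B := Rr) (T := rec (z.1 + r + 1, z.2 + r + 1) w w) (by positivity)
    (fun x => by simp only [L, T, mem_union, mem_rec]; omega)
    (fun x => by simp only [Rr, mem_rec]; omega)
    (crd _ _ (union_subset hL hT)) (crd _ _ hR) g1 (base _ _ _ (by omega) le_rfl hR)
  have g3 := glue (A := L ∪ T ∪ Rr) (B := B) (T := rec (z.1 - r - w, z.2 - r - w) w w)
    (by positivity) (fun x => by simp only [L, T, Rr, mem_union, mem_rec]; omega)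
    (fun x => by simp only [B, mem_rec]; omega)
    (crd _ _ (union_subset (union_subset hL hT) hR)) (crd _ _ hB) g2
    (base _ _ _ le_rfl (by omega) hB)
  have e : L ∪ T ∪ Rr ∪ B = an z r (r + w) := by
    ext x; simp only [L, T, Rr, B, mem_union, mem_rec, mem_an, mem_bl]; omega
  rw [e, ← hc] at g3
  exact g3.trans (le_of_eq (by rw [hK]; ring))

theorem poin_D (z : Pt) (R : ℕ) (u : Pt → ℝ) (hu : Sup (bl z R) u) :
    ∑ x ∈ bl z R, u x ^ 2 ≤ 18 * ((R : ℝ) + 1) ^ 2 * eD nL (bl z R) u u := by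
  set a : Pt := (z.1 - (R + 1 : ℕ), z.2 - (R + 1 : ℕ))
  set n := 2 * (R + 1) + 1
  have h1 := abs2 (v := fun j i => u (i, j)) (card_I a.2 n) (card_I a.1 n) (cl_nonneg a n u)
    (rw_nonneg a n u) (hCol a n u) (hRow a n u) (Z := Ico a.2 (a.2 + n)) Subset.rfl
    (fun j _ => ⟨a.1, by simp only [n, mem_Ico]; omega, hu _ (by simp only [a, mem_bl]; omega)⟩)
  rw [add_comm (∑ j ∈ _, cl' a n u j), ← eN_sq, ← sum_product_right' (f := fun i j => u (i, j) ^ 2),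
    card_I] at h1
  change _ * ∑ x ∈ sq a n, u x ^ 2 ≤ _ at h1
  rw [← bl_eq_sq] at h1
  have hs := bl_mono z (Nat.le_succ R)
  have h2 : eN nL (bl z (R + 1)) u u ≤ eD nL (bl z R) u u :=
    (eN_le_eD _ u).trans (eD_of_sup nL_ok hs u hu).le
  have h3 : ∑ x ∈ bl z R, u x ^ 2 ≤ ∑ x ∈ bl z (R + 1), u x ^ 2 :=
    sum_le_sum_of_subset_of_nonneg hs fun _ _ _ => sq_nonneg _
  have h0 : (0 : ℝ) < n := by positivity
  have h4 : ∑ x ∈ bl z (R + 1), u x ^ 2 ≤ 2 * (n : ℝ) ^ 2 * eN nL (bl z (R + 1)) u u :=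
    le_of_mul_le_mul_left (h1.trans (le_of_eq (by ring))) h0
  refine h3.trans (h4.trans (mul_le_mul ?_ h2 (eN_nonneg _ _ _) (by positivity)))
  simp only [n]
  push_cast
  nlinarith [(Nat.cast_nonneg R : (0 : ℝ) ≤ R)]

theorem res_an : ∃ C : ℝ, ∀ (z : Pt) (r R : ℕ) (u : Pt → ℝ), 1 ≤ r → 2 * r ≤ R →
    (av (an z r (2 * r)) u - av (an z (R / 2) R) u) ^ 2 ≤
      C * (1 + Real.log (R / r)) * eN nL (an z r R) u u := by
  obtain ⟨C, hC, hP⟩ := poin_an 2
  refine ⟨100 * C, fun z r R u hr hR => ?_⟩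
  have cmp : ∀ ρ R' r₁ r₂ : ℕ, 1 ≤ r₂ → 2 * r₁ ≤ r₂ → ρ ≤ r₁ → r₂ ≤ R' → R' ≤ 2 * r₂ →
      (av (an z r₁ r₂) u - av (an z ρ R') u) ^ 2 ≤ 4 * C * eN nL (an z ρ R') u u := by
    intro ρ R' r₁ r₂ h0 h1 h2 h3 h4
    have e1 := (card_mul_av_sub (an z r₁ r₂) u (av (an z ρ R') u)).trans
      ((sum_le_sum_of_subset_of_nonneg (an_mono z h2 h3) fun _ _ _ => sq_nonneg _).trans
        (hP z ρ R' u (by omega)))
    rw [card_an z (by omega)] at e1
    have hE := eN_nonneg nL (an z ρ R') u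
    have e0 : (0 : ℝ) < (r₂ : ℝ) ^ 2 := by positivity
    have e2 : 2 * (r₁ : ℝ) ≤ r₂ := by exact_mod_cast h1
    have e3 : (R' : ℝ) ≤ 2 * r₂ := by exact_mod_cast h4
    have e4 : (r₂ : ℝ) ^ 2 ≤ (2 * r₂ + 1) ^ 2 - (2 * r₁ + 1) ^ 2 := by
      nlinarith [(Nat.cast_nonneg r₁ : (0 : ℝ) ≤ r₁), (Nat.cast_nonneg r₂ : (0 : ℝ) ≤ r₂)]
    refine le_of_mul_le_mul_left
      ((mul_le_mul_of_nonneg_right e4 (sq_nonneg _)).trans (e1.trans ?_)) e0
    calc _ ≤ C * (2 * r₂ : ℝ) ^ 2 * eN nL (an z ρ R') u u := by gcongr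
      _ = _ := by ring
  have two : ∀ ρ R' r₁ r₂ r₃ r₄ : ℕ, 1 ≤ r₂ → 2 * r₁ ≤ r₂ → ρ ≤ r₁ → r₂ ≤ R' → R' ≤ 2 * r₂ →
      1 ≤ r₄ → 2 * r₃ ≤ r₄ → ρ ≤ r₃ → r₄ ≤ R' → R' ≤ 2 * r₄ →
      (av (an z r₁ r₂) u - av (an z r₃ r₄) u) ^ 2 ≤ 16 * C * eN nL (an z ρ R') u u := by
    intro ρ R' r₁ r₂ r₃ r₄ a1 a2 a3 a4 a5 b1 b2 b3 b4 b5
    nlinarith [cmp ρ R' r₁ r₂ a1 a2 a3 a4 a5, cmp ρ R' r₃ r₄ b1 b2 b3 b4 b5,
      sq_nonneg (av (an z r₁ r₂) u + av (an z r₃ r₄) u - 2 * av (an z ρ R') u)]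
  obtain ⟨K, hK1, hK2⟩ : ∃ K : ℕ, 2 * (2 ^ K * r) ≤ R ∧ R < 4 * (2 ^ K * r) := by
    have h1 : 1 ≤ R / (2 * r) := (Nat.le_div_iff_mul_le (by omega)).2 (by omega)
    refine ⟨Nat.log 2 (R / (2 * r)), ?_, ?_⟩
    · have := (Nat.le_div_iff_mul_le (by omega)).1
        (Nat.pow_log_le_self 2 (show R / (2 * r) ≠ 0 by omega))
      linarith
    · have := (Nat.div_lt_iff_lt_mul (by omega)).1
        (Nat.lt_pow_succ_log_self one_lt_two (R / (2 * r)))
      rw [pow_succ] at this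
      linarith
  set E := eN nL (an z r R) u u
  have hE : 0 ≤ E := eN_nonneg _ _ _
  set s : ℕ → ℝ := fun k => av (an z (2 ^ k * r) (2 * (2 ^ k * r))) u with hs'
  set e : ℕ → ℝ := fun k => eN nL (an z r (2 ^ k * r)) u u with he
  have hp : ∀ k : ℕ, r ≤ 2 ^ k * r := fun k => Nat.le_mul_of_pos_left r (by positivity)
  have step : ∀ k, (s k - s (k + 1)) ^ 2 ≤ 16 * C * (e (k + 2) - e k) := by
    intro k
    have := hp k
    have h1 : 2 ^ (k + 1) * r = 2 * (2 ^ k * r) := by ring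
    have h2 : 2 ^ (k + 2) * r = 4 * (2 ^ k * r) := by ring
    have h3 := eN_add_le (Λ := nL) (an_mono z le_rfl (show 2 ^ k * r ≤ 2 ^ (k + 2) * r by omega))
      (an_mono z this le_rfl) (an_disjoint z le_rfl) u
    refine (two (2 ^ k * r) (2 ^ (k + 2) * r) _ _ _ _ (by omega) le_rfl le_rfl (by omega) (by omega)
      (by omega) le_rfl (by omega) (by omega) (by omega)).trans
      (mul_le_mul_of_nonneg_left ?_ (by positivity))
    simp only [he]
    linarith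
  have he0 : ∀ k, 0 ≤ e k := fun k => eN_nonneg _ _ _
  have tel : ∀ k, ∑ i ∈ range k, (e (i + 2) - e i) ≤ e (k + 1) + e k := by
    intro k
    induction k with
    | zero => simpa using add_nonneg (he0 1) (he0 0)
    | succ k ih => rw [sum_range_succ]; linarith
  have e1 : e (K + 1) ≤ E := eN_mono (an_mono z le_rfl (by rw [pow_succ]; linarith)) u
  have e2 : e K ≤ E := eN_mono (an_mono z le_rfl (by omega)) u
  have s0 : s 0 = av (an z r (2 * r)) u := by simp [hs']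
  have hCE : 0 ≤ C * E := by positivity
  have h1 : (s 0 - s K) ^ 2 ≤ K * (32 * (C * E)) := by
    rw [← sum_range_sub' s K]
    refine sq_sum_le_card_mul_sum_sq.trans ?_
    rw [card_range]
    refine mul_le_mul_of_nonneg_left ((sum_le_sum fun i _ => step i).trans ?_) (by positivity)
    rw [← mul_sum]
    nlinarith [tel K]
  have h2 : (s K - av (an z (R / 2) R) u) ^ 2 ≤ 16 * (C * E) := by
    have := hp K
    refine (two (2 ^ K * r) R _ _ _ _ (by omega) le_rfl le_rfl (by omega) (by omega)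
      (by omega) (by omega) (by omega) le_rfl (by omega)).trans ?_
    rw [mul_assoc]
    exact mul_le_mul_of_nonneg_left
      (mul_le_mul_of_nonneg_left (eN_mono (an_mono z this le_rfl) u) hC) (by norm_num)
  have h3 : (K : ℝ) * Real.log 2 ≤ Real.log (R / r) := by
    rw [← Real.log_pow]
    refine Real.log_le_log (by positivity) ?_
    rw [le_div_iff₀ (by positivity)]
    have : 2 ^ K * r ≤ R := by omega
    exact_mod_cast this
  have h4 : (K : ℝ) * 0.6931471803 ≤ Real.log (R / r) :=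
    le_trans (mul_le_mul_of_nonneg_left Real.log_two_gt_d9.le (by positivity)) h3
  have h5 : (K : ℝ) * 64 * (C * E) ≤ 100 * Real.log (R / r) * (C * E) :=
    mul_le_mul_of_nonneg_right (by linarith [(Nat.cast_nonneg K : (0 : ℝ) ≤ K)]) hCE
  rw [← s0]
  nlinarith [sq_nonneg (s 0 - s K - (s K - av (an z (R / 2) R) u))]

end An44

open An44

theorem annStmt : AnnStmt := by
  refine ⟨fun lam => ?_, ⟨18, poin_D⟩, res_an⟩
  obtain ⟨C, -, h⟩ := poin_an lam
  exact ⟨C, fun z r R u hR S hS => ⟨h z r R u hR, (card_mul_av_sub S u _).trans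
    ((sum_le_sum_of_subset_of_nonneg hS fun _ _ _ => sq_nonneg _).trans (h z r R u hR))⟩⟩

end Crest.Agent.T145.Pot
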