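import Crest.Agent.T145.PotL_17

/-!
# Row 145 (helper91): discrete Taylor expansions, interior estimates, mean value representation
-/

set_option autoImplicit false

namespace Crest.Agent.T145.Pot

open Finset

namespace Ha91

theorem mem_nn {e : Pt} : e ∈ nn ↔ e = (1, 0) ∨ e = (-1, 0) ∨ e = (0, 1) ∨ e = (0, -1) := by
  simp only [nn, mem_insert, mem_singleton]

theorem e1_nn : ((1, 0) : Pt) ∈ nn := mem_nn.2 (.inl rfl)
theorem e2_nn : ((0, 1) : Pt) ∈ nn := mem_nn.2 (.inr (.inr (.inl rfl)))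

theorem nn_bl {e : Pt} (he : e ∈ nn) (z : Pt) : z + e ∈ bl z 1 := by
  rw [mem_bl]
  rcases mem_nn.1 he with rfl | rfl | rfl | rfl <;> simp <;> omega

theorem add_mem_bl {z y : Pt} {r : ℕ} : z + y ∈ bl z r ↔ y ∈ bl 0 r := by
  simp [mem_bl_abs]

theorem sum_bl (z : Pt) (r : ℕ) (f : Pt → ℝ) : ∑ y ∈ bl 0 r, f (z + y) = ∑ x ∈ bl z r, f x :=
  sum_equiv (Equiv.addLeft z) (fun _ => add_mem_bl.symm) fun _ _ => rfl

/-- telescoping on `ℤ` -/
theorem tel {f : ℤ → ℝ} {K : ℝ} {r : ℕ} (h : ∀ k : ℤ, -r ≤ k → k < r → |f (k + 1) - f k| ≤ K)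
    (n : ℤ) (hn : |n| ≤ r) : |f n - f 0| ≤ |(n : ℝ)| * K := by
  rw [abs_le] at hn
  induction n using Int.induction_on with
  | zero => simp
  | succ n ih =>
    have h1 := ih ⟨by omega, by omega⟩
    have h2 := h n (by omega) (by omega)
    have h3 := abs_sub_le (f (n + 1)) (f n) (f 0)
    push_cast at h1 ⊢
    rw [Nat.abs_cast] at h1
    rw [abs_of_nonneg (a := (n : ℝ) + 1) (by positivity)]
    linarith
  | pred n ih =>
    have h1 := ih ⟨by omega, by omega⟩
    have h2 := h (-n - 1) (by omega) (by omega)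
    have h3 := abs_sub_le (f (-n - 1)) (f (-n)) (f 0)
    have h4 : (0 : ℝ) ≤ n := by positivity
    rw [sub_add_cancel, abs_sub_comm] at h2
    push_cast at h1 ⊢
    rw [abs_neg, Nat.abs_cast] at h1
    rw [abs_of_nonpos (a := -(n : ℝ) - 1) (by linarith)]
    linarith

theorem tay1 {r : ℕ} {u : Pt → ℝ} {z y : Pt} (hy : y ∈ bl 0 r) {K : ℝ}
    (h : ∀ x ∈ bl 0 r, |dif (1, 0) u (z + x)| ≤ K ∧ |dif (0, 1) u (z + x)| ≤ K) :
    |u (z + y) - u z| ≤ 2 * r * K := by
  have hK : 0 ≤ K := (abs_nonneg _).trans (h 0 (self_mem_bl _ _)).1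
  obtain ⟨a, b⟩ := y
  obtain ⟨ha, hb⟩ : |a| ≤ r ∧ |b| ≤ r := by simpa [mem_bl_abs] using hy
  have h1 := tel (f := fun k => u (z + (k, 0))) (fun k h1 h2 => by
    simpa [dif, add_assoc] using (h (k, 0) (by rw [mem_bl]; simp; omega)).1) a ha
  have h2 := tel (f := fun k => u (z + (a, k))) (fun k h1 h2 => by
    simpa [dif, add_assoc] using
      (h (a, k) (by rw [mem_bl]; rw [abs_le] at ha; simp; omega)).2) b hb
  have h3 := abs_sub_le (u (z + (a, b))) (u (z + (a, 0))) (u z)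
  have ha' : |(a : ℝ)| ≤ r := by exact_mod_cast ha
  have hb' : |(b : ℝ)| ≤ r := by exact_mod_cast hb
  simp only [Prod.mk_zero_zero, add_zero] at h1 h2
  nlinarith [mul_le_mul_of_nonneg_right ha' hK, mul_le_mul_of_nonneg_right hb' hK]

theorem tay2 {r : ℕ} {u : Pt → ℝ} {z y : Pt} (hy : y ∈ bl 0 r) {K : ℝ}
    (h : ∀ x ∈ bl z r, ∀ e ∈ nn, ∀ e' ∈ nn, |difs [e, e'] u x| ≤ K) :
    |u (z + y) - u z - (y.1 * dif (1, 0) u z + y.2 * dif (0, 1) u z)| ≤ 4 * (r : ℝ) ^ 2 * K := by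
  have key : ∀ e ∈ nn, ∀ x ∈ bl 0 r, |dif e u (z + x) - dif e u z| ≤ 2 * r * K := fun e he x hx =>
    tay1 hx fun w hw => ⟨h _ (add_mem_bl.2 hw) _ e1_nn _ he, h _ (add_mem_bl.2 hw) _ e2_nn _ he⟩
  have := tay1 (z := 0) (u := fun x => u (z + x) - (x.1 * dif (1, 0) u z + x.2 * dif (0, 1) u z))
    hy (K := 2 * r * K) fun x hx => ⟨by
      convert key _ e1_nn x hx using 2
      simp only [dif, zero_add, add_assoc, Prod.fst_add, Prod.snd_add]; push_cast; ring, by
      convert key _ e2_nn x hx using 2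
      simp only [dif, zero_add, add_assoc, Prod.fst_add, Prod.snd_add]; push_cast; ring⟩
  convert this using 1
  · simp only [zero_add, add_zero, Prod.fst_zero, Prod.snd_zero]; push_cast; ring_nf
  · ring

theorem tay3 {r : ℕ} {u : Pt → ℝ} {z y : Pt} (hy : y ∈ bl 0 r) {K : ℝ}
    (h : ∀ x ∈ bl z r, ∀ e ∈ nn, ∀ e' ∈ nn, ∀ e'' ∈ nn, |difs [e, e', e''] u x| ≤ K) :
    |u (z + y) - u z - (y.1 * dif (1, 0) u z + y.2 * dif (0, 1) u z) -
      ((y.1 : ℝ) * (y.1 - 1) / 2 * difs [(1, 0), (1, 0)] u z +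
        y.1 * y.2 * difs [(1, 0), (0, 1)] u z +
        (y.2 : ℝ) * (y.2 - 1) / 2 * difs [(0, 1), (0, 1)] u z)| ≤ 8 * (r : ℝ) ^ 3 * K := by
  have key : ∀ e ∈ nn, ∀ x ∈ bl 0 r, |dif e u (z + x) - dif e u z -
      (x.1 * dif (1, 0) (dif e u) z + x.2 * dif (0, 1) (dif e u) z)| ≤ 4 * (r : ℝ) ^ 2 * K :=
    fun e he x hx => tay2 hx fun w hw a ha b hb => h w hw a ha b hb e he
  have := tay1 (z := 0) (u := fun x => u (z + x) - (x.1 * dif (1, 0) u z + x.2 * dif (0, 1) u z) -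
      ((x.1 : ℝ) * (x.1 - 1) / 2 * difs [(1, 0), (1, 0)] u z +
        x.1 * x.2 * difs [(1, 0), (0, 1)] u z +
        (x.2 : ℝ) * (x.2 - 1) / 2 * difs [(0, 1), (0, 1)] u z))
    hy (K := 4 * (r : ℝ) ^ 2 * K) fun x hx => ⟨by
      convert key _ e1_nn x hx using 2
      rw [dif_comm (0, 1) (1, 0)]
      simp only [difs]
      generalize dif (1, 0) (dif (1, 0) u) z = a, dif (1, 0) (dif (0, 1) u) z = b
      simp only [dif, zero_add, add_assoc, Prod.fst_add, Prod.snd_add]; push_cast; ring, by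
      convert key _ e2_nn x hx using 2
      simp only [difs]
      generalize dif (0, 1) (dif (0, 1) u) z = a, dif (1, 0) (dif (0, 1) u) z = b
      simp only [dif, zero_add, add_assoc, Prod.fst_add, Prod.snd_add]; push_cast; ring⟩
  convert this using 1
  · simp only [zero_add, add_zero, Prod.fst_zero, Prod.snd_zero]; push_cast; ring_nf
  · ring

/-- the barrier argument -/
theorem grad_core {r : ℕ} (hr : 1 ≤ r) {w : Pt → ℝ} {M δ : ℝ}
    (h1 : ∀ x ∈ bl 0 r, |lap w x| ≤ δ) (h2 : ∀ x ∈ bl 0 (r + 1), |w x| ≤ M) :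
    w (1, 0) - w 0 ≤ 4 * (M / r + r * δ) := by
  have hM : 0 ≤ M := (abs_nonneg _).trans (h2 0 (self_mem_bl _ _))
  have hδ : 0 ≤ δ := (abs_nonneg _).trans (h1 0 (self_mem_bl _ _))
  have hr' : (1 : ℝ) ≤ r := by exact_mod_cast hr
  set R : ℝ := r + 1 with hR
  obtain ⟨a, ha, hMa⟩ : ∃ a, 0 ≤ a ∧ M = a * R ^ 2 :=
    ⟨M / R ^ 2, by positivity, (div_mul_cancel₀ _ (by positivity)).symm⟩
  set g : Pt → ℝ := fun p => w p - w (1 - p.1, p.2) -
    (2 * a * ((p.2 : ℝ) ^ 2 - p.1 ^ 2) + 4 * a * R * p.1 + δ * (R * p.1 - p.1 ^ 2)) with hg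
  set D := (bl 0 r).filter fun p => 1 ≤ p.1 ∧ 0 < g p with hD
  have hv : ∀ p : Pt, 0 ≤ p.1 → p ∈ bl 0 (r + 1) → w p - w (1 - p.1, p.2) ≤ 2 * M := fun p h0 hp => by
    have h3 := (abs_le.1 (h2 p hp)).2
    have h4 := (abs_le.1 (h2 (1 - p.1, p.2) (by rw [mem_bl] at hp ⊢; simp at hp ⊢; omega))).1
    linarith
  have key : g (1, 0) ≤ 0 := by
    by_contra hc
    refine hc (le_of_lapJ nL_ok (D := D) (fun x hx y hy hxy => ?_) (fun x hx => ?_)
      (mem_filter.2 ⟨by rw [mem_bl]; simp; omega, le_rfl, not_le.1 hc⟩))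
    · obtain ⟨hx1, hx2, hx3⟩ := mem_filter.1 hx
      have hp := nn_bl hy x
      by_contra hc'
      have h5 : ¬ (x + y ∈ bl 0 r ∧ 1 ≤ (x + y).1) := fun h =>
        hxy (mem_filter.2 ⟨h.1, h.2, not_le.1 hc'⟩)
      have hy' : (x + y).1 = x.1 ∨ (x + y).2 = x.2 := by
        rcases mem_nn.1 hy with rfl | rfl | rfl | rfl <;> simp
      generalize x + y = p at *
      obtain ⟨p1, p2⟩ := p
      obtain ⟨x1, x2⟩ := x
      have hpb : (p1, p2) ∈ bl 0 (r + 1) := bl_subset_bl hx1 (by omega) hp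
      have h6 := hv (p1, p2) (by rw [mem_bl] at hp; simp at hp hx2 ⊢; omega) hpb
      rw [mem_bl] at hp hx1 hpb h5
      simp only [Prod.fst_zero, Prod.snd_zero, Nat.cast_one, Nat.cast_add] at *
      refine hc' ?_
      rcases (by omega : (p1 = 0 ∧ x1 = 1 ∧ p2 = x2) ∨ p1 = r + 1 ∨
          ((p2 = r + 1 ∨ p2 = -(r + 1)) ∧ 0 ≤ p1 ∧ p1 ≤ r + 1)) with ⟨rfl, rfl, rfl⟩ | rfl | ⟨h7, h8, h9⟩
      · simp only [hg] at hx3 ⊢
        norm_num at hx3 ⊢
        nlinarith [mul_nonneg ha (sq_nonneg (p2 : ℝ)), mul_nonneg ha (show 0 ≤ R - 1 by linarith),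
          mul_nonneg hδ (show 0 ≤ R - 1 by linarith)]
      · simp only [hg]
        push_cast at h6 ⊢
        rw [← hR]
        nlinarith [mul_nonneg ha (sq_nonneg (p2 : ℝ))]
      · have h10 : (p2 : ℝ) ^ 2 = R ^ 2 := by
          rcases h7 with rfl | rfl <;> push_cast <;> ring
        have h11 : (0 : ℝ) ≤ p1 := by exact_mod_cast h8
        have h12 : (p1 : ℝ) ≤ R := by rw [hR]; exact_mod_cast h9
        have h13 : 0 ≤ (p1 : ℝ) * (R - p1) := mul_nonneg h11 (by linarith)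
        simp only [hg]
        rw [h10]
        nlinarith [mul_nonneg ha h13, mul_nonneg hδ h13, mul_nonneg ha (mul_nonneg h11 h11)]
    · obtain ⟨hx1, hx2, -⟩ := mem_filter.1 hx
      obtain ⟨x1, x2⟩ := x
      have h3 := (abs_le.1 (h1 _ hx1)).1
      have h4 := (abs_le.1 (h1 (1 - x1, x2) (by
        rw [mem_bl] at hx1 ⊢; simp at hx1 hx2 ⊢; omega))).2
      change 0 ≤ lap g _
      rw [lap_apply] at h3 h4 ⊢
      simp only [hg, show 1 - (x1 + 1) = 1 - x1 - 1 by ring, show 1 - (x1 - 1) = 1 - x1 + 1 by ring]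
        at h3 h4 ⊢
      push_cast
      nlinarith
  simp only [hg] at key
  norm_num at key
  have h5 : a * R ≤ M / r := by
    rw [le_div_iff₀ (by linarith), hMa]
    nlinarith [mul_nonneg ha (show 0 ≤ R by linarith)]
  have h6 : w (0, 0) = w 0 := rfl
  nlinarith [mul_nonneg hδ (show 0 ≤ (r : ℝ) by linarith)]

theorem grad {r : ℕ} (hr : 1 ≤ r) {u : Pt → ℝ} {z : Pt} {M δ : ℝ}
    (h1 : ∀ x ∈ bl z r, |lap u x| ≤ δ) (h2 : ∀ x ∈ bl z (r + 1), |u x| ≤ M) {e : Pt} (he : e ∈ nn) :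
    |dif e u z| ≤ 4 * (M / r + r * δ) := by
  have key : ∀ T : Pt → Pt, T (1, 0) = e → T 0 = 0 → (∀ ρ, ∀ x ∈ bl 0 ρ, T x ∈ bl 0 ρ) →
      (∀ x, lap (fun p => u (z + T p)) x = lap u (z + T x)) → |dif e u z| ≤ 4 * (M / r + r * δ) := by
    intro T t1 t0 tb tl
    have a1 := grad_core hr (w := fun p => u (z + T p)) (M := M) (δ := δ)
      (fun x hx => by rw [tl]; exact h1 _ (add_mem_bl.2 (tb _ x hx)))
      fun x hx => h2 _ (add_mem_bl.2 (tb _ x hx))
    have a2 := grad_core hr (w := (-1 : ℝ) • fun p => u (z + T p)) (M := M) (δ := δ)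
      (fun x hx => by
        have := h1 _ (add_mem_bl.2 (tb _ x hx))
        rw [← tl, lap] at this
        rwa [lap, lapJ_smul, Pi.smul_apply, smul_eq_mul, neg_one_mul, abs_neg])
      fun x hx => by simpa using h2 _ (add_mem_bl.2 (tb _ x hx))
    simp only [t1, t0, add_zero, Pi.smul_apply, smul_eq_mul] at a1 a2
    rw [dif, abs_le]
    constructor <;> linarith
  obtain ⟨z1, z2⟩ := z
  rcases mem_nn.1 he with rfl | rfl | rfl | rfl
  · refine key id rfl rfl (fun _ _ h => h) fun x => ?_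
    simp only [lap_apply, id, Prod.mk_add_mk, Prod.fst_add, Prod.snd_add, add_assoc, add_sub_assoc]
  · refine key (fun p => -p) rfl rfl (fun _ _ h => by simpa [mem_bl_abs] using h) fun ⟨a, b⟩ => ?_
    simp only [lap_apply, Prod.neg_mk, Prod.mk_add_mk]
    ring_nf
  · refine key Prod.swap rfl rfl (fun _ _ h => by simpa [mem_bl_abs, and_comm] using h)
      fun ⟨a, b⟩ => ?_
    simp only [lap_apply, Prod.swap, Prod.mk_add_mk]
    ring_nf
  · refine key (fun p => -p.swap) rfl rfl (fun _ _ h => by simpa [mem_bl_abs, and_comm] using h)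
      fun ⟨a, b⟩ => ?_
    simp only [lap_apply, Prod.swap, Prod.neg_mk, Prod.mk_add_mk]
    ring_nf

theorem difs_le {ys : List Pt} (hys : ∀ y ∈ ys, y ∈ nn) {u : Pt → ℝ} {z : Pt} {M : ℝ}
    (h : ∀ x ∈ bl z ys.length, |u x| ≤ M) : |difs ys u z| ≤ 2 ^ ys.length * M := by
  induction ys generalizing z with
  | nil => simpa [difs] using h z (self_mem_bl _ _)
  | cons y ys ih =>
    have h0 : ∀ y ∈ ys, y ∈ nn := fun a ha => hys a (List.mem_cons_of_mem _ ha)
    have h1 := ih h0 (z := z + y) fun x hx =>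
      h x (bl_subset_bl (nn_bl (hys y List.mem_cons_self) z) le_rfl hx)
    have h2 := ih h0 (z := z) fun x hx => h x (bl_mono z (Nat.le_succ _) hx)
    rw [difs, dif, List.length_cons, pow_succ]
    linarith [abs_sub (difs ys u (z + y)) (difs ys u z)]

theorem harm3 (k : ℕ) : ∃ C : ℝ, 0 ≤ C ∧ ∀ (r : ℕ) (u : Pt → ℝ) (z : Pt) (M : ℝ), k ≤ r → 1 ≤ r →
    (∀ x ∈ bl z r, lap u x = 0) → (∀ x ∈ bl z (r + 1), |u x| ≤ M) →
    ∀ ys : List Pt, ys.length = k → (∀ y ∈ ys, y ∈ nn) → |difs ys u z| ≤ C * M / (r : ℝ) ^ k := by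
  induction k with
  | zero =>
    refine ⟨1, zero_le_one, fun r u z M _ _ _ h ys hl _ => ?_⟩
    rw [List.length_eq_zero_iff.1 hl]
    simpa [difs] using h z (self_mem_bl _ _)
  | succ k ih =>
    obtain ⟨C, hC, ih⟩ := ih
    refine ⟨4 * C * 8 ^ (k + 1) + (2 * (4 * (k + 1))) ^ (k + 1), by positivity,
      fun r u z M hk hr h1 h2 ys hl hys => ?_⟩
    have hM : 0 ≤ M := (abs_nonneg _).trans (h2 z (self_mem_bl _ _))
    have hr0 : (0 : ℝ) < r := by exact_mod_cast hr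
    rw [le_div_iff₀ (by positivity), add_mul]
    by_cases hs : r ≤ 4 * (k + 1)
    · have h3 := difs_le hys (z := z) fun x hx => h2 x (bl_mono z (by omega) hx)
      have h4 : (r : ℝ) ≤ 4 * (k + 1) := by exact_mod_cast hs
      rw [hl] at h3
      refine le_trans ?_ (le_add_of_nonneg_left (by positivity))
      rw [mul_pow, mul_right_comm]
      gcongr
    · obtain ⟨y, ys, rfl⟩ := List.exists_cons_of_length_eq_add_one hl
      have hl' : ys.length = k := by simpa using hl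
      have h0 : ∀ y ∈ ys, y ∈ nn := fun a ha => hys a (List.mem_cons_of_mem _ ha)
      have hρ : 1 ≤ r / 4 := by omega
      have hρ0 : (0 : ℝ) < (r / 4 : ℕ) := by exact_mod_cast hρ
      have h3 := grad hρ (u := difs ys u) (z := z) (δ := 0) (M := C * M / ((r / 4 : ℕ) : ℝ) ^ k)
        (fun x hx => by
          rw [lap, lapJ_difs]
          simpa using difs_le h0 (z := x) (M := 0) (u := lapJ nn u) fun w hw => by
            simpa [lap] using h1 w (bl_subset_bl hx (by omega) hw))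
        (fun x hx => ih (r / 4) u x M (by omega) hρ
          (fun w hw => h1 w (bl_subset_bl hx (by omega) hw))
          (fun w hw => h2 w (bl_subset_bl hx (by omega) hw)) ys hl' h0)
        (hys y List.mem_cons_self)
      have h4 : (r : ℝ) ≤ 8 * (r / 4 : ℕ) := by exact_mod_cast (by omega : r ≤ 8 * (r / 4))
      refine le_trans ?_ (le_add_of_nonneg_right (by positivity))
      refine (mul_le_mul h3 (pow_le_pow_left₀ hr0.le h4 _) (by positivity) (by positivity)).trans_eq ?_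
      rw [mul_pow]
      field_simp
      ring

/-! ### the cut-off -/

/-- square of the positive part -/
noncomputable def pp (t : ℝ) : ℝ := max t 0 ^ 2

theorem pp_dd (t : ℝ) : |pp (t + 1) + pp (t - 1) - 2 * pp t| ≤ 2 := by
  unfold pp
  rw [abs_le]
  rcases le_total (t + 1) 0 with h1 | h1 <;> rcases le_total t 0 with h2 | h2 <;>
    rcases le_total (t - 1) 0 with h3 | h3 <;> simp only [max_eq_left, max_eq_right, h1, h2, h3] <;>
    constructor <;> nlinarith

/-- ramp from `0` to `1` on `[0, r]` -/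
noncomputable def rp (r t : ℝ) : ℝ := 2 * (pp t - 2 * pp (t - r / 2) + pp (t - r)) / r ^ 2

theorem rp_zero {r t : ℝ} (hr : 0 ≤ r) (ht : t ≤ 0) : rp r t = 0 := by
  simp only [rp, pp]
  rw [max_eq_right ht, max_eq_right (by linarith), max_eq_right (by linarith)]
  simp

theorem rp_one {r t : ℝ} (hr : 0 < r) (ht : r ≤ t) : rp r t = 1 := by
  simp only [rp, pp]
  rw [max_eq_left (by linarith), max_eq_left (by linarith), max_eq_left (by linarith)]
  field_simp
  ring

theorem rp_dd {r : ℝ} (hr : 0 < r) (t : ℝ) :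
    |rp r (t + 1) + rp r (t - 1) - 2 * rp r t| ≤ 16 / r ^ 2 := by
  have h1 := abs_le.1 (pp_dd t)
  have h2 := abs_le.1 (pp_dd (t - r / 2))
  have h3 := abs_le.1 (pp_dd (t - r))
  simp only [rp, add_sub_right_comm t 1, sub_right_comm t 1]
  rw [← mul_div_assoc, ← add_div, ← sub_div, abs_div, abs_of_pos (pow_pos hr 2)]
  refine div_le_div_of_nonneg_right (abs_le.2 ⟨?_, ?_⟩) (by positivity) <;> linarith

/-- one-dimensional cut-off -/
theorem exists_cut {r : ℕ} (hr : 1 ≤ r) : ∃ h : ℤ → ℝ, (∀ n : ℤ, |n| ≤ r + 1 → h n = 1) ∧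
    (∀ n, 2 * (r : ℤ) < |n| → h n = 0) ∧ (∀ n, |h n| ≤ 201) ∧ (∀ n, |h (n + 1) - h n| ≤ 100 / r) ∧
    ∀ n, |h (n + 1) + h (n - 1) - 2 * h n| ≤ 32 / (r : ℝ) ^ 2 := by
  have hr1 : (1 : ℝ) ≤ r := by exact_mod_cast hr
  have hr0 : (0 : ℝ) < r := by linarith
  set h : ℤ → ℝ := fun n => rp r (2 * r + 1 - n) + rp r (2 * r + 1 + n) - 1 with hh
  have a1 : ∀ n : ℤ, |n| ≤ r + 1 → h n = 1 := fun n hn => by
    have : |(n : ℝ)| ≤ r + 1 := by exact_mod_cast hn
    rw [abs_le] at this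
    simp only [hh]
    rw [rp_one hr0 (by linarith), rp_one hr0 (by linarith)]; ring
  have a2 : ∀ n, 2 * (r : ℤ) < |n| → h n = 0 := fun n hn => by
    simp only [hh]
    rcases lt_abs.1 hn with h1 | h1
    · have : 2 * (r : ℝ) + 1 ≤ n := by exact_mod_cast h1
      rw [rp_zero hr0.le (by linarith), rp_one hr0 (by linarith)]; ring
    · have : 2 * (r : ℝ) + 1 ≤ -n := by exact_mod_cast h1
      rw [rp_one hr0 (by linarith), rp_zero hr0.le (by linarith)]; ring
  have a5 : ∀ n, |h (n + 1) + h (n - 1) - 2 * h n| ≤ 32 / (r : ℝ) ^ 2 := fun n => by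
    have h1 := abs_le.1 (rp_dd hr0 (2 * r + 1 - n))
    have h2 := abs_le.1 (rp_dd hr0 (2 * r + 1 + n))
    simp only [hh]
    push_cast
    rw [show 2 * (r : ℝ) + 1 - (n + 1) = 2 * r + 1 - n - 1 by ring,
      show 2 * (r : ℝ) + 1 - (n - 1) = 2 * r + 1 - n + 1 by ring,
      show 2 * (r : ℝ) + 1 + (n + 1) = 2 * r + 1 + n + 1 by ring,
      show 2 * (r : ℝ) + 1 + (n - 1) = 2 * r + 1 + n - 1 by ring,
      abs_le, show 32 / (r : ℝ) ^ 2 = 2 * (16 / r ^ 2) by ring]
    constructor <;> linarith [h1.1, h1.2, h2.1, h2.2]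
  have a4 : ∀ n, |h (n + 1) - h n| ≤ 100 / r := fun n => by
    by_cases hn : |n| ≤ (2 * r + 1 : ℕ)
    · have h1 := tel (f := fun k => h (k + 1) - h k) (K := 32 / (r : ℝ) ^ 2) (fun k _ _ => by
        have := a5 (k + 1)
        rw [add_sub_cancel_right] at this
        convert this using 2; ring) n hn
      have h2 : |(n : ℝ)| ≤ 2 * r + 1 := by exact_mod_cast hn
      simp only [a1 (0 + 1) (by simp), a1 0 (by simp; omega), sub_self, sub_zero] at h1
      refine h1.trans ((mul_le_mul_of_nonneg_right h2 (by positivity)).trans ?_)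
      rw [← mul_div_assoc, div_le_div_iff₀ (by positivity) hr0]
      nlinarith
    · rw [a2 n (by push_cast at hn; omega), a2 (n + 1) (by
        push_cast at hn; rw [lt_abs]; rw [not_le, lt_abs] at hn; omega)]
      simp; positivity
  refine ⟨h, a1, a2, fun n => ?_, a4, a5⟩
  by_cases hn : |n| ≤ (2 * r : ℕ)
  · have h1 := tel (f := fun k => h k) (fun k _ _ => a4 k) n hn
    have h2 : |(n : ℝ)| ≤ 2 * r := by exact_mod_cast hn
    have h3 : 2 * r * (100 / (r : ℝ)) = 200 := by field_simp; norm_num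
    have h4 := mul_le_mul_of_nonneg_right h2 (show 0 ≤ 100 / (r : ℝ) by positivity)
    rw [a1 0 (by simp; omega)] at h1
    linarith [abs_sub_abs_le_abs_sub (h n) 1, abs_one (α := ℝ)]
  · rw [a2 n (by push_cast at hn; omega)]; simp

/-- two-dimensional cut-off -/
theorem exists_cut2 {r : ℕ} (hr : 1 ≤ r) : ∃ χ : Pt → ℝ, (∀ y ∈ bl 0 (r + 1), χ y = 1) ∧
    Sup (bl 0 (2 * r)) χ ∧ (∀ y, |χ y| ≤ 10 ^ 5) ∧ (∀ e ∈ nn, ∀ y, |dif e χ y| ≤ 10 ^ 5 / r) ∧
    ∀ y, |lap χ y| ≤ 10 ^ 5 / (r : ℝ) ^ 2 := by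
  obtain ⟨h, a1, a2, a3, a4, a5⟩ := exists_cut hr
  have hr0 : (0 : ℝ) < r := by exact_mod_cast hr
  have a4' : ∀ n, |h (n + -1) - h n| ≤ 100 / r := fun n => by
    simpa [abs_sub_comm] using a4 (n + -1)
  have b : ∀ {x : ℝ} (n : ℤ), |x| ≤ 100 / r → |x * h n| ≤ 10 ^ 5 / r := fun n hx => by
    rw [abs_mul]
    refine (mul_le_mul hx (a3 n) (abs_nonneg _) (by positivity)).trans ?_
    rw [div_mul_eq_mul_div]
    gcongr; norm_num
  refine ⟨fun y => h y.1 * h y.2, fun y hy => ?_, fun y hy => ?_, fun y => ?_, fun e he y => ?_,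
    fun y => ?_⟩
  · obtain ⟨h1, h2⟩ : |y.1| ≤ r + 1 ∧ |y.2| ≤ r + 1 := by simpa [mem_bl_abs] using hy
    simp only [a1 _ h1, a1 _ h2, one_mul]
  · have : 2 * (r : ℤ) < |y.1| ∨ 2 * (r : ℤ) < |y.2| := by
      simpa [mem_bl_abs, imp_iff_not_or] using hy
    rcases this with h1 | h1 <;> simp only [a2 _ h1, mul_zero, zero_mul]
  · rw [abs_mul]
    exact (mul_le_mul (a3 _) (a3 _) (abs_nonneg _) (by norm_num)).trans (by norm_num)
  · rcases mem_nn.1 he with rfl | rfl | rfl | rfl <;>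
      simp only [dif, Prod.fst_add, Prod.snd_add, add_zero]
    · rw [← sub_mul]; exact b _ (a4 _)
    · rw [← sub_mul]; exact b _ (a4' _)
    · rw [← mul_sub, mul_comm]; exact b _ (a4 _)
    · rw [← mul_sub, mul_comm]; exact b _ (a4' _)
  · have e : lap (fun y : Pt => h y.1 * h y.2) y = (h (y.1 + 1) + h (y.1 - 1) - 2 * h y.1) * h y.2 +
        (h (y.2 + 1) + h (y.2 - 1) - 2 * h y.2) * h y.1 := by rw [lap_apply]; ring
    rw [e]
    refine (abs_add_le _ _).trans ?_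
    rw [abs_mul, abs_mul]
    have h1 := mul_le_mul (a5 y.1) (a3 y.2) (abs_nonneg _) (by positivity)
    have h2 := mul_le_mul (a5 y.2) (a3 y.1) (abs_nonneg _) (by positivity)
    have h3 : (0 : ℝ) < 1 / r ^ 2 := by positivity
    rw [div_eq_mul_one_div] at h1 h2 ⊢
    linarith

theorem dif_pk_le {e : Pt} (he : e ∈ nn) (y : Pt) : |dif e pk y| ≤ 10 ^ 5 / (1 + eu y) := by
  have key : ∀ e' ∈ nn, ∀ w, |dif e' pk w| ≤ 50000 / (1 + |(w.1 : ℝ)| + |(w.2 : ℝ)|) →
      |dif e' pk w| ≤ 10 ^ 5 / (1 + eu w) ∧ |dif (-e') pk (w + e')| ≤ 10 ^ 5 / (1 + eu (w + e')) := by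
    intro e' he' w h
    have h1 := eu_le_add w
    have h2 := eu_add_le w e'
    have h3 := eu_nonneg w
    have h4 := eu_nonneg (w + e')
    rw [eu_nn he'] at h2
    rw [dif_neg, add_sub_cancel_right, abs_neg]
    constructor <;> refine h.trans ?_ <;> rw [div_le_div_iff₀ (by positivity) (by positivity)] <;>
      linarith
  have k1 := fun w : Pt => key _ e1_nn w (by
    rw [dif, show w + (1, 0) = (w.1 + 1, w.2) from Prod.ext rfl (add_zero _)]
    exact R165.Pkx583.pk_dx_le w.1 w.2)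
  have k2 := fun w : Pt => key _ e2_nn w (by
    rw [dif, show w + (0, 1) = (w.1, w.2 + 1) from Prod.ext (add_zero _) rfl]
    exact R165.Pkx583.pk_dy_le w.1 w.2)
  rcases mem_nn.1 he with rfl | rfl | rfl | rfl
  · exact (k1 y).1
  · have := (k1 (y - (1, 0))).2
    rwa [sub_add_cancel, show -((1, 0) : Pt) = (-1, 0) from rfl] at this
  · exact (k2 y).1
  · have := (k2 (y - (0, 1))).2
    rwa [sub_add_cancel, show -((0, 1) : Pt) = (0, -1) from rfl] at this

theorem eu_le_three {y : Pt} {r : ℕ} (h : y ∈ bl 0 (2 * r)) : eu y ≤ 3 * r := by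
  obtain ⟨h1, h2⟩ : |y.1| ≤ 2 * r ∧ |y.2| ≤ 2 * r := by simpa [mem_bl_abs] using h
  have h3 : |(y.1 : ℝ)| ≤ 2 * r := by exact_mod_cast h1
  have h4 : |(y.2 : ℝ)| ≤ 2 * r := by exact_mod_cast h2
  refine Real.sqrt_le_iff.2 ⟨by positivity, ?_⟩
  rw [← sq_abs (y.1 : ℝ), ← sq_abs (y.2 : ℝ)]
  nlinarith [abs_nonneg (y.1 : ℝ), abs_nonneg (y.2 : ℝ)]

theorem sum_log (r : ℕ) (hr : 1 ≤ r) :
    ∑ y ∈ bl 0 (2 * r), (1 + Real.log (4 * r / (1 + eu y))) ≤ 65 * (r : ℝ) ^ 2 := by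
  have hr1 : (1 : ℝ) ≤ r := by exact_mod_cast hr
  have h1 : ∑ m ∈ range (2 * r + 1), Real.log (4 * r / (1 + |((m : ℤ) : ℝ)|)) ≤ 4 * r := by
    rw [← Real.log_prod fun _ _ => by positivity, Real.log_le_iff_le_exp (by positivity)]
    refine le_of_eq_of_le ?_ (Real.pow_div_factorial_le_exp (4 * (r : ℝ)) (by positivity) (2 * r + 1))
    rw [prod_div_distrib, prod_const, card_range, ← prod_range_add_one_eq_factorial, Nat.cast_prod]
    refine congrArg _ (prod_congr rfl fun m _ => ?_)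
    rw [Int.cast_natCast, Nat.abs_cast, add_comm, Nat.cast_succ]
  have h2 := sum_Icc_of_even_eq_range (f := fun n : ℤ => Real.log (4 * r / (1 + |(n : ℝ)|)))
    (fun n => by simp) (2 * r)
  have h3 : 0 ≤ Real.log (4 * r / (1 + |((0 : ℤ) : ℝ)|)) := Real.log_nonneg (by simp; linarith)
  calc _ ≤ ∑ y ∈ bl 0 (2 * r), (1 + Real.log (4 * r / (1 + |(y.1 : ℝ)|))) := sum_le_sum fun y _ => by
        have := abs_fst_le_eu y
        have := eu_nonneg y
        gcongr
    _ = (4 * r + 1) ^ 2 + (4 * r + 1) *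
        ∑ n ∈ Icc (-(2 * r : ℕ) : ℤ) (2 * r : ℕ), Real.log (4 * r / (1 + |(n : ℝ)|)) := by
        rw [sum_add_distrib, sum_const, card_bl, bl, sum_product, mul_sum]
        simp only [Prod.fst_zero, Prod.snd_zero, zero_sub, zero_add, sum_const, Int.card_Icc,
          nsmul_eq_mul, mul_one]
        rw [show ((2 * r : ℕ) + 1 - -(2 * r : ℕ) : ℤ).toNat = 4 * r + 1 by omega]
        push_cast
        ring
    _ ≤ _ := by
        rw [h2, two_smul]
        nlinarith

end Ha91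

open Ha91

theorem tayStmt : TayStmt := fun _ _ _ _ hy =>
  ⟨fun _ h => tay1 hy fun _ hx => ⟨h _ (add_mem_bl.2 hx) _ e1_nn, h _ (add_mem_bl.2 hx) _ e2_nn⟩,
    fun _ h => tay2 hy fun x hx => h x (bl_mono _ (Nat.le_succ _) hx),
    fun _ h => tay3 hy fun x hx => h x (bl_mono _ (Nat.le_add_right _ _) hx)⟩

theorem mvStmt (hP : PkStmt) : MvStmt := by
  obtain ⟨-, κ, C, hP⟩ := hP
  obtain ⟨A, hA1, hA2, hA3⟩ : ∃ A : ℝ, 10 ^ 5 ≤ A ∧ |κ| ≤ A ∧ |C| + 4 ≤ A :=
    ⟨10 ^ 5 + |κ| + |C|, by linarith [abs_nonneg κ, abs_nonneg C],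
      by linarith [abs_nonneg C], by linarith [abs_nonneg κ]⟩
  refine ⟨8 * A ^ 2, fun r hr => ?_⟩
  obtain ⟨χ, c1, c2, c3, c4, c5⟩ := exists_cut2 hr
  have hr1 : (1 : ℝ) ≤ r := by exact_mod_cast hr
  have hπ : 1 ≤ 2 * Real.pi := by linarith [Real.pi_gt_three]
  set a : Pt → ℝ := (fun _ => Real.log (4 * r) / (2 * Real.pi) + κ) - pk with ha
  have a1 : ∀ y, y ≠ 0 → |a y| ≤ |Real.log (4 * r / eu y)| + |C| := fun y hy => by
    have h1 := one_le_eu hy
    have h2 := (hP y hy).trans ((div_le_div_of_nonneg_right (le_abs_self C) (by linarith)).trans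
      (div_le_self (abs_nonneg C) h1))
    have h3 : |Real.log (4 * r / eu y) / (2 * Real.pi)| ≤ |Real.log (4 * r / eu y)| := by
      rw [abs_div, abs_of_pos (by linarith : 0 < 2 * Real.pi)]
      exact div_le_self (abs_nonneg _) hπ
    have h4 : a y = Real.log (4 * r / eu y) / (2 * Real.pi) - (pk y - lg y - κ) := by
      rw [Real.log_div (by positivity) (by positivity), ha, lg]; simp only [Pi.sub_apply]; ring
    rw [h4]
    exact (abs_sub _ _).trans (add_le_add h3 h2)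
  have a2 : ∀ y ∈ bl 0 (2 * r + 1), y ∉ bl 0 r → |a y| ≤ A ∧ r ≤ eu y ∧ 1 + eu y ≤ 7 * r := by
    intro y h1 h2
    have h3 := eu_le_of_bl h1
    have h4 := le_eu_of_not_bl h2
    rw [sub_zero] at h3 h4
    push_cast at h3
    refine ⟨(a1 y fun h => h2 (h ▸ self_mem_bl _ _)).trans ?_, by linarith, by linarith⟩
    have h5 : 0 < 4 * r / eu y := by have : 0 < eu y := by linarith
                                     positivity
    have h6 := Real.log_le_sub_one_of_pos h5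
    have h7 := Real.one_sub_inv_le_log_of_pos h5
    have h8 : 4 * r / eu y ≤ 4 := by rw [div_le_iff₀ (by linarith)]; linarith
    have h9 : (4 * r / eu y)⁻¹ ≤ 4 := by rw [inv_div, div_le_iff₀ (by linarith)]; linarith
    have : |Real.log (4 * r / eu y)| ≤ 4 := abs_le.2 ⟨by linarith, by linarith⟩
    linarith
  have a3 : ∀ e ∈ nn, ∀ y, |dif e a y| ≤ A / (1 + eu y) := fun e he y => by
    have h1 : dif e a y = -dif e pk y := by simp [ha, dif]
    have := eu_nonneg y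
    rw [h1, abs_neg]
    exact (dif_pk_le he y).trans (by gcongr)
  have a4 : ∀ y, lap a y = -dl 0 y := fun y => by
    have := lap_pk y
    rw [lap] at this
    rw [ha, lap, lapJ_sub, Pi.sub_apply, lapJ_const, this, dl, Pi.single_apply, zero_sub]
  have c6 : ∀ e ∈ nn, ∀ y, ¬ (y ∈ bl 0 (2 * r + 1) ∧ y ∉ bl 0 r) → dif e χ y = 0 := by
    intro e he y hy
    rw [dif, sub_eq_zero]
    by_cases h : y ∈ bl 0 r
    · rw [c1 _ (bl_mono _ (Nat.le_succ _) h), c1 _ (bl_subset_bl h (by omega) (nn_bl he y))]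
    · have h1 : y ∉ bl 0 (2 * r + 1) := fun h1 => hy ⟨h1, h⟩
      rw [c2 _ fun h2 => h1 (bl_mono _ (Nat.le_succ _) h2), c2 _ fun h2 =>
        h1 (bl_subset_bl h2 (by omega) (mem_bl_comm.1 (nn_bl he y)))]
  have hk : ∀ y, lap (fun w => a w * χ w) y + dl 0 y =
      a y * lap χ y + ∑ e ∈ nn, dif e a y * dif e χ y := fun y => by
    rw [lap, lapJ_mul, ← lap, ← lap, a4]
    by_cases h : y = 0
    · rw [h, c1 0 (self_mem_bl _ _)]; ring
    · rw [dl, Pi.single_eq_of_ne h]; ring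
  have hk0 : ∀ y, ¬ (y ∈ bl 0 (2 * r + 1) ∧ y ∉ bl 0 r) →
      lap (fun w => a w * χ w) y + dl 0 y = 0 := fun y hy => by
    have : lap χ y = 0 := sum_eq_zero fun e he => c6 e he y hy
    rw [hk, this, sum_eq_zero fun e he => by rw [c6 e he y hy, mul_zero]]; ring
  have hA0 : 0 ≤ A := by linarith
  refine ⟨fun y => lap (fun w => a w * χ w) y + dl 0 y, fun w => a w * χ w, fun y => ?_,
    fun y hy => hk0 y fun h => h.2 hy, fun y hy => ?_, fun y hy => by simp only [c2 y hy, mul_zero],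
    fun e he y => ?_, fun u z => ?_⟩
  · by_cases hy : y ∈ bl 0 (2 * r + 1) ∧ y ∉ bl 0 r
    · obtain ⟨h1, h2, -⟩ := a2 y hy.1 hy.2
      have h3 : ∀ e ∈ nn, |dif e a y * dif e χ y| ≤ A ^ 2 / (r : ℝ) ^ 2 := fun e he => by
        rw [abs_mul, ← div_pow, pow_two]
        exact mul_le_mul ((a3 e he y).trans (by gcongr; linarith)) ((c4 e he y).trans (by gcongr))
          (abs_nonneg _) (by positivity)
      have h4 := (abs_sum_le_sum_abs _ _).trans (sum_le_card_nsmul _ _ _ h3)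
      have h5 : |a y * lap χ y| ≤ A ^ 2 / (r : ℝ) ^ 2 := by
        rw [abs_mul, pow_two A, mul_div_assoc]
        exact mul_le_mul h1 ((c5 y).trans (by gcongr)) (abs_nonneg _) hA0
      have h6 : 0 ≤ A ^ 2 / (r : ℝ) ^ 2 := by positivity
      rw [show nn.card = 4 by decide, nsmul_eq_mul] at h4
      simp only [hk]
      rw [mul_div_assoc]
      push_cast at h4
      linarith [abs_add_le (a y * lap χ y) (∑ e ∈ nn, dif e a y * dif e χ y)]
    · simp only [hk0 y hy, abs_zero]; positivity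
  · have h1 := eu_le_three hy
    have h0 := eu_nonneg y
    have h2 : 0 ≤ Real.log (4 * r / (1 + eu y)) :=
      Real.log_nonneg (by rw [one_le_div (by positivity)]; linarith)
    have h3 : |a y| ≤ A * (1 + Real.log (4 * r / (1 + eu y))) := by
      by_cases h : y = 0
      · have h4 : pk 0 = 0 := R165.Pkx583.pk_zero
        subst h
        simp only [ha, Pi.sub_apply, h4, eu_zero, add_zero, div_one, sub_zero] at h2 ⊢
        refine (abs_add_le _ _).trans ?_
        rw [abs_of_nonneg (by positivity)]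
        nlinarith [div_le_self h2 hπ]
      · have h4 := one_le_eu h
        have h5 : Real.log (4 * r / eu y) ≤ 1 + Real.log (4 * r / (1 + eu y)) := by
          have h6 : Real.log 2 ≤ 1 := by linarith [Real.log_le_sub_one_of_pos two_pos]
          refine le_trans ?_ (add_le_add_left h6 _)
          rw [← Real.log_mul two_ne_zero (by positivity)]
          refine Real.log_le_log (by positivity) ?_
          rw [← mul_div_assoc, div_le_div_iff₀ (by positivity) (by positivity)]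
          nlinarith
        have h6 := a1 y h
        rw [abs_of_nonneg (Real.log_nonneg (by rw [one_le_div (by positivity)]; linarith))] at h6
        nlinarith
    rw [abs_mul]
    refine (mul_le_mul h3 ((c3 y).trans hA1) (abs_nonneg _) (by positivity)).trans ?_
    nlinarith [mul_nonneg (sq_nonneg A) h2]
  · have h0 := eu_nonneg y
    have e1 : dif e (fun w => a w * χ w) y = χ (y + e) * dif e a y + a y * dif e χ y := by
      simp only [dif]; ring
    have h1 : |χ (y + e) * dif e a y| ≤ A ^ 2 / (1 + eu y) := by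
      rw [abs_mul, pow_two A, mul_div_assoc]
      exact mul_le_mul ((c3 _).trans hA1) (a3 e he y) (abs_nonneg _) hA0
    have h2 : |a y * dif e χ y| ≤ 7 * A ^ 2 / (1 + eu y) := by
      by_cases hy : y ∈ bl 0 (2 * r + 1) ∧ y ∉ bl 0 r
      · obtain ⟨h3, -, h4⟩ := a2 y hy.1 hy.2
        rw [abs_mul]
        refine (mul_le_mul h3 ((c4 e he y).trans (div_le_div_of_nonneg_right hA1 (by positivity)))
          (abs_nonneg _) hA0).trans ?_
        rw [← mul_div_assoc, div_le_div_iff₀ (by positivity) (by positivity)]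
        nlinarith [mul_le_mul_of_nonneg_left h4 (sq_nonneg A)]
      · rw [c6 e he y hy, mul_zero, abs_zero]; positivity
    rw [e1]
    refine (abs_add_le _ _).trans ((add_le_add h1 h2).trans_eq ?_)
    ring
  · have := green nL_ok (D := bl 0 (2 * r)) (D' := bl 0 (2 * r + 1))
      (fun x hx => by rw [nL_rg]; exact bl_subset_bl hx (by omega)) (fun w => u (w + z))
      (v := fun w => a w * χ w) fun y hy => by simp only [c2 y hy, mul_zero]
    have h1 := ip_dl (self_mem_bl (0 : Pt) (2 * r + 1)) fun w => u (z + w)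
    have h2 : ∑ y ∈ bl 0 (2 * r), a y * χ y * lap u (z + y) =
        ∑ y ∈ bl 0 (2 * r + 1), lap (fun w => a w * χ w) y * u (z + y) :=
      (sum_congr rfl fun y _ => by rw [lapJ_shift, mul_comm, add_comm y]; rfl).trans
        (this.trans (sum_congr rfl fun y _ => by rw [mul_comm, add_comm y]; rfl))
    rw [ip, add_zero] at h1
    simp only [add_mul, sum_add_distrib, h1, h2]
    ring

theorem harmStmt (hP : PkStmt) : HarmStmt := by
  refine ⟨?_, ⟨4, fun r u z M δ hr h1 h2 e he => grad hr h1 h2 he⟩,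
    fun k => (harm3 k).imp fun C h => h.2⟩
  obtain ⟨C, h⟩ := mvStmt hP
  refine ⟨65 * C, fun r u z δ hr hδ => ?_⟩
  obtain ⟨k, ψ, k1, k2, p1, -, -, h⟩ := h r hr
  have hr0 : (0 : ℝ) < r := by exact_mod_cast hr
  have hδ0 : 0 ≤ δ := (abs_nonneg _).trans (hδ z (self_mem_bl _ _))
  have hC : 0 ≤ C := by
    have := (abs_nonneg _).trans (k1 0)
    rwa [le_div_iff₀ (by positivity), zero_mul] at this
  have h1 : |∑ y ∈ bl 0 (2 * r + 1), k y * u (z + y)| ≤
      C * ((∑ x ∈ bl z (2 * r + 1) \ bl z r, |u x|) / (r : ℝ) ^ 2) := by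
    rw [← sum_sdiff (bl_mono 0 (show r ≤ 2 * r + 1 by omega)),
      sum_eq_zero (s := bl 0 r) fun y hy => by rw [k2 y hy, zero_mul], add_zero,
      ← sum_equiv (s := bl 0 (2 * r + 1) \ bl 0 r) (t := bl z (2 * r + 1) \ bl z r)
        (f := fun y => |u (z + y)|) (g := fun x => |u x|) (Equiv.addLeft z)
        (fun y => by simp only [mem_sdiff, Equiv.coe_addLeft, add_mem_bl]) fun _ _ => rfl,
      ← mul_div_assoc, mul_div_right_comm, mul_sum]
    refine (abs_sum_le_sum_abs _ _).trans (sum_le_sum fun y _ => ?_)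
    rw [abs_mul]
    exact mul_le_mul_of_nonneg_right (k1 y) (abs_nonneg _)
  have h2 : |∑ y ∈ bl 0 (2 * r), ψ y * lap u (z + y)| ≤ C * (65 * (r : ℝ) ^ 2) * δ := by
    refine (abs_sum_le_sum_abs _ _).trans ((sum_le_sum fun y hy => (abs_mul _ _).trans_le
      (mul_le_mul (p1 y hy) (hδ _ (add_mem_bl.2 hy)) (abs_nonneg _)
        ((abs_nonneg _).trans (p1 y hy)))).trans ?_)
    rw [← sum_mul, ← mul_sum]
    gcongr
    exact sum_log r hr
  have h3 : 0 ≤ C * ((∑ x ∈ bl z (2 * r + 1) \ bl z r, |u x|) / (r : ℝ) ^ 2) :=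
    (abs_nonneg _).trans h1
  rw [h u z]
  refine (abs_sub _ _).trans ?_
  linarith

end Crest.Agent.T145.Pot
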