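import Crest.Agent.T145.PotL_17

/-!
# Row 145 (helper14): `HomStmt`, the `J`-Dirichlet form against the nearest neighbour form
-/

set_option autoImplicit false

namespace Crest.Agent.T145.Pot

open Finset

namespace Ho14

/-- finite support -/
def F (u : Pt → ℝ) : Prop := ∃ D : Finset Pt, Sup D u

/-- `ℓ²` pairing -/
noncomputable def I (u v : Pt → ℝ) : ℝ := ∑' x, u x * v x

/-- squared `ℓ²` norm -/
noncomputable def S (u : Pt → ℝ) : ℝ := ∑' x, u x ^ 2

variable {u v w : Pt → ℝ}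

theorem F.add (h : F u) (h' : F v) : F (u + v) := by
  obtain ⟨D, hD⟩ := h
  obtain ⟨D', hD'⟩ := h'
  exact ⟨D ∪ D', (hD.mono subset_union_left).add (hD'.mono subset_union_right)⟩

theorem F.smul (h : F u) (c : ℝ) : F (c • u) := h.imp fun _ hD => hD.smul c

theorem F.neg (h : F u) : F (-u) := h.imp fun _ hD => hD.neg

theorem F.sub (h : F u) (h' : F v) : F (u - v) := by
  rw [sub_eq_add_neg]; exact h.add h'.neg

theorem F.shift (h : F u) (y : Pt) : F fun x => u (x + y) := by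
  obtain ⟨D, hD⟩ := h
  exact ⟨D.image (· - y), fun x hx => hD _ fun h' => hx (mem_image.2 ⟨x + y, h', by simp⟩)⟩

theorem F.dif (h : F u) (y : Pt) : F (dif y u) := (h.shift y).sub h

theorem F.summ (h : F u) (v : Pt → ℝ) : Summable fun x => u x * v x := by
  obtain ⟨D, hD⟩ := h
  exact summable_of_ne_finset_zero (s := D) fun x hx => by simp [hD x hx]

theorem I_comm (u v : Pt → ℝ) : I u v = I v u := tsum_congr fun _ => mul_comm _ _

theorem I_self (u : Pt → ℝ) : I u u = S u := tsum_congr fun _ => (pow_two _).symm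

theorem S_nonneg (u : Pt → ℝ) : 0 ≤ S u := tsum_nonneg fun _ => sq_nonneg _

theorem S_eq {D : Finset Pt} (h : Sup D u) : S u = ∑ x ∈ D, u x ^ 2 :=
  tsum_eq_sum fun x hx => by simp [h x hx]

theorem I_add (h : F w) (u v : Pt → ℝ) : I w (u + v) = I w u + I w v := by
  rw [I, I, I, ← (h.summ u).tsum_add (h.summ v)]
  exact tsum_congr fun x => mul_add _ _ _

theorem I_smul (w u : Pt → ℝ) (c : ℝ) : I w (c • u) = c * I w u := by
  rw [I, I, ← tsum_mul_left]
  exact tsum_congr fun x => by simp only [Pi.smul_apply, smul_eq_mul]; ring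

theorem S_add (h : F u) (h' : F v) : S (u + v) = S u + 2 * I u v + S v := by
  rw [← I_self, I_add (h.add h'), I_comm _ u, I_comm _ v, I_add h, I_add h', I_self, I_self,
    I_comm v]
  ring

theorem S_smul (u : Pt → ℝ) (c : ℝ) : S (c • u) = c ^ 2 * S u := by
  rw [← I_self, I_smul, I_comm, I_smul, I_self]; ring

theorem S_neg (u : Pt → ℝ) : S (-u) = S u := by simp [S]

theorem S_shift (u : Pt → ℝ) (y : Pt) : S (fun x => u (x + y)) = S u :=
  (Equiv.addRight y).tsum_eq fun x => u x ^ 2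

/-- summation by parts -/
theorem I_dif (h : F u) (v : Pt → ℝ) (y : Pt) : I (dif y u) v = I u (dif (-y) v) := by
  have h1 : ∑' x, u (x + y) * v x = ∑' x, u x * v (x + -y) := by
    rw [← (Equiv.addRight y).tsum_eq fun x => u x * v (x + -y)]
    simp
  simp only [I, dif, sub_mul, mul_sub]
  rw [((h.shift y).summ v).tsum_sub (h.summ v), (h.summ _).tsum_sub (h.summ v), h1]

theorem S_dif_neg (u : Pt → ℝ) (y : Pt) : S (dif (-y) u) = S (dif y u) := by
  rw [← S_shift _ y, ← S_neg]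
  congr 1
  funext x
  simp [dif]

/-- Minkowski -/
theorem mink {ι : Type*} (T : Finset ι) (a b : ι → ℝ) :
    √(∑ i ∈ T, (a i + b i) ^ 2) ≤ √(∑ i ∈ T, a i ^ 2) + √(∑ i ∈ T, b i ^ 2) := by
  simpa only [msF_apply, one_mul, Pi.add_apply, pow_two] using
    (sy_msF (S := T) (κ := fun _ => 1) fun _ _ => zero_le_one).sqrt_add a b

theorem N_add (h : F u) (h' : F v) : √(S (u + v)) ≤ √(S u) + √(S v) := by
  obtain ⟨D, hD⟩ := h
  obtain ⟨D', hD'⟩ := h'
  have h1 := hD.mono (subset_union_left (s₂ := D'))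
  have h2 := hD'.mono (subset_union_right (s₁ := D))
  rw [S_eq h1, S_eq h2, S_eq (h1.add h2)]
  exact mink _ u v

theorem N_sub (h : F u) (h' : F v) : √(S (u - v)) ≤ √(S u) + √(S v) := by
  rw [sub_eq_add_neg, ← S_neg v]; exact N_add h h'.neg

/-- the Dirichlet form as a sum over the steps -/
theorem eD_eq {Λ : Lat} (hΛ : Λ.Ok) {D : Finset Pt} (h : Sup D u) :
    eD Λ D u u = ∑ y ∈ Λ.Jp, S (dif y u) := by
  have hF : F u := ⟨D, h⟩
  have h1 : ∀ y, S (dif y u) = -∑ x ∈ D, (dif y u x + dif (-y) u x) * u x := fun y => by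
    rw [← I_self, I_dif hF, I, tsum_eq_sum (s := D) fun x hx => by simp [h x hx], ← sum_neg_distrib]
    exact sum_congr rfl fun x _ => by simp only [dif, neg_add_cancel_right]; ring
  rw [eD_sbp hΛ u h, sum_congr rfl fun y _ => h1 y, sum_neg_distrib, sum_comm]
  simp only [lapJ, hΛ.sum_J, sum_mul, dif]

theorem eD_nL {D : Finset Pt} (h : Sup D u) : eD nL D u u = S (dif (1, 0) u) + S (dif (0, 1) u) := by
  rw [eD_eq nL_ok h, nL_Jp, sum_pair (by decide)]

/-- the `H²` identity -/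
theorem S_lap (h : F u) : S (lap u) = S (dif (1, 0) (dif (1, 0) u)) +
    2 * S (dif (1, 0) (dif (0, 1) u)) + S (dif (0, 1) (dif (0, 1) u)) := by
  have h1 : lap u = -(dif (-(1, 0)) (dif (1, 0) u) + dif (-(0, 1)) (dif (0, 1) u)) := by
    funext z
    obtain ⟨a, b⟩ := z
    simp only [lap_apply, dif, Pi.neg_apply, Pi.add_apply, neg_add_cancel_right]
    simp only [Prod.neg_mk, Prod.mk_add_mk, neg_zero, add_zero, ← sub_eq_add_neg]
    ring
  rw [h1, S_neg, S_add ((h.dif _).dif _) ((h.dif _).dif _), S_dif_neg, S_dif_neg, I_dif (h.dif _),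
    neg_neg, dif_comm (1, 0) (-(0, 1)), I_comm, I_dif ((h.dif _).dif _), neg_neg,
    dif_comm (0, 1) (1, 0), I_self]

theorem S_difs_le (h : F u) {e e' : Pt} (he : e ∈ nn) (he' : e' ∈ nn) :
    S (dif e (dif e' u)) ≤ S (lap u) := by
  have key : ∀ e ∈ nn, ∃ f : Pt, (f = (1, 0) ∨ f = (0, 1)) ∧ ∀ w, S (dif e w) = S (dif f w) := by
    intro e he
    simp only [nn, mem_insert, mem_singleton] at he
    rcases he with rfl | rfl | rfl | rfl
    · exact ⟨_, Or.inl rfl, fun _ => rfl⟩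
    · exact ⟨_, Or.inl rfl, fun w => S_dif_neg w (1, 0)⟩
    · exact ⟨_, Or.inr rfl, fun _ => rfl⟩
    · exact ⟨_, Or.inr rfl, fun w => S_dif_neg w (0, 1)⟩
  obtain ⟨f, hf, h1⟩ := key e he
  obtain ⟨f', hf', h2⟩ := key e' he'
  rw [h1, dif_comm, h2, S_lap h]
  have a1 := S_nonneg (dif (1, 0) (dif (1, 0) u))
  have a2 := S_nonneg (dif (1, 0) (dif (0, 1) u))
  have a3 := S_nonneg (dif (0, 1) (dif (0, 1) u))
  rcases hf with rfl | rfl <;> rcases hf' with rfl | rfl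
  · linarith
  · rw [dif_comm]; linarith
  · linarith
  · linarith

theorem ind2 {P : Pt → Prop} (h0 : P 0)
    (h1 : ∀ y e : Pt, e = (1, 0) ∨ e = (0, 1) → (P y ↔ P (y + e))) (y : Pt) : P y := by
  obtain ⟨a, b⟩ := y
  have ha : P (a, 0) := by
    induction a using Int.induction_on with
    | zero => exact h0
    | succ n ih => simpa using (h1 _ _ (Or.inl rfl)).1 ih
    | pred n ih => exact (h1 _ _ (Or.inl rfl)).2 (by simpa using ih)
  induction b using Int.induction_on with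
  | zero => exact ha
  | succ n ih => simpa using (h1 _ _ (Or.inr rfl)).1 ih
  | pred n ih => exact (h1 _ _ (Or.inr rfl)).2 (by simpa using ih)

/-- telescoping, first order -/
theorem crude (y : Pt) : ∃ C : ℝ, 0 ≤ C ∧ ∀ (u : Pt → ℝ) (M : ℝ), F u → √(S (dif (1, 0) u)) ≤ M →
    √(S (dif (0, 1) u)) ≤ M → √(S (dif y u)) ≤ C * M := by
  induction y using ind2 with
  | h0 => exact ⟨0, le_rfl, fun u M _ _ _ => by simp [S, dif]⟩
  | h1 y e he =>
    have h1 : ∀ u : Pt → ℝ, dif (y + e) u = dif y u + fun x => dif e u (x + y) := fun u => by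
      funext x; simp [dif, add_assoc]
    have h2 : ∀ (u : Pt → ℝ) (M : ℝ), √(S (dif (1, 0) u)) ≤ M → √(S (dif (0, 1) u)) ≤ M →
        √(S fun x => dif e u (x + y)) ≤ M := fun u M a b => by
      rw [S_shift]; rcases he with rfl | rfl <;> assumption
    refine ⟨fun ⟨C, hC, h⟩ => ⟨C + 1, by positivity, fun u M hu a b => ?_⟩,
      fun ⟨C, hC, h⟩ => ⟨C + 1, by positivity, fun u M hu a b => ?_⟩⟩
    · rw [h1]
      linarith [N_add (hu.dif y) ((hu.dif e).shift y), h u M hu a b, h2 u M a b]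
    · rw [← sub_eq_iff_eq_add.2 (h1 u)]
      linarith [N_sub (hu.dif (y + e)) ((hu.dif e).shift y), h u M hu a b, h2 u M a b]

/-- the linear part of a difference -/
def L (y : Pt) (u : Pt → ℝ) : Pt → ℝ := (y.1 : ℝ) • dif (1, 0) u + (y.2 : ℝ) • dif (0, 1) u

theorem F.L (h : F u) (y : Pt) : F (L y u) := ((h.dif _).smul _).add ((h.dif _).smul _)

/-- telescoping, second order -/
theorem sharp (y : Pt) : ∃ C : ℝ, 0 ≤ C ∧ ∀ u : Pt → ℝ, F u →
    √(S (dif y u - L y u)) ≤ C * √(S (lap u)) := by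
  induction y using ind2 with
  | h0 => exact ⟨0, le_rfl, fun u _ => by simp [S, dif, L]⟩
  | h1 y e he =>
    have h1 : ∀ u : Pt → ℝ, dif (y + e) u - L (y + e) u = dif y u - L y u + dif y (dif e u) := by
      intro u
      funext x
      rcases he with rfl | rfl <;>
        simp only [dif, L, Pi.add_apply, Pi.sub_apply, Pi.smul_apply, smul_eq_mul, Prod.fst_add,
          Prod.snd_add, add_assoc] <;> push_cast <;> ring
    obtain ⟨K, hK, h2⟩ := crude y
    have he' : e ∈ nn := by rcases he with rfl | rfl <;> decide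
    have h3 : ∀ u : Pt → ℝ, F u → √(S (dif y (dif e u))) ≤ K * √(S (lap u)) := fun u hu =>
      h2 _ _ (hu.dif e) (Real.sqrt_le_sqrt (S_difs_le hu (by decide) he'))
        (Real.sqrt_le_sqrt (S_difs_le hu (by decide) he'))
    refine ⟨fun ⟨C, hC, h⟩ => ⟨C + K, by positivity, fun u hu => ?_⟩,
      fun ⟨C, hC, h⟩ => ⟨C + K, by positivity, fun u hu => ?_⟩⟩
    · rw [h1]
      linarith [N_add ((hu.dif y).sub (hu.L y)) ((hu.dif e).dif y), h u hu, h3 u hu]
    · rw [← sub_eq_iff_eq_add.2 (h1 u)]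
      linarith [N_sub ((hu.dif (y + e)).sub (hu.L (y + e))) ((hu.dif e).dif y), h u hu, h3 u hu]

theorem sum_S_L {Λ : Lat} (hΛ : Λ.Ok) (h : F u) :
    ∑ y ∈ Λ.Jp, S (L y u) = Λ.a * (S (dif (1, 0) u) + S (dif (0, 1) u)) := by
  have h1 : ∀ y : Pt, S (L y u) = (y.1 : ℝ) ^ 2 * S (dif (1, 0) u) +
      (y.1 : ℝ) * y.2 * (2 * I (dif (1, 0) u) (dif (0, 1) u)) + (y.2 : ℝ) ^ 2 * S (dif (0, 1) u) := by
    intro y
    rw [L, S_add ((h.dif _).smul _) ((h.dif _).smul _), S_smul, S_smul, I_smul, I_comm, I_smul,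
      I_comm]
    ring
  simp only [h1, sum_add_distrib, ← sum_mul, hΛ.sum_mixed, ← hΛ.a_eq_snd]
  rw [← Lat.a]
  ring

theorem sqrt_sum_le {ι : Type*} (T : Finset ι) {a b c : ι → ℝ} (ha : ∀ i, 0 ≤ a i)
    (hb : ∀ i, 0 ≤ b i) {C : ι → ℝ} {M : ℝ} (hM : 0 ≤ M)
    (h : ∀ i, √(a i) ≤ √(b i) + c i) (hc : ∀ i, c i ≤ C i * M) :
    √(∑ i ∈ T, a i) ≤ √(∑ i ∈ T, b i) + √(∑ i ∈ T, C i ^ 2) * M := by
  have h1 := mink T (fun i => √(b i)) fun i => C i * M
  simp only [Real.sq_sqrt (hb _), mul_pow, ← sum_mul] at h1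
  rw [Real.sqrt_mul' _ (sq_nonneg M), Real.sqrt_sq hM] at h1
  refine le_trans (Real.sqrt_le_sqrt (sum_le_sum fun i _ => ?_)) h1
  rw [← Real.sq_sqrt (ha i)]
  exact pow_le_pow_left₀ (Real.sqrt_nonneg _) ((h i).trans (by linarith [hc i])) 2

theorem part3 {Λ : Lat} (hΛ : Λ.Ok) : ∃ C : ℝ, 0 ≤ C ∧ ∀ (D : Finset Pt) (u : Pt → ℝ), Sup D u →
    |√(eD Λ D u u) - √(Λ.a * eD nL D u u)| ≤ C * √(S (lap u)) := by
  choose C _ h using sharp
  refine ⟨√(∑ y ∈ Λ.Jp, C y ^ 2), Real.sqrt_nonneg _, fun D u hu => ?_⟩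
  have hF : F u := ⟨D, hu⟩
  rw [eD_eq hΛ hu, eD_nL hu, ← sum_S_L hΛ hF, abs_sub_le_iff, sub_le_iff_le_add',
    sub_le_iff_le_add']
  refine ⟨sqrt_sum_le _ (fun _ => S_nonneg _) (fun _ => S_nonneg _) (Real.sqrt_nonneg _)
    (fun y => ?_) fun y => h y u hF, sqrt_sum_le _ (fun _ => S_nonneg _) (fun _ => S_nonneg _)
    (Real.sqrt_nonneg _) (fun y => ?_) fun y => h y u hF⟩
  · simpa using N_add (hF.L y) ((hF.dif y).sub (hF.L y))
  · simpa using N_sub (hF.dif y) ((hF.dif y).sub (hF.L y))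

theorem part2 {Λ : Lat} (hΛ : Λ.Ok) : ∃ C : ℝ, 0 ≤ C ∧ ∀ (D : Finset Pt) (u : Pt → ℝ), Sup D u →
    eD Λ D u u ≤ C * eD nL D u u := by
  choose C hC h using crude
  refine ⟨∑ y ∈ Λ.Jp, C y ^ 2, by positivity, fun D u hu => ?_⟩
  have a1 := S_nonneg (dif (1, 0) u)
  have a2 := S_nonneg (dif (0, 1) u)
  rw [eD_eq hΛ hu, eD_nL hu, sum_mul]
  refine sum_le_sum fun y _ => ?_
  have := h y u √(S (dif (1, 0) u) + S (dif (0, 1) u)) ⟨D, hu⟩ (Real.sqrt_le_sqrt (by linarith))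
    (Real.sqrt_le_sqrt (by linarith))
  rwa [Real.sqrt_le_left (mul_nonneg (hC y) (Real.sqrt_nonneg _)), mul_pow,
    Real.sq_sqrt (by linarith)] at this

theorem edge_le {B : Finset Pt} {x y : Pt} {d : ℕ} (hB : Rect B x y) (hd : d1 x y ≤ d)
    (u : Pt → ℝ) : (u y - u x) ^ 2 ≤
      d * ∑ e ∈ nL.edI B, if y ∈ bl e.1 d then (u e.2 - u e.1) ^ 2 else 0 := by
  obtain ⟨φ, a1, a2, a3, -, a5⟩ := nL_ok.exists_flow _ x rfl hB
  have b1 : ∀ e, |(φ e : ℝ)| ≤ 1 := fun e => by exact_mod_cast a1 e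
  have b3 : ∑ e ∈ nL.edI B, |(φ e : ℝ)| ≤ d := by
    have : ∑ e ∈ nL.edI B, |φ e| ≤ d := by rw [a3]; exact_mod_cast hd
    exact_mod_cast this
  rw [a5 u]
  refine (sum_sq_le_sum_mul_sum_of_sq_le_mul _ (f := fun e => |(φ e : ℝ)|)
    (g := fun e => if y ∈ bl e.1 d then (u e.2 - u e.1) ^ 2 else 0) (fun _ _ => abs_nonneg _)
    (fun _ _ => by positivity) fun e _ => ?_).trans
    (mul_le_mul_of_nonneg_right b3 (sum_nonneg fun _ _ => by positivity))
  by_cases h0 : φ e = 0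
  · simp [h0]
  · have h1 := (a2 e h0).2.2.1.trans hd
    rw [if_pos (by rw [mem_bl]; unfold d1 at h1; omega), zsmul_eq_mul, mul_pow, ← sq_abs (φ e : ℝ)]
    exact mul_le_mul_of_nonneg_right (by nlinarith [b1 e, abs_nonneg (φ e : ℝ)]) (sq_nonneg _)

theorem part1 (Λ : Lat) : ∃ C : ℝ, 0 ≤ C ∧ ∀ (a : Pt) (n : ℕ) (u : Pt → ℝ),
    eN Λ (sq a n) u u ≤ C * eN nL (sq a n) u u := by
  refine ⟨(2 * Λ.rg : ℕ) * (2 * ((2 * (2 * Λ.rg) + 1) ^ 2 * Λ.Jp.card) : ℕ), by positivity,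
    fun a n u => ?_⟩
  rw [eN, eN, edF_self, edF_self]
  refine (sum_le_sum fun e he => edge_le (d := 2 * Λ.rg)
    (rect_sq (Lat.mem_edI.1 he).2.1 (Lat.mem_edI.1 he).2.2) ?_ u).trans ?_
  · have := Lat.edge_near (Lat.mem_edI.1 he).1
    rw [mem_bl] at this; unfold d1; omega
  · rw [← mul_sum, sum_comm, mul_assoc, mul_sum _ _ ((_ : ℕ) : ℝ), mul_sum _ _ ((_ : ℕ) : ℝ),
      mul_sum _ _ ((_ : ℕ) : ℝ)]
    refine sum_le_sum fun e _ => mul_le_mul_of_nonneg_left ?_ (by positivity)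
    rw [← sum_filter, sum_const, nsmul_eq_mul]
    refine mul_le_mul_of_nonneg_right (Nat.cast_le.2 ?_) (sq_nonneg _)
    rw [← card_bl e.1]
    refine (card_le_card fun e' he' => ?_).trans (Lat.card_edT_le _)
    rw [mem_filter, Lat.mem_edI] at he'
    exact Lat.mem_edT.2 ⟨he'.1.1, Or.inr he'.2⟩

end Ho14

theorem homStmt : HomStmt := fun Λ hΛ => by
  obtain ⟨C1, a1, h1⟩ := Ho14.part1 Λ
  obtain ⟨C2, a2, h2⟩ := Ho14.part2 hΛ
  obtain ⟨C3, a3, h3⟩ := Ho14.part3 hΛ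
  refine ⟨C1 + C2 + C3, fun a n u => (h1 a n u).trans ?_, fun D u hu => (h2 D u hu).trans ?_,
    fun D u hu => ⟨fun e he e' he' => Ho14.S_difs_le ⟨D, hu⟩ he he', (h3 D u hu).trans ?_⟩⟩
  · exact mul_le_mul_of_nonneg_right (by linarith) ((sy_eN _).nonneg u)
  · exact mul_le_mul_of_nonneg_right (by linarith) ((sy_eD _).nonneg u)
  · exact mul_le_mul_of_nonneg_right (by linarith) (Real.sqrt_nonneg _)

end Crest.Agent.T145.Pot
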