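import Crest.Agent.T145.PotD_17
import Crest.Agent.T145.PotPk_15
import Crest.Agent.T145.PotHa_91
import Crest.Agent.T145.PotHo_14

/-!
# Row 145 (helper17): the sharp logarithm: Green functions, Green forms of unit charges, capacities (`CapStmt`)
-/

set_option autoImplicit false

namespace Crest.Agent.T145.Pot

open Finset Real

theorem div_two_pi_le {t : ℝ} (ht : 0 ≤ t) : t / (2 * π) ≤ t :=
  div_le_self ht (by linarith [pi_gt_three])

theorem pk_log : ∃ C : ℝ, 0 ≤ C ∧ ∀ z, |pk z - log (1 + eu z) / (2 * π)| ≤ C := by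
  obtain ⟨-, κ, C, h⟩ := pkStmt
  refine ⟨|pk 0| + |κ| + |C| + 1, by positivity, fun z => ?_⟩
  by_cases hz : z = 0
  · subst hz
    simp only [eu_zero, add_zero, log_one, zero_div, sub_zero]
    linarith [abs_nonneg κ, abs_nonneg C]
  · have h1 := one_le_eu hz
    have h2 : C / eu z ≤ |C| := (div_le_div_of_nonneg_right (le_abs_self C) (by linarith)).trans
      (div_le_self (abs_nonneg C) h1)
    have h3 : log (eu z) ≤ log (1 + eu z) := log_le_log (by linarith) (by linarith)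
    have h4 : log (1 + eu z) - log (eu z) ≤ 1 := by
      rw [← log_div (by linarith) (by linarith)]
      refine (log_le_sub_one_of_pos (by positivity)).trans ?_
      rw [sub_le_iff_le_add, div_le_iff₀ (by linarith)]; linarith
    have h5 := div_two_pi_le (sub_nonneg.2 h3)
    have h6 : 0 ≤ (log (1 + eu z) - log (eu z)) / (2 * π) := div_nonneg (sub_nonneg.2 h3) (by positivity)
    have h7 := abs_le.1 ((h z hz).trans h2)
    rw [sub_div] at h5 h6
    rw [lg] at h7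
    rw [abs_le]
    constructor <;> linarith [abs_nonneg (pk 0), le_abs_self κ, neg_abs_le κ]

theorem le_of_bl_subset {z : Pt} {R R' : ℕ} (h : bl z R ⊆ bl z R') : R ≤ R' := by
  have := h (show z + ((R : ℤ), 0) ∈ bl z R by rw [mem_bl]; simp; omega)
  rw [mem_bl] at this; simp at this; omega

theorem log_le_log_add {s t c : ℝ} (hs : 0 < s) (hc : 0 < c) (h : s ≤ c * t) : log s ≤ log t + c := by
  have ht : 0 < t := by by_contra h1; nlinarith
  have := log_le_log hs h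
  rw [log_mul hc.ne' ht.ne'] at this
  linarith [log_le_sub_one_of_pos hc]

/-- the Green function of a domain between two boxes -/
theorem GD_dl_log : ∃ C : ℝ, 0 ≤ C ∧ ∀ (z : Pt) (r R R' : ℕ) (D : Finset Pt) (x y : Pt), 1 ≤ R →
    2 * r ≤ R → bl z R ⊆ D → D ⊆ bl z R' → x ∈ D → y ∈ bl z r →
    |GD nL D (dl x) (dl y) - (log R - log (1 + eu (x - y))) / (2 * π)| ≤ C + log (R' / R) := by
  obtain ⟨C, hC, h⟩ := pk_log
  refine ⟨2 * C + 6, by positivity, fun z r R R' D x y hR hr h1 h2 hx' hy => ?_⟩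
  have hR' := le_of_bl_subset (h1.trans h2)
  have a1 : (1 : ℝ) ≤ R := by exact_mod_cast hR
  have a2 : (R : ℝ) ≤ R' := by exact_mod_cast hR'
  have a3 : 2 * (r : ℝ) ≤ R := by exact_mod_cast hr
  have a4 : log (R : ℝ) ≤ log R' := log_le_log (by linarith) a2
  have b1 := GD_dl_le hx' y (M := (log R' + 6) / (2 * π) + C) fun w hw e he _ => by
    have c1 : w + e ∈ bl y (R' + 1 + r) :=
      bl_subset_bl (mem_bl_comm.1 hy) (by omega) (bl_subset_bl (h2 hw) (r' := R' + 1) (by omega)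
        (Ha91.nn_bl he w))
    have c2 := eu_le_of_bl c1
    push_cast at c2
    have c3 := log_le_log_add (s := 1 + eu (w + e - y)) (t := R') (c := 6)
      (by linarith [eu_nonneg (w + e - y)]) (by norm_num) (by linarith)
    linarith [(abs_le.1 (h (w + e - y))).2, div_le_div_of_nonneg_right c3 (c := 2 * π) (by positivity)]
  have b2 := le_GD_dl hx' y (M := (log R - 2) / (2 * π) - C) fun w _ e _ h3 => by
    have c1 : w + e ∉ bl y (R - r) := fun h4 => h3 (h1 (bl_subset_bl hy (by omega) h4))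
    have c2 := le_eu_of_not_bl c1
    rw [Nat.cast_sub (by omega)] at c2
    have c3 := log_le_log_add (s := R) (t := 1 + eu (w + e - y)) (c := 2) (by linarith) two_pos
      (by linarith)
    linarith [(abs_le.1 (h (w + e - y))).1,
      div_le_div_of_nonneg_right (sub_le_iff_le_add.2 c3) (c := 2 * π) (by positivity)]
  have b3 := abs_le.1 (h (x - y))
  have b4 := div_two_pi_le (sub_nonneg.2 a4)
  have b5 := div_two_pi_le (t := 2) (by norm_num)
  have b6 := div_two_pi_le (t := 6) (by norm_num)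
  rw [log_div (by linarith) (by linarith), abs_le]
  simp only [sub_div, add_div] at *
  constructor <;> linarith

theorem sum_abs_log {z x : Pt} {r : ℕ} (hr : 1 ≤ r) (hx' : x ∈ bl z r) :
    ∑ y ∈ bl z r, |log r - log (1 + eu (x - y))| ≤ 260 * (r : ℝ) ^ 2 := by
  have a1 : (1 : ℝ) ≤ r := by exact_mod_cast hr
  have h1 := Ha91.sum_log r hr
  refine (sum_le_sum_of_subset_of_nonneg (bl_subset_bl (r' := 2 * r) (mem_bl_comm.1 hx') (by omega))
    fun _ _ _ => abs_nonneg _).trans ?_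
  rw [← Ha91.sum_bl]
  refine (sum_le_sum (g := fun y => 4 * (1 + log (4 * r / (1 + eu y)))) fun y hy => ?_).trans
    (by rw [← mul_sum]; linarith)
  have h2 := Ha91.eu_le_three hy
  have h3 := eu_nonneg y
  have h4 := log_le_log (x := 1 + eu y) (y := 4 * r) (by linarith) (by linarith)
  have h5 := log_le_log_add (s := 4 * r) (t := r) (c := 4) (by linarith) (by norm_num) le_rfl
  have h6 := log_le_log (x := r) (y := 4 * r) (by linarith) (by linarith)
  rw [show x - (x + y) = -y by abel, eu_neg, log_div (by linarith) (by linarith), abs_le]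
  constructor <;> linarith

theorem sum_abs_le_of_le {z : Pt} {r : ℕ} (hr : 1 ≤ r) {ξ : Pt → ℝ} {K : ℝ}
    (h : ∀ x, |ξ x| ≤ K / (r : ℝ) ^ 2) : 0 ≤ K ∧ ∑ y ∈ bl z r, |ξ y| ≤ 9 * K := by
  have a1 : (1 : ℝ) ≤ r := by exact_mod_cast hr
  have hK : 0 ≤ K := by
    have := (abs_nonneg _).trans (h 0)
    rwa [le_div_iff₀ (by positivity), zero_mul] at this
  refine ⟨hK, (sum_le_card_nsmul _ _ _ fun x _ => h x).trans ?_⟩
  rw [card_bl, nsmul_eq_mul, ← mul_div_assoc, div_le_iff₀ (by positivity)]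
  push_cast
  nlinarith [mul_le_mul_of_nonneg_left (show (2 * (r : ℝ) + 1) ^ 2 ≤ 9 * r ^ 2 by nlinarith) hK]

theorem gr_eq_sum_sup {V : Type*} [DecidableEq V] {A K : Finset V} {B : Bf V} (h : Co A B) (hK : K ⊆ A)
    {f : V → ℝ} (hf : Sup K f) (x : V) : gr A B f x = ∑ y ∈ K, f y * G A B (dl x) (dl y) := by
  rw [h.gr_eq_sum]
  exact (sum_subset hK fun y _ hy => by simp [hf y hy]).symm

/-- the potential of a spread charge: on its support, and far from it -/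
theorem gr_log : ∃ C : ℝ, 0 ≤ C ∧ ∀ (z : Pt) (r R R' : ℕ) (D : Finset Pt) (ξ : Pt → ℝ) (K : ℝ), 1 ≤ r →
    2 * r ≤ R → bl z R ⊆ D → D ⊆ bl z R' → Sup (bl z r) ξ → (∀ x, |ξ x| ≤ K / (r : ℝ) ^ 2) →
    (∀ x ∈ bl z r, |gr D (eD nL D) ξ x - (∑ y ∈ bl z r, ξ y) * (log (R / r) / (2 * π))| ≤
      K * (C + 9 * log (R' / R))) ∧
    ∀ x ∈ D, (R : ℝ) ≤ 4 * (1 + eu (x - z) - 2 * r) ∨ (∀ y ∈ bl z r, (R : ℝ) ≤ 4 * (1 + eu (x - y))) →
      |gr D (eD nL D) ξ x| ≤ K * (C + 18 * log (R' / R)) := by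
  obtain ⟨C, hC, h⟩ := GD_dl_log
  refine ⟨9 * C + 260, by positivity, fun z r R R' D ξ K hr hR h1 h2 hs hξ => ?_⟩
  obtain ⟨hK, h3⟩ := sum_abs_le_of_le (z := z) hr hξ
  have a1 : (1 : ℝ) ≤ r := by exact_mod_cast hr
  have a3 : 2 * (r : ℝ) ≤ R := by exact_mod_cast hR
  have a2 : (R : ℝ) ≤ R' := by exact_mod_cast le_of_bl_subset (h1.trans h2)
  have a4 : 0 ≤ log ((R' : ℝ) / R) := log_nonneg ((one_le_div (by linarith)).2 a2)
  have hI : bl z r ⊆ D := (bl_mono z (by omega)).trans h1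
  refine ⟨fun x hx' => ?_, fun x hx' hf => ?_⟩
  · rw [gr_eq_sum_sup (co_eD nL_ok D) hI hs, sum_mul, ← sum_sub_distrib]
    refine (abs_sum_le_sum_abs _ _).trans ((sum_le_sum (g := fun y => |ξ y| * (C + log (R' / R)) +
      K / (r : ℝ) ^ 2 * |log r - log (1 + eu (x - y))|) fun y hy => ?_).trans ?_)
    · have b1 := h z r R R' D x y (by omega) hR h1 h2 (hI hx') hy
      have b2 := div_two_pi_le (abs_nonneg (log r - log (1 + eu (x - y))))
      rw [← abs_of_pos (a := 2 * π) (by positivity), ← abs_div] at b2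
      rw [← mul_sub, abs_mul]
      refine le_trans (mul_le_mul_of_nonneg_left (c := C + log (R' / R) + |log r - log (1 + eu (x - y))|)
        ?_ (abs_nonneg _)) ?_
      · refine le_trans (le_of_eq ?_) ((abs_add_le _ _).trans (add_le_add b1 b2))
        rw [log_div (by linarith) (by linarith), GD]; congr 1; ring
      · rw [mul_add]; gcongr; exact hξ y
    · rw [sum_add_distrib, ← sum_mul, ← mul_sum]
      have b1 := mul_le_mul_of_nonneg_left (sum_abs_log hr hx') (show 0 ≤ K / (r : ℝ) ^ 2 by positivity)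
      rw [show K / (r : ℝ) ^ 2 * (260 * r ^ 2) = 260 * K by field_simp] at b1
      nlinarith [mul_le_mul_of_nonneg_right h3 (show 0 ≤ C + log ((R' : ℝ) / R) by positivity)]
  · rw [gr_eq_sum_sup (co_eD nL_ok D) hI hs]
    refine (abs_sum_le_sum_abs _ _).trans ((sum_le_sum
      (g := fun y => |ξ y| * (C + 4 + 2 * log (R' / R))) fun y hy => ?_).trans ?_)
    · have b1 := abs_le.1 (h z r R R' D x y (by omega) hR h1 h2 hx' hy)
      have b0 : (R : ℝ) ≤ 4 * (1 + eu (x - y)) := hf.elim (fun h4 => by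
        have c1 := eu_add_le (x - y) (y - z)
        rw [sub_add_sub_cancel] at c1
        linarith [eu_le_of_bl hy]) fun h4 => h4 y hy
      have b2 := log_le_log_add (s := R) (c := 4) (by linarith) (by norm_num) b0
      have b3 : eu (x - y) ≤ 2 * (R' + r : ℕ) :=
        eu_le_of_bl (bl_subset_bl (mem_bl_comm.1 hy) le_rfl (h2 hx'))
      push_cast at b3
      have b4 := log_le_log_add (s := 1 + eu (x - y)) (t := R') (c := 4)
        (by linarith [eu_nonneg (x - y)]) (by norm_num) (by linarith)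
      have b5 := div_two_pi_le (abs_nonneg (log R - log (1 + eu (x - y))))
      rw [← abs_of_pos (a := 2 * π) (by positivity), ← abs_div] at b5
      have b6 : |log R - log (1 + eu (x - y))| ≤ 4 + log (R' / R) := by
        rw [log_div (by linarith) (by linarith)] at a4 ⊢
        rw [abs_le]; constructor <;> linarith
      have b7 := abs_le.1 (b5.trans b6)
      rw [abs_mul]
      refine mul_le_mul_of_nonneg_left (abs_le.2 ⟨?_, ?_⟩) (abs_nonneg _) <;> rw [GD] at b1 <;> linarith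
    · rw [← sum_mul]
      nlinarith [mul_le_mul_of_nonneg_right h3 (show 0 ≤ C + 4 + 2 * log ((R' : ℝ) / R) by positivity)]

theorem abs_ip_sub_le {V : Type*} {I : Finset V} {f u : V → ℝ} {c M : ℝ} (h : ∀ x ∈ I, |u x - c| ≤ M) :
    |ip I f u - (∑ x ∈ I, f x) * c| ≤ (∑ x ∈ I, |f x|) * M := by
  rw [ip, sum_mul, sum_mul, ← sum_sub_distrib]
  refine (abs_sum_le_sum_abs _ _).trans (sum_le_sum fun x hx' => ?_)
  rw [← mul_sub, abs_mul]
  exact mul_le_mul_of_nonneg_left (h x hx') (abs_nonneg _)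

theorem G_eq_ip {V : Type*} {A K : Finset V} (B : Bf V) (hK : K ⊆ A) {f : V → ℝ} (hf : Sup K f)
    (g : V → ℝ) : G A B f g = ip K f (gr A B g) := by
  rw [G, ip_comm, ip_of_sup hK _ hf, ip_comm]

/-- `1 / cap` is the equilibrium average of the potential of any unit charge on `K` -/
theorem Co.inv_cap_eq' {V : Type*} [DecidableEq V] {A K : Finset V} {B : Bf V} (h : Co A B) (hK : K ⊆ A)
    {ν : V → ℝ} (h1 : Sup K ν) (h2 : ∑ x ∈ K, ν x = 1) : (cap K A B)⁻¹ = G A B (eqm K A B) ν := by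
  rw [h.G_comm, G_eq_ip B hK h1, h.gr_eqm hK, ip_smul_right, ip,
    sum_congr rfl fun x hx' => by rw [h.ex_on 1 hx', Pi.one_apply, mul_one], h2, mul_one]

theorem Co.sum_abs_eqm {V : Type*} [DecidableEq V] {A K : Finset V} {B : Bf V} (h : Co A B) (hM : Mk B)
    (hK : K ⊆ A) (hne : K.Nonempty) : ∑ x ∈ K, |eqm K A B x| = 1 := by
  rw [← h.sum_eqm hK hne]
  exact sum_congr rfl fun x _ => abs_of_nonneg (h.eqm_nonneg hM hK x)

/-- uniform unit charge on a box -/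
noncomputable def un (z : Pt) (r : ℕ) : Pt → ℝ := on (bl z r) fun _ => (((2 * r + 1) ^ 2 : ℕ) : ℝ)⁻¹

theorem un_sup (z : Pt) (r : ℕ) : Sup (bl z r) (un z r) := sup_on _ _

theorem sum_un (z : Pt) (r : ℕ) : ∑ x ∈ bl z r, un z r x = 1 := by
  rw [un, sum_congr rfl fun x hx' => on_of_mem hx', sum_const, card_bl, nsmul_eq_mul,
    mul_inv_cancel₀ (by positivity)]

theorem abs_un_le (z : Pt) {r : ℕ} (hr : 1 ≤ r) (x : Pt) : |un z r x| ≤ 1 / (r : ℝ) ^ 2 := by
  have a1 : (1 : ℝ) ≤ r := by exact_mod_cast hr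
  by_cases hx' : x ∈ bl z r
  · rw [un, on_of_mem hx', abs_of_nonneg (by positivity), one_div]
    push_cast
    exact inv_anti₀ (by positivity) (by nlinarith)
  · rw [un_sup z r x hx', abs_zero]; positivity

theorem bl_nonempty (z : Pt) (r : ℕ) : (bl z r).Nonempty := ⟨z, by rw [mem_bl]; simp⟩

/-- nearest neighbours: Green form of charges on a box (`ξ'` only has bounded variation), capacity -/
theorem cap_nL : ∃ C : ℝ, 0 ≤ C ∧ ∀ (z : Pt) (r R R' : ℕ) (D : Finset Pt), 1 ≤ r → 2 * r ≤ R →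
    bl z R ⊆ D → D ⊆ bl z R' →
    (∀ (ξ ξ' : Pt → ℝ) (K : ℝ), Sup (bl z r) ξ → Sup (bl z r) ξ' → (∀ x, |ξ x| ≤ K / (r : ℝ) ^ 2) →
      |GD nL D ξ' ξ - (∑ x ∈ bl z r, ξ' x) * ((∑ x ∈ bl z r, ξ x) * (log (R / r) / (2 * π)))| ≤
        (∑ x ∈ bl z r, |ξ' x|) * (K * (C + 9 * log (R' / R)))) ∧
    |(cap (bl z r) D (eD nL D))⁻¹ - log (R / r) / (2 * π)| ≤ C + 9 * log (R' / R) := by
  obtain ⟨C, hC, h⟩ := gr_log
  refine ⟨C, hC, fun z r R R' D hr hR h1 h2 => ?_⟩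
  have hI : bl z r ⊆ D := (bl_mono z (by omega)).trans h1
  refine (and_iff_left_of_imp fun h3 => ?_).2 fun ξ ξ' K hs hs' hξ => ?_
  · have := h3 _ _ 1 (un_sup z r) (eqm_sup (A := D) (B := eD nL D)) (abs_un_le z hr)
    rwa [(co_eD nL_ok D).sum_abs_eqm (mk_eD D) hI (bl_nonempty z r),
      (co_eD nL_ok D).sum_eqm hI (bl_nonempty z r), sum_un, GD,
      ← (co_eD nL_ok D).inv_cap_eq' hI (un_sup z r) (sum_un z r), one_mul, one_mul, one_mul,
      one_mul] at this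
  · rw [GD, G_eq_ip _ hI hs']
    exact abs_ip_sub_le (h z r R R' D ξ K hr hR h1 h2 hs hξ).1

/-! ## `J` against nearest neighbours, bilinear form -/
namespace G17
open Ho14

variable {u v g : Pt → ℝ}

theorem abs_I_le (h : F u) (h' : F v) : |I u v| ≤ √(S u) * √(S v) := by
  obtain ⟨D, hD⟩ := h
  obtain ⟨D', hD'⟩ := h'
  have h1 := hD.mono (subset_union_left (s₂ := D'))
  have h2 := hD'.mono (subset_union_right (s₁ := D))
  rw [S_eq h1, S_eq h2, I, tsum_eq_sum (s := D ∪ D') fun x hx' => by simp [h1 x hx'],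
    ← sqrt_mul (sum_nonneg fun _ _ => sq_nonneg _)]
  exact abs_le_sqrt (sum_mul_sq_le_sq_mul_sq _ _ _)

theorem I_sub (h : F g) (u v : Pt → ℝ) : I g (u - v) = I g u - I g v := by
  rw [sub_eq_add_neg, I_add h, ← neg_one_smul ℝ v, I_smul]; ring

theorem eD_eq' {Λ : Lat} (hΛ : Λ.Ok) {D : Finset Pt} (h : Sup D u) (h' : Sup D v) :
    eD Λ D u v = ∑ y ∈ Λ.Jp, I (dif y u) (dif y v) := by
  have h1 : ∀ y, I (dif y u) (dif y v) = -∑ x ∈ D, (dif y u x + dif (-y) u x) * v x := fun y => by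
    rw [I_comm, I_dif ⟨D, h'⟩, I, tsum_eq_sum (s := D) fun x hx' => by simp [h' x hx'],
      ← sum_neg_distrib]
    exact sum_congr rfl fun x _ => by simp only [dif, neg_add_cancel_right]; ring
  rw [eD_sbp hΛ u h', sum_congr rfl fun y _ => h1 y, sum_neg_distrib, sum_comm]
  simp only [lapJ, hΛ.sum_J, sum_mul, dif]

theorem dual (y : Pt) : ∃ C : ℝ, 0 ≤ C ∧ ∀ (g u : Pt → ℝ) (M N : ℝ), F g → F u →
    √(S (dif (1, 0) g)) ≤ M → √(S (dif (0, 1) g)) ≤ M → √(S (dif (1, 0) u)) ≤ N →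
    √(S (dif (0, 1) u)) ≤ N → |I g (dif y u - L y u)| ≤ C * M * N := by
  induction y using ind2 with
  | h0 => exact ⟨0, le_rfl, fun g u M N _ _ _ _ _ _ => by simp [I, dif, L]⟩
  | h1 y e he =>
    have h1 : ∀ u : Pt → ℝ, dif (y + e) u - L (y + e) u = dif y u - L y u + dif y (dif e u) := by
      intro u
      funext x
      rcases he with rfl | rfl <;>
        simp only [dif, L, Pi.add_apply, Pi.sub_apply, Pi.smul_apply, smul_eq_mul, Prod.fst_add,
          Prod.snd_add, add_assoc] <;> push_cast <;> ring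
    obtain ⟨K, hK, h2⟩ := crude (-y)
    have h3 : ∀ (g u : Pt → ℝ) (M N : ℝ), F g → F u → √(S (dif (1, 0) g)) ≤ M →
        √(S (dif (0, 1) g)) ≤ M → √(S (dif (1, 0) u)) ≤ N → √(S (dif (0, 1) u)) ≤ N →
        |I g (dif y (dif e u))| ≤ K * M * N := fun g u M N hg hu a b c d => by
      rw [I_comm, I_dif (hu.dif e), mul_comm]
      exact (abs_I_le (hu.dif e) (hg.dif _)).trans (mul_le_mul (by rcases he with rfl | rfl <;> assumption)
        (h2 g M hg a b) (sqrt_nonneg _) ((sqrt_nonneg _).trans c))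
    refine ⟨fun ⟨C, hC, h⟩ => ⟨C + K, by positivity, fun g u M N hg hu a b c d => ?_⟩,
      fun ⟨C, hC, h⟩ => ⟨C + K, by positivity, fun g u M N hg hu a b c d => ?_⟩⟩
    · rw [h1, I_add hg]
      linarith [abs_add_le (I g (dif y u - L y u)) (I g (dif y (dif e u))), h g u M N hg hu a b c d,
        h3 g u M N hg hu a b c d]
    · rw [← sub_eq_iff_eq_add.2 (h1 u), I_sub hg]
      linarith [abs_sub (I g (dif (y + e) u - L (y + e) u)) (I g (dif y (dif e u))),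
        h g u M N hg hu a b c d, h3 g u M N hg hu a b c d]

theorem I_L (h : F g) (y : Pt) (w : Pt → ℝ) (hw : F w) :
    I (L y g) w = y.1 * I (dif (1, 0) g) w + y.2 * I (dif (0, 1) g) w := by
  rw [I_comm, L, I_add hw, I_smul, I_smul, I_comm w, I_comm w]

end G17

open Ho14 G17 in
/-- the `J` form is `a` times the nearest neighbour form on functions with small second differences -/
theorem hom_bilin {Λ : Lat} (hΛ : Λ.Ok) : ∃ C : ℝ, 0 ≤ C ∧ ∀ (D : Finset Pt) (ψ u : Pt → ℝ), Sup D ψ →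
    Sup D u → |eD Λ D ψ u - Λ.a * eD nL D ψ u| ≤ C * √(∑' x, lap ψ x ^ 2) * √(eD nL D u u) := by
  choose C1 a1 h1 using sharp
  choose C2 a2 h2 using crude
  choose C3 a3 h3 using dual
  refine ⟨∑ y ∈ Λ.Jp, (C1 y * C2 y + (|(y.1 : ℝ)| + |(y.2 : ℝ)|) * C3 y),
    sum_nonneg fun y _ => by have := a1 y; have := a2 y; have := a3 y; positivity, fun D ψ u hψ hu => ?_⟩
  have f1 : F ψ := ⟨D, hψ⟩
  have f2 : F u := ⟨D, hu⟩
  have n1 : √(S (dif (1, 0) u)) ≤ √(eD nL D u u) :=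
    sqrt_le_sqrt (by rw [eD_nL hu]; linarith [S_nonneg (dif (0, 1) u)])
  have n2 : √(S (dif (0, 1) u)) ≤ √(eD nL D u u) :=
    sqrt_le_sqrt (by rw [eD_nL hu]; linarith [S_nonneg (dif (1, 0) u)])
  have e1 : Λ.a * eD nL D ψ u = ∑ y ∈ Λ.Jp, I (L y ψ) (L y u) := by
    have b1 : ∀ y : Pt, I (L y ψ) (L y u) = (y.1 : ℝ) ^ 2 * I (dif (1, 0) ψ) (dif (1, 0) u) +
        (y.1 : ℝ) * y.2 * (I (dif (1, 0) ψ) (dif (0, 1) u) + I (dif (0, 1) ψ) (dif (1, 0) u)) +
        (y.2 : ℝ) ^ 2 * I (dif (0, 1) ψ) (dif (0, 1) u) := fun y => by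
      rw [I_L f1 y _ (f2.L y), L, I_add (f1.dif _), I_add (f1.dif _), I_smul, I_smul, I_smul, I_smul]
      ring
    simp only [b1, sum_add_distrib, ← sum_mul, hΛ.sum_mixed, ← hΛ.a_eq_snd]
    rw [← Lat.a, eD_eq' nL_ok hψ hu, nL_Jp, sum_pair (by decide)]
    ring
  rw [e1, eD_eq' hΛ hψ hu, ← sum_sub_distrib, sum_mul, sum_mul]
  refine (abs_sum_le_sum_abs _ _).trans (sum_le_sum fun y _ => ?_)
  have s1 : ∀ e ∈ nn, ∀ e' ∈ nn, √(S (dif e (dif e' ψ))) ≤ √(S (lap ψ)) := fun e he e' he' =>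
    sqrt_le_sqrt (S_difs_le f1 he he')
  have b1 := (abs_I_le ((f1.dif y).sub (f1.L y)) (f2.dif y)).trans
    (mul_le_mul (h1 y ψ f1) (h2 y u _ f2 n1 n2) (sqrt_nonneg _) (mul_nonneg (a1 y) (sqrt_nonneg _)))
  have b2 := h3 y _ u _ _ (f1.dif (1, 0)) f2 (s1 _ (by decide) _ (by decide))
    (s1 _ (by decide) _ (by decide)) n1 n2
  have b3 := h3 y _ u _ _ (f1.dif (0, 1)) f2 (s1 _ (by decide) _ (by decide))
    (s1 _ (by decide) _ (by decide)) n1 n2
  have b4 : I (dif y ψ) (dif y u) - I (L y ψ) (L y u) = I (dif y ψ - L y ψ) (dif y u) +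
      (y.1 * I (dif (1, 0) ψ) (dif y u - L y u) + y.2 * I (dif (0, 1) ψ) (dif y u - L y u)) := by
    rw [← I_L f1 y _ ((f2.dif y).sub (f2.L y)), I_sub (f1.L y), I_comm (_ - _), I_sub (f2.dif y),
      I_comm (dif y u), I_comm (dif y u)]
    ring
  rw [b4]
  refine (abs_add_le _ _).trans ((add_le_add b1 ((abs_add_le _ _).trans (add_le_add
    ((abs_mul _ _).trans_le (mul_le_mul_of_nonneg_left b2 (abs_nonneg _)))
    ((abs_mul _ _).trans_le (mul_le_mul_of_nonneg_left b3 (abs_nonneg _)))))).trans (le_of_eq ?_))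
  rw [S]; ring

/-- the `J` potential is the nearest neighbour potential over `a`, up to a small energy -/
theorem gr_sub_le {Λ : Lat} (hΛ : Λ.Ok) : ∃ C : ℝ, 0 ≤ C ∧ ∀ (D : Finset Pt) (ξ ξ' : Pt → ℝ),
    |GD Λ D ξ' ξ - GD nL D ξ' ξ / Λ.a| ≤
      √(GD Λ D ξ' ξ') * (C * √(∑' x, lap (gr D (eD nL D) ξ) x ^ 2)) := by
  obtain ⟨C, hC, h⟩ := hom_bilin hΛ
  refine ⟨C, hC, fun D ξ ξ' => ?_⟩
  have c1 := co_eD hΛ D
  have c2 := co_eD nL_ok D
  have ha := hΛ.one_le_a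
  set ψ := gr D (eD nL D) ξ
  set w := gr D (eD Λ D) ξ - Λ.a⁻¹ • ψ with hw
  have hs : Sup D w := (c1.gr_sup ξ).sub ((c2.gr_sup ξ).smul _)
  have h1 := h D ψ w (c2.gr_sup ξ) hs
  have h2 : eD Λ D w w = -(Λ.a⁻¹ * (eD Λ D ψ w - Λ.a * eD nL D ψ w)) := by
    rw [show eD Λ D w w = eD Λ D (gr D (eD Λ D) ξ) w - Λ.a⁻¹ * eD Λ D ψ w by
      nth_rw 1 [hw]; simp, c1.gr_spec ξ hs, c2.gr_spec ξ hs]
    field_simp; ring
  have h3 : eD Λ D w w ≤ C * √(∑' x, lap ψ x ^ 2) * √(eD Λ D w w) := by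
    refine le_trans ?_ (h1.trans (mul_le_mul_of_nonneg_left (sqrt_le_sqrt (eD_nL_le hΛ D w))
      (by positivity)))
    rw [h2]
    refine (neg_le_abs _).trans ?_
    rw [abs_mul, abs_of_nonneg (by positivity)]
    exact mul_le_of_le_one_left (abs_nonneg _) (inv_le_one_of_one_le₀ ha)
  have h4 : √(eD Λ D w w) ≤ C * √(∑' x, lap ψ x ^ 2) := by
    by_contra h5
    nlinarith [mul_self_sqrt (c1.nonneg w), sqrt_nonneg (eD Λ D w w),
      mul_nonneg hC (sqrt_nonneg (∑' x, lap ψ x ^ 2))]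
  refine le_trans (le_of_eq ?_) ((c1.abs_ip_le ξ' hs).trans (mul_le_mul_of_nonneg_left h4 (sqrt_nonneg _)))
  rw [hw, ip_sub_right, ip_smul_right, inv_mul_eq_div]; rfl

/-- barrier at the side of a box -/
theorem bdry_le {z x e : Pt} {ρ R : ℕ} (hρ : ρ ≤ R) {u : Pt → ℝ} {M : ℝ} (hM : 0 ≤ M)
    (h0 : Sup (bl z R) u) (h1 : ∀ y ∈ an z ρ R, lap u y = 0)
    (h2 : ∀ y ∈ an z ρ R, ∀ e ∈ nn, y + e ∈ bl z ρ → |u (y + e)| ≤ M) (hx' : x ∈ an z ρ R)
    (he : e ∈ nn) (h3 : x + e ∉ bl z R) : |u x| ≤ M / (R + 1 - ρ) := by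
  have a1 : (ρ : ℝ) ≤ R := by exact_mod_cast hρ
  set ℓ : Pt → ℝ := fun y => ((R + 1 - (e.1 * (y.1 - z.1) + e.2 * (y.2 - z.2)) : ℤ) : ℝ)
  have l1 : ∀ y, lapJ nn ℓ y = 0 := fun y => by
    change lap ℓ y = 0
    simp only [lap_apply, ℓ]; push_cast; ring
  have l2 : ∀ (y : Pt) (k : ℕ), y ∈ bl z k → (R : ℝ) + 1 - k ≤ ℓ y := fun y k hy => by
    rw [mem_bl] at hy
    have : (R : ℤ) + 1 - k ≤ R + 1 - (e.1 * (y.1 - z.1) + e.2 * (y.2 - z.2)) := by
      rcases Ha91.mem_nn.1 he with rfl | rfl | rfl | rfl <;> simp <;> omega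
    simp only [ℓ]; exact_mod_cast this
  have l3 : ℓ x = 1 := by
    have h4 := (mem_an.1 hx').1
    rw [mem_bl] at h3 h4
    have : (R : ℤ) + 1 - (e.1 * (x.1 - z.1) + e.2 * (x.2 - z.2)) = 1 := by
      rcases Ha91.mem_nn.1 he with rfl | rfl | rfl | rfl <;> simp at h3 ⊢ <;> omega
    simp only [ℓ, this, Int.cast_one]
  have key : ∀ s : ℝ, |s| = 1 → s * u x ≤ M / (R + 1 - ρ) := fun s hs => by
    have := le_of_lapJ nL_ok (D := an z ρ R) (u := s • u - (M / (R + 1 - ρ)) • ℓ) (M := 0)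
      (fun y hy e' he' h4 => ?_) (fun y hy => ?_) hx'
    · simpa [l3] using this
    · simp only [Pi.sub_apply, Pi.smul_apply, smul_eq_mul, sub_nonpos]
      by_cases h5 : y + e' ∈ bl z ρ
      · refine (le_abs_self _).trans ?_
        rw [abs_mul, hs, one_mul]
        refine (h2 y hy e' he' h5).trans (le_trans (le_of_eq ?_)
          (mul_le_mul_of_nonneg_left (l2 _ _ h5) (div_nonneg hM (by linarith))))
        rw [div_mul_cancel₀ _ (by linarith)]
      · rw [h0 _ fun h6 => h4 (mem_an.2 ⟨h6, h5⟩), mul_zero]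
        have := l2 _ (R + 1) (bl_subset_bl (mem_an.1 hy).1 (by omega) (Ha91.nn_bl he' y))
        push_cast at this
        exact mul_nonneg (div_nonneg hM (by linarith)) (by linarith)
    · rw [lapJ_sub, lapJ_smul, lapJ_smul, nL_J]
      have := h1 y hy
      rw [lap] at this
      simp [this, l1]
  exact abs_le.2 ⟨by linarith [key (-1) (by simp)], by linarith [key 1 (by simp)]⟩

/-- second differences of the potential of a spread charge in a box -/
theorem sum_lap_gr_le : ∃ C : ℝ, 0 ≤ C ∧ ∀ (z : Pt) (r R : ℕ) (ξ : Pt → ℝ) (K : ℝ), 2 ≤ r → 2 * r ≤ R →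
    Sup (bl z r) ξ → (∀ x, |ξ x| ≤ K / (r : ℝ) ^ 2) →
    ∑' x, lap (gr (bl z R) (eD nL (bl z R)) ξ) x ^ 2 ≤ (C * K) ^ 2 * (1 / (r : ℝ) ^ 2 + 1 / R) := by
  obtain ⟨C, hC, h⟩ := gr_log
  refine ⟨64 * C + 3, by positivity, fun z r R ξ K hr hR hs hξ => ?_⟩
  obtain ⟨hK, h3⟩ := sum_abs_le_of_le (z := z) (by omega) hξ
  have a1 : (2 : ℝ) ≤ r := by exact_mod_cast hr
  have a3 : 2 * (r : ℝ) ≤ R := by exact_mod_cast hR
  have c2 := co_eD nL_ok (bl z R)
  have h1 := (h z r R R _ ξ K (by omega) hR Subset.rfl Subset.rfl hs hξ).2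
  rw [div_self (by linarith), log_one, mul_zero, add_zero] at h1
  set ψ := gr (bl z R) (eD nL (bl z R)) ξ
  have hψ : Sup (bl z R) ψ := c2.gr_sup ξ
  have h2 : ∀ x ∈ bl z R, lap ψ x = -ξ x := fun x hx' => lapJ_gr nL_ok ξ hx'
  have h4 : ∀ w, w ∉ bl z R → ∀ e ∈ nn, |ψ (w + e)| ≤ 4 * (K * C) / R := fun w hw e he => by
    by_cases h5 : w + e ∈ bl z R
    · have he' : -e ∈ nn := nL_ok.neg he
      refine (bdry_le (ρ := R - R / 4) (by omega) (by positivity) hψ (fun y hy => ?_)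
        (fun y hy e' he' h6 => h1 _ (bl_mono z (by omega) h6) (Or.inr fun v hv => ?_))
        (mem_an.2 ⟨h5, fun h6 => hw ?_⟩) he' (by simpa using hw)).trans ?_
      · rw [h2 y (mem_an.1 hy).1, hs y fun h6 => (mem_an.1 hy).2 (bl_mono z (by omega) h6), neg_zero]
      · have b1 : y + e' ∉ bl v (R / 4 - 1) := fun h7 => (mem_an.1 hy).2
          (bl_subset_bl (bl_subset_bl hv le_rfl h7) (r := 1) (by omega)
            (mem_bl_comm.1 (Ha91.nn_bl he' y)))
        have b2 := le_eu_of_not_bl b1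
        have b3 : R ≤ 4 * (1 + (R / 4 - 1 + 1)) := by omega
        have b4 : (R : ℝ) ≤ 4 * (1 + ((R / 4 - 1 : ℕ) + 1)) := by exact_mod_cast b3
        linarith
      · exact bl_subset_bl h6 (r := 1) (by omega) (mem_bl_comm.1 (Ha91.nn_bl he w))
      · have b3 : R + 4 * (R - R / 4) ≤ 4 * (R + 1) := by omega
        have b4 : (R : ℝ) + 4 * (R - R / 4 : ℕ) ≤ 4 * (R + 1) := by exact_mod_cast b3
        rw [div_le_div_iff₀ (by linarith) (by linarith)]
        nlinarith [mul_nonneg hK hC]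
    · rw [hψ _ h5, abs_zero]; positivity
  have h5 : ∀ w, w ∉ bl z R → lap ψ w ^ 2 ≤ (16 * (K * C) / R) ^ 2 := fun w hw => by
    refine sq_le_sq' (abs_le.1 ?_).1 (abs_le.1 ?_).2 <;>
    · rw [lap, lapJ]
      refine (abs_sum_le_sum_abs _ _).trans ((sum_le_card_nsmul _ _ (4 * (K * C) / R)
        fun e he => by rw [hψ w hw, sub_zero]; exact h4 w hw e he).trans (le_of_eq ?_))
      rw [show nn.card = 4 by decide, nsmul_eq_mul]; push_cast; ring
  rw [tsum_eq_sum (s := bl z (R + 1)) fun w hw => ?_, ← sum_sdiff (bl_mono z (Nat.le_succ R))]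
  · have b1 := sum_le_card_nsmul (bl z (R + 1) \ bl z R) _ _ fun w hw => h5 w (mem_sdiff.1 hw).2
    rw [card_sdiff_of_subset (bl_mono z (Nat.le_succ R)), card_bl, card_bl,
      show (2 * (R + 1) + 1) ^ 2 - (2 * R + 1) ^ 2 = 8 * R + 8 from Nat.sub_eq_of_eq_add (by ring),
      nsmul_eq_mul] at b1
    have b2 : ∑ x ∈ bl z R, lap ψ x ^ 2 ≤ 9 * K * (K / (r : ℝ) ^ 2) := by
      rw [sum_congr rfl fun x hx' => by rw [h2 x hx', neg_sq],
        ← sum_subset (bl_mono z (show r ≤ R by omega)) fun x _ hx' => by simp [hs x hx']]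
      refine le_trans ?_ (mul_le_mul_of_nonneg_right h3 (by positivity))
      rw [sum_mul]
      exact sum_le_sum fun x _ => by
        rw [← sq_abs, pow_two]; exact mul_le_mul_of_nonneg_left (hξ x) (abs_nonneg _)
    have b3 : ((8 * R + 8 : ℕ) : ℝ) * (16 * (K * C) / R) ^ 2 ≤ (64 * C * K) ^ 2 * (1 / R) := by
      push_cast
      rw [div_pow, ← mul_div_assoc, mul_one_div, div_le_div_iff₀ (by nlinarith) (by linarith)]
      nlinarith [mul_nonneg (sq_nonneg (K * C)) (show 0 ≤ (R : ℝ) * (R - 1) by nlinarith)]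
    have b4 : (64 * C * K) ^ 2 ≤ ((64 * C + 3) * K) ^ 2 := by gcongr; linarith
    have b5 : (3 * K) ^ 2 ≤ ((64 * C + 3) * K) ^ 2 := by gcongr; linarith
    have b6 := mul_le_mul_of_nonneg_right b4 (show 0 ≤ 1 / (R : ℝ) by positivity)
    have b7 := mul_le_mul_of_nonneg_right b5 (show 0 ≤ 1 / (r : ℝ) ^ 2 by positivity)
    have b8 : (3 * K) ^ 2 * (1 / (r : ℝ) ^ 2) = 9 * K * (K / (r : ℝ) ^ 2) := by ring
    linarith
  · rw [lap, lapJ, sum_eq_zero fun e he => ?_, zero_pow two_ne_zero]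
    rw [hψ w fun h6 => hw (bl_mono z (Nat.le_succ R) h6), hψ _ fun h6 => hw
      (bl_subset_bl h6 (r := 1) (by omega) (mem_bl_comm.1 (Ha91.nn_bl he w))), sub_zero]

/-- general steps: a spread charge against a charge of bounded variation and bounded Green form -/
theorem GD_log {Λ : Lat} (hΛ : Λ.Ok) : ∃ C : ℝ, 0 ≤ C ∧ ∀ (z : Pt) (r R : ℕ) (ξ ξ' : Pt → ℝ) (K K' : ℝ),
    2 ≤ r → 2 * r ≤ R → Sup (bl z r) ξ → Sup (bl z r) ξ' → (∀ x, |ξ x| ≤ K / (r : ℝ) ^ 2) →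
    ∑ x ∈ bl z r, ξ x = 1 → ∑ x ∈ bl z r, ξ' x = 1 → ∑ x ∈ bl z r, |ξ' x| ≤ K' →
    GD Λ (bl z R) ξ' ξ' ≤ log (R / r) + K' ^ 2 →
    |GD Λ (bl z R) ξ' ξ - log (R / r) / (2 * π * Λ.a)| ≤
      C * K * (1 + K') * (1 + √(log (R / r)) / r) := by
  obtain ⟨C1, a1, h1⟩ := cap_nL
  obtain ⟨C2, a2, h2⟩ := gr_sub_le hΛ
  obtain ⟨C3, a3, h3⟩ := sum_lap_gr_le
  refine ⟨C1 + 2 * C2 * C3, by positivity, fun z r R ξ ξ' K K' hr hR hs hs' hξ s1 s2 s3 s4 => ?_⟩
  have hK := (sum_abs_le_of_le (z := z) (by omega) hξ).1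
  have hK' := (sum_nonneg fun _ _ => abs_nonneg _).trans s3
  have b1 : (2 : ℝ) ≤ r := by exact_mod_cast hr
  have b3 : 2 * (r : ℝ) ≤ R := by exact_mod_cast hR
  have ha := hΛ.one_le_a
  have g1 := (h1 z r R R _ (by omega) hR Subset.rfl Subset.rfl).1 ξ ξ' K hs hs' hξ
  rw [div_self (by linarith), log_one, mul_zero, add_zero, s1, s2, one_mul, one_mul] at g1
  have g2 := h2 (bl z R) ξ ξ'
  have g3 := sqrt_le_sqrt (h3 z r R ξ K hr hR hs hξ)
  set ℓ := log ((R : ℝ) / r)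
  have l0 : 0 ≤ ℓ := log_nonneg ((one_le_div (by linarith)).2 (by linarith))
  have l1 : ℓ ≤ R := (log_le_self (by positivity)).trans (div_le_self (by linarith) (by linarith))
  have g4 : √(GD Λ (bl z R) ξ' ξ') ≤ √ℓ + K' := sqrt_le_iff.2 ⟨by positivity, by
    nlinarith [sq_sqrt l0, mul_nonneg (sqrt_nonneg ℓ) hK']⟩
  have g5 : √(1 / (r : ℝ) ^ 2 + 1 / R) ≤ 1 / r + √(1 / R) := sqrt_le_iff.2 ⟨by positivity, by
    have : (0 : ℝ) ≤ 1 / r * √(1 / R) := by positivity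
    nlinarith [sq_sqrt (show (0 : ℝ) ≤ 1 / R by positivity), div_pow (1 : ℝ) r 2]⟩
  rw [sqrt_mul (sq_nonneg _), sqrt_sq (by positivity)] at g3
  have g6 : √ℓ * √(1 / R) ≤ 1 := by
    rw [← sqrt_mul l0, Real.sqrt_le_one, mul_one_div, div_le_one (by linarith)]; exact l1
  have g7 : √(1 / (R : ℝ)) ≤ 1 := by rw [Real.sqrt_le_one, div_le_one (by linarith)]; linarith
  have g8 : 1 / (r : ℝ) ≤ 1 := by rw [div_le_one (by linarith)]; linarith
  have g9 : (√ℓ + K') * (1 / r + √(1 / R)) ≤ 2 * (1 + K') * (1 + √ℓ / r) := by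
    have : 0 ≤ √ℓ / r := by positivity
    have e : √ℓ * (1 / r) = √ℓ / r := by ring
    nlinarith [mul_le_mul_of_nonneg_left g7 hK', mul_le_mul_of_nonneg_left g8 hK', mul_nonneg hK' this]
  have g10 := g2.trans (mul_le_mul g4 (mul_le_mul_of_nonneg_left (g3.trans
    (mul_le_mul_of_nonneg_left g5 (by positivity))) a2) (by positivity) (by positivity))
  have g11 : |GD nL (bl z R) ξ' ξ / Λ.a - ℓ / (2 * π * Λ.a)| ≤ K' * (K * C1) := by
    rw [← div_div, ← sub_div, abs_div, abs_of_nonneg (a := Λ.a) (by linarith)]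
    exact (div_le_self (abs_nonneg _) ha).trans (g1.trans (by gcongr))
  refine (abs_sub_le _ _ _).trans ((add_le_add g10 g11).trans ?_)
  have : 0 ≤ √ℓ / r := by positivity
  nlinarith [mul_le_mul_of_nonneg_left g9 (show 0 ≤ C2 * C3 * K by positivity),
    mul_nonneg (mul_nonneg a1 hK) this, mul_nonneg (mul_nonneg (mul_nonneg a1 hK) hK') this,
    mul_nonneg a1 hK]

theorem capStmt : CapStmt := by
  obtain ⟨C1, a1, h1⟩ := cap_nL
  have h2 : ∀ {Λ : Lat}, Λ.Ok → ∀ (z : Pt) (r R : ℕ) (ξ : Pt → ℝ) (K : ℝ), 2 ≤ r → 2 * r ≤ R →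
      Sup (bl z r) ξ → (∀ x, |ξ x| ≤ K / (r : ℝ) ^ 2) → ∑ x ∈ bl z r, ξ x = 1 →
      GD Λ (bl z R) ξ ξ ≤ log (R / r) + ((9 + C1) * K) ^ 2 := fun hΛ z r R ξ K hr hR hs hξ s1 => by
    have b1 : (2 : ℝ) ≤ r := by exact_mod_cast hr
    have b3 : 2 * (r : ℝ) ≤ R := by exact_mod_cast hR
    obtain ⟨hK, h3⟩ := sum_abs_le_of_le (z := z) (by omega) hξ
    have g1 := (h1 z r R R _ (by omega) hR Subset.rfl Subset.rfl).1 ξ ξ K hs hs hξ
    rw [div_self (by linarith), log_one, mul_zero, add_zero, s1, one_mul, one_mul] at g1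
    have g2 := div_two_pi_le (log_nonneg ((one_le_div (a := (R : ℝ)) (b := r) (by linarith)).2 (by linarith)))
    nlinarith [GD_le_nL hΛ (bl z R) ξ, (abs_le.1 g1).2, mul_le_mul_of_nonneg_right h3 (mul_nonneg hK a1),
      mul_nonneg (sq_nonneg K) a1, sq_nonneg (K * C1), sq_nonneg K]
  refine ⟨fun K J hJ => ?_, fun J hJ => ?_⟩ <;> obtain ⟨C, hC, h⟩ := GD_log (ok_of_adm hJ)
  · refine ⟨1 + C * |K| * (1 + (9 + C1) * |K|), 2, le_add_of_nonneg_right (by positivity), one_le_two,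
      fun Λ hΛ hJ' z r R ξ ξ' hr hR hs hs' hξ hξ' s1 s2 => ?_⟩
    obtain ⟨-, -, -, -, e1, -, e2, -⟩ := J_congr (Λ := Λ) (Λ' := ⟨J, false, 1⟩) hJ'
    obtain ⟨hK, h3⟩ := sum_abs_le_of_le (z := z) (by omega) hξ
    rw [e1, e2, abs_of_nonneg hK]
    exact (h z r R ξ' ξ K _ hr hR hs' hs hξ' s2 s1 (h3.trans (by nlinarith))
      (h2 (ok_of_adm hJ) z r R ξ K hr hR hs hξ s1)).trans
      (mul_le_mul_of_nonneg_right (by linarith) (by positivity))
  · refine ⟨1 + C * 1 * (1 + (9 + C1) * 1), 2, le_add_of_nonneg_right (by positivity), one_le_two,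
      fun Λ hΛ hJ' z r R hr hR => ?_⟩
    obtain ⟨-, -, e1, -, -, -, e2, -⟩ := J_congr (Λ := Λ) (Λ' := ⟨J, false, 1⟩) hJ'
    have c := co_eD (ok_of_adm hJ) (bl z R)
    have hI : bl z r ⊆ bl z R := bl_mono z (by omega)
    have hu := abs_un_le z (show 1 ≤ r by omega)
    rw [e1, e2, c.inv_cap_eq' hI (un_sup z r) (sum_un z r)]
    refine (h z r R _ _ 1 ((9 + C1) * 1) hr hR (un_sup z r) eqm_sup hu (sum_un z r)
      (c.sum_eqm hI (bl_nonempty z r)) ((c.sum_abs_eqm (mk_eD _) hI (bl_nonempty z r)).trans_le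
        (by linarith)) (le_trans ?_ (h2 (ok_of_adm hJ) z r R _ 1 hr hR (un_sup z r) hu (sum_un z r)))).trans
      (mul_le_mul_of_nonneg_right (by linarith) (by positivity))
    have := c.le_cap hI (un_sup z r)
    rw [GD, c.G_eqm hI (bl_nonempty z r), inv_eq_one_div, div_le_iff₀ (c.cap_pos hI (bl_nonempty z r))]
    rwa [sum_un, one_pow] at this

end Crest.Agent.T145.Pot
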