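import Crest.Agent.T145.KrDef_77
import Crest.Agent.T145.PotG_17
import Crest.Agent.T145.PotAn_44

/-!
# Row 145 (helper17): collars, local linear functionals, `Kr.M3Stmt`
-/

set_option autoImplicit false

namespace Crest.Agent.T145.Pot

open Finset Kw56 H59

/-- a function that equals `h - c` on the ring `(p, q]`, lives in the ring `(p', q']`, with controlled energy -/
theorem collar (lam : ℕ) : ∃ C : ℝ, 0 ≤ C ∧ ∀ (z : Pt) (p' p q q' w : ℕ) (h : Pt → ℝ), 4 ≤ w →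
    p' + w ≤ p → p ≤ q → q + w ≤ q' → q' ≤ lam * w → ∃ v : Pt → ℝ,
      (∀ x ∈ an z p q, v x = h x - av (an z p' q') h) ∧ Sup (an z p' q') v ∧
      (∀ ed : Finset (Pt × Pt), (∀ e ∈ ed, e.2 - e.1 ∈ nL.Jp) →
        edF ed v v ≤ C * eN nL (an z p' q') h h) ∧
      ∀ T : Finset Pt, ∑ x ∈ T, v x ^ 2 ≤ C * (q' : ℝ) ^ 2 * eN nL (an z p' q') h h := by
  obtain ⟨C, hC, hP⟩ := An44.poin_an lam
  refine ⟨2 + 64 * lam ^ 2 * C + C, by positivity, fun z p' p q q' w h hw h1 hpq h2 h3 => ?_⟩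
  have hP' := hP z p' q' h (h3.trans (Nat.mul_le_mul_left _ (by omega)))
  have a1 : (4 : ℝ) ≤ w := by exact_mod_cast hw
  have a2 : (p' + w : ℝ) ≤ p := by exact_mod_cast h1
  have a3 : (q + w : ℝ) ≤ q' := by exact_mod_cast h2
  have a5 : (p : ℝ) ≤ q := by exact_mod_cast hpq
  have a6 : (q' : ℝ) ≤ lam * w := by exact_mod_cast h3
  have b1 : (q : ℝ) < q' - 1 := by linarith
  have b2 : (p' + 1 : ℝ) < p := by linarith
  have hE := (sy_eN (Λ := nL) (an z p' q')).nonneg h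
  set ζ : Pt → ℝ := fun x => rmp z q (q' - 1) x - rmp z (p' + 1) p x
  have r0 : ∀ (a b : ℝ) x, 0 ≤ rmp z a b x ∧ rmp z a b x ≤ 1 := fun a b x =>
    ⟨le_max_left _ _, max_le zero_le_one (min_le_left _ _)⟩
  have z1 : ∀ x, |ζ x| ≤ 1 := fun x => abs_le.2
    ⟨by linarith [(r0 q (q' - 1) x).1, (r0 (p' + 1) p x).2],
      by linarith [(r0 q (q' - 1) x).2, (r0 (p' + 1) p x).1]⟩
  have z2 : ∀ x y, y ∈ bl x 1 → ζ x ≠ 0 → y ∈ an z p' q' := fun x y hy h0 => by
    have c1 : |(ds z y : ℝ) - ds z x| ≤ (1 : ℕ) := by exact_mod_cast ds_lip z hy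
    rw [abs_le, Nat.cast_one] at c1
    have c2 : (p' + 1 : ℝ) < ds z x := by
      by_contra c3
      exact h0 (by simp only [ζ]; rw [rmp_one b1 (by linarith), rmp_one b2 (by linarith), sub_self])
    have c3 : (ds z x : ℝ) < q' - 1 := by
      by_contra c3
      exact h0 (by simp only [ζ]; rw [rmp_zero b1 (by linarith), rmp_zero b2 (by linarith), sub_self])
    exact mem_ring.2 ⟨by linarith, by linarith⟩
  have hs : Sup (an z p' q') fun x => ζ x * (h x - av (an z p' q') h) := fun x hx' =>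
    mul_eq_zero_of_left (by by_contra h0; exact hx' (z2 x x (self_mem_bl _ _) h0)) _
  refine ⟨fun x => ζ x * (h x - av (an z p' q') h), fun x hx' => ?_, hs, fun ed he => ?_, fun T => ?_⟩
  · have := mem_ring.1 hx'
    simp only [ζ]
    rw [rmp_one b1 this.2, rmp_zero b2 this.1.le, sub_zero, one_mul]
  · have hn : ∀ e ∈ ed, e.2 ∈ bl e.1 1 := fun e h' => by
      have := Lat.edge_near (he e h'); rwa [nL_rg] at this
    refine (edF_cut_le he (S := an z p' q') (S' := an z p' q') (L := 4 / w) z1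
      (fun e h' h0 => ⟨z2 _ _ (self_mem_bl _ _) h0, z2 _ _ (hn e h') h0⟩) (fun e h' h0 => ⟨?_, ?_⟩)
      _).trans ?_
    · by_cases c1 : ζ e.1 = 0
      · exact z2 _ _ (self_mem_bl _ _) (by rwa [c1] at h0)
      · exact z2 _ _ (hn e h') c1
    · have c1 := rmp_lip z b1 (hn e h')
      have c2 := rmp_lip z b2 (hn e h')
      have c3 : ((1 : ℕ) : ℝ) / (q' - 1 - q) ≤ 2 / w := by
        rw [div_le_div_iff₀ (by linarith) (by linarith)]; push_cast; linarith
      have c4 : ((1 : ℕ) : ℝ) / (p - (p' + 1)) ≤ 2 / w := by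
        rw [div_le_div_iff₀ (by linarith) (by linarith)]; push_cast; linarith
      simp only [ζ]
      rw [sub_sub_sub_comm]
      exact (abs_sub _ _).trans ((add_le_add (c1.trans c3) (c2.trans c4)).trans (le_of_eq (by ring)))
    · rw [eN, edF_sub_const', ← eN, nL_Jp, card_pair (by decide)]
      have c1 : (4 / w : ℝ) ^ 2 * (q' : ℝ) ^ 2 ≤ 16 * lam ^ 2 := by
        rw [← mul_pow, show (16 : ℝ) * lam ^ 2 = (4 * lam) ^ 2 by ring]
        refine pow_le_pow_left₀ (by positivity) ?_ 2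
        rw [div_mul_eq_mul_div, div_le_iff₀ (by linarith)]; linarith
      push_cast
      nlinarith [mul_le_mul_of_nonneg_left hP' (sq_nonneg (4 / w : ℝ)),
        mul_le_mul_of_nonneg_right c1 (mul_nonneg hC hE), mul_nonneg hC hE]
  · refine le_trans ?_ (hP'.trans (by gcongr; nlinarith [mul_nonneg (sq_nonneg (lam : ℝ)) hC]))
    rw [← sum_filter_of_ne (p := (· ∈ an z p' q')) fun x _ h0 => by
      by_contra h4; exact h0 (by rw [hs x h4]; simp)]
    refine (sum_le_sum_of_subset_of_nonneg (fun x hx' => (mem_filter.1 hx').2)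
      fun _ _ _ => sq_nonneg _).trans (sum_le_sum fun x _ => ?_)
    rw [mul_pow]
    exact mul_le_of_le_one_left (sq_nonneg _) ((sq_le_one_iff_abs_le_one _).2 (z1 x))

/-- a harmonic function with zero boundary values -/
theorem zero_of_bd {A D : Finset Pt} (hA : A ⊆ D) {u : Pt → ℝ} (h1 : Hm A (eD nL D) u)
    (h2 : ∀ y ∈ A, ∀ e ∈ nn, y + e ∉ A → u (y + e) = 0) {x : Pt} (hx' : x ∈ A) : u x = 0 :=
  le_antisymm (le_of_lapJ nL_ok (fun y hy e he h3 => (h2 y hy e he h3).le)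
      (fun y hy => ((hm_eD nL_ok hA).1 h1 y hy).ge) hx')
    (ge_of_lapJ nL_ok (fun y hy e he h3 => (h2 y hy e he h3).ge)
      (fun y hy => ((hm_eD nL_ok hA).1 h1 y hy).le) hx')

/-- the mean value inequality in `ℓ²` -/
theorem pt_sq_le : ∃ C : ℝ, 0 ≤ C ∧ ∀ (x : Pt) (k : ℕ) (u : Pt → ℝ) (T : Finset Pt), 1 ≤ k →
    bl x (2 * k + 1) ⊆ T → (∀ y ∈ bl x (2 * k), lap u y = 0) →
    u x ^ 2 ≤ C / (k : ℝ) ^ 2 * ∑ y ∈ T, u y ^ 2 := by
  obtain ⟨C, h⟩ := (harmStmt pkStmt).1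
  refine ⟨49 * C ^ 2, by positivity, fun x k u T hk hT hu => ?_⟩
  have a1 : (1 : ℝ) ≤ k := by exact_mod_cast hk
  have h1 := h k u x 0 hk fun y hy => by rw [hu y hy, abs_zero]
  have h2 := sq_sum_le_card_mul_sum_sq (s := bl x (2 * k + 1) \ bl x k) (f := fun y => |u y|)
  have h3 : ((bl x (2 * k + 1) \ bl x k).card : ℝ) ≤ 49 * (k : ℝ) ^ 2 := by
    have : (bl x (2 * k + 1) \ bl x k).card ≤ (2 * (2 * k + 1) + 1) ^ 2 :=
      (card_le_card sdiff_subset).trans_eq (card_bl _ _)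
    have : ((bl x (2 * k + 1) \ bl x k).card : ℝ) ≤ (2 * (2 * k + 1) + 1) ^ 2 := by exact_mod_cast this
    nlinarith
  have h4 : ∑ y ∈ bl x (2 * k + 1) \ bl x k, |u y| ^ 2 ≤ ∑ y ∈ T, u y ^ 2 := by
    simp only [sq_abs]
    exact sum_le_sum_of_subset_of_nonneg (sdiff_subset.trans hT) fun _ _ _ => sq_nonneg _
  have h5 := h2.trans (mul_le_mul h3 h4 (by positivity) (by positivity))
  rw [mul_zero, add_zero] at h1
  refine (sq_le_sq' (abs_le.1 h1).1 (abs_le.1 h1).2).trans ?_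
  rw [mul_pow, div_pow]
  refine (mul_le_mul_of_nonneg_left (div_le_div_of_nonneg_right h5 (by positivity))
    (sq_nonneg C)).trans (le_of_eq ?_)
  field_simp

section lin
variable {V : Type} [DecidableEq V]

theorem ip_op_ends {U : Finset V} {ed : Finset (V × V)} (hU : ∀ e ∈ ed, e.1 ∈ U ∧ e.2 ∈ U)
    (u h : V → ℝ) : ip U (op (edF ed) u) h = edF ed u h := by
  rw [ip_comm, ← ip_on, ip_comm, ip_op U _ u (sup_on U h), edF_apply, edF_apply]
  exact sum_congr rfl fun e he => by rw [on_of_mem (hU e he).1, on_of_mem (hU e he).2]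

/-- the charge of a linear functional that is bounded by the energy -/
theorem f2_lin {U : Finset V} {ed : Finset (V × V)} (hU : ∀ e ∈ ed, e.1 ∈ U ∧ e.2 ∈ U)
    {ℓ : (V → ℝ) → ℝ} (hℓ : IsLinearMap ℝ ℓ) {n : ℝ} (hn : 0 ≤ n) (h : ∀ u, ℓ u ^ 2 ≤ n * edF ed u u) :
    F2 ed (fun y => ℓ (dl y)) n ∧ ∀ s : Cfg V, ℓ (fun x => s x) = pr (fun y => ℓ (dl y)) s := by
  obtain ⟨h1, h2⟩ := f2_of_lin hU hℓ hn h
  have h3 : on U (fun y => ℓ (dl y)) = fun y => ℓ (dl y) := funext fun y => by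
    by_cases hy : y ∈ U
    · exact on_of_mem hy
    · rw [on_of_not hy, h1, ip, sum_eq_zero fun x hx' => ?_]
      rw [show dl y x = 0 from Pi.single_eq_of_ne (fun h4 : x = y => hy (h4 ▸ hx')) _, mul_zero]
  refine ⟨h3 ▸ h2, fun s => ?_⟩
  rw [h1, ← h3, pr_of_fsupp _ s (sup_on U _), h3, h3]; rfl

omit [DecidableEq V] in
theorem lin_red {S : Finset V} {ℓ : (V → ℝ) → ℝ} (hℓ : IsLinearMap ℝ ℓ) (h1 : ℓ 1 = 0)
    (h2 : ∀ d, (∀ y ∈ S, d y = 0) → ℓ d = 0) {h v : V → ℝ} {c : ℝ} (hv : ∀ y ∈ S, v y = h y - c) :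
    ℓ h = ℓ v := by
  have := h2 (h - v - c • 1) fun y hy => by simp [hv y hy]
  rw [hℓ.map_sub, hℓ.map_sub, hℓ.map_smul, h1, smul_zero] at this
  linarith

theorem dl_loc {S : Finset V} {ℓ : (V → ℝ) → ℝ} (h2 : ∀ d, (∀ y ∈ S, d y = 0) → ℓ d = 0) :
    Sup S fun y => ℓ (dl y) := fun y hy =>
  h2 _ fun x hx' => Pi.single_eq_of_ne (fun h4 : x = y => hy (h4 ▸ hx')) _

theorem Co.eqm_sq_le {A K : Finset V} {B : Bf V} (h : Co A B) (hK : K ⊆ A) (hne : K.Nonempty)
    {u : V → ℝ} (hu : Sup A u) : ip K (eqm K A B) u ^ 2 ≤ (cap K A B)⁻¹ * B u u := by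
  have := h.ip_sq_le (eqm K A B) hu
  rwa [h.G_eqm hK hne, ip_comm, ip_of_sup hK _ eqm_sup, ip_comm] at this

theorem Co.sub_hx_le {A : Finset V} {B : Bf V} (h : Co A B) {η v : V → ℝ}
    (h1 : ∀ x, x ∉ A → v x = η x) :
    Sup A (v - hx A B η) ∧ B (v - hx A B η) (v - hx A B η) ≤ B v v :=
  ⟨fun x hx' => by simp [h.hx_off _ hx', h1 x hx'], by
    linarith [h.hx_pyth h1, h.nonneg (hx A B η)]⟩

theorem hx_one {A : Finset V} {ed : Finset (V × V)} (h : Co A (edF ed)) : hx A (edF ed) 1 = 1 :=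
  h.hx_unique (fun _ _ => rfl) fun v _ => edF_const ed 1 v

end lin

theorem edI_ends' (Λ : Lat) (U : Finset Pt) : ∀ e ∈ Λ.edI U, e.1 ∈ U ∧ e.2 ∈ U :=
  fun _ he => (Lat.mem_edI.1 he).2

open Kr in
theorem _root_.Crest.Agent.T145.Kr.m3Stmt (hA : AlgStmt) : M3Stmt := by
  intro W
  obtain ⟨C1, a1, hc⟩ := collar (16 + ⌈32 * W⌉₊)
  obtain ⟨C2, a2, hp⟩ := pt_sq_le
  obtain ⟨C3, a3, hk⟩ := cap_nL
  set κ : ℝ := 2 * |W| + C3
  have hκ : 0 ≤ κ := by positivity
  refine ⟨1 + (C2 * 10 ^ 9 + 2 * κ + 10 ^ 4) * C1, by positivity, fun G hG => ?_⟩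
  have al := hA G W hG
  obtain ⟨c, r, R, R₂⟩ := G
  obtain ⟨g1, -, g3, g4, g5, -⟩ := hG
  have g6 := al.r_le
  have g7 := al.rho_le
  have g8 := al.le_rho
  have g9 := al.Ga_sub
  have g10 := al.card_Ga
  have e1 := al.eq_sup
  have e2 := al.te_sup
  have e3 := al.om_mem
  simp only [Gm.Ic, Gm.Oc, Gm.ma, Gm.mb, Gm.mid, Gm.te, Gm.eq, Gm.om, Gm.B] at *
  set ρ := Gm.rho ⟨c, r, R, R₂⟩
  set Γ := Gm.Ga ⟨c, r, R, R₂⟩
  set I := bl 0 r
  set D := bl 0 R
  set B := eD nL D with hB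
  set μ := eqm I D B
  have hD : Co D B := co_eD nL_ok D
  have hI : I ⊆ D := bl_mono 0 (by omega)
  have hne : I.Nonempty := bl_nonempty 0 r
  have hed : ∀ e ∈ nL.edT D, e.2 - e.1 ∈ nL.Jp := fun e he => (Lat.mem_edT.1 he).1
  have b1 : (64 : ℝ) ≤ r := by exact_mod_cast g3
  have b2 : 16 * (r : ℝ) ≤ ρ := by exact_mod_cast g6
  have b3 : 32 * (ρ : ℝ) ≤ R := by exact_mod_cast g7
  have b4 : (R : ℝ) ≤ 64 * ρ := by exact_mod_cast g8
  have hl : 2 * R ≤ (16 + ⌈32 * W⌉₊) * (r / 4) := by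
    have c1 : (r : ℝ) ≤ 8 * (r / 4 : ℕ) := by exact_mod_cast (show r ≤ 8 * (r / 4) by omega)
    have : (2 * R : ℝ) ≤ (16 + ⌈32 * W⌉₊) * (r / 4 : ℕ) := by
      nlinarith [Nat.le_ceil (32 * W), mul_le_mul_of_nonneg_left c1 (show 0 ≤ 4 * W by linarith),
        mul_le_mul_of_nonneg_right (Nat.le_ceil (32 * W)) (Nat.cast_nonneg (α := ℝ) (r / 4))]
    exact_mod_cast this
  have hcap : ∀ u, Sup D u → ip I μ u ^ 2 ≤ κ * B u u := fun u hu => by
    refine (hD.eqm_sq_le hI hne hu).trans (mul_le_mul_of_nonneg_right ?_ (hD.nonneg u))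
    have c1 := (abs_le.1 (hk 0 r R R D (by omega) (by omega) Subset.rfl Subset.rfl).2).2
    rw [div_self (by linarith), Real.log_one] at c1
    have c2 := div_two_pi_le (Real.log_nonneg ((one_le_div (a := (R : ℝ)) (b := r) (by linarith)).2
      (by linarith)))
    have c3 : Real.log ((R : ℝ) / r) ≤ 2 * W := (Real.log_le_self (by positivity)).trans
      (by rw [div_le_iff₀ (by linarith)]; exact g5)
    linarith [le_abs_self W]
  have m1 : ip I μ 1 = 1 := by simpa [ip] using hD.sum_eqm hI hne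
  have m2 : ∀ d, (∀ y ∈ an 0 (r - 1) r, d y = 0) → ip I μ d = 0 := fun d hd =>
    sum_eq_zero fun y _ => by
      by_cases hy : y ∈ an 0 (r - 1) r
      · rw [hd y hy, mul_zero]
      · rw [e1 y hy, zero_mul]
  have m3 : ∀ d, (∀ y ∈ an 0 R (R + 1), d y = 0) → ip I μ (hx D B d) = 0 := fun d hd =>
    sum_eq_zero fun y hy => by
      rw [zero_of_bd Subset.rfl (hD.hx_hm d) (fun w hw e he h3 => by
        rw [hD.hx_off _ h3]
        exact hd _ (mem_an.2 ⟨bl_subset_bl hw (by omega) (Ha91.nn_bl he w), h3⟩)) (hI hy), mul_zero]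
  have m4 : ∀ h, ip (bl 0 (R + 1)) (sw D μ) h = ip I μ (hx D B h) := fun h => by
    have c1 : ∀ u, ip D μ u = ip I μ u := fun u => by rw [ip_comm, ip_of_sup hI _ eqm_sup, ip_comm]
    rw [← c1, hD.ip_hx, sw, ip_sub_left, xg, hB, eD, ip_op_ends fun e he => edI_ends' nL _ e
      (Lat.edT_bl_subset 0 (by rw [nL_rg]) he), ip_comm, ip_of_sup (bl_mono 0 (Nat.le_succ R)) _
      (eqm_sup.mono hI), ip_comm]
  have p1 : ∀ s : Cfg Pt, pr μ s = ip I μ (cu s) := fun s => pr_of_fsupp _ s eqm_sup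
  have p2 : ∀ s : Cfg Pt, pr (sw D μ) s = ip I μ (hx D B (cu s)) := fun s => by
    rw [← m4]; exact pr_of_fsupp _ s (Sup.mono e2 sdiff_subset)
  have l1 : IsLinearMap ℝ (ip I μ) := ⟨ip_add_right _ _, fun c u => ip_smul_right _ _ _ _⟩
  have l2 : IsLinearMap ℝ fun h => ip I μ (hx D B h) :=
    ⟨fun u v => by rw [hD.hx_add, ip_add_right], fun c u => by rw [hD.hx_smul, ip_smul_right]; rfl⟩
  have fin : ∀ {n : ℝ} {E : ℝ}, 0 ≤ E → n ≤ (C2 * 10 ^ 9 + 2 * κ + 10 ^ 4) * (C1 * E) →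
      n ≤ (1 + (C2 * 10 ^ 9 + 2 * κ + 10 ^ 4) * C1) * E := fun hE h => by nlinarith
  have d1 : ∀ y, ip I μ (dl y) = μ y := fun y => by rw [ip_comm]; exact ip_dl_sup y eqm_sup
  refine ⟨fun x hx' => ?_, ?_, ?_⟩
  · rw [show Nc.an 0 (ρ / 2) (4 * ρ) = an 0 (ρ / 2) (4 * ρ) from rfl, mem_an] at hx'
    have hb : bl x (2 * (ρ / 8) + 1) ⊆ D := bl_subset_bl hx'.1 (by omega)
    have hb' : bl x (2 * (ρ / 8)) ⊆ D \ I := fun y hy => mem_sdiff.2 ⟨hb (bl_mono x (by omega) hy),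
      fun h1 => hx'.2 (bl_subset_bl h1 (by omega) (mem_bl_comm.1 hy))⟩
    have hxA : x ∈ D \ I := hb' (self_mem_bl _ _)
    have pt : ∀ u, Hm (D \ I) B u → ∀ t : ℝ, ∑ y ∈ D, u y ^ 2 ≤ 200 * (R : ℝ) ^ 2 * t →
        u x ^ 2 ≤ C2 * (5 * 10 ^ 8) * t := fun u hu t ht => by
      have c1 : (ρ : ℝ) ≤ 16 * (ρ / 8 : ℕ) := by exact_mod_cast (show ρ ≤ 16 * (ρ / 8) by omega)
      have c0 : 0 ≤ t := by
        by_contra c0
        nlinarith [sum_nonneg fun y (_ : y ∈ D) => sq_nonneg (u y), mul_pos (show (0 : ℝ) < R by linarith)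
          (show (0 : ℝ) < R by linarith)]
      refine (hp x (ρ / 8) u D (by omega) hb fun y hy =>
        (hm_eD nL_ok sdiff_subset).1 hu y (hb' hy)).trans
        ((mul_le_mul_of_nonneg_left ht (by positivity)).trans ?_)
      have c2 : (R : ℝ) ^ 2 ≤ (1024 * (ρ / 8 : ℕ)) ^ 2 := by gcongr; linarith
      rw [div_mul_eq_mul_div, div_le_iff₀ (pow_pos (by linarith) 2)]
      nlinarith [mul_le_mul_of_nonneg_left c2 (mul_nonneg a2 c0),
        mul_nonneg (mul_nonneg a2 c0) (sq_nonneg ((ρ / 8 : ℕ) : ℝ))]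
    have pD : ∀ u, Sup D u → ∑ y ∈ D, u y ^ 2 ≤ 72 * (R : ℝ) ^ 2 * B u u := fun u hu =>
      (An44.poin_D 0 R u hu).trans (mul_le_mul_of_nonneg_right (by nlinarith) (hD.nonneg u))
    obtain ⟨o1, o2⟩ := e3 x
    have li : IsLinearMap ℝ fun h => ex I D B h x - ex I D B 1 x * ip I μ h :=
      ⟨fun u v => by rw [hD.ex_add, ip_add_right, Pi.add_apply]; ring,
        fun c u => by rw [hD.ex_smul, ip_smul_right, Pi.smul_apply, smul_eq_mul, smul_eq_mul]; ring⟩
    have lo : IsLinearMap ℝ fun h => exo I D B h x - (1 - ex I D B 1 x) * ip I μ (hx D B h) :=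
      ⟨fun u v => by rw [hD.exo_add, l2.map_add, Pi.add_apply]; ring,
        fun c u => by rw [hD.exo_smul, l2.map_smul, Pi.smul_apply, smul_eq_mul, smul_eq_mul,
          smul_eq_mul]; ring⟩
    have ki : ∀ d, (∀ y ∈ an 0 (r - 1) r, d y = 0) → ex I D B d x - ex I D B 1 x * ip I μ d = 0 :=
      fun d hd => by
        rw [m2 d hd, zero_of_bd sdiff_subset (hD.ex_hm d) (fun w hw e he h3 => ?_) hxA]; · simp
        by_cases h4 : w + e ∈ I
        · rw [hD.ex_on d h4]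
          exact hd _ (mem_an.2 ⟨h4, fun h5 => (mem_sdiff.1 hw).2
            (bl_subset_bl h5 (by omega) (mem_bl_comm.1 (Ha91.nn_bl he w)))⟩)
        · exact hD.ex_sup hI d _ fun h5 => h3 (mem_sdiff.2 ⟨h5, h4⟩)
    have ko : ∀ d, (∀ y ∈ an 0 R (R + 1), d y = 0) →
        exo I D B d x - (1 - ex I D B 1 x) * ip I μ (hx D B d) = 0 := fun d hd => by
      rw [m3 d hd, zero_of_bd sdiff_subset (hD.exo_hm d) (fun w hw e he h3 => ?_) hxA]; · simp
      by_cases h4 : w + e ∈ I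
      · exact hD.exo_on d h4
      · have h5 : w + e ∉ D := fun h5 => h3 (mem_sdiff.2 ⟨h5, h4⟩)
        rw [hD.exo_off hI d h5]
        exact hd _ (mem_an.2 ⟨bl_subset_bl (mem_sdiff.1 hw).1 (by omega) (Ha91.nn_bl he w), h5⟩)
    obtain ⟨f1, f2⟩ := f2_lin (edI_ends' nL (an 0 (r / 2) (3 * r))) li
      (n := 1 + (C2 * 10 ^ 9 + 2 * κ + 10 ^ 4) * C1) (by positivity) fun h => by
        obtain ⟨v, v1, v2, v3, -⟩ := hc 0 (r / 2) (r - 1) r (3 * r) (r / 4) h (by omega) (by omega)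
          (by omega) (by omega) (by omega)
        have v4 : Sup D v := v2.mono (sdiff_subset.trans (bl_mono 0 (by omega)))
        have v5 : B v v ≤ _ := v3 _ hed
        have v6 := hD.nonneg v
        have q1 := pt _ (hD.ex_hm v) (B v v) ((pD _ (hD.ex_sup hI v)).trans (by
          nlinarith [mul_le_mul_of_nonneg_left (hD.ex_min (K := I) (φ := v) (fun _ _ => rfl) v4) (sq_nonneg (R : ℝ)),
            mul_nonneg (sq_nonneg (R : ℝ)) v6]))
        have q2 : (ex I D B 1 x * ip I μ v) ^ 2 ≤ κ * B v v := by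
          rw [mul_pow]
          exact (mul_le_of_le_one_left (sq_nonneg _) (by nlinarith)).trans (hcap v v4)
        rw [lin_red li (by simp [m1]) ki v1]
        refine fin ((sy_eN _).nonneg h) (le_trans ?_ (mul_le_mul_of_nonneg_left v5 (by positivity)))
        nlinarith [sq_nonneg (ex I D B v x + ex I D B 1 x * ip I μ v)]
    obtain ⟨f3, f4⟩ := f2_lin (edI_ends' nL (an 0 (R / 8) (2 * R))) lo
      (n := 1 + (C2 * 10 ^ 9 + 2 * κ + 10 ^ 4) * C1) (by positivity) fun h => by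
        obtain ⟨v, v1, v2, v3, v4⟩ := hc 0 (R / 8) R (R + 1) (2 * R) (R / 2) h (by omega) (by omega)
          (by omega) (by omega) (hl.trans (Nat.mul_le_mul_left _ (by omega)))
        have v0 : ∀ y ∈ I, v y = 0 := fun y hy => v2 y fun h1 =>
          (mem_an.1 h1).2 (bl_mono 0 (by omega) hy)
        have v5 : B v v ≤ _ := v3 _ hed
        have v7 := v4 D
        have hE := mul_nonneg a1 ((sy_eN (Λ := nL) (an 0 (R / 8) (2 * R))).nonneg h)
        rw [eN] at hE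
        obtain ⟨s1, s2⟩ := (hD.sd I).sub_hx_le (η := off I v) (v := v) fun y _ => by
          by_cases h1 : y ∈ I
          · rw [off_of_mem h1, v0 y h1]
          · rw [off_of_not h1]
        obtain ⟨s3, s4⟩ := hD.sub_hx_le (η := v) (v := v) fun _ _ => rfl
        have q1 := pt _ (hD.exo_hm v) (C1 * eN nL (an 0 (R / 8) (2 * R)) h h) (by
          have t1 := pD _ (s1.mono sdiff_subset)
          have t2 : ∑ y ∈ D, exo I D B v y ^ 2 ≤
              2 * ∑ y ∈ D, (v - hx (D \ I) B (off I v)) y ^ 2 + 2 * ∑ y ∈ D, v y ^ 2 := by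
            rw [mul_sum, mul_sum, ← sum_add_distrib]
            exact sum_le_sum fun y _ => by
              rw [Pi.sub_apply, ← exo]; nlinarith [sq_nonneg (2 * v y - exo I D B v y)]
          push_cast at v7
          rw [eN] at *
          nlinarith [mul_le_mul_of_nonneg_left (s2.trans v5) (sq_nonneg (R : ℝ)),
            mul_nonneg (sq_nonneg (R : ℝ)) hE])
        have q2 : ((1 - ex I D B 1 x) * ip I μ (hx D B v)) ^ 2 ≤ κ * B v v := by
          have t1 := hcap _ s3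
          rw [ip_sub_right, show ip I μ v = 0 from sum_eq_zero fun y hy => by rw [v0 y hy, mul_zero],
            zero_sub, neg_sq] at t1
          rw [mul_pow]
          exact (mul_le_of_le_one_left (sq_nonneg _) (by nlinarith)).trans
            (t1.trans (mul_le_mul_of_nonneg_left s4 hκ))
        rw [lin_red lo (by
          have t1 := congrFun (hD.hx_sd (K := I) 1) x
          rw [show hx (D \ I) B 1 = 1 from hx_one (hD.sd I), Pi.add_apply, Pi.one_apply] at t1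
          rw [show hx D B 1 = 1 from hx_one hD, m1]
          linarith) ko v1]
        refine fin ((sy_eN _).nonneg h) ?_
        rw [eN] at *
        nlinarith [sq_nonneg (exo I D B v x + (1 - ex I D B 1 x) * ip I μ (hx D B v)),
          mul_le_mul_of_nonneg_left v5 hκ]
    refine ⟨_, _, ⟨dl_loc ki, f1⟩, ⟨dl_loc ko, f3⟩, fun a => ?_, fun b => ?_⟩
    · rw [← f2 a, p1]; exact (add_sub_cancel _ _).symm
    · rw [← f4 b, p2]; exact (add_sub_cancel _ _).symm
  · have ll : IsLinearMap ℝ fun h => ip I μ h - ip I μ (hx D B h) :=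
      ⟨fun u v => by rw [l1.map_add, l2.map_add]; ring,
        fun c u => by rw [l1.map_smul, l2.map_smul, smul_sub]⟩
    have := (f2_lin (edI_ends' nL (an 0 (r / 2) (2 * R))) ll
      (n := 1 + (C2 * 10 ^ 9 + 2 * κ + 10 ^ 4) * C1) (by positivity) fun h => by
        obtain ⟨v, v1, -, v3, -⟩ := hc 0 (r / 2) (r - 1) (R + 1) (2 * R) (r / 4) h (by omega) (by omega)
          (by omega) (by omega) hl
        have v5 : B v v ≤ _ := v3 _ hed
        obtain ⟨s3, s4⟩ := hD.sub_hx_le (η := v) (v := v) fun _ _ => rfl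
        have t1 := hcap _ s3
        rw [lin_red ll (by rw [show hx D B 1 = 1 from hx_one hD, sub_self]) (fun d hd => by
          rw [m2 d fun y hy => hd y (An44.an_mono 0 le_rfl (by omega) hy),
            m3 d fun y hy => hd y (An44.an_mono 0 (by omega) le_rfl hy), sub_zero]) v1, ← ip_sub_right]
        refine fin ((sy_eN _).nonneg h) (le_trans ?_ (mul_le_mul_of_nonneg_left v5 (by positivity)))
        nlinarith [mul_le_mul_of_nonneg_left s4 hκ, hD.nonneg v, mul_nonneg hκ (hD.nonneg v),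
          mul_nonneg a2 (hD.nonneg v)]).1
    refine (congrArg (F2 _ · _) (funext fun y => ?_)).mp this
    rw [d1, ← m4, ip_comm, ip_dl_sup y (Sup.mono e2 sdiff_subset)]; rfl
  · have hΓ : (0 : ℝ) < Γ.card := by rw [g10]; push_cast; nlinarith
    have ll : IsLinearMap ℝ fun h => ip I μ h - avL Γ h :=
      ⟨fun u v => by rw [l1.map_add, map_add]; ring, fun c u => by rw [l1.map_smul, map_smul, smul_sub]⟩
    have := (f2_lin (edI_ends' nL (an 0 (r / 2) (2 * R))) ll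
      (n := 1 + (C2 * 10 ^ 9 + 2 * κ + 10 ^ 4) * C1) (by positivity) fun h => by
        obtain ⟨v, v1, v2, v3, v4⟩ := hc 0 (r / 2) (r - 1) (2 * ρ) R (r / 4) h (by omega) (by omega)
          (by omega) (by omega) (by omega)
        have v5 : B v v ≤ _ := v3 _ hed
        have hE := (sy_eN (Λ := nL) (an 0 (r / 2) R)).nonneg h
        have t1 := hcap v (v2.mono sdiff_subset)
        have t2 : avL Γ v ^ 2 ≤ 1000 * (C1 * eN nL (an 0 (r / 2) R) h h) := by
          have u1 := (sq_sum_le_card_mul_sum_sq (s := Γ) (f := v)).trans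
            (mul_le_mul_of_nonneg_left (v4 Γ) hΓ.le)
          have u2 : (R : ℝ) ^ 2 ≤ 1000 * Γ.card := by rw [g10]; push_cast; nlinarith
          rw [avL_apply, div_pow, div_le_iff₀ (by positivity)]
          nlinarith [mul_le_mul_of_nonneg_left u2 (mul_nonneg hΓ.le (mul_nonneg a1 hE))]
        rw [lin_red ll (by rw [m1, avL_apply]; simp [hΓ.ne']) (fun d hd => by
          rw [m2 d fun y hy => hd y (An44.an_mono 0 le_rfl (by omega) hy), avL_apply,
            sum_eq_zero fun y hy => hd y (An44.an_mono 0 (by omega) le_rfl (g9 hy))]; simp) v1]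
        refine le_trans (fin hE ?_) (mul_le_mul_of_nonneg_left
          (eN_mono (An44.an_mono 0 le_rfl (by omega)) h) (by positivity))
        nlinarith [sq_nonneg (ip I μ v + avL Γ v), mul_le_mul_of_nonneg_left v5 hκ, mul_nonneg a1 hE,
          mul_nonneg a2 (mul_nonneg a1 hE)]).1
    refine (congrArg (F2 _ · _) (funext fun y => ?_)).mp this
    rw [d1, avL_apply, Pi.sub_apply, unC, sum_pi_single']
    split_ifs <;> simp

end Crest.Agent.T145.Pot
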