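import Crest.Agent.T145.KvDef_8
import Crest.Agent.T145.KrM3_17
import Crest.Agent.T145.PotS_17

/-! # Row 145, module Kv: the mean value inequality in the middle of the slit condenser (helper81) -/

set_option autoImplicit false

namespace Crest.Agent.T145.Kv

open Finset Real
open Pot Pot.Sl

namespace Pt81

variable {V : Gv} {W : ℝ}

theorem mem_rng {n : ℕ} (hn : n ≤ V.G.rho) {y : Pt} : y ∈ V.rng n ↔
    ((-((V.G.rho : ℤ) + n) ≤ y.1 ∧ y.1 < V.G.rho + n) ∧ -((V.G.rho : ℤ) + n) ≤ y.2 ∧ y.2 < V.G.rho + n) ∧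
    ¬ ((-((V.G.rho : ℤ) - n) ≤ y.1 ∧ y.1 < V.G.rho - n) ∧ -((V.G.rho : ℤ) - n) ≤ y.2 ∧
      y.2 < V.G.rho - n) := by
  rw [Gv.rng, mem_sdiff, mem_sq, mem_sq]
  dsimp only
  omega

theorem rf_mem {n : ℕ} (hn : n ≤ V.G.rho) {y : Pt} : rf y ∈ V.rng n ↔ y ∈ V.rng n := by
  rw [mem_rng hn, mem_rng hn, rf_fst, rf_snd]
  omega

theorem rng_sub (h : V.Geo) {y : Pt} (hy : y ∈ V.rng (3 * V.ω)) : y ∈ V.G.A := by
  have := h.ω_le
  have := h.r_le
  have := h.rho_le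
  have := h.ω16
  rw [mem_rng (by omega)] at hy
  rw [Kr.Gm.A, Nc.an, mem_sdiff, mem_bl, mem_bl]
  simp only [Prod.fst_zero, Prod.snd_zero]
  omega

theorem mem_EA (h : V.Geo) (e : Pt × Pt) (he : e.1 ∈ V.G.A ∨ e.2 ∈ V.G.A) :
    e ∈ V.EA ↔ e.2 - e.1 ∈ nL.Jp ∧
      ∀ i, (V.G.rho : ℤ) - 4 * V.ω ≤ i → i < V.G.rho + 4 * V.ω → se i ≠ e := by
  have := h.ω_le
  rw [Gv.EA, Gv.kp, mem_filter, Lat.mem_edT, and_iff_left he]
  refine and_congr_right fun _ => ?_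
  obtain ⟨⟨a, b⟩, c, d⟩ := e
  simp only [Gv.s1, Gv.s2, Vd.ray, se, Prod.mk.injEq, Prod.fst_zero, Prod.snd_zero, ne_eq]
  constructor
  · rintro h1 i h2 h3 ⟨⟨rfl, rfl⟩, rfl, rfl⟩
    rw [if_pos (by omega), if_neg (by omega), if_neg (by omega)] at h1
    omega
  · intro h1
    split_ifs with h2 h3 h4 h5 <;> first | rfl | omega | exact (h1 a (by omega) (by omega) (by omega)).elim

/-- test functions in the ring do not see the seams -/
theorem op_eq (hV : V.Ok W) (h : V.Geo) (w : Pt → ℝ) {y : Pt} (hy : y ∈ V.rng (3 * V.ω)) :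
    V.B w (dl y) = op (eS V.G.A (V.G.rho - 4 * V.ω) (V.G.rho + 4 * V.ω)) w y := by
  have hA := rng_sub h hy
  have := h.ω_le
  have := h.ω16
  have := h.rho_le
  have := hV.g.out
  rw [mem_rng (by omega)] at hy
  rw [op, ← edF_eq_eS (mem_EA h) w (sup_dl hA), Gv.B, Gv.eT, sqF_apply, edF_apply]
  refine sum_congr rfl fun e _ => ?_
  have k1 : V.k1 ≠ y := by
    rintro rfl
    simp only [Gv.k1, Prod.fst_zero, Prod.snd_zero] at hy
    omega
  have k2 : V.k2 ≠ y := by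
    rintro rfl
    simp only [Gv.k2] at hy
    omega
  simp only [Gv.Gk, dr, LinearMap.add_apply, LinearMap.smul_apply, LinearMap.sub_apply,
    LinearMap.proj_apply, smul_eq_mul, one_mul, Pi.single_eq_of_ne k1, Pi.single_eq_of_ne k2, mul_zero,
    add_zero]
  by_cases he : e.1 = y ∨ e.2 = y
  · have s1 : V.s1 e = 0 := by
      by_contra hn
      obtain ⟨-, -, a1, a2, a3, a4⟩ := (h.seam e).1 hn
      have a5 := congrArg Prod.fst a2
      have a6 := congrArg Prod.snd a2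
      simp only [Prod.fst_add, Prod.snd_add] at a5 a6
      rcases he with rfl | rfl <;> omega
    have s2 : V.s2 e = 0 := by
      by_contra hn
      obtain ⟨-, -, a1, a2, a3⟩ := (h.seam e).2 hn
      have a5 := congrArg Prod.fst a2
      simp only [Prod.fst_add] at a5
      rcases he with rfl | rfl <;> omega
    simp [s1, s2]
  · rw [not_or] at he
    simp [Pi.single_eq_of_ne he.1, Pi.single_eq_of_ne he.2]

theorem sum_le {T : Finset Pt} (hT : ∀ y, rf y ∈ T ↔ y ∈ T) {u w : Pt → ℝ}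
    (h : ∀ y, u y = w y ∨ u y = w (rf y)) : ∑ y ∈ T, u y ^ 2 ≤ 2 * ∑ y ∈ T, w y ^ 2 := by
  have e : ∑ y ∈ T, w (rf y) ^ 2 = ∑ y ∈ T, w y ^ 2 :=
    sum_equiv rf (fun y => (hT y).symm) fun _ _ => rfl
  rw [two_mul]
  nth_rewrite 2 [← e]
  rw [← sum_add_distrib]
  refine sum_le_sum fun y _ => ?_
  rcases h y with h | h <;> rw [h] <;> nlinarith [sq_nonneg (w y), sq_nonneg (w (rf y))]

end Pt81

open Pt81 in
/-- mean value inequality for harmonic functions of the slit condenser -/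
theorem pt81 (hG : GeoStmt) : ∃ C : ℝ, 0 ≤ C ∧ ∀ (V : Gv) (W : ℝ), V.Ok W → ∀ w, Pot.Hm V.G.A V.B w →
    ∀ x ∈ V.mid, w x ^ 2 ≤ C / (V.ω : ℝ) ^ 2 * ∑ y ∈ V.rng (3 * V.ω), w y ^ 2 := by
  obtain ⟨C, C0, hp⟩ := pt_sq_le
  refine ⟨512 * C, by positivity, fun V W hV w hw x hx => ?_⟩
  have h := hG V W hV
  have g1 := h.ω_le
  have g2 := h.ω16
  have hT : ∀ y, rf y ∈ V.rng (3 * V.ω) ↔ y ∈ V.rng (3 * V.ω) := fun y => rf_mem (by omega)
  have h0 : ∀ y ∈ V.rng (3 * V.ω), op (eS V.G.A (V.G.rho - 4 * V.ω) (V.G.rho + 4 * V.ω)) w y = 0 :=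
    fun y hy => by rw [← op_eq hV h w hy]; exact hw _ (sup_dl (rng_sub h hy))
  obtain ⟨k, hk1, hk2⟩ : ∃ k : ℕ, 8 * k ≤ V.ω ∧ V.ω < 8 * k + 8 := ⟨V.ω / 8, by omega, by omega⟩
  rw [Gv.mid, mem_rng (by omega)] at hx
  have hb : bl x (2 * k + 1) ⊆ V.rng (3 * V.ω) := fun y hy => by
    rw [mem_bl] at hy
    rw [mem_rng (by omega)]
    omega
  have hb' : ∀ y ∈ bl x (2 * k), y ∈ V.rng (3 * V.ω) := fun y hy => hb (bl_mono x (by omega) hy)
  have key : ∃ u : Pt → ℝ, u x = w x ∧ (∀ y, u y = w y ∨ u y = w (rf y)) ∧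
      ∀ y ∈ bl x (2 * k), lap u y = 0 := by
    by_cases hc : (V.G.rho : ℤ) - 4 * V.ω + 2 * k ≤ x.1
    · have hin : ∀ y ∈ bl x (2 * k), (V.G.rho : ℤ) - 4 * V.ω ≤ y.1 ∧ y.1 < V.G.rho + 4 * V.ω :=
        fun y hy => by rw [mem_bl] at hy; omega
      by_cases hx2 : 0 ≤ x.2
      · refine ⟨up w, gl_up hx2, up_cases w, fun y hy => ?_⟩
        rw [lap_up (rng_sub h (hb' y hy)) (rng_sub h ((hT y).2 (hb' y hy))) (hin y hy), neg_eq_zero]
        rcases up_cases (op (eS V.G.A (V.G.rho - 4 * V.ω) (V.G.rho + 4 * V.ω)) w) y with e | e <;> rw [e]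
        exacts [h0 y (hb' y hy), h0 _ ((hT y).2 (hb' y hy))]
      · refine ⟨dn w, gl_dn (not_le.1 hx2), dn_cases w, fun y hy => ?_⟩
        rw [lap_dn (rng_sub h (hb' y hy)) (rng_sub h ((hT y).2 (hb' y hy))) (hin y hy), neg_eq_zero]
        rcases dn_cases (op (eS V.G.A (V.G.rho - 4 * V.ω) (V.G.rho + 4 * V.ω)) w) y with e | e <;> rw [e]
        exacts [h0 y (hb' y hy), h0 _ ((hT y).2 (hb' y hy))]
    · refine ⟨w, rfl, fun _ => Or.inl rfl, fun y hy => ?_⟩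
      have h1 := hb' y hy
      have h2 := h0 y h1
      rw [op_eS_off (rng_sub h h1), neg_eq_zero] at h2
      · exact h2
      rw [mem_rng (by omega)] at h1
      rw [mem_bl] at hy
      omega
  obtain ⟨u, u1, u2, u3⟩ := key
  have k1 : 1 ≤ k := by omega
  have k0 : (0 : ℝ) < k := by exact_mod_cast k1
  have w0 : (0 : ℝ) < V.ω := by exact_mod_cast (show 0 < V.ω by omega)
  have w1 : (V.ω : ℝ) ≤ 16 * k := by exact_mod_cast (show V.ω ≤ 16 * k by omega)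
  have c1 : C / (k : ℝ) ^ 2 ≤ 256 * C / (V.ω : ℝ) ^ 2 := by
    rw [div_le_div_iff₀ (by positivity) (by positivity)]
    nlinarith [mul_le_mul_of_nonneg_left (pow_le_pow_left₀ w0.le w1 2) C0]
  have S0 : 0 ≤ ∑ y ∈ V.rng (3 * V.ω), w y ^ 2 := sum_nonneg fun _ _ => sq_nonneg _
  rw [← u1]
  refine (hp x k u _ k1 hb u3).trans ((mul_le_mul c1 (sum_le hT u2) (sum_nonneg fun _ _ => sq_nonneg _)
    (by positivity)).trans_eq (by ring))

end Crest.Agent.T145.Kv
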