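import Crest.Agent.T145.KvM3A_89
import Crest.Agent.T145.KvPt_81

/-!
# Row 145, module Kv: M3 (helper89)
-/

set_option autoImplicit false

namespace Crest.Agent.T145.Kv

/-- M3 -/
theorem m3Stmt (hG : GeoStmt) (hA : AlgStmt) (hD : DualStmt) (hC : CapStmt) : M3Stmt :=
  m3Stmt_of hG hA hD hC (pt81 hG)

end Crest.Agent.T145.Kv
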