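import Crest.Agent.T145.Br_73
import Crest.Agent.T145.CorB_59

/-!
# Row 145, module (b): corollaries of `brStmt` for ambient models, `WR`, `WN`; roots, symmetries and
translations of rooted rectangles; `Au`, `En`, `col`, `row`, `sd`
-/

set_option autoImplicit false

namespace Crest.Agent.T145

open Finset

/-! ## Triangle inequalities for `Vr` -/
section vr
variable {L : Type*} [AddCommGroup L] {W : L → ℝ}

theorem Cen.vr_nonneg (h : Cen W) (f : L →+ ℝ) : 0 ≤ Vr W f f := h.wt.Vr_nonneg h.se f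

theorem Cen.abs_vr_le (h : Cen W) (f g : L →+ ℝ) :
    |Vr W f g| ≤ Real.sqrt (Vr W f f) * Real.sqrt (Vr W g g) := by
  rw [← Real.sqrt_mul (h.vr_nonneg f)]
  exact Real.abs_le_sqrt (h.wt.Vr_sq_le h.se f g)

theorem Cen.vr_add (h : Cen W) (f g : L →+ ℝ) :
    Vr W (f + g) (f + g) = Vr W f f + 2 * Vr W f g + Vr W g g := by
  rw [h.se.Vr_add_left, h.se.Vr_add_right, h.se.Vr_add_right, Vr_comm W g f]; ring

theorem Cen.vr_sub (h : Cen W) (f g : L →+ ℝ) :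
    Vr W (f - g) (f - g) = Vr W f f - 2 * Vr W f g + Vr W g g := by
  rw [h.se.Vr_sub_left, h.se.Vr_sub_right, h.se.Vr_sub_right, Vr_comm W g f]; ring

theorem Vr_smul_smul (W : L → ℝ) (c : ℝ) (f : L →+ ℝ) :
    Vr W (c • f) (c • f) = c ^ 2 * Vr W f f := by rw [Vr_smul_left, Vr_smul_right]; ring

theorem Vr_neg_neg (W : L → ℝ) (f : L →+ ℝ) : Vr W (-f) (-f) = Vr W f f := by
  rw [Vr_neg_left, Vr_neg_right, neg_neg]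

theorem Cen.sd_add_le (h : Cen W) (f g : L →+ ℝ) :
    Real.sqrt (Vr W (f + g) (f + g)) ≤ Real.sqrt (Vr W f f) + Real.sqrt (Vr W g g) := by
  refine Real.sqrt_le_iff.2 ⟨by positivity, ?_⟩
  rw [h.vr_add, add_sq, Real.sq_sqrt (h.vr_nonneg f), Real.sq_sqrt (h.vr_nonneg g)]
  linarith [le_abs_self (Vr W f g), h.abs_vr_le f g]

theorem Cen.sd_sub_le (h : Cen W) (f g : L →+ ℝ) :
    Real.sqrt (Vr W (f - g) (f - g)) ≤ Real.sqrt (Vr W f f) + Real.sqrt (Vr W g g) := by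
  rw [sub_eq_add_neg, ← Vr_neg_neg W g]; exact h.sd_add_le f (-g)

theorem Cen.abs_sd_sub_le (h : Cen W) (f g : L →+ ℝ) :
    |Real.sqrt (Vr W f f) - Real.sqrt (Vr W g g)| ≤ Real.sqrt (Vr W (f - g) (f - g)) := by
  have h1 := h.sd_add_le (f - g) g
  have h2 := h.sd_sub_le f (f - g)
  rw [sub_add_cancel] at h1
  rw [sub_sub_cancel] at h2
  rw [abs_le]; constructor <;> linarith

theorem Cen.vr_add_le (h : Cen W) (f g : L →+ ℝ) :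
    Vr W (f + g) (f + g) ≤ 2 * (Vr W f f + Vr W g g) := by
  have := h.vr_nonneg (f - g)
  rw [h.vr_sub] at this
  rw [h.vr_add]; linarith

theorem Cen.vr_sub_le (h : Cen W) (f g : L →+ ℝ) :
    Vr W (f - g) (f - g) ≤ 2 * (Vr W f f + Vr W g g) := by
  have := h.vr_nonneg (f + g)
  rw [h.vr_add] at this
  rw [h.vr_sub]; linarith

theorem Cen.sd_sum_le (h : Cen W) {ι : Type*} (T : Finset ι) (f : ι → L →+ ℝ) :
    Real.sqrt (Vr W (∑ i ∈ T, f i) (∑ i ∈ T, f i)) ≤ ∑ i ∈ T, Real.sqrt (Vr W (f i) (f i)) := by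
  classical
  induction T using Finset.induction_on with
  | empty => simp [(by simpa using Vr_smul_smul W 0 0 : Vr W 0 0 = 0)]
  | insert a T ha ih =>
    rw [sum_insert ha, sum_insert ha]
    exact (h.sd_add_le _ _).trans (by linarith)

/-- `M (f + g) ≤ M (2 f) / 2 + M (2 g) / 2` -/
theorem Cen.M_add_le_half (h : Cen W) (f g : L →+ ℝ) :
    M W (f + g) ≤ M W ((2 : ℝ) • f) / 2 + M W ((2 : ℝ) • g) / 2 := by
  have h1 := (h.wt.convexOn_M h.se).2 (Set.mem_univ ((2 : ℝ) • f)) (Set.mem_univ ((2 : ℝ) • g))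
    (by norm_num : (0 : ℝ) ≤ 1 / 2) (by norm_num : (0 : ℝ) ≤ 1 / 2) (by norm_num)
  rw [smul_smul, smul_smul] at h1
  norm_num at h1
  linarith

end vr

/-! ## Rectangles -/

theorem self_mem_rc (a : Pt) {n₁ n₂ : ℕ} (h₁ : 1 ≤ n₁) (h₂ : 1 ≤ n₂) : a ∈ rc a n₁ n₂ := by
  rw [mem_rc]; omega

theorem mem_rc0 {x : Pt} {n₁ n₂ : ℕ} :
    x ∈ rc 0 n₁ n₂ ↔ (0 ≤ x.1 ∧ x.1 < n₁) ∧ 0 ≤ x.2 ∧ x.2 < n₂ := by
  simp only [mem_rc, Prod.fst_zero, Prod.snd_zero, zero_add]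

theorem rc_subset_rc {a a' : Pt} {n₁ n₂ n₁' n₂' : ℕ} (h1 : a'.1 ≤ a.1) (h2 : a'.2 ≤ a.2)
    (h3 : a.1 + n₁ ≤ a'.1 + n₁') (h4 : a.2 + n₂ ≤ a'.2 + n₂') : rc a n₁ n₂ ⊆ rc a' n₁' n₂' :=
  fun x => by rw [mem_rc, mem_rc]; omega

theorem map_rc_swap (a : Pt) (n₁ n₂ : ℕ) :
    (rc a n₁ n₂).map (Equiv.prodComm ℤ ℤ).toEmbedding = rc a.swap n₂ n₁ := by
  ext x
  simp only [mem_map_equiv, mem_rc, Equiv.prodComm_symm, Equiv.prodComm_apply, Prod.fst_swap,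
    Prod.snd_swap]
  omega

theorem map_rc_rf1 (a : Pt) (n₁ n₂ : ℕ) :
    (rc a n₁ n₂).map (Lat.rf1 (2 * a.1 + n₁ - 1)).toEmbedding = rc a n₁ n₂ := by
  ext x
  simp [mem_map_equiv, mem_rc, Lat.rf1]
  omega

theorem map_rc_rf2 (a : Pt) (n₁ n₂ : ℕ) :
    (rc a n₁ n₂).map (Lat.rf2 (2 * a.2 + n₂ - 1)).toEmbedding = rc a n₁ n₂ := by
  ext x
  simp [mem_map_equiv, mem_rc, Lat.rf2]
  omega

theorem sum_rc {M : Type*} [AddCommMonoid M] (a : Pt) (n₁ n₂ : ℕ) (f : Pt → M) :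
    ∑ x ∈ rc a n₁ n₂, f x =
      ∑ i ∈ Ico a.1 (a.1 + n₁), ∑ j ∈ Ico a.2 (a.2 + n₂), f (i, j) := sum_product _ _ _

theorem sum_rc_add {M : Type*} [AddCommMonoid M] (a : Pt) (n₁ n₂ : ℕ) (f : Pt → M) :
    ∑ x ∈ rc a n₁ n₂, f x = ∑ x ∈ rc 0 n₁ n₂, f (x + a) := by
  conv_lhs => rw [← zero_add a, ← map_rc_add, sum_map]
  rfl

/-! ## Columns, rows, sides -/

theorem col_swap (n : ℕ) (c : ℤ) (x : Pt) : col n c x.swap = row n c x := rfl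
theorem row_swap (n : ℕ) (c : ℤ) (x : Pt) : row n c x.swap = col n c x := rfl

theorem col_rf1 (n : ℕ) (c k : ℤ) (x : Pt) : col n c (k - x.1, x.2) = col n (k - c) x := by
  unfold col; rw [ind_congr]; dsimp only; omega

theorem row_rf2 (n : ℕ) (c k : ℤ) (x : Pt) : row n c (x.1, k - x.2) = row n (k - c) x := by
  unfold row; rw [ind_congr]; dsimp only; omega

theorem col_rf2 (n : ℕ) (c : ℤ) (x : Pt) : col n c (x.1, n - 1 - x.2) = col n c x := by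
  unfold col; rw [ind_congr]; dsimp only; omega

theorem row_rf1 (n : ℕ) (c : ℤ) (x : Pt) : row n c (n - 1 - x.1, x.2) = row n c x := by
  unfold row; rw [ind_congr]; dsimp only; omega

theorem side_eq (L : ℕ) (f : Fin 4 → ℝ) : side L f = ∑ d, f d • sd L d := funext fun x => by
  simp only [side, Finset.sum_apply, Pi.smul_apply, smul_eq_mul]

theorem pr_side (L : ℕ) (f : Fin 4 → ℝ) : pr (side L f) = ∑ d, f d • pr (sd L d) := by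
  simp only [side_eq, pr_sum, pr_smul]

namespace Lat
variable {Λ : Lat} {m : Mdl Pt} {D D' : Finset Pt} {f g : Pt → ℝ} {n : ℝ} {n₁ n₂ L : ℕ}

/-! ## Ambient models -/

theorem Amb.cen (h : Λ.Amb m D) : Cen (m.W 0) := h.1.cen h.2.1

theorem Amb.mono (h : Λ.Amb m D) (hD : D' ⊆ D) : Λ.Amb m D' :=
  ⟨h.1, h.2.1, (edI_mono hD).trans h.2.2.1, fun e he => h.2.2.2 e (edI_mono hD he)⟩

theorem Amb.vr_le (h : Λ.Amb m D) (hΛ : Λ.Ok) (hf : F2 (Λ.edI D) f n) :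
    Vr (m.W 0) (pr f) (pr f) ≤ Λ.τ * n := (hf.f2a _).vr_le hΛ.pos h.1 h.2.1 h.2.2.1 h.2.2.2

theorem Amb.M_le (h : Λ.Amb m D) (hΛ : Λ.Ok) (hf : F2 (Λ.edI D) f n) :
    M (m.W 0) (pr f) ≤ Λ.τ * n * Real.cosh (Real.sqrt n) / 2 :=
  (hf.f2a _).M_le hΛ.pos h.1 h.2.1 h.2.2.1 h.2.2.2

theorem Amb.M_smul_le (h : Λ.Amb m D) (hΛ : Λ.Ok) (hf : F2 (Λ.edI D) f n) (t : ℝ) :
    M (m.W 0) (t • pr f) ≤ Λ.τ * (t ^ 2 * n) * Real.cosh (|t| * Real.sqrt n) / 2 :=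
  (hf.f2a _).M_smul_le hΛ.pos h.1 h.2.1 h.2.2.1 h.2.2.2 t

theorem Amb.four_le (h : Λ.Amb m D) (hΛ : Λ.Ok) (hf : F2 (Λ.edI D) f n) :
    Ex (m.W 0) (fun s => pr f s ^ 4) ≤ 24 * Real.exp Λ.τ * n ^ 2 :=
  (hf.f2a _).four_le hΛ.pos h.1 h.2.1 h.2.2.1 h.2.2.2

/-- small forces: `M (t f) ≤ τ t² n` once `t² n ≤ 1` -/
theorem Amb.M_smul_le' (h : Λ.Amb m D) (hΛ : Λ.Ok) (hf : F2 (Λ.edI D) f n) {t : ℝ}
    (ht : t ^ 2 * n ≤ 1) : M (m.W 0) (t • pr f) ≤ Λ.τ * (t ^ 2 * n) := by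
  have h1 := h.M_le hΛ (hf.smul t)
  have h2 : Real.cosh (Real.sqrt (t ^ 2 * n)) ≤ Real.cosh 1 := Real.cosh_le_cosh.2 (by
    rw [abs_one, abs_of_nonneg (Real.sqrt_nonneg _)]; exact Real.sqrt_le_one.2 ht)
  rw [pr_smul] at h1
  have h3 : 0 ≤ Λ.τ * (t ^ 2 * n) := mul_nonneg hΛ.pos.le (hf.smul t).nonneg
  nlinarith [mul_le_mul_of_nonneg_left (h2.trans cosh_one_le_two) h3]

theorem Amb.flow_M_le (h : Λ.Amb m D) (hΛ : Λ.Ok) {φ : Pt × Pt → ℝ} {c : ℝ}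
    (hφ : ∀ e ∈ Λ.edI D, |φ e| ≤ c) : M (m.W 0) (pr (dv (Λ.edI D) φ)) ≤
      Λ.τ * (∑ e ∈ Λ.edI D, φ e ^ 2) * Real.cosh c / 2 :=
  T145.flow_M_le hΛ.pos h.1 h.2.1 h.2.2.1 h.2.2.2 (fun _ _ => rfl) le_rfl hφ

theorem WN_eq (Λ : Lat) (L : ℕ) : Λ.WN L = Λ.WR L L := rfl

theorem Ok.amb_WR (h : Λ.Ok) (h₁ : 1 ≤ n₁) (h₂ : 1 ≤ n₂) :
    Λ.Amb (Λ.Nr (rc 0 n₁ n₂) 0) (rc 0 n₁ n₂) := h.amb_rc (self_mem_rc 0 h₁ h₂)

theorem Ok.amb_WN (h : Λ.Ok) (hL : 1 ≤ L) : Λ.Amb (Λ.Nr (sq 0 L) 0) (sq 0 L) := h.amb_WR hL hL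

theorem Ok.amb_sq (h : Λ.Ok) {a r : Pt} (hr : r ∈ sq a L) : Λ.Amb (Λ.Nr (sq a L) r) (sq a L) :=
  h.amb_rc (n₁ := L) (n₂ := L) hr

theorem Ok.cen_WR (h : Λ.Ok) (h₁ : 1 ≤ n₁) (h₂ : 1 ≤ n₂) : Cen (Λ.WR n₁ n₂) := (h.amb_WR h₁ h₂).cen

theorem Ok.cen_WN (h : Λ.Ok) (hL : 1 ≤ L) : Cen (Λ.WN L) := h.cen_WR hL hL

theorem Ok.vr_WR (h : Λ.Ok) (h₁ : 1 ≤ n₁) (h₂ : 1 ≤ n₂) (hf : F2 (Λ.edI (rc 0 n₁ n₂)) f n) :
    Vr (Λ.WR n₁ n₂) (pr f) (pr f) ≤ Λ.τ * n := (h.amb_WR h₁ h₂).vr_le h hf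

theorem Ok.vr_WN (h : Λ.Ok) (hL : 1 ≤ L) (hf : F2 (Λ.edI (sq 0 L)) f n) :
    Vr (Λ.WN L) (pr f) (pr f) ≤ Λ.τ * n := (h.amb_WN hL).vr_le h hf

theorem Ok.M_WR (h : Λ.Ok) (h₁ : 1 ≤ n₁) (h₂ : 1 ≤ n₂) (hf : F2 (Λ.edI (rc 0 n₁ n₂)) f n) (t : ℝ) :
    M (Λ.WR n₁ n₂) (t • pr f) ≤ Λ.τ * (t ^ 2 * n) * Real.cosh (|t| * Real.sqrt n) / 2 :=
  (h.amb_WR h₁ h₂).M_smul_le h hf t

theorem Ok.M_WN (h : Λ.Ok) (hL : 1 ≤ L) (hf : F2 (Λ.edI (sq 0 L)) f n) (t : ℝ) :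
    M (Λ.WN L) (t • pr f) ≤ Λ.τ * (t ^ 2 * n) * Real.cosh (|t| * Real.sqrt n) / 2 :=
  (h.amb_WN hL).M_smul_le h hf t

theorem Ok.four_WR (h : Λ.Ok) (h₁ : 1 ≤ n₁) (h₂ : 1 ≤ n₂) (hf : F2 (Λ.edI (rc 0 n₁ n₂)) f n) :
    Ex (Λ.WR n₁ n₂) (fun s => pr f s ^ 4) ≤ 24 * Real.exp Λ.τ * n ^ 2 :=
  (h.amb_WR h₁ h₂).four_le h hf

theorem Ok.four_WN (h : Λ.Ok) (hL : 1 ≤ L) (hf : F2 (Λ.edI (sq 0 L)) f n) :
    Ex (Λ.WN L) (fun s => pr f s ^ 4) ≤ 24 * Real.exp Λ.τ * n ^ 2 := (h.amb_WN hL).four_le h hf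

/-! ## `Au`, `En` -/

theorem pr_Au (Λ : Lat) (D : Finset Pt) (u : Pt → ℝ) (s : Cfg Pt) :
    pr (Λ.Au D u) s = ∑ e ∈ Λ.edI D, (u e.2 - u e.1) / Λ.τ * (dE e s : ℝ) := pr_dv _ _ _

theorem Au_add (Λ : Lat) (D : Finset Pt) (u v : Pt → ℝ) :
    Λ.Au D (u + v) = Λ.Au D u + Λ.Au D v := by
  rw [Au, Au, Au, ← dv_add]; exact dv_congr fun e _ => by simp only [Pi.add_apply]; ring

theorem Au_sub (Λ : Lat) (D : Finset Pt) (u v : Pt → ℝ) :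
    Λ.Au D (u - v) = Λ.Au D u - Λ.Au D v := by
  rw [Au, Au, Au, ← dv_sub]; exact dv_congr fun e _ => by simp only [Pi.sub_apply]; ring

theorem Au_smul (Λ : Lat) (D : Finset Pt) (c : ℝ) (u : Pt → ℝ) :
    Λ.Au D (c • u) = c • Λ.Au D u := by
  rw [Au, Au, ← dv_smul]
  exact dv_congr fun e _ => by simp only [Pi.smul_apply, smul_eq_mul]; ring

theorem Au_sum (Λ : Lat) (D : Finset Pt) {ι : Type*} (T : Finset ι) (u : ι → Pt → ℝ) :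
    Λ.Au D (∑ i ∈ T, u i) = ∑ i ∈ T, Λ.Au D (u i) := by
  simp only [Au, ← dv_sum]
  exact dv_congr fun e _ => by simp only [Finset.sum_apply, ← sum_div, sum_sub_distrib]

theorem Au_congr {u v : Pt → ℝ} {c : ℝ} (h : ∀ x ∈ D, u x = v x + c) : Λ.Au D u = Λ.Au D v :=
  dv_congr fun e he => by rw [h _ (edI_ends D e he).1, h _ (edI_ends D e he).2]; ring

theorem sup_Au (Λ : Lat) (D : Finset Pt) (u : Pt → ℝ) : Sup D (Λ.Au D u) :=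
  sup_dv _ (edI_ends D)

theorem sum_Au (Λ : Lat) (D : Finset Pt) (u : Pt → ℝ) : ∑ x ∈ D, Λ.Au D u x = 0 :=
  sum_dv _ (edI_ends D)

theorem ip_Au (Λ : Lat) (D : Finset Pt) (u v : Pt → ℝ) : ip D (Λ.Au D u) v = Λ.En D u v :=
  (ip_dv _ (edI_ends D) _).trans (sum_congr rfl fun e _ => by ring)

/-- `u` is constant along the edges of `D'` that are not edges of `D` -/
theorem Au_subset {u : Pt → ℝ} (hD : D ⊆ D')
    (h : ∀ e ∈ Λ.edI D', e ∉ Λ.edI D → u e.2 = u e.1) : Λ.Au D' u = Λ.Au D u :=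
  (dv_subset (edI_mono hD) fun e he he' => by rw [h e he he', sub_self, zero_div]).symm

theorem En_subset {u : Pt → ℝ} (hD : D ⊆ D')
    (h : ∀ e ∈ Λ.edI D', e ∉ Λ.edI D → u e.2 = u e.1) (v : Pt → ℝ) : Λ.En D' u v = Λ.En D u v :=
  (sum_subset (edI_mono hD) fun e he he' => by rw [h e he he']; simp).symm

theorem En_comm (Λ : Lat) (D : Finset Pt) (u v : Pt → ℝ) : Λ.En D u v = Λ.En D v u :=
  sum_congr rfl fun e _ => by ring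

theorem En_add_left (Λ : Lat) (D : Finset Pt) (u v w : Pt → ℝ) :
    Λ.En D (u + v) w = Λ.En D u w + Λ.En D v w := by
  simp only [En, ← sum_add_distrib, Pi.add_apply]; exact sum_congr rfl fun e _ => by ring

theorem En_sub_left (Λ : Lat) (D : Finset Pt) (u v w : Pt → ℝ) :
    Λ.En D (u - v) w = Λ.En D u w - Λ.En D v w := by
  simp only [En, ← sum_sub_distrib, Pi.sub_apply]; exact sum_congr rfl fun e _ => by ring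

theorem En_smul_left (Λ : Lat) (D : Finset Pt) (c : ℝ) (u w : Pt → ℝ) :
    Λ.En D (c • u) w = c * Λ.En D u w := by
  simp only [En, mul_sum, Pi.smul_apply, smul_eq_mul]; exact sum_congr rfl fun e _ => by ring

theorem En_add_right (Λ : Lat) (D : Finset Pt) (u v w : Pt → ℝ) :
    Λ.En D w (u + v) = Λ.En D w u + Λ.En D w v := by
  rw [En_comm, En_add_left, En_comm, Λ.En_comm D v]

theorem En_sub_right (Λ : Lat) (D : Finset Pt) (u v w : Pt → ℝ) :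
    Λ.En D w (u - v) = Λ.En D w u - Λ.En D w v := by
  rw [En_comm, En_sub_left, En_comm, Λ.En_comm D v]

theorem En_smul_right (Λ : Lat) (D : Finset Pt) (c : ℝ) (u w : Pt → ℝ) :
    Λ.En D w (c • u) = c * Λ.En D w u := by rw [En_comm, En_smul_left, En_comm]

theorem En_smul_smul (Λ : Lat) (D : Finset Pt) (c : ℝ) (u : Pt → ℝ) :
    Λ.En D (c • u) (c • u) = c ^ 2 * Λ.En D u u := by rw [En_smul_left, En_smul_right]; ring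

theorem En_self (Λ : Lat) (D : Finset Pt) (u : Pt → ℝ) :
    Λ.En D u u = ∑ e ∈ Λ.edI D, (u e.2 - u e.1) ^ 2 / Λ.τ := sum_congr rfl fun e _ => by ring

theorem Ok.En_nonneg (h : Λ.Ok) (D : Finset Pt) (u : Pt → ℝ) : 0 ≤ Λ.En D u u := by
  rw [En_self]; exact sum_nonneg fun e _ => div_nonneg (sq_nonneg _) h.pos.le

theorem Ok.En_mono (h : Λ.Ok) (hD : D ⊆ D') (u : Pt → ℝ) : Λ.En D u u ≤ Λ.En D' u u := by
  rw [En_self, En_self]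
  exact sum_le_sum_of_subset_of_nonneg (edI_mono hD) fun e _ _ => div_nonneg (sq_nonneg _) h.pos.le

theorem Ok.f2_Au (h : Λ.Ok) (D : Finset Pt) (u : Pt → ℝ) :
    F2 (Λ.edI D) (Λ.Au D u) (Λ.En D u u / Λ.τ) :=
  (F2.dv _ _).mono (le_of_eq (by
    rw [En_self, sum_div]
    exact sum_congr rfl fun e _ => by have := h.pos.ne'; field_simp))

theorem Ok.En_sq_le (h : Λ.Ok) (D : Finset Pt) (u v : Pt → ℝ) :
    Λ.En D u v ^ 2 ≤ Λ.En D u u * Λ.En D v v := by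
  have h1 := (h.f2_Au D u).ip_sq_le (edI_ends D) v
  rwa [ip_Au, div_mul_eq_mul_div, mul_div_assoc, sum_div, ← En_self] at h1

/-- the bare bound `V (X_u) ≤ E (u)` -/
theorem Amb.vr_Au (h : Λ.Amb m D) (hΛ : Λ.Ok) (u : Pt → ℝ) :
    Vr (m.W 0) (pr (Λ.Au D u)) (pr (Λ.Au D u)) ≤ Λ.En D u u := by
  have h1 := h.vr_le hΛ (hΛ.f2_Au D u)
  rwa [mul_div_cancel₀ _ hΛ.pos.ne'] at h1

theorem Ok.VR_eq (h : Λ.Ok) {l : ℕ} (hl : 1 ≤ l) : Λ.VR l l = Λ.tN l * (Λ.e0 * (l : ℝ) ^ 2) := by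
  have := h.e0_pos
  exact (div_mul_cancel₀ _ (by positivity)).symm

/-! ## Roots, translations, symmetries of rectangles -/
section sym
variable (h : Λ.Ok) (h₁ : 1 ≤ n₁) (h₂ : 1 ≤ n₂)
include h h₁ h₂

theorem Ok.ex_rc {a r : Pt} (hr : r ∈ rc a n₁ n₂) {F : Cfg Pt → ℝ}
    (hF : ∀ s k, F (s + cst (rc a n₁ n₂) k) = F s) : Ex ((Λ.Nr (rc a n₁ n₂) r).W 0) F =
      Ex (Λ.WR n₁ n₂) fun s => F (mapH (Equiv.addRight a) s) :=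
  (Λ.sym_add a).ex_Nr h (by rw [map_rc_add, zero_add]) (self_mem_rc 0 h₁ h₂) hr hF

theorem Ok.M_rc {a r : Pt} (hr : r ∈ rc a n₁ n₂) (hf : ∑ x ∈ rc a n₁ n₂, f x = 0) :
    M ((Λ.Nr (rc a n₁ n₂) r).W 0) (pr f) = M (Λ.WR n₁ n₂) (pr fun x => f (x + a)) :=
  (Λ.sym_add a).M_Nr h (by rw [map_rc_add, zero_add]) (self_mem_rc 0 h₁ h₂) hr hf

theorem Ok.Vr_rc {a r : Pt} (hr : r ∈ rc a n₁ n₂) (hf : ∑ x ∈ rc a n₁ n₂, f x = 0)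
    (hg : ∑ x ∈ rc a n₁ n₂, g x = 0) : Vr ((Λ.Nr (rc a n₁ n₂) r).W 0) (pr f) (pr g) =
      Vr (Λ.WR n₁ n₂) (pr fun x => f (x + a)) (pr fun x => g (x + a)) :=
  (Λ.sym_add a).Vr_Nr h (by rw [map_rc_add, zero_add]) (self_mem_rc 0 h₁ h₂) hr hf hg

theorem Ok.Ph_rc {a r : Pt} (hr : r ∈ rc a n₁ n₂) {q : ℤ}
    (hf : ∑ x ∈ rc a n₁ n₂, f x = 2 * Real.pi * q) :
    Ph ((Λ.Nr (rc a n₁ n₂) r).W 0) (pr f) = Ph (Λ.WR n₁ n₂) (pr fun x => f (x + a)) :=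
  (Λ.sym_add a).Ph_Nr h (by rw [map_rc_add, zero_add]) (self_mem_rc 0 h₁ h₂) hr hf

theorem Ok.ex_rf1 {F : Cfg Pt → ℝ} (hF : ∀ s k, F (s + cst (rc 0 n₁ n₂) k) = F s) :
    Ex (Λ.WR n₁ n₂) F = Ex (Λ.WR n₁ n₂) fun s => F (mapH (rf1 (n₁ - 1)) s) :=
  (h.sym_rf1 _).ex_Nr h (by simpa using map_rc_rf1 0 n₁ n₂) (self_mem_rc 0 h₁ h₂)
    (self_mem_rc 0 h₁ h₂) hF

theorem Ok.M_rf1 (hf : ∑ x ∈ rc 0 n₁ n₂, f x = 0) :
    M (Λ.WR n₁ n₂) (pr f) = M (Λ.WR n₁ n₂) (pr fun x => f (n₁ - 1 - x.1, x.2)) :=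
  (h.sym_rf1 (n₁ - 1)).M_Nr h (by simpa using map_rc_rf1 0 n₁ n₂) (self_mem_rc 0 h₁ h₂)
    (self_mem_rc 0 h₁ h₂) hf

theorem Ok.Vr_rf1 (hf : ∑ x ∈ rc 0 n₁ n₂, f x = 0) (hg : ∑ x ∈ rc 0 n₁ n₂, g x = 0) :
    Vr (Λ.WR n₁ n₂) (pr f) (pr g) = Vr (Λ.WR n₁ n₂) (pr fun x => f (n₁ - 1 - x.1, x.2))
      (pr fun x => g (n₁ - 1 - x.1, x.2)) :=
  (h.sym_rf1 (n₁ - 1)).Vr_Nr h (by simpa using map_rc_rf1 0 n₁ n₂) (self_mem_rc 0 h₁ h₂)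
    (self_mem_rc 0 h₁ h₂) hf hg

theorem Ok.Ph_rf1 {q : ℤ} (hf : ∑ x ∈ rc 0 n₁ n₂, f x = 2 * Real.pi * q) :
    Ph (Λ.WR n₁ n₂) (pr f) = Ph (Λ.WR n₁ n₂) (pr fun x => f (n₁ - 1 - x.1, x.2)) :=
  (h.sym_rf1 (n₁ - 1)).Ph_Nr h (by simpa using map_rc_rf1 0 n₁ n₂) (self_mem_rc 0 h₁ h₂)
    (self_mem_rc 0 h₁ h₂) hf

theorem Ok.ex_rf2 {F : Cfg Pt → ℝ} (hF : ∀ s k, F (s + cst (rc 0 n₁ n₂) k) = F s) :
    Ex (Λ.WR n₁ n₂) F = Ex (Λ.WR n₁ n₂) fun s => F (mapH (rf2 (n₂ - 1)) s) :=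
  (h.sym_rf2 _).ex_Nr h (by simpa using map_rc_rf2 0 n₁ n₂) (self_mem_rc 0 h₁ h₂)
    (self_mem_rc 0 h₁ h₂) hF

theorem Ok.M_rf2 (hf : ∑ x ∈ rc 0 n₁ n₂, f x = 0) :
    M (Λ.WR n₁ n₂) (pr f) = M (Λ.WR n₁ n₂) (pr fun x => f (x.1, n₂ - 1 - x.2)) :=
  (h.sym_rf2 (n₂ - 1)).M_Nr h (by simpa using map_rc_rf2 0 n₁ n₂) (self_mem_rc 0 h₁ h₂)
    (self_mem_rc 0 h₁ h₂) hf

theorem Ok.Vr_rf2 (hf : ∑ x ∈ rc 0 n₁ n₂, f x = 0) (hg : ∑ x ∈ rc 0 n₁ n₂, g x = 0) :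
    Vr (Λ.WR n₁ n₂) (pr f) (pr g) = Vr (Λ.WR n₁ n₂) (pr fun x => f (x.1, n₂ - 1 - x.2))
      (pr fun x => g (x.1, n₂ - 1 - x.2)) :=
  (h.sym_rf2 (n₂ - 1)).Vr_Nr h (by simpa using map_rc_rf2 0 n₁ n₂) (self_mem_rc 0 h₁ h₂)
    (self_mem_rc 0 h₁ h₂) hf hg

theorem Ok.Ph_rf2 {q : ℤ} (hf : ∑ x ∈ rc 0 n₁ n₂, f x = 2 * Real.pi * q) :
    Ph (Λ.WR n₁ n₂) (pr f) = Ph (Λ.WR n₁ n₂) (pr fun x => f (x.1, n₂ - 1 - x.2)) :=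
  (h.sym_rf2 (n₂ - 1)).Ph_Nr h (by simpa using map_rc_rf2 0 n₁ n₂) (self_mem_rc 0 h₁ h₂)
    (self_mem_rc 0 h₁ h₂) hf

end sym

/-- transposition fixes the root: no neutrality is needed -/
theorem Ok.iso_swap (h : Λ.Ok) (n₁ n₂ : ℕ) : (Λ.Nr (rc 0 n₁ n₂) 0).Iso (Λ.Nr (rc 0 n₂ n₁) 0)
    (Equiv.prodComm ℤ ℤ) (ori (Equiv.prodComm ℤ ℤ)) := by
  have h1 := h.sym_swap.iso_Nr h (rc 0 n₁ n₂) 0
  rwa [map_rc_swap] at h1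

theorem Ok.ex_swap (h : Λ.Ok) (n₁ n₂ : ℕ) (F : Cfg Pt → ℝ) :
    Ex (Λ.WR n₂ n₁) F = Ex (Λ.WR n₁ n₂) fun s => F (mapH (Equiv.prodComm ℤ ℤ) s) :=
  (h.iso_swap n₁ n₂).ex0 (h.ctr_Nr _ _).1 F

theorem Ok.M_swap (h : Λ.Ok) (n₁ n₂ : ℕ) (f : Pt → ℝ) :
    M (Λ.WR n₂ n₁) (pr f) = M (Λ.WR n₁ n₂) (pr fun x => f x.swap) :=
  (h.iso_swap n₁ n₂).M_pr (h.ctr_Nr _ _).1 f

theorem Ok.Vr_swap (h : Λ.Ok) (n₁ n₂ : ℕ) (f g : Pt → ℝ) : Vr (Λ.WR n₂ n₁) (pr f) (pr g) =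
    Vr (Λ.WR n₁ n₂) (pr fun x => f x.swap) (pr fun x => g x.swap) :=
  (h.iso_swap n₁ n₂).Vr_pr (h.ctr_Nr _ _).1 f g

theorem Ok.Ph_swap (h : Λ.Ok) (n₁ n₂ : ℕ) (f : Pt → ℝ) :
    Ph (Λ.WR n₂ n₁) (pr f) = Ph (Λ.WR n₁ n₂) (pr fun x => f x.swap) :=
  (h.iso_swap n₁ n₂).Ph_pr (h.ctr_Nr _ _).1 f

/-- translation of a rectangle rooted at its corner: no neutrality is needed -/
theorem Ok.iso_add (h : Λ.Ok) (a : Pt) (n₁ n₂ : ℕ) : (Λ.Nr (rc 0 n₁ n₂) 0).Iso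
    (Λ.Nr (rc a n₁ n₂) a) (Equiv.addRight a) (ori (Equiv.addRight a)) := by
  have h1 := (Λ.sym_add a).iso_Nr h (rc 0 n₁ n₂) 0
  simpa only [map_rc_add, Equiv.coe_addRight, zero_add] using h1

/-- transport of `Au` along a symmetry -/
theorem Sym.Au_map {φ : Pt ≃ Pt} (hΛ : Λ.Ok) (h : Λ.Sym φ) (D : Finset Pt) (u : Pt → ℝ) (x : Pt) :
    Λ.Au (D.map φ.toEmbedding) u (φ x) = Λ.Au D (fun y => u (φ y)) x := by
  rw [Au, Au, h.edI_map hΛ, dv, dv, sum_map]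
  refine sum_congr rfl fun e _ => ?_
  rcases ori_cases φ e with h1 | h1 <;>
    simp only [Equiv.coe_toEmbedding, h1, φ.injective.eq_iff]
  ring

theorem Sym.En_map {φ : Pt ≃ Pt} (hΛ : Λ.Ok) (h : Λ.Sym φ) (D : Finset Pt) (u v : Pt → ℝ) :
    Λ.En (D.map φ.toEmbedding) u v = Λ.En D (fun y => u (φ y)) fun y => v (φ y) := by
  rw [En, En, h.edI_map hΛ, sum_map]
  refine sum_congr rfl fun e _ => ?_
  rcases ori_cases φ e with h1 | h1 <;> simp only [Equiv.coe_toEmbedding, h1]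
  ring

/-- transport of flows along a symmetry -/
theorem Sym.f2 {φ : Pt ≃ Pt} (hΛ : Λ.Ok) (h : Λ.Sym φ) (hf : F2 (Λ.edI (D.map φ.toEmbedding)) f n) :
    F2 (Λ.edI D) (fun x => f (φ x)) n := by
  obtain ⟨ψ, rfl, h2⟩ := hf
  rw [h.edI_map hΛ, sum_map] at h2
  refine ⟨fun e => if ori φ e = (φ e.1, φ e.2) then ψ (ori φ e) else -ψ (ori φ e), ?_, ?_⟩
  · funext x
    rw [h.edI_map hΛ, dv, dv, sum_map]
    refine sum_congr rfl fun e _ => ?_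
    by_cases h1 : ori φ e = (φ e.1, φ e.2)
    · simp only [Equiv.coe_toEmbedding, h1, φ.injective.eq_iff, if_true]
    · have h3 := (ori_cases φ e).resolve_left h1
      simp only [Equiv.coe_toEmbedding, if_neg h1]
      rw [h3]; simp only [φ.injective.eq_iff]; ring
  · refine le_trans (le_of_eq (sum_congr rfl fun e _ => ?_)) h2
    simp only [Equiv.coe_toEmbedding]
    split_ifs <;> ring

theorem Sym.fs {φ : Pt ≃ Pt} {c : ℝ} (hΛ : Λ.Ok) (h : Λ.Sym φ)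
    (hf : Fs (Λ.edI (D.map φ.toEmbedding)) f c) : Fs (Λ.edI D) (fun x => f (φ x)) c := by
  obtain ⟨ψ, rfl, h2⟩ := hf
  refine ⟨fun e => if ori φ e = (φ e.1, φ e.2) then ψ (ori φ e) else -ψ (ori φ e), ?_, ?_⟩
  · funext x
    rw [h.edI_map hΛ, dv, dv, sum_map]
    refine sum_congr rfl fun e _ => ?_
    by_cases h1 : ori φ e = (φ e.1, φ e.2)
    · simp only [Equiv.coe_toEmbedding, h1, φ.injective.eq_iff, if_true]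
    · have h3 := (ori_cases φ e).resolve_left h1
      simp only [Equiv.coe_toEmbedding, if_neg h1]
      rw [h3]; simp only [φ.injective.eq_iff]; ring
  · intro e he
    have h3 := h2 (ori φ e) (by rw [h.edI_map hΛ]; exact mem_map_of_mem _ he)
    dsimp only
    split_ifs
    exacts [h3, by rwa [abs_neg]]

/-- all four sides carry the same charge -/
theorem Ok.aq_eq (h : Λ.Ok) (hL : 1 ≤ L) (q : ℤ) (d : Fin 4) :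
    Ph (Λ.WN L) ((2 * Real.pi * q) • pr (sd L d)) = Λ.aq L q := by
  have h0 : ∀ d, ∑ x ∈ rc 0 L L, ((2 * Real.pi * q) • sd L d) x = 2 * Real.pi * q := fun d => by
    simp only [Pi.smul_apply, smul_eq_mul, ← mul_sum]
    rw [← sq_eq_rc, sum_sd hL, mul_one]
  have h1 : Ph (Λ.WN L) ((2 * Real.pi * q) • pr (sd L 1)) = Λ.aq L q := by
    rw [aq, ← pr_smul, ← pr_smul, WN_eq, h.Ph_rf1 hL hL (h0 1)]
    simp only [Pi.smul_apply, sd_one, sd_zero, col_rf1, sub_zero]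
    rfl
  have h2 : ∀ c : ℤ, Ph (Λ.WN L) ((2 * Real.pi * q) • pr (row L c)) =
      Ph (Λ.WN L) ((2 * Real.pi * q) • pr (col L c)) := fun c => by
    rw [← pr_smul, ← pr_smul, WN_eq, h.Ph_swap]; rfl
  fin_cases d
  exacts [rfl, h1, h2 _, (h2 _).trans h1]

end Lat

end Crest.Agent.T145
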