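import Crest.Agent.T145.KrDef_77
import Crest.Agent.T145.BrB_73
import Crest.Agent.T145.NcGeo_51
import Crest.Agent.T145.CorU_59

/-!
# Row 145, module KERNEL: LAM, tightness of the level in the screened model (helper48)
-/

set_option autoImplicit false

namespace Crest.Agent.T145.Kr

open Finset

namespace L48
section gen
variable {V : Type} [DecidableEq V]

/-- the mass `μ` on the sites of `T` -/
noncomputable def mss (m : Mdl V) (T : Finset V) (μ : ℝ) : Mdl V :=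
  m.mulSite fun x k => if x ∈ T then gau μ⁻¹ k else 1

theorem mss_ctr {m : Mdl V} (h : m.Ctr) (T : Finset V) {μ : ℝ} (hμ : 0 < μ) : (mss m T μ).Ctr :=
  h.mulSite fun x _ => by
    by_cases hx : x ∈ T
    · simp only [if_pos hx]
      exact ⟨(gauStmt _ (inv_pos.2 hμ)).1.cen.toRSD, (gauStmt _ (inv_pos.2 hμ)).1.pd, gau_pos _ _⟩
    · simp only [if_neg hx]
      exact ⟨rsd_one51, pd_one, one_pos⟩

theorem mss_anch {m : Mdl V} (h1 : ∀ x k, m.site x k = 1) {T : Finset V} {y : V} (hy : y ∈ T)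
    (hc : ∀ x ∈ m.A, Conn m.ed x y) {μ : ℝ} (hμ : 0 < μ) : (mss m T μ).Anch := fun x hx =>
  ⟨y, hc x hx, Or.inr (by
    have : (mss m T μ).site y = gau μ⁻¹ := funext fun k => by simp [mss, h1, hy]
    rw [this]; exact (gauStmt _ (inv_pos.2 hμ)).1.cen.se)⟩

theorem mss_W (m : Mdl V) {T : Finset V} (hT : T ⊆ m.A) {μ : ℝ} (hμ : 0 < μ) :
    (mss m T μ).W 0 = fun s => (mss m T (μ / 2)).W 0 s * gq T (fun x => √(μ / 2) • evH x) s := by
  funext s
  simp only [mss, Mdl.W_mulSite, mul_assoc, prod_ite_mem, inter_eq_right.2 hT, gau, gq,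
    ← Real.exp_sum, ← Real.exp_add]
  congr 2
  simp only [AddMonoidHom.smul_apply, evH_apply, smul_eq_mul, mul_pow,
    Real.sq_sqrt (by positivity : 0 ≤ μ / 2)]
  rw [neg_div, sum_div, ← sum_neg_distrib, ← sum_add_distrib]
  exact sum_congr rfl fun x _ => by field_simp; ring

/-- Gaussian domination by the site factor alone (half of the mass is kept as the anchor) -/
theorem mss_M {m : Mdl V} {T : Finset V} (hT : T ⊆ m.A) {μ : ℝ} (hμ : 0 < μ)
    (hc : Cen ((mss m T (μ / 2)).W 0)) {g : V → ℝ} (hg : Sup T g) :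
    M ((mss m T μ).W 0) (pr g) ≤ (∑ x ∈ T, g x ^ 2) / μ := by
  have hs : 0 < √(μ / 2) := Real.sqrt_pos.2 (by positivity)
  have h := (monoStmt _ _ hc).2.2 V T (fun x => √(μ / 2) • evH x) (fun x => g x / √(μ / 2)) 0
  have e : (0 : Cfg V →+ ℝ) + ∑ x ∈ T, (g x / √(μ / 2)) • √(μ / 2) • evH x = pr g := by
    rw [zero_add, pr_eq_sum_evH g hg]
    exact sum_congr rfl fun x _ => by rw [smul_smul, div_mul_cancel₀ _ hs.ne']
  rw [e, hc.wt.M_zero, zero_add, ← mss_W m hT hμ] at h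
  refine h.trans_eq ?_
  simp only [div_pow, Real.sq_sqrt (by positivity : 0 ≤ μ / 2), ← sum_div]
  field_simp

theorem mss_vr {m : Mdl V} {T : Finset V} (hT : T ⊆ m.A) {μ : ℝ} (hμ : 0 < μ)
    (hc : Cen ((mss m T (μ / 2)).W 0)) (hc' : Cen ((mss m T μ).W 0)) {g : V → ℝ} (hg : Sup T g) :
    Vr ((mss m T μ).W 0) (pr g) (pr g) ≤ 2 * (∑ x ∈ T, g x ^ 2) / μ := by
  have h1 := (corStmt _ _ hc').2.1 (pr g)
  have h2 := mss_M hT hμ hc hg
  rw [mul_div_assoc]; linarith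

theorem sum_unC (T : Finset V) : ∑ x ∈ T, Kw56.unC T x ^ 2 = (T.card : ℝ)⁻¹ := by
  rw [sum_congr rfl fun x hx => show Kw56.unC T x ^ 2 = ((T.card : ℝ)⁻¹) ^ 2 by
    simp [Kw56.unC, hx], sum_const, nsmul_eq_mul]
  rcases eq_or_ne (T.card : ℝ) 0 with h | h
  · simp [h]
  · field_simp

theorem pr_res {U : Finset V} {f : V → ℝ} (hf : Sup U f) (s : Cfg V) : pr f (resH U s) = pr f s := by
  rw [pr_of_fsupp f _ hf, pr_of_fsupp f _ hf]
  exact sum_congr rfl fun x hx => by rw [resH_apply, if_pos hx]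

omit [DecidableEq V] in
/-- Chebyshev for the pushed weight -/
theorem cheb {β : Type*} {W : Cfg V → ℝ} (h : Cen W) (π : Cfg V → β) (H : β → ℝ) (f : Cfg V →+ ℝ)
    (hH : ∀ s, H (π s) = f s) {C A : ℝ} (hC : Vr W f f ≤ C) (hA : 0 < A) :
    ∑' z, push W π z * ind (A < |H z|) ≤ C / A ^ 2 * Zs W := by
  rw [tsum_push (Φ := fun z => ind (A < |H z|)) (h.wt.ig_ind _), h.wt.tsum_eq, mul_comm]
  refine mul_le_mul_of_nonneg_right ?_ h.wt.pos.le
  have h1 := h.wt.markov (p := fun s => A < |H (π s)|) (F := fun s => f s * f s)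
    (h.ig ((Tame.hom f).mul (Tame.hom f))) (fun s => mul_self_nonneg _) (t := A ^ 2) fun s hs => by
      rw [hH] at hs
      rw [← pow_two, ← sq_abs (f s)]; gcongr
  rw [← h.Vr_eq] at h1
  rw [le_div_iff₀' (by positivity)]
  exact h1.trans hC

end gen

variable {G : Gm} {W : ℝ}

theorem r_lt (h : G.Ok W) : G.r < G.R := by
  have h1 := h.lo
  have h2 := h.hW
  have h3 : (64 : ℝ) ≤ G.r := by exact_mod_cast h.hr
  have : (G.r : ℝ) < G.R := by nlinarith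
  exact_mod_cast this

theorem Ga_sub (h : G.Ok W) (hA : G.Alg) : G.Ga ⊆ G.Om := by
  have := h.hc; have := h.hr; have := h.out; have := hA.r_le; have := hA.rho_le
  exact hA.Ga_sub.trans (Nc.Geo.an_mono _ (by omega) (by omega))

theorem rho_pos (G : Gm) : 0 < (G.rho : ℝ) := by unfold Gm.rho; positivity

theorem ms_pos (G : Gm) (a : ℕ) : 0 < G.ms a := by have := rho_pos G; unfold Gm.ms; positivity

theorem Ga_ne (hA : G.Alg) : G.Ga.Nonempty := by
  have := rho_pos G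
  rw [← card_pos, hA.card_Ga]
  have : 0 < G.rho := by exact_mod_cast this
  positivity

theorem mm_eq (G : Gm) (Λ : Lat) (a : ℕ) : G.mm Λ a = mss (Λ.N G.Om) G.Ga (G.ms a) := rfl

theorem anch {Λ : Lat} (hΛ : Λ.Ok) (h : G.Ok W) (hA : G.Alg) {μ : ℝ} (hμ : 0 < μ) :
    (mss (Λ.N G.Om) G.Ga μ).Anch := by
  obtain ⟨y, hy⟩ := Ga_ne hA
  have := h.hc; have := h.out; have := r_lt h
  exact mss_anch (fun _ _ => rfl) hy
    (fun x hx => Nc.Geo.cnL_an hΛ 0 (show G.c < G.R₂ by omega) x hx y (Ga_sub h hA hy)) hμ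

/-- the screened model is an ambient model on `Om` -/
theorem amb {Λ : Lat} (hΛ : Λ.Ok) (h : G.Ok W) (hA : G.Alg) (a : ℕ) : Λ.Amb (G.mm Λ a) G.Om :=
  ⟨mss_ctr (hΛ.ctr_N _) _ (ms_pos G a), anch hΛ h hA (ms_pos G a), subset_rfl, fun _ _ => rfl⟩

/-- the mean over the ring has variance at most `1 / 6` -/
theorem vr_unC {Λ : Lat} (hΛ : Λ.Ok) (h : G.Ok W) (hA : G.Alg) (a : ℕ) :
    Vr ((G.mm Λ a).W 0) (pr (Kw56.unC G.Ga)) (pr (Kw56.unC G.Ga)) ≤ 1 / 6 := by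
  have hμ := ms_pos G a
  have h1 := mss_vr (m := Λ.N G.Om) (Ga_sub h hA) hμ
    ((mss_ctr (hΛ.ctr_N _) _ (half_pos hμ)).cen (anch hΛ h hA (half_pos hμ))) (amb hΛ h hA a).cen
    (g := Kw56.unC G.Ga) fun x hx => if_neg hx
  refine h1.trans ?_
  have h2 := rho_pos G
  have h3 : (1 : ℝ) ≤ (2 ^ a) ^ 2 := one_le_pow₀ (one_le_pow₀ one_le_two)
  rw [sum_unC, hA.card_Ga, Gm.ms, div_le_iff₀ (by positivity)]
  push_cast
  field_simp
  linarith

theorem nl_sub {Λ : Lat} (hΛ : Λ.Ok) {U U' : Finset Pt} (hU : U ⊆ U') : Pot.nL.edI U ⊆ Λ.edI U' :=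
  fun e he => by
    rw [Lat.mem_edI] at *; exact ⟨Pot.nn_subset hΛ he.1, hU he.2.1, hU he.2.2⟩

end L48

open L48 in
/-- LAM -/
theorem lamStmt (hM : M3Stmt) (hAl : AlgStmt) : LamStmt := by
  intro F W
  obtain ⟨C, hC, hM⟩ := hM W
  refine ⟨2 * (|F.τ₂| * C + 1 / 6), by positivity, fun Λ hΛ G h a => ?_⟩
  have ok : Λ.Ok := ⟨hΛ.1 ▸ F.adm, F.pos.trans_le hΛ.2.2.1⟩
  have hA := hAl G W h
  have am := amb ok h hA a
  have hc := am.cen
  refine ⟨am.1, am.2.1, hasSum_push hc.wt.summ _, push_nonneg hc.nonneg _, fun A hA0 => ?_⟩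
  have := h.hc; have := h.hr; have := h.out
  refine cheb hc G.dat (fun z => pr G.eq z.1) (pr G.eq) (fun s => pr_res (fun x hx => hA.eq_sup x
    fun h' => hx (Nc.Geo.an_mono _ (by omega) le_rfl h')) s) ?_ hA0
  have h1 : Vr ((G.mm Λ a).W 0) (pr (G.eq - Kw56.unC G.Ga)) (pr (G.eq - Kw56.unC G.Ga)) ≤ Λ.τ * C :=
    (((hM G h).2.2).f2a _).vr_le ok.pos am.1 am.2.1
      (nl_sub ok (Nc.Geo.an_mono _ (by omega) (by omega))) fun _ _ => rfl
  have h2 := hc.vr_add_le (pr (G.eq - Kw56.unC G.Ga)) (pr (Kw56.unC G.Ga))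
  rw [← pr_add, sub_add_cancel] at h2
  have h3 := vr_unC ok h hA a
  have h4 : Λ.τ * C ≤ |F.τ₂| * C := mul_le_mul_of_nonneg_right (hΛ.2.2.2.trans (le_abs_self _)) hC.le
  linarith

end Crest.Agent.T145.Kr
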