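import Crest.Agent.T145.KrDef_77
import Crest.Agent.T145.Br_73

/-!
# Row 145, module KERNEL: MOM (`Kr.momStmt`), moments and tails from the bare bound
-/

set_option autoImplicit false

namespace Crest.Agent.T145.Kr

open Finset Real

namespace Mom3

theorem pow_le_cosh (k : ℕ) (a : ℝ) : a ^ (2 * k) ≤ (2 * k).factorial * cosh a := by
  have h := le_hasSum (Real.hasSum_cosh a) k fun j _ => by rw [pow_mul]; positivity
  rwa [div_le_iff₀' (by positivity)] at h

/-- power mean: `(∑ x_j) ^ k * #S ≤ #S ^ k * ∑ x_j ^ k` -/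
theorem pow_sum_le {ι : Type*} (S : Finset ι) (x : ι → ℝ) (hx : ∀ j ∈ S, 0 ≤ x j) (k : ℕ) :
    (∑ j ∈ S, x j) ^ k * S.card ≤ (S.card : ℝ) ^ k * ∑ j ∈ S, x j ^ k := by
  cases k with
  | zero => simp
  | succ k =>
    calc _ ≤ ((S.card : ℝ) ^ k * ∑ j ∈ S, x j ^ (k + 1)) * S.card :=
          mul_le_mul_of_nonneg_right (pow_sum_le_card_mul_sum_pow hx k) (Nat.cast_nonneg _)
      _ = _ := by ring

/-- tail of an average of squares from the moments of order `2 k` -/
theorem tail_avg {α ι : Type*} {W : α → ℝ} (hW : Wt W) (S : Finset ι) (X : ι → α → ℝ) (k : ℕ)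
    {C n A : ℝ} (hC : 0 ≤ C) (hn : 0 < n) (hA : 0 < A) (hi : ∀ j ∈ S, Ig W fun s => X j s ^ (2 * k))
    (h : ∀ j ∈ S, Ex W (fun s => X j s ^ (2 * k)) ≤ C * n ^ k) :
    Pr W (fun s => A * n * S.card < ∑ j ∈ S, X j s ^ 2) ≤ C / A ^ k := by
  rcases S.eq_empty_or_nonempty with rfl | hS
  · have : Pr W (fun s => A * n * (∅ : Finset ι).card < ∑ j ∈ ∅, X j s ^ 2) = 0 := by
      simp [Pr, ind, Ex]
    rw [this]; positivity
  have hc : (0 : ℝ) < S.card := by exact_mod_cast hS.card_pos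
  have h1 := hW.markov (p := fun s => A * n * S.card < ∑ j ∈ S, X j s ^ 2) (Ig.sum S hi)
    (fun s => sum_nonneg fun j _ => by rw [pow_mul]; positivity) (t := (A * n) ^ k * S.card)
    fun s hs => by
      have h2 := pow_sum_le S (fun j => X j s ^ 2) (fun _ _ => sq_nonneg _) k
      have h3 : (A * n * S.card) ^ k ≤ (∑ j ∈ S, X j s ^ 2) ^ k :=
        pow_le_pow_left₀ (by positivity) hs.le k
      have h4 := (mul_le_mul_of_nonneg_right h3 hc.le).trans h2
      simp only [← pow_mul] at h4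
      rw [mul_pow, mul_comm ((A * n) ^ k), mul_assoc] at h4
      exact le_of_mul_le_mul_left h4 (by positivity)
  rw [Ex_sum S hi] at h1
  have h5 := h1.trans (sum_le_sum h)
  rw [sum_const, nsmul_eq_mul] at h5
  rw [le_div_iff₀ (by positivity)]
  have h6 : (0 : ℝ) < n ^ k * S.card := by positivity
  refine le_of_mul_le_mul_left ?_ h6
  calc _ = (A * n) ^ k * S.card * Pr W (fun s => A * n * S.card < ∑ j ∈ S, X j s ^ 2) := by ring
    _ ≤ _ := h5
    _ = _ := by ring

/-- tail of one variable from its moment of order `2 k` -/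
theorem tail_one {α : Type*} {W : α → ℝ} (hW : Wt W) (X : α → ℝ) (k : ℕ) {B t : ℝ} (ht : 0 < t)
    (hi : Ig W fun s => X s ^ (2 * k)) (h : Ex W (fun s => X s ^ (2 * k)) ≤ B) :
    Pr W (fun s => t < |X s|) ≤ B / t ^ (2 * k) := by
  have h1 := hW.markov (p := fun s => t < |X s|) hi (fun s => by rw [pow_mul]; positivity)
    (t := t ^ (2 * k)) fun s hs => by
      rw [← (even_two_mul k).pow_abs (X s)]
      exact pow_le_pow_left₀ ht.le hs.le _
  rw [le_div_iff₀' (by positivity)]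
  exact h1.trans h

section bare
variable {V : Type} [DecidableEq V] {m : Mdl V} {ed : Finset (V × V)} {f : V → ℝ} {n τ : ℝ}
  {xy : Bool} (hτ : 0 < τ) (hc : m.Ctr) (ha : m.Anch) (hE : ed ⊆ m.ed)
  (hw : ∀ e ∈ ed, m.w e = kern xy τ)
include hτ hc ha hE hw

/-- `E cosh (X / √n) ≤ exp τ` -/
theorem cosh_le (h : F2A ed m.A f n) (hn : 0 < n) :
    Ex (m.W 0) (fun s => cosh (pr f s / √n)) ≤ exp τ := by
  have h0 : (√n)⁻¹ ^ 2 * n ≤ 1 := by rw [inv_pow, Real.sq_sqrt hn.le, inv_mul_cancel₀ hn.ne']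
  have h1 := ((h.smul (√n)⁻¹).mono h0).M_le hτ hc ha hE hw
  rw [Real.sqrt_one, pr_smul] at h1
  have h2 : M (m.W 0) ((√n)⁻¹ • pr f) ≤ τ := by nlinarith [cosh_one_le_two]
  have h3 := (hc.cen ha).ex_cosh ((√n)⁻¹ • pr f)
  simp only [AddMonoidHom.smul_apply, smul_eq_mul] at h3
  simp only [div_eq_inv_mul]
  rw [h3]
  exact exp_le_exp.2 h2

/-- all even moments, any vertex type -/
theorem mom_le (h : F2A ed m.A f n) (hn : 0 < n) (k : ℕ) :
    Ex (m.W 0) (fun s => pr f s ^ (2 * k)) ≤ (2 * k).factorial * exp τ * n ^ k := by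
  have hC := hc.cen ha
  have hs : 0 < √n := Real.sqrt_pos.2 hn
  have hT : Tame fun s : Cfg V => cosh (pr f s / √n) :=
    (Tame.cosh ((√n)⁻¹ • pr f)).congr fun s => by
      simp only [AddMonoidHom.smul_apply, smul_eq_mul, div_eq_inv_mul]
  calc _ ≤ Ex (m.W 0) (fun s => ((2 * k).factorial * n ^ k) * cosh (pr f s / √n)) :=
        Ex_mono hC.nonneg (hC.ig ((Tame.hom _).pow _)) (hC.ig (hT.const_mul _)) fun s => by
          have h1 := pow_le_cosh k (pr f s / √n)
          rw [div_pow, pow_mul (√n), Real.sq_sqrt hn.le, div_le_iff₀ (by positivity)] at h1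
          linarith
    _ ≤ _ := by
        rw [Ex_const_mul]
        have := mul_le_mul_of_nonneg_left (cosh_le hτ hc ha hE hw h hn)
          (by positivity : (0 : ℝ) ≤ (2 * k).factorial * n ^ k)
        linarith

/-- polynomial tails, any vertex type -/
theorem tail_le (h : F2A ed m.A f n) (hn : 0 < n) (k : ℕ) {t : ℝ} (ht : 0 < t) :
    Pr (m.W 0) (fun s => t < |pr f s|) ≤ (2 * k).factorial * exp τ * n ^ k / t ^ (2 * k) :=
  tail_one (hc.cen ha).wt _ k ht ((hc.cen ha).ig ((Tame.hom _).pow _)) (mom_le hτ hc ha hE hw h hn k)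

/-- tails of averages, any vertex type -/
theorem avg_le {ι : Type*} (S : Finset ι) {f : ι → V → ℝ} (h : ∀ j ∈ S, F2A ed m.A (f j) n)
    (hn : 0 < n) (k : ℕ) {A : ℝ} (hA : 0 < A) :
    Pr (m.W 0) (fun s => A * n * S.card < ∑ j ∈ S, pr (f j) s ^ 2) ≤
      (2 * k).factorial * exp τ / A ^ k :=
  tail_avg (hc.cen ha).wt S (fun j s => pr (f j) s) k (by positivity) hn hA
    (fun _ _ => (hc.cen ha).ig ((Tame.hom _).pow _)) fun j hj => mom_le hτ hc ha hE hw (h j hj) hn k

end bare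

end Mom3

/-- MOM -/
theorem momStmt : MomStmt := fun F k =>
  ⟨(2 * k).factorial * exp F.τ₂, by positivity, fun Λ hΛ m _ _ S _ n hc ha hE hw hn hf => by
    have h1 : ((2 * k).factorial : ℝ) * exp Λ.τ ≤ (2 * k).factorial * exp F.τ₂ :=
      mul_le_mul_of_nonneg_left (exp_le_exp.2 hΛ.tau_le) (by positivity)
    exact ⟨fun j hj => (Mom3.mom_le hΛ.tau_pos hc ha hE hw ((hf j hj).f2a m.A) hn k).trans
        (mul_le_mul_of_nonneg_right h1 (by positivity)),
      fun A hA => (Mom3.avg_le hΛ.tau_pos hc ha hE hw S (fun j hj => (hf j hj).f2a m.A) hn k hA).trans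
        (div_le_div_of_nonneg_right h1 (by positivity))⟩⟩

end Crest.Agent.T145.Kr
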