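import Crest.Agent.T145.KvDef_8
import Crest.Agent.T145.KrMom_3
import Crest.Agent.T145.KrLam_48
import Crest.Agent.T145.T1A_40

/-!
# Row 145, module Kv: MOM, TYP, LAM on the extended lattice (helper3)
-/

set_option autoImplicit false

namespace Crest.Agent.T145.Kv

open Finset Real

namespace Mom3

theorem cosh_le_sq {a : ℝ} (h : a ^ 2 ≤ 1) : cosh a - 1 ≤ a ^ 2 := by
  have h1 := cosh_sub_one_le a
  have h2 : cosh a ≤ cosh 1 := by
    rw [Real.cosh_le_cosh, abs_one]; exact (sq_le_one_iff_abs_le_one a).1 h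
  nlinarith [cosh_one_le_two, sq_nonneg a]

section grp
variable {G : Type} [AddCommGroup G] {ρ H : G → ℝ} {g : Pt × Pt → G →+ ℤ} {ed : Finset (Pt × Pt)}
  {φ : Pt × Pt → ℝ} {Λ : Lat}

/-- the bare bound for a flow of squared norm at most one -/
theorem M_le (hΛ : Λ.Ok) (hρ : Cen ρ) (hH : PD H) (h0 : ∀ a, 0 ≤ H a)
    (e : ∀ a, ρ a = H a * ∏ e ∈ ed, Λ.w (g e a)) (h1 : ∑ e ∈ ed, φ e ^ 2 ≤ 1) :
    M ρ (gfl ed φ g) ≤ Λ.τ * ∑ e ∈ ed, φ e ^ 2 :=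
  (brgStmt Λ G ρ H g ed φ hΛ hρ.wt hρ.se hH h0 e).trans (mul_le_mul_of_nonneg_left
    (sum_le_sum fun _ he => cosh_le_sq
      ((single_le_sum (f := fun e => φ e ^ 2) (fun _ _ => sq_nonneg _) he).trans h1)) hΛ.2.le)

/-- all even moments of a flow -/
theorem mom_le (hΛ : Λ.Ok) (hρ : Cen ρ) (hH : PD H) (h0 : ∀ a, 0 ≤ H a)
    (e : ∀ a, ρ a = H a * ∏ e ∈ ed, Λ.w (g e a)) {n : ℝ} (hn : 0 < n) (h1 : ∑ e ∈ ed, φ e ^ 2 ≤ n)
    (k : ℕ) : Ex ρ (fun s => gfl ed φ g s ^ (2 * k)) ≤ (2 * k).factorial * exp Λ.τ * n ^ k := by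
  have hs : 0 < √n := Real.sqrt_pos.2 hn
  have h2 : ∑ e ∈ ed, (φ e / √n) ^ 2 ≤ 1 := by
    simp only [div_pow, Real.sq_sqrt hn.le, ← sum_div]; rwa [div_le_one hn]
  have h3 := (M_le hΛ hρ hH h0 e h2).trans (mul_le_of_le_one_right hΛ.2.le h2)
  have h4 : ∀ s, gfl ed (fun e => φ e / √n) g s = gfl ed φ g s / √n := fun s => by
    rw [T140.gfl_apply, T140.gfl_apply, sum_div]; exact sum_congr rfl fun _ _ => by ring
  calc _ ≤ Ex ρ (fun s => ((2 * k).factorial * n ^ k) * cosh (gfl ed (fun e => φ e / √n) g s)) :=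
        Ex_mono hρ.nonneg (hρ.ig ((Tame.hom _).pow _)) (hρ.ig ((Tame.cosh _).const_mul _)) fun s => by
          have h1 := Kr.Mom3.pow_le_cosh k (gfl ed φ g s / √n)
          rw [div_pow, pow_mul (√n), Real.sq_sqrt hn.le, div_le_iff₀ (by positivity)] at h1
          rw [h4]; linarith
    _ ≤ _ := by
        rw [Ex_const_mul, hρ.ex_cosh]
        have := mul_le_mul_of_nonneg_left (exp_le_exp.2 h3)
          (by positivity : (0 : ℝ) ≤ (2 * k).factorial * n ^ k)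
        linarith

end grp

variable {V : Gv} {Λ : Lat}

theorem pd_off (V : Gv) :
    PD fun s : Cfg Pt => ind (∀ x, x ∉ V.G.Om → x ≠ V.k1 → x ≠ V.k2 → s x = 0) := by
  have h := T145.pd_off (insert V.k1 (insert V.k2 V.G.Om))
  refine (funext fun s => ind_congr (forall_congr' fun x => ?_) : _ = _) ▸ h
  simp only [mem_insert, not_or]; tauto

theorem pd_rho (hΛ : Λ.Ok) (V : Gv) : PD (V.rho Λ) :=
  (pd_off V).mul (PD.prod fun e _ => (kerStmt _ hΛ.fam).pd.comp (V.gk e))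

theorem ω_pos (V : Gv) : 0 < (V.ω : ℝ) := by unfold Gv.ω; positivity

theorem ms_pos (V : Gv) (a : ℕ) : 0 < V.ms a := by have := ω_pos V; unfold Gv.ms; positivity

theorem mom_rw (hΛ : Λ.Ok) (hE : V.Ext Λ) {f : Pt → ℝ} {n : ℝ} (hn : 0 < n) (hf : V.Fx V.EO f n)
    (k : ℕ) : V.EX Λ (fun s => pr f s ^ (2 * k)) ≤ (2 * k).factorial * exp Λ.τ * n ^ k := by
  obtain ⟨φ, h1, h2⟩ := hf
  simp only [h1]
  exact mom_le hΛ hE.cen ((pd_ind (Finsupp.applyAddHom V.rt)).mul (pd_off V))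
    (fun _ => mul_nonneg (ind_nonneg _) (ind_nonneg _)) (fun _ => (mul_assoc _ _ _).symm) hn h2 k

theorem mom_rm (hΛ : Λ.Ok) (hE : V.Ext Λ) {f : Pt → ℝ} {n : ℝ} (hn : 0 < n) (hf : V.Fx V.EO f n)
    (k a : ℕ) : Ex (V.rm Λ a) (fun s => pr f s ^ (2 * k)) ≤ (2 * k).factorial * exp Λ.τ * n ^ k := by
  obtain ⟨φ, h1, h2⟩ := hf
  simp only [h1]
  exact mom_le (H := fun s => ind (∀ x, x ∉ V.G.Om → x ≠ V.k1 → x ≠ V.k2 → s x = 0) *
      ∏ x ∈ V.Ga, gau (V.ms a)⁻¹ (s x)) hΛ (hE.cenM a) ((pd_off V).mul (PD.prod fun x _ =>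
      (gauStmt _ (inv_pos.2 (ms_pos V a))).1.pd.comp (Finsupp.applyAddHom x)))
    (fun _ => mul_nonneg (ind_nonneg _) (prod_nonneg fun _ _ => (gau_pos _ _).le))
    (fun _ => mul_right_comm _ _ _) hn h2 k

/-- the mean over the ring has variance at most `1 / 8` in the screened model -/
theorem vr_unC (hΛ : Λ.Ok) (hE : V.Ext Λ) (hG : V.Geo) (a : ℕ) :
    Vr (V.rm Λ a) (pr (Kw56.unC V.Ga)) (pr (Kw56.unC V.Ga)) ≤ 1 / 8 := by
  have hω := ω_pos V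
  have hm := ms_pos V a
  have inj : Set.InjOn (fun x : Pt => (x, x)) V.Ga := fun _ _ _ _ h => congrArg Prod.fst h
  have h1 : (1 : ℝ) ≤ 2 ^ V.j := one_le_pow₀ one_le_two
  have h2 : (1 : ℝ) ≤ (2 ^ a) ^ 2 := one_le_pow₀ (one_le_pow₀ one_le_two)
  have h3 : (1 : ℝ) ≤ V.ω := by exact_mod_cast Nat.one_le_two_pow
  have hc : (V.Ga.card : ℝ) = 16 * 2 ^ V.j * (V.ω : ℝ) ^ 2 := by rw [hG.card_Ga]; push_cast; ring
  have hs : ∑ e ∈ V.Ga.image fun x => (x, x), Kw56.unC V.Ga e.1 ^ 2 = (V.Ga.card : ℝ)⁻¹ := by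
    rw [sum_image inj, Kr.L48.sum_unC]
  have hM := M_le (Λ := ⟨nn, false, (V.ms a)⁻¹⟩) (g := fun e => Finsupp.applyAddHom e.1)
    (ed := V.Ga.image fun x => (x, x)) (φ := fun e => Kw56.unC V.Ga e.1)
    ⟨admissible_nn, inv_pos.2 hm⟩ (hE.cenM a) (pd_rho hΛ V) hE.rsd.nonneg
    (fun s => by rw [prod_image inj]; rfl)
    (by rw [hs, hc]; exact inv_le_one_of_one_le₀ (by nlinarith))
  have e : gfl (V.Ga.image fun x => (x, x)) (fun e => Kw56.unC V.Ga e.1)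
      (fun e => (Finsupp.applyAddHom e.1 : Cfg Pt →+ ℤ)) = pr (Kw56.unC V.Ga) :=
    AddMonoidHom.ext fun s => by
      rw [T140.gfl_apply, sum_image inj,
        pr_of_fsupp (U := V.Ga) (Kw56.unC V.Ga) _ fun x hx => if_neg hx]; rfl
  have h4 := (corStmt _ _ (hE.cenM a)).2.1 (pr (Kw56.unC V.Ga))
  rw [e, hs, hc] at hM
  have h5 : (V.ms a)⁻¹ * (16 * 2 ^ V.j * (V.ω : ℝ) ^ 2)⁻¹ ≤ 1 / 16 := by
    rw [Gv.ms, ← mul_inv, one_div]
    refine inv_anti₀ (by norm_num) ?_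
    rw [div_pow, div_mul_eq_mul_div, le_div_iff₀ (by positivity)]
    nlinarith [mul_le_mul h2 h1 zero_le_one (by positivity), sq_nonneg (V.ω : ℝ)]
  change _ ≤ (V.ms a)⁻¹ * _ at hM
  linarith

theorem nm_add (V : Gv) (u v : Pt → ℝ) (c : ℝ) (hv : ∀ x, |v x| ≤ 1) (hG : V.Geo) :
    V.nm u ≤ 2 * V.nm (u - c • v) + 64 * 2 ^ V.j * c ^ 2 := by
  have hω := ω_pos V
  have h1 : ∑ x ∈ V.mid, u x ^ 2 ≤ ∑ x ∈ V.mid, (2 * (u - c • v) x ^ 2 + 2 * c ^ 2) :=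
    sum_le_sum fun x _ => by
      have := mul_le_mul_of_nonneg_left ((sq_le_one_iff_abs_le_one _).2 (hv x)) (sq_nonneg c)
      simp only [Pi.sub_apply, Pi.smul_apply, smul_eq_mul]
      nlinarith [sq_nonneg (u x - 2 * (c * v x))]
  rw [sum_add_distrib, ← mul_sum, sum_const, nsmul_eq_mul, hG.card_mid] at h1
  rw [Gv.nm, Gv.nm, div_le_iff₀ (by positivity), add_mul, mul_assoc 2, div_mul_cancel₀ _ (by positivity)]
  push_cast at h1
  linarith

/-- Markov for the mean square on the middle ring -/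
theorem pr_nm (hE : V.Ext Λ) (hG : V.Geo) {m : Cfg Pt → Pt → ℝ} {C α : ℝ} (hα : 0 < α)
    (h : ∀ x ∈ V.mid, ∃ f : Pt → ℝ, (∀ s, m s x = pr f s) ∧ V.EX Λ (fun s => pr f s ^ (2 * 1)) ≤ C) :
    Pr (V.rw Λ) (fun s => ¬ V.nm (m s) ≤ α) ≤ 32 * 2 ^ V.j * C / α := by
  have hω := ω_pos V
  choose! f hf using h
  have hi : ∀ x ∈ V.mid, Ig (V.rw Λ) fun s => pr (f x) s ^ (2 * 1) := fun x _ =>
    hE.cen.ig ((Tame.hom _).pow _)
  have h1 := hE.cen.wt.markov (p := fun s => ¬ V.nm (m s) ≤ α) (Ig.sum _ hi)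
    (fun s => sum_nonneg fun _ _ => (even_two_mul 1).pow_nonneg _) (t := α * (V.ω : ℝ) ^ 2) fun s hs => by
      rw [Gv.nm, not_le, lt_div_iff₀ (by positivity)] at hs
      exact hs.le.trans_eq (sum_congr rfl fun x hx => by rw [(hf x hx).1])
  rw [Ex_sum _ hi] at h1
  have h2 := h1.trans (sum_le_sum fun x hx => (hf x hx).2)
  rw [sum_const, nsmul_eq_mul, hG.card_mid] at h2
  push_cast at h2
  rw [le_div_iff₀ hα]
  exact le_of_mul_le_mul_right (by linarith) (by positivity : 0 < (V.ω : ℝ) ^ 2)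

end Mom3

open Mom3

/-- MOM -/
theorem momStmt (hE : ExtStmt) : MomStmt := fun F k hJ =>
  ⟨(2 * k).factorial * exp F.τ₂, by positivity, fun Λ hΛ V W hV _ S f n hn hf => by
    have hX := hE Λ V W hΛ.ok (hΛ.1.trans hJ) hV
    have h1 : ((2 * k).factorial : ℝ) * exp Λ.τ * n ^ k ≤ (2 * k).factorial * exp F.τ₂ * n ^ k :=
      mul_le_mul_of_nonneg_right (mul_le_mul_of_nonneg_left (exp_le_exp.2 hΛ.tau_le) (by positivity))
        (by positivity)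
    exact ⟨fun i hi => ⟨(mom_rw hΛ.ok hX hn (hf i hi) k).trans h1,
        fun a => (mom_rm hΛ.ok hX hn (hf i hi) k a).trans h1⟩,
      fun A hA => Kr.Mom3.tail_avg hX.cen.wt S (fun i s => pr (f i) s) k (by positivity) hn hA
        (fun _ _ => hX.cen.ig ((Tame.hom _).pow _))
        fun i hi => (mom_rw hΛ.ok hX hn (hf i hi) k).trans h1⟩⟩

/-- TYP -/
theorem typStmt (hG : GeoStmt) (hA : AlgStmt) (hE : ExtStmt) (h3 : M3Stmt) : TypStmt := by
  intro F W j hJ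
  obtain ⟨C, hC, h3⟩ := h3 W j
  obtain ⟨D, hD, hM⟩ := momStmt hE F 1 hJ
  have h2 : (1 : ℝ) ≤ 2 ^ j := one_le_pow₀ one_le_two
  have hDC : 0 < D * C := by positivity
  refine ⟨64 * 2 ^ j * (D * C + 1), by positivity, fun Λ hΛ V hV hj => ?_⟩
  subst hj
  have hX := hE Λ V W hΛ.ok (hΛ.1.trans hJ) hV
  have hg := hG V W hV
  have ha := hA V W hV
  obtain ⟨m1, m2, -⟩ := h3 V hV rfl
  have mo : ∀ f, V.Fx V.EO f C → V.EX Λ (fun s => pr f s ^ (2 * 1)) ≤ D * C := fun f hf => by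
    simpa using ((hM Λ hΛ V W hV Unit univ (fun _ => f) C hC fun _ _ => hf).1 () (mem_univ _)).1
  refine ⟨fun K hK => ?_, fun α A B hα hI hO => ⟨?_, fun a h => ?_, fun b h => ?_⟩⟩
  · have := Kr.Mom3.tail_one hX.cen.wt (fun s => pr (V.eq - V.te) s) 1 hK
      (hX.cen.ig ((Tame.hom _).pow _)) (mo _ m2)
    simp only [pr_sub, AddMonoidHom.sub_apply] at this
    exact this.trans (div_le_div_of_nonneg_right (by nlinarith) (by positivity))
  · have p1 := pr_nm hX hg (m := fun s => V.ma s - pr V.eq s • V.om) hα fun x hx => by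
      obtain ⟨f, -, hf, -, e, -⟩ := m1 x hx
      exact ⟨f, fun s => by simp only [Pi.sub_apply, Pi.smul_apply, smul_eq_mul, e]; ring, mo f hf⟩
    have p2 := pr_nm hX hg (m := fun s => V.mb s - pr V.te s • (1 - V.om)) hα fun x hx => by
      obtain ⟨-, f, -, hf, -, e⟩ := m1 x hx
      exact ⟨f, fun s => by
        simp only [Pi.sub_apply, Pi.smul_apply, smul_eq_mul, Pi.one_apply, e]; ring, mo f hf⟩
    refine le_trans (hX.cen.wt.pr_mono fun s _ hs => ?_)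
      ((hX.cen.wt.pr_or_le _ _).trans ((add_le_add p1 p2).trans ?_))
    · obtain ⟨d1, d2, d3, d4⟩ := ha.dat s
      rwa [hI.2.2.2, hO.2.2.2, d1, d2, d3, d4, not_and_or] at hs
    · rw [← add_div]
      exact div_le_div_of_nonneg_right (by nlinarith) hα.le
  · have := nm_add V (V.ma a) V.om (pr V.eq a) (fun x => abs_le.2
      ⟨by linarith [(ha.om_mem x).1], (ha.om_mem x).2⟩) hg
    have h' := (hI.2.2.2 a).1 h
    nlinarith [mul_nonneg (mul_nonneg (zero_le_one.trans h2) hDC.le) (sq_nonneg (pr V.eq a))]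
  · have := nm_add V (V.mb b) (1 - V.om) (pr V.te b) (fun x => abs_le.2
      ⟨by simp only [Pi.sub_apply, Pi.one_apply]; linarith [(ha.om_mem x).2],
        by simp only [Pi.sub_apply, Pi.one_apply]; linarith [(ha.om_mem x).1]⟩) hg
    have h' := (hO.2.2.2 b).1 h
    nlinarith [mul_nonneg (mul_nonneg (zero_le_one.trans h2) hDC.le) (sq_nonneg (pr V.te b))]

/-- LAM -/
theorem lamStmt (hG : GeoStmt) (hA : AlgStmt) (hE : ExtStmt) (h3 : M3Stmt) : LamStmt := by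
  intro F W j hJ
  obtain ⟨C, hC, h3⟩ := h3 W j
  obtain ⟨D, hD, hM⟩ := momStmt hE F 1 hJ
  refine ⟨2 * (D * C + 1 / 8), by positivity, fun Λ hΛ V hV hj a => ?_⟩
  have hX := hE Λ V W hΛ.ok (hΛ.1.trans hJ) hV
  have hc := hX.cenM a
  refine ⟨hasSum_push hc.wt.summ _, hc.wt.pos, push_nonneg hc.nonneg _, fun A hA0 => ?_⟩
  refine Kr.L48.cheb hc V.dH (fun z => pr V.eq z.1) (pr V.eq)
    (fun s => ((hA V W hV).dat s).2.2.1) ?_ hA0
  have h1 := ((hM Λ hΛ V W hV Unit univ (fun _ => V.eq - Kw56.unC V.Ga) C hC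
    fun _ _ => (h3 V hV hj).2.2).1 () (mem_univ _)).2 a
  have h2 := hc.vr_add_le (pr (V.eq - Kw56.unC V.Ga)) (pr (Kw56.unC V.Ga))
  rw [← pr_add, sub_add_cancel, hc.Vr_eq (pr (V.eq - Kw56.unC V.Ga))] at h2
  have h4 := vr_unC hΛ.ok hX (hG V W hV) a
  simp only [mul_one, pow_one, pow_two] at h1
  linarith

end Crest.Agent.T145.Kv
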