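import Crest.Agent.T145.KrP0_75

/-!
# Row 145 (helper75): P0 for a domain with a horizontal slit

Logarithmic cut-offs at the tips, even reflection along the two sides, P0 for square integrable data.
-/

set_option autoImplicit false

namespace Crest.Agent.T145.Pot

open Finset Ho14 P75

namespace S75

variable {u v w g θ : Pt → ℝ} {D : Finset Pt} {ed : Finset (Pt × Pt)}

theorem ip_mol {a : ℕ} (ha : 1 ≤ a) (hg : F g) (hv : Sup D v) :
    |ip D (mol a g - g) v| ≤ √(S g) * (4 * a) * √(EJ nL v) := by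
  have e : ip D (mol a g - g) v = ∑ y ∈ bl 0 (2 * a), ker a y * I g (dif (-y) v) := by
    rw [sub_mol ha]
    simp only [ip, Finset.sum_apply, Pi.smul_apply, smul_eq_mul, sum_mul]
    rw [sum_comm]
    refine sum_congr rfl fun y _ => ?_
    rw [← I_dif hg, I, tsum_eq_sum (s := D) fun x hx => by simp [hv x hx], mul_sum]
    exact sum_congr rfl fun x _ => by ring
  rw [e, ← one_mul (√(S g) * (4 * a) * √(EJ nL v)), ← sum_ker ha, sum_mul]
  refine (abs_sum_le_sum_abs _ _).trans (sum_le_sum fun y hy => ?_)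
  rw [abs_mul, abs_of_nonneg (ker_nonneg _ _)]
  refine mul_le_mul_of_nonneg_left ((abs_I_le hg (F.dif ⟨D, hv⟩ _)).trans ?_) (ker_nonneg _ _)
  have hy' : -y ∈ bl 0 (2 * a) := by
    rw [mem_bl] at *; simp only [Prod.fst_neg, Prod.snd_neg, Prod.fst_zero, Prod.snd_zero] at *; omega
  have := N_dif_le nL_ok ⟨D, hv⟩ hy'
  push_cast at this
  rw [mul_assoc]
  exact mul_le_mul_of_nonneg_left (this.trans_eq (by ring)) (Real.sqrt_nonneg _)

/-- the scale `L / M` -/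
theorem scale {L M : ℕ} (hM : 1 ≤ M) (hL : M ≤ L) :
    1 ≤ L / M ∧ ((L / M : ℕ) : ℝ) * M ≤ L ∧ (L : ℝ) ≤ 2 * M * (L / M : ℕ) := by
  have h1 : 1 ≤ L / M := (Nat.le_div_iff_mul_le hM).2 (by omega)
  have h2 := Nat.lt_div_mul_add (a := L) hM
  have h3 : M ≤ L / M * M := Nat.le_mul_of_pos_left _ h1
  refine ⟨h1, by exact_mod_cast Nat.div_mul_le_self _ _, ?_⟩
  have : L ≤ 2 * M * (L / M) := by rw [mul_assoc, mul_comm M]; omega
  exact_mod_cast this

/-- P0 for square integrable data -/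
theorem p0L2 (k : ℕ) (E W : ℝ) {ε : ℝ} (hε : 0 < ε) : ∃ K' L₀ : ℕ, 1 ≤ K' ∧
    ∀ (z : Pt) (L s : ℕ) (D : Finset Pt), L₀ ≤ L → D ⊆ bl z L → (L : ℝ) ≤ W * s → Ext D s →
      ∀ v : Pt → ℝ, Sup D v → ∑ x ∈ D, lap v x ^ 2 ≤ E / (L : ℝ) ^ 2 →
      ∃ u, Sm k Set.univ K' L u ∧ (∀ x, u x ≠ 0 → bl x (L / K') ⊆ D) ∧ √(EJ nL (v - u)) ≤ ε := by
  obtain ⟨C, C0, hm⟩ := sm_mol 0
  obtain ⟨M, hM⟩ := exists_nat_ge (1 + 8 * √E / ε)
  have hM0 : 0 ≤ 8 * √E / ε := by positivity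
  have M1 : 1 ≤ M := by exact_mod_cast (show (1 : ℝ) ≤ M by linarith)
  obtain ⟨K', L₀, K1, h⟩ := p0Stmt nn k (C * (3 * √E) * (2 * M) ^ 2) W ((ε / 2) ^ 2) nL_ok.1
    (by positivity)
  refine ⟨K', max L₀ M, K1, fun z L s D hL hD hW hE v hv hl => ?_⟩
  obtain ⟨a1, a2, a3⟩ := scale M1 ((le_max_right _ _).trans hL)
  set a := L / M
  have L1 : 1 ≤ L := M1.trans ((le_max_right _ _).trans hL)
  have L0 : (0 : ℝ) < L := by exact_mod_cast L1
  have a0 : (0 : ℝ) < a := by exact_mod_cast a1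
  have co := co_eD nL_ok D
  set g := on D (-lap v) with hg
  have sg : Sup D g := sup_on _ _
  have ev : gr D (eD nL D) g = v := co.gr_unique' hv fun x hx => by
    rw [op_eD nL_ok hx, hg, on_of_mem hx]; rfl
  have m1 : ∑ x ∈ D, g x ^ 2 ≤ (√E / L) ^ 2 := by
    refine (sum_congr rfl fun x hx => by rw [hg, on_of_mem hx, Pi.neg_apply, neg_sq]).trans_le (hl.trans ?_)
    rw [div_pow]
    exact div_le_div_of_nonneg_right (by rw [Real.sq_sqrt']; exact le_max_left _ _) (by positivity)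
  have m2 : √(S g) ≤ √E / L := by rw [Real.sqrt_le_left (by positivity), S_eq sg]; exact m1
  have m3 : ∑ x ∈ D, |g x| ≤ 3 * L * (√E / L) := by
    refine (abs_le_of_sq_le_sq' ?_ (by positivity)).2
    refine (sq_sum_le_card_mul_sum_sq).trans ?_
    simp only [sq_abs]
    rw [mul_pow]
    exact mul_le_mul (sqrt_card_le hD L1) m1 (sum_nonneg fun _ _ => sq_nonneg _) (by positivity)
  obtain ⟨u, h1, h2, h3⟩ := h nL nL_ok rfl z L s D ((le_max_left _ _).trans hL) hD hW hE (mol a g)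
    fun x _ => ((hm a D g a1 sg).zero (Set.mem_univ x)).trans (by
      rw [div_le_div_iff₀ (by positivity) (by positivity)]
      have e : 3 * L * (√E / L) = 3 * √E := by field_simp
      have := mul_le_mul (mul_le_mul_of_nonneg_left (m3.trans_eq e) C0) (pow_le_pow_left₀ L0.le a3 2)
        (by positivity) (by positivity)
      linarith)
  refine ⟨u, h1, h2, ?_⟩
  have su : Sup D u := fun x hx => by_contra fun hn => hx (h2 x hn (self_mem_bl _ _))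
  have h4 : G D (eD nL D) (mol a g - g) (mol a g - g) ≤ (ε / 2) ^ 2 :=
    co.G_le_of (by positivity) fun φ hφ => by
      rw [← EJ_eq nL_ok hφ, ← Real.sq_sqrt (EJ_nonneg nL φ), ← mul_pow]
      refine sq_le_sq.2 ((ip_mol a1 ⟨D, sg⟩ hφ).trans (le_trans ?_ (le_abs_self _)))
      refine mul_le_mul_of_nonneg_right ((mul_le_mul_of_nonneg_right m2 (by positivity)).trans ?_)
        (Real.sqrt_nonneg _)
      rw [div_mul_eq_mul_div, div_le_iff₀ L0]
      have h5 : 8 * √E / ε ≤ M := by linarith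
      rw [div_le_iff₀ hε] at h5
      nlinarith [mul_le_mul_of_nonneg_right h5 a0.le, mul_le_mul_of_nonneg_left a2 hε.le]
  rw [co.G_eq, ← EJ_eq nL_ok (co.gr_sup _)] at h4
  rw [← EJ_eq nL_ok ((co.gr_sup _).sub su)] at h3
  have h6 := EJ_sub nL_ok ⟨D, (co.gr_sup (mol a g)).sub su⟩ ⟨D, co.gr_sup (mol a g - g)⟩
  rw [co.gr_sub, ev, show gr D (eD nL D) (mol a g) - u - (gr D (eD nL D) (mol a g) - v) = v - u by abel,
    ← ev, ← co.gr_sub, ev] at h6
  linarith [(Real.sqrt_le_left (half_pos hε).le).2 h3, (Real.sqrt_le_left (half_pos hε).le).2 h4]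

theorem mol_mem {a : ℕ} (ha : 1 ≤ a) (h : ∀ x, 0 ≤ v x ∧ v x ≤ 1) (x : Pt) :
    0 ≤ mol a v x ∧ mol a v x ≤ 1 :=
  ⟨sum_nonneg fun _ _ => mul_nonneg (ker_nonneg _ _) (h _).1, (sum_le_sum fun _ _ =>
    mul_le_of_le_one_right (ker_nonneg _ _) (h _).2).trans_eq (sum_ker ha)⟩

theorem mol_one {a : ℕ} (ha : 1 ≤ a) {x : Pt} (h : ∀ y ∈ bl x (2 * a), v y = 1) : mol a v x = 1 :=
  (sum_congr rfl fun y hy => by
    rw [h _ (by
      rw [mem_bl] at *
      simp only [Prod.fst_add, Prod.snd_add, Prod.fst_zero, Prod.snd_zero] at *; omega), mul_one]).trans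
    (sum_ker ha)

theorem EJ_mol {a : ℕ} (ha : 1 ≤ a) (hv : F v) : √(EJ nL (mol a v)) ≤ √(EJ nL v) := by
  have e : mol a v = ∑ y ∈ bl 0 (2 * a), ker a y • fun x => v (x + y) := by
    funext x; simp only [mol, Finset.sum_apply, Pi.smul_apply, smul_eq_mul]
  rw [e]
  refine (EJ_sum nL_ok _ fun y _ => (hv.shift y).smul _).trans ?_
  rw [← one_mul (√(EJ nL v)), ← sum_ker ha, sum_mul]
  exact sum_le_sum fun y _ => by
    rw [EJ_smul, Real.sqrt_mul (sq_nonneg _), Real.sqrt_sq (ker_nonneg _ _), EJ_shift]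

theorem edF_le (h : ∀ e ∈ ed, e.2 - e.1 ∈ nL.Jp) (hv : F v) : edF ed v v ≤ EJ nL v := by
  obtain ⟨D, hD⟩ := hv
  rw [EJ_eq nL_ok (hD.mono (subset_union_left (s₂ := ed.image Prod.fst)))]
  exact edF_mono (fun e he => Lat.mem_edT.2 ⟨h e he, Or.inl (mem_union_right _ (mem_image_of_mem _ he))⟩) v

/-- smooth logarithmic cut-off at a point -/
theorem tip {δ : ℝ} (hδ : 0 < δ) : ∃ (M : ℕ) (C : ℝ), 1 ≤ M ∧ 0 ≤ C ∧ ∀ (p : Pt) (t : ℕ), 1 ≤ t →
    ∃ η : Pt → ℝ, (∀ x, 0 ≤ η x ∧ η x ≤ 1) ∧ (∀ x ∈ bl p (8 * t), η x = 1) ∧ Sup (bl p (M * t)) η ∧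
      EJ nL η ≤ δ ∧ Sm 2 Set.univ C t η := by
  obtain ⟨C, C0, hm⟩ := sm_mol 2
  obtain ⟨N, hN⟩ := exists_nat_ge (1 + 162 / δ)
  have hN0 : 0 ≤ 162 / δ := by positivity
  have N1 : 1 ≤ N := by exact_mod_cast (show (1 : ℝ) ≤ N by linarith)
  refine ⟨4 ^ N * 10 + 2, C * (3 * (4 ^ N * 10)) ^ 2, by omega, by positivity, fun p t ht => ?_⟩
  let d : Pt → ℕ := fun x => max (x.1 - p.1).natAbs (x.2 - p.2).natAbs
  have hd : ∀ x h, d x ≤ h ↔ x ∈ bl p h := fun x h => by simp only [d, mem_bl]; omega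
  set R := 4 ^ N * (10 * t) with hR
  have R1 : 1 ≤ R := Nat.mul_pos (by positivity) (by omega)
  obtain ⟨η, η1, η2, η3, -, η4⟩ := logcut (Λ := nL) (ed := nL.edT (bl p R))
    (fun e he => (Lat.mem_edT.1 he).1) (sup_on (bl p (R + 1)) 1) d
    (fun x y hy => by simp only [d, mem_bl] at *; omega) (a := 10 * t) (N := N) (by omega)
    (by rw [nL_rg]; omega) N1 (C₁ := 81) fun j _ => by
      have h1 : 1 ≤ 3 * (4 ^ j * (10 * t)) := Nat.mul_pos (by norm_num) (Nat.mul_pos (by positivity) (by omega))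
      refine (sum_le_card_nsmul _ _ 1 fun x hx => ?_).trans ?_
      · rw [on_of_mem (mem_filter.1 hx).1]; simp
      · rw [nsmul_eq_mul, mul_one]
        refine (sqrt_card_le (z := p) (fun x hx => (hd _ _).1 (mem_filter.1 hx).2) h1).trans_eq ?_
        push_cast; ring
  have sη : Sup (bl p R) η := fun x hx => by_contra fun hn => hx ((hd _ _).1 (η3 x hn))
  have t0 : (0 : ℝ) < t := by exact_mod_cast ht
  refine ⟨mol t η, mol_mem ht η1, fun x hx => mol_one ht fun y hy => η2 y ((hd _ _).2 ?_),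
    fun x hx => by_contra fun hn => hx ?_, ?_, (hm t _ η ht sη).mono le_rfl subset_rfl ?_ t0⟩
  · rw [mem_bl] at *; omega
  · obtain ⟨y, h1, h2⟩ := mol_ne hn
    have := (hd _ _).1 (η3 y h2)
    rw [show (4 ^ N * 10 + 2) * t = R + 2 * t by rw [hR]; ring]
    rw [mem_bl] at *; omega
  · refine (Real.sqrt_le_sqrt_iff (EJ_nonneg _ _)).1 (EJ_mol ht ⟨_, sη⟩) |>.trans ?_
    rw [EJ_eq nL_ok sη, eD, edF_self]
    refine (sum_congr rfl fun e he => ?_).trans_le (η4.trans ?_)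
    · have := Lat.mem_edI.1 (Lat.edT_bl_subset (Λ := nL) p (R := R + 1) (by rw [nL_rg]) he)
      rw [on_of_mem this.2.1, on_of_mem this.2.2]; simp
    · rw [nL_rg, nL_Jp, card_pair (by decide), div_le_iff₀ (by exact_mod_cast N1)]
      have h5 : 162 / δ ≤ N := by linarith
      rw [div_le_iff₀ hδ] at h5
      push_cast; linarith
  · rw [div_le_iff₀ (by positivity), mul_assoc]
    refine mul_le_mul_of_nonneg_left ((sum_le_card_nsmul _ _ 1 fun x _ => ?_).trans ?_) C0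
    · rw [abs_of_nonneg (η1 x).1]; exact (η1 x).2
    · rw [nsmul_eq_mul, mul_one]
      refine (sqrt_card_le subset_rfl R1).trans_eq ?_
      rw [hR]; push_cast; ring

theorem lap_mul (w θ : Pt → ℝ) (x : Pt) : lap (fun y => θ y * w y) x =
    θ x * lap w x + w x * lap θ x + ∑ e ∈ nn, dif e θ x * dif e w x := by
  simp only [lap, lapJ, dif, mul_sum, ← sum_add_distrib]
  exact sum_congr rfl fun e _ => by ring

theorem prod_bd {T : Finset Pt} {C t κ B E : ℝ} (hθ : Sm 2 Set.univ C t θ)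
    (h1 : ∀ x ∈ T, |lap w x| ≤ κ) (h2 : ∀ x, |w x| ≤ B) (h3 : ∀ e ∈ nn, ∑ x ∈ T, dif e w x ^ 2 ≤ E) :
    ∑ x ∈ T, lap (fun y => θ y * w y) x ^ 2 ≤
      2 * T.card * (C * κ + B * (2 * (C / t ^ 2))) ^ 2 + 32 * (C / t) ^ 2 * E := by
  have c4 : nn.card = 4 := by decide
  have h4 : ∑ e ∈ nn, ∑ x ∈ T, dif e w x ^ 2 ≤ 4 * E := by
    simpa [c4] using sum_le_card_nsmul _ _ E h3
  rw [sum_comm] at h4
  calc _ ≤ ∑ x ∈ T, (2 * (C * κ + B * (2 * (C / t ^ 2))) ^ 2 +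
        8 * (C / t) ^ 2 * ∑ e ∈ nn, dif e w x ^ 2) := sum_le_sum fun x hx => by
        have C0 := (abs_nonneg _).trans (hθ.zero (Set.mem_univ x))
        have a1 : |θ x * lap w x + w x * lap θ x| ≤ C * κ + B * (2 * (C / t ^ 2)) := by
          refine (abs_add_le _ _).trans (add_le_add ?_ ?_) <;> rw [abs_mul]
          · exact mul_le_mul (hθ.zero trivial) (h1 x hx) (abs_nonneg _) C0
          · exact mul_le_mul (h2 x) (hθ.abs_lap fun _ _ => trivial) (abs_nonneg _)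
              ((abs_nonneg _).trans (h2 x))
        have a2 : (∑ e ∈ nn, dif e θ x * dif e w x) ^ 2 ≤ 4 * (C / t) ^ 2 * ∑ e ∈ nn, dif e w x ^ 2 := by
          refine (sum_mul_sq_le_sq_mul_sq _ _ _).trans
            (mul_le_mul_of_nonneg_right ?_ (sum_nonneg fun _ _ => sq_nonneg _))
          simpa [c4] using sum_le_card_nsmul nn (fun e => dif e θ x ^ 2) ((C / t) ^ 2) fun e he =>
            sq_le_sq' (abs_le.1 (hθ.one one_le_two he trivial)).1 (abs_le.1 (hθ.one one_le_two he trivial)).2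
        rw [lap_mul]
        nlinarith [sq_le_sq' (abs_le.1 a1).1 (abs_le.1 a1).2,
          sq_nonneg (θ x * lap w x + w x * lap θ x - ∑ e ∈ nn, dif e θ x * dif e w x)]
    _ ≤ _ := by
        rw [sum_add_distrib, sum_const, nsmul_eq_mul, ← mul_sum]
        nlinarith [mul_le_mul_of_nonneg_left h4 (sq_nonneg (C / t))]

/-! ## The slit -/

/-- the nearest neighbour edges meeting `D`, without the vertical edges `((i, -1), (i, 0))`, `a ≤ i < b` -/
def Sl (D : Finset Pt) (a b : ℤ) (ed : Finset (Pt × Pt)) : Prop :=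
  ∀ e, e ∈ ed ↔ e ∈ nL.edT D ∧ ¬ ∃ i, a ≤ i ∧ i < b ∧ e = ((i, -1), (i, 0))

variable {a b : ℤ}

theorem jp_iff {e : Pt × Pt} : e.2 - e.1 ∈ nL.Jp ↔
    (e.2.1 = e.1.1 + 1 ∧ e.2.2 = e.1.2) ∨ (e.2.1 = e.1.1 ∧ e.2.2 = e.1.2 + 1) := by
  simp only [nL_Jp, mem_insert, mem_singleton, Prod.ext_iff, Prod.fst_sub, Prod.snd_sub]; omega

theorem Sl.mem (h : Sl D a b ed) {e : Pt × Pt} : e ∈ ed ↔ e.2 - e.1 ∈ nL.Jp ∧ (e.1 ∈ D ∨ e.2 ∈ D) ∧
    ¬ (a ≤ e.1.1 ∧ e.1.1 < b ∧ e.1.2 = -1 ∧ e.2.2 = 0) := by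
  rw [h, Lat.mem_edT, and_assoc]
  refine and_congr_right fun h1 => and_congr_right fun _ => not_congr ⟨?_, fun h2 => ⟨e.1.1, h2.1, h2.2.1, ?_⟩⟩
  · rintro ⟨i, h2, h3, rfl⟩; exact ⟨h2, h3, rfl, rfl⟩
  · rw [jp_iff] at h1; simp only [Prod.ext_iff, true_and]; omega

theorem Sl.op_off (h : Sl D a b ed) (u : Pt → ℝ) {y : Pt} (hy : y ∈ D)
    (h1 : ¬ (a ≤ y.1 ∧ y.1 < b ∧ -1 ≤ y.2 ∧ y.2 ≤ 0)) : op (edF ed) u y = -lap u y :=
  op_edF nL_ok (fun e he => by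
    rw [h.mem]
    refine and_iff_left_of_imp fun h2 => ⟨he.imp (fun h => by rwa [h]) fun h => by rwa [h], ?_⟩
    rw [jp_iff] at h2
    rcases he with rfl | rfl <;> omega) u

theorem Sl.op_on (h : Sl D a b ed) (u : Pt → ℝ) {i : ℤ} (h1 : a ≤ i) (h2 : i < b) {y : Pt} (hy : y ∈ D)
    (h3 : y = (i, 0) ∨ y = (i, -1)) :
    op (edF ed) u y + (u (i, 0) - u (i, -1)) * (dl y (i, 0) - dl y (i, -1)) = -lap u y := by
  have hn : (((i, -1), (i, 0)) : Pt × Pt) ∉ ed := fun h4 => (h.mem.1 h4).2.2 ⟨h1, h2, rfl, rfl⟩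
  have := op_edF nL_ok (ed := insert ((i, -1), (i, 0)) ed) (x := y) (fun e he => by
    rw [mem_insert, h.mem, jp_iff]
    have h5 : e.1 ∈ D ∨ e.2 ∈ D := he.imp (fun h => by rwa [h]) fun h => by rwa [h]
    simp only [h5, true_and, Prod.ext_iff] at *
    omega) u
  rw [op, edF_apply, sum_insert hn, ← edF_apply] at this
  exact (add_comm _ _).trans this

theorem Sl.co (h : Sl D a b ed) {z : Pt} {L : ℕ} (hD : D ⊆ bl z L) : Co D (edF ed) := by
  have key : ∀ (n : ℕ) (x : Pt), (x.1 + n, x.2) ∉ D → ∃ y, y ∉ D ∧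
      Relation.ReflTransGen (fun u v => (u, v) ∈ ed ∨ (v, u) ∈ ed) x y := fun n => by
    induction n with
    | zero => exact fun x hx => ⟨x, by simpa using hx, .refl⟩
    | succ n ih =>
      intro x hx
      by_cases h0 : x ∈ D
      · obtain ⟨y, h1, h2⟩ := ih (x.1 + 1, x.2) (by rwa [Nat.cast_succ, add_comm _ (1 : ℤ), ← add_assoc] at hx)
        exact ⟨y, h1, .head (b := (x.1 + 1, x.2)) (Or.inl (h.mem.2 ⟨jp_iff.2 (Or.inl ⟨rfl, rfl⟩), Or.inl h0, by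
          simp only; omega⟩)) h2⟩
      · exact ⟨x, h0, .refl⟩
  refine co_edF fun x hx => key (2 * L + 1) x fun h1 => ?_
  have h2 := mem_bl.1 (hD hx)
  have h3 := mem_bl.1 (hD h1)
  simp only at h3; omega

/-- the barrier does not see the slit -/
theorem Sl.sup (h : Sl D a b ed) {z : Pt} {L : ℕ} (hD : D ⊆ bl z L) {f : Pt → ℝ} {κ : ℝ} (hκ : 0 ≤ κ)
    (hf : ∀ x ∈ D, |f x| ≤ κ) (x : Pt) : |gr D (edF ed) f x| ≤ κ * (L + 1) ^ 2 / 2 := by
  have co := h.co hD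
  let φ : ℤ → ℝ := fun i => max (κ * ((L + 1) ^ 2 - ((i : ℝ) - z.1) ^ 2) / 2) 0
  have e : ∀ i : ℤ, z.1 - (L + 1) ≤ i → i ≤ z.1 + (L + 1) →
      φ i = κ * ((L + 1) ^ 2 - ((i : ℝ) - z.1) ^ 2) / 2 := fun i h1 h2 => max_eq_left (by
    have h3 : (z.1 : ℝ) - (L + 1) ≤ i := by exact_mod_cast h1
    have h4 : (i : ℝ) ≤ z.1 + (L + 1) := by exact_mod_cast h2
    exact div_nonneg (mul_nonneg hκ (by nlinarith)) two_pos.le)
  refine (co.abs_gr_le (mk_edF _) hf x).trans ((co.compare (mk_edF _) (w := fun y => φ y.1)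
    (fun y hy => by rw [co.gr_sup _ y hy]; exact le_max_right _ _) (fun y hy => ?_) x).trans
    (max_le ?_ (by positivity)))
  · have h1 := mem_bl.1 (hD hy)
    have h2 : -lap (fun y => φ y.1) y = κ := by
      rw [lap_apply]
      simp only
      rw [e _ (by omega) (by omega), e _ (by omega) (by omega), e _ (by omega) (by omega)]
      push_cast; ring
    rw [co.op_gr _ hy, ← h2]
    by_cases h3 : a ≤ y.1 ∧ y.1 < b ∧ -1 ≤ y.2 ∧ y.2 ≤ 0
    · rw [← h.op_on _ h3.1 h3.2.1 hy (by simp only [Prod.ext_iff, true_and]; omega)]; simp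
    · rw [h.op_off _ hy h3]
  · nlinarith [mul_nonneg hκ (sq_nonneg ((x.1 : ℝ) - z.1))]

theorem sum_le_edF {T : Finset Pt} (φ : Pt → Pt × Pt) (hi : Function.Injective φ) (h : ∀ x ∈ T, φ x ∈ ed)
    (u : Pt → ℝ) : ∑ x ∈ T, (u (φ x).2 - u (φ x).1) ^ 2 ≤ edF ed u u := by
  rw [edF_self, ← sum_image (f := fun e : Pt × Pt => (u e.2 - u e.1) ^ 2) hi.injOn]
  exact sum_le_sum_of_subset_of_nonneg (image_subset_iff.2 h) fun _ _ _ => sq_nonneg _

/-- reflection in the line of the slit -/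
def rf (x : Pt) : Pt := (x.1, -1 - x.2)

/-- folding onto the upper half plane -/
def fo (x : Pt) : Pt := if 0 ≤ x.2 then x else rf x

theorem rf_rf (x : Pt) : rf (rf x) = x := by simp [rf]
theorem fo_pos {x : Pt} (h : 0 ≤ x.2) : fo x = x := if_pos h
theorem fo_neg {x : Pt} (h : ¬ 0 ≤ x.2) : fo x = rf x := if_neg h

theorem fo_rf (x : Pt) : fo (rf x) = fo x := by
  by_cases hx : 0 ≤ x.2
  · rw [fo_pos hx, fo_neg (by simp only [rf]; omega), rf_rf]
  · rw [fo_neg hx, fo_pos (by simp only [rf]; omega)]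

theorem lap_rf (u : Pt → ℝ) (y : Pt) : lap (u ∘ rf) y = lap u (rf y) := by
  simp only [lap_apply, Function.comp, rf]
  rw [show -1 - (y.2 + 1) = -1 - y.2 - 1 by ring, show -1 - (y.2 - 1) = -1 - y.2 + 1 by ring]; ring

theorem lap_fo {U : Pt → ℝ} {κ : ℝ} {i h : ℤ} (h1 : ∀ j, 1 ≤ j → j ≤ h → |lap U (i, j)| ≤ κ)
    (h2 : |lap U (i, 0) + (U (i, 0) - U (i, -1))| ≤ κ) {j : ℤ} (h3 : -h ≤ j) (h4 : j ≤ h) :
    |lap (U ∘ fo) (i, j)| ≤ κ := by
  have up : ∀ j, 0 ≤ j → j ≤ h → |lap (U ∘ fo) (i, j)| ≤ κ := fun j h5 h6 => by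
    rcases h5.eq_or_lt with rfl | h5
    · refine le_of_eq_of_le (congrArg _ ?_) h2
      simp [lap_apply, fo, rf]; ring
    · refine le_of_eq_of_le (congrArg _ ?_) (h1 j h5 h6)
      simp only [lap_apply, fo, Function.comp, if_pos h5.le, if_pos (show 0 ≤ j + 1 by omega),
        if_pos (show 0 ≤ j - 1 by omega)]
  by_cases h5 : 0 ≤ j
  · exact up j h5 h4
  · have e : U ∘ fo = (U ∘ fo) ∘ rf := funext fun x => congrArg U (fo_rf x).symm
    rw [e, lap_rf]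
    exact up (-1 - j) (by omega) (by omega)

theorem en_fo {U : Pt → ℝ} {E : ℝ} {h : ℤ}
    (hE : ∀ e ∈ nL.Jp, ∀ T : Finset Pt, (∀ x ∈ T, a - 1 ≤ x.1 ∧ x.1 < b ∧ 0 ≤ x.2 ∧ x.2 ≤ h) →
      ∑ x ∈ T, dif e U x ^ 2 ≤ E) {T : Finset Pt}
    (hT : ∀ x ∈ T, a ≤ x.1 ∧ x.1 < b ∧ -h ≤ x.2 ∧ x.2 ≤ h) :
    ∀ e ∈ nn, ∑ x ∈ T, dif e (U ∘ fo) x ^ 2 ≤ 2 * E := by
  have key : ∀ e ∈ nL.Jp, ∀ T : Finset Pt, (∀ x ∈ T, a - 1 ≤ x.1 ∧ x.1 < b ∧ -h - 1 ≤ x.2 ∧ x.2 ≤ h) →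
      ∑ x ∈ T, dif e (U ∘ fo) x ^ 2 ≤ 2 * E := fun e he T hT => by
    have he2 : e.2 = 0 ∨ e.2 = 1 := by
      rw [nL_Jp, mem_insert, mem_singleton] at he; rcases he with rfl | rfl <;> simp
    let σ : Pt → Pt := fun x => (x.1, -1 - e.2 - x.2)
    have hσ : Function.Injective σ := fun x y h => by simp only [σ, Prod.ext_iff] at *; omega
    have k1 := hE e he (T.filter fun x => 0 ≤ x.2) fun x hx => by
      have := hT x (mem_filter.1 hx).1; have := (mem_filter.1 hx).2; omega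
    have k2 := hE e he ((T.filter fun x => x.2 ≤ -1 - e.2).image σ) fun x hx => by
      obtain ⟨y, hy, rfl⟩ := mem_image.1 hx
      have := hT y (mem_filter.1 hy).1; have := (mem_filter.1 hy).2
      simp only [σ]; omega
    rw [sum_image hσ.injOn] at k2
    rw [sum_filter] at k1 k2
    refine le_trans (sum_le_sum fun x _ => ?_) ((sum_add_distrib.trans_le (add_le_add k1 k2)).trans_eq (two_mul E).symm)
    obtain ⟨i, j⟩ := x
    rw [nL_Jp, mem_insert, mem_singleton] at he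
    by_cases h0 : 0 ≤ j
    · rw [if_pos h0, if_neg (by simp only; omega), add_zero]
      simp only [dif, Function.comp, fo, Prod.snd_add, if_pos h0, if_pos (show 0 ≤ j + e.2 by omega), le_rfl]
    · rw [if_neg h0, zero_add]
      rcases he with rfl | rfl
      · rw [if_pos (by simp only; omega)]
        simp [dif, fo, rf, σ, h0]
      · by_cases h1 : j = -1
        · subst h1; simp [dif, fo, rf]
        · rw [if_pos (by simp only; omega)]
          simp only [dif, Function.comp, fo, rf, σ, Prod.mk_add_mk, if_neg h0, add_zero,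
            if_neg (show ¬ 0 ≤ j + 1 by omega)]
          rw [show -1 - 1 - j + 1 = -1 - j by ring, show -1 - (j + 1) = -1 - 1 - j by ring]
          exact le_of_eq (by ring)
  have neg : ∀ e ∈ nL.Jp, ∑ x ∈ T, dif (-e) (U ∘ fo) x ^ 2 ≤ 2 * E := fun e he => by
    have := key e he (T.image (· + -e)) fun x hx => by
      obtain ⟨y, hy, rfl⟩ := mem_image.1 hx
      have := hT y hy
      rw [nL_Jp, mem_insert, mem_singleton] at he
      rcases he with rfl | rfl <;> simp <;> omega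
    rw [sum_image (add_left_injective _).injOn] at this
    exact (sum_congr rfl fun x _ => by simp only [dif, neg_add_cancel_right]; ring).trans_le this
  have pos : ∀ e ∈ nL.Jp, ∑ x ∈ T, dif e (U ∘ fo) x ^ 2 ≤ 2 * E := fun e he =>
    key e he T fun x hx => by have := hT x hx; omega
  intro e he
  simp only [nn, mem_insert, mem_singleton] at he
  rcases he with rfl | rfl | rfl | rfl
  exacts [pos _ (by simp [nL_Jp]), neg (1, 0) (by simp [nL_Jp]), pos _ (by simp [nL_Jp]),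
    neg (0, 1) (by simp [nL_Jp])]

/-- cutting along the slit does not increase the energy -/
theorem Sl.half (h : Sl D a b ed) {c : Pt → ℝ} (c1 : ∀ x, |c x| ≤ 1)
    (c2 : ∀ x y : Pt, (0 ≤ x.2 ↔ 0 ≤ y.2) → c x = c y) (hv : F v) (h1 : ∀ x, v x ≠ 0 → a ≤ x.1 ∧ x.1 < b) :
    edF ed (fun x => c x * v x) (fun x => c x * v x) ≤ EJ nL v := by
  refine le_trans ?_ (edF_le (fun e he => (h.mem.1 he).1) hv)
  rw [edF_self, edF_self]
  refine sum_le_sum fun e he => ?_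
  obtain ⟨h2, -, h3⟩ := h.mem.1 he
  rw [jp_iff] at h2
  by_cases h4 : 0 ≤ e.1.2 ↔ 0 ≤ e.2.2
  · rw [c2 _ _ h4, ← mul_sub, mul_pow]
    exact mul_le_of_le_one_left (sq_nonneg _) (by rw [← sq_abs]; exact pow_le_one₀ (abs_nonneg _) (c1 _))
  · have h5 : v e.1 = 0 := by_contra fun h => by have := h1 _ h; omega
    have h6 : v e.2 = 0 := by_contra fun h => by have := h1 _ h; omega
    simp [h5, h6]

theorem ext_rc (a b c d : ℤ) (s : ℕ) : Ext (Ico a b ×ˢ Icc c d) s := fun x hx => by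
  simp only [mem_product, mem_Ico, mem_Icc] at hx ⊢
  by_cases h1 : x.1 < a
  · exact ⟨(-1, 0), by simp [nn], fun j _ => by simp; omega⟩
  by_cases h2 : b ≤ x.1
  · exact ⟨(1, 0), by simp [nn], fun j _ => by simp; omega⟩
  by_cases h3 : x.2 < c
  · exact ⟨(0, -1), by simp [nn], fun j _ => by simp; omega⟩
  · exact ⟨(0, 1), by simp [nn], fun j _ => by simp; omega⟩

theorem ext_sd {s t : ℕ} (h : Ext D s) (ht : t ≤ s) (a b : ℤ) :
    Ext (D \ Icc a b ×ˢ Icc (-(t : ℤ)) t) t := fun x hx => by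
  by_cases h0 : x ∈ D
  · simp only [mem_sdiff, h0, true_and, not_not, mem_product, mem_Icc] at hx
    by_cases h1 : 0 ≤ x.2
    · exact ⟨(0, -1), by simp [nn], fun j _ h => (mem_sdiff.1 h).2 (by simp; omega)⟩
    · exact ⟨(0, 1), by simp [nn], fun j _ h => (mem_sdiff.1 h).2 (by simp; omega)⟩
  · obtain ⟨e, he, h1⟩ := h x h0
    exact ⟨e, he, fun j hj h => h1 j (hj.trans ht) (mem_sdiff.1 h).1⟩

theorem sq_prod {a a' b b' : ℝ} (ha : 0 ≤ a ∧ a ≤ 1) (hb : 0 ≤ b' ∧ b' ≤ 1) :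
    ((1 - (1 - a') * (1 - b')) - (1 - (1 - a) * (1 - b))) ^ 2 ≤ 2 * (a' - a) ^ 2 + 2 * (b' - b) ^ 2 := by
  have h1 : ((a' - a) * (1 - b')) ^ 2 ≤ (a' - a) ^ 2 := by
    rw [mul_pow]; exact mul_le_of_le_one_right (sq_nonneg _) (by nlinarith)
  have h2 : ((1 - a) * (b' - b)) ^ 2 ≤ (b' - b) ^ 2 := by
    rw [mul_pow]; exact mul_le_of_le_one_left (sq_nonneg _) (by nlinarith)
  nlinarith [sq_nonneg ((a' - a) * (1 - b') - (1 - a) * (b' - b))]

end S75

open S75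

/-- P0 for a domain with a slit -/
def P0SStmt : Prop := ∀ (k : ℕ) (K W ε : ℝ), 0 < ε → ∃ K' L₀ : ℕ, 1 ≤ K' ∧
  ∀ (z : Pt) (L s : ℕ) (D : Finset Pt) (a b : ℤ) (ed : Finset (Pt × Pt)), L₀ ≤ L → D ⊆ bl z L →
    (L : ℝ) ≤ W * s → Ext D s → Sl D a b ed →
    (∀ x : Pt, a - s ≤ x.1 → x.1 ≤ b + s → -(s : ℤ) ≤ x.2 → x.2 ≤ s → x ∈ D) →
    ∀ f : Pt → ℝ, (∀ x ∈ D, |f x| ≤ K / (L : ℝ) ^ 2) →
    ∃ u₀ up um : Pt → ℝ, Sm k Set.univ K' L u₀ ∧ Sm k Set.univ K' L up ∧ Sm k Set.univ K' L um ∧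
      (∀ x, u₀ x ≠ 0 → ∀ y ∈ bl x (L / K'), y ∈ D ∧ ¬ (a ≤ y.1 ∧ y.1 ≤ b ∧ -1 ≤ y.2 ∧ y.2 ≤ 0)) ∧
      (∀ x, up x ≠ 0 ∨ um x ≠ 0 → ∀ y ∈ bl x (L / K'), a ≤ y.1 ∧ y.1 < b ∧ -(s : ℤ) ≤ y.2 ∧ y.2 ≤ s) ∧
      edF ed (gr D (edF ed) f - (u₀ + fun x => if 0 ≤ x.2 then up x else um x))
        (gr D (edF ed) f - (u₀ + fun x => if 0 ≤ x.2 then up x else um x)) ≤ ε

set_option maxHeartbeats 800000 in
theorem p0SStmt : P0SStmt := by
  intro k K W ε hε
  obtain ⟨ε', hε'⟩ : ∃ ε', ε' = √ε / 4 := ⟨_, rfl⟩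
  have ε0 : 0 < ε' := by rw [hε']; positivity
  obtain ⟨B, hB⟩ : ∃ B, B = 2 * |K| := ⟨_, rfl⟩
  have B0 : 0 ≤ B := by rw [hB]; positivity
  obtain ⟨M, C, M1, C0, htip⟩ := tip (δ := ε' ^ 2 / (8 * (B ^ 2 + 1))) (by positivity)
  obtain ⟨Cm, Cm0, hm⟩ := sm_mol 2
  obtain ⟨N, hN⟩ := exists_nat_ge (1 + 10 * |W| + 36 * M ^ 2 * |K| * B / ε' ^ 2)
  have hN0 : 0 ≤ 36 * M ^ 2 * |K| * B / ε' ^ 2 := by positivity
  have hW0 := abs_nonneg W
  have N1' : (1 : ℝ) ≤ N := by linarith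
  have N1 : 1 ≤ N := by exact_mod_cast N1'
  obtain ⟨C₀, hC₀⟩ : ∃ C₀, C₀ = 2 ^ 2 * (2 ^ 2 * (|1| + C) * (|1| + C)) * (|1| + Cm * (6 * N) ^ 2) := ⟨_, rfl⟩
  have C₀0 : 0 ≤ C₀ := by rw [hC₀]; positivity
  obtain ⟨K', L₀, K1, hP⟩ := p0L2 k (18 * (C₀ * |K| + B * (2 * (C₀ * (2 * N) ^ 2))) ^ 2 +
    32 * (C₀ * (2 * N)) ^ 2 * (2 * (9 * |K| * B))) N ε0
  refine ⟨K', max L₀ N, K1, fun z L s D a b ed hL hD hW hE h hQ f hf => ?_⟩
  obtain ⟨t1, t2, t3⟩ := scale N1 ((le_max_right _ _).trans hL)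
  generalize L / N = t at t1 t2 t3
  have L1 : 1 ≤ L := N1.trans ((le_max_right _ _).trans hL)
  have L1' : (1 : ℝ) ≤ L := by exact_mod_cast L1
  have L0 : (0 : ℝ) < L := by linarith
  have t0 : (0 : ℝ) < t := by exact_mod_cast t1
  have ts : 10 * t ≤ s := by
    have h1 : (L : ℝ) ≤ |W| * s := hW.trans (mul_le_mul_of_nonneg_right (le_abs_self _) (Nat.cast_nonneg _))
    have h2 : (10 * t : ℝ) * N ≤ s * N := by
      nlinarith [mul_le_mul_of_nonneg_right (show 10 * |W| ≤ N by linarith) (Nat.cast_nonneg (α := ℝ) s)]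
    exact_mod_cast le_of_mul_le_mul_right h2 (by linarith)
  have co := h.co hD
  set u := gr D (edF ed) f with hu
  have su : Sup D u := co.gr_sup f
  have hf' : ∀ x ∈ D, |f x| ≤ |K| / (L : ℝ) ^ 2 := fun x hx =>
    (hf x hx).trans (by gcongr; exact le_abs_self _)
  have bu : ∀ x, |u x| ≤ B := fun x => (h.sup hD (by positivity) hf' x).trans (by
    rw [hB, div_le_iff₀ two_pos, div_mul_eq_mul_div, div_le_iff₀ (by positivity)]
    nlinarith [mul_le_mul_of_nonneg_left (show ((L : ℝ) + 1) ^ 2 ≤ 4 * L ^ 2 by nlinarith) (abs_nonneg K)])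
  have test : ∀ (T : Finset Pt) (φ : Pt → ℝ), Sup T φ → Sup D φ → (∀ x, |φ x| ≤ B) →
      edF ed u φ ≤ T.card * (|K| / (L : ℝ) ^ 2 * B) := fun T φ h1 h2 h3 => by
    rw [co.gr_spec f h2, ip_of_sup (inter_subset_left (s₂ := T)) f fun x hx => by
      by_contra hn; exact hx (mem_inter.2 ⟨by_contra fun h => hn (h2 x h), by_contra fun h => hn (h1 x h)⟩)]
    refine (sum_le_card_nsmul _ _ (|K| / (L : ℝ) ^ 2 * B) fun x hx => (le_abs_self _).trans ?_).trans ?_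
    · rw [abs_mul]
      exact mul_le_mul (hf' x (mem_inter.1 hx).1) (h3 x) (abs_nonneg _) (by positivity)
    · rw [nsmul_eq_mul]
      exact mul_le_mul_of_nonneg_right (by exact_mod_cast card_le_card inter_subset_right) (by positivity)
  have Eu : edF ed u u ≤ 9 * |K| * B := (test D u su su bu).trans
    ((mul_le_mul_of_nonneg_right (sqrt_card_le hD L1) (by positivity)).trans_eq (by field_simp; ring))
  have hen : ∀ e ∈ nL.Jp, ∀ (T : Finset Pt) (c : Pt → Pt), Function.Injective c →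
      (∀ x ∈ T, (c x ∈ D ∨ c x + e ∈ D) ∧ ¬ (a ≤ (c x).1 ∧ (c x).1 < b ∧ (c x).2 = -1 ∧ e.2 = 1)) →
      ∑ x ∈ T, dif e u (c x) ^ 2 ≤ 9 * |K| * B := fun e he T c hc hT =>
    (sum_le_edF (fun x => (c x, c x + e)) (fun x y h => hc (congrArg Prod.fst h)) (fun x hx => h.mem.2
      ⟨by simpa using he, (hT x hx).1, by have := (hT x hx).2; simp only [Prod.snd_add]; omega⟩) u).trans Eu
  obtain ⟨η₁, a1, a2, a3, a4, a5⟩ := htip (a, 0) t t1
  obtain ⟨η₂, b1, b2, b3, b4, b5⟩ := htip (b, 0) t t1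
  set θ : Pt → ℝ := fun x => (1 - η₁ x) * (1 - η₂ x) with hθ
  have θ1 : ∀ x, 0 ≤ θ x ∧ θ x ≤ 1 := fun x => by
    have := a1 x; have := b1 x; simp only [hθ]; constructor <;> nlinarith
  have Ec : √(edF ed (fun x => (1 - θ x) * u x) fun x => (1 - θ x) * u x) ≤ ε' := by
    rw [Real.sqrt_le_left ε0.le, edF_cacc]
    have h1 := test (bl (a, 0) (M * t) ∪ bl (b, 0) (M * t)) (fun x => (1 - θ x) ^ 2 * u x)
      (fun x hx => by
        rw [mem_union, not_or] at hx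
        simp [hθ, a3 x hx.1, b3 x hx.2]) (su.mul _) fun x => by
        rw [abs_mul, abs_of_nonneg (sq_nonneg _)]
        exact (mul_le_of_le_one_left (abs_nonneg _) (by have := θ1 x; nlinarith)).trans (bu x)
    have h2 : ((bl (a, 0) (M * t) ∪ bl (b, 0) (M * t)).card : ℝ) ≤ 18 * M ^ 2 * t ^ 2 := by
      have h3 := fun p : Pt => sqrt_card_le (z := p) subset_rfl (Nat.mul_pos M1 t1)
      have h4 : ((bl (a, 0) (M * t) ∪ bl (b, 0) (M * t)).card : ℝ) ≤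
          (bl (a, 0) (M * t)).card + (bl (b, 0) (M * t)).card := by exact_mod_cast card_union_le _ _
      have := h3 (a, 0); have := h3 (b, 0)
      push_cast at *; linarith
    have h3 : 18 * M ^ 2 * t ^ 2 * (|K| / (L : ℝ) ^ 2 * B) ≤ ε' ^ 2 / 2 := by
      have h4 : 36 * M ^ 2 * |K| * B / ε' ^ 2 ≤ N := by linarith
      rw [div_le_iff₀ (by positivity)] at h4
      have h5 : (t : ℝ) ^ 2 * N ≤ L ^ 2 := by nlinarith [pow_le_pow_left₀ (by positivity) t2 2]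
      rw [div_mul_eq_mul_div, mul_div_assoc', div_le_iff₀ (by positivity)]
      nlinarith [mul_le_mul_of_nonneg_left h4 (sq_nonneg (t : ℝ)), mul_le_mul_of_nonneg_left h5 (sq_nonneg ε')]
    have h4 : ∑ e ∈ ed, (1 - θ e.2 - (1 - θ e.1)) ^ 2 * (u e.1 * u e.2) ≤
        B ^ 2 * (2 * edF ed η₁ η₁ + 2 * edF ed η₂ η₂) := by
      rw [edF_self, edF_self, mul_sum, mul_sum, ← sum_add_distrib, mul_sum]
      refine sum_le_sum fun e _ => ?_
      rw [mul_comm]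
      refine mul_le_mul ((le_abs_self _).trans ?_) (sq_prod (a1 _) (b1 _)) (sq_nonneg _) (sq_nonneg _)
      rw [abs_mul, pow_two]
      exact mul_le_mul (bu _) (bu _) (abs_nonneg _) B0
    have h5 := (edF_le (fun e he => (h.mem.1 he).1) ⟨_, a3⟩).trans a4
    have h6 := (edF_le (fun e he => (h.mem.1 he).1) ⟨_, b3⟩).trans b4
    have h7 : B ^ 2 * (4 * (ε' ^ 2 / (8 * (B ^ 2 + 1)))) ≤ ε' ^ 2 / 2 := by
      rw [mul_div_assoc', mul_div_assoc', div_le_iff₀ (by positivity)]; nlinarith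
    have h8 := mul_le_mul_of_nonneg_right h2 (show 0 ≤ |K| / (L : ℝ) ^ 2 * B by positivity)
    nlinarith [mul_le_mul_of_nonneg_left (add_le_add h5 h6) (sq_nonneg B)]
  set Q := Ico (a + 4 * t) (b - 4 * t) ×ˢ Icc (-(6 * t : ℤ)) (6 * t) with hQ'
  set D₁ := Ico (a + 2 * t) (b - 2 * t) ×ˢ Icc (-(8 * t : ℤ)) (8 * t) with hD₁
  set D₀ := D \ Icc (a - 4 * t) (b + 4 * t) ×ˢ Icc (-((4 * t : ℕ) : ℤ)) (4 * t : ℕ) with hD₀
  have mQ : ∀ x : Pt, x ∈ Q ↔ (a + 4 * t ≤ x.1 ∧ x.1 < b - 4 * t) ∧ -(6 * t : ℤ) ≤ x.2 ∧ x.2 ≤ 6 * t :=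
    fun x => by simp only [hQ', mem_product, mem_Ico, mem_Icc]
  have m1 : ∀ x : Pt, x ∈ D₁ ↔ (a + 2 * t ≤ x.1 ∧ x.1 < b - 2 * t) ∧ -(8 * t : ℤ) ≤ x.2 ∧ x.2 ≤ 8 * t :=
    fun x => by simp only [hD₁, mem_product, mem_Ico, mem_Icc]
  have m0 : ∀ x : Pt, x ∈ D₀ ↔ x ∈ D ∧
      ¬ ((a - 4 * t ≤ x.1 ∧ x.1 ≤ b + 4 * t) ∧ -(4 * t : ℤ) ≤ x.2 ∧ x.2 ≤ 4 * t) :=
    fun x => by simp only [hD₀, mem_sdiff, mem_product, mem_Icc]; push_cast; rfl
  have s1 : D₁ ⊆ D := fun x hx => by rw [m1] at hx; apply hQ <;> omega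
  have sQ : Q ⊆ D := fun x hx => by rw [mQ] at hx; apply hQ <;> omega
  set ζ := mol t (on Q 1) with hζ
  have ζ0 : ∀ x, x ∉ D₁ → ζ x = 0 := fun x hx => by_contra fun hn => by
    obtain ⟨y, h1, h2⟩ := mol_ne hn
    have := (mQ y).1 (by_contra fun h => h2 (on_of_not h))
    rw [m1] at hx; rw [mem_bl] at h1; omega
  have sζ : Sm 2 Set.univ (Cm * (6 * N) ^ 2) t ζ := (hm t Q _ t1 (sup_on _ _)).mono le_rfl subset_rfl (by
    rw [div_le_iff₀ (by positivity), mul_assoc]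
    refine mul_le_mul_of_nonneg_left ((sum_le_card_nsmul _ _ 1 fun x hx => ?_).trans ?_) Cm0
    · rw [on_of_mem hx]; simp
    · rw [nsmul_eq_mul, mul_one, ← mul_pow]
      exact (sqrt_card_le (sQ.trans hD) L1).trans (pow_le_pow_left₀ (by positivity) (by linarith) 2)) t0
  have one := Sm.const 2 Set.univ t0 1
  have sθ := (one.sub a5).mul_univ t0 (one.sub b5)
  have k0 : Sm 2 Set.univ C₀ t fun x => θ x * (1 - ζ x) := hC₀ ▸ sθ.mul_univ t0 (one.sub sζ)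
  have k1 : Sm 2 Set.univ C₀ t fun x => θ x * ζ x := hC₀ ▸ sθ.mul_univ t0
    (sζ.mono le_rfl subset_rfl (le_add_of_nonneg_left (abs_nonneg _)) t0)
  have main : ∀ (T : Finset Pt) (ϑ w : Pt → ℝ), T ⊆ D → Ext T (4 * t) → Sm 2 Set.univ C₀ t ϑ →
      Sup T (fun x => ϑ x * w x) → (∀ x ∈ T, |lap w x| ≤ |K| / (L : ℝ) ^ 2) → (∀ x, |w x| ≤ B) →
      (∀ e ∈ nn, ∑ x ∈ T, dif e w x ^ 2 ≤ 2 * (9 * |K| * B)) →
      ∃ v, Sm k Set.univ K' L v ∧ (∀ x, v x ≠ 0 → bl x (L / K') ⊆ T) ∧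
        √(EJ nL ((fun x => ϑ x * w x) - v)) ≤ ε' := fun T ϑ w h1 h2 h3 h4 h5 h6 h7 => by
    refine hP z L (4 * t) T ((le_max_left _ _).trans hL) (h1.trans hD) (by push_cast; nlinarith) h2 _ h4
      ((prod_bd h3 h5 h6 h7).trans ?_)
    have h8 : C₀ / t ≤ C₀ * (2 * N) / L := by
      rw [div_le_div_iff₀ t0 L0, mul_assoc]; exact mul_le_mul_of_nonneg_left t3 C₀0
    have h9 : C₀ / (t : ℝ) ^ 2 ≤ C₀ * (2 * N) ^ 2 / L ^ 2 := by
      rw [div_le_div_iff₀ (by positivity) (by positivity), mul_assoc, ← mul_pow]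
      exact mul_le_mul_of_nonneg_left (pow_le_pow_left₀ L0.le t3 2) C₀0
    have h10 := sqrt_card_le (h1.trans hD) L1
    calc _ ≤ 2 * (3 * (L : ℝ)) ^ 2 * (C₀ * (|K| / L ^ 2) + B * (2 * (C₀ * (2 * N) ^ 2 / L ^ 2))) ^ 2 +
          32 * (C₀ * (2 * N) / L) ^ 2 * (2 * (9 * |K| * B)) := by gcongr
      _ = _ := by field_simp; ring
  have KB : 9 * |K| * B ≤ 2 * (9 * |K| * B) := by linarith [show 0 ≤ 9 * |K| * B by positivity]
  have off : ∀ x ∈ D, ¬ (a ≤ x.1 ∧ x.1 < b ∧ -1 ≤ x.2 ∧ x.2 ≤ 0) → |lap u x| ≤ |K| / (L : ℝ) ^ 2 :=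
    fun x hx h1 => by rw [← abs_neg, ← h.op_off u hx h1, co.op_gr f hx]; exact hf' x hx
  obtain ⟨u₀, p1, p2, p3⟩ := main D₀ _ u sdiff_subset (ext_sd hE (by omega) _ _) k0 (fun x hx => by
      by_cases h0 : x ∈ D
      · rw [m0] at hx
        simp only [h0, true_and, not_not] at hx
        by_cases h1 : x.1 < a + 6 * t
        · simp [hθ, a2 x (by simp only [mem_bl]; omega)]
        by_cases h2 : b - 6 * t ≤ x.1
        · simp [hθ, b2 x (by simp only [mem_bl]; omega)]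
        · simp [hζ, mol_one t1 (x := x) (v := on Q 1) fun y hy =>
            on_of_mem ((mQ y).2 (by rw [mem_bl] at hy; omega))]
      · simp [su x h0])
    (fun x hx => off x (m0 x |>.1 hx).1 (by have := (m0 x |>.1 hx).2; omega)) bu fun e he => by
      have pos : ∀ e ∈ nL.Jp, ∑ x ∈ D₀, dif e u x ^ 2 ≤ 2 * (9 * |K| * B) := fun e he =>
        (hen e he D₀ id (fun _ _ h => h) fun x hx => ⟨Or.inl (m0 x |>.1 hx).1, by
          have := (m0 x |>.1 hx).2; simp only [id]; omega⟩).trans KB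
      have neg : ∀ e ∈ nL.Jp, ∑ x ∈ D₀, dif (-e) u x ^ 2 ≤ 2 * (9 * |K| * B) := fun e he =>
        (sum_congr rfl fun x _ => by simp only [dif, neg_add_cancel_right]; ring).trans_le
          ((hen e he D₀ (· + -e) (add_left_injective _) fun x hx => ⟨Or.inr (by simpa using (m0 x |>.1 hx).1), by
            have := (m0 x |>.1 hx).2
            rw [nL_Jp, mem_insert, mem_singleton] at he
            rcases he with rfl | rfl <;> simp <;> omega⟩).trans KB)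
      simp only [nn, mem_insert, mem_singleton] at he
      rcases he with rfl | rfl | rfl | rfl
      exacts [pos _ (by simp [nL_Jp]), neg (1, 0) (by simp [nL_Jp]), pos _ (by simp [nL_Jp]),
        neg (0, 1) (by simp [nL_Jp])]
  have side : ∀ U : Pt → ℝ, (∀ x, |U x| ≤ B) →
      (∀ i j : ℤ, a ≤ i → i < b → 1 ≤ j → j ≤ 8 * t → |lap U (i, j)| ≤ |K| / (L : ℝ) ^ 2) →
      (∀ i : ℤ, a ≤ i → i < b → |lap U (i, 0) + (U (i, 0) - U (i, -1))| ≤ |K| / (L : ℝ) ^ 2) →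
      (∀ e ∈ nL.Jp, ∀ T : Finset Pt, (∀ x ∈ T, a - 1 ≤ x.1 ∧ x.1 < b ∧ 0 ≤ x.2 ∧ x.2 ≤ 8 * t) →
        ∑ x ∈ T, dif e U x ^ 2 ≤ 9 * |K| * B) → ∃ v, Sm k Set.univ K' L v ∧
      (∀ x, v x ≠ 0 → bl x (L / K') ⊆ D₁) ∧ ∀ c : Pt → ℝ, (∀ x, |c x| ≤ 1) →
        (∀ x y : Pt, (0 ≤ x.2 ↔ 0 ≤ y.2) → c x = c y) →
        √(edF ed (fun x => c x * (θ x * ζ x * U (fo x) - v x)) fun x => c x * (θ x * ζ x * U (fo x) - v x)) ≤
          ε' := fun U h1 h2 h3 h4 => by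
    have h5 : Sup D₁ fun x => θ x * ζ x * (U ∘ fo) x := fun x hx => by simp [ζ0 x hx]
    obtain ⟨v, q1, q2, q3⟩ := main D₁ _ (U ∘ fo) s1 (ext_rc _ _ _ _ _) k1 h5 (fun x hx => by
      rw [m1] at hx
      exact lap_fo (h := 8 * t) (fun j => h2 _ j (by omega) (by omega)) (h3 _ (by omega) (by omega))
        hx.2.1 hx.2.2) (fun x => h1 _) (en_fo h4 fun x hx => by rw [m1] at hx; omega)
    have h6 : Sup D₁ v := fun x hx => by_contra fun hn => hx (q2 x hn (self_mem_bl _ _))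
    refine ⟨v, q1, q2, fun c c1 c2 => (Real.sqrt_le_sqrt (h.half c1 c2 ⟨_, h5.sub h6⟩ fun x hx => ?_)).trans q3⟩
    have := (m1 x).1 (by_contra fun hn => hx (h5.sub h6 x hn))
    omega
  obtain ⟨up, q1, q2, q3⟩ := side u bu (fun i j h1 h2 h3 h4 => off _ (by apply hQ <;> simp only <;> omega)
    (by simp only; omega)) (fun i h1 h2 => by
      have hx : ((i, 0) : Pt) ∈ D := by apply hQ <;> simp only <;> omega
      have := h.op_on u h1 h2 hx (Or.inl rfl)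
      rw [co.op_gr f hx] at this
      refine le_of_eq_of_le (abs_eq_abs.2 (Or.inr ?_)) (hf' _ hx)
      simp [dl] at this; linarith)
    fun e he T hT => hen e he T id (fun _ _ h => h) fun x hx => by
      have := hT x hx
      exact ⟨Or.inl (by apply hQ <;> simp only [id] <;> omega), by simp only [id]; omega⟩
  obtain ⟨um, r1, r2, r3⟩ := side (u ∘ rf) (fun x => bu _) (fun i j h1 h2 h3 h4 => by
      rw [lap_rf]
      exact off _ (by apply hQ <;> simp only [rf] <;> omega) (by simp only [rf]; omega)) (fun i h1 h2 => by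
      have hx : ((i, -1) : Pt) ∈ D := by apply hQ <;> simp only <;> omega
      have := h.op_on u h1 h2 hx (Or.inr rfl)
      rw [co.op_gr f hx] at this
      refine le_of_eq_of_le (abs_eq_abs.2 (Or.inr ?_)) (hf' _ hx)
      rw [lap_rf]
      simp [dl, rf] at this ⊢; linarith)
    fun e he T hT => by
      refine le_of_eq_of_le (sum_congr rfl fun x _ => ?_) (hen e he T (fun x => (x.1, -1 - e.2 - x.2))
        (fun x y h => by simp only [Prod.ext_iff] at *; omega) fun x hx => ?_) <;>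
        rw [nL_Jp, mem_insert, mem_singleton] at he
      · rcases he with rfl | rfl
        · simp [dif, rf]
        · simp only [dif, rf, Function.comp, Prod.fst_add, Prod.snd_add, Prod.mk_add_mk]
          rw [show -1 - 1 - x.2 + 1 = -1 - x.2 by ring, show -1 - (x.2 + 1) = -1 - 1 - x.2 by ring, add_zero]
          ring
      · have := hT x hx
        exact ⟨Or.inl (by rcases he with rfl | rfl <;> apply hQ <;> simp only <;> omega), by simp only; omega⟩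
  refine ⟨u₀, up, um, p1, q1, r1, fun x hx y hy => ?_, fun x hx y hy => ?_, ?_⟩
  · have := (m0 y).1 (p2 x hx hy)
    exact ⟨this.1, by omega⟩
  · have := (m1 y).1 (hx.elim (q2 x · hy) (r2 x · hy))
    omega
  · have su₀ : Sup D u₀ := fun x hx => by_contra fun hn => hx ((m0 x).1 (p2 x hn (self_mem_bl _ _))).1
    have e1 := (Real.sqrt_le_sqrt (edF_le (fun e he => (h.mem.1 he).1) ⟨D, (su.mul _).sub su₀⟩)).trans p3
    have e2 := q3 (fun x => if 0 ≤ x.2 then 1 else 0) (fun x => by split_ifs <;> simp)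
      fun x y h => by simp only [h]
    have e3 := r3 (fun x => if 0 ≤ x.2 then 0 else 1) (fun x => by split_ifs <;> simp)
      fun x y h => by simp only [h]
    have e : (u - (u₀ + fun x => if 0 ≤ x.2 then up x else um x)) =
        ((fun x => (1 - θ x) * u x) + ((fun x => θ x * (1 - ζ x) * u x) - u₀)) +
        ((fun x => (if 0 ≤ x.2 then 1 else 0) * (θ x * ζ x * u (fo x) - up x)) +
          fun x => (if 0 ≤ x.2 then 0 else 1) * (θ x * ζ x * (u ∘ rf) (fo x) - um x)) := by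
      funext x
      simp only [Pi.add_apply, Pi.sub_apply, Function.comp]
      by_cases hx : 0 ≤ x.2
      · simp only [if_pos hx, fo_pos hx]; ring
      · simp only [if_neg hx, fo_neg hx, rf_rf]; ring
    rw [e, ← Real.sqrt_le_sqrt_iff hε.le]
    refine ((sy_edF ed).sqrt_add _ _).trans ((add_le_add (((sy_edF ed).sqrt_add _ _).trans (add_le_add Ec e1))
      (((sy_edF ed).sqrt_add _ _).trans (add_le_add e2 e3))).trans_eq ?_)
    rw [hε']; ring

end Crest.Agent.T145.Pot
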