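import Crest.Agent.T145.KvDef_8
import Crest.Agent.T145.KvP0_75

/-! # Row 145, module Kv: P0 in the slit condenser (helper75) -/

set_option autoImplicit false

namespace Crest.Agent.T145.Kv

open Finset Real
open Pot (edF gr)

theorem Gv.sl_EA {V : Gv} (h : V.Geo) :
    Pot.S75.Sl V.G.A (V.G.rho - 4 * V.ω) (V.G.rho + 4 * V.ω) V.EA := fun e => by
  have := h.ω_le
  rw [Gv.EA, Gv.kp, mem_filter]
  refine and_congr_right fun _ => ?_
  obtain ⟨⟨a, b⟩, c, d⟩ := e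
  simp only [Gv.s1, Gv.s2, Vd.ray, Prod.mk.injEq, Prod.fst_zero, Prod.snd_zero]
  constructor
  · rintro h1 ⟨i, h2, h3, ⟨rfl, rfl⟩, rfl, rfl⟩
    rw [if_pos (by omega), if_neg (by omega), if_neg (by omega)] at h1
    omega
  · intro h1
    split_ifs with h2 h3 h4 h5 <;> first | rfl | omega | exact (h1 ⟨a, by omega⟩).elim

theorem p0Stmt (hG : GeoStmt) : P0Stmt := by
  intro W K ε j hε
  obtain ⟨K', L₀, K1, hP⟩ := Pot.p0SStmt 2 K (64 * 2 ^ j + 2 * |W|) ε hε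
  refine ⟨K', L₀, by exact_mod_cast K1, fun V hV hj hL f hf => ?_⟩
  have g := hG V W hV
  have h1 := g.r_le; have h2 := g.rho_le; have h3 := g.ω_le; have h4 := g.ω16
  have hE : Pot.Ext V.G.A (min V.ω V.G.r) := fun x hx =>
    (Pot.ext_an 0 V.G.r V.G.R x hx).imp fun e he => ⟨he.1, fun i hi => he.2 i (hi.trans (min_le_right _ _))⟩
  have hW : (V.G.R : ℝ) ≤ (64 * 2 ^ j + 2 * |W|) * (min V.ω V.G.r : ℕ) := by
    have h5 : (V.G.R : ℝ) ≤ 64 * (2 ^ j * V.ω) := by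
      have := g.le_rho; rw [g.rho_eq, hj] at this; exact_mod_cast this
    have h6 := hV.g.hi.trans (mul_le_mul_of_nonneg_right
      (mul_le_mul_of_nonneg_left (le_abs_self W) two_pos.le) (Nat.cast_nonneg _))
    rcases le_total V.ω V.G.r with h | h
    · rw [min_eq_left h]; nlinarith [mul_nonneg (abs_nonneg W) (Nat.cast_nonneg (α := ℝ) V.ω)]
    · rw [min_eq_right h]
      nlinarith [mul_nonneg (show (0 : ℝ) ≤ 2 ^ j by positivity) (Nat.cast_nonneg (α := ℝ) V.G.r)]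
  obtain ⟨u₀, u₁, u₂, a0, a1, a2, b0, b1, e⟩ := hP 0 V.G.R _ V.G.A _ _ V.EA hL sdiff_subset hW hE
    (Gv.sl_EA g) (fun x _ _ _ _ => by
      simp only [Kr.Gm.A, Nc.an, mem_sdiff, mem_bl, Prod.fst_zero, Prod.snd_zero]; omega) f hf
  have fl : ⌊(V.G.R : ℝ) / (K' : ℝ)⌋₊ = V.G.R / K' := Nat.floor_div_eq_div _ _
  have mu : ∀ x : Pt, x ∈ V.up ↔ ((V.G.rho : ℤ) - 4 * V.ω ≤ x.1 ∧ x.1 < V.G.rho + 4 * V.ω) ∧
      0 ≤ x.2 ∧ x.2 < 8 * V.ω := fun x => by rw [Gv.up, mem_sq]; push_cast; omega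
  have ml : ∀ x : Pt, x ∈ V.lo ↔ ((V.G.rho : ℤ) - 4 * V.ω ≤ x.1 ∧ x.1 < V.G.rho + 4 * V.ω) ∧
      -(8 * V.ω : ℤ) ≤ x.2 ∧ x.2 < 0 := fun x => by rw [Gv.lo, mem_sq]; push_cast; omega
  have sm : ∀ u, Pot.Sm 2 Set.univ K' V.G.R u → Sm2 u K' V.G.R ∧ ∀ x, |u x| ≤ K' := fun u hu =>
    ⟨hu.sm2 le_rfl, fun x => by simpa [Pot.difs] using hu [] (by simp) (by simp) x trivial⟩
  refine ⟨![u₀, u₁, u₂], ⟨fun i => ?_, fun x hx y hy => ?_, fun x hx y hy => ?_⟩, ?_⟩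
  · fin_cases i
    exacts [sm _ a0, sm _ a1, sm _ a2]
  · have := b0 x hx y (fl ▸ hy)
    rw [mem_sdiff, Gv.lip, mem_filter, mem_union, mu, ml]
    exact ⟨this.1, by omega⟩
  · have := b1 x hx y (fl ▸ hy)
    rw [mem_union, mu, ml]; omega
  · have : V.glue ![u₀, u₁, u₂] = u₀ + fun x => if 0 ≤ x.2 then u₁ x else u₂ x := by
      funext x
      have h5 := fun h => b1 x h x (self_mem_bl _ _)
      show u₀ x + Pot.on V.up u₁ x + Pot.on V.lo u₂ x = u₀ x + if 0 ≤ x.2 then u₁ x else u₂ x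
      rw [add_assoc]
      congr 1
      split_ifs with h
      · rw [Pot.on_of_not (K := V.lo) (by rw [ml]; omega), add_zero]
        by_cases h6 : x ∈ V.up
        · exact Pot.on_of_mem h6
        · rw [Pot.on_of_not h6]
          exact (by_contra fun hn => h6 (by have := h5 (Or.inl hn); rw [mu]; omega) : u₁ x = 0).symm
      · rw [Pot.on_of_not (K := V.up) (by rw [mu]; omega), zero_add]
        by_cases h6 : x ∈ V.lo
        · exact Pot.on_of_mem h6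
        · rw [Pot.on_of_not h6]
          exact (by_contra fun hn => h6 (by have := h5 (Or.inr hn); rw [ml]; omega) : u₂ x = 0).symm
    rwa [this]

end Crest.Agent.T145.Kv
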