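import Crest.Agent.T145.KrQ_75

/-!
# Row 145: the abstract ring weight estimate (R) on a fibred group weight (helper49)
-/

set_option autoImplicit false

namespace Crest.Agent.T145.Kq75

open Finset Matrix Crest.Agent.T145.Gs

/-- (R), abstract form: `ρm = ρ * gw B (cells) * H` is the screened weight -/
theorem r_abs {K₂ ε : ℝ} (hK₂ : 0 ≤ K₂) (hε : 0 < ε) :
    ∃ χ : ℝ, 0 < χ ∧ ∀ (N : ℕ) (K : ℝ), 0 ≤ K → ∃ T ε₁ : ℝ, 0 < T ∧ 0 < ε₁ ∧
      ∀ (G D ι : Type) [AddCommGroup G] [AddCommGroup D]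
      [IsAddTorsionFree G] [Countable G] [Fintype ι] [DecidableEq ι] (ρ : G → ℝ) (π : G →+ D) (U : D → ℝ)
      (X : ι → G →+ ℝ) (B C : Matrix ι ι ℝ) (H : G → ℝ), Fb ρ π U → QH ρ π U X C T ε₁ →
      B.PosSemidef → C.PosSemidef → Fintype.card ι ≤ N → (∀ i, B i i ≤ K) → (B * C).trace ≤ K →
      (B * C * (B * C)).trace ≤ K₂ → (∀ s, 0 < H s) → (∀ s, H s ≤ 1) →
      Ex (amb ρ π U) (fun s => H s ^ 2) ≤ (1 + χ ^ 2) * Ex (amb ρ π U) H ^ 2 →
      0 < Zs (amb ρ π U) * (Ex (amb ρ π U) H * c0 B C) ∧ ∀ (a : D → ι → ℝ) (S : Finset D),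
        ∑ z ∈ S, U z * |push (fun s => ρ s * (gw B (cY π X a s) * H s)) π z /
          (Zs (amb ρ π U) * (Ex (amb ρ π U) H * c0 B C)) -
            push ρ π z / Zs (amb ρ π U) * gw (tl B C) (a z)| ≤ ε := by
  set χ : ℝ := ε / (4 * Real.exp (K₂ / 4)) with hχ
  have χ0 : 0 < χ := by positivity
  refine ⟨χ, χ0, fun N K hK => ?_⟩
  obtain ⟨T, ε₁, T0, e0, -, h2⟩ := rd_soft N (K := K) (η := min 1 (ε / 2)) hK (by positivity) (min_le_left _ _)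
  refine ⟨T, ε₁, T0, e0, fun G D ι _ _ _ _ _ _ ρ π U X B C H fb qh hB hC hN h1 h3 h4 H0 H1 uv => ?_⟩
  have rd := h2 G D ι ρ π U X B C H χ K₂ fb qh hB hC hN h1 h3 h4 hK₂ (fun s => (H0 s).le) H1 χ0.le uv
  have b1 : ∀ s, |H s| ≤ 1 := fun s => by rw [abs_of_pos (H0 s)]; exact H1 s
  have Z0 := fb.wt.pos
  have cp := mul_pos Z0 (mul_pos (fb.wt.ex_pos' (fb.wt.ig_bdd b1) H0) (c0_pos hB hC))
  refine ⟨cp, fun a S => ?_⟩
  obtain ⟨s1, s2⟩ := fb.l1_of_dual (r := fun z => gw (tl B C) (a z)) (fun s => abs_mul_le_one (by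
      rw [abs_of_pos (gw_pos _ _)]; exact gw_le_one hB _) (b1 s)) (fun z => by
      rw [abs_of_pos (gw_pos _ _)]; exact gw_le_one (tl_psd hB hC) _) (rd a)
  have s3 := (s1.sum_le_tsum S fun z _ => mul_nonneg (fb.U0 z) (abs_nonneg _)).trans s2
  have s4 : min 1 (ε / 2) + 2 * χ * Real.exp (K₂ / 4) ≤ ε := by
    have : 2 * χ * Real.exp (K₂ / 4) = ε / 2 := by rw [hχ]; field_simp; norm_num
    linarith [min_le_right 1 (ε / 2)]
  refine le_of_mul_le_mul_left ?_ cp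
  rw [mul_sum]
  refine (le_of_eq (sum_congr rfl fun z _ => ?_)).trans (s3.trans ?_)
  · have fin : ∀ Z E p w : ℝ, Z ≠ 0 → Z * E * (p / Z * w) = E * (p * w) := fun Z E p w hZ => by
      field_simp
    rw [mul_left_comm, ← abs_of_pos cp, ← abs_mul, abs_of_pos cp, mul_sub, mul_div_cancel₀ _ cp.ne',
      mum_eq_push, fin _ _ _ _ Z0.ne']
    rfl
  · rw [mul_assoc (Zs _)]
    exact (mul_assoc _ _ _).symm.trans_le ((mul_le_mul_of_nonneg_left s4 cp.le).trans_eq (mul_assoc _ _ _))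

end Crest.Agent.T145.Kq75
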