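import Crest.Agent.T145.KvUv_49
import Crest.Agent.T145.RAbs_49

/-!
# Row 145, module Kv: (R), the ring weight on the extended lattice (helper49)
-/

set_option autoImplicit false

namespace Crest.Agent.T145.Kv.R49

open Finset Matrix Kq75 Kw56 U49
open Kr (cu)

variable {Λ : Lat} {V : Gv} {W : ℝ}

/-- the tent at level `i` -/
noncomputable def lv (V : Gv) (i : ℤ) (z : Cfg Pt × Cfg Pt) : ℝ := KrA.tw (pr V.eq z.1 - i)

theorem Ga_Om (ok : V.Ok W) (ge : V.Geo) : V.Ga ⊆ V.G.Om :=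
  (Ga_sub ge).trans (Nc.Geo.an_mono 0 (by have := ok.g.hc; omega) (by have := ok.g.out; omega))

theorem eq_Om (ok : V.Ok W) (ge : V.Geo) (al : V.Alg) : ∑ x ∈ V.G.Om, V.eq x = 1 := by
  have h : V.G.In ⊆ V.G.Om := Nc.Geo.an_mono 0 le_rfl (by
    have := ok.g.out; have := ge.r_le; have := ge.rho_le; omega)
  rw [← al.eq_sum]
  refine (sum_subset h fun x hx hn => ?_).symm
  have : x ∉ V.In := fun h' => (mem_insert.1 h').elim (fun e => ge.k_off.1 (e ▸ hx)) hn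
  simp only [Gv.eq, Pi.smul_apply, Pot.on, if_neg this, smul_zero]

theorem root (ok : V.Ok W) (ge : V.Geo) (al : V.Alg) (xt : V.Ext Λ) (i : ℤ) :
    Fb (V.rho Λ) V.dH (lv V i) ∧ Zs (amb (V.rho Λ) V.dH (lv V i)) = V.Z Λ ∧
      ∀ F : Cfg Pt → ℝ, (∀ s, |F s| ≤ 1) → (∀ s k, F (s + cst V.G.Om k) = F s) →
        Ex (amb (V.rho Λ) V.dH (lv V i)) F = V.EX Λ F := by
  obtain ⟨h1, h2, h3⟩ := xt.float (fun s => lv V i (V.dH s)) (fun _ => KrA.tw_nonneg _) fun s => by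
    refine hs_congr (KrA.hasSum_tw (pr V.eq s - i)) (fun k => ?_) rfl
    rw [lv, (al.dat _).2.2.1, map_add, pr_cst, eq_Om ok ge al]; congr 1; ring
  exact ⟨⟨xt.rsd, xt.pos, xt.summ, fun _ => KrA.tw_nonneg _, h1⟩, h2, fun F => h3 F 1⟩

theorem X_cst (ge : V.Geo) (u : Pt → ℝ) (s : Cfg Pt) (k : ℤ) : V.X u (s + cst V.G.Om k) = V.X u s := by
  rw [map_add, add_eq_left, Gv.X, gfl, AddMonoidHom.finsetSum_apply]
  refine sum_eq_zero fun e he => ?_
  obtain ⟨-, h1, h2⟩ := Lat.mem_edI.1 (mem_filter.1 (ge.EA_sub he)).1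
  simp [Gv.gk, Md.cst_mem h1, Md.cst_mem h2, Md.cst_not ge.k_off.1, Md.cst_not ge.k_off.2.1]

theorem X_sum (al : V.Alg) {ι : Type} [Fintype ι] (t : ι → ℝ) (f : ι → Pt → ℝ) :
    ∑ i, t i • V.X (Pot.gr V.G.A V.B (f i)) = V.X (Pot.gr V.G.A V.B (∑ i, t i • f i)) :=
  AddMonoidHom.ext fun s => by
    simp only [AddMonoidHom.finsetSum_apply, AddMonoidHom.smul_apply, al.X_eq, al.coA.gr_sum,
      al.coA.gr_smul, map_sum, map_smul, LinearMap.sum_apply, LinearMap.smul_apply]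

/-- the cell averages split into a fluctuation and the harmonic part -/
theorem cY_eq (al : V.Alg) {q : ℕ} (hc : ∀ i, V.cel q i ⊆ V.G.A) (s : Cfg Pt) :
    cY V.dH (fun i => V.X (Pot.gr V.G.A V.B (unC (V.cel q i))))
      (fun z i => avL (V.cel q i) (V.ma z.1 + V.mb z.2)) s = fun i => pr (unC (V.cel q i)) s := by
  funext i
  have h1 : V.B (Pot.gr V.G.A V.B (unC (V.cel q i))) (Pot.hx V.G.A V.B (cu s)) = 0 := by
    rw [al.coA.symm]; exact al.coA.hx_hm _ _ (al.coA.gr_sup _)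
  have h2 := al.coA.gr_spec (unC (V.cel q i)) (al.coA.gr_sup (Pot.op V.B (cu s)))
  have h3 : Pot.ip V.G.A (unC (V.cel q i)) (Pot.hx V.G.A V.B (cu s)) =
      avL (V.cel q i) (V.ma s + V.mb s) := by
    rw [← ip_unC (hc i)]
    exact sum_congr rfl fun x hx => by rw [al.hx_dat s x hx]
  have h4 : pr (unC (V.cel q i)) s = Pot.ip V.G.A (unC (V.cel q i)) (cu s) :=
    pr_apply _ s fun x hx => mul_eq_zero_of_left (if_neg fun h => hx (hc i h)) _
  rw [Pot.hx, map_sub, h2] at h1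
  rw [Pot.hx, Pot.ip_sub_right] at h3
  simp only [cY, (al.dat s).1, (al.dat s).2.1, al.X_eq]
  linarith

/-- the screened weight -/
theorem rm_eq (ge : V.Geo) (a b : ℕ) (s : Cfg Pt) :
    V.rm Λ a s = V.rho Λ s * (Gs.gw (V.Sm a b) (fun i => pr (unC (V.cel (V.om2 - (a + b)) i)) s) *
      V.hi a b s) := by
  set q := V.om2 - (a + b)
  obtain ⟨c1, c2, -⟩ := ge.cells q (Nat.sub_le _ _)
  have H := Uv.haar (μ := V.ms a) (sq_nonneg _) (V.cor q) q s 0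
  rw [← sum_biUnion c2, c1] at H
  simp only [add_zero] at H
  have e1 : (fun i => pr (unC (V.cel q i)) s) ⬝ᵥ msM (V.cel q) (V.ms a) *ᵥ
      (fun i => pr (unC (V.cel q i)) s) =
      V.ms a * ((2 : ℝ) ^ q) ^ 2 * ∑ i ∈ V.cor q, pr (Uv.ua i (2 ^ q)) s ^ 2 := by
    rw [← sum_coe_sort (V.cor q), mul_sum]
    simp only [dotProduct, msM, mulVec_diagonal, Gv.cel, Kr.R49.unC_eq, card_sq]
    exact sum_congr rfl fun i _ => by push_cast; ring
  have e2 : ∏ x ∈ V.Ga, gau (V.ms a)⁻¹ (s x) =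
      Real.exp (-(V.ms a * ∑ x ∈ V.Ga, (s x : ℝ) ^ 2) / 2) := by
    rw [mul_sum, ← sum_neg_distrib, sum_div, Real.exp_sum]
    exact prod_congr rfl fun x _ => by
      rw [gau]; congr 1; rw [div_eq_mul_inv, mul_inv, inv_inv]; ring
  rw [Gs.gw, Gv.Sm, e1, Gv.hi, gq, ← Real.exp_add, ← add_div, ← neg_add, ← H, ← e2, Gv.rm]

theorem abs_cells {q : ℕ} (hd : (V.cor q : Set Pt).PairwiseDisjoint fun i => sq i (2 ^ q))
    {t : V.cor q → ℝ} {T : ℝ} (hT : ‖t‖ ≤ T) (x : Pt) :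
    |(∑ i, t i • unC (V.cel q i)) x| ≤ T / ((2 : ℝ) ^ q) ^ 2 := by
  have T0 : 0 ≤ T := (norm_nonneg _).trans hT
  rw [Finset.sum_apply]
  by_cases hx : ∃ i, x ∈ V.cel q i
  · obtain ⟨i, hi⟩ := hx
    rw [sum_eq_single i (fun j _ hj => ?_) fun h => absurd (mem_univ i) h]
    · simp only [Pi.smul_apply, unC, if_pos hi, smul_eq_mul]
      rw [Gv.cel, card_sq, abs_mul, abs_of_nonneg (a := _⁻¹) (by positivity), div_eq_mul_inv]
      push_cast
      exact mul_le_mul_of_nonneg_right ((norm_le_pi_norm t i).trans hT) (by positivity)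
    · have : x ∉ V.cel q j := fun h => disjoint_left.1 (hd j.2 i.2 fun e => hj (Subtype.ext e)) h hi
      simp only [Pi.smul_apply, unC, if_neg this, smul_zero]
  · rw [sum_eq_zero fun i _ => by
      simp only [Pi.smul_apply, unC, if_neg fun h => hx ⟨i, h⟩, smul_zero], abs_zero]
    positivity

/-- (Q) for the cells -/
theorem qh (ok : V.Ok W) (ge : V.Geo) (al : V.Alg) (xt : V.Ext Λ) {q : ℕ} {g T ε : ℝ} (i : ℤ)
    (H : ∀ f : Pt → ℝ, (∀ x, |f x| ≤ T / ((2 : ℝ) ^ q) ^ 2) →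
      Gs3 ((V.m0 Λ).W 0) (V.X (Pot.gr V.G.A V.B f)) (g * Pot.G V.G.A V.B f f) (ε ^ 2) ∧
      Gs3 (V.rw Λ) (V.X (Pot.gr V.G.A V.B f)) (g * Pot.G V.G.A V.B f f) (ε ^ 2)) (hq : q ≤ V.om2) :
    QH (V.rho Λ) V.dH (lv V i) (fun i => V.X (Pot.gr V.G.A V.B (unC (V.cel q i))))
      (sgM V.G.A g⁻¹ V.EA (V.cel q)) T ε := by
  have e : ∀ t : V.cor q → ℝ, t ⬝ᵥ sgM V.G.A g⁻¹ V.EA (V.cel q) *ᵥ t =
      g * Pot.G V.G.A V.B (∑ i, t i • unC (V.cel q i)) (∑ i, t i • unC (V.cel q i)) := fun t => by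
    rw [sgM_quad al.coE, inv_inv, Pot.G, Pot.G, al.gr_eq]
  have c2 := (ge.cells q hq).2.1
  refine ⟨fun t ht => ?_, fun t ht => ?_⟩
  · rw [xt.fib0.Ph, e, X_sum al]
    linarith [(abs_le.1 (H _ (abs_cells c2 ht)).1.2.2).2]
  · rw [e, X_sum al, (root ok ge al xt i).2.2 _ (fun s => Real.abs_cos_le_one _)
      fun s k => by rw [X_cst ge]]
    have := (abs_le.1 (H _ (abs_cells c2 ht)).2.2.2).1
    unfold Ph at this
    unfold Gv.EX
    linarith

end Crest.Agent.T145.Kv.R49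

namespace Crest.Agent.T145.Kv

open Finset Matrix Kq75 Kw56 U49 R49

theorem rStmt (hQ : GffStmt) (hU : UvStmt) (hT : TrStmt) (hg : GeoStmt) (hA : AlgStmt) (hE : ExtStmt)
    (ha : T1aStmt) (hm : T1mStmt) : RStmt := by
  intro F θ₀ W K j hJ hθ hK ε a hε
  obtain ⟨C, hC⟩ := hT F.τ₂ j
  obtain ⟨C₁, ha⟩ := ha F
  obtain ⟨χ, χ0, h0⟩ := r_abs (K₂ := |C| * 16 ^ a) (by positivity) hε
  obtain ⟨b, hb⟩ := hU F θ₀ W K j hJ hθ hK (χ ^ 2) a (by positivity)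
  obtain ⟨δ₁, hδ₁, h1⟩ := hb b le_rfl
  obtain ⟨T, ε₁, T0, e0, h2⟩ := h0 (16 * 2 ^ j * 4 ^ (a + b)) (1 + |C| * 4 ^ a * 4 ^ (a + b))
    (by positivity)
  obtain ⟨δ₂, hδ₂, h3⟩ := hQ F θ₀ W K j hJ hθ hK (T * (64 * 2 ^ j * 2 ^ (a + b)) ^ 2) (ε₁ ^ 2)
    (by positivity)
  obtain ⟨δ₃, hδ₃, h4⟩ := hm.2.2 F θ₀ 1 0 hθ one_pos
  refine ⟨b, min (min δ₁ δ₂) δ₃, by positivity, fun Λ hΛ l L hw V ok hj at' => ?_⟩
  have ge := hg V W ok
  have al := hA V W ok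
  have xt := hE Λ V W hΛ.ok (hΛ.1.trans hJ) ok
  obtain ⟨hp, uv⟩ := h1 Λ hΛ l L (hw.mono le_rfl ((min_le_left _ _).trans (min_le_left _ _))) V ok hj at'
  have gff := h3 Λ hΛ l L (hw.mono le_rfl ((min_le_left _ _).trans (min_le_right _ _))) V ok hj at'
  have t0 := (h4 Λ hΛ l L (hw.mono le_rfl (min_le_right _ _))).2.1
  have g0 : 0 < Λ.gN l := div_pos (by linarith) hΛ.e0_pos
  have g1 : Λ.gN l ≤ F.τ₂ := (div_le_div_of_nonneg_right (ha Λ hΛ l hw.2.1.one_le_l).2.1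
    hΛ.e0_pos.le).trans hΛ.inv_e0_le
  obtain ⟨tr2, tr1⟩ := hC _ g0 g1 V W ok hj a b hp
  subst hj
  set q := V.om2 - (a + b) with hq
  obtain ⟨c1, c2, c3, -⟩ := ge.cells q (Nat.sub_le _ _)
  have hc : ∀ i, V.cel q i ⊆ V.G.A := fun i => (cel_sub ge (Nat.sub_le _ _) i.2).trans (Ga_sub ge)
  have er : (V.ω : ℝ) = 2 ^ (a + b) * 2 ^ q := by
    rw [← pow_add, hq, Nat.add_sub_cancel' hp, Gv.ω]; push_cast; rfl
  have H0 : ∀ s, 0 < V.hi a b s := fun s => gq_pos _ _ s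
  have H1 : ∀ s, V.hi a b s ≤ 1 := fun s => gq_le_one _ _ s
  have b1 : ∀ s, |V.hi a b s| ≤ 1 := fun s => by rw [abs_of_pos (H0 s)]; exact H1 s
  have b2 : ∀ s, |V.hi a b s ^ 2| ≤ 1 := fun s => by
    rw [abs_pow]; exact pow_le_one₀ (abs_nonneg _) (b1 s)
  have dep : DepG V.G.Om (V.hi a b) := Kr.gq_terms_shift (fun j hj => mem_range.1 hj)
    (fun i hi => (cel_sub ge (Nat.sub_le _ _) hi).trans (Ga_Om ok ge)) _
  have R0 : (0 : ℝ) < V.G.R := by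
    exact_mod_cast (by have := ge.rho_le; have := ge.ω_le; have := ge.ω16; omega : 0 < V.G.R)
  have eR : (V.G.R : ℝ) ≤ 64 * 2 ^ V.j * 2 ^ (a + b) * 2 ^ q := by
    have e1 : (V.G.R : ℝ) ≤ 64 * V.G.rho := by exact_mod_cast ge.le_rho
    have e2 : (V.G.rho : ℝ) = 2 ^ V.j * V.ω := by exact_mod_cast ge.rho_eq
    rw [e2, er] at e1; linarith
  have key := fun i : ℤ => h2 _ _ _ _ _ _ _ (V.Sm a b) (V.Vm (Λ.gN l) a b) (V.hi a b)
    (root ok ge al xt i).1 (qh ok ge al xt i (fun f hf => gff f fun x _ => (hf x).trans (by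
      rw [div_le_div_iff₀ (by positivity) (by positivity), mul_assoc, ← mul_pow]
      gcongr)) (Nat.sub_le _ _)) (msM_psd _ (sq_nonneg _)) (sgM_psd al.coE (inv_pos.2 g0).le _)
    (by rw [Fintype.card_coe, c3, hq, Nat.sub_sub_self hp]) (fun i => by
      have : V.ms a * (V.cel q i).card ≤ 1 := by
        rw [Gv.ms, Gv.cel, card_sq, er, pow_add]; push_cast
        rw [← mul_pow]
        refine pow_le_one₀ (by positivity) ?_
        rw [div_mul_eq_mul_div, div_le_one (by positivity)]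
        gcongr
        exact le_mul_of_one_le_right (by positivity) (one_le_pow₀ one_le_two)
      have h5 : 0 ≤ |C| * 4 ^ a * 4 ^ (a + b) := by positivity
      rw [Gv.Sm, msM, diagonal_apply_eq]; linarith)
    (tr1.trans (by
      have := mul_le_mul_of_nonneg_right (le_abs_self C) (show (0 : ℝ) ≤ 4 ^ a * 4 ^ (a + b) by positivity)
      linarith)) (tr2.trans (mul_le_mul_of_nonneg_right (le_abs_self C) (by positivity))) H0 H1 (by
      rw [(root ok ge al xt i).2.2 _ b1 (dep.shift subset_rfl), (root ok ge al xt i).2.2 _ b2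
        ((dep.comp fun t => t ^ 2).shift subset_rfl)]; exact uv)
  simp only [fun i => (root ok ge al xt i).2.1,
    fun i => (root ok ge al xt i).2.2 _ b1 (dep.shift subset_rfl)] at key
  refine ⟨hp, _, (key 0).1, fun i S => ?_⟩
  have := (key i).2 (fun z i => avL (V.cel q i) (V.ma z.1 + V.mb z.2)) S
  rw [show V.nuM Λ a = _ from congrArg (push · V.dH) (funext fun s =>
    (rm_eq ge a b s).trans (by rw [← cY_eq al hc s]))]
  exact this

end Crest.Agent.T145.Kv
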