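import Crest.Agent.T145.KsDef_68

/-!
# Row 145 (helper68): one cross ratio from MIX (any model, any seam)
-/

set_option autoImplicit false

namespace Crest.Agent.T145.Ks68

open Finset Nc

variable {V : Type} [DecidableEq V] {m m' : Mdl V} {N S U K T C X : Finset V} {σ : V × V → ℤ}

theorem agr_tw (h : Agr m m' X) (σ : V × V → ℤ) : Agr (tw m σ) (tw m' σ) X :=
  ⟨h.1, fun e he => funext fun k => congrFun (h.2 e he) (k + σ e)⟩

theorem agr_rWs (h : Agr m m' X) (σ : V × V → ℤ) : rWs m X σ = rWs m' X σ := by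
  rw [rWs, rWs, fr, fr, h.pnWs]

theorem agr_zx (h : Agr m m' X) (σ : V × V → ℤ) (F : Cfg V → ℝ) :
    zx (fr m X) σ F = zx (fr m' X) σ F := by rw [zx, zx, fr_W, fr_W, h.rW, fr, fr, h.pnWs]

theorem agr_zr (h : Agr m m' X) (σ : V × V → ℤ) : zr (fr m X) σ = zr (fr m' X) σ := by
  rw [← zx_one, ← zx_one, agr_zx h]

theorem ex_root {r : V} (hr : r ∈ U) {F : Cfg V → ℝ} (hF : DepG U F) :
    Ex (rWs m U σ) F = Ex ((pn m U {r}).Ws 0 σ) F := by
  have h := (root_tw (m := m) (σ := σ) hr (DepG.const U (1 : ℝ))).2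
  simp only [mul_one] at h
  rw [Ex_def, Ex_def, (root_tw hr hF).2, Zs, Zs, h]

theorem hdt_congr {S' K' : Finset V} (h : Cut m N S U K T) (h' : Cut m' N S' U K' T)
    (ha : Agr m m' (N ∪ U)) (σ : V × V → ℤ) : hdt m σ N U T = hdt m' σ N U T := by
  funext s
  have hT : T ⊆ N ∪ U := h.tsub.trans subset_union_right
  have a := agr_tw ha σ
  have e1 := a.locW h.subB (h.tbd.trans hT) (h'.tbd.trans hT) h.clB.2 h'.clB.2 s
  have e2 := (a.hole N).locW (sdiff_subset.trans subset_union_right) (h.bd_hole.trans hT)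
    (h'.bd_hole.trans hT) h.clU.2 h'.clU.2 s
  rw [loc_tw, loc_tw, tw_W, tw_W] at e1
  rw [hole_tw, hole_tw, loc_tw, loc_tw, tw_W, tw_W] at e2
  rw [hdt, hdt, e1, e2, (ha.mono subset_union_right).nE, ha.gl subset_union_left
    ((h.kbd.trans h.ksub).trans subset_union_right) ((h'.kbd.trans h'.ksub).trans subset_union_right)
    h.clN.2 h'.clN.2]

/-- the inverse hole density is bounded -/
theorem inv_hdt_le (hF : m.Fm) (h : Cut m N S U K T) (σ : V × V → ℤ) (s : Cfg V) :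
    (hdt m σ N U T s)⁻¹ ≤ cr m U K T * zr (fr m N) σ := by
  have k := (tnb hF h (empty_subset N) σ (DepG.const _ (1 : ℝ))
    ((wt_rWs hF h.cn (h.ne.mono h.sub) σ).ig_const 1) s).2
  have w : Wt ((m.free (N ∪ U \ T)).Ws s σ) := by
    rw [← tw_W, ← free_tw]
    refine (Mdl.wt_loc (tw_pos hF σ) _ s).2 ?_
    rw [loc_tw, tw_W]; exact (loc_wts hF h s σ).1
  simp only [abs_one] at k
  rw [w.ex_const, cr_empty hF h.toBox, one_mul, zx_one] at k
  rwa [inv_le_iff_one_le_mul₀ (hdt_pos hF h σ s)]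

/-- the weight with the box glued in -/
theorem zr_glue (hc : m.Ctr) (ha : m.Anch) (h : Cut m N S U K T) (σ : V × V → ℤ) :
    zr m σ = kap m N U * zx (hole m N) σ fun s => (hdt m σ N U T s)⁻¹ := by
  have k := (hdt_zx hc ha h σ (((hdt_depG h σ).comp fun a => a⁻¹).dep.out h.disjT.symm)
    ((Md.ctr_wts (hole_ctr hc N) (h.hole_anch ha) 0 σ).ig_bdd fun s => by
      rw [abs_of_pos (inv_pos.2 (hdt_pos hc.1 h σ s))]; exact inv_hdt_le hc.1 h σ s)).2
  simp only [inv_mul_cancel₀ (hdt_pos hc.1 h σ _).ne'] at k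
  rw [← k, zx_one]

/-- an inner observable in the ambient model against the free model on `X` -/
theorem amb {I O B : Finset V} (hc : m.Ctr) (ha : m.Anch) (hX : Box m X S) (hl : Cl m X)
    (hh : (hole m X).Anch) (hI : I ⊆ B) (hB : B ⊆ X \ S) (hC : m.bd B ⊆ C) (hCO : m.bd B ⊆ O) (hCX : C ⊆ X)
    (hO : O ⊆ X) (hd : Disjoint O B) {ω η A : ℝ} (M : Mix (rWs m X σ) I O ω η) {Φ : Cfg V → ℝ} (dΦ : DepG I Φ)
    (bΦ : ∀ s, 0 ≤ Φ s ∧ Φ s ≤ A) :
    (1 - ω) * Ex (rWs m X σ) Φ * zr m σ ≤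
      zx m σ Φ + cr m X C S * zr (fr m X) σ * (η * A) * zr (hole m X) σ := by
  obtain ⟨r, hr⟩ := hX.ne
  have hrX : r ∈ X := hX.sub hr
  have BX : B ⊆ X := hB.trans sdiff_subset
  have w := Md.ctr_wts hc ha 0 σ
  have wX := wt_rWs hc.1 hX.cn ⟨r, hrX⟩ σ
  have wr := Md.ctr_wts (pn_ctr hc.1 X {r}) (pn_anch hX.cn hrX (mem_singleton_self r)) 0 σ
  have aΦ : ∀ s, |Φ s| ≤ A := fun s => by rw [abs_of_nonneg (bΦ s).1]; exact (bΦ s).2
  set a := (1 - ω) * Ex (rWs m X σ) Φ with ha'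
  set ψ := (tw m σ).cE B Φ with hψ
  have n0 : ∀ s t, 0 ≤ ((tw m σ).free B).W s t :=
    Mdl.free_nonneg (m := tw m σ) (fun e he k => (tw_pos hc.1 σ e he k).le) hc.nn (BX.trans hl.1)
  have aψ : ∀ s, |ψ s| ≤ A := fun s => Mdl.abs_cE_le_of_bdd (n0 s) aΦ
  have dψ : DepG (m.bd B) ψ := Mdl.cE_depG' (tw_ne hc.1 σ)
    (fun x hx k h => (hl.2 x (BX hx) _).trans (hl.2 x (BX hx) _).symm)
    (dΦ.mono (hI.trans subset_union_left))
  have dG : DepG (m.bd B) fun s => ind (ψ s < a) := dψ.comp fun y => ind (y < a)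
  have dY : DepG C fun s => ind (ψ s < a) * (a - ψ s) :=
    (dψ.mono hC).comp fun y => ind (y < a) * (a - y)
  have Y0 : ∀ s, 0 ≤ ind (ψ s < a) * (a - ψ s) ∧ a - ψ s ≤ ind (ψ s < a) * (a - ψ s) := fun s => by
    by_cases k : ψ s < a
    · rw [ind_pos k]; constructor <;> linarith
    · rw [ind_neg k]; constructor <;> linarith
  have bGψ : ∀ {Ψ : Cfg V → ℝ}, (∀ s, |Ψ s| ≤ A) → ∀ s, |ind (ψ s < a) * Ψ s| ≤ A := fun h s => by
    rw [abs_mul]
    exact (mul_le_of_le_one_left (abs_nonneg _) (abs_ind_le _)).trans (h s)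
  have eY : (fun s => ind (ψ s < a) * (a - ψ s)) =
      fun s => a * ind (ψ s < a) - ind (ψ s < a) * ψ s := funext fun s => by ring
  have iY : ∀ {W : Cfg V → ℝ}, Wt W → Ig W fun s => ind (ψ s < a) * (a - ψ s) := fun h => by
    rw [eY]; exact ((h.ig_ind _).const_mul a).sub (h.ig_bdd (bGψ aψ))
  -- the free model
  have cE : (tw (pn m X {r}) σ).cE B = (tw m σ).cE B := by
    have b1 : m.bd B ⊆ X := hCO.trans hO
    have k := (agr_tw (agr_pn (m := m) (Subset.refl X) {r}) σ).edM BX ((bd_pn {r} B).trans b1) b1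
    exact Mdl.cE_congr_mdl (tw_ne (pn_fm hc.1 _ _) σ) (tw_ne hc.1 σ) k.1 k.2
      fun x hx => funext fun k => (hl.2 x (BX hx) k).symm
  have t1 := (Mdl.tower_cE_mul (m := tw (pn m X {r}) σ) (F := Φ) (η := 0)
    (fun x hx => mem_sdiff.2 ⟨BX hx, fun k => (mem_sdiff.1 (hB hx)).2 (mem_singleton.1 k ▸ hr)⟩)
    ((dG.mono hCO).dep.out hd) (by rw [tw_W]; exact wr)
    (by rw [tw_W]; exact wr.ig_bdd (bGψ aΦ))).2
  rw [cE, tw_W, ← ex_root hrX ((dG.mono (hCO.trans hO)).mul (dΦ.mono (hI.trans BX))),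
    ← ex_root hrX ((dG.mul dψ).mono (hCO.trans hO))] at t1
  have mx := (abs_le.1 (M Φ _ A 1 dΦ (dG.mono hCO) bΦ fun s => ⟨ind_nonneg _, ind_le_one _⟩)).1
  have e3 : Ex (rWs m X σ) (fun s => ind (ψ s < a) * (a - ψ s)) ≤ η * A := by
    rw [eY, Ex_sub ((wX.ig_ind _).const_mul a) (wX.ig_bdd (bGψ aψ)), Ex_const_mul, ← t1]
    simp only [mul_comm (Φ _)] at mx
    rw [ha']; linarith
  -- the ambient model
  have d := (td1_one hc ha hX hl hCX hh σ dY (fun s => (Y0 s).1) (iY wX)).2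
  have t2 := Mdl.tower_cE (m := tw m σ) (F := Φ) (η := 0) (BX.trans hl.1) (by rw [tw_W]; exact w)
    (by rw [tw_W]; exact w.ig_bdd aΦ)
  rw [tw_W] at t2
  have e4 : a - Ex (m.Ws 0 σ) Φ ≤ Ex (m.Ws 0 σ) fun s => ind (ψ s < a) * (a - ψ s) := by
    rw [t2.2, ← w.ex_const a, ← Ex_sub (w.ig_const a) t2.1, w.ex_const a]
    exact Ex_mono w.nonneg ((w.ig_const a).sub t2.1) (iY w) fun s => (Y0 s).2
  have z0 := zr_pos hc ha σ
  rw [zx_eq w, zx_eq (m := fr m X) wX] at d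
  rw [zx_eq w]
  have e5 := mul_le_mul_of_nonneg_left e3 (mul_nonneg (mul_nonneg (cr_nonneg hc.1 X C S)
    (zr_pos (fr_ctr hc.1 X) (fr_anch hX.cn ⟨r, hrX⟩) σ).le) (zr_pos (hole_ctr hc X) hh σ).le)
  have e6 := mul_le_mul_of_nonneg_left e4 z0.le
  rw [rWs] at e5
  nlinarith [d, e5, e6]

/-- **KS**: the cross ratio of inner models (`N` glued or removed) and outer models (`m` or free on `N ∪ X`) -/
theorem ks {S' I O B : Finset V} (hc : m.Ctr) (ha : m.Anch) (h : Cut m N S U K T)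
    (hX : Box (hole m N) X S') (hl : Cl (hole m N) X) (hh : (hole (hole m N) X).Anch)
    (hU : U ⊆ I) (hI : I ⊆ B) (hB : B ⊆ X \ S') (hC : (hole m N).bd B ⊆ C)
    (hCO : (hole m N).bd B ⊆ O) (hCX : C ⊆ X) (hO : O ⊆ X) (hd : Disjoint O B) {η Ki Ko : ℝ} (hη : 0 ≤ η) (M : Mix (rWs m X σ) I O (1 / 8) η)
    (g1 : cr m U K T ≤ 2) (g2 : cr (hole m N) X C S' ≤ 2)
    (hi : zr (fr m N) σ * zr (fr m X) σ ≤ Ki * zr (fr m (N ∪ X)) σ)
    (ho : zr (fr m X) σ * zr (hole (hole m N) X) σ ≤ Ko * zr (hole m N) σ)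
    (hK : 32 * η * Ki * Ko ≤ 1) :
    3 * (zr (fr m (N ∪ X)) σ * zr (hole m N) σ) ≤ 8 * (zr m σ * zr (fr m X) σ) := by
  obtain ⟨r, hr⟩ := hX.ne
  have hrX : r ∈ X := hX.sub hr
  have UX : U ⊆ X := (hU.trans hI).trans (hB.trans sdiff_subset)
  have dN : Disjoint N X := disjoint_right.2 fun x hx => (mem_sdiff.1 (hl.1 hx)).2
  have ag := agr_hole (m := m) dN
  have cX : Cn m X := ag.cn hX.cn
  have ch := hole_ctr hc N
  have ah := h.hole_anch ha
  have wX := wt_rWs hc.1 cX ⟨r, hrX⟩ σ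
  have dΦ : DepG T fun s => (hdt m σ N U T s)⁻¹ := (hdt_depG h σ).comp fun a => a⁻¹
  have u0 := zr_pos (fr_ctr hc.1 N) (fr_anch h.cn (h.ne.mono h.sub)) σ
  have T0 := zr_pos (fr_ctr hc.1 X) (fr_anch cX ⟨r, hrX⟩) σ
  have h0 := zr_pos ch ah σ
  have o0 := zr_pos (hole_ctr ch X) hh σ
  have k := amb ch ah hX hl hh hI hB hC hCO hCX hO hd (σ := σ) (by rwa [agr_rWs ag])
    (dΦ.mono (h.tsub.trans hU)) (A := 2 * zr (fr m N) σ) fun s => ⟨(inv_pos.2 (hdt_pos hc.1 h σ s)).le,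
      (inv_hdt_le hc.1 h σ s).trans (mul_le_mul_of_nonneg_right g1 u0.le)⟩
  rw [agr_rWs ag, agr_zr ag] at k
  -- the free model on `N ∪ X`
  have NU : N ∪ U ⊆ N ∪ X := union_subset_union_right UX
  have hR : Disjoint (N ∪ U \ T) {r} := disjoint_singleton_right.2 fun k => (mem_union.1 k).elim
    (disjoint_right.1 dN hrX) fun k => (mem_sdiff.1 (hB (hI (hU (mem_sdiff.1 k).1)))).2 hr
  have hf := h.pn NU hR
  have cf := pn_ctr hc.1 (N ∪ X) {r}
  have cn : Cn m (N ∪ X) := by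
    obtain ⟨t, ht⟩ := h.tne
    have mono : ∀ {Y : Finset V}, Y ⊆ N ∪ X → inn Y m.ed ⊆ inn (N ∪ X) m.ed := fun hY e he =>
      mem_filter.2 ⟨(mem_filter.1 he).1, hY (mem_filter.1 he).2.1, hY (mem_filter.1 he).2.2⟩
    have : ∀ x ∈ N ∪ X, Conn (inn (N ∪ X) m.ed) x t := fun x hx => (mem_union.1 hx).elim
      (fun k => Md.conn_mono (mono NU) (h.cn_union x (mem_union_left _ k) t
        (mem_union_right _ (h.tsub ht))))
      fun k => Md.conn_mono (mono subset_union_right) (cX x k t (UX (h.tsub ht)))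
    exact fun x hx y hy => (this x hx).trans (this y hy).symm
  have af := pn_anch cn (mem_union_right N hrX) (mem_singleton_self r)
  have e1 := zr_glue cf af hf σ
  rw [hdt_congr hf h (agr_pn NU _), hole_pn dN, ← zx_root hrX (dΦ.mono (h.tsub.trans UX)),
    ← zr_root (mem_union_right N hrX), zx_eq (m := fr m X) wX] at e1
  have k1 := (kap_bd cf af hf).2
  have k2 := (kap_bd hc ha h).1
  have c0 := cr_pos hc.1 h.cnU h.tsub h.tne K
  have k3 : 1 / 2 ≤ kap m N U := (one_div_le_one_div_of_le c0 g1).trans k2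
  rw [zr_glue hc ha h σ]
  have a0 : 0 ≤ Ex (rWs m X σ) fun s => (hdt m σ N U T s)⁻¹ :=
    Ex_nonneg wX.nonneg fun s _ => (inv_pos.2 (hdt_pos hc.1 h σ s)).le
  have x0 := zx_nonneg ch σ fun s => (inv_pos.2 (hdt_pos hc.1 h σ s)).le
  have f0 := zr_pos (fr_ctr hc.1 (N ∪ X)) (fr_anch cn ⟨r, mem_union_right N hrX⟩) σ
  rw [rWs] at k a0
  generalize Ex ((fr m X).Ws 0 σ) _ = a at *
  generalize zx (hole m N) σ _ = x at *
  generalize zr (fr m (N ∪ X)) σ = f at *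
  generalize zr (fr m X) σ = t at *
  generalize zr (fr m N) σ = u at *
  generalize zr (hole (hole m N) X) σ = o at *
  generalize zr (hole m N) σ = z at *
  have p1 : f ≤ t * a := e1.trans_le (mul_le_of_le_one_left (mul_nonneg T0.le a0) k1)
  have p2 : u * t * (t * o) ≤ Ki * f * (Ko * z) :=
    mul_le_mul hi ho (by positivity) ((mul_pos u0 T0).le.trans hi)
  have p3 : cr (hole m N) X C S' * t * (η * (2 * u)) * o ≤ 2 * t * (η * (2 * u)) * o := by gcongr
  have p4 : 32 * η * (u * t * (t * o)) ≤ f * z := by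
    calc _ ≤ 32 * η * (Ki * f * (Ko * z)) := by gcongr
      _ = 32 * η * Ki * Ko * (f * z) := by ring
      _ ≤ _ := mul_le_of_le_one_left (by positivity) hK
  have p5 : 1 / 2 * x * t ≤ kap m N U * x * t := by gcongr
  have p6 := mul_le_mul_of_nonneg_right (k.trans (add_le_add_right p3 _)) T0.le
  have p7 := mul_le_mul_of_nonneg_right p1 h0.le
  nlinarith

/-- gradients inside `U`, rooted at `r` -/
noncomputable def pj (U : Finset V) (r : V) : Cfg V →+ Cfg V :=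
  AddMonoidHom.mk' (fun s => s.filter (· ∈ U) - cst U (s r)) fun s t => by
    ext x
    simp only [Finsupp.sub_apply, Finsupp.add_apply, Finsupp.filter_apply, cst_apply]
    split_ifs <;> ring

theorem pj_apply (U : Finset V) (r : V) (s : Cfg V) (x : V) :
    pj U r s x = if x ∈ U then s x - s r else 0 := by
  change (s.filter (· ∈ U) - cst U (s r)) x = _
  simp only [Finsupp.sub_apply, Finsupp.filter_apply, cst_apply]
  split_ifs <;> ring

theorem pj_off {r x : V} (s : Cfg V) (hx : x ∉ U \ {r}) : pj U r s x = 0 := by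
  rw [pj_apply]
  split_ifs with h
  · rw [mem_singleton.1 (not_not.1 fun k => hx (mem_sdiff.2 ⟨h, k⟩)), sub_self]
  · rfl

theorem dE_pj {r : V} {e : V × V} (h : e.1 ∈ U ∧ e.2 ∈ U) (s : Cfg V) : dE e (pj U r s) = dE e s := by
  simp only [dE, pj_apply, if_pos h.1, if_pos h.2]; ring

/-- cutting out any connected set raises the ratio -/
theorem zr_le_fr (hc : m.Ctr) (ha : m.Anch) (hU : Cn m U) (hn : U.Nonempty) (σ : V × V → ℤ) :
    zr m σ ≤ zr (fr m U) σ := by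
  obtain ⟨r, hr⟩ := hn
  have a' := pn_anch hU hr (mem_singleton_self r)
  have h := Sl46.cut_proj (m' := pn m U {r}) hc ha a' (pj U r) (filter_subset _ _) (fun _ _ => rfl)
    (fun _ _ _ => rfl) (fun s _ => ⟨fun _ hx => pj_off s hx, fun e he => dE_pj (mem_pn_ed.1 he).2 s⟩) σ 0
  simp only [Zs, tilt, AddMonoidHom.zero_comp, AddMonoidHom.zero_apply, Real.exp_zero, mul_one] at h
  rw [zr_root hr]
  exact (div_le_div_iff₀ (Md.ctr_wt hc ha 0).pos (Md.ctr_wt (pn_ctr hc.1 _ _) a' 0).pos).2 h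

theorem small {α : Type} {W Φ : α → ℝ} (hW : Wt W) (h : ∀ s, 0 < Φ s) {δ : ℝ} (hδ : 0 < δ) :
    ∃ ε : ℝ, 0 < ε ∧ Ex W (fun s => ind (Φ s < ε)) ≤ δ := by
  have t : Filter.Tendsto (fun n : ℕ => ∑' s, W s * ind (Φ s < 1 / ((n : ℝ) + 1))) Filter.atTop
      (nhds (∑' _ : α, (0 : ℝ))) := by
    refine tendsto_tsum_of_dominated_convergence hW.summ (fun s => ?_)
      (Filter.Eventually.of_forall fun n s => ?_)
    · refine tendsto_const_nhds.congr' ((tendsto_one_div_add_atTop_nhds_zero_nat.eventually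
        (gt_mem_nhds (h s))).mono fun n hn => ?_)
      simp only [ind_neg (not_lt.2 hn.le), mul_zero]
    · rw [Real.norm_eq_abs, abs_mul, abs_of_nonneg (hW.nonneg s)]
      exact mul_le_of_le_one_right (hW.nonneg s) (abs_ind_le _)
  rw [tsum_zero] at t
  obtain ⟨n, hn⟩ := (t.eventually (gt_mem_nhds (mul_pos hδ hW.pos))).exists
  exact ⟨_, Nat.one_div_pos_of_nat, by rw [Ex_def, div_le_iff₀ hW.pos]; exact hn.le⟩

/-- filling a hole costs a constant that depends only on the model near the hole -/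
theorem core (hF : m'.Fm) (h' : Cut m' N S U K T) (σ : V × V → ℤ) {Ko : ℝ} (hK : 0 < Ko) :
    ∃ c : ℝ, 0 < c ∧ ∀ m : Mdl V, m.Ctr → m.Anch → Cut m N S U K T → Agr m m' (N ∪ U) →
      Cl (hole m N) U → (hole (hole m N) U).Anch → zr (hole (hole m N) U) σ ≤ Ko * zr (hole m N) σ →
      c * zr (hole m N) σ ≤ zr m σ := by
  have nU : U.Nonempty := h'.tne.mono h'.tsub
  have c1 := cr_pos hF h'.cnU h'.tsub h'.tne T
  have c2 := cr_pos hF h'.cnU h'.tsub h'.tne K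
  obtain ⟨ε, e0, e1⟩ := small (wt_rWs hF h'.cnU nU σ) (fun s => inv_pos.2 (hdt_pos hF h' σ s))
    (δ := 1 / (2 * Ko * cr m' U T T)) (by positivity)
  refine ⟨1 / cr m' U K T * (ε / 2), by positivity, fun m hc ha h ag hl hh ho => ?_⟩
  have aU := ag.mono (subset_union_right (s₁ := N))
  have aH := (agr_hole (m := m) h.disj).trans aU
  have ch := hole_ctr hc N
  have ah := h.hole_anch ha
  have w := Md.ctr_wts ch ah 0 σ
  have wU := wt_rWs ch.1 h.hole_box.cn nU σ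
  have k := (kap_bd hc ha h).1
  rw [zr_glue hc ha h σ, hdt_congr h h' ag, ← aU.cr]
  set Φ := fun s => (hdt m' σ N U T s)⁻¹ with hΦ
  have p0 : ∀ s, 0 < Φ s := fun s => inv_pos.2 (hdt_pos hF h' σ s)
  have d := (td1_one ch ah h.hole_box hl h.tsub hh σ
    ((hdt_depG h' σ).comp fun a => ind (a⁻¹ < ε)) (fun _ => ind_nonneg _) (wU.ig_ind _)).2
  rw [zx_eq (m := fr _ U) wU, ← rWs, agr_rWs aH, aH.cr, zx_eq w] at d
  have z0 := zr_pos ch ah σ
  have d2 : zr (hole m N) σ * Ex ((hole m N).Ws 0 σ) (fun s => ind (Φ s < ε)) ≤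
      cr m' U T T * (1 * (1 / (2 * Ko * cr m' U T T))) * (Ko * zr (hole m N) σ) := by
    refine d.trans (mul_le_mul (mul_le_mul_of_nonneg_left (mul_le_mul
      (zr_le_one (fr_ctr ch.1 U) (fr_anch h.hole_box.cn nU) σ) e1
      (Ex_nonneg (wt_rWs hF h'.cnU nU σ).nonneg fun _ _ => ind_nonneg _) zero_le_one) c1.le) ho
      (zr_pos (hole_ctr ch U) hh σ).le (by positivity))
  rw [show cr m' U T T * (1 * (1 / (2 * Ko * cr m' U T T))) * (Ko * zr (hole m N) σ) =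
    zr (hole m N) σ * (1 / 2) by field_simp] at d2
  have d3 := le_of_mul_le_mul_left d2 z0
  have d4 : ε * (1 - Ex ((hole m N).Ws 0 σ) fun s => ind (Φ s < ε)) ≤ Ex ((hole m N).Ws 0 σ) Φ := by
    rw [← w.ex_const 1, ← Ex_sub (w.ig_const 1) (w.ig_ind _), ← Ex_const_mul]
    refine Ex_mono w.nonneg (((w.ig_const 1).sub (w.ig_ind _)).const_mul ε) (w.ig_bdd fun s => by
      rw [abs_of_pos (p0 s)]; exact inv_hdt_le hF h' σ s) fun s => ?_
    by_cases q : Φ s < ε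
    · rw [ind_pos q, sub_self, mul_zero]; exact (p0 s).le
    · rw [ind_neg q, sub_zero, mul_one]; exact not_lt.1 q
  rw [zx_eq w, mul_assoc]
  refine mul_le_mul k ?_ (by positivity) ((one_div_pos.2 (aU.cr K T ▸ c2)).le.trans k)
  rw [mul_comm]
  exact mul_le_mul_of_nonneg_left (by nlinarith) z0.le

end Crest.Agent.T145.Ks68
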