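import Crest.Agent.T145.GffDef_8

/-!
# Row 145, module (b): T1 in group form (seams, extended lattices) for slowly varying vector fields (helper8)
-/

set_option autoImplicit false

namespace Crest.Agent.T145

open Finset Crest.ProbabilityR.HeightModel

/-- a gradient field: `ρ = H * ∏ w (g e)` over the edges inside `D`, `H ≥ 0` positive definite, and `g` is a
gradient on every `l`-box inside `D` -/
def Lat.GAmb (Λ : Lat) {G : Type} [AddCommGroup G] (ρ : G → ℝ) (g : Pt × Pt → G →+ ℤ) (D : Finset Pt)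
    (l : ℕ) : Prop :=
  Wt ρ ∧ SE ρ ∧ (∃ H : G → ℝ, PD H ∧ (∀ a, 0 ≤ H a) ∧ ∀ a, ρ a = H a * ∏ e ∈ Λ.edI D, Λ.w (g e a)) ∧
    ∀ z, sq z l ⊆ D → ∀ a, ∃ t : Cfg Pt, ∀ e ∈ Λ.edI (sq z l), g e a = dE e t

/-- the functional `∑ φ e * g e` -/
noncomputable def gfl {G : Type} [AddCommGroup G] (ed : Finset (Pt × Pt)) (φ : Pt × Pt → ℝ)
    (g : Pt × Pt → G →+ ℤ) : G →+ ℝ := ∑ e ∈ ed, φ e • (Int.castAddHom ℝ).comp (g e)

/-- the flow of the vector field `a` -/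
noncomputable def vfl (a : Fin 2 → Pt → ℝ) (e : Pt × Pt) : ℝ := ∑ i, a i e.1 * co i (e.2 - e.1)

/-- T1 in group form: `a` is any slowly varying vector field on `D` (not necessarily a gradient) -/
def T1gStmt : Prop := ∀ (F : Fa) (K ε : ℝ), 0 < ε → ∃ δ : ℝ, 0 < δ ∧ ∀ Λ, F.Mem Λ →
  ∀ l L, Sep δ l L → ∀ (G : Type) [AddCommGroup G] (ρ : G → ℝ) (g : Pt × Pt → G →+ ℤ) (D : Finset Pt)
    (a : Fin 2 → Pt → ℝ) (φ : Pt × Pt → ℝ), Λ.GAmb ρ g D l → Reg D K l L →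
    (∀ i, ∀ x ∈ D, |a i x| ≤ K / L) → (∀ i j, ∀ x ∈ D, x + ev j ∈ D → |df j (a i) x| ≤ K / (L : ℝ) ^ 2) →
    (∀ e ∈ Λ.edI D, |φ e| ≤ K / L) →
      M ρ (gfl (Λ.edI D) (fun e => vfl a e / Λ.τ + φ e) g) ≤
        (Λ.tN l * Λ.e0 * ∑ x ∈ D, ∑ i, a i x ^ 2 + 2 * Λ.tN l * ∑ e ∈ Λ.edI D, φ e * vfl a e +
          Λ.τ * ∑ e ∈ Λ.edI D, φ e ^ 2) / 2 + ε

/-- BARE in group form -/
def BrgStmt : Prop := ∀ (Λ : Lat) (G : Type) [AddCommGroup G] (ρ H : G → ℝ) (g : Pt × Pt → G →+ ℤ)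
  (ed : Finset (Pt × Pt)) (φ : Pt × Pt → ℝ), Λ.Ok → Wt ρ → SE ρ → PD H → (∀ a, 0 ≤ H a) →
    (∀ a, ρ a = H a * ∏ e ∈ ed, Λ.w (g e a)) →
      M ρ (gfl ed φ g) ≤ Λ.τ * ∑ e ∈ ed, (Real.cosh (φ e) - 1)

end Crest.Agent.T145
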