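import Crest.Agent.T145.CorB_59
import Crest.Agent.T145.GsR_85

/-!
# Row 145 (helper75): abstract (Q), (R), (K0) on a group fibred over the data

`ρ` is an RSD weight on a group `G`, `π : G →+ D` reads the data, `U ∘ π` fixes the zero mode.
-/

set_option autoImplicit false

namespace Crest.Agent.T145.Kq75

open Finset Matrix Crest.Agent.T145.Gs

variable {G D : Type} [AddCommGroup G] [AddCommGroup D]

/-- the weight on the fibre over `q` -/
noncomputable def fib (ρ : G → ℝ) (π : G →+ D) (q : D) : G → ℝ := fun s => ind (π s = q) * ρ s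

/-- the ambient weight with the zero mode fixed by `U` -/
noncomputable def amb (ρ : G → ℝ) (π : G →+ D) (U : D → ℝ) : G → ℝ := fun s => U (π s) * ρ s

/-- a fibred RSD weight -/
structure Fb (ρ : G → ℝ) (π : G →+ D) (U : D → ℝ) : Prop where
  rsd : RSD ρ
  pos : 0 < ρ 0
  summ : ∀ q, Summable (fib ρ π q)
  U0 : ∀ q, 0 ≤ U q
  wt : Wt (amb ρ π U)

variable {ρ : G → ℝ} {π : G →+ D} {U : D → ℝ}

theorem fib_nonneg (h : ∀ s, 0 ≤ ρ s) (q : D) (s : G) : 0 ≤ fib ρ π q s :=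
  mul_nonneg (ind_nonneg _) (h s)

theorem Fb.wt0 (h : Fb ρ π U) : Wt (fib ρ π 0) :=
  Wt.of_pos (fib_nonneg h.rsd.nonneg 0) (h.summ 0) (a := 0) (by simpa [fib, ind_pos] using h.pos)

theorem summ_bdd {α : Type*} {W F : α → ℝ} (h0 : ∀ a, 0 ≤ W a) (hs : Summable W) {C : ℝ}
    (hF : ∀ a, |F a| ≤ C) : Summable fun a => W a * F a :=
  Ig.of_abs_le h0 (Ig.const hs C) fun a _ => hF a

/-- inequality (1) on a fibre, for characters -/
theorem Fb.fib_cos [IsAddTorsionFree G] (h : Fb ρ π U) (X : G →+ ℝ) (q : D) (θ : ℝ) :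
    |∑' s, fib ρ π q s * Real.cos (X s + θ)| ≤ Zs (fib ρ π q) * Ph (fib ρ π 0) X := by
  let φ : G × (D × ℝ) →+ D := π.comp (AddMonoidHom.fst _ _) -
    (AddMonoidHom.fst D ℝ).comp (AddMonoidHom.snd _ _)
  let ξ : G × (D × ℝ) →+ ℝ := X.comp (AddMonoidHom.fst _ _) +
    (AddMonoidHom.snd D ℝ).comp (AddMonoidHom.snd _ _)
  have hr : RSD fun p : G × (D × ℝ) => ind (φ p = 0) * ρ (AddMonoidHom.fst G (D × ℝ) p) :=
    Rsd63.rsd_mul (Rsd63.rsd_ind φ) (Rsd63.rsd_comp h.rsd _)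
  have e : ∀ (q : D) (θ : ℝ), sl (fun p : G × (D × ℝ) =>
      ind (φ p = 0) * ρ (AddMonoidHom.fst G (D × ℝ) p)) (q, θ) = fib ρ π q := fun q θ =>
    funext fun s => by simp [sl, fib, φ, sub_eq_zero]
  have e' : tilt (fib ρ π q) 0 = fib ρ π q := funext fun s => by simp [tilt]
  have := rsdBStmt G (D × ℝ) _ (fun p => Real.cos (ξ p)) hr (pd_cos ξ) (q, θ) 0
    (by rw [show (0 : D × ℝ) = (0, 0) from rfl, e]; exact h.summ 0) (by rw [e, e']; exact h.summ q)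
  rw [e, e', show (0 : D × ℝ) = (0, 0) from rfl, e] at this
  have e2 : ∑' s, (ind (φ (s, (0, 0)) = 0) * ρ (AddMonoidHom.fst G (D × ℝ) (s, (0, 0)))) *
      Real.cos (ξ (s, (0, 0))) = Zs (fib ρ π 0) * Ph (fib ρ π 0) X := by
    rw [Ph, ← h.wt0.tsum_eq]
    exact tsum_congr fun s => by simp [fib, φ, ξ]
  rw [e2] at this
  have e3 : ∀ s, Real.cos (ξ (s, (q, θ))) = Real.cos (X s + θ) := fun s => by simp [ξ]
  simp only [e3] at this
  refine le_of_mul_le_mul_right (this.trans_eq ?_) h.wt0.pos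
  ring

theorem hs_congr {α : Type*} {f g : α → ℝ} {a b : ℝ} (h : HasSum f a) (h1 : ∀ x, g x = f x)
    (h2 : b = a) : HasSum g b := by rw [h2, funext h1]; exact h

theorem tsum_le_of_push {α β : Type*} {f g : α → ℝ} (π : α → β) (hf : Summable f) (hg : Summable g)
    (h : ∀ b, push f π b ≤ push g π b) : ∑' a, f a ≤ ∑' a, g a :=
  hasSum_le h (hasSum_push hf π) (hasSum_push hg π)

theorem push_amb (F : G → ℝ) (q : D) :
    push (fun s => amb ρ π U s * F s) π q = U q * ∑' s, fib ρ π q s * F s := by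
  rw [push, ← tsum_mul_left]
  refine tsum_congr fun s => ?_
  by_cases hs : π s = q
  · subst hs; simp [amb, fib, ind_pos]; ring
  · simp [fib, ind_neg hs]

theorem sq_le_of_rot {C S P : ℝ} (h : ∀ θ, |C * Real.cos θ - S * Real.sin θ| ≤ P) :
    C ^ 2 + S ^ 2 ≤ P ^ 2 := by
  set z : ℂ := ⟨C, -S⟩
  have h1 := h (Complex.arg z)
  have e1 : ‖z‖ * Real.cos (Complex.arg z) = C := Complex.norm_mul_cos_arg z
  have e2 : ‖z‖ * Real.sin (Complex.arg z) = -S := Complex.norm_mul_sin_arg z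
  have e3 : C * Real.cos (Complex.arg z) - S * Real.sin (Complex.arg z) = ‖z‖ := by
    have := Real.cos_sq_add_sin_sq (Complex.arg z)
    linear_combination (-Real.cos (Complex.arg z)) * e1 - Real.sin (Complex.arg z) * e2 + ‖z‖ * this
  have e4 : ‖z‖ ^ 2 = C ^ 2 + S ^ 2 := by
    rw [Complex.sq_norm, Complex.normSq_apply]; simp only [z]; ring
  rw [e3, abs_of_nonneg (norm_nonneg _)] at h1
  rw [← e4]
  exact pow_le_pow_left₀ (norm_nonneg _) h1 2

theorem fib_alg {Z C S P a κ u c s : ℝ} (hZ : 0 ≤ Z) (hκ : 0 < κ) (h : C ^ 2 + S ^ 2 ≤ (Z * P) ^ 2)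
    (hu : |u| ≤ 1) (hcs : c ^ 2 + s ^ 2 = 1) :
    u * (C * c - S * s - a * c * Z) ≤ (Z * (P ^ 2 + a ^ 2) - 2 * a * C) / (2 * κ) + κ * Z / 2 := by
  rcases hZ.eq_or_lt with rfl | hZ
  · have h1 : C = 0 := by nlinarith [sq_nonneg C, sq_nonneg S]
    have h2 : S = 0 := by nlinarith [sq_nonneg C, sq_nonneg S]
    simp [h1, h2]
  · set x := C * c - S * s - a * c * Z
    have h1 : x ^ 2 ≤ (C - a * Z) ^ 2 + S ^ 2 := by
      have : ((C - a * Z) ^ 2 + S ^ 2) * (c ^ 2 + s ^ 2) - x ^ 2 = ((C - a * Z) * s + S * c) ^ 2 := by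
        simp only [x]; ring
      rw [hcs] at this; nlinarith [sq_nonneg ((C - a * Z) * s + S * c)]
    have h2 : (u * x) ^ 2 ≤ x ^ 2 := by
      rw [mul_pow]; exact mul_le_of_le_one_left (sq_nonneg _) (by
        rw [← sq_abs]; exact pow_le_one₀ (abs_nonneg _) hu)
    have h3 : 2 * κ * Z * (u * x) ≤ (u * x) ^ 2 + (κ * Z) ^ 2 := by
      nlinarith [sq_nonneg (u * x - κ * Z)]
    rw [div_add' _ _ _ (by positivity), le_div_iff₀ (by positivity)]
    refine le_of_mul_le_mul_left ?_ hZ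
    nlinarith

/-- (Q), dual form, one-sided with a free parameter -/
theorem Fb.q_le [IsAddTorsionFree G] (h : Fb ρ π U) (X : G →+ ℝ) {a P κ : ℝ} (hκ : 0 < κ)
    (hP : Ph (fib ρ π 0) X ≤ P) (u θ : D → ℝ) (hu : ∀ q, |u q| ≤ 1) :
    Ex (amb ρ π U) (fun s => u (π s) * (Real.cos (X s + θ (π s)) - a * Real.cos (θ (π s)))) ≤
      (P ^ 2 + a ^ 2 - 2 * a * Ex (amb ρ π U) fun s => Real.cos (X s)) / (2 * κ) + κ / 2 := by
  have hW := h.wt
  have n0 := fib_nonneg (π := π) h.rsd.nonneg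
  have hc : Ig (amb ρ π U) fun s => Real.cos (X s) := hW.ig_bdd fun s => Real.abs_cos_le_one _
  have e : (P ^ 2 + a ^ 2 - 2 * a * Ex (amb ρ π U) fun s => Real.cos (X s)) / (2 * κ) + κ / 2 =
      Ex (amb ρ π U) fun s => ((P ^ 2 + a ^ 2) - 2 * a * Real.cos (X s)) / (2 * κ) + κ / 2 := by
    rw [hW.ex_add_const (((hW.ig_const _).sub (hc.const_mul _)).div_const _), Ex_div_const,
      Ex_sub (hW.ig_const _) (hc.const_mul _), hW.ex_const, Ex_const_mul]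
  rw [e, Ex_def, Ex_def]
  refine div_le_div_of_nonneg_right ?_ hW.pos.le
  have b1 : ∀ s, |u (π s) * (Real.cos (X s + θ (π s)) - a * Real.cos (θ (π s)))| ≤ 1 + |a| := fun s => by
    rw [abs_mul]
    refine (mul_le_of_le_one_left (abs_nonneg _) (hu _)).trans ((abs_sub _ _).trans ?_)
    rw [abs_mul]
    exact add_le_add (Real.abs_cos_le_one _)
      (mul_le_of_le_one_right (abs_nonneg _) (Real.abs_cos_le_one _))
  refine tsum_le_of_push π (hW.ig_bdd b1)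
    ((((hW.ig_const _).sub (hc.const_mul _)).div_const _).add (hW.ig_const _)) fun q => ?_
  rw [push_amb, push_amb]
  refine mul_le_mul_of_nonneg_left ?_ (h.U0 q)
  have s1 := h.summ q
  have sc : Summable fun s => fib ρ π q s * Real.cos (X s) :=
    summ_bdd (n0 q) s1 fun s => Real.abs_cos_le_one _
  have ss : Summable fun s => fib ρ π q s * Real.sin (X s) :=
    summ_bdd (n0 q) s1 fun s => Real.abs_sin_le_one _
  set Z := Zs (fib ρ π q) with hZ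
  set C := ∑' s, fib ρ π q s * Real.cos (X s) with hC
  set S := ∑' s, fib ρ π q s * Real.sin (X s) with hS
  have rot : ∀ t : ℝ, HasSum (fun s => fib ρ π q s * Real.cos (X s + t))
      (C * Real.cos t - S * Real.sin t) := fun t =>
    hs_congr ((sc.hasSum.mul_right (Real.cos t)).sub (ss.hasSum.mul_right (Real.sin t)))
      (fun s => by rw [Real.cos_add]; ring) rfl
  have Z0 : 0 ≤ Z := Zs_nonneg (n0 q)
  have hCS : C ^ 2 + S ^ 2 ≤ (Z * P) ^ 2 := sq_le_of_rot fun t => by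
    rw [← (rot t).tsum_eq]
    exact (h.fib_cos X q t).trans (mul_le_mul_of_nonneg_left hP Z0)
  have l : HasSum (fun s => fib ρ π q s *
      (u (π s) * (Real.cos (X s + θ (π s)) - a * Real.cos (θ (π s)))))
      (u q * (C * Real.cos (θ q) - S * Real.sin (θ q) - a * Real.cos (θ q) * Z)) := by
    refine hs_congr (((rot (θ q)).sub (s1.hasSum.mul_left (a * Real.cos (θ q)))).mul_left (u q))
      (fun s => ?_) rfl
    by_cases hs : π s = q
    · rw [hs]; ring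
    · simp [fib, ind_neg hs]
  have r : HasSum (fun s => fib ρ π q s * (((P ^ 2 + a ^ 2) - 2 * a * Real.cos (X s)) / (2 * κ) + κ / 2))
      ((Z * (P ^ 2 + a ^ 2) - 2 * a * C) / (2 * κ) + κ * Z / 2) :=
    hs_congr ((((s1.hasSum.mul_right (P ^ 2 + a ^ 2)).sub (sc.hasSum.mul_left (2 * a))).div_const
      (2 * κ)).add ((s1.hasSum.mul_left κ).div_const 2)) (fun s => by ring) rfl
  rw [l.tsum_eq, r.tsum_eq]
  exact fib_alg Z0 hκ hCS (hu q) (Real.cos_sq_add_sin_sq _)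

/-- **(Q)**, dual form -/
theorem Fb.q_dual [IsAddTorsionFree G] (h : Fb ρ π U) (X : G →+ ℝ) {a ε : ℝ} (ha : 0 ≤ a) (ha1 : a ≤ 1)
    (hε : 0 < ε) (hε1 : ε ≤ 1) (h1 : Ph (fib ρ π 0) X ≤ a + ε ^ 2)
    (h2 : a - ε ^ 2 ≤ Ex (amb ρ π U) fun s => Real.cos (X s)) (u θ : D → ℝ) (hu : ∀ q, |u q| ≤ 1) :
    |Ex (amb ρ π U) (fun s => u (π s) * Real.cos (X s + θ (π s))) -
      a * Ex (amb ρ π U) fun s => u (π s) * Real.cos (θ (π s))| ≤ 3 * ε := by
  have hW := h.wt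
  have key : ∀ u : D → ℝ, (∀ q, |u q| ≤ 1) →
      Ex (amb ρ π U) (fun s => u (π s) * Real.cos (X s + θ (π s))) -
        a * Ex (amb ρ π U) (fun s => u (π s) * Real.cos (θ (π s))) ≤ 3 * ε := fun u hu => by
    have k := h.q_le X (a := a) hε h1 u θ hu
    have i1 : Ig (amb ρ π U) fun s => u (π s) * Real.cos (X s + θ (π s)) :=
      hW.ig_bdd fun s => abs_mul_le_one (hu _) (Real.abs_cos_le_one _)
    have i2 : Ig (amb ρ π U) fun s => u (π s) * Real.cos (θ (π s)) :=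
      hW.ig_bdd fun s => abs_mul_le_one (hu _) (Real.abs_cos_le_one _)
    rw [← Ex_const_mul, ← Ex_sub i1 (i2.const_mul a)]
    refine (le_of_eq (Ex_congr fun s _ => by ring)).trans (k.trans ?_)
    have e2 : ε ^ 2 ≤ 1 := pow_le_one₀ hε.le hε1
    have : (a + ε ^ 2) ^ 2 + a ^ 2 - 2 * a * Ex (amb ρ π U) (fun s => Real.cos (X s)) ≤ 5 * ε ^ 2 := by
      have := mul_le_mul_of_nonneg_left h2 ha
      nlinarith [sq_nonneg ε, mul_le_mul_of_nonneg_left ha1 (sq_nonneg ε),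
        mul_le_mul_of_nonneg_left e2 (sq_nonneg ε)]
    have h3 : ((a + ε ^ 2) ^ 2 + a ^ 2 - 2 * a * Ex (amb ρ π U) fun s => Real.cos (X s)) / (2 * ε) ≤
        5 * ε / 2 := by
      rw [div_le_iff₀ (by positivity)]; nlinarith
    linarith
  refine abs_le.2 ⟨?_, key u hu⟩
  have := key (fun q => -u q) fun q => by rw [abs_neg]; exact hu q
  simp only [neg_mul, Ex_neg] at this
  linarith

/-! ## (R): the ring weight -/

variable {ι : Type} [Fintype ι] [DecidableEq ι]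

/-- hypotheses of (Q) for all combinations `∑ t i • X i`, `‖t‖ ≤ T` -/
structure QH (ρ : G → ℝ) (π : G →+ D) (U : D → ℝ) (X : ι → G →+ ℝ) (C : Matrix ι ι ℝ) (T ε : ℝ) :
    Prop where
  up : ∀ t : ι → ℝ, ‖t‖ ≤ T →
    Ph (fib ρ π 0) (∑ i, t i • X i) ≤ Real.exp (-(t ⬝ᵥ C *ᵥ t) / 2) + ε ^ 2
  lo : ∀ t : ι → ℝ, ‖t‖ ≤ T → Real.exp (-(t ⬝ᵥ C *ᵥ t) / 2) - ε ^ 2 ≤
    Ex (amb ρ π U) fun s => Real.cos ((∑ i, t i • X i) s)

/-- the cell averages -/
noncomputable def cY (π : G →+ D) (X : ι → G →+ ℝ) (a : D → ι → ℝ) (s : G) : ι → ℝ :=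
  fun i => X i s + a (π s) i

/-- `det (1 + B C)^{-1/2}` -/
noncomputable def c0 (B C : Matrix ι ι ℝ) : ℝ := (Real.sqrt (1 + B * C).det)⁻¹

variable {X : ι → G →+ ℝ} {B C : Matrix ι ι ℝ} {T ε K : ℝ}

theorem c0_pos (hB : B.PosSemidef) (hC : C.PosSemidef) : 0 < c0 B C :=
  inv_pos.2 (Real.sqrt_pos.2 (one_pos.trans_le (one_le_det_mul hB hC)))

theorem c0_le_one (hB : B.PosSemidef) (hC : C.PosSemidef) : c0 B C ≤ 1 :=
  inv_le_one_of_one_le₀ (Real.one_le_sqrt.2 (one_le_det_mul hB hC))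

theorem le_c0_sq (hB : B.PosSemidef) (hC : C.PosSemidef) (hK : (B * C).trace ≤ K) :
    Real.exp (-K) ≤ c0 B C ^ 2 := by
  have h1 := one_pos.trans_le (one_le_det_mul hB hC)
  rw [c0, inv_pow, Real.sq_sqrt h1.le, Real.exp_neg]
  exact inv_anti₀ h1 ((det_mul_le_exp hB hC).trans (Real.exp_le_exp.2 hK))

theorem Fb.r_lo [IsAddTorsionFree G] [Countable G] (h : Fb ρ π U) (hQ : QH ρ π U X C T ε) (hB : B.PosSemidef)
    (hC : C.PosSemidef) (hK : ∀ i, B i i ≤ K) (hε : 0 < ε) (hε1 : ε ≤ 1) (a : D → ι → ℝ) (u : D → ℝ)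
    (hu : ∀ q, |u q| ≤ 1) :
    |Ex (amb ρ π U) (fun s => u (π s) * gw B (cY π X a s)) -
      c0 B C * Ex (amb ρ π U) fun s => u (π s) * gw (tl B C) (a (π s))| ≤
      3 * ε + 2 * Real.exp (-T) * (1 + 2 * Fintype.card ι * Real.exp (K / 2)) := by
  refine hs_le_Ex h.wt (cY π X a) (fun s => a (π s)) hB hC hK (fun s => hu _) (by positivity)
    fun t ht => ?_
  have e : ∀ s, t ⬝ᵥ cY π X a s = (∑ i, t i • X i) s + t ⬝ᵥ a (π s) := fun s => by
    simp [cY, dotProduct, mul_add, sum_add_distrib]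
  simp only [e]
  exact h.q_dual _ (Real.exp_pos _).le (Real.exp_le_one_iff.2 (by linarith [psd_quad hC t])) hε hε1
    (hQ.up t ht) (hQ.lo t ht) u (fun q => t ⬝ᵥ a q) hu

/-- **(R)**, dual form -/
theorem Fb.r_dual [IsAddTorsionFree G] [Countable G] (h : Fb ρ π U) (hQ : QH ρ π U X C T ε) (hB : B.PosSemidef)
    (hC : C.PosSemidef) (hK0 : 0 ≤ K) (hK : ∀ i, B i i ≤ K) (hε : 0 < ε) (hε1 : ε ≤ 1) {η χ K₂ : ℝ}
    (hη : 3 * ε + 2 * Real.exp (-T) * (1 + 2 * Fintype.card ι * Real.exp K) ≤ c0 B C ^ 2 * η)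
    (hη1 : η ≤ 1) (hK₂ : (B * C * (B * C)).trace ≤ K₂) (hK₂0 : 0 ≤ K₂) {H : G → ℝ}
    (H0 : ∀ s, 0 ≤ H s) (H1 : ∀ s, H s ≤ 1) (hχ : 0 ≤ χ)
    (hH : Ex (amb ρ π U) (fun s => H s ^ 2) ≤ (1 + χ ^ 2) * Ex (amb ρ π U) H ^ 2)
    (a : D → ι → ℝ) (u : D → ℝ) (hu : ∀ q, |u q| ≤ 1) :
    |Ex (amb ρ π U) (fun s => u (π s) * (gw B (cY π X a s) * H s)) -
      Ex (amb ρ π U) H * c0 B C * Ex (amb ρ π U) fun s => u (π s) * gw (tl B C) (a (π s))| ≤
      Ex (amb ρ π U) H * c0 B C * (η + 2 * χ * Real.exp (K₂ / 4)) := by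
  have hW := h.wt
  set ϑ := Ex (amb ρ π U) H with hϑ
  have ϑ0 : 0 ≤ ϑ := Ex_nonneg hW.nonneg fun s _ => H0 s
  have cp := c0_pos hB hC
  have c1 := c0_le_one hB hC
  have n0 : (0 : ℝ) ≤ Fintype.card ι := Nat.cast_nonneg _
  have η0 : 0 ≤ η := by
    by_contra hn
    have : c0 B C ^ 2 * η < 0 := mul_neg_of_pos_of_neg (by positivity) (not_le.1 hn)
    have : 0 ≤ 3 * ε + 2 * Real.exp (-T) * (1 + 2 * Fintype.card ι * Real.exp K) := by positivity
    linarith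
  have h1 := (h.r_lo hQ hB hC hK hε hε1 a u hu).trans (show _ ≤ c0 B C * η from by
    have : Real.exp (K / 2) ≤ Real.exp K := Real.exp_le_exp.2 (by linarith)
    have h2 : 2 * Real.exp (-T) * (1 + 2 * Fintype.card ι * Real.exp (K / 2)) ≤
        2 * Real.exp (-T) * (1 + 2 * Fintype.card ι * Real.exp K) := by gcongr
    have h3 : c0 B C ^ 2 * η ≤ c0 B C * η := by
      refine mul_le_mul_of_nonneg_right ?_ η0; nlinarith
    linarith)
  have hB2 : ((2 : ℝ) • B).PosSemidef := hB.smul (by norm_num)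
  have h2 := h.r_lo (K := 2 * K) hQ hB2 hC (fun i => by
    rw [Matrix.smul_apply, smul_eq_mul]; linarith [hK i]) hε hε1 a (fun _ => 1) (by simp)
  simp only [one_mul, show 2 * K / 2 = K by ring] at h2
  have g1 : ∀ s, |gw B (cY π X a s)| ≤ 1 := fun s => by
    rw [abs_of_pos (gw_pos _ _)]; exact gw_le_one hB _
  have h3 : Ex (amb ρ π U) (fun s => gw (tl ((2 : ℝ) • B) C) (a (π s))) ≤ 1 :=
    hW.ex_le (hW.ig_bdd (C := 1) fun s => by
      rw [abs_of_pos (gw_pos _ _)]; exact gw_le_one (tl_psd hB2 hC) _)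
      fun s _ => gw_le_one (tl_psd hB2 hC) _
  have h4 : Ex (amb ρ π U) (fun s => gw ((2 : ℝ) • B) (cY π X a s)) ≤
      c0 B C ^ 2 * (2 * Real.exp (K₂ / 2)) := by
    have h5 := det_two hB hC
    have h6 : Real.exp ((B * C * (B * C)).trace / 2) ≤ Real.exp (K₂ / 2) :=
      Real.exp_le_exp.2 (by linarith)
    have h7 : 1 ≤ Real.exp (K₂ / 2) := Real.one_le_exp (by linarith)
    have h8 := mul_le_of_le_one_right (c0_pos hB2 hC).le h3
    have h9 : c0 ((2 : ℝ) • B) C ≤ c0 B C ^ 2 * Real.exp (K₂ / 2) :=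
      h5.trans (mul_le_mul_of_nonneg_left h6 (sq_nonneg _))
    have h10 : c0 B C ^ 2 * η ≤ c0 B C ^ 2 * Real.exp (K₂ / 2) :=
      mul_le_mul_of_nonneg_left (hη1.trans h7) (sq_nonneg _)
    linarith [(abs_le.1 h2).2]
  have bH : ∀ s, |H s - ϑ| ≤ 1 + ϑ := fun s =>
    (abs_sub _ _).trans (by rw [abs_of_nonneg (H0 s), abs_of_nonneg ϑ0]; linarith [H1 s])
  have iH : Ig (amb ρ π U) H := hW.ig_bdd (C := 1) fun s => by rw [abs_of_nonneg (H0 s)]; exact H1 s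
  have iH2 : Ig (amb ρ π U) fun s => H s ^ 2 := hW.ig_bdd (C := 1) fun s => by
    rw [abs_of_nonneg (sq_nonneg _)]; exact pow_le_one₀ (H0 s) (H1 s)
  have ug : ∀ s, |u (π s) * gw B (cY π X a s)| ≤ 1 := fun s => abs_mul_le_one (hu _) (g1 s)
  have i1 : Ig (amb ρ π U) fun s => (u (π s) * gw B (cY π X a s)) ^ 2 := hW.ig_bdd (C := 1) fun s => by
    rw [abs_pow]; exact pow_le_one₀ (abs_nonneg _) (ug s)
  have i2 : Ig (amb ρ π U) fun s => (H s - ϑ) ^ 2 := hW.ig_bdd (C := (1 + ϑ) ^ 2) fun s => by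
    rw [abs_pow]; exact pow_le_pow_left₀ (abs_nonneg _) (bH s) 2
  have cs := Ex_mul_sq_le hW.nonneg i1 i2
  have v1 : Ex (amb ρ π U) (fun s => (H s - ϑ) ^ 2) ≤ (χ * ϑ) ^ 2 := by
    have : Ex (amb ρ π U) (fun s => (H s - ϑ) ^ 2) =
        Ex (amb ρ π U) (fun s => H s ^ 2) - 2 * ϑ * ϑ + ϑ ^ 2 := by
      rw [hϑ, ← Ex_const_mul _ H, ← Ex_sub iH2 (iH.const_mul _),
        ← hW.ex_add_const (iH2.sub (iH.const_mul _))]
      exact Ex_congr fun s _ => by ring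
    nlinarith
  have v2 : Ex (amb ρ π U) (fun s => (u (π s) * gw B (cY π X a s)) ^ 2) ≤
      (c0 B C * (2 * Real.exp (K₂ / 4))) ^ 2 := by
    have e : Real.exp (K₂ / 4) ^ 2 = Real.exp (K₂ / 2) := by
      rw [← Real.exp_nat_mul]; congr 1; push_cast; ring
    refine (Ex_mono hW.nonneg i1 (hW.ig_bdd (C := 1) fun s => by
      rw [abs_of_pos (gw_pos _ _)]; exact gw_le_one hB2 _) fun s => ?_).trans (h4.trans ?_)
    · rw [two_smul, gw_add, mul_pow, ← sq]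
      refine mul_le_of_le_one_left (sq_nonneg _) ?_
      rw [← sq_abs]; exact pow_le_one₀ (abs_nonneg _) (hu _)
    · rw [mul_pow, mul_pow, e]
      exact mul_le_mul_of_nonneg_left (by linarith [Real.exp_pos (K₂ / 2)]) (sq_nonneg _)
  have h5 : |Ex (amb ρ π U) fun s => u (π s) * gw B (cY π X a s) * (H s - ϑ)| ≤
      c0 B C * (2 * Real.exp (K₂ / 4)) * (χ * ϑ) := by
    refine abs_le_of_sq_le_sq' ?_ (by positivity) |> fun h => abs_le.2 h
    refine cs.trans ?_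
    rw [mul_pow (c0 B C * _)]
    exact mul_le_mul v2 v1 (Ex_nonneg hW.nonneg fun s _ => sq_nonneg _) (sq_nonneg _)
  have i3 : Ig (amb ρ π U) fun s => u (π s) * gw B (cY π X a s) := hW.ig_bdd ug
  have e : Ex (amb ρ π U) (fun s => u (π s) * (gw B (cY π X a s) * H s)) =
      Ex (amb ρ π U) (fun s => u (π s) * gw B (cY π X a s) * (H s - ϑ)) +
        ϑ * Ex (amb ρ π U) (fun s => u (π s) * gw B (cY π X a s)) := by
    rw [← Ex_const_mul, ← Ex_add (i3.mul_bdd hW.nonneg bH) (i3.const_mul _)]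
    exact Ex_congr fun s _ => by ring
  have h6 := mul_le_mul_of_nonneg_left h1 ϑ0
  rw [← abs_of_nonneg ϑ0, ← abs_mul, abs_of_nonneg ϑ0] at h6
  rw [e]
  refine (le_of_eq (congrArg _ (by ring))).trans ((abs_add_le _ _).trans ((add_le_add h5 h6).trans_eq ?_))
  ring

/-- the constants `T`, `ε` of (Q) that make (R) accurate to `η` -/
theorem exists_TE (N : ℕ) (K : ℝ) {η : ℝ} (hη : 0 < η) : ∃ T ε : ℝ, 0 < T ∧ 0 < ε ∧ ε ≤ 1 ∧
    3 * ε + 2 * Real.exp (-T) * (1 + 2 * N * Real.exp K) ≤ Real.exp (-K) * η := by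
  set b := Real.exp (-K) * η with hb
  have b0 : 0 < b := by positivity
  set M := 2 * (1 + 2 * N * Real.exp K) with hM
  have M0 : 0 < M := by positivity
  refine ⟨2 * M / b, min 1 (b / 6), by positivity, by positivity, min_le_left _ _, ?_⟩
  have h1 : Real.exp (-(2 * M / b)) * (2 * M / b) ≤ 1 := by
    rw [Real.exp_neg, inv_mul_le_iff₀ (Real.exp_pos _), mul_one]
    linarith [Real.add_one_le_exp (2 * M / b)]
  have h2 : Real.exp (-(2 * M / b)) * M ≤ b / 2 := by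
    rw [mul_div_assoc', div_le_one b0] at h1; linarith
  have h3 := min_le_right 1 (b / 6)
  have e : 2 * Real.exp (-(2 * M / b)) * (1 + 2 * N * Real.exp K) = Real.exp (-(2 * M / b)) * M := by
    rw [hM]; ring
  linarith

/-! ## (K0): from the dual form to `L¹` on the data -/

/-- the marginal on the data (`= push ρ π`) -/
noncomputable def mu (ρ : G → ℝ) (π : G →+ D) (q : D) : ℝ := Zs (fib ρ π q)

/-- the marginal of `ρ * e` on the data -/
noncomputable def mum (ρ : G → ℝ) (π : G →+ D) (e : G → ℝ) (q : D) : ℝ := ∑' s, fib ρ π q s * e s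

theorem mu_eq_push (ρ : G → ℝ) (π : G →+ D) : mu ρ π = push ρ π := rfl

theorem mum_eq_push (ρ : G → ℝ) (π : G →+ D) (e : G → ℝ) :
    mum ρ π e = push (fun s => ρ s * e s) π :=
  funext fun q => tsum_congr fun s => by simp only [fib]; ring

theorem mu_nonneg (h : ∀ s, 0 ≤ ρ s) (q : D) : 0 ≤ mu ρ π q := Zs_nonneg (fib_nonneg h q)

theorem mum_nonneg (h : ∀ s, 0 ≤ ρ s) {e : G → ℝ} (he : ∀ s, 0 ≤ e s) (q : D) : 0 ≤ mum ρ π e q :=
  tsum_nonneg fun s => mul_nonneg (fib_nonneg h q s) (he s)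

theorem mum_mul (e : G → ℝ) (u : D → ℝ) (q : D) :
    mum ρ π (fun s => u (π s) * e s) q = u q * mum ρ π e q := by
  rw [mum, mum, ← tsum_mul_left]
  refine tsum_congr fun s => ?_
  by_cases hs : π s = q
  · rw [hs]; ring
  · simp [fib, ind_neg hs]

theorem mum_one (q : D) : mum ρ π (fun _ => 1) q = mu ρ π q := by simp [mum, mu, Zs]

theorem hasSum_amb {F : G → ℝ} (hF : Ig (amb ρ π U) F) :
    HasSum (fun q => U q * mum ρ π F q) (∑' s, amb ρ π U s * F s) :=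
  hs_congr (hasSum_push hF π) (fun q => (push_amb F q).symm) rfl

theorem Fb.hasSum_mu (h : Fb ρ π U) : HasSum (fun q => U q * mu ρ π q) (Zs (amb ρ π U)) :=
  hs_congr (hasSum_amb (h.wt.ig_const 1)) (fun q => by rw [mum_one]) (by simp [Zs])

theorem mum_shift {ω : G} (hω : ∀ s, ρ (s + ω) = ρ s) (e : G → ℝ) (q : D) :
    mum ρ π e (q + π ω) = mum ρ π (fun s => e (s + ω)) q := by
  rw [mum, mum, ← (Equiv.addRight ω).tsum_eq]
  exact tsum_congr fun s => by simp [fib, hω]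

theorem mu_shift {ω : G} (hω : ∀ s, ρ (s + ω) = ρ s) (q : D) : mu ρ π (q + π ω) = mu ρ π q := by
  rw [← mum_one, mum_shift hω, mum_one]

theorem Fb.l1_of_dual (h : Fb ρ π U) {e : G → ℝ} {r : D → ℝ} {c b : ℝ} (he : ∀ s, |e s| ≤ 1)
    (hr : ∀ q, |r q| ≤ 1)
    (H : ∀ u : D → ℝ, (∀ q, |u q| ≤ 1) → |Ex (amb ρ π U) (fun s => u (π s) * e s) -
      c * Ex (amb ρ π U) fun s => u (π s) * r (π s)| ≤ b) :
    Summable (fun q => U q * |mum ρ π e q - c * (mu ρ π q * r q)|) ∧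
      ∑' q, U q * |mum ρ π e q - c * (mu ρ π q * r q)| ≤ Zs (amb ρ π U) * b := by
  have hW := h.wt
  let u : D → ℝ := fun q => if 0 ≤ mum ρ π e q - c * (mu ρ π q * r q) then 1 else -1
  have hu : ∀ q, |u q| ≤ 1 := fun q => by simp only [u]; split_ifs <;> simp
  have i1 : Ig (amb ρ π U) fun s => u (π s) * e s := hW.ig_bdd fun s => abs_mul_le_one (hu _) (he _)
  have i2 : Ig (amb ρ π U) fun s => u (π s) * r (π s) := hW.ig_bdd fun s => abs_mul_le_one (hu _) (hr _)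
  have k := hs_congr ((hasSum_amb i1).sub ((hasSum_amb i2).mul_left c))
    (g := fun q => U q * |mum ρ π e q - c * (mu ρ π q * r q)|) (fun q => by
      have e2 : mum ρ π (fun s => u (π s) * r (π s)) q = u q * r q * mu ρ π q := by
        rw [← mum_one, ← mum_mul (fun _ => 1) (fun q => u q * r q)]; simp
      rw [mum_mul, e2]
      simp only [u]
      split_ifs with hq
      · rw [abs_of_nonneg hq]; ring
      · rw [abs_of_neg (not_le.1 hq)]; ring) rfl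
  refine ⟨k.summable, ?_⟩
  rw [k.tsum_eq, hW.tsum_eq, hW.tsum_eq, mul_left_comm, ← mul_sub]
  exact mul_le_mul_of_nonneg_left ((le_abs_self _).trans (H u hu)) hW.pos.le

/-- the shifts of `U` by the elements of `Ω` cover the set `𝒟` of data -/
def Cov (π : G →+ D) (U : D → ℝ) (Ω : Finset G) (𝒟 : D → Prop) : Prop :=
  ∀ q, 𝒟 q → 1 ≤ ∑ ω ∈ Ω, U (q - π ω)

theorem cov_sum {Ω : Finset G} {𝒟 : D → Prop} (hU : ∀ q, 0 ≤ U q) (hc : Cov π U Ω 𝒟) {f : D → ℝ}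
    (f0 : ∀ q, 0 ≤ f q) {b : ℝ} (H : ∀ ω ∈ Ω, Summable (fun q => U q * f (q + π ω)) ∧
      ∑' q, U q * f (q + π ω) ≤ b) :
    Summable (fun q => ind (𝒟 q) * f q) ∧ ∑' q, ind (𝒟 q) * f q ≤ Ω.card * b := by
  have s1 : ∀ ω ∈ Ω, HasSum (fun q => U (q - π ω) * f q) (∑' q, U q * f (q + π ω)) := fun ω hω => by
    rw [← (Equiv.addRight (π ω)).hasSum_iff]
    exact hs_congr (H ω hω).1.hasSum (fun q => by simp) rfl
  have s2 := hasSum_sum s1
  have le : ∀ q, ind (𝒟 q) * f q ≤ ∑ ω ∈ Ω, U (q - π ω) * f q := fun q => by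
    rw [← sum_mul]
    refine mul_le_mul_of_nonneg_right ?_ (f0 q)
    by_cases hq : 𝒟 q
    · rw [ind_pos hq]; exact hc q hq
    · rw [ind_neg hq]; exact sum_nonneg fun ω _ => hU _
  have s3 : Summable fun q => ind (𝒟 q) * f q :=
    Summable.of_nonneg_of_le (fun q => mul_nonneg (ind_nonneg _) (f0 q)) le s2.summable
  refine ⟨s3, (hasSum_le le s3.hasSum s2).trans ?_⟩
  rw [← nsmul_eq_mul]
  exact sum_le_card_nsmul _ _ _ fun ω hω => (H ω hω).2

/-- `ω` is a zero mode -/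
structure Sh (ρ : G → ℝ) (X : ι → G →+ ℝ) (H : G → ℝ) (ω : G) : Prop where
  wt : ∀ s, ρ (s + ω) = ρ s
  cell : ∀ i, X i ω = 0
  hi : ∀ s, H (s + ω) = H s

/-- the conclusion of (R) with accuracy `b`, for every choice of the harmonic parts `a` -/
def RD (ρ : G → ℝ) (π : G →+ D) (U : D → ℝ) (X : ι → G →+ ℝ) (B C : Matrix ι ι ℝ) (H : G → ℝ)
    (b : ℝ) : Prop :=
  ∀ (a : D → ι → ℝ) (u : D → ℝ), (∀ q, |u q| ≤ 1) →
    |Ex (amb ρ π U) (fun s => u (π s) * (gw B (cY π X a s) * H s)) -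
      Ex (amb ρ π U) H * c0 B C * Ex (amb ρ π U) fun s => u (π s) * gw (tl B C) (a (π s))| ≤
      Ex (amb ρ π U) H * c0 B C * b

variable {H : G → ℝ} {b : ℝ}

/-- (R) in `L¹` on a set of data covered by finitely many levels -/
theorem Fb.r_l1 (h : Fb ρ π U) (hB : B.PosSemidef) (hC : C.PosSemidef) (H0 : ∀ s, 0 ≤ H s)
    (H1 : ∀ s, H s ≤ 1) (hR : RD ρ π U X B C H b) {Ω : Finset G} {𝒟 : D → Prop}
    (hΩ : ∀ ω ∈ Ω, Sh ρ X H ω) (hc : Cov π U Ω 𝒟) (a : D → ι → ℝ) :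
    Summable (fun q => ind (𝒟 q) * |mum ρ π (fun s => gw B (cY π X a s) * H s) q -
      Ex (amb ρ π U) H * c0 B C * (mu ρ π q * gw (tl B C) (a q))|) ∧
    ∑' q, ind (𝒟 q) * |mum ρ π (fun s => gw B (cY π X a s) * H s) q -
      Ex (amb ρ π U) H * c0 B C * (mu ρ π q * gw (tl B C) (a q))| ≤
      Ω.card * (Zs (amb ρ π U) * (Ex (amb ρ π U) H * c0 B C * b)) := by
  refine cov_sum h.U0 hc (fun q => abs_nonneg _) fun ω hω => ?_
  have e : ∀ s, cY π X a (s + ω) = cY π X (fun q => a (q + π ω)) s := fun s =>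
    funext fun i => by simp [cY, (hΩ ω hω).cell i]
  simp only [mum_shift (hΩ ω hω).wt, mu_shift (hΩ ω hω).wt, (hΩ ω hω).hi, e]
  refine h.l1_of_dual (r := fun q => gw (tl B C) (a (q + π ω))) (fun s => abs_mul_le_one ?_ ?_)
    (fun q => ?_) (hR _)
  · rw [abs_of_pos (gw_pos _ _)]; exact gw_le_one hB _
  · rw [abs_of_nonneg (H0 s)]; exact H1 s
  · rw [abs_of_pos (gw_pos _ _)]; exact gw_le_one (tl_psd hB hC) _

theorem l1_of_minor {α : Type*} {m p : α → ℝ} {g : ℝ} (hm : HasSum m 1) (hp : HasSum p 1)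
    (m0 : ∀ a, 0 ≤ m a) (hg : 0 ≤ g) (h : ∀ a, (1 - g) * m a ≤ p a) :
    Summable (fun a => |m a - p a|) ∧ ∑' a, |m a - p a| ≤ 2 * g := by
  have s := (hm.summable.sub hp.summable).abs
  refine ⟨s, (hasSum_le (fun a => ?_) s.hasSum
    ((hp.sub (hm.mul_left (1 - g))).add (hm.mul_left g))).trans_eq (by ring)⟩
  have := mul_nonneg hg (m0 a)
  have := h a
  rw [abs_le]; constructor <;> nlinarith

/-- **(K0)**: on a set of data covered by finitely many levels, `μ e^{-B/2}` is close in `L¹` to a multiple of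
any probability weight `p` that dominates the data law of the massive model -/
theorem Fb.k0 (h : Fb ρ π U) (hB : B.PosSemidef) (hC : C.PosSemidef) (H0 : ∀ s, 0 < H s)
    (H1 : ∀ s, H s ≤ 1) (hR : RD ρ π U X B C H b) (hb1 : b ≤ 1) (a : D → ι → ℝ)
    (hm : Wt fun s => ρ s * (gw B (cY π X a s) * H s)) {p : D → ℝ} (hp : HasSum p 1) {g : ℝ}
    (hg : 0 ≤ g) (hF : ∀ q, (1 - g) * (mum ρ π (fun s => gw B (cY π X a s) * H s) q /
      Zs fun s => ρ s * (gw B (cY π X a s) * H s)) ≤ p q)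
    {Ω₀ Ω : Finset G} {𝒟₀ 𝒟 : D → Prop} (hΩ₀ : ∀ ω ∈ Ω₀, Sh ρ X H ω) (hc₀ : Cov π U Ω₀ 𝒟₀)
    (h₀ : 1 / 2 ≤ Pr (fun s => ρ s * (gw B (cY π X a s) * H s)) fun s => 𝒟₀ (π s))
    (hΩ : ∀ ω ∈ Ω, Sh ρ X H ω) (hc : Cov π U Ω 𝒟) :
    ∃ lam : ℝ, 0 ≤ lam ∧ lam ≤ 4 * Ω₀.card ∧
      Summable (fun q => ind (𝒟 q) *
        |mu ρ π q / Zs (amb ρ π U) * gw (tl B C) (a q) - lam * p q|) ∧
      ∑' q, ind (𝒟 q) * |mu ρ π q / Zs (amb ρ π U) * gw (tl B C) (a q) - lam * p q| ≤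
        Ω.card * b + 8 * Ω₀.card * g := by
  have hW := h.wt
  set e : G → ℝ := fun s => gw B (cY π X a s) * H s with he
  set Zm := Zs fun s => ρ s * e s with hZm
  set Z := Zs (amb ρ π U) with hZ
  have iH : Ig (amb ρ π U) H :=
    hW.ig_bdd (C := 1) fun s => by rw [abs_of_pos (H0 s)]; exact H1 s
  have c1 : 0 < Ex (amb ρ π U) H * c0 B C := mul_pos (hW.ex_pos' iH H0) (c0_pos hB hC)
  set c := Ex (amb ρ π U) H * c0 B C with hcd
  have Z0 : 0 < Z := hW.pos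
  have Zm0 : 0 < Zm := hm.pos
  have n0 := h.rsd.nonneg
  have e0 : ∀ s, 0 ≤ e s := fun s => mul_nonneg (gw_pos _ _).le (H0 s).le
  have sm : HasSum (mum ρ π e) Zm := by rw [mum_eq_push]; exact hasSum_push hm.summ π
  have g0 : ∀ q, 0 ≤ gw (tl B C) (a q) := fun q => (gw_pos _ _).le
  have g1 : ∀ q, gw (tl B C) (a q) ≤ 1 := fun q => gw_le_one (tl_psd hB hC) _
  obtain ⟨r1, r2⟩ := h.r_l1 hB hC (fun s => (H0 s).le) H1 hR hΩ₀ hc₀ a
  obtain ⟨r3, r4⟩ := h.r_l1 hB hC (fun s => (H0 s).le) H1 hR hΩ hc a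
  obtain ⟨m1, m2⟩ := cov_sum h.U0 hc₀ (f := mu ρ π) (mu_nonneg n0) (b := Z) fun ω hω => by
    simp only [mu_shift (hΩ₀ ω hω).wt]
    exact ⟨h.hasSum_mu.summable, h.hasSum_mu.tsum_eq.le⟩
  have lamle : Zm / (Z * c) ≤ 4 * Ω₀.card := by
    have p1 : Pr (fun s => ρ s * e s) (fun s => 𝒟₀ (π s)) * Zm = ∑' q, ind (𝒟₀ q) * mum ρ π e q := by
      rw [← hm.pr_push π 𝒟₀, Pr, mul_comm, hZm, ← Zs_push hm.summ π, ← (hm.push π).tsum_eq,
        mum_eq_push]
      exact tsum_congr fun q => mul_comm _ _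
    have p2 : ∑' q, ind (𝒟₀ q) * mum ρ π e q ≤ Ω₀.card * (Z * (c * b)) + c * (Ω₀.card * Z) := by
      refine (hasSum_le (fun q => ?_) (summable_ind_mul sm.summable _).hasSum
        (r1.hasSum.add (m1.hasSum.mul_left c))).trans
        (add_le_add r2 (mul_le_mul_of_nonneg_left m2 c1.le))
      rw [mul_left_comm c (ind (𝒟₀ q)), ← mul_add]
      refine mul_le_mul_of_nonneg_left ?_ (ind_nonneg _)
      have := mul_le_mul_of_nonneg_left (mul_le_of_le_one_right (mu_nonneg (π := π) n0 q) (g1 q)) c1.le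
      linarith [le_abs_self (mum ρ π e q - c * (mu ρ π q * gw (tl B C) (a q)))]
    rw [div_le_iff₀ (by positivity)]
    have p3 := mul_le_mul_of_nonneg_right h₀ Zm0.le
    have p4 : (Ω₀.card : ℝ) * (Z * (c * b)) ≤ Ω₀.card * (Z * (c * 1)) := by gcongr
    nlinarith
  have lam0 : 0 ≤ Zm / (Z * c) := by positivity
  obtain ⟨t1, t2⟩ := l1_of_minor (m := fun q => mum ρ π e q / Zm)
    (by simpa [Zm0.ne'] using sm.div_const Zm) hp (fun q => div_nonneg (mum_nonneg n0 e0 q) Zm0.le) hg hF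
  have le : ∀ q, ind (𝒟 q) * |mu ρ π q / Z * gw (tl B C) (a q) - Zm / (Z * c) * p q| ≤
      ind (𝒟 q) * |mum ρ π e q - c * (mu ρ π q * gw (tl B C) (a q))| / (Z * c) +
        Zm / (Z * c) * |mum ρ π e q / Zm - p q| := fun q => by
    have e1 : mu ρ π q / Z * gw (tl B C) (a q) - Zm / (Z * c) * p q =
        -((mum ρ π e q - c * (mu ρ π q * gw (tl B C) (a q))) / (Z * c)) +
          Zm / (Z * c) * (mum ρ π e q / Zm - p q) := by field_simp; ring
    rw [e1, mul_div_assoc]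
    refine (mul_le_mul_of_nonneg_left (abs_add_le _ _) (ind_nonneg _)).trans ?_
    rw [mul_add, abs_neg, abs_div, abs_of_pos (mul_pos Z0 c1), abs_mul, abs_of_nonneg lam0]
    exact add_le_add le_rfl (mul_le_of_le_one_left (by positivity) (ind_le_one _))
  have s4 := (r3.hasSum.div_const (Z * c)).add (t1.hasSum.mul_left (Zm / (Z * c)))
  have s5 := Summable.of_nonneg_of_le (fun q => mul_nonneg (ind_nonneg _) (abs_nonneg _)) le s4.summable
  refine ⟨_, lam0, lamle, s5, (hasSum_le le s5.hasSum s4).trans (add_le_add ?_ ?_)⟩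
  · rw [div_le_iff₀ (by positivity)]
    exact r4.trans_eq (by ring)
  · refine (mul_le_mul lamle t2 (tsum_nonneg fun _ => abs_nonneg _) (by positivity)).trans_eq ?_
    ring

/-- (Q) and the `χ²` bound give (R), soft form -/
theorem rd_soft (N : ℕ) {K η : ℝ} (hK : 0 ≤ K) (hη : 0 < η) (hη1 : η ≤ 1) :
    ∃ T ε : ℝ, 0 < T ∧ 0 < ε ∧ ε ≤ 1 ∧ ∀ (G D ι : Type) [AddCommGroup G] [AddCommGroup D]
      [IsAddTorsionFree G] [Countable G] [Fintype ι] [DecidableEq ι] (ρ : G → ℝ) (π : G →+ D) (U : D → ℝ)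
      (X : ι → G →+ ℝ) (B C : Matrix ι ι ℝ) (H : G → ℝ) (χ K₂ : ℝ), Fb ρ π U → QH ρ π U X C T ε →
      B.PosSemidef → C.PosSemidef → Fintype.card ι ≤ N → (∀ i, B i i ≤ K) → (B * C).trace ≤ K →
      (B * C * (B * C)).trace ≤ K₂ → 0 ≤ K₂ → (∀ s, 0 ≤ H s) → (∀ s, H s ≤ 1) → 0 ≤ χ →
      Ex (amb ρ π U) (fun s => H s ^ 2) ≤ (1 + χ ^ 2) * Ex (amb ρ π U) H ^ 2 →
      RD ρ π U X B C H (η + 2 * χ * Real.exp (K₂ / 4)) := by
  obtain ⟨T, ε, hT, hε, hε1, hb⟩ := exists_TE N K hη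
  refine ⟨T, ε, hT, hε, hε1, fun G D ι _ _ _ _ _ _ ρ π U X B C H χ K₂ h hQ hB hC hN hBK htr hK₂ hK₂0 H0 H1
    hχ hH a u hu => h.r_dual hQ hB hC hK hBK hε hε1 ?_ hη1 hK₂ hK₂0 H0 H1 hχ hH a u hu⟩
  have h1 : (Fintype.card ι : ℝ) ≤ N := by exact_mod_cast hN
  have h2 : 2 * Real.exp (-T) * (1 + 2 * Fintype.card ι * Real.exp K) ≤
      2 * Real.exp (-T) * (1 + 2 * N * Real.exp K) := by gcongr
  linarith [mul_le_mul_of_nonneg_right (le_c0_sq hB hC htr) hη.le]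

end Crest.Agent.T145.Kq75
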