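import Crest.Agent.T145.CE_56
import Crest.Agent.T145.GeoB_51

/-!
# Row 145: decoupling (D1) and the insertion calculus (N): definitions and target Props (helper78)

General part: any model `m`, any finite sets.  Lattice part: balls and square annuli.
-/

set_option autoImplicit false

namespace Crest.Agent.T145.Nc

open Finset

section gen
variable {V : Type*} [DecidableEq V]

/-- flat on `S` -/
def Fl (S : Finset V) (s : Cfg V) : Prop := ∀ x ∈ S, ∀ y ∈ S, s x = s y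

/-- the free model on `U` (edges of `m` inside `U`, no site weights), pinned on `S` -/
noncomputable def pn (m : Mdl V) (U S : Finset V) : Mdl V :=
  ⟨U \ S, inn U m.ed, m.w, fun _ _ => 1⟩

open Classical in
/-- a root of `U` -/
noncomputable def rs (U : Finset V) : Finset V := if h : U.Nonempty then {h.choose} else ∅

/-- the weight of the free (N) model on `U`, rooted somewhere -/
noncomputable def rW (m : Mdl V) (U : Finset V) : Cfg V → ℝ := (pn m U (rs U)).W 0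

/-- expectation in the free model on `U` -/
noncomputable def nE (m : Mdl V) (U : Finset V) (F : Cfg V → ℝ) : ℝ := Ex (rW m U) F

/-- the norm -/
noncomputable def nm (m : Mdl V) (U : Finset V) (F : Cfg V → ℝ) : ℝ := nE m U fun s => |F s|

/-- `m` with the set `N` and all edges meeting it removed -/
def hole (m : Mdl V) (N : Finset V) : Mdl V :=
  ⟨m.A \ N, m.ed.filter fun e => e.1 ∉ N ∧ e.2 ∉ N, m.w, m.site⟩

/-- free sites without site weights -/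
def Cl (m : Mdl V) (U : Finset V) : Prop := U ⊆ m.A ∧ ∀ x ∈ U, ∀ k, m.site x k = 1

/-- connected by the edges inside -/
def Cn (m : Mdl V) (U : Finset V) : Prop := ∀ x ∈ U, ∀ y ∈ U, Conn (inn U m.ed) x y

/-- the flat cross ratio `1 + g` of `K` and `S` in the free model on `U` -/
noncomputable def cr (m : Mdl V) (U K S : Finset V) : ℝ :=
  Pr ((pn m U S).W 0) (Fl K) / Pr (rW m U) (Fl K)

/-- `N` is a connected box whose rim `S` separates the clean set `N \ S` from the rest of `m` -/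
structure Box (m : Mdl V) (N S : Finset V) : Prop where
  cn : Cn m N
  sub : S ⊆ N
  ne : S.Nonempty
  cl : Cl m (N \ S)
  bd : m.bd (N \ S) ⊆ S

/-- a clean box `N` with rim `S`, surrounded by the annulus `U` with inner ring `K` and outer ring `T` -/
structure Cut (m : Mdl V) (N S U K T : Finset V) : Prop extends Box m N S where
  clN : Cl m N
  disj : Disjoint N U
  cnU : Cn m U
  clU : Cl m (U \ T)
  ksub : K ⊆ U
  kne : K.Nonempty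
  kbd : m.bd N ⊆ K
  bne : (m.bd N).Nonempty
  tsub : T ⊆ U
  tne : T.Nonempty
  tbd : m.bd (N ∪ U \ T) ⊆ T

/-- gluing weight of the box `N` given the outside -/
noncomputable def gl (m : Mdl V) (N : Finset V) (s : Cfg V) : ℝ := Zs ((m.loc N).W s)

/-- density of the law with the hole `N` with respect to the law without hole, read off `N ∪ U \ T` -/
noncomputable def hd (m : Mdl V) (N U T : Finset V) (s : Cfg V) : ℝ :=
  nE m U (gl m N) * Zs (((hole m N).loc (U \ T)).W s) / Zs ((m.loc (N ∪ U \ T)).W s)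

end gen

/-- monotonicity and symmetry of the cross ratio -/
def MonoCrStmt : Prop := ∀ (V : Type) [DecidableEq V] (m : Mdl V) (U K S : Finset V), m.Fm → Cn m U →
  K ⊆ U → S ⊆ U → K.Nonempty → S.Nonempty →
    1 ≤ cr m U K S ∧ cr m U K S = cr m U S K ∧ (∀ K', K' ⊆ K → cr m U K' S ≤ cr m U K S) ∧
    ∀ U' S', U ⊆ U' → Cn m U' → S' ⊆ U' → S'.Nonempty → Disjoint S' (U \ S) →
      (∀ x ∈ U', x ∈ m.bd (U \ S) → x ∈ S) → cr m U' K S' ≤ cr m U K S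

/-- (D1), product form -/
def D1Stmt : Prop := ∀ (V ι : Type) [DecidableEq V] (m : Mdl V) (I : Finset ι) (N C S : ι → Finset V)
  (F : ι → Cfg V → ℝ), m.Ctr → m.Anch → (∀ i ∈ I, ∀ j ∈ I, i ≠ j → Disjoint (N i) (N j)) →
    (∀ i ∈ I, Box m (N i) (S i) ∧ C i ⊆ N i ∧ DepG (C i) (F i) ∧ (∀ s, 0 ≤ F i s) ∧
      Ig (rW m (N i)) (F i)) →
    Ig (m.W 0) (fun s => ∏ i ∈ I, F i s) ∧
      Ex (m.W 0) (fun s => ∏ i ∈ I, F i s) ≤ ∏ i ∈ I, cr m (N i) (C i) (S i) * nE m (N i) (F i)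

/-- (D1) with the site weights kept in the boxes; observables of the heights -/
def D1mStmt : Prop := ∀ (V ι : Type) [DecidableEq V] (m : Mdl V) (I : Finset ι) (N C S : ι → Finset V)
  (F : ι → Cfg V → ℝ), m.Ctr → m.Anch → (∀ i ∈ I, ∀ j ∈ I, i ≠ j → Disjoint (N i) (N j)) →
    (∀ i ∈ I, N i ⊆ m.A ∧ ((m.keep (inn (N i) m.ed)).free (N i)).Anch ∧ S i ⊆ N i ∧
      m.bd (N i \ S i) ⊆ S i ∧ C i ⊆ N i ∧ Dep (C i) (F i) ∧ (∀ s, 0 ≤ F i s) ∧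
      Ig (((m.keep (inn (N i) m.ed)).free (N i)).W 0) (F i)) →
    Ig (m.W 0) (fun s => ∏ i ∈ I, F i s) ∧
      Ex (m.W 0) (fun s => ∏ i ∈ I, F i s) ≤ ∏ i ∈ I,
        Pr ((m.free (N i \ S i)).W 0) (fun s => ∀ x ∈ C i, s x = 0) /
          Pr (((m.keep (inn (N i) m.ed)).free (N i)).W 0) (fun s => ∀ x ∈ C i, s x = 0) *
          Ex (((m.keep (inn (N i) m.ed)).free (N i)).W 0) (F i)

/-- (D1) across one cut: an insertion inside, an observable outside -/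
def D1ioStmt : Prop := ∀ (V : Type) [DecidableEq V] (m : Mdl V) (N S U K T C : Finset V)
  (F G : Cfg V → ℝ), m.Ctr → m.Anch → Cut m N S U K T → C ⊆ N → DepG C F → (∀ s, 0 ≤ F s) →
    Ig (rW m N) F → Out (N ∪ U \ T) G → (∀ s, 0 ≤ G s) → Ig ((hole m N).W 0) G →
    Ig (m.W 0) (fun s => F s * G s) ∧ Ex (m.W 0) (fun s => F s * G s) ≤
      cr m N C S * cr m U K T * nE m N F * Ex ((hole m N).W 0) G

/-- the hole density: transfer identity (any boundary condition and seam away from the cut) and its constant -/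
def HdStmt : Prop := ∀ (V : Type) [DecidableEq V] (m : Mdl V) (N S U K T : Finset V),
  m.Fm → Cut m N S U K T →
    (∀ s, 0 < hd m N U T s) ∧ DepG T (hd m N U T) ∧ 0 < nE m U (gl m N) ∧
    (∀ (η : Cfg V) (σ : V × V → ℤ) (Φ : Cfg V → ℝ), (∀ e ∈ m.edM (N ∪ U \ T), σ e = 0) →
      Out (N ∪ U \ T) Φ → Ig ((hole m N).Ws η σ) Φ →
      HasSum (fun s => m.Ws η σ s * (Φ s * hd m N U T s))
        (nE m U (gl m N) * ∑' s, (hole m N).Ws η σ s * Φ s)) ∧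
    (m.Ctr → m.Anch → ∃ κ : ℝ, 1 / cr m U K T ≤ κ ∧ κ ≤ 1 ∧ ∀ Φ : Cfg V → ℝ, Out (N ∪ U \ T) Φ →
      Ig ((hole m N).W 0) Φ → Ig (m.W 0) (fun s => Φ s * hd m N U T s) ∧
        Ex (m.W 0) (fun s => Φ s * hd m N U T s) = κ * Ex ((hole m N).W 0) Φ)

/-- (N)(b), pointwise: a flowed insertion is dominated by the hole density -/
def NbStmt : Prop := ∀ (V : Type) [DecidableEq V] (m : Mdl V) (N S U K T C : Finset V)
  (F : Cfg V → ℝ), m.Fm → Cut m N S U K T → C ⊆ N → DepG C F → Ig (rW m N) F → ∀ s,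
    Ig ((m.free (N ∪ U \ T)).W s) F ∧
      m.cE (N ∪ U \ T) (fun t => |F t|) s ≤ cr m N C S * cr m U K T * nm m N F * hd m N U T s

/-- (N)(c): the mean hardly depends on the ambient model; mean zero insertions contract -/
def NcStmt : Prop := ∀ (V : Type) [DecidableEq V] (m : Mdl V) (N S U K T C N' S' : Finset V)
  (F : Cfg V → ℝ) (g : ℝ), m.Ctr → m.Anch → Cut m N S U K T → C ⊆ N → DepG C F → Ig (rW m N) F →
    Box m N' S' → N ∪ U ⊆ N' → Disjoint (N ∪ U \ T) S' → g ≤ 1 → cr m N C S ≤ 1 + g →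
    cr m U K T ≤ 1 + g → cr m N' T S' ≤ 1 + g →
    |Ex (m.W 0) F - nE m N' F| ≤ 16 * g * nm m N F ∧
    ∀ U' K' T', Cut m N' S' U' K' T' → cr m U' K' T' ≤ 1 + g →
      Ex (m.W 0) (fun s => |m.cE (N' ∪ U' \ T') F s|) ≤ 4 * |nE m N' F| + 50 * g * nm m N F

/-- iteration of (N)(c) along a chain of cuts -/
def GDecStmt : Prop := ∀ (V : Type) [DecidableEq V] (m : Mdl V) (N S U K T : ℕ → Finset V)
  (C : Finset V) (F : Cfg V → ℝ) (g : ℝ) (j : ℕ), m.Ctr → m.Anch → g ≤ 1 →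
    (∀ k ≤ 2 * j + 1, Cut m (N k) (S k) (U k) (K k) (T k) ∧ cr m (U k) (K k) (T k) ≤ 1 + g ∧
      N k ∪ U k ⊆ N (k + 1) ∧ Disjoint (N k ∪ U k \ T k) (S (k + 1)) ∧
      cr m (N (k + 1)) (T k) (S (k + 1)) ≤ 1 + g) →
    Box m (N (2 * j + 2)) (S (2 * j + 2)) → C ⊆ N 0 → cr m (N 0) C (S 0) ≤ 1 + g → DepG C F →
    Ig (rW m (N 0)) F → Ex (m.W 0) F = 0 →
    DepG (T (2 * j + 1)) (m.cE (N (2 * j + 1) ∪ U (2 * j + 1) \ T (2 * j + 1)) F) ∧
    Ig (rW m (N (2 * j + 2))) (m.cE (N (2 * j + 1) ∪ U (2 * j + 1) \ T (2 * j + 1)) F) ∧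
    nm m (N (2 * j + 2)) (m.cE (N (2 * j + 1) ∪ U (2 * j + 1) \ T (2 * j + 1)) F) ≤
      (114 * g) ^ (j + 1) * nm m (N 0) F

/-- a bound on the cross ratio by a crossing probability (floating level) -/
def CrNdStmt : Prop := ∀ (V : Type) [DecidableEq V] [Countable V] (m : Mdl V) (U K S : Finset V)
  (φ : V → ℝ) (p : ℝ), m.Fm → Cn m U → K ⊆ U → S ⊆ U → (∀ x, x ∉ S → φ x = 0) → ∑ x ∈ S, φ x = 1 →
    p < 1 → Pr (fun q => ind (round (pr φ q.1) = 0) * (pn m U ∅).J 0 0 q) (fun q => Cross S K q.2) ≤ p →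
    cr m U K S ≤ 1 / (1 - p)

/-! ## the lattice -/

/-- the square annulus `r < |x - z| ≤ R` -/
noncomputable def an (z : Pt) (r R : ℕ) : Finset Pt := bl z R \ bl z r

/-- the cross ratio of the free annulus -/
noncomputable def gam (Λ : Lat) (r R : ℕ) : ℝ :=
  cr (Λ.N (an 0 r R)) (an 0 r R) (an 0 r (r + Λ.rg)) (an 0 (R - Λ.rg) R)

/-- `m` is a centred model that is the lattice model on `U` -/
structure Amb (Λ : Lat) (m : Mdl Pt) (U : Finset Pt) : Prop where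
  ctr : m.Ctr
  anch : m.Anch
  sub : U ⊆ m.A
  near : Λ.Near m U

/-- expectation in the free box of radius `R` -/
noncomputable def EN (Λ : Lat) (z : Pt) (R : ℕ) (F : Cfg Pt → ℝ) : ℝ := Ex ((Λ.Nr (bl z R) z).W 0) F

/-- the norm at N-radius `R` -/
noncomputable def Nm (Λ : Lat) (z : Pt) (R : ℕ) (F : Cfg Pt → ℝ) : ℝ := EN Λ z R fun s => |F s|

/-- integrable in the free box of radius `R` -/
def In (Λ : Lat) (z : Pt) (R : ℕ) (F : Cfg Pt → ℝ) : Prop := Ig ((Λ.Nr (bl z R) z).W 0) F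

/-- the flow step: conditional expectation given the outside of the ball of radius `R` -/
noncomputable def St (Λ : Lat) (z : Pt) (R : ℕ) (F : Cfg Pt → ℝ) : Cfg Pt → ℝ :=
  fun s => Ex ((Λ.D (bl z R)).W s) F

/-- the hole density for the hole of radius `c` read on the collar of the ball of radius `R` -/
noncomputable def Hd (Λ : Lat) (z : Pt) (c R : ℕ) : Cfg Pt → ℝ :=
  hd (Λ.N (bl z (R + Λ.rg))) (bl z c) (an z c (R + Λ.rg)) (an z R (R + Λ.rg))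

/-- expectation in the free annulus (doubly cut model), for functions of the gradients -/
noncomputable def EA (Λ : Lat) (z : Pt) (c R : ℕ) (F : Cfg Pt → ℝ) : ℝ :=
  nE (Λ.N (an z c R)) (an z c R) F

/-- all annuli of ratio `W` between the scales `r₀` and `L` have cross ratio at most `1 + g` -/
def Gd (Λ : Lat) (g : ℝ) (W r₀ L : ℕ) : Prop :=
  2 ≤ W ∧ 2 * Λ.rg ≤ r₀ ∧ ∀ r, r₀ ≤ r → r ≤ L → gam Λ r (W * r) ≤ 1 + g

/-- geometry: balls and annuli form cuts in every ambient model; all cross ratios are bounded by `gam` -/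
def LgeoStmt : Prop := ∀ Λ : Lat, Λ.Ok →
  (∀ r R r' R', r' ≤ r → R ≤ R' → r + 2 * Λ.rg ≤ R → 1 ≤ gam Λ r' R' ∧ gam Λ r' R' ≤ gam Λ r R) ∧
  ∀ (m : Mdl Pt) (z : Pt),
    (∀ c, Λ.rg ≤ c → Amb Λ m (bl z c) → Box m (bl z c) (an z (c - Λ.rg) c) ∧
      rW m (bl z c) = rW (Λ.N (bl z c)) (bl z c) ∧
      ∀ r, r + 2 * Λ.rg ≤ c → cr m (bl z c) (bl z (r + Λ.rg)) (an z (c - Λ.rg) c) ≤ gam Λ r c) ∧
    ∀ c R, Λ.rg ≤ c → c + Λ.rg ≤ R → Amb Λ m (bl z (R + Λ.rg)) →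
      Cut m (bl z c) (an z (c - Λ.rg) c) (an z c (R + Λ.rg)) (an z c (c + Λ.rg)) (an z R (R + Λ.rg)) ∧
      bl z c ∪ an z c (R + Λ.rg) \ an z R (R + Λ.rg) = bl z R ∧
      cr m (an z c (R + Λ.rg)) (an z c (c + Λ.rg)) (an z R (R + Λ.rg)) = gam Λ c (R + Λ.rg) ∧
      hd m (bl z c) (an z c (R + Λ.rg)) (an z R (R + Λ.rg)) = Hd Λ z c R ∧
      rW m (an z c (R + Λ.rg)) = rW (Λ.N (an z c (R + Λ.rg))) (an z c (R + Λ.rg)) ∧
      Amb Λ (hole m (bl z c)) (an z (c + Λ.rg) (R + Λ.rg))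

/-- the same geometry around a hole of radius `q` -/
def LgeoHStmt : Prop := ∀ Λ : Lat, Λ.Ok → ∀ (m : Mdl Pt) (z : Pt) (q : ℕ),
    (∀ c, q + Λ.rg ≤ c → Amb Λ m (bl z c) →
      Box (hole m (bl z q)) (an z q c) (an z (c - Λ.rg) c) ∧
      rW (hole m (bl z q)) (an z q c) = rW (Λ.N (an z q c)) (an z q c) ∧
      ∀ r, q ≤ r → r + 2 * Λ.rg ≤ c →
        cr (hole m (bl z q)) (an z q c) (an z q (r + Λ.rg)) (an z (c - Λ.rg) c) ≤ gam Λ r c) ∧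
    ∀ c R, q + Λ.rg ≤ c → c + Λ.rg ≤ R → Amb Λ m (bl z (R + Λ.rg)) →
      (hole m (bl z q)).Ctr ∧ (hole m (bl z q)).Anch ∧
      Cut (hole m (bl z q)) (an z q c) (an z (c - Λ.rg) c) (an z c (R + Λ.rg)) (an z c (c + Λ.rg))
        (an z R (R + Λ.rg)) ∧
      an z q c ∪ an z c (R + Λ.rg) \ an z R (R + Λ.rg) = an z q R ∧
      cr (hole m (bl z q)) (an z c (R + Λ.rg)) (an z c (c + Λ.rg)) (an z R (R + Λ.rg)) =
        gam Λ c (R + Λ.rg) ∧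
      hole (hole m (bl z q)) (an z q c) = hole m (bl z c)

/-- lattice (D1): products of insertions in disjoint boxes; inside against outside; (N)(a),(b) -/
def LD1Stmt : Prop := ∀ Λ : Lat, Λ.Ok →
  (∀ (ι : Type) (m : Mdl Pt) (I : Finset ι) (z : ι → Pt) (r c : ι → ℕ) (F : ι → Cfg Pt → ℝ),
    (∀ i ∈ I, ∀ j ∈ I, i ≠ j → Disjoint (bl (z i) (c i)) (bl (z j) (c j))) → m.Ctr → m.Anch →
    (∀ i ∈ I, Amb Λ m (bl (z i) (c i)) ∧ r i + 2 * Λ.rg ≤ c i ∧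
      DepG (bl (z i) (r i + Λ.rg)) (F i) ∧ In Λ (z i) (c i) (F i)) →
    Ig (m.W 0) (fun s => ∏ i ∈ I, F i s) ∧ Ex (m.W 0) (fun s => |∏ i ∈ I, F i s|) ≤
      ∏ i ∈ I, gam Λ (r i) (c i) * Nm Λ (z i) (c i) (F i)) ∧
  ∀ (z : Pt) (r c R : ℕ) (F : Cfg Pt → ℝ), r + 2 * Λ.rg ≤ c → c + 2 * Λ.rg ≤ R →
    DepG (bl z (r + Λ.rg)) F → In Λ z c F →
    DepG (an z R (R + Λ.rg)) (St Λ z R F) ∧ (∀ s, Ig ((Λ.D (bl z R)).W s) F) ∧
    (∀ s, St Λ z R (fun t => |F t|) s ≤ gam Λ r c * gam Λ c R * Nm Λ z c F * Hd Λ z c R s) ∧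
    (∀ c', R + Λ.rg ≤ c' → In Λ z c' F ∧ In Λ z c' (St Λ z R F) ∧ EN Λ z c' (St Λ z R F) = EN Λ z c' F ∧
      Nm Λ z c' (St Λ z R F) ≤ Nm Λ z c' F ∧ Nm Λ z c' F ≤ gam Λ r c * Nm Λ z c F) ∧
    ∀ (m : Mdl Pt) (G : Cfg Pt → ℝ), Amb Λ m (bl z (R + Λ.rg)) → Out (bl z R) G →
      Ig ((hole m (bl z c)).W 0) G →
      Ig (m.W 0) (fun s => F s * G s) ∧ Ig (m.W 0) (fun s => St Λ z R F s * G s) ∧
      Ex (m.W 0) (fun s => F s * G s) = Ex (m.W 0) (fun s => St Λ z R F s * G s) ∧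
      Ex (m.W 0) (fun s => |F s * G s|) ≤
        gam Λ r c * gam Λ c R * Nm Λ z c F * Ex ((hole m (bl z c)).W 0) fun s => |G s|

/-- the hole density on the lattice -/
def LHdStmt : Prop := ∀ Λ : Lat, Λ.Ok → ∀ (z : Pt) (c R : ℕ), Λ.rg ≤ c → c + 2 * Λ.rg ≤ R →
  (∀ s, 0 < Hd Λ z c R s) ∧ DepG (an z R (R + Λ.rg)) (Hd Λ z c R) ∧
  (∀ m : Mdl Pt, Amb Λ m (bl z (R + Λ.rg)) → ∃ κ : ℝ, 1 / gam Λ c R ≤ κ ∧ κ ≤ 1 ∧
    ∀ Φ : Cfg Pt → ℝ, Out (bl z R) Φ → Ig ((hole m (bl z c)).W 0) Φ →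
      Ig (m.W 0) (fun s => Φ s * Hd Λ z c R s) ∧
        Ex (m.W 0) (fun s => Φ s * Hd Λ z c R s) = κ * Ex ((hole m (bl z c)).W 0) Φ) ∧
  ∀ c', R + Λ.rg ≤ c' → ∃ κ : ℝ, 1 / gam Λ c R ≤ κ ∧ κ ≤ 1 ∧
    ∀ Φ : Cfg Pt → ℝ, DepG (an z R c') Φ → Ig (rW (Λ.N (an z c c')) (an z c c')) Φ →
      In Λ z c' (fun s => Φ s * Hd Λ z c R s) ∧
        EN Λ z c' (fun s => Φ s * Hd Λ z c R s) = κ * EA Λ z c c' Φ

/-- geometric decay: `n` steps of ratio `4 W⁴` -/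
def DecStmt : Prop := ∀ Λ : Lat, Λ.Ok → ∀ (g : ℝ) (W r₀ L : ℕ), 0 ≤ g → g ≤ 1 → Gd Λ g W r₀ L →
  ∀ (z : Pt) (r n R : ℕ) (F : Cfg Pt → ℝ), r₀ ≤ r → (4 * W ^ 4) ^ (n + 1) * r ≤ R →
    (4 * W ^ 4) ^ (n + 1) * r ≤ L → DepG (bl z r) F → In Λ z (W * r) F →
    ∀ m : Mdl Pt, Amb Λ m (bl z (R + Λ.rg)) →
      Ex (m.W 0) (fun s => |St Λ z R F s - Ex (m.W 0) F|) ≤ 20 * (200 * g) ^ n * Nm Λ z (W * r) F ∧
      (∀ m' : Mdl Pt, Amb Λ m' (bl z (R + Λ.rg)) →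
        |Ex (m.W 0) F - Ex (m'.W 0) F| ≤ 20 * (200 * g) ^ n * Nm Λ z (W * r) F) ∧
      (∀ c', R + Λ.rg ≤ c' →
        |Ex (m.W 0) F - EN Λ z c' F| ≤ 20 * (200 * g) ^ n * Nm Λ z (W * r) F ∧
        Nm Λ z c' (fun s => St Λ z R F s - Ex (m.W 0) F) ≤ 40 * (200 * g) ^ n * Nm Λ z (W * r) F) ∧
      ∀ (c : ℕ) (G : Cfg Pt → ℝ), W * ((4 * W ^ 4) ^ n * r) ≤ c → W * c ≤ R → c ≤ L →
        Out (bl z R) G → Ig ((hole m (bl z c)).W 0) G →
        |Cv (m.W 0) F G| ≤ 200 * (200 * g) ^ n * Nm Λ z (W * r) F *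
          Ex ((hole m (bl z c)).W 0) fun s => |G s|

/-- geometric decay of the cross ratio itself -/
def SubStmt : Prop := ∀ Λ : Lat, Λ.Ok → ∀ (g : ℝ) (W r₀ L : ℕ), 0 ≤ g → g ≤ 1 → Gd Λ g W r₀ L →
  ∀ r n R : ℕ, r₀ ≤ r → (4 * W ^ 4) ^ (n + 2) * r ≤ R → (4 * W ^ 4) ^ (n + 2) * r ≤ L →
    gam Λ r R ≤ 1 + 200 * (200 * g) ^ n

end Crest.Agent.T145.Nc
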