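import Crest.Agent.T145.UvB_49
import Crest.Agent.T145.Br_73
import Crest.Agent.T145.NcDef_78

/-!
# Row 145, UV lemma for a general ambient weight (helper49)
-/

set_option autoImplicit false

namespace Crest.Agent.T145.Uv

open Finset

/-- ambient weight `ρ` on a group, heights read through `π`: on `Ω` it is less localised than the Dirichlet
model, on the squares inside `Ω'` it is more localised than the free model -/
structure GA (Λ : Lat) {G : Type} [AddCommGroup G] (ρ : G → ℝ) (π : G →+ Cfg Pt) (Ω Ω' : Finset Pt) :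
    Prop where
  cen : Cen ρ
  sub : Ω ⊆ Ω'
  up : ∀ U ⊆ Ω, ∀ Φ : Cfg Pt → ℝ, PD Φ → Dep U Φ →
    Ex ρ (fun a => Φ (π a)) ≤ Ex ((Λ.D U).W 0) Φ
  lo : ∀ (a : Pt) (n : ℕ), 0 < n → sq a n ⊆ Ω' → ∀ f : Pt → ℝ, Sup (sq a n) f →
    ∑ x ∈ sq a n, f x = 0 →
      Vr ρ ((pr f).comp π) ((pr f).comp π) ≤ Vr ((Λ.Nr (sq a n) a).W 0) (pr f) (pr f)

/-- height models are ambient weights -/
theorem ga_mdl {Λ : Lat} (hΛ : Λ.Ok) {m : Mdl Pt} {Ω Ω' : Finset Pt} (h : Nc.Amb Λ m Ω)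
    (h' : Λ.Amb m Ω') (hs : Ω ⊆ Ω') : GA Λ (m.W 0) (AddMonoidHom.id _) Ω Ω' where
  cen := h.ctr.cen h.anch
  sub := hs
  up := fun U hU Φ hΦ _ => ((h.near.mono hU).loc hΛ h.ctr h.anch (hU.trans h.sub)).2 Φ hΦ
  lo := fun a n hn hB f h0 h1 => by
    have hr := self_mem_sq a hn
    have hE : Λ.edI (sq a n) ⊆ inn (sq a n) m.ed := fun e he =>
      mem_inn.2 ⟨h'.2.2.1 (Lat.edI_mono hB he), (Lat.mem_edI.1 he).2⟩
    have hN : (m.nbox (sq a n) a).Anch := anch_nbox fun x hx => (hΛ.conn_sq hx hr).mono hE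
    refine (cut1_Vr h.ctr h.anch hr hN h0 h1).trans ?_
    exact (loc_le (hΛ.ctr_Nr _ _) (hΛ.anch_Nr hr) (h.ctr.1.ctr_nbox _ _).1 subset_rfl hE
      (fun e he => h'.2.2.2 e (Lat.edI_mono hB he)) fun _ _ _ => rfl).vr_le'
      (cen_nbox h.ctr.1 hN) (hΛ.cen_Nr hr) _

theorem holder_col {α C κ : Type} [DecidableEq κ] {W : α → ℝ} (hW : Wt W) (T : Finset C)
    (q : C → α → ℝ) (hq : ∀ c a, 0 ≤ q c a) (col : C → κ) (K : Finset κ) (θ : κ → ℝ)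
    (hθ : ∀ k ∈ K, 0 < θ k) (h1 : ∑ k ∈ K, θ k ≤ 1) (hcol : ∀ c ∈ T, col c ∈ K) :
    Real.log (Ex W fun a => Real.exp (-(∑ c ∈ T, q c a) / 2)) ≤ ∑ k ∈ K, θ k *
      Real.log (Ex W fun a => Real.exp (-((θ k)⁻¹ * ∑ c ∈ T with col c = k, q c a) / 2)) := by
  set Φ : κ → α → ℝ := fun k s => -((θ k)⁻¹ * ∑ c ∈ T with col c = k, q c s) / 2 with hΦ
  have bΦ : ∀ k ∈ K, ∀ s, |Real.exp (Φ k s)| ≤ 1 := fun k hk s => by
    rw [abs_of_pos (Real.exp_pos _), Real.exp_le_one_iff]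
    have : 0 ≤ (θ k)⁻¹ * ∑ c ∈ T with col c = k, q c s :=
      mul_nonneg (inv_pos.2 (hθ k hk)).le (sum_nonneg fun _ _ => hq _ _)
    simp only [hΦ]; linarith
  have H := (hW.holder_exp (insertNone K) (fun o => o.elim (1 - ∑ k ∈ K, θ k) θ)
    (fun o => o.elim (fun _ => 0) Φ)
    (by
      rintro (_ | k) hk
      · exact sub_nonneg.2 h1
      · exact (hθ k (by simpa using hk)).le)
    (by simp [sum_insertNone])
    (by
      rintro (_ | k) hk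
      · exact hW.ig_const (Real.exp 0)
      · exact hW.ig_bdd (bΦ k (by simpa using hk)))).2
  simp only [sum_insertNone, Option.elim, mul_zero, zero_add, Real.exp_zero, hW.ex_const,
    Real.log_one] at H
  have e : ∀ s, ∑ k ∈ K, θ k * Φ k s = -(∑ c ∈ T, q c s) / 2 := fun s => by
    rw [← sum_fiberwise_of_maps_to hcol, ← sum_neg_distrib, sum_div]
    refine sum_congr rfl fun k hk => ?_
    have := (hθ k hk).ne'
    simp only [hΦ]; field_simp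
  simpa only [e] using H

theorem depG_pr {S : Finset Pt} {f : Pt → ℝ} (h0 : Sup S f) (h1 : ∑ x ∈ S, f x = 0) :
    DepG S (pr f) := fun s s' h hs => by
  have e : ∑ x ∈ S, f x * (s' x : ℝ) = ∑ x ∈ S, f x * ((s x : ℝ) + h) :=
    sum_congr rfl fun x hx => by rw [hs x hx, Int.cast_add]
  rw [pr_of_fsupp f s h0, pr_of_fsupp f s' h0, e]
  simp only [mul_add, sum_add_distrib, ← sum_mul, h1, zero_mul, add_zero]

theorem dep_pr {S : Finset Pt} {f : Pt → ℝ} (h0 : Sup S f) : Dep S (pr f) := fun s s' hs => by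
  rw [pr_of_fsupp f s h0, pr_of_fsupp f s' h0]
  exact sum_congr rfl fun x hx => by rw [hs x hx]

/-- free against Dirichlet variance of a local neutral observable -/
theorem gap (hD : Nc.LD1Stmt) {Λ : Lat} (hΛ : Λ.Ok) {z : Pt} {r R : ℕ} (hr : r + 2 * Λ.rg ≤ R)
    {f : Pt → ℝ} (h0 : Sup (bl z r) f) (h1 : ∑ x ∈ bl z r, f x = 0) {n η : ℝ}
    (hf : F2 (Λ.edI (bl z R)) f n) (hη : 0 < η) (hg : Nc.gam Λ r R ≤ 1 + η ^ 2) :
    Vr ((Λ.Nr (bl z R) z).W 0) (pr f) (pr f) ≤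
      Vr ((Λ.D (bl z R)).W 0) (pr f) (pr f) + η * (1 + 24 * Real.exp Λ.τ * n ^ 2) := by
  have cN := hΛ.cen_Nr_bl (self_mem_bl z R)
  have cD := hΛ.cen_D (bl z R)
  have hs : bl z r ⊆ bl z (r + Λ.rg) := bl_mono z (by omega)
  have hdep : DepG (bl z (r + Λ.rg)) (pr f) := depG_pr (fun x hx => h0 x fun h => hx (hs h))
    (by rw [← sum_subset hs fun x _ hx => h0 x hx, h1])
  have hM : 0 < η⁻¹ := inv_pos.2 hη
  have b0 : ∀ s, 0 ≤ η⁻¹ - min (pr f s ^ 2) η⁻¹ := fun s => sub_nonneg.2 (min_le_right _ _)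
  have b1 : ∀ s, |min (pr f s ^ 2) η⁻¹| ≤ η⁻¹ := fun s => by
    rw [abs_of_nonneg (le_min (sq_nonneg _) hM.le)]; exact min_le_right _ _
  have iN := cN.wt.ig_bdd b1
  have iD := cD.wt.ig_bdd b1
  have H := ((hD Λ hΛ).1 Unit (Λ.D (bl z R)) {()} (fun _ => z) (fun _ => r) (fun _ => R)
    (fun _ s => η⁻¹ - min (pr f s ^ 2) η⁻¹) (fun _ _ _ _ h => absurd rfl h) (hΛ.ctr_D _) (hΛ.anch_D _)
    fun _ _ => ⟨⟨hΛ.ctr_D _, hΛ.anch_D _, subset_rfl, Lat.near_D subset_rfl⟩, hr,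
      fun s s' h hs => by simp only [hdep s s' h hs], (cN.wt.ig_const _).sub iN⟩).2
  simp only [prod_singleton, Nc.Nm, Nc.EN, abs_of_nonneg (b0 _)] at H
  rw [Ex_sub (cD.wt.ig_const _) iD, Ex_sub (cN.wt.ig_const _) iN, cD.wt.ex_const, cN.wt.ex_const] at H
  have h2 : 0 ≤ Ex ((Λ.Nr (bl z R) z).W 0) fun s => min (pr f s ^ 2) η⁻¹ :=
    Ex_nonneg cN.nonneg fun s _ => le_min (sq_nonneg _) hM.le
  have h3 : Ex ((Λ.Nr (bl z R) z).W 0) (fun s => min (pr f s ^ 2) η⁻¹) ≤ η⁻¹ :=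
    cN.wt.ex_le iN fun s _ => min_le_right _ _
  have h4 : Ex ((Λ.D (bl z R)).W 0) (fun s => min (pr f s ^ 2) η⁻¹) ≤
      Vr ((Λ.D (bl z R)).W 0) (pr f) (pr f) := by
    rw [cD.Vr_eq]
    exact Ex_mono cD.nonneg iD (cD.ig ((Tame.hom _).mul (Tame.hom _))) fun s =>
      (min_le_left _ _).trans_eq (pow_two _)
  have i4 := cN.ig ((Tame.hom (pr f)).pow 4)
  have h5 : Vr ((Λ.Nr (bl z R) z).W 0) (pr f) (pr f) ≤
      Ex ((Λ.Nr (bl z R) z).W 0) (fun s => min (pr f s ^ 2) η⁻¹) +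
        η * Ex ((Λ.Nr (bl z R) z).W 0) fun s => pr f s ^ 4 := by
    rw [cN.Vr_eq, ← Ex_const_mul, ← Ex_add iN (i4.const_mul _)]
    refine Ex_mono cN.nonneg (cN.ig ((Tame.hom _).mul (Tame.hom _))) (iN.add (i4.const_mul _)) fun s => ?_
    rcases le_total (pr f s ^ 2) η⁻¹ with h | h
    · rw [min_eq_left h, ← pow_two]; have : 0 ≤ η * pr f s ^ 4 := by positivity
      linarith
    · rw [min_eq_right h, ← pow_two]
      have h6 : 1 ≤ η * pr f s ^ 2 := by rwa [inv_le_iff_one_le_mul₀' hη] at h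
      nlinarith [mul_le_mul_of_nonneg_right h6 (sq_nonneg (pr f s))]
  have h6 := (hf.f2a _).four_le hΛ.pos (hΛ.ctr_Nr (bl z R) z) (hΛ.anch_Nr_bl (self_mem_bl z R))
    subset_rfl fun _ _ => rfl
  have h7 := mul_le_mul_of_nonneg_right hg (sub_nonneg.2 h3)
  have h8 : η ^ 2 * η⁻¹ = η := by field_simp
  nlinarith [mul_le_mul_of_nonneg_left h6 hη.le, mul_nonneg (sq_nonneg η) h2]

/-- number of sites of the cells whose ball of radius `r` leaves `Ω` -/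
noncomputable def bad (I : Finset Pt) (c : ℕ) (Ω : Finset Pt) (r : ℕ) : ℝ :=
  ∑ a ∈ I, ∑ x ∈ sq a (2 ^ c), ind (¬ bl x r ⊆ Ω)

theorem sum_terms (I : Finset Pt) {c : ℕ} {Jv : Finset ℕ} (hJ : ∀ j ∈ Jv, j ≤ c) (g : ℕ → ℝ) :
    ∑ t ∈ terms I c Jv, ((2 : ℝ) ^ t.2.1) ^ 2 * g t.2.1 =
      I.card * ((2 : ℝ) ^ c) ^ 2 * ∑ j ∈ Jv, g j := by
  simp only [terms, sum_sigma, sum_const, card_sq, nsmul_eq_mul, mul_assoc, mul_sum Jv]
  refine sum_congr rfl fun j hj => ?_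
  have e : (2 : ℝ) ^ c = 2 ^ (c - j) * 2 ^ j := by rw [← pow_add, Nat.sub_add_cancel (hJ j hj)]
  rw [e]; push_cast; ring

theorem sum_bad (I : Finset Pt) {c : ℕ} {Jv : Finset ℕ} (hJ : ∀ j ∈ Jv, j ≤ c) (Ω : Finset Pt)
    {R : ℕ → ℕ} (hR : ∀ j ∈ Jv, 2 ^ j ≤ R j) :
    ∑ t ∈ terms I c Jv, ((2 : ℝ) ^ t.2.1) ^ 2 * ind (¬ bl (cor t) (R t.2.1) ⊆ Ω) ≤
      ∑ j ∈ Jv, bad I c Ω (2 * R j) := by
  simp only [terms, sum_sigma, bad, cor]
  rw [sum_comm]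
  refine sum_le_sum fun j hj => sum_le_sum fun a _ => ?_
  have e : 2 ^ c = 2 ^ (c - j) * 2 ^ j := by rw [← pow_add, Nat.sub_add_cancel (hJ j hj)]
  rw [e, sum_tiling]
  refine sum_le_sum fun i _ => ?_
  have := card_nsmul_le_sum (sq (tile a (2 ^ j) i) (2 ^ j)) (fun x => ind (¬ bl x (2 * R j) ⊆ Ω))
    (ind (¬ bl (tile a (2 ^ j) i) (R j) ⊆ Ω)) fun x hx => ind_mono fun h h' => h
      ((bl_subset_bl (d := R j) (by
        have := hR j hj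
        rw [mem_sq] at hx; rw [mem_bl]; omega) (by omega)).trans h')
  rw [card_sq, nsmul_eq_mul] at this
  exact_mod_cast this

theorem vr_hl {L : Type} [AddCommGroup L] (W : L → ℝ) (π : L →+ Cfg Pt) {μ : ℝ} (hμ : 0 ≤ μ) (t : Ix) :
    Vr W ((hl μ t).comp π) ((hl μ t).comp π) = μ * ((2 : ℝ) ^ t.2.1) ^ 2 *
      Vr W ((pr (hf t.1 t.2.1 t.2.2)).comp π) ((pr (hf t.1 t.2.1 t.2.2)).comp π) := by
  have e : (hl μ t).comp π = (Real.sqrt μ * 2 ^ t.2.1) • (pr (hf t.1 t.2.1 t.2.2)).comp π := rfl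
  rw [e, Vr_smul_left, Vr_smul_right, ← mul_assoc, ← pow_two, mul_pow, Real.sq_sqrt hμ]

variable {Λ : Lat} {G : Type} [AddCommGroup G] {ρ : G → ℝ} {π : G →+ Cfg Pt} {Ω Ω' : Finset Pt}

/-- bare bound on a Haar variance -/
theorem GA.vr_hf (hA : GA Λ ρ π Ω Ω') (hR : R1Stmt) (hΛ : Λ.Ok) {a i : Pt} {j : ℕ}
    (h : sq (tile a (2 ^ (j + 1)) (par i)) (2 ^ (j + 1)) ⊆ Ω') :
    Vr ρ ((pr (hf a j i)).comp π) ((pr (hf a j i)).comp π) ≤ Λ.τ * 32 :=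
  (hA.lo _ _ (by positivity) h _ (fun _ hx => hf_off hx) (sum_hf subset_rfl)).trans
    (((hf_flow hR hΛ a j i).f2a _).vr_le hΛ.pos (hΛ.ctr_Nr _ _)
      (hΛ.anch_Nr (self_mem_sq _ (by positivity))) subset_rfl fun _ _ => rfl)

/-- the mean of the band energy -/
theorem GA.sum_vr (hA : GA Λ ρ π Ω Ω') (hR : R1Stmt) (hΛ : Λ.Ok) {I : Finset Pt} {c : ℕ}
    {Jv : Finset ℕ} (hJ : ∀ j ∈ Jv, j < c) (hI : ∀ a ∈ I, sq a (2 ^ c) ⊆ Ω') {μ : ℝ} (hμ : 0 ≤ μ) :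
    ∑ t ∈ terms I c Jv, Vr ρ ((hl μ t).comp π) ((hl μ t).comp π) ≤
      32 * Λ.τ * μ * (I.card * ((2 : ℝ) ^ c) ^ 2) * Jv.card := by
  have := sum_terms I (fun j hj => (hJ j hj).le) fun _ => 32 * Λ.τ * μ
  rw [sum_const, nsmul_eq_mul] at this
  refine le_of_le_of_eq (sum_le_sum fun t ht => ?_) (this.trans (by ring))
  obtain ⟨h1, h2, h3⟩ := mem_terms.1 ht
  rw [vr_hl _ _ hμ]
  have := hA.vr_hf hR hΛ ((par_sub_top (hJ _ h2) h3).trans (hI _ h1))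
  nlinarith [mul_le_mul_of_nonneg_left this (show 0 ≤ μ * ((2 : ℝ) ^ t.2.1) ^ 2 by positivity)]

end Crest.Agent.T145.Uv
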