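import Crest.Agent.T145.KrDef_77
import Crest.Agent.T145.KrG_90
import Crest.Agent.T145.KrQ_75
import Crest.Agent.T145.UvC_49
import Crest.Agent.T145.VdDef_27
import Crest.Agent.T145.GffDef3_8

/-!
# Row 145, module Kv: the kernel of the TWISTED annulus.  Definitions and Props (helper8)

Text: `docs/T145_kv8.md`.  Nearest neighbours, centre `0`, gauge `σ = Vd.ray 0`.  A slit across a thin ring is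
cut out; the inner part `s1` and the outer part `s2` of the seam get their own multiplicities `s k1`, `s k2`
(two sites off the annulus), so the extended model is a centred weight on `Cfg Pt`.  OUTPUT: `KvStmt`.
-/

set_option autoImplicit false

namespace Crest.Agent.T145.Kv

open Finset Real Matrix
open Kr (Gm cu)
open Vd (ray)

/-! ## Output -/

/-- the free annulus, rooted somewhere -/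
noncomputable def fr (Λ : Lat) (G : Gm) : Mdl Pt := Nc.pn (Λ.N G.Om) G.Om (Nc.rs G.Om)
/-- twisted expectation and weight of the twist -/
noncomputable def EV (Λ : Lat) (G : Gm) (F : Cfg Pt → ℝ) : ℝ := Ex ((fr Λ G).Ws 0 (ray 0)) F
noncomputable def TV (Λ : Lat) (G : Gm) : ℝ := Vd.rat (fr Λ G) (ray 0)

/-- covariance for an expectation functional -/
def cov {α : Type} (E : (α → ℝ) → ℝ) (F φ : α → ℝ) : ℝ := E (fun s => F s * φ s) - E F * E φ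

/-- rank two covariance (K-V, sup norm) and mixing (MIX) -/
def Out (G : Gm) (E : (Cfg Pt → ℝ) → ℝ) (β γ θ η : ℝ) : Prop := ∃ y d : Fin 2 → Cfg Pt → ℝ,
  (∀ i, DepG G.In (y i) ∧ (∀ s, |y i s| ≤ 1) ∧ DepG G.Ou (d i) ∧ ∀ s, |d i s| ≤ β) ∧
  ∀ (F φ : Cfg Pt → ℝ) (A B : ℝ), DepG G.In F → DepG G.Ou φ → (∀ s, |F s| ≤ A) → (∀ s, |φ s| ≤ B) →
    |cov E F φ - ∑ i, cov E F (y i) * cov E (d i) φ| ≤ γ * (A * B) ∧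
    ((∀ s, 0 ≤ F s) → (∀ s, 0 ≤ φ s) → |cov E F φ| ≤ θ * (E F * E φ) + η * (A * B))

/-- OUTPUT.  From `SectStmt`, `RmvStmt` -/
def KvStmt : Prop := ∀ (F : Fa) (θ₀ ε : ℝ) (N C : ℕ), F.J = nn → 0 < θ₀ → 0 < ε → ε ≤ 1 / 4 →
  ∃ W₁ : ℝ, ∀ W, W₁ ≤ W → ∀ K : ℝ, 1 ≤ K → Kr.Wn F θ₀ W K fun Λ g G => 2 - ε ≤ π * g →
    W ^ (-(C : ℝ)) ≤ TV Λ G →
      Out G (EV Λ G) (W ^ (-1 + ε)) (W ^ (-2 + 3 * ε)) (1 / 8) (W ^ (-(N : ℝ)))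

/-! ## The slit condenser -/

/-- a condenser and the thinness `2 ^ (-j)` of the ring -/
structure Gv where
  G : Gm
  j : ℕ

namespace Gv
variable (V : Gv)

structure Ok (W : ℝ) : Prop where
  g : V.G.Ok W
  j4 : 4 ≤ V.j
  jp : V.j + 4 ≤ V.G.p

/-- `ω = ρ / 2 ^ j` -/
def om2 : ℕ := V.G.p - V.j
def ω : ℕ := 2 ^ V.om2
/-- the square ring `ρ - n ≤ · < ρ + n` -/
noncomputable def rng (n : ℕ) : Finset Pt :=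
  sq (-(V.G.rho + n : ℤ), -(V.G.rho + n : ℤ)) (2 * (V.G.rho + n)) \
    sq (-(V.G.rho - n : ℤ), -(V.G.rho - n : ℤ)) (2 * (V.G.rho - n))
noncomputable def Ga : Finset Pt := V.rng V.ω
noncomputable def mid : Finset Pt := V.rng (2 * V.ω)
/-- the sites that carry the multiplicities of the two seams; the root -/
def k1 (_ : Gv) : Pt := 0
def k2 : Pt := (V.G.R₂ + 1, 0)
def rt : Pt := (V.G.R₂, V.G.R₂)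
/-- inner and outer seam; the slit is `ρ - 4 ω ≤ i < ρ + 4 ω` -/
def s1 (e : Pt × Pt) : ℤ := if e.1.1 < (V.G.rho : ℤ) - 4 * V.ω then ray 0 e else 0
def s2 (e : Pt × Pt) : ℤ := if (V.G.rho : ℤ) + 4 * V.ω ≤ e.1.1 then ray 0 e else 0
/-- remove the slit -/
def kp (ed : Finset (Pt × Pt)) : Finset (Pt × Pt) := ed.filter fun e => ray 0 e = V.s1 e + V.s2 e
noncomputable def EO : Finset (Pt × Pt) := V.kp (Pot.nL.edI V.G.Om)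
noncomputable def EA : Finset (Pt × Pt) := V.kp (Pot.nL.edT V.G.A)
/-- the squares above and below the slit, the two lips -/
noncomputable def up : Finset Pt := sq (V.G.rho - 4 * V.ω, 0) (8 * V.ω)
noncomputable def lo : Finset Pt := sq (V.G.rho - 4 * V.ω, -(8 * V.ω : ℤ)) (8 * V.ω)
noncomputable def lip : Finset Pt := (V.up ∪ V.lo).filter fun x => x.2 = 0 ∨ x.2 = -1
noncomputable def In : Finset Pt := insert V.k1 V.G.In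
noncomputable def Ou : Finset Pt := insert V.k2 V.G.Ou

/-- the twisted gradient, integer and real -/
noncomputable def gk (e : Pt × Pt) : Cfg Pt →+ ℤ :=
  Finsupp.applyAddHom e.2 - Finsupp.applyAddHom e.1 + V.s1 e • Finsupp.applyAddHom V.k1 +
    V.s2 e • Finsupp.applyAddHom V.k2
noncomputable def Gk (e : Pt × Pt) : (Pt → ℝ) →ₗ[ℝ] ℝ :=
  Pot.dr e + (V.s1 e : ℝ) • (LinearMap.proj V.k1 : (Pt → ℝ) →ₗ[ℝ] ℝ) +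
    (V.s2 e : ℝ) • (LinearMap.proj V.k2 : (Pt → ℝ) →ₗ[ℝ] ℝ)
/-- twisted energy -/
noncomputable def eT (ed : Finset (Pt × Pt)) : Pot.Bf Pt := Pot.sqF ed (fun _ => 1) V.Gk
noncomputable def B : Pot.Bf Pt := V.eT V.EA
/-- `pr f` is a twisted flow on `ed` of squared norm `≤ n` -/
def Fx (ed : Finset (Pt × Pt)) (f : Pt → ℝ) (n : ℝ) : Prop :=
  ∃ φ, (∀ s, pr f s = gfl ed φ V.gk s) ∧ ∑ e ∈ ed, φ e ^ 2 ≤ n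
def Ic (f : Pt → ℝ) (n : ℝ) : Prop := Sup V.In f ∧ V.Fx V.EO f n
def Oc (f : Pt → ℝ) (n : ℝ) : Prop := Sup V.Ou f ∧ V.Fx V.EO f n

/-- harmonic extensions of real inner and outer data -/
noncomputable def mI (u : Pt → ℝ) : Pt → ℝ := Pot.hx V.G.A V.B (Pot.on V.In u)
noncomputable def mO (u : Pt → ℝ) : Pt → ℝ := Pot.hx V.G.A V.B (Pot.on V.Ou u)
noncomputable def ma (a : Cfg Pt) : Pt → ℝ := V.mI (cu a)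
noncomputable def mb (b : Cfg Pt) : Pt → ℝ := V.mO (cu b)
noncomputable def om : Pt → ℝ := Pot.hx V.G.A V.B (Pot.on V.G.In 1)
noncomputable def cp : ℝ := V.B V.om V.om
/-- `H = pr V.eq`, `t = pr V.te` -/
noncomputable def eq : Pt → ℝ := V.cp⁻¹ • Pot.on V.In (Pot.op V.B V.om)
noncomputable def te : Pt → ℝ := -V.cp⁻¹ • Pot.on V.Ou (Pot.op V.B V.om)
/-- `Y = y0 / g` -/
noncomputable def y0 (a b : Cfg Pt) : ℝ := -V.B (V.ma a) (V.mb b) - V.cp * pr V.eq a * pr V.te b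
noncomputable def lam (g : ℝ) : ℝ := exp (-(2 * π ^ 2 / (V.cp / g)))
noncomputable def nm (m : Pt → ℝ) : ℝ := (∑ x ∈ V.mid, m x ^ 2) / (V.ω : ℝ) ^ 2

/-- cells of side `2 ^ q`, mass `ℓ⁻²` with `ℓ = ω / 2 ^ a`; below `q = om2 - (a + b)` -/
noncomputable def cor (q : ℕ) : Finset Pt := V.Ga.filter fun x => (2 ^ q : ℤ) ∣ x.1 ∧ (2 ^ q : ℤ) ∣ x.2
noncomputable def cel (q : ℕ) (i : V.cor q) : Finset Pt := sq i.1 (2 ^ q)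
noncomputable def ms (a : ℕ) : ℝ := (2 ^ a / (V.ω : ℝ)) ^ 2
noncomputable def Sm (a b : ℕ) : Matrix (V.cor (V.om2 - (a + b))) (V.cor (V.om2 - (a + b))) ℝ :=
  Kw56.msM (V.cel (V.om2 - (a + b))) (V.ms a)
noncomputable def Vm (g : ℝ) (a b : ℕ) : Matrix (V.cor (V.om2 - (a + b))) (V.cor (V.om2 - (a + b))) ℝ :=
  Kw56.sgM V.G.A g⁻¹ V.EA (V.cel (V.om2 - (a + b)))
/-- the ring form -/
noncomputable def Bq (g : ℝ) (a b : ℕ) (m m' : Pt → ℝ) : ℝ :=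
  (fun i => Kw56.avL (V.cel (V.om2 - (a + b)) i) m) ⬝ᵥ
    Gs.tl (V.Sm a b) (V.Vm g a b) *ᵥ fun i => Kw56.avL (V.cel (V.om2 - (a + b)) i) m'
noncomputable def Bz (g : ℝ) (a b : ℕ) (z : Cfg Pt × Cfg Pt) : ℝ :=
  V.Bq g a b (V.ma z.1 + V.mb z.2) (V.ma z.1 + V.mb z.2)
noncomputable def hi (a b : ℕ) : Cfg Pt → ℝ :=
  gq (Uv.terms (V.cor (V.om2 - (a + b))) (V.om2 - (a + b)) (range (V.om2 - (a + b)))) (Uv.hl (V.ms a))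

/-- the extended weight: floating, rooted, screened -/
noncomputable def rho (Λ : Lat) (s : Cfg Pt) : ℝ :=
  ind (∀ x, x ∉ V.G.Om → x ≠ V.k1 → x ≠ V.k2 → s x = 0) * ∏ e ∈ V.EO, Λ.w (V.gk e s)
noncomputable def rw (Λ : Lat) (s : Cfg Pt) : ℝ := ind (s V.rt = 0) * V.rho Λ s
noncomputable def rm (Λ : Lat) (a : ℕ) (s : Cfg Pt) : ℝ :=
  V.rho Λ s * ∏ x ∈ V.Ga, gau (V.ms a)⁻¹ (s x)
noncomputable def Z (Λ : Lat) : ℝ := Zs (V.rw Λ)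
noncomputable def EX (Λ : Lat) (F : Cfg Pt → ℝ) : ℝ := Ex (V.rw Λ) F
/-- the data -/
noncomputable def dH : Cfg Pt →+ Cfg Pt × Cfg Pt := (resH V.In).prod (resH V.Ou)
noncomputable def nu (Λ : Lat) (z : Cfg Pt × Cfg Pt) : ℝ := push (V.rho Λ) V.dH z / V.Z Λ
noncomputable def nuM (Λ : Lat) (a : ℕ) (z : Cfg Pt × Cfg Pt) : ℝ := push (V.rm Λ a) V.dH z
/-- the slit models: Dirichlet on `A`, free on `Om` -/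
noncomputable def m0 (Λ : Lat) : Mdl Pt := ⟨V.G.A, V.EA, fun _ => Λ.w, fun _ _ => 1⟩
noncomputable def sl (Λ : Lat) : Mdl Pt := ⟨V.G.Om.erase V.rt, V.EO, fun _ => Λ.w, fun _ _ => 1⟩
/-- the twisted slit model and the weight of its sector -/
noncomputable def ES (Λ : Lat) (F : Cfg Pt → ℝ) : ℝ := Ex ((V.sl Λ).Ws 0 (ray 0)) F
noncomputable def Pk (Λ : Lat) (k : ℤ) : ℝ := V.EX Λ fun s => ind (s V.k1 = k ∧ s V.k2 = k)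
/-- `X_u` -/
noncomputable def X (u : Pt → ℝ) : Cfg Pt →+ ℝ := gfl V.EA (fun e => V.Gk e u) V.gk

/-- the actions on the data, with the crude typical sets -/
def IsI (A : KrA.Act (Cfg Pt)) (α : ℝ) : Prop :=
  (∀ i a, A.s i a = a + cst V.G.In i) ∧ (∀ a, A.ng a = -a) ∧ (∀ a, A.H a = pr V.eq a) ∧
    ∀ a, A.T a ↔ V.nm (V.ma a - pr V.eq a • V.om) ≤ α
def IsO (B : KrA.Act (Cfg Pt)) (α : ℝ) : Prop :=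
  (∀ i a, B.s i a = a + cst V.G.Ou i) ∧ (∀ a, B.ng a = -a) ∧ (∀ a, B.H a = pr V.te a) ∧
    ∀ a, B.T a ↔ V.nm (V.mb a - pr V.te a • (1 - V.om)) ≤ α

/-- geometry -/
structure Geo : Prop where
  r_le : 16 * V.G.r ≤ V.G.rho
  rho_le : 32 * V.G.rho ≤ V.G.R
  le_rho : V.G.R ≤ 64 * V.G.rho
  rho_eq : V.G.rho = 2 ^ V.j * V.ω
  ω16 : 16 ≤ V.ω
  ω_le : 16 * V.ω ≤ V.G.rho
  Ga_sub : V.Ga ⊆ V.mid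
  mid_sub : V.mid ⊆ Nc.an 0 (V.G.rho / 2) (2 * V.G.rho)
  ul_sub : V.up ∪ V.lo ⊆ Nc.an 0 (V.G.rho / 2) (2 * V.G.rho)
  card_Ga : V.Ga.card = 16 * 2 ^ V.j * V.ω ^ 2
  card_mid : V.mid.card = 32 * 2 ^ V.j * V.ω ^ 2
  cells : ∀ q ≤ V.om2, (V.cor q).biUnion (fun i => sq i (2 ^ q)) = V.Ga ∧
    ((V.cor q : Set Pt).PairwiseDisjoint fun i => sq i (2 ^ q)) ∧
    (V.cor q).card = 16 * 2 ^ V.j * 4 ^ (V.om2 - q) ∧ ∀ i ∈ V.cor q, Pot.nL.edI (sq i (2 ^ q)) ⊆ V.EA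
  k_off : V.k1 ∉ V.G.Om ∧ V.k2 ∉ V.G.Om ∧ V.k1 ≠ V.k2 ∧ V.rt ∈ V.G.Ou
  EA_sub : V.EA ⊆ V.EO
  slit : ∀ e ∈ Pot.nL.edI V.G.Om, e ∉ V.EO ↔ e.1 ∈ V.lip ∧ e.1.2 = -1 ∧ e.2 = e.1 + (0, 1)
  seam : ∀ e, (V.s1 e ≠ 0 → V.s1 e = 1 ∧ V.s2 e = 0 ∧ e.1.2 = -1 ∧ e.2 = e.1 + (0, 1) ∧ 0 ≤ e.1.1 ∧
      e.1.1 < (V.G.rho : ℤ) - 4 * V.ω) ∧
    (V.s2 e ≠ 0 → V.s2 e = 1 ∧ V.s1 e = 0 ∧ e.1.2 = -1 ∧ e.2 = e.1 + (0, 1) ∧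
      (V.G.rho : ℤ) + 4 * V.ω ≤ e.1.1)
  conn : ∀ x ∈ V.G.Om, Conn V.EO x V.rt

/-- deterministic algebra -/
structure Alg : Prop where
  coA : Pot.Co V.G.A V.B
  coE : Pot.Co V.G.A (Pot.edF V.EA)
  poin : ∀ u, Sup V.G.A u → ∑ x ∈ V.G.A, u x ^ 2 ≤ 4 * (V.G.R : ℝ) ^ 2 * Pot.edF V.EA u u
  plain : ∀ ed (u v : Pt → ℝ), u V.k1 = 0 → u V.k2 = 0 → v V.k1 = 0 → v V.k2 = 0 →
    V.eT ed u v = Pot.edF ed u v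
  gr_eq : ∀ f, Pot.gr V.G.A V.B f = Pot.gr V.G.A (Pot.edF V.EA) f
  Gk_cu : ∀ e s, V.Gk e (cu s) = V.gk e s
  X_eq : ∀ u s, V.X u s = V.B u (cu s)
  cp_pos : 0 < V.cp
  eq_sup : Sup (insert V.k1 (Nc.an 0 (V.G.r - 1) V.G.r)) V.eq
  eq_sum : ∑ x ∈ V.G.In, V.eq x = 1
  te_sup : Sup (insert V.k2 (Nc.an 0 V.G.R (V.G.R + 1))) V.te
  te_sum : ∑ x ∈ V.G.Ou, V.te x = 1
  om_mem : ∀ x, 0 ≤ V.om x ∧ V.om x ≤ 1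
  hm : ∀ u, Pot.Hm V.G.A V.B (V.mI u) ∧ Pot.Hm V.G.A V.B (V.mO u)
  om_hm : Pot.Hm V.G.A V.B V.om
  dat : ∀ s : Cfg Pt, V.ma (V.dH s).1 = V.ma s ∧ V.mb (V.dH s).2 = V.mb s ∧
    pr V.eq (V.dH s).1 = pr V.eq s ∧ pr V.te (V.dH s).2 = pr V.te s
  hx_dat : ∀ s : Cfg Pt, ∀ x ∈ V.G.A, Pot.hx V.G.A V.B (cu s) x = (V.ma s + V.mb s) x
  m_cst : ∀ (a : Cfg Pt) (i : ℤ), V.ma (a + cst V.G.In i) = V.ma a + (i : ℝ) • V.om ∧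
    ∀ x ∈ V.G.A, V.mb (a + cst V.G.Ou i) x = V.mb a x + i * (1 - V.om x)
  m_neg : ∀ a, V.ma (-a) = -V.ma a ∧ V.mb (-a) = -V.mb a
  flux : ∀ s, V.cp * (pr V.eq s - pr V.te s) = V.X V.om s
  y_in : ∀ i a b, V.y0 (a + cst V.G.In i) b = V.y0 a b
  y_out : ∀ i a b, V.y0 a (b + cst V.G.Ou i) = V.y0 a b
  y_neg : ∀ a b, V.y0 (-a) b = -V.y0 a b ∧ V.y0 a (-b) = -V.y0 a b
  act : ∀ α, ∃ A B, V.IsI A α ∧ V.IsO B α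

/-- the extended model -/
structure Ext (Λ : Lat) : Prop where
  rsd : RSD (V.rho Λ)
  pos : 0 < V.rho Λ 0
  cen : Cen (V.rw Λ)
  cenM : ∀ a, Cen (V.rm Λ a)
  m0 : (V.m0 Λ).Ctr ∧ (V.m0 Λ).Anch
  sl : (V.sl Λ).Ctr ∧ (V.sl Λ).Anch
  shift : ∀ s i, V.rho Λ (s + cst V.G.Om i) = V.rho Λ s
  float : ∀ u : Cfg Pt → ℝ, (∀ s, 0 ≤ u s) → (∀ s, HasSum (fun i : ℤ => u (s + cst V.G.Om i)) 1) →
    Wt (fun s => u s * V.rho Λ s) ∧ Zs (fun s => u s * V.rho Λ s) = V.Z Λ ∧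
    ∀ (F : Cfg Pt → ℝ) (C : ℝ), (∀ s, |F s| ≤ C) → (∀ s i, F (s + cst V.G.Om i) = F s) →
      Ex (fun s => u s * V.rho Λ s) F = V.EX Λ F
  fib0 : Pp (Kq75.fib (V.rho Λ) V.dH 0) ((V.m0 Λ).W 0)
  summ : ∀ q, Summable (Kq75.fib (V.rho Λ) V.dH q)
  loc : Loc ((V.m0 Λ).W 0) (V.rw Λ)
  gamb : ∀ (D : Finset Pt) (l : ℕ), D ⊆ V.G.A → Pot.nL.edI D ⊆ V.EA →
    Λ.GAmb (V.rw Λ) V.gk D l ∧ Λ.GAmb ((V.m0 Λ).W 0) V.gk D l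
  ga : Uv.GA Λ (V.rw Λ) (AddMonoidHom.id _) (V.mid \ V.lip) (V.mid \ V.lip)
  sec : ∀ (F : Cfg Pt → ℝ) (C : ℝ), (∀ s, |F s| ≤ C) →
    V.EX Λ (fun s => ind (s V.k1 = 1 ∧ s V.k2 = 1) * F (resH V.G.Om s)) = V.Pk Λ 1 * V.ES Λ F
  rat : V.Pk Λ 1 = V.Pk Λ 0 * Vd.rat (V.sl Λ) (ray 0)

/-- smooth pieces: off the slit, above it, below it -/
structure Pc (K : ℝ) (u : Fin 3 → Pt → ℝ) : Prop where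
  sm : ∀ i, Sm2 (u i) K V.G.R ∧ ∀ x, |u i x| ≤ K
  s0 : ∀ x, u 0 x ≠ 0 → bl x ⌊(V.G.R : ℝ) / K⌋₊ ⊆ V.G.A \ V.lip
  s12 : ∀ x, u 1 x ≠ 0 ∨ u 2 x ≠ 0 → bl x ⌊(V.G.R : ℝ) / K⌋₊ ⊆ V.up ∪ V.lo
noncomputable def glue (u : Fin 3 → Pt → ℝ) : Pt → ℝ := u 0 + Pot.on V.up (u 1) + Pot.on V.lo (u 2)

/-- windowed (K0) -/
def K0 (Λ : Lat) (g A ε : ℝ) (a b : ℕ) : Prop := a + b ≤ V.om2 ∧
  ∃ p₁ p₂ : Cfg Pt → ℝ, (∀ s, 0 ≤ p₁ s) ∧ (∀ s, 0 ≤ p₂ s) ∧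
    ∀ S : Finset (Cfg Pt × Cfg Pt), (∀ z ∈ S, |pr V.eq z.1| ≤ A) →
      ∑ z ∈ S, |V.nu Λ z * exp (-V.Bz g a b z / 2) - p₁ z.1 * p₂ z.2| ≤ ε

end Gv

/-! ## Deterministic leaves -/

def GeoStmt : Prop := ∀ (V : Gv) (W : ℝ), V.Ok W → V.Geo
/-- from `GeoStmt` -/
def AlgStmt : Prop := ∀ (V : Gv) (W : ℝ), V.Ok W → V.Alg

/-- DUAL: twisted flows by duality, lifting of plain flows -/
def DualStmt : Prop := ∀ (V : Gv) (ed : Finset (Pt × Pt)) (n : ℝ),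
  (∀ l : (Pt → ℝ) →ₗ[ℝ] ℝ, (∀ s, pr (fun x => l (Pot.dl x)) s = l (cu s)) ∧
    (0 ≤ n → (∀ u, l u ^ 2 ≤ n * V.eT ed u u) → V.Fx ed (fun x => l (Pot.dl x)) n)) ∧
  (∀ f, F2 ed f n → ∃ c₁ c₂ : ℝ, V.Fx ed (f + c₁ • Pot.dl V.k1 + c₂ • Pot.dl V.k2) n ∧
    ((∀ e ∈ ed, V.s1 e = 0) → c₁ = 0) ∧ ((∀ e ∈ ed, V.s2 e = 0) → c₂ = 0)) ∧
  ∀ f, V.Fx ed f n → (∀ ed', ed ⊆ ed' → V.Fx ed' f n) ∧ (∀ c : ℝ, V.Fx ed (c • f) (c ^ 2 * n)) ∧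
    (∀ f' n', V.Fx ed f' n' → V.Fx ed (f + f') (2 * n + 2 * n')) ∧
    (V.k1 ∉ V.G.Om → V.k2 ∉ V.G.Om → (∀ e ∈ ed, e.1 ∈ V.G.Om ∧ e.2 ∈ V.G.Om) →
      ∀ s i, pr f (s + cst V.G.Om i) = pr f s)

/-- CAP.  From `AlgStmt`, `Kr.AlgStmt` -/
def CapStmt : Prop := ∀ (V : Gv) (W : ℝ), V.Ok W → 1 / (2 * W) ≤ V.cp ∧ V.cp ≤ V.G.cp

/-- K2: screening -/
def K2Stmt : Prop := ∀ g₁ g₂ : ℝ, 0 < g₁ → ∃ C : ℝ, 0 < C ∧ ∀ g, g₁ ≤ g → g ≤ g₂ →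
  ∀ (V : Gv) (W : ℝ), V.Ok W → ∀ a b : ℕ, a + b ≤ V.om2 → ∀ s t,
    0 ≤ V.Bz g a b (s, t) ∧ V.Bz g a b (s, t) ≤ C * (V.nm (V.ma s) + V.nm (V.mb t)) ∧
    |V.B (V.ma s) (V.mb t)| ≤ C * (V.nm (V.ma s) + V.nm (V.mb t)) ∧
    |V.Bz g a b (s, t) / 2 - (V.Bq g a b (V.ma s) (V.ma s) / 2 + V.Bq g a b (V.mb t) (V.mb t) / 2 -
      V.B (V.ma s) (V.mb t) / g)| ≤ C / 2 ^ a * (V.nm (V.ma s) + V.nm (V.mb t))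

/-- M3: the harmonic extensions in the middle; level differences -/
def M3Stmt : Prop := ∀ (W : ℝ) (j : ℕ), ∃ C : ℝ, 0 < C ∧ ∀ V : Gv, V.Ok W → V.j = j →
  (∀ x ∈ V.mid, ∃ f f' : Pt → ℝ, V.Fx V.EO f C ∧ V.Fx V.EO f' C ∧
    (∀ a, V.ma a x = V.om x * pr V.eq a + pr f a) ∧
      ∀ b, V.mb b x = (1 - V.om x) * pr V.te b + pr f' b) ∧
  V.Fx V.EO (V.eq - V.te) C ∧ V.Fx V.EO (V.eq - Kw56.unC V.Ga) C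

/-- K3: the kernel in the sector `k₁ = k₂ = 1`; absolute constants.  From `Kr.K3Stmt` -/
def K3Stmt : Prop := ∃ C W₁ : ℝ, 0 < C ∧ ∀ (V : Gv) (W : ℝ), W₁ ≤ W → V.Ok W →
  ∃ (ψ₁ ψ₂ : Cfg Pt → ℝ) (yi di : Fin 2 → Pt → ℝ) (S : Finset Pt) (y₂ al : Pt → Pt → ℝ), S.Nonempty ∧
    (∀ i, V.Ic (yi i) C ∧ V.Oc (di i) (C / W ^ 2)) ∧
    (∀ w ∈ S, V.Ic (y₂ w) (C / W ^ 4) ∧ V.Oc (al w) C) ∧
    ∀ a b : Cfg Pt, a V.k1 = 1 → b V.k2 = 1 → V.y0 a b = ψ₁ a + ψ₂ b +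
      ∑ i, pr (yi i) a * pr (di i) b + (∑ w ∈ S, pr (y₂ w) a * pr (al w) b) / S.card

/-- TR.  From `Pot.GszStmt` -/
def TrStmt : Prop := ∀ (g₂ : ℝ) (j : ℕ), ∃ C : ℝ, ∀ g, 0 < g → g ≤ g₂ → ∀ (V : Gv) (W : ℝ), V.Ok W →
  V.j = j → ∀ a b : ℕ, a + b ≤ V.om2 →
    (V.Sm a b * V.Vm g a b * (V.Sm a b * V.Vm g a b)).trace ≤ C * 16 ^ a ∧
      (V.Sm a b * V.Vm g a b).trace ≤ C * 4 ^ a * 4 ^ (a + b)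

/-- P0 in the slit domain.  From `Pot.P0Stmt`, `Pot.HarmStmt` -/
def P0Stmt : Prop := ∀ (W K ε : ℝ) (j : ℕ), 0 < ε → ∃ (K' : ℝ) (R₀ : ℕ), 1 ≤ K' ∧
  ∀ V : Gv, V.Ok W → V.j = j → R₀ ≤ V.G.R → ∀ f : Pt → ℝ, (∀ x ∈ V.G.A, |f x| ≤ K / (V.G.R : ℝ) ^ 2) →
    ∃ u, V.Pc K' u ∧ Pot.edF V.EA (Pot.gr V.G.A (Pot.edF V.EA) f - V.glue u)
      (Pot.gr V.G.A (Pot.edF V.EA) f - V.glue u) ≤ ε

/-! ## Bare leaves -/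

def ExtStmt : Prop := ∀ (Λ : Lat) (V : Gv) (W : ℝ), Λ.Ok → Λ.J = nn → V.Ok W → V.Ext Λ

/-- MOM.  From `BrgStmt`, `ExtStmt` -/
def MomStmt : Prop := ∀ (F : Fa) (k : ℕ), F.J = nn → ∃ C : ℝ, 0 < C ∧ ∀ Λ, F.Mem Λ →
  ∀ (V : Gv) (W : ℝ), V.Ok W → ∀ (ι : Type) (S : Finset ι) (f : ι → Pt → ℝ) (n : ℝ), 0 < n →
    (∀ i ∈ S, V.Fx V.EO (f i) n) →
    (∀ i ∈ S, V.EX Λ (fun s => pr (f i) s ^ (2 * k)) ≤ C * n ^ k ∧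
      ∀ a, Ex (V.rm Λ a) (fun s => pr (f i) s ^ (2 * k)) ≤ C * n ^ k) ∧
    ∀ A : ℝ, 0 < A → Pr (V.rw Λ) (fun s => A * n * S.card < ∑ i ∈ S, pr (f i) s ^ 2) ≤ C / A ^ k

/-- crude TYP.  From `M3Stmt`, `MomStmt` -/
def TypStmt : Prop := ∀ (F : Fa) (W : ℝ) (j : ℕ), F.J = nn → ∃ C : ℝ, 0 < C ∧ ∀ Λ, F.Mem Λ →
  ∀ V : Gv, V.Ok W → V.j = j →
    (∀ K : ℝ, 0 < K → V.EX Λ (fun s => ind (K < |pr V.eq s - pr V.te s|)) ≤ C / K ^ 2) ∧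
    ∀ (α : ℝ) (A B : KrA.Act (Cfg Pt)), 0 < α → V.IsI A α → V.IsO B α →
      V.EX Λ (fun s => ind (¬ (A.T (V.dH s).1 ∧ B.T (V.dH s).2))) ≤ C / α ∧
      (∀ a, A.T a → V.nm (V.ma a) ≤ 2 * α + C * pr V.eq a ^ 2) ∧
      ∀ b, B.T b → V.nm (V.mb b) ≤ 2 * α + C * pr V.te b ^ 2

/-- BAR: the data law (`Kr.B90.Flt`) -/
def BarStmt : Prop := ∀ (Λ : Lat) (V : Gv) (W g α : ℝ) (A B : KrA.Act (Cfg Pt)), Λ.Ok → Λ.J = nn →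
  V.Ok W → V.IsI A α → V.IsO B α → Kr.Pre A B (V.nu Λ) (fun a b => V.y0 a b / g) ∧ 0 < V.Z Λ ∧
    (∀ (Ψ : Cfg Pt × Cfg Pt → ℝ) (C : ℝ), (∀ z, |Ψ z| ≤ C) →
      (∀ i a b, Ψ (A.s i a, B.s i b) = Ψ (a, b)) →
      ∑' z, KrA.tw (A.H z.1) * V.nu Λ z * Ψ z = V.EX Λ fun s => Ψ (V.dH s)) ∧
    ∀ (Φ : Cfg Pt → Cfg Pt → ℝ) (C : ℝ), (∀ a b, |Φ a b| ≤ C) → (∀ i a b, Φ (A.s i a) b = Φ a b) →
      (∀ i a b, Φ a (B.s i b) = Φ a b) →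
      KrA.br (KrA.mub A B (V.nu Λ)) Φ = V.EX Λ fun s => Φ (V.dH s).1 (V.dH s).2

/-- LAM.  From `M3Stmt`, `MomStmt` -/
def LamStmt : Prop := ∀ (F : Fa) (W : ℝ) (j : ℕ), F.J = nn → ∃ C : ℝ, 0 < C ∧ ∀ Λ, F.Mem Λ →
  ∀ V : Gv, V.Ok W → V.j = j → ∀ a : ℕ, HasSum (V.nuM Λ a) (Zs (V.rm Λ a)) ∧ 0 < Zs (V.rm Λ a) ∧
    (∀ z, 0 ≤ V.nuM Λ a z) ∧ ∀ A : ℝ, 0 < A →
      ∑' z, V.nuM Λ a z * ind (A < |pr V.eq z.1|) ≤ C / A ^ 2 * Zs (V.rm Λ a)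

/-- ZK: the weight of the sector.  From `MomStmt`, `ExtStmt`, cutting -/
def ZkStmt : Prop := ∀ F : Fa, F.J = nn → ∃ c : ℝ, 0 < c ∧ ∀ Λ, F.Mem Λ → ∀ (V : Gv) (W : ℝ), V.Ok W →
  c * TV Λ V.G ≤ V.Pk Λ 1 ∧ TV Λ V.G ≤ Vd.rat (V.sl Λ) (ray 0) ∧ 0 < TV Λ V.G ∧ TV Λ V.G ≤ 1

/-! ## Soft leaves -/

/-- `P Λ g V` for every slit condenser of ratio `W`, thinness `j`, size `L` in every good enough window -/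
def Wv (F : Fa) (θ₀ W K : ℝ) (j : ℕ) (P : Lat → ℝ → Gv → Prop) : Prop := ∃ δ : ℝ, 0 < δ ∧
  ∀ Λ, F.Mem Λ → ∀ l L, Λ.Win θ₀ δ l L → ∀ V : Gv, V.Ok W → V.j = j → V.G.At K L → P Λ (Λ.gN l) V

/-- the common prefix -/
def Sv (P : Fa → ℝ → ℝ → ℝ → ℕ → Prop) : Prop :=
  ∀ (F : Fa) (θ₀ W K : ℝ) (j : ℕ), F.J = nn → 0 < θ₀ → 1 ≤ K → P F θ₀ W K j

/-- T1 for glued pieces.  From `T1gStmt`, `BrgStmt`, `ExtStmt` -/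
def T1Stmt : Prop := Sv fun F θ₀ W K j => ∀ K' ε : ℝ, 1 ≤ K' → 0 < ε → Wv F θ₀ W K j fun Λ g V =>
  ∀ u, V.Pc K' u → Pot.edF V.EA (V.glue u) (V.glue u) ≤ 100 * K' ^ 2 ∧
    M (V.rw Λ) (V.X (V.glue u)) ≤ g * Pot.edF V.EA (V.glue u) (V.glue u) / 2 + ε

/-- DL for glued pieces.  From `T1Stmt`, `DlgStmt`, `Mx31.DlGenStmt` -/
def DlStmt : Prop := Sv fun F θ₀ W K j => ∀ K' ε : ℝ, 1 ≤ K' → 0 < ε → Wv F θ₀ W K j fun Λ g V =>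
  ∀ u, V.Pc K' u → g * Pot.edF V.EA (V.glue u) (V.glue u) - ε ≤
    Vr ((V.m0 Λ).W 0) (V.X (V.glue u)) (V.X (V.glue u))

/-- GFF.  From `P0Stmt`, `T1Stmt`, `DlStmt`, `BrgStmt`, `AFacStmt`, `ExtStmt` -/
def GffStmt : Prop := Sv fun F θ₀ W K j => ∀ K' ε : ℝ, 0 < ε → Wv F θ₀ W K j fun Λ g V =>
  ∀ f : Pt → ℝ, (∀ x ∈ V.G.A, |f x| ≤ K' / (V.G.R : ℝ) ^ 2) →
    Gs3 ((V.m0 Λ).W 0) (V.X (Pot.gr V.G.A V.B f)) (g * Pot.G V.G.A V.B f f) ε ∧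
    Gs3 (V.rw Λ) (V.X (Pot.gr V.G.A V.B f)) (g * Pot.G V.G.A V.B f f) ε

/-- UV.  From `Uv.GA.sq_le`, `ExtStmt`, `BrgStmt` -/
def UvStmt : Prop := Sv fun F θ₀ W K j => ∀ (ε : ℝ) (a : ℕ), 0 < ε → ∃ b₀ : ℕ, ∀ b, b₀ ≤ b →
  Wv F θ₀ W K j fun Λ _ V => a + b ≤ V.om2 ∧
    V.EX Λ (fun s => V.hi a b s ^ 2) ≤ (1 + ε) * V.EX Λ (V.hi a b) ^ 2

/-- (R).  From `GffStmt`, `UvStmt`, `TrStmt` (`Kq75.rd_soft`) -/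
def RStmt : Prop := Sv fun F θ₀ W K j => ∀ (ε : ℝ) (a : ℕ), 0 < ε → ∃ b : ℕ,
  Wv F θ₀ W K j fun Λ g V => a + b ≤ V.om2 ∧ ∃ c : ℝ, 0 < c ∧ ∀ (i : ℤ) (S : Finset (Cfg Pt × Cfg Pt)),
    ∑ z ∈ S, KrA.tw (pr V.eq z.1 - i) * |V.nuM Λ a z / c - V.nu Λ z * exp (-V.Bz g a b z / 2)| ≤ ε

/-- (F).  From `Mx.Mix0Stmt` -/
def FStmt : Prop := Sv fun F θ₀ W K j => ∀ ε : ℝ, 0 < ε → ∃ a₀ : ℕ, ∀ a, a₀ ≤ a →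
  Wv F θ₀ W K j fun Λ _ V => ∃ p₁ p₂ : Cfg Pt → ℝ, (∀ s, 0 ≤ p₁ s) ∧ (∀ s, 0 ≤ p₂ s) ∧
    ∀ S : Finset (Cfg Pt × Cfg Pt),
      ∑ z ∈ S, |V.nuM Λ a z / Zs (V.rm Λ a) - p₁ z.1 * p₂ z.2| ≤ ε

/-- (K0).  From `RStmt`, `FStmt`, `LamStmt`, `K2Stmt`, `TypStmt`, `BarStmt` -/
def K0Stmt : Prop := Sv fun F θ₀ W K j => ∀ (A ε : ℝ) (a₀ : ℕ), 0 < ε →
  ∃ a b : ℕ, a₀ ≤ a ∧ Wv F θ₀ W K j fun Λ g V => V.K0 Λ g A ε a b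

/-- (K#) on the extended lattice.  From `Kr.KsStmt`, `K0Stmt`, `K2Stmt`, `TypStmt`, `BarStmt`, `CapStmt` -/
def KshStmt : Prop := Sv fun F θ₀ W K j => ∀ η : ℝ, 0 < η → Wv F θ₀ W K j fun Λ g V => 0 < g ∧
  ∃ (α : ℝ) (A B : KrA.Act (Cfg Pt)) (p q : Cfg Pt → ℝ), V.IsI A α ∧ V.IsO B α ∧
    KrA.Shp A B (V.nu Λ) (V.cp / g) (fun a b => V.y0 a b / g) p q η

/-- SEC, abstract: conditioning (K#) on a product sector -/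
def SecStmt : Prop := ∃ C : ℝ, 1 ≤ C ∧ ∀ (X Y : Type) (A : KrA.Act X) (B : KrA.Act Y) (μ : X × Y → ℝ)
  (κ η β γ m : ℝ) (y : X → Y → ℝ) (p ψ₁ : X → ℝ) (q ψ₂ : Y → ℝ) (P : X → Prop) (Q : Y → Prop)
  (yy : Fin 2 → X → ℝ) (dd : Fin 2 → Y → ℝ), 0 < κ → KrA.Shp A B μ κ y p q η →
    HasSum (KrA.mub A B μ) 1 → (∀ i a, |yy i a| ≤ 1) → (∀ i b, |dd i b| ≤ β) → C * β ≤ 1 → C * γ ≤ 1 →
    exp (-(2 * π ^ 2 / κ)) ≤ γ →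
    (∀ a b, P a → Q b → |y a b - ψ₁ a - ψ₂ b - ∑ i, yy i a * dd i b| ≤ γ) → 0 < m →
    KrA.br (KrA.mub A B μ) (fun a b => ind (P a) * ind (Q b)) = m → η ≤ γ * m →
    let E : (X × Y → ℝ) → ℝ := fun Φ =>
      KrA.br (KrA.mub A B μ) (fun a b => ind (P a) * ind (Q b) * Φ (a, b)) / m
    ∀ (F : X → ℝ) (φ : Y → ℝ) (N M : ℝ), (∀ a, |F a| ≤ N) → (∀ b, |φ b| ≤ M) →
      |cov E (fun z => F z.1) (fun z => φ z.2) - ∑ i, cov E (fun z => F z.1) (fun z => yy i z.1) *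
        cov E (fun z => dd i z.2) (fun z => φ z.2)| ≤ C * (γ + β ^ 2) * (N * M) ∧
      ((∀ a, 0 ≤ F a) → (∀ b, 0 ≤ φ b) → |cov E (fun z => F z.1) fun z => φ z.2| ≤
        1 / 32 * (E (fun z => F z.1) * E fun z => φ z.2) + C * (η / m) * (N * M))

/-- SECT: the twisted slit model.  From `KshStmt`, `SecStmt`, `K3Stmt`, `MomStmt`, `ZkStmt`, `BarStmt`,
`ExtStmt`, `CapStmt`, `Kr.K77.lam_le` -/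
def SectStmt : Prop := ∀ (F : Fa) (θ₀ ε : ℝ) (N C : ℕ), F.J = nn → 0 < θ₀ → 0 < ε → ε ≤ 1 / 4 →
  ∃ W₁ : ℝ, ∀ W, W₁ ≤ W → ∀ (K : ℝ) (j : ℕ), 1 ≤ K → Wv F θ₀ W K j fun Λ g V => 2 - ε ≤ π * g →
    W ^ (-(C : ℝ)) ≤ TV Λ V.G →
      Out V.G (V.ES Λ) (W ^ (-1 + ε)) (W ^ (-2 + 5 / 2 * ε)) (1 / 16) (W ^ (-(N : ℝ)))

/-- RMV: removal of the slit.  From `Nc.RateStmt`, `Nc.D1Stmt`, `Nc.MonoCrStmt`, twisted (D1), `ZkStmt` -/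
def RmvStmt : Prop := ∀ (F : Fa) (θ₀ : ℝ), F.J = nn → 0 < θ₀ → ∃ C c : ℝ, 0 < c ∧
  ∀ (W K : ℝ) (j : ℕ), 1 ≤ K → Wv F θ₀ W K j fun Λ _ V => ∀ (Φ : Cfg Pt → ℝ) (B : ℝ),
    DepG (V.G.In ∪ V.G.Ou) Φ → (∀ s, |Φ s| ≤ B) →
      TV Λ V.G * |EV Λ V.G Φ - V.ES Λ Φ| ≤ C * (2 : ℝ) ^ (-(c * j)) * B

end Crest.Agent.T145.Kv
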