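import Crest.Agent.T145.KvRm_78
import Crest.Agent.T145.KsC_68
import Crest.Agent.T145.KvDef_8
import Crest.Agent.T145.NcAll_78
import Crest.Agent.T145.NcT4Def_78

/-!
# Row 145 (helper78): removal of the slit, `Kv.RmvStmt`
-/

set_option autoImplicit false

namespace Crest.Agent.T145.Kv78

open Finset Nc Ks68

section gen
variable {V : Type} [DecidableEq V] {m m' : Mdl V} {N S U K T X S' Y : Finset V} {σ : V × V → ℤ}
  {ψ : Cfg V}

/-- a gradient seam has weight one in a free model -/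
theorem zr_grad {r : V} (hF : m.Fm) (hY : Cn m Y) (hr : r ∈ Y) (hσ : ∀ e ∈ inn Y m.ed, σ e = dE e ψ) :
    zr (pn m Y {r}) σ = 1 := by
  rw [zr, div_eq_one_iff_eq (pn_wt hF hY hr (mem_singleton_self r) 0).ne,
    ← Zs_equiv (Equiv.addRight (pj Y r ψ)) ((pn m Y {r}).W 0)]
  refine congrArg _ (funext fun t => ?_)
  have h := Md.Ws_gauge (pn m Y {r}) 0 (pj Y r ψ) t 0 fun _ _ _ => rfl
  rw [Sl46.Ws_congr (pn m Y {r}) 0 (σ' := σ) fun e he => by
    rw [Pi.zero_apply, zero_add, dE_pj (mem_filter.1 he).2, hσ e he]] at h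
  rw [Equiv.coe_addRight, Md.W_eq_Ws, ← h, Mdl.Ws, Mdl.Ws]
  congr 2
  exact ind_congr (forall₂_congr fun x hx => by
    rw [Finsupp.add_apply 0, pj_off ψ hx, add_zero])

/-- filling a hole costs little in a sector whose seam only crosses the neighbourhood of the hole -/
theorem zr_ge (hc : m.Ctr) (ha : m.Anch) (h : Cut m N S U K T) (hX : Box (hole m N) X S')
    (hl : Cl (hole m N) X) (hh : (hole (hole m N) X).Anch) (hU : U ⊆ X) (hd : Disjoint N X)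
    (hσ : ∀ e ∈ inn (N ∪ X) m.ed, σ e = dE e ψ) :
    zr (hole m N) σ - zr m σ ≤ cr (hole m N) X T S' * (cr m U K T - 1) := by
  obtain ⟨r, hr⟩ := h.tne
  have hrU := h.tsub hr
  have hn : N.Nonempty := h.ne.mono h.sub
  have ch := hole_ctr hc N
  have ah := h.hole_anch ha
  set c := cr m U K T with hcd
  have c0 : 0 < c := cr_pos hc.1 h.cnU h.tsub h.tne K
  have p0 : ∀ s, 0 < (hdt m σ N U T s)⁻¹ := fun s => inv_pos.2 (hdt_pos hc.1 h σ s)
  have p1 : ∀ s, (hdt m σ N U T s)⁻¹ ≤ c := fun s => (inv_hdt_le hc.1 h σ s).trans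
    (mul_le_of_le_one_right c0.le (zr_le_one (fr_ctr hc.1 _) (fr_anch h.cn hn) σ))
  have p2 : ∀ s, |(hdt m σ N U T s)⁻¹| ≤ c := fun s => by rw [abs_of_pos (p0 s)]; exact p1 s
  have dF : DepG T fun s => c - (hdt m σ N U T s)⁻¹ := (hdt_depG h σ).comp fun a => c - a⁻¹
  have hTX := h.tsub.trans hU
  have k1 := (td1_one ch ah hX hl hTX hh σ dF (fun s => sub_nonneg.2 (p1 s))
    ((wt_rWs ch.1 hX.cn ⟨r, hTX hr⟩ σ).ig_bdd (C := c) fun s => by
      rw [abs_of_nonneg (sub_nonneg.2 (p1 s))]; linarith [p0 s])).2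
  have cn : Cn m (N ∪ X) := by
    have k : ∀ x ∈ N ∪ X, Conn (inn (N ∪ X) m.ed) x r := fun x hx => (mem_union.1 hx).elim
      (fun hx => (h.cn_union x (mem_union_left _ hx) r (mem_union_right _ hrU)).mono fun e he =>
        mem_filter.2 ⟨(mem_filter.1 he).1, union_subset_union_right hU (mem_filter.1 he).2.1,
          union_subset_union_right hU (mem_filter.1 he).2.2⟩)
      fun hx => (hX.cn x hx r (hTX hr)).mono fun e he =>
        mem_filter.2 ⟨(mem_hole_ed.1 (mem_filter.1 he).1).1, mem_union_right _ (mem_filter.1 he).2.1,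
          mem_union_right _ (mem_filter.1 he).2.2⟩
    exact fun x hx y hy => (k x hx).trans (k y hy).symm
  have hrX : r ∈ N ∪ X := mem_union_right _ (hTX hr)
  have c2 := pn_ctr hc.1 (N ∪ X) {r}
  have a2 := pn_anch cn hrX (mem_singleton_self r)
  have h2 := h.pn (R := {r}) (union_subset_union_right hU)
    (disjoint_singleton_right.2 (disjoint_right.1 h.disjT hr))
  have k2 := zr_glue c2 a2 h2 σ
  have k3 := (kap_bd c2 a2 h2).2
  have c3 := pn_ctr hc.1 X {r}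
  have a3 : (pn m X {r}).Anch := pn_anch ((agr_hole hd).cn hX.cn) (hTX hr) (mem_singleton_self r)
  rw [zr_grad hc.1 cn hrX hσ, hole_pn hd, hdt_congr h2 h (agr_pn (union_subset_union_right hU) _)] at k2
  have k4 : 1 ≤ zx (pn m X {r}) σ fun s => (hdt m σ N U T s)⁻¹ :=
    k2.trans_le (mul_le_of_le_one_left (zx_nonneg c3 σ fun s => (p0 s).le) k3)
  rw [zx_root (hTX hr) (dF.mono hTX), Hd10.pn_hole hd, (zx_add_sub c3 a3 σ p2).2,
    (zx_add_sub ch ah σ p2).2] at k1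
  have k5 := zr_le_one c3 a3 σ
  have k6 := zr_le_one (hole_ctr ch X) hh σ
  have k7 := zr_pos (hole_ctr ch X) hh σ
  have c4 : 0 ≤ cr (hole m N) X T S' := cr_nonneg ch.1 _ _ _
  obtain ⟨k8, k9⟩ := kap_bd hc ha h
  have c1 : 1 ≤ c := (div_le_one c0).1 (k8.trans k9)
  have k10 : c * zr (hole m N) σ - zx (hole m N) σ (fun s => (hdt m σ N U T s)⁻¹) ≤
      cr (hole m N) X T S' * (c - 1) := by
    refine k1.trans ?_
    calc _ ≤ cr (hole m N) X T S' * (c - 1) * zr (hole (hole m N) X) σ :=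
          mul_le_mul_of_nonneg_right (mul_le_mul_of_nonneg_left (by nlinarith) c4) k7.le
      _ ≤ _ := mul_le_of_le_one_right (mul_nonneg c4 (sub_nonneg.2 c1)) k6
  have k11 : zx (hole m N) σ (fun s => (hdt m σ N U T s)⁻¹) ≤ c * zr m σ := by
    rw [zr_glue hc ha h σ, ← mul_assoc]
    refine le_mul_of_one_le_left (zx_nonneg ch σ fun s => (p0 s).le) ?_
    rwa [div_le_iff₀' c0] at k8
  refine le_of_mul_le_mul_left ?_ c0
  nlinarith [mul_nonneg c4 (sub_nonneg.2 c1)]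

/-- **removal of a hole**, three scales -/
theorem rem_hole' (hc : m.Ctr) (ha : m.Anch) (h : Cut m N S U K T) (hX : Box (hole m N) X S')
    (hl : Cl (hole m N) X) (hh : (hole (hole m N) X).Anch) (hU : U ⊆ X) (hd : Disjoint N X)
    (hσ : ∀ e ∈ inn (N ∪ X) m.ed, σ e = dE e ψ) {g D C : ℝ} (hg : cr m U K T ≤ 1 + g)
    (hD : cr (hole m N) X T S' ≤ D) {G : Cfg V → ℝ} (oG : Out (N ∪ U \ T) G) (hG : ∀ s, |G s| ≤ C) :
    |zx m σ G - zx (hole m N) σ G| ≤ (2 + D) * g * C := by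
  have ch := hole_ctr hc N
  have ah := h.hole_anch ha
  have k1 := zr_ge hc ha h hX hl hh hU hd hσ
  set c := cr m U K T with hcd
  have c1 : 1 ≤ c := by
    obtain ⟨k2, k3⟩ := kap_bd hc ha h
    exact (div_le_one (cr_pos hc.1 h.cnU h.tsub h.tne K)).1 (k2.trans k3)
  have c4 : 0 ≤ cr (hole m N) X T S' := cr_nonneg ch.1 _ _ _
  have C0 : 0 ≤ C := (abs_nonneg _).trans (hG 0)
  have wh := Md.ctr_wts ch ah 0 σ
  have u1 := zx_le hc ha h σ (G := fun s => C + G s) (oG.comp fun a => C + a)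
    (fun s => by linarith [neg_abs_le (G s), hG s]) ((wh.ig_const _).add (wh.ig_bdd hG))
  have u2 := zx_le hc ha h σ (G := fun s => C - G s) (oG.comp fun a => C - a)
    (fun s => by linarith [le_abs_self (G s), hG s]) ((wh.ig_const _).sub (wh.ig_bdd hG))
  rw [(zx_add_sub hc ha _ hG).1, (zx_add_sub ch ah _ hG).1] at u1
  rw [(zx_add_sub hc ha _ hG).2, (zx_add_sub ch ah _ hG).2] at u2
  have u3 := abs_le.1 (abs_zx_le ch ah σ hG)
  have g1 : c - 1 ≤ g := by linarith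
  have a1 : C * (zr (hole m N) σ - zr m σ) ≤ C * (D * g) := mul_le_mul_of_nonneg_left
    (k1.trans (mul_le_mul hD g1 (sub_nonneg.2 c1) (c4.trans hD))) C0
  have a2 : (c - 1) * (C * zr (hole m N) σ) ≤ g * C :=
    mul_le_mul g1 (mul_le_of_le_one_right C0 (zr_le_one ch ah σ))
      (mul_nonneg C0 (zr_pos ch ah σ).le) (by linarith)
  have b1 := mul_le_mul_of_nonneg_left u3.1 (sub_nonneg.2 c1)
  have b2 := mul_le_mul_of_nonneg_left u3.2 (sub_nonneg.2 c1)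
  rw [abs_le]
  constructor <;> nlinarith

theorem hole_keep {E : Finset (V × V)} (hE : E ⊆ m.ed) (h : ∀ e ∈ m.ed, e ∉ E → e.1 ∈ N ∧ e.2 ∈ N) :
    hole (m.keep E) N = hole m N := by
  have : E.filter (fun e => e.1 ∉ N ∧ e.2 ∉ N) = m.ed.filter fun e => e.1 ∉ N ∧ e.2 ∉ N := by
    ext e; simp only [mem_filter]
    exact ⟨fun k => ⟨hE k.1, k.2⟩, fun k => ⟨by_contra fun k' => k.2.1 (h e k.1 k').1, k.2⟩⟩
  simp only [hole, Mdl.keep, this]

theorem cut_keep {E : Finset (V × V)} (h : Cut m N S U K T) (hE : E ⊆ m.ed)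
    (hN : ∀ e ∈ m.ed, e ∉ E → e.1 ∈ N ∧ e.2 ∈ N) (cn : Cn (m.keep E) N) : Cut (m.keep E) N S U K T where
  cn := cn
  sub := h.sub
  ne := h.ne
  cl := h.cl
  bd := (bd_mono_ed (m' := m.keep E) hE _).trans h.bd
  clN := h.clN
  disj := h.disj
  cnU := (agr_hole (m := m.keep E) h.disj).cn (by
    rw [hole_keep hE hN]; exact (agr_hole h.disj).symm.cn h.cnU)
  clU := h.clU
  ksub := h.ksub
  kne := h.kne
  kbd := (bd_mono_ed (m' := m.keep E) hE _).trans h.kbd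
  bne := by
    obtain ⟨b, hb⟩ := h.bne
    obtain ⟨h1, e, he, h2⟩ := Mdl.mem_bd.1 hb
    refine ⟨b, Mdl.mem_bd.2 ⟨h1, e, by_contra fun k => h1 ?_, h2⟩⟩
    rcases h2 with ⟨rfl, _⟩ | ⟨rfl, _⟩
    exacts [(hN e he k).1, (hN e he k).2]
  tsub := h.tsub
  tne := h.tne
  tbd := (bd_mono_ed (m' := m.keep E) hE _).trans h.tbd

/-- **removal of a slit**: edges inside `N` are deleted -/
theorem rem_keep {E : Finset (V × V)} (hc : m.Ctr) (ha' : (m.keep E).Anch) (h : Cut m N S U K T)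
    (hE : E ⊆ m.ed) (hN : ∀ e ∈ m.ed, e ∉ E → e.1 ∈ N ∧ e.2 ∈ N) (cn : Cn (m.keep E) N)
    (hX : Box (hole m N) X S') (hl : Cl (hole m N) X) (hh : (hole (hole m N) X).Anch) (hU : U ⊆ X)
    (hd : Disjoint N X) (hσ : ∀ e ∈ inn (N ∪ X) m.ed, σ e = dE e ψ) {g D C : ℝ}
    (hg : cr m U K T ≤ 1 + g) (hD : cr (hole m N) X T S' ≤ D) {G : Cfg V → ℝ} (oG : Out (N ∪ U \ T) G)
    (hG : ∀ s, |G s| ≤ C) :
    zr m σ * |Ex (m.Ws 0 σ) G - Ex ((m.keep E).Ws 0 σ) G| ≤ 4 * (2 + D) * g * C := by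
  have ha := ha'.of_keep hE
  have hc' := hc.keep hE
  have e := hole_keep hE hN
  have ag : Agr (m.keep E) m U := (agr_hole (m := m.keep E) h.disj).symm.trans (e ▸ agr_hole h.disj)
  have key : ∀ {G : Cfg V → ℝ} {C : ℝ}, Out (N ∪ U \ T) G → (∀ s, |G s| ≤ C) →
      |zx m σ G - zx (m.keep E) σ G| ≤ 2 * (2 + D) * g * C := fun oG hG => by
    have k1 := rem_hole' hc ha h hX hl hh hU hd hσ hg hD oG hG
    have k2 := rem_hole' hc' ha' (cut_keep h hE hN cn) (e ▸ hX) (e ▸ hl) (e ▸ hh) hU hd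
      (fun e he => hσ e (mem_filter.2 ⟨hE (mem_filter.1 he).1, (mem_filter.1 he).2⟩))
      (by rwa [ag.cr]) (e ▸ hD) oG hG
    rw [e] at k2
    rw [abs_le] at k1 k2 ⊢
    constructor <;> linarith
  have k1 := key (G := fun _ => 1) (C := 1) (Out.const _ _) fun _ => by simp
  rw [zx_one, zx_one, mul_one] at k1
  have k2 := ex_of_zx hc ha hc' ha' hG k1 (key oG hG)
  rw [le_div_iff₀' (zr_pos hc ha σ)] at k2
  linarith

end gen

open Geo Vd

/-- the lattice form: a horizontal slit of vertical edges inside `bl (ρ, 0) q` -/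
theorem rem_lat {Λ : Lat} (hΛ : Λ.Ok) (hJ : Λ.J = nn) {Ω : Finset Pt} {r : Pt} {E : Finset (Pt × Pt)}
    {ρ q R b : ℕ} (q1 : 1 ≤ q) (hq : q ≤ R) (hb : R + 2 ≤ b) (hρ : b ≤ ρ)
    (hΩ : bl ((ρ : ℤ), 0) (b + 1) ⊆ Ω) (hr : r ∉ bl ((ρ : ℤ), 0) b) (hE : E ⊆ Λ.edI Ω)
    (hs : ∀ e ∈ Λ.edI Ω, e ∉ E → (ρ : ℤ) - q < e.1.1 ∧ e.1.1 ≤ ρ + q ∧ e.1.2 = -1 ∧ e.2 = e.1 + (0, 1))
    (cn : ∀ x ∈ Ω, Conn E x r) {g D C : ℝ} (hg : gam Λ q (R + 1) ≤ 1 + g) (hD : gam Λ R b ≤ D)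
    {G : Cfg Pt → ℝ} (oG : Out (bl ((ρ : ℤ), 0) R) G) (hG : ∀ s, |G s| ≤ C) :
    zr (pn (Λ.N Ω) Ω {r}) (ray 0) * |Ex ((pn (Λ.N Ω) Ω {r}).Ws 0 (ray 0)) G -
      Ex (((pn (Λ.N Ω) Ω {r}).keep E).Ws 0 (ray 0)) G| ≤ 4 * (2 + D) * g * C := by
  have rg : Λ.rg = 1 := by rw [Lat.rg, hJ]; decide
  have jp : ∀ {e : Pt × Pt}, e.2 - e.1 ∈ Λ.Jp →
      (e.2.1 = e.1.1 + 1 ∧ e.2.2 = e.1.2) ∨ (e.2.1 = e.1.1 ∧ e.2.2 = e.1.2 + 1) := fun {e} h => by
    rw [show Λ.Jp = {(1, 0), (0, 1)} by rw [Lat.Jp, hJ]; decide, mem_insert, mem_singleton,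
      Prod.ext_iff, Prod.ext_iff] at h
    simp only [Prod.fst_sub, Prod.snd_sub] at h
    omega
  set z : Pt := ((ρ : ℤ), 0) with hz
  set m := pn (Λ.N Ω) Ω {r} with hm
  have ed : m.ed = Λ.edI Ω := Lat.inn_edI Subset.rfl
  have hF : (Λ.N Ω).Fm := fun _ _ => hΛ.fam
  have hc : m.Ctr := pn_ctr hF _ _
  have ha' : (m.keep E).Anch := fun x hx =>
    ⟨r, cn x (mem_sdiff.1 hx).1, Or.inl fun h => (mem_sdiff.1 h).2 (mem_singleton_self r)⟩
  have ha : m.Anch := ha'.of_keep (ed ▸ hE)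
  have lh : Lh Λ m ∅ z b := ⟨fun e he _ => ⟨(Lat.mem_edI.1 (ed ▸ he)).1, notMem_empty _, notMem_empty _⟩,
    by rw [sdiff_empty, rg]; exact (inL_N hΩ).pn hΩ _,
    by rw [sdiff_empty]; exact cl_pn ((bl_mono z (by omega)).trans hΩ) (disjoint_singleton_right.2 hr)⟩
  have lR : Lh Λ m ∅ z R := lh.mono (by omega)
  have cut := lR.cut0 hΛ (c := q) (by omega) hq
  have eB : bl z q ∪ an z q (R + Λ.rg) \ an z R (R + Λ.rg) = bl z R := by
    rw [an_sdiff_an z q (by omega), bl_union_an z hq]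
  have lH := lh.hole0 (bl z q)
  have hN : ∀ e ∈ m.ed, e ∉ E → e.1 ∈ bl z q ∧ e.2 ∈ bl z q := fun e he h => by
    obtain ⟨h1, h2, h3, h4⟩ := hs e (ed ▸ he) h
    rw [h4]; simp only [mem_bl, hz, Prod.fst_add, Prod.snd_add]; omega
  have sub : ∀ {P : Pt → Prop} [DecidablePred P], (∀ x, P x → P (x + (0, 1)) → x.2 = -1 →
      x.1 ≤ (ρ : ℤ) - q) → Λ.edI ((bl z q).filter P) ⊆ inn (bl z q) E := fun hP e he => by
    obtain ⟨h1, h2, h3⟩ := Lat.mem_edI.1 he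
    have hz' : bl z q ⊆ Ω := (bl_mono z (by omega)).trans hΩ
    refine mem_filter.2 ⟨by_contra fun k => ?_, (mem_filter.1 h2).1, (mem_filter.1 h3).1⟩
    obtain ⟨k1, -, k3, k4⟩ := hs e (Lat.mem_edI.2 ⟨h1, hz' (mem_filter.1 h2).1, hz' (mem_filter.1 h3).1⟩) k
    have := hP e.1 (mem_filter.1 h2).2 (k4 ▸ (mem_filter.1 h3).2) k3
    omega
  have cnE : Cn (m.keep E) (bl z q) := by
    have k : ∀ x ∈ bl z q, Conn (inn (bl z q) E) x ((ρ : ℤ) - q, 0) := fun x hx =>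
      ((hΛ.conn_rect (y := ((ρ : ℤ) - q, x.2)) (B := (bl z q).filter fun w => w.2 = x.2)
        fun w _ _ _ _ => by simp only [mem_filter, mem_bl, hz] at *; omega).mono
          (sub fun w h1 h2 _ => by simp only [Prod.snd_add] at h2; omega)).trans
      ((hΛ.conn_rect (B := (bl z q).filter fun w => w.1 = (ρ : ℤ) - q)
        fun w _ _ _ _ => by simp only [mem_filter, mem_bl, hz] at *; omega).mono
          (sub fun w h1 _ _ => h1.le))
    exact fun x hx y hy => (k x hx).trans (k y hy).symm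
  refine rem_keep (X := an z q b) (S' := an z (b - Λ.rg) b)
    (ψ := cst ((bl z b).filter fun x => 0 ≤ x.2) 1) hc ha' cut (ed ▸ hE) hN cnE
    ((lH.mono (by omega)).box' hΛ (by omega) (bl_mono z (by omega)) (cnL_an hΛ z (by omega))) lH.cl
    (by rw [hole_hole, bl_union_an z (by omega)]; exact lh.anch_hole hΛ ha le_rfl)
    (an_mono z le_rfl (by omega)) (disjoint_bl_an z b le_rfl) (fun e he => ?_)
    (by rw [lR.cr_cut hΛ (empty_subset _) hq, rg]; exact hg)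
    ((InL.cr_le U.monoCr hΛ (Nc.hole_ctr hc _).1 ((lH.inL_an Subset.rfl).mono (an_mono z le_rfl (by omega)))
      (cnL_an hΛ z (by omega)) (an_mono z hq le_rfl) (an_subset_bl z q b) (an_mono z hq (by omega))
      (an_subset_bl z R _) (an_nonempty z (by omega)) (by omega)).trans hD) (eB.symm ▸ oG) hG
  rw [bl_union_an z (by omega), ed] at he
  obtain ⟨h1, h2, h3⟩ := mem_filter.1 he
  have h4 := jp (Lat.mem_edI.1 h1).1
  simp only [dE, cst_apply, mem_filter, h2, h3, true_and, ray, Prod.fst_zero, Prod.snd_zero]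
  simp only [mem_bl, hz] at h2 h3
  split_ifs <;> omega

end Crest.Agent.T145.Kv78

namespace Crest.Agent.T145.Kv

open Finset Nc Ks68 Geo Kv78 Vd

theorem scales (C t ω ρ : ℕ) (hω : 1 ≤ ω) (h : ρ = 2 ^ (3 * C + 4 + t) * ω) : ∃ R b : ℕ, 5 * ω ≤ R ∧
    R + 2 ≤ b ∧ C * (5 * ω) ≤ R ∧ C * R ≤ b ∧ C * b ≤ 2 * ρ ∧ 2 * b ≤ ρ + 4 ∧ 2 ^ t * (5 * ω) ≤ R + 1 := by
  have hP : C < 2 ^ C := Nat.lt_two_pow_self
  have u1 : ω ≤ 2 ^ t * ω := Nat.le_mul_of_pos_left _ Nat.one_le_two_pow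
  have e : ρ = 2 * (2 ^ C * (2 ^ C * (2 ^ C * (8 * (2 ^ t * ω))))) := by rw [h]; ring
  rw [mul_left_comm (2 ^ t)]
  generalize 2 ^ C = P at hP e
  generalize 2 ^ t * ω = u at u1 e ⊢
  have P1 : 1 ≤ P := by omega
  have r0 : C * (5 * ω) ≤ P * (8 * u) := Nat.mul_le_mul hP.le (by omega)
  have r1 : 8 * u ≤ P * (8 * u) := Nat.le_mul_of_pos_left _ P1
  generalize P * (8 * u) = R at r0 r1 e
  have r2 : R ≤ P * R := Nat.le_mul_of_pos_left _ P1
  have r3 : P * R ≤ P * (P * R) := Nat.le_mul_of_pos_left _ P1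
  have r4 : P ≤ P * R := Nat.le_mul_of_pos_right _ (by omega)
  have r5 : C * R ≤ P * R := Nat.mul_le_mul_right _ hP.le
  have r6 : C * (P * R + 2) ≤ P * (P * R + 2) := Nat.mul_le_mul_right _ hP.le
  rw [mul_add P] at r6
  refine ⟨R, P * R + 2, ?_, ?_, ?_, ?_, ?_, ?_, ?_⟩ <;> omega

theorem rmvStmt (hR : RateStmt) (hG : GeoStmt) : RmvStmt := by
  intro F θ₀ hJ h0
  obtain ⟨C, c, c0, H⟩ := hR F θ₀ h0
  have C0 : (0 : ℝ) ≤ C := Nat.cast_nonneg _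
  refine ⟨(4 * (3 + C) * C + 2) * 2 ^ (c * (3 * C + 4 : ℕ)), c, c0, fun W K j _ =>
    ⟨1, one_pos, fun Λ hΛ l L hw V hV hj hA Φ B dΦ bΦ => ?_⟩⟩
  have g := hG V W hV
  have ok := hΛ.ok
  have hJ' : Λ.J = nn := hΛ.1.trans hJ
  have B0 : 0 ≤ B := (abs_nonneg _).trans (bΦ 0)
  have eI : Pot.nL.edI V.G.Om = Λ.edI V.G.Om := by
    simp only [Lat.edI, Lat.edT, Lat.Jp, hJ']; rfl
  have o1 := hV.g.hc
  have o2 := hV.g.out
  have o3 := g.r_le
  have o4 := g.rho_le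
  have o5 := g.ω16
  have o6 := g.ω_le
  have sub : V.G.In ∪ V.G.Ou ⊆ V.G.Om :=
    union_subset (an_mono 0 le_rfl (by omega)) (an_mono 0 (by omega) le_rfl)
  have rt : V.rt ∈ V.G.Om := sub (mem_union_right _ g.k_off.2.2.2)
  have hE : V.EO ⊆ Λ.edI V.G.Om := eI ▸ filter_subset _ _
  have e1 : TV Λ V.G = zr (pn (Λ.N V.G.Om) V.G.Om {V.rt}) (ray 0) := zr_root rt
  have e2 : EV Λ V.G Φ = Ex ((pn (Λ.N V.G.Om) V.G.Om {V.rt}).Ws 0 (ray 0)) Φ :=
    Ks68.ex_root rt (dΦ.mono sub)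
  have e3 : V.ES Λ Φ = Ex (((pn (Λ.N V.G.Om) V.G.Om {V.rt}).keep V.EO).Ws 0 (ray 0)) Φ := by
    rw [Gv.ES, Gv.sl, ← sdiff_singleton_eq_erase]; rfl
  have hc := pn_ctr (m := Λ.N V.G.Om) (fun _ _ => ok.fam) V.G.Om {V.rt}
  have ha' : ((pn (Λ.N V.G.Om) V.G.Om {V.rt}).keep V.EO).Anch := fun x hx =>
    ⟨V.rt, g.conn x (mem_sdiff.1 hx).1, Or.inl fun h => (mem_sdiff.1 h).2 (mem_singleton_self _)⟩
  have hE' : V.EO ⊆ (pn (Λ.N V.G.Om) V.G.Om {V.rt}).ed := hE.trans (Lat.inn_edI Subset.rfl).ge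
  have ha := ha'.of_keep hE'
  rw [e1, e2, e3, mul_assoc, mul_assoc, ← mul_assoc ((2 : ℝ) ^ _), ← Real.rpow_add two_pos]
  by_cases hs : j < 3 * C + 4
  · have k1 := (Md.ctr_wts hc ha 0 (ray 0)).abs_ex_le fun s _ => bΦ s
    have k2 := (Md.ctr_wts (hc.keep hE') ha' 0 (ray 0)).abs_ex_le fun s _ => bΦ s
    have k3 : (1 : ℝ) ≤ 2 ^ (c * (3 * C + 4 : ℕ) + -(c * j)) := Real.one_le_rpow one_le_two (by
      have : (j : ℝ) ≤ (3 * C + 4 : ℕ) := Nat.cast_le.2 hs.le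
      nlinarith)
    refine (mul_le_of_le_one_left (abs_nonneg _) (zr_le_one hc ha _)).trans
      (((abs_sub _ _).trans (add_le_add k1 k2)).trans ?_)
    have k4 : B ≤ 2 ^ (c * (3 * C + 4 : ℕ) + -(c * j)) * B := le_mul_of_one_le_left B0 k3
    have k5 := mul_nonneg (mul_nonneg (by positivity : (0 : ℝ) ≤ 4 * (3 + C)) C0) (B0.trans k4)
    linarith
  obtain ⟨t, ht⟩ := Nat.exists_eq_add_of_le (not_lt.1 hs)
  obtain ⟨R, b, r1, r2, r3, r4, r5, r6, r7⟩ := scales C t V.ω V.G.rho (by omega) (by rw [g.rho_eq, hj, ht])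
  have hL := hA.1
  have st : Stf Λ θ₀ (2 * L) := Or.inl hw.2.2.1
  have g1 := H Λ hΛ (2 * L) (5 * V.ω) (R + 1) st (by omega) (by omega)
    ((Nat.mul_le_mul_left C (show R + 1 ≤ b by omega)).trans (by omega))
  have g2 := H Λ hΛ (2 * L) R b st (by omega) r4 (by omega)
  have g3 : gam Λ R b ≤ 1 + C := g2.trans (by
    have : ((R : ℝ) / b) ^ c ≤ 1 := Real.rpow_le_one (by positivity)
      (div_le_one_of_le₀ (Nat.cast_le.2 (by omega)) (Nat.cast_nonneg _)) c0.le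
    linarith [mul_le_of_le_one_right C0 this])
  have g4 : (((5 * V.ω : ℕ) : ℝ) / (R + 1 : ℕ)) ^ c ≤ 2 ^ (c * (3 * C + 4 : ℕ) + -(c * j)) := by
    rw [show c * (3 * C + 4 : ℕ) + -(c * j) = (-(t : ℝ)) * c by rw [ht]; push_cast; ring,
      Real.rpow_mul zero_le_two]
    refine Real.rpow_le_rpow (by positivity) ?_ c0.le
    rw [Real.rpow_neg zero_le_two, Real.rpow_natCast, div_le_iff₀ (by positivity),
      le_inv_mul_iff₀ (by positivity)]
    exact_mod_cast r7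
  have k := rem_lat ok hJ' (Ω := V.G.Om) (r := V.rt) (E := V.EO) (ρ := V.G.rho) (q := 5 * V.ω) (R := R)
    (b := b) (by omega) (by omega) (by omega) (by omega)
    (fun x hx => by simp only [Kr.Gm.Om, mem_an, mem_bl, Prod.fst_zero, Prod.snd_zero] at hx ⊢; omega)
    (by simp only [Gv.rt, mem_bl]; omega) hE (fun e he h => ?_) g.conn g1 g3
    (dΦ.dep.out (disjoint_left.2 fun x hx hx' => by
      simp only [Kr.Gm.In, Kr.Gm.Ou, mem_union, mem_an, mem_bl, Prod.fst_zero, Prod.snd_zero] at hx hx'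
      omega)) bΦ
  · refine k.trans ?_
    have k4 := mul_le_mul_of_nonneg_right g4 B0
    have k5 : 0 ≤ 2 ^ (c * (3 * C + 4 : ℕ) + -(c * j)) * B := by positivity
    have k6 := mul_le_mul_of_nonneg_left k4 (by positivity : (0 : ℝ) ≤ 4 * (3 + C) * C)
    linarith
  · obtain ⟨h1, h2, h3⟩ := (g.slit e (eI ▸ he)).1 h
    simp only [Gv.lip, Gv.up, Gv.lo, mem_filter, mem_union, mem_sq] at h1
    refine ⟨?_, ?_, h2, h3⟩ <;> omega

end Crest.Agent.T145.Kv
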