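import Crest.Agent.T145.KrV_90

/-!
# Row 145, module Kv: conditioning (K#) on a product sector, abstract part (helper74)
-/

set_option autoImplicit false

namespace Crest.Agent.T145.Kv.S74

open Finset Real KrA

variable {X Y : Type*}

theorem ind_nonneg (P : Prop) : 0 ≤ ind P := by unfold ind; split_ifs <;> norm_num
theorem ind_le_one (P : Prop) : ind P ≤ 1 := by unfold ind; split_ifs <;> norm_num
theorem ind_of {P : Prop} (h : P) : ind P = 1 := by unfold ind; exact if_pos h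
theorem ind_not {P : Prop} (h : ¬ P) : ind P = 0 := by unfold ind; exact if_neg h
theorem of_ind {P : Prop} (h : ind P ≠ 0) : P := by by_contra h'; exact h (ind_not h')

/-- a nonnegative summable product with a nonzero value has summable factors -/
theorem summ_fac {u : X → ℝ} {v : Y → ℝ} (s : Summable fun z : X × Y => u z.1 * v z.2) {a₀ : X} {b₀ : Y}
    (h : u a₀ * v b₀ ≠ 0) : Summable u ∧ Summable v := by
  have ha : u a₀ ≠ 0 := left_ne_zero_of_mul h
  have hb : v b₀ ≠ 0 := right_ne_zero_of_mul h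
  constructor
  · have := (s.comp_injective (i := fun a : X => (a, b₀)) fun a a' e => congrArg Prod.fst e).mul_right (v b₀)⁻¹
    exact this.congr fun a => by simp only [Function.comp]; field_simp
  · have := (s.comp_injective (i := fun b : Y => (a₀, b)) fun a a' e => congrArg Prod.snd e).mul_left (u a₀)⁻¹
    exact this.congr fun a => by simp only [Function.comp]; field_simp

theorem ker_near {th l d β : ℝ} (d2 : |th - 1| ≤ 3 * l) (l0 : 0 ≤ l) (hd : |d| ≤ β) (hβ : β ≤ 1 / 20)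
    (hl : l ≤ 1 / 20) : |th * exp d - 1| ≤ 3 * β + 3 * l := by
  have β0 : 0 ≤ β := (abs_nonneg _).trans hd
  have d1 := abs_le.1 ((abs_exp_sub_one_le (hd.trans (by linarith))).trans
    (mul_le_mul_of_nonneg_left hd zero_le_two))
  have d3 : |(th - 1) * (exp d - 1)| ≤ 3 * l * (2 * β) := by
    rw [abs_mul]; exact mul_le_mul d2 (abs_le.2 d1) (abs_nonneg _) (by positivity)
  rw [abs_le] at *
  constructor <;> nlinarith [d1.1, d1.2, d2.1, d2.2, d3.1, d3.2]

variable {A : Act X} {B : Act Y} {μ : X × Y → ℝ} {κ η : ℝ} {y : X → Y → ℝ} {p : X → ℝ} {q : Y → ℝ}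

/-- restriction of (K#) to a product sector, with unbounded one-sided terms -/
theorem restrict2 (h : Shp A B μ κ y p q η) {β₁ m : ℝ} (hκ : 0 < κ) (P : X → Prop) (Q : Y → Prop)
    (ψ₁ : X → ℝ) (ψ₂ : Y → ℝ) (β0 : 0 ≤ β₁) (y1 : ∀ a b, P a → Q b → |y a b - ψ₁ a - ψ₂ b| ≤ β₁)
    (m0 : 0 < m) (hm : br (mub A B μ) (fun a b => ind (P a) * ind (Q b)) = m)
    (hη : η ≤ m / 2) (hβ : β₁ ≤ 1 / 20) (hl : exp (-(2 * π ^ 2 / κ)) ≤ 1 / 20) :
    Fac (fun z => mub A B μ z * (ind (P z.1) * ind (Q z.2)) / m)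
      (fun a => ind (P a) * (p a * exp (ψ₁ a))) (fun b => ind (Q b) * (q b * exp (ψ₂ b)) / m)
      (fun a b => thk κ (A.H a - B.H b) * exp (y a b - ψ₁ a - ψ₂ b)) (η / m)
      (3 * β₁ + 3 * exp (-(2 * π ^ 2 / κ))) := by
  set l := exp (-(2 * π ^ 2 / κ)) with hl'
  have l0 : 0 < l := exp_pos _
  have n0 := mub_nonneg A B h.μ0
  have sμ := (hasSum_mub_one A B h.μ0 h.μ1).summable
  have i0 : ∀ z : X × Y, 0 ≤ ind (P z.1) * ind (Q z.2) := fun z => mul_nonneg (ind_nonneg _) (ind_nonneg _)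
  have s1 : Summable fun z : X × Y => mub A B μ z * (ind (P z.1) * ind (Q z.2)) :=
    summ_bdd n0 sμ (U := 1) fun z _ => by
      rw [abs_of_nonneg (i0 z)]
      exact mul_le_one₀ (ind_le_one _) (ind_nonneg _) (ind_le_one _)
  set u : X → ℝ := fun a => ind (P a) * (p a * exp (ψ₁ a)) with hu
  set v : Y → ℝ := fun b => ind (Q b) * (q b * exp (ψ₂ b)) / m with hv
  set k : X → Y → ℝ := fun a b => thk κ (A.H a - B.H b) * exp (y a b - ψ₁ a - ψ₂ b) with hk
  have u0 : ∀ a, 0 ≤ u a := fun a => mul_nonneg (ind_nonneg _) (mul_nonneg (h.p0 a) (exp_pos _).le)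
  have v0 : ∀ b, 0 ≤ v b := fun b =>
    div_nonneg (mul_nonneg (ind_nonneg _) (mul_nonneg (h.q0 b) (exp_pos _).le)) m0.le
  have k1 : ∀ a b, u a ≠ 0 → v b ≠ 0 → |k a b - 1| ≤ 3 * β₁ + 3 * l := fun a b ha hb => by
    have hP : P a := of_ind (left_ne_zero_of_mul ha)
    have hQ : Q b := of_ind (left_ne_zero_of_mul (div_ne_zero_iff.1 hb).1)
    exact ker_near (thk_near hκ (hl.trans (by norm_num)) _) l0.le (y1 a b hP hQ) hβ hl
  have b : ∀ z : X × Y, |mub A B μ z * (ind (P z.1) * ind (Q z.2)) / m - u z.1 * v z.2 * k z.1 z.2| ≤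
      |mub A B μ z - p z.1 * q z.2 * (thk κ (A.H z.1 - B.H z.2) * exp (y z.1 z.2))| / m := fun z => by
    simp only [hu, hv, hk]
    by_cases hP : P z.1
    · by_cases hQ : Q z.2
      · rw [ind_of hP, ind_of hQ, ← abs_of_pos m0, ← abs_div, abs_of_pos m0, exp_sub, exp_sub]
        exact le_of_eq (by congr 1; field_simp)
      · rw [ind_not hQ]
        simp only [mul_zero, zero_mul, zero_div, sub_zero, abs_zero]; positivity
    · rw [ind_not hP]
      simp only [mul_zero, zero_mul, zero_div, sub_zero, abs_zero]; positivity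
  have sb := Summable.of_nonneg_of_le (fun _ => abs_nonneg _) b (h.sm.div_const m)
  have cl : ∑' z : X × Y, |mub A B μ z * (ind (P z.1) * ind (Q z.2)) / m - u z.1 * v z.2 * k z.1 z.2| ≤
      η / m := by
    refine (sb.tsum_le_tsum b (h.sm.div_const m)).trans ?_
    rw [tsum_div_const]
    exact div_le_div_of_nonneg_right h.cl m0.le
  have one : HasSum (fun z : X × Y => mub A B μ z * (ind (P z.1) * ind (Q z.2)) / m) 1 := by
    have := s1.hasSum.div_const m
    rwa [show (∑' z : X × Y, mub A B μ z * (ind (P z.1) * ind (Q z.2))) = m from hm,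
      div_self m0.ne'] at this
  have η1 : η / m ≤ 1 / 2 := by rw [div_le_iff₀ m0]; linarith
  have suv : Summable fun z : X × Y => u z.1 * v z.2 := by
    have s2 : Summable fun z : X × Y => u z.1 * v z.2 * k z.1 z.2 :=
      (one.summable.sub sb.of_abs).congr fun z => by ring
    refine Summable.of_nonneg_of_le (fun z => mul_nonneg (u0 _) (v0 _)) (fun z => ?_) (s2.mul_left 2)
    by_cases h0 : u z.1 * v z.2 = 0
    · rw [h0]; simp
    · have := (abs_le.1 (k1 _ _ (left_ne_zero_of_mul h0) (right_ne_zero_of_mul h0))).1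
      nlinarith [mul_nonneg (u0 z.1) (v0 z.2)]
  obtain ⟨z₀, hz⟩ : ∃ z : X × Y, u z.1 * v z.2 ≠ 0 := by
    by_contra hn
    push Not at hn
    have e : ∀ z : X × Y, |mub A B μ z * (ind (P z.1) * ind (Q z.2)) / m - u z.1 * v z.2 * k z.1 z.2| =
        mub A B μ z * (ind (P z.1) * ind (Q z.2)) / m := fun z => by
      rw [hn z, zero_mul, sub_zero, abs_of_nonneg (div_nonneg (mul_nonneg (n0 z) (i0 z)) m0.le)]
    rw [tsum_congr e, one.tsum_eq] at cl
    linarith
  obtain ⟨su, sv⟩ := summ_fac suv hz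
  exact ⟨fun z => div_nonneg (mul_nonneg (n0 z) (i0 z)) m0.le, one, u0, su, v0, sv, cl, k1, η1,
    by positivity, by linarith⟩

theorem num1 {β γ e : ℝ} (β0 : 0 ≤ β) (γ0 : 0 ≤ γ) (hβ : 10000 * β ≤ 1) (hγ : 10000 * γ ≤ 1) {l : ℝ}
    (hl : l ≤ γ) (he : e ≤ γ) :
    4 * e + 12 * (γ + (γ + 2 * β) ^ 2 + 2 * (3 * l)) +
      60 * (e + 3 * (3 * (γ + 2 * β) + 3 * l)) * (2 * (1 * β)) ≤ 10000 * (γ + β ^ 2) := by
  have h1 : (e + 3 * (3 * (γ + 2 * β) + 3 * l)) * β ≤ (19 * γ + 18 * β) * β :=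
    mul_le_mul_of_nonneg_right (by linarith) β0
  have h2 : γ * β ≤ γ := mul_le_of_le_one_right γ0 (by linarith)
  have h3 : γ * γ ≤ γ := mul_le_of_le_one_right γ0 (by linarith)
  nlinarith [sq_nonneg β]

/-- SEC with the covariances written out -/
theorem sec_abs {β γ m : ℝ} {ψ₁ : X → ℝ} {ψ₂ : Y → ℝ} {P : X → Prop} {Q : Y → Prop}
    {yy : Fin 2 → X → ℝ} {dd : Fin 2 → Y → ℝ} (hκ : 0 < κ) (h : Shp A B μ κ y p q η)
    (hy : ∀ i a, |yy i a| ≤ 1) (hd : ∀ i b, |dd i b| ≤ β) (hβ : 10000 * β ≤ 1) (hγ : 10000 * γ ≤ 1)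
    (hl : exp (-(2 * π ^ 2 / κ)) ≤ γ)
    (y2 : ∀ a b, P a → Q b → |y a b - ψ₁ a - ψ₂ b - ∑ i, yy i a * dd i b| ≤ γ) (m0 : 0 < m)
    (hm : br (mub A B μ) (fun a b => ind (P a) * ind (Q b)) = m) (hη : η ≤ γ * m)
    {ν : X × Y → ℝ} (hν : ν = fun z => mub A B μ z * (ind (P z.1) * ind (Q z.2)) / m)
    {F : X → ℝ} {φ : Y → ℝ} {N M : ℝ} (hF : ∀ a, |F a| ≤ N) (hφ : ∀ b, |φ b| ≤ M) :
    |br ν (fun a b => F a * φ b) - br ν (fun a _ => F a) * br ν (fun _ b => φ b) -
      ∑ i, (br ν (fun a _ => F a * yy i a) - br ν (fun a _ => F a) * br ν fun a _ => yy i a) *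
        (br ν (fun _ b => dd i b * φ b) - br ν (fun _ b => dd i b) * br ν fun _ b => φ b)| ≤
      10000 * (γ + β ^ 2) * (N * M) ∧
    ((∀ a, 0 ≤ F a) → (∀ b, 0 ≤ φ b) →
      |br ν (fun a b => F a * φ b) - br ν (fun a _ => F a) * br ν (fun _ b => φ b)| ≤
        1 / 32 * (br ν (fun a _ => F a) * br ν fun _ b => φ b) + 10000 * (η / m) * (N * M)) := by
  have γ0 : 0 < γ := (exp_pos _).trans_le hl
  obtain ⟨⟨a₀, b₀⟩⟩ : Nonempty (X × Y) := by
    by_contra hn
    rw [not_nonempty_iff] at hn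
    have := (hasSum_mub_one A B h.μ0 h.μ1).tsum_eq
    simp at this
  have β0 : 0 ≤ β := (abs_nonneg _).trans (hd 0 b₀)
  have N0 : 0 ≤ N := (abs_nonneg _).trans (hF a₀)
  have M0 : 0 ≤ M := (abs_nonneg _).trans (hφ b₀)
  have z1 : ∀ a b, |∑ i, yy i a * dd i b| ≤ 2 * β := fun a b => by
    have t : ∀ i, |yy i a * dd i b| ≤ β := fun i => by
      rw [abs_mul]; exact (mul_le_of_le_one_left (abs_nonneg _) (hy i a)).trans (hd i b)
    rw [Fin.sum_univ_two]
    exact (abs_add_le _ _).trans (by linarith [t 0, t 1])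
  have y1 : ∀ a b, P a → Q b → |y a b - ψ₁ a - ψ₂ b| ≤ γ + 2 * β := fun a b hP hQ => by
    have h1 := abs_le.1 (y2 a b hP hQ)
    have h2 := abs_le.1 (z1 a b)
    rw [abs_le]; constructor <;> linarith [h1.1, h1.2, h2.1, h2.2]
  have he : η / m ≤ γ := by rw [div_le_iff₀ m0]; exact hη
  have f := restrict2 h hκ P Q ψ₁ ψ₂ (by positivity) y1 m0 hm (by nlinarith) (by linarith) (by linarith)
  rw [← hν] at f
  have e0 := f.η0
  constructor
  · have := f.vec univ (yy := yy) (d := dd) (y₀ := 1) (d₀ := β)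
      (β := γ + (γ + 2 * β) ^ 2 + 2 * (3 * exp (-(2 * π ^ 2 / κ)))) zero_le_one β0 (by positivity)
      (fun i _ => hy i) (fun i _ => hd i) (fun a b ha hb => by
        have hP : P a := of_ind (left_ne_zero_of_mul ha)
        have hQ : Q b := of_ind (left_ne_zero_of_mul (div_ne_zero_iff.1 hb).1)
        exact ker_vec (thk_near hκ (by linarith) _) (y1 a b hP hQ) (by linarith) (y2 a b hP hQ))
      N0 hF M0 hφ
    refine this.trans ?_
    rw [mul_comm (N * M), card_univ, Fintype.card_fin, Nat.cast_ofNat]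
    exact mul_le_mul_of_nonneg_right (num1 β0 γ0.le hβ hγ hl he) (mul_nonneg N0 M0)
  · intro F0 φ0
    have := f.mix (by linarith) (by linarith) N0 M0 F0 (fun a => (le_abs_self _).trans (hF a)) φ0
      fun b => (le_abs_self _).trans (hφ b)
    refine this.trans (add_le_add (mul_le_mul_of_nonneg_right (by linarith) (mul_nonneg ?_ ?_))
      (mul_le_mul_of_nonneg_right (by linarith) (mul_nonneg N0 M0)))
    · exact tsum_nonneg fun z => mul_nonneg (f.μ0 z) (F0 _)
    · exact tsum_nonneg fun z => mul_nonneg (f.μ0 z) (φ0 _)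

theorem br_div (μ : X × Y → ℝ) (P : X → Prop) (Q : Y → Prop) (m : ℝ) (Φ : X × Y → ℝ) :
    br μ (fun a b => ind (P a) * ind (Q b) * Φ (a, b)) / m =
      br (fun z => μ z * (ind (P z.1) * ind (Q z.2)) / m) fun a b => Φ (a, b) := by
  unfold br
  rw [← tsum_div_const]
  exact tsum_congr fun z => by ring

end Crest.Agent.T145.Kv.S74
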