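import Crest.Agent.T145.KvDef_8
import Crest.Agent.T145.KvSecA_74

/-!
# Row 145, module Kv: SEC (helper74)
-/

set_option autoImplicit false

namespace Crest.Agent.T145.Kv

theorem secStmt : SecStmt := by
  refine ⟨10000, by norm_num, ?_⟩
  intro X Y A B μ κ η β γ m y p ψ₁ q ψ₂ P Q yy dd hκ h _ hy hd hβ hγ hl y2 m0 hm hη E F φ N M hF hφ
  have := S74.sec_abs hκ h hy hd hβ hγ hl y2 m0 hm hη rfl hF hφ
  simp only [cov, E, S74.br_div]
  exact this

end Crest.Agent.T145.Kv
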