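import Crest.Agent.T145.KrDef_77
import Crest.Agent.T145.Soft_23
import Crest.Agent.T145.PotG_17

/-!
# Row 145, module KERNEL: (K#) from the windowed (K0) (helper77)
-/

set_option autoImplicit false

namespace Crest.Agent.T145.Kr

open Finset Real Filter

namespace K77

theorem sec_mono {X Y : Type} {μ : X × Y → ℝ} {p : X → ℝ} {q : Y → ℝ} {κ : X → Y → ℝ} {H : X → ℝ}
    {t : Y → ℝ} {y : X → Y → ℝ} {ng : X ≃ X} {lam η ω β₀ β₁ η' ω' β₀' : ℝ}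
    (h : KrA.Sec μ p q κ H t y ng lam η ω β₀ β₁) (h1 : η ≤ η') (h1' : η' ≤ 1 / 2) (h2 : ω ≤ ω')
    (h2' : ω' ≤ 1 / 2) (h3 : β₀ ≤ β₀') : KrA.Sec μ p q κ H t y ng lam η' ω' β₀' β₁ :=
  ⟨⟨h.μ0, h.μ1, h.π0, h.πs, h.π'0, h.π's, h.close.trans h1, fun a b ha hb => (h.κ1 a b ha hb).trans h2,
    h1', h.ω0.trans h2, h2'⟩, h.lam0, h.β₀0.trans h3, h.β₁0,
    fun a b ha hb => (h.exp a b ha hb).trans h3, h.yle, h.πng, h.Hng, h.yng⟩

theorem pr_res {U : Finset Pt} {f : Pt → ℝ} (hf : Sup U f) (s : Cfg Pt) : pr f (resH U s) = pr f s := by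
  rw [pr_apply f _ (U := U) fun x hx => by rw [hf x hx, zero_mul],
    pr_apply f s (U := U) fun x hx => by rw [hf x hx, zero_mul]]
  exact sum_congr rfl fun x hx => by rw [resH_apply, if_pos hx]

theorem an_sub {a b a' b' : ℕ} (h1 : a' ≤ a) (h2 : b ≤ b') : Nc.an 0 a b ⊆ Nc.an 0 a' b' :=
  sdiff_subset_sdiff (bl_mono _ h2) (bl_mono _ h1)

variable {G : Gm} {W : ℝ}

theorem sup_eq (hG : G.Ok W) (hA : G.Alg) : Sup G.In G.eq := fun x hx =>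
  hA.eq_sup x fun h => hx (an_sub (by have := hG.hc; have := hG.hr; omega) le_rfl h)

theorem r_le_R (hG : G.Ok W) : 1024 * G.r ≤ G.R := by
  have : (1024 : ℝ) * G.r ≤ G.R := (mul_le_mul_of_nonneg_right hG.hW (Nat.cast_nonneg _)).trans hG.lo
  exact_mod_cast this

theorem sup_te (hG : G.Ok W) (hA : G.Alg) : Sup G.Ou G.te := fun x hx =>
  hA.te_sup x fun h => hx (an_sub le_rfl (by have := r_le_R hG; have := hG.out; have := hG.hr; omega) h)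

theorem ga_cst (hA : G.Alg) (k : Fin 4 × Fin 2) (c R : ℕ) (a : Cfg Pt) (i : ℤ) :
    ga k (a + cst (Nc.an 0 c R) i) = ga k a + cst (Nc.an 0 c R) i := by
  rw [ga_eq, ga_eq, map_add, mapH_cst, (hA.map_an k c R).1]

/-- the range of `g` -/
theorem g_range (ha : T1aStmt) {F : Fa} {Λ : Lat} (hΛ : F.Mem Λ) {l : ℕ} (hl : 1 ≤ l) :
    Λ.gN l ≤ max F.τ₂ 1 := by
  obtain ⟨C, hC⟩ := ha F
  have h := hC Λ hΛ l hl
  refine le_trans ?_ ((hΛ.inv_e0_le).trans (le_max_left _ _))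
  exact div_le_div_of_nonneg_right h.2.1 hΛ.e0_pos.le

theorem half_le {g ε : ℝ} (hε : ε ≤ 1 / 4) (h : 2 - ε ≤ π * g) : 1 / 2 ≤ g := by
  by_contra h'
  have := pi_lt_d2
  nlinarith [pi_pos]

/-- the capacity -/
theorem cap_bd : ∃ C : ℝ, 0 ≤ C ∧ ∀ (G : Gm) (W : ℝ), G.Ok W →
    log W / (2 * π) - C ≤ G.cp⁻¹ ∧ G.cp⁻¹ ≤ log (2 * W) / (2 * π) + C := by
  obtain ⟨C, C0, h⟩ := Pot.cap_nL
  refine ⟨C, C0, fun G W hG => ?_⟩
  have h1 := r_le_R hG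
  have h2 := hG.hr
  have r0 : (0 : ℝ) < G.r := by exact_mod_cast (by omega : 0 < G.r)
  have R0 : (0 : ℝ) < G.R := by exact_mod_cast (by omega : 0 < G.R)
  have W0 : 0 < W := by linarith [hG.hW]
  have := abs_le.1 (h 0 G.r G.R G.R (bl 0 G.R) (by omega) (by omega) subset_rfl subset_rfl).2
  rw [div_self R0.ne', log_one, mul_zero, add_zero] at this
  have l1 : log W ≤ log (G.R / G.r) := log_le_log W0 ((le_div_iff₀ r0).2 hG.lo)
  have l2 : log (G.R / G.r) ≤ log (2 * W) :=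
    log_le_log (by positivity) ((div_le_iff₀ r0).2 hG.hi)
  have p0 : 0 < 2 * π := by positivity
  have := div_le_div_of_nonneg_right l1 p0.le
  have := div_le_div_of_nonneg_right l2 p0.le
  unfold Gm.cp Gm.B
  constructor <;> linarith

theorem lam_le {C cp g W ε : ℝ} (C0 : 0 ≤ C) (W0 : 0 < W) (hε : 0 < ε) (hg : 2 - ε ≤ π * g)
    (g0 : 0 < g) (h1 : log W / (2 * π) - C ≤ cp⁻¹) (h2 : 2 * π * (C + 2) ≤ log W)
    (h3 : exp (4 * π * C) ≤ W ^ (ε / 4)) : exp (-(2 * π ^ 2 / (cp / g))) ≤ W ^ (-2 + 5 / 4 * ε) := by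
  have p0 := pi_pos
  have e1 : 2 * π ^ 2 / (cp / g) = π * g * (2 * π * cp⁻¹) := by
    rw [div_div_eq_mul_div, div_eq_mul_inv]; ring
  have e2 : log W - 2 * π * C ≤ 2 * π * cp⁻¹ := by
    have := mul_le_mul_of_nonneg_left h1 (by positivity : 0 ≤ 2 * π)
    rwa [mul_sub, mul_div_cancel₀ _ (by positivity)] at this
  have e3 : 0 ≤ log W - 2 * π * C := by nlinarith
  have e4 : (2 - ε) * (log W - 2 * π * C) ≤ π * g * (2 * π * cp⁻¹) :=
    (mul_le_mul_of_nonneg_right hg e3).trans (mul_le_mul_of_nonneg_left e2 (by positivity))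
  have e5 : 4 * π * C ≤ log W * (ε / 4) := by rwa [rpow_def_of_pos W0, exp_le_exp] at h3
  rw [rpow_def_of_pos W0, exp_le_exp, e1]
  have : 0 ≤ ε * (π * C) := by positivity
  nlinarith

/-- the tail of the window -/
theorem tail {Λ : Lat} {δ A₂ g K : ℝ} {A B : KrA.Act (Cfg Pt)} (hG : G.Ok W) (hA : G.Alg)
    (hT : G.Typ Λ W δ A₂ A B) (hP : Pre A B (G.nu Λ) fun a b => G.y0 a b / g)
    (hb : ∀ (Ψ : Cfg Pt × Cfg Pt → ℝ) (C : ℝ), (∀ z, |Ψ z| ≤ C) →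
      (∀ i a b, Ψ (A.s i a, B.s i b) = Ψ (a, b)) →
      ∑' z, KrA.tw (A.H z.1) * G.nu Λ z * Ψ z = G.EA Λ fun s => Ψ (G.dat s)) (hK : 0 < K) :
    ∑' z : Cfg Pt × Cfg Pt, KrA.tw (A.H z.1) * G.nu Λ z *
      ind (¬ (A.T z.1 ∧ B.T z.2 ∧ |A.H z.1 - B.H z.2| ≤ K / 2)) ≤
        W ^ (-10 : ℝ) + A₂ / (K / 2) ^ 2 := by
  have ab : ∀ p : Prop, |ind p| ≤ 1 := fun p => by
    rw [abs_of_nonneg (ind_nonneg p)]; exact ind_le_one p
  have w0 : ∀ z : Cfg Pt × Cfg Pt, 0 ≤ KrA.tw (A.H z.1) * G.nu Λ z := fun z =>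
    mul_nonneg (KrA.tw_nonneg _) (hP.nonneg z)
  have S : ∀ p : Cfg Pt × Cfg Pt → Prop,
      Summable fun z : Cfg Pt × Cfg Pt => KrA.tw (A.H z.1) * G.nu Λ z * ind (p z) := fun p =>
    KrA.summ_bdd w0 hP.one.summable (U := 1) fun z _ => ab _
  have h1 := hb (fun z => ind (¬ (A.T z.1 ∧ B.T z.2))) 1 (fun z => ab _) fun i a b => by
    simp only [A.T_s, B.T_s]
  have h2 := hb (fun z => ind (K / 2 < |A.H z.1 - B.H z.2|)) 1 (fun z => ab _) fun i a b => by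
    simp only [A.H_s, B.H_s, add_sub_add_right_eq_sub]
  have h3 := hT.far (K / 2) (by positivity)
  have h4 : (fun s => ind (K / 2 < |A.H (G.dat s).1 - B.H (G.dat s).2|)) =
      fun s => ind (K / 2 < |pr G.eq s - pr G.te s|) := by
    funext s
    rw [hT.isI.2.2, hT.isO.2.2, Gm.dat, pr_res (sup_eq hG hA), pr_res (sup_te hG hA)]
  rw [h4] at h2
  refine le_trans ?_ (add_le_add (h1.trans_le hT.bad) (h2.trans_le h3))
  rw [← (S _).tsum_add (S _)]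
  refine (S _).tsum_le_tsum (fun z => ?_) ((S _).add (S _))
  rw [← mul_add]
  refine mul_le_mul_of_nonneg_left ((ind_mono fun h => ?_).trans (ind_or_le _ _)) (w0 z)
  by_contra h'
  rw [not_or, not_not, not_lt] at h'
  exact h ⟨h'.1.1, h'.1.2, h'.2⟩

theorem num {W ε lam : ℝ} (hε : 0 < ε) (hε4 : ε ≤ 1 / 4) (hW : 1024 ≤ W) (h : 20 ≤ W ^ (ε / 4))
    (l0 : 0 ≤ lam) (hl : lam ≤ W ^ (-2 + 5 / 4 * ε)) :
    2 * W ^ (-1 + ε / 4) ≤ W ^ (-1 + ε / 2) ∧ W ^ (-1 + ε / 2) ≤ 1 / 20 ∧ lam ≤ 1 / 20 ∧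
      20 * W ^ (-10 : ℝ) ≤ W ^ (-9 : ℝ) ∧ W ^ (-9 : ℝ) ≤ 1 / 2 ∧
      3 * W ^ (-1 + ε / 2) + 3 * lam ≤ W ^ (-1 + ε) ∧ W ^ (-1 + ε) ≤ 1 / 2 ∧
      (W ^ (-1 + ε / 2)) ^ 3 + 4 * lam * W ^ (-1 + ε / 2) + 12 * lam ^ 4 ≤ W ^ (-3 + 2 * ε) := by
  have W1 : 1 ≤ W := by linarith
  have W0 : 0 < W := by linarith
  have mo : ∀ {a b : ℝ}, a ≤ b → W ^ a ≤ W ^ b := fun h => rpow_le_rpow_of_exponent_le W1 h
  have st : ∀ {a b : ℝ}, a + ε / 4 ≤ b → 20 * W ^ a ≤ W ^ b := fun {a b} hab => by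
    refine le_trans ?_ (mo hab)
    rw [rpow_add W0, mul_comm]
    exact mul_le_mul_of_nonneg_left h (rpow_nonneg W0.le _)
  have p : ∀ a : ℝ, 0 < W ^ a := fun a => rpow_pos_of_pos W0 a
  have z : ∀ {a : ℝ}, a + ε / 4 ≤ 0 → W ^ a ≤ 1 / 20 := fun {a} ha => by
    have := st ha; rw [rpow_zero] at this; linarith
  have a1 := st (a := -1 + ε / 4) (b := -1 + ε / 2) (by linarith)
  have a2 := st (a := -1 + ε / 2) (b := -1 + ε) (by linarith)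
  have a3 := mo (a := -2 + 5 / 4 * ε) (b := -1 + ε / 2) (by linarith)
  have a4 := st (a := -3 + 7 / 4 * ε) (b := -3 + 2 * ε) (by linarith)
  have b1 : (W ^ (-1 + ε / 2)) ^ 3 ≤ W ^ (-3 + 7 / 4 * ε) := by
    rw [← rpow_natCast, ← rpow_mul W0.le]; exact mo (by push_cast; linarith)
  have b2 : lam * W ^ (-1 + ε / 2) ≤ W ^ (-3 + 7 / 4 * ε) := by
    refine (mul_le_mul_of_nonneg_right hl (p _).le).trans ?_
    rw [← rpow_add W0]; exact mo (by linarith)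
  have b3 : lam ^ 4 ≤ W ^ (-3 + 7 / 4 * ε) := by
    refine (pow_le_pow_left₀ l0 hl 4).trans ?_
    rw [← rpow_natCast, ← rpow_mul W0.le]; exact mo (by push_cast; linarith)
  refine ⟨by linarith [p (-1 + ε / 4)], z (by linarith), hl.trans (z (by linarith)), st (by linarith),
    (z (by linarith)).trans (by norm_num), by linarith [p (-1 + ε / 2)],
    (z (by linarith)).trans (by norm_num), by linarith [p (-3 + 7 / 4 * ε)]⟩

end K77

set_option maxHeartbeats 800000 in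
open K77 in
theorem kshStmt (hKs : KsStmt) (hK0 : K0Stmt) (hK2 : K2Stmt) (hT : TypStmt) (hB : BarStmt)
    (hA : AlgStmt) (ha : T1aStmt) : KshStmt := by
  intro F θ₀ ε hθ hε hε4
  obtain ⟨Cc, Cc0, hcap⟩ := cap_bd
  set g₂ := max F.τ₂ 1 with hg₂
  have g₂1 : 1 ≤ g₂ := le_max_right _ _
  obtain ⟨C, C0, hK2⟩ := hK2 (1 / 2) g₂ (by norm_num)
  obtain ⟨W₁, hW₁⟩ := hT F (ε / 4) (by positivity)
  have t1 := tendsto_rpow_atTop (y := ε / 4) (by positivity)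
  obtain ⟨W₂, hW₂⟩ := eventually_atTop.1 ((eventually_ge_atTop W₁).and ((eventually_ge_atTop 1024).and
    ((t1.eventually_ge_atTop 20).and ((t1.eventually_ge_atTop (exp (4 * π * Cc))).and
      (tendsto_log_atTop.eventually_ge_atTop (2 * π * (Cc + 2)))))))
  refine ⟨W₂, fun W hW Kw hKw => ?_⟩
  obtain ⟨w1, w2, w3, w4, w5⟩ := hW₂ W hW
  have W0 : 0 < W := by linarith
  have p0 := pi_pos
  obtain ⟨A₂, A0, hTy⟩ := hW₁ W w1
  set U := log (2 * W) / (2 * π) + Cc with hU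
  have U0 : 0 < U := by
    have := log_pos (x := 2 * W) (by linarith); positivity
  set η := W ^ (-10 : ℝ) with hη
  have η0 : 0 < η := rpow_pos_of_pos W0 _
  obtain ⟨K₀, hKs⟩ := hKs (U * g₂)⁻¹ 1 1 η (by positivity) η0
  set K := max K₀ (1 + 4 * A₂ / η) with hK
  have q0 : 0 ≤ 4 * A₂ / η := by positivity
  have K1 : 1 + 4 * A₂ / η ≤ K := le_max_right _ _
  have K0 : 0 < K := by linarith
  have Kt : A₂ / (K / 2) ^ 2 ≤ η := by
    rw [div_le_iff₀ (by positivity)]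
    have : 4 * A₂ / η ≤ K ^ 2 := by nlinarith
    rw [div_le_iff₀ η0] at this; linarith
  set M := C * (2 * (A₂ * (1 + K ^ 2))) with hM
  obtain ⟨e, e0, hKs⟩ := hKs K M (le_max_left _ _)
  obtain ⟨a₀, ha₀⟩ := pow_unbounded_of_one_lt (M / e) (one_lt_two (α := ℝ))
  obtain ⟨a, b, hab, δ, δ0, hδ⟩ := hK0 F θ₀ W Kw K e a₀ hθ hKw e0
  refine ⟨δ, δ0, fun Λ hΛ l L hw G hG hL hg => ?_⟩
  obtain ⟨hp, p₁, p₂, p10, p20, h0⟩ := hδ Λ hΛ l L hw G hG hL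
  set g := Λ.gN l
  have g1 := half_le hε4 hg
  have g0 : 0 < g := by linarith
  have g2 : g ≤ g₂ := g_range ha hΛ hw.one_le_l
  have Al := hA G W hG
  obtain ⟨A, B, Ty⟩ := hTy Λ hΛ G hG
  obtain ⟨Pr, -, nuk, bar, -⟩ := hB Λ G W g A B hΛ.ok hG Ty.isI Ty.isO
  obtain ⟨c1, c2⟩ := hcap G W hG
  have cp0 := Al.cp_pos
  have hl : G.lam g ≤ W ^ (-2 + 5 / 4 * ε) := lam_le Cc0 W0 hε hg g0 c1 w5 w4
  obtain ⟨n1, n2, n3, n4, n5, n6, n7, n8⟩ := num hε hε4 w2 w3 (exp_pos _).le hl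
  have κ0 : (U * g₂)⁻¹ ≤ G.cp / g := by
    rw [← one_div, div_le_div_iff₀ (by positivity) g0]
    have : 1 ≤ G.cp * U := by
      have := mul_le_mul_of_nonneg_left c2 cp0.le
      rwa [mul_inv_cancel₀ cp0.ne'] at this
    nlinarith
  have κ1 : G.cp / g ≤ 1 := by
    have h2 : 2 ≤ G.cp⁻¹ := le_trans (by
      have := (le_div_iff₀' (by positivity : 0 < 2 * π)).2 w5; linarith) c1
    have := mul_le_mul_of_nonneg_left h2 cp0.le
    rw [mul_inv_cancel₀ cp0.ne'] at this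
    rw [div_le_one g0]; linarith
  have yb : ∀ a b, A.T a → B.T b → |G.y0 a b / g| ≤ W ^ (-1 + ε / 2) := fun a b h1 h2 => by
    rw [abs_div, abs_of_pos g0, div_le_iff₀ g0]
    have := Ty.y1 a b h1 h2
    nlinarith [rpow_pos_of_pos W0 (-1 + ε / 2)]
  obtain ⟨p, q, P0, Q0, pe, -, sp, sq, sy, cl⟩ := hKs _ _ A B (G.nu Λ) (G.Bz g a b)
    (fun s t => G.y0 s t / g) p₁ (fun s => G.Bq g a b (G.ma s) (G.ma s) / 2) p₂
    (fun t => G.Bq g a b (G.mb t) (G.mb t) / 2) (G.cp / g) (η + η) κ0 κ1 Pr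
    (fun s t h1 h2 => (yb s t h1 h2).trans (by linarith)) p10 p20
    ((tail hG Al Ty Pr bar K0).trans (by linarith))
    (fun S hS => h0 S fun z hz => by rw [← Ty.isI.2.2]; exact hS z hz)
    (fun s t h1 h2 h3 h4 => by
      obtain ⟨-, k1, k2⟩ := hK2 g g1 g2 G W hG a b hp s t
      rw [Ty.isI.2.2] at h2 ⊢
      rw [Ty.isO.2.2] at h4 ⊢
      have m1 := (Ty.ma s h1).trans (mul_le_mul_of_nonneg_left
        (add_le_add_right (sq_le_sq' (abs_le.1 h2).1 (abs_le.1 h2).2) 1) A0.le)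
      have m2 := (Ty.mb t h3).trans (mul_le_mul_of_nonneg_left
        (add_le_add_right (sq_le_sq' (abs_le.1 h4).1 (abs_le.1 h4).2) 1) A0.le)
      have m3 : C * (G.nm (G.ma s) + G.nm (G.mb t)) ≤ M :=
        mul_le_mul_of_nonneg_left (by linarith) C0.le
      refine ⟨k1.trans m3, le_of_eq_of_le ?_ (k2.trans ?_)⟩
      · congr 2
        have : G.B (G.ma s) (G.mb t) = -(G.cp * pr G.eq s * pr G.te t + G.y0 s t) := by
          rw [← Al.k1, neg_neg]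
        rw [this]; ring
      · have t2 : (2 : ℝ) ^ a₀ ≤ 2 ^ a := pow_le_pow_right₀ one_le_two hab
        rw [div_mul_eq_mul_div, div_le_iff₀ (by positivity)]
        rw [div_lt_iff₀ e0] at ha₀
        nlinarith)
  have S := KrA.sec_of A B (div_pos cp0 g0) Pr.nonneg Pr.one P0 Q0 pe sp sq
    (fun s t => by rw [Ty.isI.2.1, (Al.y_neg s t).1, neg_div]) (rpow_pos_of_pos W0 _).le yb cl
    (by linarith) n2 n3
  refine ⟨A₂, A, B, _, _, _, Ty, sec_mono S (by linarith) n5 n6 n7 n8, fun k s => ?_,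
    fun s h => (A.pib_ne (right_ne_zero_of_mul h)).1, fun t h => (B.pib_ne h).1, hl⟩
  have HI : ∀ s, A.H (ga k s) = A.H s := fun s => by rw [Ty.isI.2.2, Ty.isI.2.2, Al.ga_eq]
  have := (sy (ga k) (ga k) ⟨nuk k, HI, fun t => by rw [Ty.isO.2.2, Ty.isO.2.2, Al.ga_te],
    fun s t => by rw [Al.ga_y], fun s => (Ty.gaT k s).1, fun t => (Ty.gaT k t).2⟩).1
  show _ * A.pib p (ga k s) = _ * A.pib p s
  rw [A.pib_inv (ga k) this (fun i s => by rw [Ty.isI.1, Ty.isI.1]; exact ga_cst Al k _ _ s i) HI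
    fun s => (Ty.gaT k s).1]

end Crest.Agent.T145.Kr
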