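import Crest.Agent.T145.KrDef_77
import Crest.Agent.T145.NcGeo_51
import Crest.Agent.T145.Route_51
import Crest.Agent.T145.Soft_23

/-!
# Row 145, module KERNEL: the typical sets (helper74)
-/

set_option autoImplicit false

namespace Crest.Agent.T145.Kr

open Finset Real

namespace T74

/-! ## the group of the square -/

/-- matrices of the symmetries -/
def mt (k : Fin 4 × Fin 2) : (ℤ × ℤ) × ℤ × ℤ :=
  ![![((1, 0), 0, 1), ((0, 1), 1, 0)], ![((0, -1), 1, 0), ((-1, 0), 0, 1)],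
    ![((-1, 0), 0, -1), ((0, -1), -1, 0)], ![((0, 1), -1, 0), ((1, 0), 0, -1)]] k.1 k.2

theorem gp_apply (k : Fin 4 × Fin 2) (x : Pt) : gp k x =
    ((mt k).1.1 * x.1 + (mt k).1.2 * x.2, (mt k).2.1 * x.1 + (mt k).2.2 * x.2) := by
  obtain ⟨a, b⟩ := k
  fin_cases a <;> fin_cases b <;> simp [gp, mt, pow_succ, rotZ, swpZ]

theorem mt_mul : ∀ k k' : Fin 4 × Fin 2, ∃ j, mt j =
    (((mt k).1.1 * (mt k').1.1 + (mt k).1.2 * (mt k').2.1,
      (mt k).1.1 * (mt k').1.2 + (mt k).1.2 * (mt k').2.2),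
      (mt k).2.1 * (mt k').1.1 + (mt k).2.2 * (mt k').2.1,
      (mt k).2.1 * (mt k').1.2 + (mt k).2.2 * (mt k').2.2) := by decide

theorem mt_inv : ∀ k' : Fin 4 × Fin 2, ∃ k, ((1, 0), 0, 1) =
    (((mt k).1.1 * (mt k').1.1 + (mt k).1.2 * (mt k').2.1,
      (mt k).1.1 * (mt k').1.2 + (mt k).1.2 * (mt k').2.2),
      (mt k).2.1 * (mt k').1.1 + (mt k).2.2 * (mt k').2.1,
      (mt k).2.1 * (mt k').1.2 + (mt k).2.2 * (mt k').2.2) := by decide

theorem gp_mul (k k' : Fin 4 × Fin 2) : ∃ j, ∀ x, gp k (gp k' x) = gp j x := by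
  obtain ⟨j, hj⟩ := mt_mul k k'
  refine ⟨j, fun x => ?_⟩
  simp only [gp_apply, hj]
  ext <;> simp only <;> ring

theorem gp_inv (k' : Fin 4 × Fin 2) : ∃ k, ∀ x, gp k (gp k' x) = x := by
  obtain ⟨k, hk⟩ := mt_inv k'
  refine ⟨k, fun x => ?_⟩
  simp only [Prod.mk.injEq] at hk
  obtain ⟨⟨h1, h2⟩, h3, h4⟩ := hk
  simp only [gp_apply]
  ext <;> simp only
  · linear_combination (-x.1) * h1 - x.2 * h2
  · linear_combination (-x.1) * h3 - x.2 * h4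

theorem ga_mul (k k' : Fin 4 × Fin 2) : ∃ j, ∀ a, ga k (ga k' a) = ga j a := by
  obtain ⟨j, hj⟩ := gp_mul k k'
  refine ⟨j, fun a => ?_⟩
  ext y
  obtain ⟨x, rfl⟩ := (gp j).surjective y
  simp only [ga_eq, mapH_apply, Equiv.symm_apply_apply]
  rw [← hj]; simp only [Equiv.symm_apply_apply]

theorem ga_inv (k' : Fin 4 × Fin 2) : ∃ k, ∀ a, ga k (ga k' a) = a := by
  obtain ⟨k, hk⟩ := gp_inv k'
  refine ⟨k, fun a => ?_⟩
  ext y
  simp only [ga_eq, mapH_apply]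
  conv_lhs => rw [← hk y]
  simp only [Equiv.symm_apply_apply]

theorem ga_zero (a : Cfg Pt) : ga (0, 0) a = a := by
  ext y; simp only [ga_eq, gp, mapH_apply]; rfl

theorem all_ga (P : Cfg Pt → Prop) (k : Fin 4 × Fin 2) (a : Cfg Pt) :
    (∀ j, P (ga j (ga k a))) ↔ ∀ j, P (ga j a) := by
  have key : ∀ k a, (∀ j, P (ga j a)) → ∀ j, P (ga j (ga k a)) := fun k a h j => by
    obtain ⟨i, hi⟩ := ga_mul j k; rw [hi]; exact h i
  refine ⟨fun h => ?_, key k a⟩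
  obtain ⟨i, hi⟩ := ga_inv k
  simpa only [hi] using key i _ h

/-! ## quadratic tests -/

/-- a family of charges with a threshold -/
structure Tst where
  S : Finset Pt
  f : Pt → Pt → ℝ
  θ : ℝ

/-- the test is passed -/
def Tst.ok (t : Tst) (a : Cfg Pt) : Prop := ∑ w ∈ t.S, pr (t.f w) a ^ 2 ≤ t.θ

/-- neutral charges on `U` -/
def Tst.Nt (t : Tst) (U : Finset Pt) : Prop := ∀ w ∈ t.S, Sup U (t.f w) ∧ ∑ x ∈ U, t.f w x = 0

theorem Tst.ok_congr {t : Tst} {a b : Cfg Pt} (h : ∀ w ∈ t.S, pr (t.f w) a ^ 2 = pr (t.f w) b ^ 2) :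
    t.ok a ↔ t.ok b := by rw [Tst.ok, Tst.ok, sum_congr rfl h]

theorem pr_res {U : Finset Pt} {f : Pt → ℝ} (h : Sup U f) (s : Cfg Pt) : pr f (resH U s) = pr f s := by
  rw [pr_of_fsupp f _ h, pr_of_fsupp f _ h]
  exact sum_congr rfl fun x hx => by rw [resH_apply, if_pos hx]

theorem ga_res {U : Finset Pt} {k : Fin 4 × Fin 2} (h : U.map (gp k).toEmbedding = U) (s : Cfg Pt) :
    ga k (resH U s) = resH U (ga k s) := by
  ext y
  have : (gp k).symm y ∈ U ↔ y ∈ U := by rw [← mem_map_equiv, h]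
  simp only [ga_eq, mapH_apply, resH_apply, this]

/-- the action with the typical set of a list of tests -/
noncomputable def act (U : Finset Pt) (hU : ∀ k, U.map (gp k).toEmbedding = U) (e : Pt → ℝ)
    (he : ∑ x ∈ U, e x = 1) (l : List Tst) (hl : ∀ t ∈ l, t.Nt U) : KrA.Act (Cfg Pt) where
  s i := Equiv.addRight (cst U i)
  ng := Equiv.neg _
  H a := pr e a
  T a := ∀ k, ∀ t ∈ l, t.ok (ga k a)
  s_add i j a := by simp only [Equiv.coe_addRight, cst_add]; abel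
  s_zero a := by simp
  ng_s i a := by simp only [Equiv.coe_addRight, Equiv.neg_apply, cst_neg]; abel
  H_s i a := by simp only [Equiv.coe_addRight, map_add, pr_cst, he, one_mul]
  H_ng a := by simp
  T_s i a := forall_congr' fun k => forall₂_congr fun t ht => Tst.ok_congr fun w hw => by
    simp only [Equiv.coe_addRight, ga_eq, map_add, mapH_cst, hU, pr_cst, (hl t ht w hw).2, zero_mul,
      add_zero]
  T_ng a := forall_congr' fun k => forall₂_congr fun t _ => Tst.ok_congr fun w _ => by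
    simp only [Equiv.neg_apply, ga_eq, map_neg, neg_sq]

theorem pr_list {α β : Type} {W : α → ℝ} (hW : Wt W) (p : β → α → Prop) {b : ℝ} (l : List β)
    (h : ∀ t ∈ l, Pr W (p t) ≤ b) : Pr W (fun a => ∃ t ∈ l, p t a) ≤ l.length * b := by
  induction l with
  | nil => simpa using (Pr_of_forall_not (W := W) (p := fun _ => False) fun _ _ => id).le
  | cons t l ih =>
    have h1 := hW.pr_or_le (p t) fun a => ∃ t ∈ l, p t a
    have h2 := ih fun t ht => h t (List.mem_cons_of_mem _ ht)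
    have h3 := h t List.mem_cons_self
    simp only [List.exists_mem_cons_iff, List.length_cons]
    push_cast; linarith

variable {Λ : Lat} {O U : Finset Pt}

theorem wt_Nr (hΛ : Λ.Ok) (hO : Nc.Geo.CnL Λ O) {r : Pt} (hr : r ∈ O) : Wt ((Λ.Nr O r).W 0) :=
  (hΛ.ctr_Nr O r).wt (Lat.anch_Nr fun x hx => hO x hx r hr) 0

/-- a neutral test that fails rarely -/
def Tst.Gd (t : Tst) (Λ : Lat) (O U : Finset Pt) (b : ℝ) : Prop :=
  t.Nt U ∧ ∀ r ∈ O, Pr ((Λ.Nr O r).W 0) (fun s => ¬ t.ok s) ≤ b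

theorem bad_le (hΛ : Λ.Ok) (hO : Nc.Geo.CnL Λ O) (hs : ∀ k, Λ.Sym (gp k))
    (hO' : ∀ k, O.map (gp k).toEmbedding = O) (hU : ∀ k, U.map (gp k).toEmbedding = U) {l : List Tst}
    {b : ℝ} (hl : ∀ t ∈ l, t.Gd Λ O U b) {r : Pt} (hr : r ∈ O) :
    Pr ((Λ.Nr O r).W 0) (fun s => ¬ ∀ k, ∀ t ∈ l, t.ok (ga k (resH U s))) ≤ 8 * (l.length * b) := by
  have hW := wt_Nr hΛ hO hr
  refine (hW.pr_mono (q := fun s => ∃ k ∈ univ, ∃ t ∈ l, ¬ t.ok (ga k s)) fun s _ h => ?_).trans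
    ((hW.pr_exists_le _ _).trans ?_)
  · by_contra hc
    refine h fun k t ht => ?_
    rw [ga_res (hU k), Tst.ok_congr (b := ga k s) fun w hw => by rw [pr_res ((hl t ht).1 w hw).1]]
    by_contra h2
    exact hc ⟨k, mem_univ _, t, ht, h2⟩
  · refine (sum_le_card_nsmul _ _ (l.length * b) fun k _ => ?_).trans (by simp)
    refine pr_list hW (fun t s => ¬ t.ok (ga k s)) l fun t ht => ?_
    have := (hs k).ex_Nr0 hΛ (hO' k) r fun s => ind (¬ t.ok s)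
    exact this.symm.trans_le ((hl t ht).2 _ (hO' k ▸ mem_map_of_mem _ hr))

/-- the tail half of `MomStmt` -/
def Tl (Λ : Lat) (C : ℝ) (k : ℕ) : Prop :=
  ∀ (m : Mdl Pt) (ed : Finset (Pt × Pt)) (S : Finset Pt) (f : Pt → Pt → ℝ) (n : ℝ),
    m.Ctr → m.Anch → ed ⊆ m.ed → (∀ e ∈ ed, m.w e = Λ.w) → 0 < n → (∀ j ∈ S, F2 ed (f j) n) →
    ∀ A : ℝ, 0 < A → Pr (m.W 0) (fun s => A * n * S.card < ∑ j ∈ S, pr (f j) s ^ 2) ≤ C / A ^ k

theorem Tl.pr {C : ℝ} {k : ℕ} (h : Tl Λ C k) (hΛ : Λ.Ok) (hO : Nc.Geo.CnL Λ O) {V : Finset Pt}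
    (hV : V ⊆ O) {S : Finset Pt} {f : Pt → Pt → ℝ} {n A : ℝ} (hn : 0 < n) (hA : 0 < A)
    (hf : ∀ j ∈ S, F2 (Pot.nL.edI V) (f j) n) {r : Pt} (hr : r ∈ O) :
    Pr ((Λ.Nr O r).W 0) (fun s => A * n * S.card < ∑ j ∈ S, pr (f j) s ^ 2) ≤ C / A ^ k :=
  h _ _ S f n (hΛ.ctr_Nr O r) (Lat.anch_Nr fun x hx => hO x hx r hr)
    (fun e he => by
      have := Lat.mem_edI.1 he
      exact Lat.mem_edI.2 ⟨Pot.nn_subset hΛ this.1, hV this.2.1, hV this.2.2⟩)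
    (fun _ _ => rfl) hn hf A hA

theorem Tl.gd {C : ℝ} {k : ℕ} (h : Tl Λ C k) (hΛ : Λ.Ok) (hO : Nc.Geo.CnL Λ O) {U₀ V : Finset Pt}
    (h0 : U₀ ⊆ U) (hU : U ⊆ O) (hV : V ⊆ O) {S : Finset Pt} {f : Pt → Pt → ℝ} {n A b : ℝ} (hn : 0 < n)
    (hA : 0 < A) (hb : C / A ^ k ≤ b) (hf : ∀ j ∈ S, Sup U₀ (f j) ∧ F2 (Pot.nL.edI V) (f j) n) :
    Tst.Gd ⟨S, f, A * n * S.card⟩ Λ O U b := by
  refine ⟨fun w hw => ?_, fun r hr => ?_⟩
  · have h1 : Sup U (f w) := fun x hx => (hf w hw).1 x fun h' => hx (h0 h')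
    refine ⟨h1, ?_⟩
    rw [← (hf w hw).2.neutral (B := O) fun e he =>
      ⟨hV (Lat.edI_ends _ e he).1, hV (Lat.edI_ends _ e he).2⟩]
    exact sum_subset hU fun x _ hx => h1 x hx
  · simp only [Tst.ok, not_le]
    exact (h.pr hΛ hO hV hn hA (fun j hj => (hf j hj).2) hr).trans hb

/-- Cauchy-Schwarz for the kernel form -/
theorem cs_le {S : Finset Pt} (hS : S.Nonempty) {u v : Pt → ℝ} {p q c : ℝ} (hc : 0 ≤ c)
    (hu : ∑ w ∈ S, u w ^ 2 ≤ p * S.card) (hv : ∑ w ∈ S, v w ^ 2 ≤ q * S.card) (h : p * q ≤ c ^ 2) :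
    |(∑ w ∈ S, u w * v w) / S.card| ≤ c := by
  have h0 : (0 : ℝ) < S.card := by exact_mod_cast hS.card_pos
  refine abs_le_of_sq_le_sq' ?_ hc |> abs_le.2
  rw [div_pow, div_le_iff₀ (by positivity)]
  have h1 : 0 ≤ ∑ w ∈ S, u w ^ 2 := sum_nonneg fun _ _ => sq_nonneg _
  have h2 : 0 ≤ ∑ w ∈ S, v w ^ 2 := sum_nonneg fun _ _ => sq_nonneg _
  calc _ ≤ (∑ w ∈ S, u w ^ 2) * ∑ w ∈ S, v w ^ 2 := sum_mul_sq_le_sq_mul_sq S u v
    _ ≤ p * S.card * (q * S.card) := mul_le_mul hu hv h2 (h1.trans hu)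
    _ = p * q * S.card ^ 2 := by ring
    _ ≤ _ := mul_le_mul_of_nonneg_right h (by positivity)

theorem nm_le (G : Gm) (hρ : 1 ≤ G.rho) {m o z : Pt → ℝ} {H p : ℝ} (hp : 0 ≤ p)
    (hm : ∀ x ∈ G.mid, m x = o x * H + z x) (ho : ∀ x, |o x| ≤ 1)
    (hz : ∑ x ∈ G.mid, z x ^ 2 ≤ p * G.mid.card) : G.nm m ≤ (162 + 162 * p) * (1 + H ^ 2) := by
  have h0 : (1 : ℝ) ≤ G.rho := by exact_mod_cast hρ
  have hc : (G.mid.card : ℝ) ≤ 81 * (G.rho : ℝ) ^ 2 := by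
    have := (card_le_card (Nc.Geo.an_subset_bl 0 (G.rho / 2) (4 * G.rho))).trans_eq (card_bl _ _)
    have h2 : (G.mid.card : ℝ) ≤ (2 * (4 * G.rho) + 1) ^ 2 := by exact_mod_cast this
    nlinarith
  have h1 : ∑ x ∈ G.mid, m x ^ 2 ≤ ∑ x ∈ G.mid, (2 * H ^ 2 + 2 * z x ^ 2) := sum_le_sum fun x hx => by
    have : o x ^ 2 ≤ 1 := by rw [← sq_abs]; exact pow_le_one₀ (abs_nonneg _) (ho x)
    rw [hm x hx]
    nlinarith [sq_nonneg (o x * H - z x), mul_le_mul_of_nonneg_right this (sq_nonneg H)]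
  rw [sum_add_distrib, sum_const, nsmul_eq_mul, ← mul_sum] at h1
  rw [Gm.nm, div_le_iff₀ (by positivity)]
  have h2 := mul_le_mul_of_nonneg_right hc (sq_nonneg H)
  have h3 := mul_le_mul_of_nonneg_left hc hp
  have h4 : 0 ≤ p * H ^ 2 * (G.rho : ℝ) ^ 2 := by positivity
  nlinarith [sq_nonneg (G.rho : ℝ)]

end T74

open T74 in
theorem typStmt (hA : AlgStmt) (h3 : K3Stmt) (hM : M3Stmt) (hm : MomStmt) : TypStmt := by
  intro F δ hδ
  obtain ⟨C, hC, h3⟩ := h3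
  obtain ⟨k, hk⟩ : ∃ k : ℕ, 11 ≤ δ * k :=
    ⟨⌈11 / δ⌉₊, (div_le_iff₀' hδ).1 (Nat.le_ceil _)⟩
  obtain ⟨Ck, hCk, hmk⟩ := hm F k
  obtain ⟨C1, hC1, hm1⟩ := hm F 1
  refine ⟨max 1 (80 * Ck * C ^ k), fun W hW => ?_⟩
  have hW1 : 1 ≤ W := (le_max_left _ _).trans hW
  have hW2 : 80 * Ck * C ^ k ≤ W := (le_max_right _ _).trans hW
  have hW0 : 0 < W := by linarith
  obtain ⟨CM, hCM, hM⟩ := hM W
  set b : ℝ := W ^ (-10 : ℝ) / 80 with hb
  have hb0 : 0 < b := by positivity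
  set a : ℝ := W ^ δ / C with ha
  have ha0 : 0 < a := by positivity
  have hd1 : 1 ≤ W ^ δ := one_le_rpow hW1 hδ.le
  have haC : a * C = W ^ δ := by rw [ha]; field_simp
  have hab : Ck / a ^ k ≤ b := by
    have e1 : W ^ (11 : ℝ) ≤ (W ^ δ) ^ k := by
      rw [← rpow_mul_natCast hW0.le]; exact rpow_le_rpow_of_exponent_le hW1 hk
    have e2 : W ^ (-10 : ℝ) * W ^ (11 : ℝ) = W := by rw [← rpow_add hW0]; norm_num
    rw [ha, div_pow, div_div_eq_mul_div, hb, div_le_div_iff₀ (by positivity) (by norm_num)]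
    have := mul_le_mul_of_nonneg_left e1 (rpow_nonneg hW0.le (-10))
    linarith
  have hab' : C1 / (C1 / b) ^ 1 ≤ b := by rw [pow_one]; field_simp; rfl
  have ha' : 0 < C1 / b := by positivity
  refine ⟨162 + 162 * (C1 / b * CM) + C1 * CM, by positivity, fun Λ hF G hG => ?_⟩
  have hΛ := hF.ok
  have tk : Tl Λ Ck k := fun m ed S f n h1 h2 h3 h4 h5 h6 => (hmk Λ hF m ed Pt S f n h1 h2 h3 h4 h5 h6).2
  have t1 : Tl Λ C1 1 := fun m ed S f n h1 h2 h3 h4 h5 h6 => (hm1 Λ hF m ed Pt S f n h1 h2 h3 h4 h5 h6).2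
  have al := hA G W hG
  obtain ⟨⟨S, al', y₁, y₂, y₃, hS, hy, hy'⟩, hch, -⟩ := h3 G W hG
  obtain ⟨hmid, hfar, -⟩ := hM G hG
  choose! f f' hf using hmid
  have g1 := hG.hc; have g2 := hG.hr; have g3 := hG.out
  have g4 := al.r_le; have g5 := al.rho_le
  have r0 : (0 : ℝ) < G.r := by exact_mod_cast (show 0 < G.r by omega)
  have R0 : (0 : ℝ) < G.R := by exact_mod_cast (show 0 < G.R by omega)
  have hO : Nc.Geo.CnL Λ G.Om := Nc.Geo.cnL_an hΛ 0 (by omega)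
  have gI : ∀ {Cm : ℝ} {k : ℕ}, Tl Λ Cm k → ∀ {S : Finset Pt} {f : Pt → Pt → ℝ} {n A : ℝ}, 0 < n → 0 < A →
      Cm / A ^ k ≤ b → (∀ j ∈ S, G.Ic (f j) n) → Tst.Gd ⟨S, f, A * n * S.card⟩ Λ G.Om G.In b :=
    fun h _ _ _ _ hn hA hb hf => h.gd hΛ hO (Nc.Geo.an_mono 0 (by omega) le_rfl)
      (Nc.Geo.an_mono 0 le_rfl (by omega)) (Nc.Geo.an_mono 0 (by omega) (by omega)) hn hA hb hf
  have gO : ∀ {Cm : ℝ} {k : ℕ}, Tl Λ Cm k → ∀ {S : Finset Pt} {f : Pt → Pt → ℝ} {n A : ℝ}, 0 < n → 0 < A →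
      Cm / A ^ k ≤ b → (∀ j ∈ S, G.Oc (f j) n) → Tst.Gd ⟨S, f, A * n * S.card⟩ Λ G.Om G.Ou b :=
    fun h _ _ _ _ hn hA hb hf => h.gd hΛ hO (Nc.Geo.an_mono 0 le_rfl (by omega))
      (Nc.Geo.an_mono 0 (by omega) le_rfl) (Nc.Geo.an_mono 0 (by omega) (by omega)) hn hA hb hf
  let one (g : Pt → ℝ) (n : ℝ) : Tst := ⟨{0}, fun _ => g, a * n * ({0} : Finset Pt).card⟩
  let lI : List Tst := [⟨S, y₁, a * (C / W ^ 2) * S.card⟩, ⟨S, y₂, a * (C / W ^ 4) * S.card⟩,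
    ⟨S, y₃, a * (C / W ^ 6) * S.card⟩, one (G.ch (co 0)) (C * (G.r : ℝ) ^ 2),
    one (G.ch (co 1)) (C * (G.r : ℝ) ^ 2), ⟨G.mid, f, C1 / b * CM * G.mid.card⟩]
  let lO : List Tst := [⟨S, al', a * C * S.card⟩, one (dp 0 G.R 0) (C / (G.R : ℝ) ^ 2),
    one (dp 0 G.R 1) (C / (G.R : ℝ) ^ 2), ⟨G.mid, f', C1 / b * CM * G.mid.card⟩]
  have hI : ∀ t ∈ lI, t.Gd Λ G.Om G.In b := by
    simp only [lI, List.forall_mem_cons, List.not_mem_nil, false_imp_iff, implies_true, and_true]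
    exact ⟨gI tk (by positivity) ha0 hab fun w hw => (hy w hw).2.1,
      gI tk (by positivity) ha0 hab fun w hw => (hy w hw).2.2.1,
      gI tk (by positivity) ha0 hab fun w hw => (hy w hw).2.2.2,
      gI tk (by positivity) ha0 hab fun _ _ => (hch 0).1,
      gI tk (by positivity) ha0 hab fun _ _ => (hch 1).1,
      gI t1 hCM ha' hab' fun x hx => (hf x hx).1⟩
  have hO' : ∀ t ∈ lO, t.Gd Λ G.Om G.Ou b := by
    simp only [lO, List.forall_mem_cons, List.not_mem_nil, false_imp_iff, implies_true, and_true]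
    exact ⟨gO tk hC ha0 hab fun w hw => (hy w hw).1,
      gO tk (by positivity) ha0 hab fun _ _ => (hch 0).2,
      gO tk (by positivity) ha0 hab fun _ _ => (hch 1).2,
      gO t1 hCM ha' hab' fun x hx => (hf x hx).2.1⟩
  have mp : ∀ c R k, (Nc.an 0 c R).map (gp k).toEmbedding = Nc.an 0 c R := fun c R k => (al.map_an k c R).1
  obtain ⟨r, hr, hrW⟩ := (Nc.Geo.inL_N (Λ := Λ) (subset_rfl (a := G.Om))).rW_Nr
    (Nc.Geo.an_nonempty 0 (by omega))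
  have hE : ∀ p : Cfg Pt → Prop, G.EA Λ (fun s => ind (p s)) = Pr ((Λ.Nr G.Om r).W 0) p := fun p => by
    rw [← hrW]; rfl
  have oI : ∀ {x}, (∀ k, ∀ t ∈ lI, t.ok (ga k x)) → _ := fun {x} h => by
    have := h (0, 0)
    simp only [ga_zero, lI, one, List.forall_mem_cons, Tst.ok, sum_singleton, card_singleton,
      Nat.cast_one, mul_one] at this
    exact this
  have oO : ∀ {x}, (∀ k, ∀ t ∈ lO, t.ok (ga k x)) → _ := fun {x} h => by
    have := h (0, 0)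
    simp only [ga_zero, lO, one, List.forall_mem_cons, Tst.ok, sum_singleton, card_singleton,
      Nat.cast_one, mul_one] at this
    exact this
  have pw : ∀ j : ℕ, a * (C / W ^ (2 * j)) * (a * C) ≤ (W ^ (-(j : ℝ) + δ)) ^ 2 := fun j => by
    rw [rpow_add hW0, rpow_neg hW0.le, rpow_natCast, ← haC]
    exact le_of_eq (by field_simp; ring)
  have hA2 : ∀ H : ℝ, (162 + 162 * (C1 / b * CM)) * (1 + H ^ 2) ≤
      (162 + 162 * (C1 / b * CM) + C1 * CM) * (1 + H ^ 2) := fun H =>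
    mul_le_mul_of_nonneg_right (le_add_of_nonneg_right (by positivity)) (by positivity)
  have hρ : 1 ≤ G.rho := by omega
  refine ⟨act G.In (mp _ _) G.eq al.eq_sum lI fun t ht => (hI t ht).1,
    act G.Ou (mp _ _) G.te al.te_sum lO fun t ht => (hO' t ht).1,
    ⟨fun _ _ => rfl, fun _ => rfl, fun _ => rfl⟩, ⟨fun _ _ => rfl, fun _ => rfl, fun _ => rfl⟩,
    fun k x => ⟨all_ga (fun x => ∀ t ∈ lI, t.ok x) k x, all_ga (fun x => ∀ t ∈ lO, t.ok x) k x⟩,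
    ?_, fun K hK => ?_, fun x y hx hy => ?_, fun x y hx hy => ?_, fun x y hx hy => ?_, fun x i hx => ?_,
    fun y i hy => ?_, fun x hx => ?_, fun y hy => ?_⟩
  · have b1 := bad_le hΛ hO (fun k => al.sym k Λ hΛ) (mp _ _) (mp _ _) hI hr
    have b2 := bad_le hΛ hO (fun k => al.sym k Λ hΛ) (mp _ _) (mp _ _) hO' hr
    have hW := wt_Nr hΛ hO hr
    rw [hE]
    refine (hW.pr_mono fun s _ h => not_and_or.1 h).trans ((hW.pr_or_le _ _).trans
      ((add_le_add b1 b2).trans (le_of_eq ?_)))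
    simp only [lI, lO, List.length_cons, List.length_nil, hb]; push_cast; ring
  · have := t1.pr hΛ hO (Nc.Geo.an_mono 0 (by omega) (by omega)) (S := {0}) (f := fun _ => G.eq - G.te)
      hCM (A := K ^ 2 / CM) (by positivity) (fun _ _ => hfar) hr
    rw [hE]
    refine ((wt_Nr hΛ hO hr).pr_mono fun s _ h => ?_).trans (this.trans ?_)
    · simp only [card_singleton, Nat.cast_one, mul_one, sum_singleton, pr_sub, AddMonoidHom.sub_apply]
      rw [div_mul_cancel₀ _ hCM.ne', ← sq_abs (_ - _)]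
      exact pow_lt_pow_left₀ h hK.le two_ne_zero
    · rw [pow_one, div_div_eq_mul_div]
      exact div_le_div_of_nonneg_right (le_add_of_nonneg_left (by positivity)) (by positivity)
  · rw [(hy' x y).1]
    exact cs_le hS (by positivity) (oI hx).1 (oO hy).1 (by simpa using pw 1)
  · rw [(hy' x y).2.1]
    exact cs_le hS (by positivity) (oI hx).2.1 (oO hy).1 (by simpa using pw 2)
  · rw [(hy' x y).2.2]
    exact cs_le hS (by positivity) (oI hx).2.2.1 (oO hy).1 (by simpa using pw 3)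
  · have h1 : pr (G.ch (co i)) x ^ 2 ≤ a * (C * (G.r : ℝ) ^ 2) := by
      fin_cases i
      exacts [(oI hx).2.2.2.1, (oI hx).2.2.2.2.1]
    refine abs_le.2 (abs_le_of_sq_le_sq' (h1.trans ?_) (by positivity))
    rw [← mul_assoc, haC]
    nlinarith [mul_le_mul_of_nonneg_left hd1 (show 0 ≤ W ^ δ * (G.r : ℝ) ^ 2 by positivity)]
  · have h1 : G.di i y ^ 2 ≤ a * (C / (G.R : ℝ) ^ 2) := by
      fin_cases i
      exacts [(oO hy).2.1, (oO hy).2.2.1]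
    refine abs_le.2 (abs_le_of_sq_le_sq' (h1.trans ?_) (by positivity))
    rw [← mul_div_assoc, haC, div_pow]
    exact div_le_div_of_nonneg_right (by nlinarith) (by positivity)
  · exact (nm_le G hρ (by positivity) (fun z hz => (hf z hz).2.2.1 x)
      (fun z => abs_le.2 ⟨by linarith [(al.om_mem z).1], (al.om_mem z).2⟩) (oI hx).2.2.2.2.2.1).trans (hA2 _)
  · exact (nm_le G hρ (by positivity) (fun z hz => (hf z hz).2.2.2 y)
      (fun z => abs_le.2 ⟨by linarith [(al.om_mem z).2], by linarith [(al.om_mem z).1]⟩)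
      (oO hy).2.2.2.1).trans (hA2 _)

end Crest.Agent.T145.Kr
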