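import Crest.Agent.T145.KvDef_8
import Crest.Agent.T145.KrKsh_77
import Crest.Agent.T145.KrTyp_74

/-!
# Row 145, module Kv: SECT, the twisted slit model (helper51)
-/

set_option autoImplicit false

namespace Crest.Agent.T145.Kv

open Finset Real Filter
open Kr (Gm)

namespace S51

/-- two numbers of size `C` at distance `τ C` -/
def Nr (τ x y C : ℝ) : Prop := |x - y| ≤ τ * C ∧ |x| ≤ C ∧ |y| ≤ C

theorem Nr.mul {τ τ' x y x' y' A B : ℝ} (h : Nr τ x y A) (h' : Nr τ' x' y' B) :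
    Nr (τ + τ') (x * x') (y * y') (A * B) := by
  obtain ⟨h1, h2, h3⟩ := h
  obtain ⟨k1, k2, k3⟩ := h'
  have A0 := (abs_nonneg _).trans h2
  refine ⟨?_, abs_mul x x' ▸ mul_le_mul h2 k2 (abs_nonneg _) A0,
    abs_mul y y' ▸ mul_le_mul h3 k3 (abs_nonneg _) A0⟩
  rw [show x * x' - y * y' = (x - y) * x' + y * (x' - y') by ring]
  refine (abs_add_le _ _).trans ?_
  rw [abs_mul, abs_mul]
  have a := mul_le_mul h1 k2 (abs_nonneg _) ((abs_nonneg _).trans h1)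
  have b := mul_le_mul h3 k1 (abs_nonneg _) A0
  linarith

theorem Nr.cov {τ x y a a' b b' A B : ℝ} (h : Nr τ x y (A * B)) (h1 : Nr τ a a' A) (h2 : Nr τ b b' B) :
    Nr (3 / 2 * τ) (x - a * b) (y - a' * b') (2 * (A * B)) := by
  obtain ⟨k1, k2, k3⟩ := h1.mul h2
  obtain ⟨l1, l2, l3⟩ := h
  rw [Nr, abs_le, abs_le, abs_le]
  rw [abs_le] at k1 k2 k3 l1 l2 l3
  refine ⟨⟨?_, ?_⟩, ⟨?_, ?_⟩, ?_, ?_⟩ <;> linarith [k1.1, k1.2, k2.1, k2.2, k3.1, k3.2]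

theorem abs_ex_ind {α : Type} {ρ : α → ℝ} (h : Wt ρ) (p : α → Prop) {Φ : α → ℝ} {C : ℝ}
    (hΦ : ∀ s, |Φ s| ≤ C) : |Ex ρ fun s => ind (p s) * Φ s| ≤ Pr ρ p * C := by
  have i := (h.ig_bdd hΦ).ind_mul h.nonneg p
  rw [Pr, ← Ex_mul_const]
  refine (abs_Ex_le h.nonneg i).trans (Ex_mono h.nonneg (i.abs h.nonneg) ((h.ig_ind p).mul_const C) fun s => ?_)
  rw [abs_mul, abs_of_nonneg (ind_nonneg _)]
  exact mul_le_mul_of_nonneg_left (hΦ s) (ind_nonneg _)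

/-- conditioning on an event and on most of it -/
theorem cond {α : Type} {ρ : α → ℝ} (h : Wt ρ) {S T : α → Prop} {u : ℝ} (u2 : u ≤ 1 / 2) (p0 : 0 < Pr ρ S)
    (hb : Pr ρ (fun s => S s ∧ ¬ T s) ≤ u * Pr ρ S) :
    Pr ρ S / 2 ≤ Pr ρ (fun s => S s ∧ T s) ∧ ∀ (Φ : α → ℝ) (C : ℝ), (∀ s, |Φ s| ≤ C) →
      Nr (2 * u) ((Ex ρ fun s => ind (S s ∧ T s) * Φ s) / Pr ρ fun s => S s ∧ T s)
        ((Ex ρ fun s => ind (S s) * Φ s) / Pr ρ S) C := by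
  have sp : ∀ (Φ : α → ℝ) (C : ℝ), (∀ s, |Φ s| ≤ C) → (Ex ρ fun s => ind (S s) * Φ s) =
      (Ex ρ fun s => ind (S s ∧ T s) * Φ s) + Ex ρ fun s => ind (S s ∧ ¬ T s) * Φ s := fun Φ C hΦ => by
    rw [← Ex_add ((h.ig_bdd hΦ).ind_mul h.nonneg _) ((h.ig_bdd hΦ).ind_mul h.nonneg _)]
    exact Ex_congr fun s _ => by rw [ind_and, ind_and, ind_not]; ring
  have e : Pr ρ S = Pr ρ (fun s => S s ∧ T s) + Pr ρ fun s => S s ∧ ¬ T s := by
    simpa only [mul_one, Pr] using sp (fun _ => 1) 1 fun _ => abs_one.le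
  have r0 := Pr_nonneg h.nonneg fun s => S s ∧ ¬ T s
  have m2 : Pr ρ S / 2 ≤ Pr ρ fun s => S s ∧ T s := by nlinarith
  refine ⟨m2, fun Φ C hΦ => ?_⟩
  have a := abs_ex_ind h (fun s => S s ∧ T s) hΦ
  have b := abs_ex_ind h (fun s => S s ∧ ¬ T s) hΦ
  have c := abs_ex_ind h S hΦ
  rw [sp Φ C hΦ] at c ⊢
  generalize (Ex ρ fun s => ind (S s ∧ T s) * Φ s) = x at *
  generalize (Ex ρ fun s => ind (S s ∧ ¬ T s) * Φ s) = y at *
  generalize (Pr ρ fun s => S s ∧ T s) = m at *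
  generalize (Pr ρ fun s => S s ∧ ¬ T s) = r at *
  generalize Pr ρ S = p at *
  have m0 : 0 < m := by linarith
  have C0 : 0 ≤ C := by
    have := (abs_nonneg _).trans a
    exact nonneg_of_mul_nonneg_right this m0 |> fun h => by
      by_contra h'; nlinarith
  refine ⟨?_, ?_, ?_⟩
  · rw [show x / m - (x + y) / p = (x * r - m * y) / (m * p) by rw [e]; field_simp; ring, abs_div,
      abs_of_pos (mul_pos m0 p0), div_le_iff₀ (mul_pos m0 p0)]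
    refine (abs_sub _ _).trans ?_
    rw [abs_mul, abs_mul, abs_of_nonneg r0, abs_of_pos m0]
    have a' := mul_le_mul_of_nonneg_right a r0
    have b' := mul_le_mul_of_nonneg_left b m0.le
    have c' := mul_le_mul_of_nonneg_left hb (mul_nonneg m0.le C0)
    nlinarith
  · rw [abs_div, abs_of_pos m0, div_le_iff₀' m0]; exact a
  · rw [abs_div, abs_of_pos p0, div_le_iff₀' p0]; exact c

/-- transfer of the conclusion of `SecStmt` -/
theorem out_of {G : Gm} {E' : (Cfg Pt × Cfg Pt → ℝ) → ℝ} {E : (Cfg Pt → ℝ) → ℝ} {τ β γ η γ' η' : ℝ}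
    {y d : Fin 2 → Cfg Pt → ℝ} (τ0 : 0 ≤ τ) (β1 : β ≤ 1) (h1 : γ + 27 * τ ≤ γ') (h2 : η + 4 * τ ≤ η')
    (E0 : ∀ F, (∀ s, 0 ≤ F s) → 0 ≤ E F)
    (hy : ∀ i, DepG G.In (y i) ∧ (∀ s, |y i s| ≤ 1) ∧ DepG G.Ou (d i) ∧ ∀ s, |d i s| ≤ β)
    (key : ∀ (Ψ : Cfg Pt → Cfg Pt → ℝ) (C : ℝ), (∀ b, DepG G.In fun a => Ψ a b) → (∀ a, DepG G.Ou (Ψ a)) →
      (∀ a b, |Ψ a b| ≤ C) → Nr τ (E' fun z => Ψ z.1 z.2) (E fun s => Ψ s s) C)
    (h : ∀ (F φ : Cfg Pt → ℝ) (N M : ℝ), (∀ a, |F a| ≤ N) → (∀ b, |φ b| ≤ M) →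
      |cov E' (fun z => F z.1) (fun z => φ z.2) - ∑ i, cov E' (fun z => F z.1) (fun z => y i z.1) *
        cov E' (fun z => d i z.2) (fun z => φ z.2)| ≤ γ * (N * M) ∧
      ((∀ a, 0 ≤ F a) → (∀ b, 0 ≤ φ b) → |cov E' (fun z => F z.1) fun z => φ z.2| ≤
        1 / 32 * (E' (fun z => F z.1) * E' fun z => φ z.2) + η * (N * M))) :
    Out G E β γ' (1 / 16) η' := by
  refine ⟨y, d, hy, fun F φ A B hF hφ bF bφ => ?_⟩
  have A0 := (abs_nonneg _).trans (bF 0)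
  have B0 := (abs_nonneg _).trans (bφ 0)
  have AB := mul_nonneg A0 B0
  have bm : ∀ {x y P Q : ℝ}, |x| ≤ P → |y| ≤ Q → |x * y| ≤ P * Q := fun {x y _ _} hx hy =>
    (abs_mul x y).trans_le (mul_le_mul hx hy (abs_nonneg _) ((abs_nonneg _).trans hx))
  have kI : ∀ {f : Cfg Pt → ℝ} {C : ℝ}, DepG G.In f → (∀ s, |f s| ≤ C) →
      Nr τ (E' fun z => f z.1) (E f) C := fun {f C} hf hC =>
    key (fun a _ => f a) C (fun _ => hf) (fun _ => DepG.const _ _) fun a _ => hC a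
  have kO : ∀ {f : Cfg Pt → ℝ} {C : ℝ}, DepG G.Ou f → (∀ s, |f s| ≤ C) →
      Nr τ (E' fun z => f z.2) (E f) C := fun {f C} hf hC =>
    key (fun _ b => f b) C (fun _ => DepG.const _ _) (fun _ => hf) fun _ b => hC b
  have c0 : Nr (3 / 2 * τ) (cov E' (fun z => F z.1) fun z => φ z.2) (cov E F φ) (2 * (A * B)) :=
    (key (fun a b => F a * φ b) _ (fun _ => hF.mul (DepG.const _ _)) (fun _ => (DepG.const _ _).mul hφ)
      fun a b => bm (bF a) (bφ b)).cov (kI hF bF) (kO hφ bφ)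
  have c1 : ∀ i, |cov E' (fun z => F z.1) (fun z => y i z.1) * cov E' (fun z => d i z.2) (fun z => φ z.2) -
      cov E F (y i) * cov E (d i) φ| ≤ 12 * τ * (A * B) := fun i => by
    obtain ⟨y1, y2, y3, y4⟩ := hy i
    have a : Nr (3 / 2 * τ) (cov E' (fun z => F z.1) fun z => y i z.1) (cov E F (y i)) (2 * (A * 1)) :=
      (kI (hF.mul y1) fun s => bm (bF s) (y2 s)).cov (kI hF bF) (kI y1 y2)
    have y5 : ∀ s, |d i s| ≤ 1 := fun s => (y4 s).trans β1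
    have b : Nr (3 / 2 * τ) (cov E' (fun z => d i z.2) fun z => φ z.2) (cov E (d i) φ) (2 * (1 * B)) :=
      (kO (y3.mul hφ) fun s => bm (y5 s) (bφ s)).cov (kO y3 y5) (kO hφ bφ)
    exact (a.mul b).1.trans (le_of_eq (by ring))
  obtain ⟨g1, g2⟩ := h F φ A B bF bφ
  have t := mul_nonneg τ0 AB
  have c2 := abs_le.1 c0.1
  refine ⟨?_, fun F0 φ0 => ?_⟩
  · have a := abs_le.1 (c1 0)
    have b := abs_le.1 (c1 1)
    have c := mul_le_mul_of_nonneg_right h1 AB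
    rw [Fin.sum_univ_two, abs_le] at g1 ⊢
    constructor <;> linarith [g1.1, g1.2]
  · have a := abs_le.1 (g2 F0 φ0)
    have b := abs_le.1 ((kI hF bF).mul (kO hφ bφ)).1
    have c := mul_le_mul_of_nonneg_right h2 AB
    have e := mul_nonneg (E0 F F0) (E0 φ φ0)
    rw [abs_le]
    constructor <;> linarith [a.1, a.2]

/-- the pairing in the sector `s k = 1` -/
noncomputable def lf (U : Finset Pt) (k : Pt) (f : Pt → ℝ) (s : Cfg Pt) : ℝ := ∑ x ∈ U, f x * s x + f k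

theorem lf_eq {U : Finset Pt} {k : Pt} {f : Pt → ℝ} (hk : k ∉ U) (hf : Sup (insert k U) f) {s : Cfg Pt}
    (hs : s k = 1) : pr f s = lf U k f s := by
  rw [pr_of_fsupp f s hf, sum_insert hk, hs, lf]; push_cast; ring

theorem lf_dep {U : Finset Pt} (k : Pt) {f : Pt → ℝ} (h0 : ∑ x ∈ U, f x = 0) : DepG U (lf U k f) :=
  fun s s' i e => by
    have : ∑ x ∈ U, f x * (s' x : ℝ) = ∑ x ∈ U, f x * (s x : ℝ) + (∑ x ∈ U, f x) * i := by
      rw [sum_mul, ← sum_add_distrib]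
      exact sum_congr rfl fun x hx => by rw [e x hx]; push_cast; ring
    rw [lf, lf, this, h0]; ring

theorem dep_res {β : Type} {U U' : Finset Pt} {F : Cfg Pt → β} (h : DepG U F) (hU : U ⊆ U') (s : Cfg Pt) :
    F (resH U' s) = F s := h.dep _ _ fun x hx => by rw [resH_apply, if_pos (hU hx)]

/-- clamp -/
noncomputable def clp (c x : ℝ) : ℝ := max (-c) (min x c)
theorem abs_cl {c : ℝ} (hc : 0 ≤ c) (x : ℝ) : |clp c x| ≤ c :=
  abs_le.2 ⟨le_max_left _ _, max_le (by linarith) (min_le_right _ _)⟩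
theorem cl_of {c x : ℝ} (h : |x| ≤ c) : clp c x = x := by
  rw [clp, min_eq_left (abs_le.1 h).2, max_eq_right (abs_le.1 h).1]

variable {V : Gv} {W : ℝ} {Λ : Lat}

theorem In_sub (h : V.Ok W) : V.G.In ⊆ V.G.Om :=
  Kr.K77.an_sub le_rfl (by have := Kr.K77.r_le_R h.g; have := h.g.out; omega)
theorem Ou_sub (h : V.Ok W) : V.G.Ou ⊆ V.G.Om :=
  Kr.K77.an_sub (by have := Kr.K77.r_le_R h.g; have := h.g.hc; omega) le_rfl

/-- a twisted flow is neutral -/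
theorem neutral (hG : V.Geo) {U : Finset Pt} {k : Pt} (hU : U ⊆ V.G.Om) (hk : k ∉ V.G.Om) {f : Pt → ℝ}
    {n : ℝ} (hs : Sup (insert k U) f) (hf : V.Fx V.EO f n) : ∑ x ∈ U, f x = 0 := by
  obtain ⟨φ, h, -⟩ := hf
  have e := h (cst V.G.Om 1)
  have z : gfl V.EO φ V.gk (cst V.G.Om 1) = 0 := by
    rw [gfl, AddMonoidHom.finsetSum_apply]
    refine sum_eq_zero fun e he => ?_
    obtain ⟨-, h1, h2⟩ := Lat.mem_edI.1 (mem_filter.1 he).1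
    simp [Gv.gk, cst_of_mem _ h1, cst_of_mem _ h2, cst_of_notMem _ hG.k_off.1, cst_of_notMem _ hG.k_off.2.1]
  rw [z, pr_cst,
    ← sum_subset hU fun x hx hn => hs x fun h' => (mem_insert.1 h').elim (fun h' => hk (h' ▸ hx)) hn] at e
  simpa using e

/-- the sector of the data law against the twisted slit model -/
theorem key (hV : V.Ok W) (hG : V.Geo) (hE : V.Ext Λ) {A B : KrA.Act (Cfg Pt)} {μ : Cfg Pt × Cfg Pt → ℝ}
    (hA : ∀ i a, A.s i a = a + cst V.G.In i) (hB : ∀ i a, B.s i a = a + cst V.G.Ou i)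
    (bar : ∀ (Φ : Cfg Pt → Cfg Pt → ℝ) (C : ℝ), (∀ a b, |Φ a b| ≤ C) → (∀ i a b, Φ (A.s i a) b = Φ a b) →
      (∀ i a b, Φ a (B.s i b) = Φ a b) → KrA.br μ Φ = V.EX Λ fun s => Φ (V.dH s).1 (V.dH s).2)
    {T₁ T₂ : Cfg Pt → Prop} (h1 : DepG V.G.In T₁) (h2 : DepG V.G.Ou T₂) {u : ℝ} (u2 : u ≤ 1 / 2)
    (p0 : 0 < V.Pk Λ 1)
    (hb : Pr (V.rw Λ) (fun s => (s V.k1 = 1 ∧ s V.k2 = 1) ∧ ¬ (T₁ s ∧ T₂ s)) ≤ u * V.Pk Λ 1) {m : ℝ}
    (hm : KrA.br μ (fun a b => ind (a V.k1 = 1 ∧ T₁ a) * ind (b V.k2 = 1 ∧ T₂ b)) = m) :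
    V.Pk Λ 1 / 2 ≤ m ∧ ∀ (Ψ : Cfg Pt → Cfg Pt → ℝ) (C : ℝ), (∀ b, DepG V.G.In fun a => Ψ a b) →
      (∀ a, DepG V.G.Ou (Ψ a)) → (∀ a b, |Ψ a b| ≤ C) →
      Nr (2 * u) (KrA.br μ (fun a b => ind (a V.k1 = 1 ∧ T₁ a) * ind (b V.k2 = 1 ∧ T₂ b) * Ψ a b) / m)
        (V.ES Λ fun s => Ψ s s) C := by
  have k1 : V.k1 ∉ V.G.In := fun h => hG.k_off.1 (In_sub hV h)
  have k2 : V.k2 ∉ V.G.Ou := fun h => hG.k_off.2.1 (Ou_sub hV h)
  obtain ⟨c1, c2⟩ := cond hE.cen.wt u2 p0 hb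
  have e : ∀ (Ψ : Cfg Pt → Cfg Pt → ℝ) (C : ℝ), (∀ b, DepG V.G.In fun a => Ψ a b) →
      (∀ a, DepG V.G.Ou (Ψ a)) → (∀ a b, |Ψ a b| ≤ C) →
      KrA.br μ (fun a b => ind (a V.k1 = 1 ∧ T₁ a) * ind (b V.k2 = 1 ∧ T₂ b) * Ψ a b) =
        Ex (V.rw Λ) fun s => ind ((s V.k1 = 1 ∧ s V.k2 = 1) ∧ T₁ s ∧ T₂ s) * Ψ s s := fun Ψ C d1 d2 hΨ => by
    rw [bar _ C (fun a b => ?_) (fun i a b => ?_) fun i a b => ?_]
    · refine Ex_congr fun s _ => ?_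
      show ind (resH V.In s V.k1 = 1 ∧ T₁ (resH V.In s)) * ind (resH V.Ou s V.k2 = 1 ∧ T₂ (resH V.Ou s)) *
        Ψ (resH V.In s) (resH V.Ou s) = _
      rw [Gv.In, Gv.Ou, dep_res h1 (subset_insert _ _), dep_res h2 (subset_insert _ _),
        dep_res (d2 _) (subset_insert _ _), dep_res (d1 _) (subset_insert _ _), resH_apply, resH_apply, if_pos (mem_insert_self _ _),
        if_pos (mem_insert_self _ _), ← ind_and, and_and_and_comm]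
    · rw [← ind_and, abs_mul, abs_of_nonneg (ind_nonneg _)]
      exact (mul_le_of_le_one_left (abs_nonneg _) (ind_le_one _)).trans (hΨ a b)
    · rw [hA, h1.shift subset_rfl, (d1 b).shift subset_rfl, Finsupp.add_apply, cst_of_notMem _ k1, add_zero]
    · rw [hB, h2.shift subset_rfl, (d2 a).shift subset_rfl, Finsupp.add_apply, cst_of_notMem _ k2, add_zero]
  have em : m = Pr (V.rw Λ) fun s => (s V.k1 = 1 ∧ s V.k2 = 1) ∧ T₁ s ∧ T₂ s := by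
    simpa only [mul_one, hm, Pr] using e (fun _ _ => 1) 1 (fun _ => DepG.const _ _) (fun _ => DepG.const _ _)
      fun _ _ => abs_one.le
  refine ⟨em ▸ c1, fun Ψ C d1 d2 hΨ => ?_⟩
  have := hE.sec (fun s => Ψ s s) C fun s => hΨ s s
  simp only [dep_res (d2 _) (Ou_sub hV), fun s => dep_res (d1 s) (In_sub hV)] at this
  rw [e Ψ C d1 d2 hΨ, em, (eq_div_iff p0.ne').2 ((mul_comm _ _).trans this.symm)]
  exact c2 (fun s => Ψ s s) C fun s => hΨ s s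

/-- a test -/
def Ts {ι : Type} (U : Finset Pt) (k : Pt) (S : Finset ι) (f : ι → Pt → ℝ) (θ : ℝ) (a : Cfg Pt) : Prop :=
  ∑ i ∈ S, lf U k (f i) a ^ 2 ≤ θ

theorem ts_dep {ι : Type} {U : Finset Pt} (k : Pt) {S : Finset ι} {f : ι → Pt → ℝ} (θ : ℝ)
    (h : ∀ i ∈ S, ∑ x ∈ U, f i x = 0) : DepG U (Ts U k S f θ) :=
  (DepG.sum fun i hi => (lf_dep k (h i hi)).comp fun t => t ^ 2).comp fun t => t ≤ θ

theorem ts_bad {ι : Type} {U : Finset Pt} {k : Pt} {S : Finset ι} {f : ι → Pt → ℝ} {θ b : ℝ} {ρ : Cfg Pt → ℝ}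
    (hρ : Wt ρ) (hk : k ∉ U) (h : ∀ i ∈ S, Sup (insert k U) (f i))
    (hb : Pr ρ (fun s => θ < ∑ i ∈ S, pr (f i) s ^ 2) ≤ b) : Pr ρ (fun s => s k = 1 ∧ ¬ Ts U k S f θ s) ≤ b :=
  (hρ.pr_mono fun s _ hs => (not_le.1 hs.2).trans_eq
    (sum_congr rfl fun i hi => by rw [lf_eq hk (h i hi) hs.1])).trans hb

theorem ts_abs {U : Finset Pt} {k : Pt} {f : Fin 2 → Pt → ℝ} {θ c : ℝ} {a : Cfg Pt} (h : Ts U k univ f θ a)
    (hc : 0 ≤ c) (hθ : θ ≤ c ^ 2) (i : Fin 2) : |lf U k (f i) a| ≤ c :=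
  abs_le_of_sq_le_sq' (((single_le_sum (fun j _ => sq_nonneg (lf U k (f j) a)) (mem_univ i)).trans h).trans hθ) hc
    |> abs_le.2

/-- the kernel on the typical sets -/
theorem ker {U U' S : Finset Pt} {k k' : Pt} {yi di : Fin 2 → Pt → ℝ} {y₂ al : Pt → Pt → ℝ} {a b : Cfg Pt}
    {t C g y ψ ψ' : ℝ} (W0 : 0 < W) (g1 : 1 / 2 ≤ g) (C0 : 0 < C) (tC : 2 * C ≤ t) (t3 : 3 ≤ t)
    (S0 : S.Nonempty) (h1 : Ts U k univ yi (t * C * 2) a) (h2 : Ts U k S y₂ (t * (C / W ^ 4) * S.card) a)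
    (h3 : Ts U' k' univ di (t * (C / W ^ 2) * 2) b) (h4 : Ts U' k' S al (t * C * S.card) b)
    (hy : y = ψ + ψ' + ∑ i, lf U k (yi i) a * lf U' k' (di i) b +
      (∑ w ∈ S, lf U k (y₂ w) a * lf U' k' (al w) b) / S.card) :
    |y / g - ψ / g - ψ' / g - ∑ i, clp 1 (lf U k (yi i) a / t) * clp (t ^ 4 / W) (t * lf U' k' (di i) b / g)| ≤
      (t ^ 4 / W) ^ 2 := by
  have t0 : 0 < t := by linarith
  have g0 : 0 < g := by linarith
  have tt : t * (2 * C) ≤ t ^ 2 := by nlinarith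
  have y1 := ts_abs h1 t0.le (by linarith)
  have y2 := ts_abs h3 (c := t / W) (by positivity) (by
    rw [div_pow, show t * (C / W ^ 2) * 2 = t * (2 * C) / W ^ 2 by ring]
    exact div_le_div_of_nonneg_right tt (by positivity))
  have y3 := Kr.T74.cs_le S0 (c := t * C / W ^ 2) (by positivity) h2 h4 (le_of_eq (by ring))
  have gi : ∀ {x y : ℝ}, |x| ≤ y → |x / g| ≤ 2 * y := fun {x y} h => by
    rw [abs_div, abs_of_pos g0, div_le_iff₀ g0]; nlinarith [abs_nonneg x]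
  have t2 : 2 ≤ t ^ 2 := by nlinarith
  have e1 : ∀ i, clp 1 (lf U k (yi i) a / t) * clp (t ^ 4 / W) (t * lf U' k' (di i) b / g) =
      lf U k (yi i) a * lf U' k' (di i) b / g := fun i => by
    rw [cl_of (by rw [abs_div, abs_of_pos t0, div_le_one t0]; exact y1 i), cl_of ((gi (y := t * (t / W)) (by
      rw [abs_mul, abs_of_pos t0]; exact mul_le_mul_of_nonneg_left (y2 i) t0.le)).trans ?_)]
    · field_simp
    · rw [show 2 * (t * (t / W)) = 2 * t ^ 2 / W by ring]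
      exact div_le_div_of_nonneg_right (by nlinarith) W0.le
  simp only [e1]
  rw [hy, ← sum_div]
  refine (le_of_eq (congrArg abs (by ring))).trans ((gi y3).trans ?_)
  rw [show 2 * (t * C / W ^ 2) = t * (2 * C) / W ^ 2 by ring, div_pow]
  refine div_le_div_of_nonneg_right ?_ (by positivity)
  have := pow_le_pow_right₀ (by linarith : 1 ≤ t) (by norm_num : 2 ≤ 4 * 2)
  rw [← pow_mul]; linarith

theorem prp {a b p q r s : Prop} (h : (a ∧ b) ∧ ¬ ((p ∧ q) ∧ r ∧ s)) :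
    (a ∧ ¬ p ∨ a ∧ ¬ q) ∨ b ∧ ¬ r ∨ b ∧ ¬ s := by tauto

theorem rp {ε x : ℝ} (W0 : 0 < W) (a n : ℕ) (h : x = -a + n * (ε / 4)) :
    W ^ x = (W ^ (ε / 4)) ^ n / W ^ a := by
  rw [h, rpow_add W0, rpow_neg W0.le, rpow_natCast, mul_comm (n : ℝ), rpow_mul W0.le, rpow_natCast]; ring

theorem num {t Cs u e m : ℝ} {N : ℕ} (W1 : 1024 ≤ W) (Cs1 : 1 ≤ Cs) (ht : 2 * Cs + 1 ≤ t) (h5 : t ^ 5 ≤ W)
    (hu : u = (W ^ (N + 3))⁻¹) (m0 : 0 < m) (he : e ≤ u * m) :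
    Cs * (t ^ 4 / W) ≤ 1 ∧ t ^ 4 / W ≤ 1 ∧ Cs * (t ^ 4 / W) ^ 2 ≤ 1 ∧ t ^ 5 / W ^ 2 ≤ (t ^ 4 / W) ^ 2 ∧
      e ≤ (t ^ 4 / W) ^ 2 * m ∧ Cs * ((t ^ 4 / W) ^ 2 + (t ^ 4 / W) ^ 2) + 27 * (2 * u) ≤ t ^ 10 / W ^ 2 ∧
      Cs * (e / m) + 4 * (2 * u) ≤ (W ^ N)⁻¹ := by
  have W0 : 0 < W := by linarith
  have t1 : 1 ≤ t := by linarith
  have b0 : 0 ≤ t ^ 4 / W := by positivity
  have a1 : Cs * (t ^ 4 / W) ≤ 1 := by
    rw [← mul_div_assoc, div_le_one W0]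
    exact (mul_le_mul_of_nonneg_right (by linarith : Cs ≤ t) (by positivity)).trans (by linarith [pow_succ' t 4])
  have a2 : t ^ 4 / W ≤ 1 := (le_mul_of_one_le_left b0 Cs1).trans a1
  have e8 : (t ^ 4 / W) ^ 2 = t ^ 8 / W ^ 2 := by ring
  have u3 : 54 * u ≤ 1 / W ^ 2 := by
    rw [hu, ← div_eq_mul_inv, div_le_div_iff₀ (by positivity) (by positivity), pow_add]
    have a := mul_le_mul_of_nonneg_right (one_le_pow₀ (n := N) (by linarith : 1 ≤ W)) (pow_pos W0 3).le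
    have b := mul_le_mul_of_nonneg_right W1 (pow_pos W0 2).le
    have : W ^ 3 = W * W ^ 2 := by ring
    linarith [pow_pos W0 2]
  have u0 : 0 < u := by rw [hu]; positivity
  have t8 : 1 / W ^ 2 ≤ t ^ 8 / W ^ 2 := div_le_div_of_nonneg_right (one_le_pow₀ t1) (by positivity)
  refine ⟨a1, a2, by nlinarith, ?_, he.trans (mul_le_mul_of_nonneg_right (by linarith) m0.le), ?_, ?_⟩
  · rw [e8]; exact div_le_div_of_nonneg_right (pow_le_pow_right₀ t1 (by norm_num)) (by positivity)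
  · have : 2 * Cs + 1 ≤ t ^ 2 := by nlinarith
    have := mul_le_mul_of_nonneg_right this (by positivity : 0 ≤ t ^ 8 / W ^ 2)
    rw [e8, show t ^ 10 / W ^ 2 = t ^ 2 * (t ^ 8 / W ^ 2) by ring]
    linarith
  · have a := mul_le_mul_of_nonneg_left ((div_le_iff₀ m0).2 he) (by linarith : 0 ≤ Cs)
    have b : (W ^ N)⁻¹ = W ^ 3 * u := by rw [hu, pow_add]; field_simp
    have c : t ≤ W := (le_self_pow₀ t1 (by norm_num)).trans h5
    have d : W + 8 ≤ W ^ 3 := by nlinarith [mul_pos W0 W0]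
    have := mul_le_mul_of_nonneg_right (by linarith : Cs + 8 ≤ W ^ 3) u0.le
    linarith

end S51

set_option maxHeartbeats 800000 in
open S51 in
theorem sectStmt (hK : KshStmt) (hS : SecStmt) (h3 : K3Stmt) (hM : MomStmt) (hZ : ZkStmt) (hB : BarStmt)
    (hE : ExtStmt) (hC : CapStmt) (hG : GeoStmt) : SectStmt := by
  intro F θ₀ ε N C hJ hθ hε hε4
  obtain ⟨Cs, Cs1, hS⟩ := hS
  obtain ⟨C3, W3, C30, h3⟩ := h3
  obtain ⟨c, c0, hZ⟩ := hZ F hJ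
  obtain ⟨k, hk⟩ := exists_nat_ge (((C + N + 4 : ℕ) : ℝ) / (ε / 4))
  obtain ⟨Cm, Cm0, hM⟩ := hM F k hJ
  obtain ⟨Cc, Cc0, hcap⟩ := Kr.K77.cap_bd
  have t1 := tendsto_rpow_atTop (y := ε / 4) (by positivity)
  obtain ⟨W₂, hW₂⟩ := eventually_atTop.1 ((eventually_ge_atTop W3).and ((eventually_ge_atTop 1024).and
    ((eventually_ge_atTop (4 * Cm / c)).and ((t1.eventually_ge_atTop (2 * Cs + 2 * C3 + 1)).and
      ((t1.eventually_ge_atTop (exp (4 * π * Cc))).and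
        (tendsto_log_atTop.eventually_ge_atTop (2 * π * (Cc + 2))))))))
  refine ⟨W₂, fun W hW K j hK1 => ?_⟩
  obtain ⟨w1, w2, w3, w4, w5, w6⟩ := hW₂ W hW
  have W0 : 0 < W := by linarith
  have W1 : 1 ≤ W := by linarith
  obtain ⟨u, hu⟩ : ∃ u, u = (W ^ (N + 3))⁻¹ := ⟨_, rfl⟩
  have u0 : 0 < u := by rw [hu]; positivity
  obtain ⟨δ, δ0, hδ⟩ := hK F θ₀ W K j hJ hθ hK1 (u * (c * (W ^ C)⁻¹ / 2)) (by positivity)
  refine ⟨δ, δ0, fun Λ hΛ l L hw V hV hj hL hg hT => ?_⟩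
  obtain ⟨g0, α, A, B, p, q, iI, iO, shp⟩ := hδ Λ hΛ l L hw V hV hj hL
  generalize Λ.gN l = g at *
  have g1 := Kr.K77.half_le hε4 hg
  have J : Λ.J = nn := hΛ.1.trans hJ
  have Ge := hG V W hV
  have Xt := hE Λ V W hΛ.ok J hV
  obtain ⟨Pe, -, -, bar⟩ := hB Λ V W g α A B hΛ.ok J hV iI iO
  obtain ⟨cp1, cp2⟩ := hC V W hV
  have cp0 : 0 < V.cp := lt_of_lt_of_le (by positivity) cp1
  have lam := Kr.K77.lam_le Cc0 W0 hε hg g0 ((hcap V.G W hV.g).1.trans (inv_anti₀ cp0 cp2)) w6 w5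
  have h5 : (W ^ (ε / 4)) ^ 5 ≤ W := by
    rw [← rpow_natCast, ← rpow_mul W0.le]
    exact (rpow_le_rpow_of_exponent_le W1 (by push_cast; linarith)).trans_eq (rpow_one W)
  have hk' : W ^ (C + N + 4) ≤ (W ^ (ε / 4)) ^ k := by
    rw [← rpow_natCast, ← rpow_natCast, ← rpow_mul W0.le]
    exact rpow_le_rpow_of_exponent_le W1 (by rwa [div_le_iff₀' (by positivity)] at hk)
  rw [rp (ε := ε) (x := -2 + 5 / 4 * ε) W0 2 5 (by push_cast; ring)] at lam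
  rw [rp (ε := ε) (x := -1 + ε) W0 1 4 (by push_cast; ring),
    rp (ε := ε) (x := -2 + 5 / 2 * ε) W0 2 10 (by push_cast; ring), pow_one, rpow_neg W0.le, rpow_natCast]
  rw [rpow_neg W0.le, rpow_natCast] at hT
  clear hδ hW₂ hcap t1
  generalize W ^ (ε / 4) = t at *
  have t0 : 0 < t := by linarith
  obtain ⟨ψ₁, ψ₂, yi, di, S, y₂, al, S0, hi, hw, hy⟩ := h3 V W w1 hV
  have k1 : V.k1 ∉ V.G.In := fun h => Ge.k_off.1 (In_sub hV h)
  have k2 : V.k2 ∉ V.G.Ou := fun h => Ge.k_off.2.1 (Ou_sub hV h)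
  have nI : ∀ {f n}, V.Ic f n → ∑ x ∈ V.G.In, f x = 0 := fun h => neutral Ge (In_sub hV) Ge.k_off.1 h.1 h.2
  have nO : ∀ {f n}, V.Oc f n → ∑ x ∈ V.G.Ou, f x = 0 := fun h => neutral Ge (Ou_sub hV) Ge.k_off.2.1 h.1 h.2
  have hρ := Xt.cen.wt
  have b1 := ts_bad hρ k1 (fun i _ => (hi i).1.1)
    ((hM Λ hΛ V W hV _ univ yi C3 C30 fun i _ => (hi i).1.2).2 t t0)
  have b2 := ts_bad hρ k1 (fun i h => (hw i h).1.1)
    ((hM Λ hΛ V W hV _ S y₂ _ (by positivity) fun i h => (hw i h).1.2).2 t t0)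
  have b3 := ts_bad hρ k2 (fun i _ => (hi i).2.1)
    ((hM Λ hΛ V W hV _ univ di _ (by positivity) fun i _ => (hi i).2.2).2 t t0)
  have b4 := ts_bad hρ k2 (fun i h => (hw i h).2.1)
    ((hM Λ hΛ V W hV _ S al C3 C30 fun i h => (hw i h).2.2).2 t t0)
  rw [card_univ, Fintype.card_fin, Nat.cast_ofNat] at b1 b3
  have pk : c * (W ^ C)⁻¹ ≤ V.Pk Λ 1 := (mul_le_mul_of_nonneg_left hT c0.le).trans (hZ Λ hΛ V W hV).1
  have p0 : 0 < V.Pk Λ 1 := lt_of_lt_of_le (by positivity) pk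
  have u2 : u ≤ 1 / 2 := by
    rw [hu, one_div]
    exact inv_anti₀ two_pos (le_trans (by linarith) (le_self_pow₀ W1 (by omega)))
  obtain ⟨T₁, e₁⟩ : ∃ T : Cfg Pt → Prop, T = fun a => Ts V.G.In V.k1 univ yi (t * C3 * 2) a ∧
    Ts V.G.In V.k1 S y₂ (t * (C3 / W ^ 4) * S.card) a := ⟨_, rfl⟩
  obtain ⟨T₂, e₂⟩ : ∃ T : Cfg Pt → Prop, T = fun a => Ts V.G.Ou V.k2 univ di (t * (C3 / W ^ 2) * 2) a ∧
    Ts V.G.Ou V.k2 S al (t * C3 * S.card) a := ⟨_, rfl⟩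
  obtain ⟨m, hm⟩ : ∃ m, KrA.br (KrA.mub A B (V.nu Λ))
    (fun a b => ind (a V.k1 = 1 ∧ T₁ a) * ind (b V.k2 = 1 ∧ T₂ b)) = m := ⟨_, rfl⟩
  obtain ⟨m1, ky⟩ := key hV Ge Xt iI.1 iO.1 bar (T₁ := T₁) (T₂ := T₂)
    (e₁ ▸ (ts_dep _ _ fun i _ => nI (hi i).1).comp₂ (ts_dep _ _ fun i h => nI (hw i h).1) And)
    (e₂ ▸ (ts_dep _ _ fun i _ => nO (hi i).2).comp₂ (ts_dep _ _ fun i h => nO (hw i h).2) And) u2 p0 (by
      rw [e₁, e₂]
      refine (hρ.pr_mono fun s _ hs => prp hs).trans ((hρ.pr_or_le _ _).trans ((add_le_add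
        ((hρ.pr_or_le _ _).trans (add_le_add b1 b2)) ((hρ.pr_or_le _ _).trans (add_le_add b3 b4))).trans ?_))
      refine le_trans ?_ (mul_le_mul_of_nonneg_left pk u0.le)
      have a : Cm / t ^ k ≤ Cm / W ^ (C + N + 4) := div_le_div_of_nonneg_left Cm0.le (by positivity) hk'
      have b : u * (c * (W ^ C)⁻¹) = c * W / W ^ (C + N + 4) := by rw [hu]; field_simp; ring
      have d : 4 * Cm / W ^ (C + N + 4) ≤ c * W / W ^ (C + N + 4) :=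
        div_le_div_of_nonneg_right ((div_le_iff₀' c0).1 w3) (by positivity)
      rw [mul_div_assoc 4] at d
      linarith) hm
  have m0 := lt_of_lt_of_le (half_pos p0) m1
  obtain ⟨n1, n2, n3, n4, n5, n6, n7⟩ := num w2 Cs1 (by linarith) h5 hu m0
    (mul_le_mul_of_nonneg_left ((div_le_div_of_nonneg_right pk two_pos.le).trans m1) u0.le)
  have β0 : 0 ≤ t ^ 4 / W := by positivity
  have sec := hS _ _ A B _ _ _ (t ^ 4 / W) ((t ^ 4 / W) ^ 2) m _ p (fun a => ψ₁ a / g) q (fun b => ψ₂ b / g)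
    (fun a => a V.k1 = 1 ∧ T₁ a) (fun b => b V.k2 = 1 ∧ T₂ b) (fun i a => clp 1 (lf V.G.In V.k1 (yi i) a / t))
    (fun i b => clp (t ^ 4 / W) (t * lf V.G.Ou V.k2 (di i) b / g)) (by positivity) shp
    (KrA.hasSum_mub_one A B Pe.nonneg Pe.one) (fun _ _ => abs_cl zero_le_one _) (fun _ _ => abs_cl β0 _)
    n1 n3 (lam.trans n4) (fun a b ha hb => by
      rw [e₁] at ha; rw [e₂] at hb
      refine ker W0 g1 C30 (by linarith) (by linarith) S0 ha.2.1 ha.2.2 hb.2.1 hb.2.2 ?_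
      rw [hy a b ha.1 hb.1, sum_congr rfl fun i _ => by
        rw [lf_eq k1 (hi i).1.1 ha.1, lf_eq k2 (hi i).2.1 hb.1], sum_congr (s₁ := S) rfl fun w h => by
        rw [lf_eq k1 (hw w h).1.1 ha.1, lf_eq k2 (hw w h).2.1 hb.1]]) m0 hm n5
  exact out_of (E' := fun Φ => KrA.br (KrA.mub A B (V.nu Λ))
      (fun a b => ind (a V.k1 = 1 ∧ T₁ a) * ind (b V.k2 = 1 ∧ T₂ b) * Φ (a, b)) / m)
    (y := fun i a => clp 1 (lf V.G.In V.k1 (yi i) a / t))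
    (d := fun i b => clp (t ^ 4 / W) (t * lf V.G.Ou V.k2 (di i) b / g)) (by positivity) n2 n6 n7
    (fun f hf => Ex_nonneg (Md.ctr_wts Xt.sl.1 Xt.sl.2 0 _).nonneg fun s _ => hf s)
    (fun i => ⟨(lf_dep _ (nI (hi i).1)).comp fun x => clp 1 (x / t), fun _ => abs_cl zero_le_one _,
      (lf_dep _ (nO (hi i).2)).comp fun x => clp (t ^ 4 / W) (t * x / g), fun _ => abs_cl β0 _⟩) ky sec

end Crest.Agent.T145.Kv
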