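import Crest.Agent.T145.KvDef_8
import Crest.Agent.T145.Br_73
import Crest.Agent.T145.Soft_23

/-!
# Row 145, module Kv: T1 for glued pieces (helper60)
-/

set_option autoImplicit false

namespace Crest.Agent.T145.Kv

open Finset Real
open Vd (ray)

namespace T60

theorem gfl_apply {G : Type} [AddCommGroup G] (ed : Finset (Pt × Pt)) (φ : Pt × Pt → ℝ)
    (g : Pt × Pt → G →+ ℤ) (s : G) : gfl ed φ g s = ∑ e ∈ ed, φ e * g e s := by
  simp [gfl]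

theorem reg_sd {X : Finset Pt} {K : ℝ} {l L : ℕ} (h : Reg X K l L) (hl : l ≤ L) (a : Pt) {n₁ n₂ : ℕ}
    (h1 : n₁ ≤ 3 * L) (h2 : n₂ ≤ 3 * L) : Reg (X \ rc a n₁ n₂) (K + 16) l L := by
  have hL : (0 : ℝ) ≤ L := L.cast_nonneg
  have hl0 : (0 : ℝ) ≤ l := l.cast_nonneg
  refine ⟨(Nat.cast_le.2 (card_le_card sdiff_subset)).trans (h.1.trans (by gcongr; linarith)), ?_⟩
  have hs : ((X \ rc a n₁ n₂).filter fun x => ¬ bl x l ⊆ X \ rc a n₁ n₂) ⊆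
      (X.filter fun x => ¬ bl x l ⊆ X) ∪
        (rc (a.1 - l, a.2 - l) (n₁ + 2 * l) (n₂ + 2 * l) \ rc a n₁ n₂) := fun x hx => by
    rw [mem_filter, mem_sdiff] at hx
    by_contra hn
    rw [mem_union, not_or, mem_filter, mem_sdiff, not_and_not_right, not_and_not_right] at hn
    refine hx.2 fun y hy => mem_sdiff.2 ⟨hn.1 hx.1.1 hy, fun hy' => hx.1.2 (hn.2 ?_)⟩
    rw [mem_bl] at hy; rw [mem_rc] at hy' ⊢; push_cast; omega
  have h3 : rc a n₁ n₂ ⊆ rc (a.1 - l, a.2 - l) (n₁ + 2 * l) (n₂ + 2 * l) := fun y hy => by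
    rw [mem_rc] at hy ⊢; push_cast; omega
  have h4 := card_sdiff_add_card_eq_card h3
  rw [card_rc, card_rc] at h4
  have h5 := (Nat.cast_le (α := ℝ)).2 ((card_le_card hs).trans (card_union_le _ _))
  have h6 := congrArg (Nat.cast : ℕ → ℝ) h4
  have h7 : (n₁ : ℝ) ≤ 3 * L := by exact_mod_cast h1
  have h8 : (n₂ : ℝ) ≤ 3 * L := by exact_mod_cast h2
  have h9 : (l : ℝ) ≤ L := by exact_mod_cast hl
  push_cast at h5 h6
  nlinarith [h.2, mul_le_mul_of_nonneg_left h7 hl0, mul_le_mul_of_nonneg_left h8 hl0,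
    mul_le_mul_of_nonneg_left h9 hl0]

theorem reg_mono {X : Finset Pt} {K K' : ℝ} {l L : ℕ} (h : Reg X K l L) (hK : K ≤ K') : Reg X K' l L :=
  ⟨h.1.trans (by gcongr), h.2.trans (by gcongr)⟩

theorem nn_cases {e : Pt × Pt} (h : e.2 - e.1 ∈ Pot.nL.Jp) : ∃ i, e = (e.1, e.1 + ev i) := by
  rw [Pot.nL_Jp, mem_insert, mem_singleton] at h
  rcases h with h | h
  · exact ⟨0, Prod.ext rfl (by rw [sub_eq_iff_eq_add'] at h; exact h)⟩
  · exact ⟨1, Prod.ext rfl (by rw [sub_eq_iff_eq_add'] at h; exact h)⟩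

theorem ev_Jp (i : Fin 2) : ev i ∈ Pot.nL.Jp := by
  rw [Pot.nL_Jp]; fin_cases i <;> simp [ev]

theorem vfl_ev (b : Fin 2 → Pt → ℝ) (x : Pt) (i : Fin 2) : vfl b (x, x + ev i) = b i x := by
  fin_cases i <;> simp [vfl, co, ev]

theorem ev_bl (x : Pt) (i : Fin 2) : x ∈ bl (x + ev i) 1 := by
  fin_cases i <;> simp [mem_bl, ev] <;> omega

variable (V : Gv)

/-- the lower lip -/
noncomputable def LL : Finset Pt := rc (V.G.rho - 4 * V.ω, -1) (8 * V.ω) 1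

/-- the gradient of the glued function -/
noncomputable def gr (u : Fin 3 → Pt → ℝ) (i : Fin 2) (x : Pt) : ℝ :=
  df i (u 0) x + if 0 ≤ x.2 then df i (u 1) x else df i (u 2) x

variable {V} {K : ℝ} {u : Fin 3 → Pt → ℝ}

theorem mem_up {x : Pt} : x ∈ V.up ↔ ((V.G.rho : ℤ) - 4 * V.ω ≤ x.1 ∧ x.1 < V.G.rho + 4 * V.ω) ∧
    0 ≤ x.2 ∧ x.2 < 8 * V.ω := by
  rw [Gv.up, mem_sq]; push_cast; omega

theorem mem_lo {x : Pt} : x ∈ V.lo ↔ ((V.G.rho : ℤ) - 4 * V.ω ≤ x.1 ∧ x.1 < V.G.rho + 4 * V.ω) ∧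
    -(8 * V.ω : ℤ) ≤ x.2 ∧ x.2 < 0 := by
  rw [Gv.lo, mem_sq]; push_cast; omega

theorem mem_LL {x : Pt} : x ∈ LL V ↔ ((V.G.rho : ℤ) - 4 * V.ω ≤ x.1 ∧ x.1 < V.G.rho + 4 * V.ω) ∧
    x.2 = -1 := by
  rw [LL, mem_rc]; push_cast; omega

theorem kp_iff (hG : V.Geo) {x : Pt} {i : Fin 2} :
    ray 0 (x, x + ev i) = V.s1 (x, x + ev i) + V.s2 (x, x + ev i) ↔ x ∉ LL V ∨ i = 0 := by
  have := hG.ω_le
  rw [mem_LL]
  fin_cases i <;> simp only [Gv.s1, Gv.s2, ray, ev] <;> simp <;> split_ifs <;> omega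

theorem glue_eq (h : V.Pc K u) (x : Pt) : V.glue u x = u 0 x + if 0 ≤ x.2 then u 1 x else u 2 x := by
  have h1 := fun h' => mem_union.1 (h.s12 x h' (self_mem_bl _ _))
  simp only [mem_up, mem_lo] at h1
  have h2 : u 1 x = 0 ∨ u 1 x ≠ 0 := em _
  have h3 : u 2 x = 0 ∨ u 2 x ≠ 0 := em _
  simp only [Gv.glue, Pi.add_apply, Pot.on, mem_up, mem_lo, add_assoc, add_right_inj]
  split_ifs
  all_goals first | omega | (simp; done) |
    (rcases h2 with h2 | h2; · simp [h2]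
     have := h1 (Or.inl h2); omega) |
    (rcases h3 with h3 | h3; · simp [h3]; done
     have := h1 (Or.inr h3); omega)

theorem van (h : V.Pc K u) {x y : Pt} (hx : x ∉ LL V) (h2 : x.2 = -1) (hy : x ∈ bl y ⌊(V.G.R : ℝ) / K⌋₊) :
    u 1 y = 0 ∧ u 2 y = 0 := by
  by_contra hn
  have := mem_union.1 (h.s12 y (not_and_or.1 hn) hy)
  rw [mem_up, mem_lo] at this
  rw [mem_LL] at hx
  omega

theorem side {x : Pt} {i : Fin 2} (hx : x ∉ LL V ∨ i = 0) :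
    (0 ≤ (x + ev i).2 ↔ 0 ≤ x.2) ∨ (x ∉ LL V ∧ x.2 = -1 ∧ i = 1) := by
  fin_cases i
  · left; simp [ev]
  · simp [ev] at hx ⊢
    simp only [hx, not_false_eq_true, true_and]; omega

theorem df_glue (h : V.Pc K u) (hn : 2 ≤ ⌊(V.G.R : ℝ) / K⌋₊) {x : Pt} {i : Fin 2} (hx : x ∉ LL V ∨ i = 0) :
    V.glue u (x + ev i) - V.glue u x = gr u i x := by
  rw [glue_eq h, glue_eq h, gr]
  simp only [df]
  rcases side hx with h1 | ⟨h1, h2, rfl⟩
  · simp only [h1]; split_ifs <;> ring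
  · have h3 := van h h1 h2 (bl_mono _ (by omega) (ev_bl x 1))
    rw [if_neg (show ¬ 0 ≤ x.2 by omega), if_neg (show ¬ 0 ≤ x.2 by omega), h3.1, h3.2, ite_self]
    ring

theorem abs_gr (h : V.Pc K u) (i : Fin 2) (x : Pt) : |gr u i x| ≤ 2 * (K / V.G.R) := by
  refine (abs_add_le _ _).trans ?_
  split_ifs
  · linarith [(h.sm 0).1.1 i x, (h.sm 1).1.1 i x]
  · linarith [(h.sm 0).1.1 i x, (h.sm 2).1.1 i x]

theorem abs_df_gr (h : V.Pc K u) (hn : 2 ≤ ⌊(V.G.R : ℝ) / K⌋₊) (i j : Fin 2) {x : Pt} (hx : x ∉ LL V) :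
    |df j (gr u i) x| ≤ 2 * (K / (V.G.R : ℝ) ^ 2) := by
  have e : df j (gr u i) x = df j (df i (u 0)) x +
      if 0 ≤ x.2 then df j (df i (u 1)) x else df j (df i (u 2)) x := by
    rw [df, gr, gr]
    simp only [df.eq_1 j]
    rcases side (i := j) (Or.inl hx) with h1 | ⟨h1, h2, rfl⟩
    · simp only [h1]; split_ifs <;> ring
    · have h3 := van h h1 h2 (bl_mono _ (by omega) (ev_bl x 1))
      have h4 := van h h1 h2 (y := x + ev 1 + ev i) (bl_subset_bl (ev_bl _ i) hn (ev_bl x 1))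
      have h5 : df i (u 1) (x + ev 1) = 0 := by rw [df, h3.1, h4.1, sub_self]
      have h6 : df i (u 2) (x + ev 1) = 0 := by rw [df, h3.2, h4.2, sub_self]
      rw [if_neg (show ¬ 0 ≤ x.2 by omega), if_neg (show ¬ 0 ≤ x.2 by omega), h5, h6, ite_self]
      ring
  rw [e]
  refine (abs_add_le _ _).trans ?_
  split_ifs
  · linarith [(h.sm 0).1.2 i j x, (h.sm 1).1.2 i j x]
  · linarith [(h.sm 0).1.2 i j x, (h.sm 2).1.2 i j x]

theorem ul_A (hG : V.Geo) : V.up ∪ V.lo ⊆ V.G.A := fun x hx => by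
  have h1 := mem_sdiff.1 (hG.ul_sub hx)
  have := hG.r_le
  have := hG.rho_le
  exact mem_sdiff.2 ⟨bl_mono 0 (by omega) h1.1, fun h => h1.2 (bl_mono 0 (by omega) h)⟩

theorem glue_near (hG : V.Geo) (h : V.Pc K u) {x : Pt} (hx : V.glue u x ≠ 0) :
    bl x ⌊(V.G.R : ℝ) / K⌋₊ ⊆ V.G.A := by
  by_cases h0 : u 0 x = 0
  · refine (h.s12 x ?_).trans (ul_A hG)
    by_contra hn
    rw [not_or, not_not, not_not] at hn
    exact hx (by rw [glue_eq h, h0, hn.1, hn.2, ite_self, add_zero])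
  · exact (h.s0 x h0).trans sdiff_subset

theorem A_Om {W : ℝ} (h : V.Ok W) : V.G.A ⊆ V.G.Om := fun x hx => by
  have h1 := mem_sdiff.1 hx
  have := h.g.hc
  have := h.g.out
  exact mem_sdiff.2 ⟨bl_mono 0 (by omega) h1.1, fun h => h1.2 (bl_mono 0 (by omega) h)⟩

theorem mem_EA (hG : V.Geo) {x : Pt} {i : Fin 2} : (x, x + ev i) ∈ V.EA ↔
    (x ∈ V.G.A ∨ x + ev i ∈ V.G.A) ∧ (x ∉ LL V ∨ i = 0) := by
  rw [Gv.EA, Gv.kp, mem_filter, kp_iff hG, Lat.mem_edT, add_sub_cancel_left, and_iff_right (ev_Jp i)]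

theorem EA_cases {e : Pt × Pt} (h : e ∈ V.EA) : ∃ i, e = (e.1, e.1 + ev i) :=
  nn_cases (Lat.mem_edT.1 (mem_filter.1 h).1).1

theorem d_glue (hG : V.Geo) (h : V.Pc K u) (hn : 2 ≤ ⌊(V.G.R : ℝ) / K⌋₊) {e : Pt × Pt} (he : e ∈ V.EA) :
    V.glue u e.2 - V.glue u e.1 = vfl (gr u) e ∧ |vfl (gr u) e| ≤ 2 * (K / V.G.R) := by
  obtain ⟨i, hi⟩ := EA_cases he
  rw [hi] at he ⊢
  rw [vfl_ev]
  exact ⟨df_glue h hn ((mem_EA hG).1 he).2, abs_gr h i _⟩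

theorem edI_sub (hG : V.Geo) : Pot.nL.edI (V.G.A \ LL V) ⊆ V.EA := fun e he => by
  obtain ⟨h1, h2, -⟩ := Lat.mem_edI.1 he
  obtain ⟨i, hi⟩ := nn_cases h1
  rw [hi, mem_EA hG]
  exact ⟨Or.inl (mem_sdiff.1 h2).1, Or.inl (mem_sdiff.1 h2).2⟩

theorem sum_le (hG : V.Geo) (b : Fin 2 → Pt → ℝ) :
    ∑ x ∈ V.G.A \ LL V, ∑ i, b i x ^ 2 ≤ ∑ e ∈ V.EA, vfl b e ^ 2 := by
  rw [← sum_product', ← sum_congr rfl fun p _ => congrArg (· ^ 2) (vfl_ev b p.1 p.2),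
    ← sum_image (g := fun p : Pt × Fin 2 => (p.1, p.1 + ev p.2)) (f := fun e => vfl b e ^ 2)]
  · refine sum_le_sum_of_subset_of_nonneg (fun e he => ?_) fun _ _ _ => sq_nonneg _
    obtain ⟨p, hp, rfl⟩ := mem_image.1 he
    have := mem_sdiff.1 (mem_product.1 hp).1
    exact (mem_EA hG).2 ⟨Or.inl this.1, Or.inl this.2⟩
  · rintro ⟨x, i⟩ - ⟨y, j⟩ - h
    simp only [Prod.mk.injEq] at h ⊢
    obtain ⟨rfl, h⟩ := h
    refine ⟨rfl, ?_⟩
    rw [add_right_inj] at h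
    fin_cases i <;> fin_cases j <;> simp_all [ev]

theorem card_EA (hR : 2 ≤ V.G.R) : (V.EA.card : ℝ) ≤ 25 * (V.G.R : ℝ) ^ 2 := by
  have h1 := (show V.EA.card ≤ _ from card_filter_le _ _).trans (Lat.card_edT_le (Λ := Pot.nL) V.G.A)
  have h2 : V.G.A.card ≤ (2 * V.G.R + 1) ^ 2 := (card_le_card sdiff_subset).trans_eq (card_bl _ _)
  rw [Pot.nL_Jp, card_pair (by decide)] at h1
  have h3 : V.EA.card ≤ 25 * V.G.R ^ 2 := h1.trans (by nlinarith)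
  exact_mod_cast h3

/-- the edges outside `A \ LL` that carry a gradient -/
theorem extra (hG : V.Geo) (h : V.Pc K u) (hn : 2 ≤ ⌊(V.G.R : ℝ) / K⌋₊) {e : Pt × Pt}
    (he : e ∈ V.EA \ Pot.nL.edI (V.G.A \ LL V)) (h0 : vfl (gr u) e ≠ 0) : e ∈ Pot.nL.edT (LL V) := by
  obtain ⟨h1, h2⟩ := mem_sdiff.1 he
  rw [← (d_glue hG h hn h1).1] at h0
  have h3 := (Lat.mem_edT.1 (mem_filter.1 h1).1).1
  obtain ⟨i, hi⟩ := nn_cases h3
  have h4 : e.1 ∈ bl e.2 1 := by rw [hi]; exact ev_bl _ i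
  have h5 : e.1 ∈ V.G.A ∧ e.2 ∈ V.G.A := by
    by_cases h6 : V.glue u e.1 = 0
    · have := glue_near hG h (x := e.2) (by rwa [h6, sub_zero] at h0)
      exact ⟨this (bl_mono _ (by omega) h4), this (self_mem_bl _ _)⟩
    · have := glue_near hG h h6
      exact ⟨this (self_mem_bl _ _), this (bl_mono _ (by omega) (mem_bl_comm.1 h4))⟩
  refine Lat.mem_edT.2 ⟨h3, by_contra fun hc => h2 (Lat.mem_edI.2 ⟨h3, ?_⟩)⟩
  rw [not_or] at hc
  exact ⟨mem_sdiff.2 ⟨h5.1, hc.1⟩, mem_sdiff.2 ⟨h5.2, hc.2⟩⟩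

theorem card_LL (hG : V.Geo) : ((Pot.nL.edT (LL V)).card : ℝ) ≤ V.G.R := by
  have h1 := Lat.card_edT_le (Λ := Pot.nL) (LL V)
  have hc : (LL V).card = 8 * V.ω * 1 := card_rc _ _ _
  rw [Pot.nL_Jp, card_pair (by decide), hc] at h1
  have := hG.ω_le
  have := hG.rho_le
  exact_mod_cast h1.trans (by omega)

theorem dens {Λ : Lat} (hΛ : Λ.Ok) {ed : Finset (Pt × Pt)} (h : ed ⊆ V.EO) : ∃ H : Cfg Pt → ℝ, PD H ∧
    (∀ s, 0 ≤ H s) ∧ ∀ s, V.rw Λ s = H s * ∏ e ∈ ed, Λ.w (V.gk e s) := by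
  refine ⟨fun s => ind (s V.rt = 0) * ind (∀ x, x ∉ insert V.k1 (insert V.k2 V.G.Om) → s x = 0) *
    ∏ e ∈ V.EO \ ed, Λ.w (V.gk e s), ((pd_ind (Finsupp.applyAddHom V.rt)).mul (Cut7.pd_off pdStmt _)).mul
      (PD.prod fun e _ => (kerStmt _ hΛ.fam).pd.comp (V.gk e)), fun s =>
    mul_nonneg (mul_nonneg (ind_nonneg _) (ind_nonneg _))
      (prod_nonneg fun _ _ => ((kerStmt _ hΛ.fam).lc.1 _).le), fun s => ?_⟩
  rw [Gv.rw, Gv.rho, ← prod_sdiff h, mul_assoc, mul_assoc]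
  congr 2
  exact ind_congr (forall_congr' fun x => by simp only [mem_insert, not_or]; tauto)

theorem cosh_le {x : ℝ} (h : |x| ≤ 1) : cosh x - 1 ≤ x ^ 2 := by
  have h1 := cosh_sub_one_le x
  have h2 : cosh x ≤ 2 := by
    have h3 : cosh x ≤ cosh 1 := cosh_le_cosh.2 (by rwa [abs_one])
    have h4 := cosh_sub_one_le 1
    linarith
  nlinarith [sq_nonneg x]

end T60

open T60

set_option maxHeartbeats 800000 in
theorem t1Stmt (hT : T1gStmt) (hB : BrgStmt) (hG : GeoStmt) (hE : ExtStmt) (hA : T1aStmt) : T1Stmt := by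
  intro F θ₀ W K j hJ _ hK K' ε hK' hε
  obtain ⟨T, T1, hT2⟩ : ∃ T : ℝ, 1 ≤ T ∧ F.τ₂ ≤ T := ⟨max 1 F.τ₂, le_max_left _ _, le_max_right _ _⟩
  obtain ⟨θ, θ0, θ1, θ2⟩ : ∃ θ : ℝ, 0 < θ ∧ θ ≤ 1 / 2 ∧ θ * (T * (100 * K' ^ 2)) ≤ ε / 3 :=
    ⟨min (1 / 2) (ε / 3 / (T * (100 * K' ^ 2))), by positivity, min_le_left _ _,
      (le_div_iff₀ (by positivity)).1 (min_le_right _ _)⟩
  have hq : 0 ≤ 4 * T * K' * K ^ 2 := by positivity
  obtain ⟨δ₁, δ₁0, hT⟩ := hT F (36 + 16 + 16 + 4 * T * K' * K ^ 2) (ε / 3) (by positivity)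
  obtain ⟨C, hA⟩ := hA F
  obtain ⟨R₀, R1, R2, R3⟩ : ∃ R₀ : ℝ, 2 ≤ R₀ ∧ 2 * K' / θ ≤ R₀ ∧ 12 * T * K' ^ 2 / (θ * ε) ≤ R₀ := by
    have h1 : 0 ≤ 2 * K' / θ := by positivity
    have h2 : 0 ≤ 12 * T * K' ^ 2 / (θ * ε) := by positivity
    exact ⟨2 + 2 * K' / θ + 12 * T * K' ^ 2 / (θ * ε), by linarith, by linarith, by linarith⟩
  have hKR : 1 ≤ K * R₀ := one_le_mul_of_one_le_of_one_le hK (by linarith)
  refine ⟨min δ₁ (K * R₀)⁻¹, by positivity, fun Λ hΛ l L hW V hV _ hAt u hu => ?_⟩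
  have hok := hΛ.ok
  have τ0 := hΛ.tau_pos
  have τT : Λ.τ ≤ T := hΛ.tau_le.trans hT2
  have hJ' : Λ.J = nn := hΛ.1.trans hJ
  have hJp : Λ.Jp = Pot.nL.Jp := by rw [Lat.Jp, hJ']; rfl
  have hI : ∀ D, Λ.edI D = Pot.nL.edI D := fun D => by rw [Lat.edI, Lat.edT, hJp]; rfl
  have ha : Λ.a = 1 := by rw [Lat.a, hJp]; exact Pot.nL_a
  have G := hG V W hV
  have E := hE Λ V W hok hJ' hV
  obtain ⟨s1, s2⟩ := hW.2.1
  have l0 : (0 : ℝ) ≤ l := l.cast_nonneg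
  have L0 : (0 : ℝ) ≤ L := L.cast_nonneg
  have hS : Sep δ₁ l L := ⟨s1.trans (mul_le_mul_of_nonneg_right (min_le_left _ _) l0),
    s2.trans (mul_le_mul_of_nonneg_right (min_le_left _ _) L0)⟩
  have hlL : (l : ℝ) ≤ L := s2.trans (mul_le_of_le_one_left L0
    ((min_le_right _ _).trans (inv_le_one_of_one_le₀ hKR)))
  have hl : K * R₀ ≤ l := by
    have := s1.trans (mul_le_mul_of_nonneg_right (min_le_right _ _) l0)
    rwa [le_inv_mul_iff₀ (by linarith), mul_one] at this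
  have hR : R₀ ≤ V.G.R := le_of_mul_le_mul_left (hl.trans (hlL.trans hAt.2)) (by linarith)
  have R0 : (0 : ℝ) < V.G.R := by linarith
  have Lp : (0 : ℝ) < L := by linarith
  rw [div_le_iff₀ θ0] at R2
  have hKθ : 2 * K' ≤ V.G.R * θ := R2.trans (by gcongr)
  have hn : 2 ≤ ⌊(V.G.R : ℝ) / K'⌋₊ := Nat.le_floor (by
    rw [le_div_iff₀ (by linarith)]; push_cast; nlinarith)
  have hd := fun e he => d_glue G hu hn (e := e) he
  have hEn : Pot.edF V.EA (V.glue u) (V.glue u) = ∑ e ∈ V.EA, vfl (gr u) e ^ 2 := by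
    rw [Pot.edF_self]; exact sum_congr rfl fun e he => by rw [(hd e he).1]
  have hsq : ∀ e ∈ V.EA, vfl (gr u) e ^ 2 ≤ (2 * (K' / V.G.R)) ^ 2 := fun e he => by
    rw [← sq_abs]; exact pow_le_pow_left₀ (abs_nonneg _) (hd e he).2 2
  have hEb : Pot.edF V.EA (V.glue u) (V.glue u) ≤ 100 * K' ^ 2 := by
    rw [hEn]
    refine (sum_le_card_nsmul _ _ _ hsq).trans ?_
    rw [nsmul_eq_mul]
    refine (mul_le_mul_of_nonneg_right (card_EA (by exact_mod_cast R1.trans hR)) (sq_nonneg _)).trans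
      (le_of_eq (by field_simp; norm_num))
  refine ⟨hEb, ?_⟩
  have θ3 : 0 < 1 - θ := by linarith
  set D := V.G.A \ LL V with hD
  have hc : Λ.τ / (1 - θ) ≤ 2 * T := by rw [div_le_iff₀ θ3]; nlinarith
  have c0 : 0 < Λ.τ / (1 - θ) := by positivity
  have hRL : 1 / (V.G.R : ℝ) ≤ K / L := by rw [div_le_div_iff₀ R0 Lp, one_mul]; exact hAt.2
  have hreg : Reg D (36 + 16 + 16) l L := by
    have h0 := hAt.1
    have := G.r_le
    have := G.rho_le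
    have := G.ω_le
    have hL1 : 1 ≤ L := by exact_mod_cast Lp
    have h1 : ((2 * V.G.R + 1 : ℕ) : ℝ) ≤ 3 * L := by exact_mod_cast (by omega : 2 * V.G.R + 1 ≤ 3 * L)
    have h2 := reg_rc ((0 : Pt).1 - V.G.R, (0 : Pt).2 - V.G.R) l L (K := 3) (by norm_num) h1 h1
    rw [show (4 * 3 ^ 2 : ℝ) = 36 by norm_num] at h2
    rw [hD, Kr.Gm.A, Nc.an, bl_eq_sq, bl_eq_sq, sq_eq_rc, sq_eq_rc]
    exact reg_sd (reg_sd h2 (by exact_mod_cast hlL) _ (by omega) (by omega)) (by exact_mod_cast hlL) _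
      (by omega) (by omega)
  have h1 := hT Λ hΛ l L hS _ (V.rw Λ) V.gk D (fun i x => Λ.τ / (1 - θ) * gr u i x) (fun _ => 0)
    (E.gamb D l sdiff_subset (edI_sub G)).1 (reg_mono hreg (by linarith))
    (fun i x _ => by
      rw [abs_mul, abs_of_pos c0]
      calc _ ≤ 2 * T * (2 * (K' * (K / L))) := mul_le_mul hc ((abs_gr hu i x).trans (by
            rw [div_eq_mul_one_div]; gcongr)) (abs_nonneg _) (by positivity)
        _ = 4 * T * K' * K / L := by ring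
        _ ≤ _ := by gcongr; nlinarith [mul_le_mul_of_nonneg_left hK (show 0 ≤ 4 * T * K' * K by positivity)])
    (fun i j x hx _ => by
      rw [show df j (fun x => Λ.τ / (1 - θ) * gr u i x) x = Λ.τ / (1 - θ) * df j (gr u i) x by
        simp only [df]; ring, abs_mul, abs_of_pos c0]
      calc _ ≤ 2 * T * (2 * (K' * (K / L) ^ 2)) := mul_le_mul hc
            ((abs_df_gr hu hn i j (mem_sdiff.1 hx).2).trans (by
              rw [div_eq_mul_one_div, ← one_div_pow]; gcongr)) (abs_nonneg _) (by positivity)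
        _ = 4 * T * K' * K ^ 2 / L ^ 2 := by ring
        _ ≤ _ := by gcongr; linarith)
    (fun _ _ => by rw [abs_zero]; positivity)
  obtain ⟨H, H1, H2, H3⟩ := dens hok ((sdiff_subset (s := V.EA) (t := Pot.nL.edI D)).trans G.EA_sub)
  have h2 := hB Λ _ (V.rw Λ) H V.gk _ (fun e => vfl (gr u) e / θ) hok E.cen.wt E.cen.se H1 H2 H3
  have h3 := (E.cen.wt.convexOn_M E.cen.se).2 (Set.mem_univ (gfl (Λ.edI D)
    (fun e => vfl (fun i x => Λ.τ / (1 - θ) * gr u i x) e / Λ.τ + 0) V.gk))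
    (Set.mem_univ (gfl (V.EA \ Pot.nL.edI D) (fun e => vfl (gr u) e / θ) V.gk)) θ3.le θ0.le (by ring)
  have hk : ∀ x, x ∉ V.G.Om → V.glue u x = 0 := fun x hx =>
    by_contra fun h => hx (A_Om hV (glue_near G hu h (self_mem_bl _ _)))
  have e1 : V.X (V.glue u) = (1 - θ) • gfl (Λ.edI D)
      (fun e => vfl (fun i x => Λ.τ / (1 - θ) * gr u i x) e / Λ.τ + 0) V.gk +
      θ • gfl (V.EA \ Pot.nL.edI D) (fun e => vfl (gr u) e / θ) V.gk := by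
    refine AddMonoidHom.ext fun s => ?_
    rw [Gv.X, AddMonoidHom.add_apply, AddMonoidHom.smul_apply, AddMonoidHom.smul_apply, gfl_apply, gfl_apply,
      gfl_apply, hI, ← sum_sdiff (edI_sub G), add_comm, smul_eq_mul, smul_eq_mul, mul_sum, mul_sum]
    have e2 : ∀ e ∈ V.EA, V.Gk e (V.glue u) = vfl (gr u) e := fun e he => by
      rw [← (hd e he).1]; simp [Gv.Gk, Pot.dr, hk _ G.k_off.1, hk _ G.k_off.2.1]
    congr 1
    · refine sum_congr rfl fun e he => ?_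
      rw [e2 e (edI_sub G he)]
      simp only [vfl, mul_assoc, ← mul_sum]
      field_simp; ring
    · refine sum_congr rfl fun e he => ?_
      rw [e2 e (mem_sdiff.1 he).1]; field_simp
  have h4 : ∑ e ∈ V.EA \ Pot.nL.edI D, (cosh (vfl (gr u) e / θ) - 1) ≤ V.G.R * (2 * (K' / V.G.R) / θ) ^ 2 := by
    rw [← sum_filter_of_ne (p := (· ∈ Pot.nL.edT (LL V))) fun e he h => extra G hu hn he fun h0 =>
      h (by rw [h0, zero_div, cosh_zero, sub_self])]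
    refine (sum_le_card_nsmul _ _ ((2 * (K' / V.G.R) / θ) ^ 2) fun e he => ?_).trans ?_
    · have h5 := (mem_sdiff.1 (mem_filter.1 he).1).1
      refine (cosh_le ?_).trans (by
        rw [div_pow, div_pow _ θ]; exact div_le_div_of_nonneg_right (hsq e h5) (sq_nonneg _))
      rw [abs_div, abs_of_pos θ0, div_le_one θ0]
      exact (hd e h5).2.trans (by rw [← mul_div_assoc, div_le_iff₀ R0]; linarith)
    · rw [nsmul_eq_mul]
      exact mul_le_mul_of_nonneg_right ((Nat.cast_le.2 (card_le_card fun e he =>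
        (mem_filter.1 he).2)).trans (card_LL G)) (sq_nonneg _)
  have h5 : θ * (Λ.τ * (V.G.R * (2 * (K' / V.G.R) / θ) ^ 2)) ≤ ε / 3 := by
    rw [div_le_iff₀ (by positivity)] at R3
    calc _ = 4 * Λ.τ * K' ^ 2 / (θ * V.G.R) := by field_simp; ring
      _ ≤ 4 * T * K' ^ 2 / (θ * R₀) := by gcongr
      _ ≤ ε / 3 := by rw [div_le_div_iff₀ (by positivity) (by norm_num)]; linarith
  obtain ⟨t0, t1, -⟩ := hA Λ hΛ l (by exact_mod_cast hKR.trans hl)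
  have h6 := sum_le G (gr u)
  rw [← hEn] at h6
  simp only [mul_pow, ← mul_sum, zero_mul, sum_const_zero, mul_zero, add_zero, ne_eq, OfNat.ofNat_ne_zero,
    not_false_eq_true, zero_pow, smul_eq_mul] at h1 h3
  have e3 : Λ.gN l = Λ.tN l * Λ.τ := by rw [Lat.gN, Lat.e0, ha]; field_simp
  rw [e1, e3]
  simp only [add_zero]
  rw [Lat.e0, ha] at h1
  have S0 : 0 ≤ ∑ x ∈ D, ∑ i, gr u i x ^ 2 := by positivity
  generalize Pot.edF V.EA (V.glue u) (V.glue u) = En at *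
  generalize ∑ x ∈ D, ∑ i, gr u i x ^ 2 = S at *
  have h7 : (1 - θ) * (Λ.tN l * (1 / Λ.τ) * ((Λ.τ / (1 - θ)) ^ 2 * S) / 2 + ε / 3) ≤
      Λ.tN l * Λ.τ * En / 2 + ε / 3 + ε / 3 := by
    have g0 : 0 ≤ Λ.tN l * Λ.τ := by positivity
    have g1 : Λ.tN l * Λ.τ ≤ T := (mul_le_of_le_one_left τ0.le t1).trans τT
    have h8 : θ * (Λ.tN l * Λ.τ * En) ≤ ε / 3 := le_trans (by gcongr; linarith) θ2
    have h9 : S / (1 - θ) ≤ En + 2 * θ * En := by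
      rw [div_le_iff₀ θ3]; nlinarith [mul_nonneg (mul_nonneg θ0.le (S0.trans h6)) (sub_nonneg.2 θ1)]
    calc _ = Λ.tN l * Λ.τ * (S / (1 - θ)) / 2 + (1 - θ) * (ε / 3) := by field_simp
      _ ≤ Λ.tN l * Λ.τ * (En + 2 * θ * En) / 2 + 1 * (ε / 3) := by gcongr; linarith
      _ ≤ _ := by linarith
  have h10 := mul_le_mul_of_nonneg_left h1 θ3.le
  have h11 := mul_le_mul_of_nonneg_left (h2.trans (mul_le_mul_of_nonneg_left h4 τ0.le)) θ0.le
  linarith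

end Crest.Agent.T145.Kv
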