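import Crest.Agent.T145.KvDef_8
import Crest.Agent.T145.Soft_23

/-!
# Row 145, module Kv: the output from the slit model and the removal of the slit (helper77)
-/

set_option autoImplicit false

namespace Crest.Agent.T145.Kv

open Finset Real Filter Topology

namespace T77

theorem abs_ex {α : Type} {W F : α → ℝ} {B : ℝ} (h0 : ∀ a, 0 ≤ W a) (B0 : 0 ≤ B) (hF : ∀ a, |F a| ≤ B) :
    |Ex W F| ≤ B := by
  by_cases hs : Summable W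
  · rw [Ex, abs_div, abs_of_nonneg (tsum_nonneg h0)]
    refine div_le_of_le_mul₀ (tsum_nonneg h0) B0 ?_
    rw [mul_comm B, ← tsum_mul_right]
    exact tsum_of_norm_bounded (f := fun a => W a * F a) (hs.mul_right B).hasSum fun a => by
      rw [Real.norm_eq_abs, abs_mul, abs_of_nonneg (h0 a)]
      exact mul_le_mul_of_nonneg_left (hF a) (h0 a)
  · rw [Ex, tsum_eq_zero_of_not_summable hs, div_zero, abs_zero]; exact B0

theorem out_of {G : Kr.Gm} {E E' : (Cfg Pt → ℝ) → ℝ} {β γ η γ' η' τ : ℝ}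
    (h : Out G E' β γ' (1 / 16) η') (β1 : β ≤ 1) (τ0 : 0 ≤ τ)
    (hE : ∀ Φ B, (∀ s, |Φ s| ≤ B) → |E Φ| ≤ B) (hE' : ∀ Φ B, (∀ s, |Φ s| ≤ B) → |E' Φ| ≤ B)
    (hp : ∀ Φ, (∀ s, 0 ≤ Φ s) → 0 ≤ E Φ)
    (hd : ∀ Φ B, DepG (G.In ∪ G.Ou) Φ → (∀ s, |Φ s| ≤ B) → |E Φ - E' Φ| ≤ τ * B)
    (h1 : γ' + 27 * τ ≤ γ) (h2 : η' + 4 * τ ≤ η) : Out G E β γ (1 / 8) η := by
  obtain ⟨y, d, hy, h⟩ := h
  have mu : ∀ {F φ : Cfg Pt → ℝ} {A B : ℝ}, (∀ s, |F s| ≤ A) → (∀ s, |φ s| ≤ B) →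
      ∀ s, |F s * φ s| ≤ A * B := fun hF hφ s => by
    rw [abs_mul]
    exact mul_le_mul (hF s) (hφ s) (abs_nonneg _) ((abs_nonneg _).trans (hF s))
  have pr : ∀ {a b a' b' A B t u : ℝ}, |a| ≤ A → |b'| ≤ B → |a - a'| ≤ t → |b - b'| ≤ u →
      |a * b - a' * b'| ≤ A * u + t * B := fun {a b a' b' A B t u} h1 h2 h3 h4 => by
    rw [show a * b - a' * b' = a * (b - b') + (a - a') * b' by ring]
    refine (abs_add_le _ _).trans (add_le_add ?_ ?_) <;> rw [abs_mul]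
    · exact mul_le_mul h1 h4 (abs_nonneg _) ((abs_nonneg _).trans h1)
    · exact mul_le_mul h3 h2 (abs_nonneg _) ((abs_nonneg _).trans h3)
  have two : ∀ {F φ : Cfg Pt → ℝ} {A B : ℝ}, DepG (G.In ∪ G.Ou) F → DepG (G.In ∪ G.Ou) φ →
      (∀ s, |F s| ≤ A) → (∀ s, |φ s| ≤ B) → |E F * E φ - E' F * E' φ| ≤ 2 * τ * (A * B) :=
    fun dF dφ hF hφ => (pr (hE _ _ hF) (hE' _ _ hφ) (hd _ _ dF hF) (hd _ _ dφ hφ)).trans_eq (by ring)
  have cv : ∀ {F φ : Cfg Pt → ℝ} {A B : ℝ}, DepG (G.In ∪ G.Ou) F → DepG (G.In ∪ G.Ou) φ →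
      (∀ s, |F s| ≤ A) → (∀ s, |φ s| ≤ B) → |cov E F φ - cov E' F φ| ≤ 3 * τ * (A * B) :=
    fun {F φ A B} dF dφ hF hφ => by
      have a1 := abs_le.1 (hd _ _ (dF.mul dφ) (mu hF hφ))
      have a2 := abs_le.1 (two dF dφ hF hφ)
      rw [cov, cov, abs_le]
      constructor <;> linarith [a1.1, a1.2, a2.1, a2.2]
  have cb : ∀ {E : (Cfg Pt → ℝ) → ℝ}, (∀ Φ B, (∀ s, |Φ s| ≤ B) → |E Φ| ≤ B) →
      ∀ {F φ : Cfg Pt → ℝ} {A B : ℝ}, (∀ s, |F s| ≤ A) → (∀ s, |φ s| ≤ B) →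
        |cov E F φ| ≤ 2 * (A * B) := fun hE F φ A B hF hφ => by
    refine (abs_sub _ _).trans ?_
    rw [abs_mul]
    linarith [hE _ _ (mu hF hφ), mul_le_mul (hE _ _ hF) (hE _ _ hφ) (abs_nonneg _)
      ((abs_nonneg _).trans (hF 0))]
  refine ⟨y, d, hy, fun F φ A B dF dφ hF hφ => ?_⟩
  obtain ⟨k1, k2⟩ := h F φ A B dF dφ hF hφ
  have dF' := dF.mono (subset_union_left (s₂ := G.Ou))
  have dφ' := dφ.mono (subset_union_right (s₁ := G.In))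
  have B0 : 0 ≤ B := (abs_nonneg _).trans (hφ 0)
  have AB : 0 ≤ A * B := mul_nonneg ((abs_nonneg _).trans (hF 0)) B0
  have c0 := abs_le.1 (cv dF' dφ' hF hφ)
  refine ⟨?_, fun F0 φ0 => ?_⟩
  · have c : ∀ i, |cov E F (y i) * cov E (d i) φ - cov E' F (y i) * cov E' (d i) φ| ≤
        12 * τ * (A * B) := fun i => by
      have d1 : ∀ s, |d i s| ≤ 1 := fun s => ((hy i).2.2.2 s).trans β1
      exact (pr (cb hE hF (hy i).2.1) (cb hE' d1 hφ)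
        (cv dF' ((hy i).1.mono subset_union_left) hF (hy i).2.1)
        (cv ((hy i).2.2.1.mono subset_union_right) dφ' d1 hφ)).trans_eq (by ring)
    have c1 := abs_le.1 (c 0)
    have c2 := abs_le.1 (c 1)
    have := mul_le_mul_of_nonneg_right h1 AB
    rw [Fin.sum_univ_two, abs_le] at *
    constructor <;> linarith [k1.1, k1.2, c0.1, c0.2, c1.1, c1.2, c2.1, c2.2]
  · have c1 := abs_le.1 (k2 F0 φ0)
    have c2 := abs_le.1 (two dF' dφ' hF hφ)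
    have := mul_le_mul_of_nonneg_right h2 AB
    have := mul_nonneg (hp F F0) (hp φ φ0)
    have := mul_nonneg τ0 AB
    rw [abs_le]
    constructor <;> linarith [c0.1, c0.2, c1.1, c1.2, c2.1, c2.2]

end T77

open T77 in
theorem kvStmt (hS : SectStmt) (hR : RmvStmt) : KvStmt := by
  intro F θ₀ ε N C hJ hθ hε hε4
  obtain ⟨W₁, hS⟩ := hS F θ₀ ε (N + 1) C hJ hθ hε hε4
  obtain ⟨C', c, c0, hR⟩ := hR F θ₀ hJ hθ
  obtain ⟨W₂, hW₂⟩ := eventually_atTop.1 ((eventually_ge_atTop W₁).and ((eventually_ge_atTop 2).and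
    ((tendsto_rpow_atTop (y := ε / 2) (by positivity)).eventually_ge_atTop 2)))
  refine ⟨W₂, fun W hW K hK => ?_⟩
  obtain ⟨w1, w2, w3⟩ := hW₂ W hW
  have W0 : 0 < W := by linarith
  have p : ∀ a : ℝ, 0 < W ^ a := fun a => rpow_pos_of_pos W0 a
  obtain ⟨τ, hτ⟩ : ∃ τ, τ = min (W ^ (-2 + 5 / 2 * ε) / 27) (W ^ (-(N : ℝ)) / 8) := ⟨_, rfl⟩
  have τ0 : 0 < τ := by rw [hτ]; exact lt_min (by linarith [p (-2 + 5 / 2 * ε)]) (by linarith [p (-(N : ℝ))])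
  have τ1 : τ ≤ W ^ (-2 + 5 / 2 * ε) / 27 := hτ ▸ min_le_left _ _
  have τ2 : τ ≤ W ^ (-(N : ℝ)) / 8 := hτ ▸ min_le_right _ _
  have t : Tendsto (fun j : ℕ => C' * (2 : ℝ) ^ (-(c * j))) atTop (𝓝 (C' * 0)) :=
    ((tendsto_rpow_atBot_of_base_gt_one 2 one_lt_two).comp (tendsto_neg_atTop_atBot.comp
      (tendsto_natCast_atTop_atTop.const_mul_atTop c0))).const_mul C'
  rw [mul_zero] at t
  obtain ⟨j, j4, hj⟩ := ((eventually_ge_atTop 4).and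
    (t.eventually_le_const (mul_pos (p (-(C : ℝ))) τ0))).exists
  obtain ⟨δ₁, δ1, hS⟩ := hS W w1 K j hK
  obtain ⟨δ₂, δ2, hR⟩ := hR W K j hK
  obtain ⟨δ, δ0, e1, e2, e3⟩ := exists_of_ev ((ev_le δ1).and ((ev_le δ2).and
    (ev_mul_le (K * (32 * 2 ^ (j + 4))) one_pos)))
  refine ⟨δ, δ0, fun Λ hΛ l L hw G hG hL hg hT => ?_⟩
  have hV : (⟨G, j⟩ : Gv).Ok W := ⟨hG, j4, by
    have h1 := (div_le_iff₀ hw.L_pos').1 hw.sep.inv_L_le
    have h2 : (32 * 2 ^ (j + 4) : ℝ) ≤ G.R := by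
      have h3 : K * (32 * 2 ^ (j + 4)) ≤ L := by
        have a1 := mul_le_mul_of_nonneg_left h1 (by positivity : (0 : ℝ) ≤ K * (32 * 2 ^ (j + 4)))
        have a2 := mul_le_mul_of_nonneg_right e3 hw.L_pos'.le
        linarith
      exact le_of_mul_le_mul_left (h3.trans hL.2) (by linarith)
    have h4 : 32 * 2 ^ (j + 4) ≤ G.R := by exact_mod_cast h2
    exact Nat.le_log_of_pow_le one_lt_two (show 2 ^ (j + 4) ≤ G.R / 32 by omega)⟩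
  have w0 : ∀ k, 0 ≤ Λ.w k := fun k => hΛ.ok.fam.nonneg k
  have n1 : ∀ s, 0 ≤ (fr Λ G).Ws 0 (Vd.ray 0) s :=
    Mdl.Ws_nonneg (fun _ _ => w0) (fun _ _ _ => zero_le_one) _ _
  have n2 : ∀ s, 0 ≤ ((⟨G, j⟩ : Gv).sl Λ).Ws 0 (Vd.ray 0) s :=
    Mdl.Ws_nonneg (fun _ _ => w0) (fun _ _ _ => zero_le_one) _ _
  have hO := hS Λ hΛ l L (hw.mono_d e1) ⟨G, j⟩ hV rfl hL hg hT
  have b1 : ∀ Φ B, (∀ s, |Φ s| ≤ B) → |EV Λ G Φ| ≤ B :=
    fun Φ B h => abs_ex n1 ((abs_nonneg _).trans (h 0)) h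
  have b2 : ∀ Φ B, (∀ s, |Φ s| ≤ B) → |(⟨G, j⟩ : Gv).ES Λ Φ| ≤ B :=
    fun Φ B h => abs_ex n2 ((abs_nonneg _).trans (h 0)) h
  have b3 : ∀ Φ, (∀ s, 0 ≤ Φ s) → 0 ≤ EV Λ G Φ := fun Φ h => Ex_nonneg n1 fun s _ => h s
  refine out_of hO (rpow_le_one_of_one_le_of_nonpos (by linarith) (by linarith)) τ0.le b1 b2 b3
    (fun Φ B d h => ?_) ?_ ?_
  · have h1 := hR Λ hΛ l L (hw.mono_d e2) ⟨G, j⟩ hV rfl hL Φ B d h
    have h2 := mul_le_mul_of_nonneg_right hj ((abs_nonneg _).trans (h 0))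
    refine le_of_mul_le_mul_left ?_ (p (-(C : ℝ)))
    exact ((mul_le_mul_of_nonneg_right hT (abs_nonneg _)).trans h1).trans (h2.trans_eq (mul_assoc _ _ _))
  · have : W ^ (-2 + 3 * ε) = W ^ (-2 + 5 / 2 * ε) * W ^ (ε / 2) := by
      rw [← rpow_add W0]; congr 1; ring
    linarith [mul_le_mul_of_nonneg_left w3 (p (-2 + 5 / 2 * ε)).le]
  · have : W ^ (-(N : ℝ)) = W ^ (-((N + 1 : ℕ) : ℝ)) * W := by
      rw [← rpow_add_one W0.ne']; congr 1; push_cast; ring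
    linarith [mul_le_mul_of_nonneg_left w2 (p (-((N + 1 : ℕ) : ℝ))).le]

end Crest.Agent.T145.Kv
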