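import Crest.Agent.T145.UvG_49
import Crest.Agent.T145.ExplU_56
import Crest.Agent.T145.KrQ_75

/-!
# Row 145: weights of the extended lattice (seams with free fluxes, slits) (helper49)

`xw Λ A ed g s = 1{s = 0 off A} ∏_{e ∈ ed} w (g e s)` for arbitrary homomorphisms `g e`.
-/

set_option autoImplicit false

namespace Crest.Agent.T145.Xw

open Finset

section grp
variable {G L : Type} [AddCommGroup G] [AddCommGroup L] [IsAddTorsionFree L] {ρ H : G → ℝ} {W : L → ℝ}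

/-- a weight with a PD density over `W ∘ π` -/
theorem M_dens (π : G →+ L) (hρ : Cen ρ) (hW : Cen W) (hH : PD H) (h0 : ∀ s, 0 ≤ H s) (hp : 0 < H 0)
    (hne : ∀ s, W (π s) ≠ 0) (e : ∀ s, ρ s = H s * W (π s)) (φ : L →+ ℝ) : M ρ (φ.comp π) ≤ M W φ := by
  obtain ⟨h1, h2, h3⟩ := Cut7.dens pdStmt π hH h0 hp hne e hρ.wt.summ
  exact (congrArg Real.log (Cut7.dens_ex π e hρ.wt.summ (F := fun t => Real.exp (φ t))
    (hρ.se (φ.comp π))).2).trans_le ((hW.loc_mul h1 h2 h3).1 φ)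

theorem Vr_dens (π : G →+ L) (hρ : Cen ρ) (hW : Cen W) (hH : PD H) (h0 : ∀ s, 0 ≤ H s) (hp : 0 < H 0)
    (hne : ∀ s, W (π s) ≠ 0) (e : ∀ s, ρ s = H s * W (π s)) (φ : L →+ ℝ) :
    Vr ρ (φ.comp π) (φ.comp π) ≤ Vr W φ φ :=
  Vr_le_of_M_le hW.wt hW.se hW.even hρ.wt hρ.se hρ.even fun t =>
    M_dens π hρ hW hH h0 hp hne e (t • φ)

theorem pd_dens (π : G →+ L) (hρ : Wt ρ) (hW : Cen W) (hH : PD H) (h0 : ∀ s, 0 ≤ H s) (hp : 0 < H 0)
    (hne : ∀ s, W (π s) ≠ 0) (e : ∀ s, ρ s = H s * W (π s)) {Φ : L → ℝ} (hΦ : PD Φ) :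
    Ex W Φ ≤ Ex ρ fun s => Φ (π s) := by
  obtain ⟨h1, h2, h3⟩ := Cut7.dens pdStmt π hH h0 hp hne e hρ.summ
  rw [(Cut7.dens_ex π e hρ.summ (hρ.ig_bdd fun s => hΦ.abs_le _)).2]
  exact (hW.loc_mul h1 h2 h3).2 Φ hΦ

end grp

section root
variable {V : Type} [DecidableEq V] {ρ : Cfg V → ℝ} {A : Finset V} {r : V}

/-- any partition of unity along the zero mode replaces the root -/
theorem root (hr : r ∈ A) (inv : ∀ s i, ρ (s + cst A i) = ρ s) (hW : Wt fun s => ρ s * ind (s r = 0))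
    {U : Cfg V → ℝ} (hU0 : ∀ s, 0 ≤ U s) (hU : ∀ s, HasSum (fun h : ℤ => U (s + cst A h)) 1) :
    (Wt (fun s => U s * ρ s) ∧ Zs (fun s => U s * ρ s) = Zs fun s => ρ s * ind (s r = 0)) ∧
    ∀ F : Cfg V → ℝ, (∀ s h, F (s + cst A h) = F s) → Ig (fun s => ρ s * ind (s r = 0)) F →
      Ig (fun s => U s * ρ s) F ∧ Ex (fun s => U s * ρ s) F = Ex (fun s => ρ s * ind (s r = 0)) F := by
  have hr0 : ∀ t : Cfg V, ρ t * ind (t r = 0) ≠ 0 → t r = 0 := fun t ht => by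
    by_contra h; exact ht (mul_eq_zero_of_right _ (ind_neg h))
  have sh : ∀ s : Cfg V, ρ (s - cst A (s r)) * ind ((s - cst A (s r)) r = 0) = ρ s := fun s => by
    rw [ind_pos (by rw [Finsupp.sub_apply, Md.cst_mem hr, sub_self]), mul_one, sub_eq_add_neg,
      ← Md.cst_neg, inv]
  have hZ := X56.hasSum_root hr hU0 hU hW.summ hr0
  simp only [sh] at hZ
  have hZ' : Zs (fun s => U s * ρ s) = Zs fun s => ρ s * ind (s r = 0) := hZ.tsum_eq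
  refine ⟨⟨⟨fun s => mul_nonneg (hU0 s) ?_, hZ.summable, by rw [hZ']; exact hW.pos⟩, hZ'⟩,
    fun F hF hI => ?_⟩
  · rw [← sh]; exact hW.nonneg _
  · have h2 := X56.hasSum_root hr hU0 hU hI fun t ht => hr0 t (left_ne_zero_of_mul ht)
    have h3 : ∀ s : Cfg V, F (s - cst A (s r)) = F s := fun s => by
      rw [sub_eq_add_neg, ← Md.cst_neg, hF]
    simp only [sh, h3, ← mul_assoc] at h2
    exact ⟨h2.summable, by rw [Ex_def, Ex_def, hZ', h2.tsum_eq]⟩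

end root

/-- the fibres are summable as soon as the levels cover the data -/
theorem fib_summ {G D : Type} [AddCommGroup G] [AddCommGroup D] {ρ : G → ℝ} {π : G →+ D} {U : D → ℝ} {q : D}
    (hU : U q ≠ 0) (h : Summable (Kq75.amb ρ π U)) : Summable (Kq75.fib ρ π q) := by
  refine ((Md.summable_ind_mul (fun s => π s = q) h).mul_left (U q)⁻¹).congr fun s => ?_
  by_cases e : π s = q
  · simp only [Kq75.amb, Kq75.fib, e]; field_simp
  · simp only [Kq75.fib, ind_neg e, zero_mul, mul_zero]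

/-- the extended weight -/
noncomputable def xw (Λ : Lat) (A : Finset Pt) (ed : Finset (Pt × Pt)) (g : Pt × Pt → Cfg Pt →+ ℤ)
    (s : Cfg Pt) : ℝ := ind (∀ x, x ∉ A → s x = 0) * ∏ e ∈ ed, Λ.w (g e s)

variable {Λ : Lat} {A U Ω Ω' : Finset Pt} {ed E : Finset (Pt × Pt)} {g : Pt × Pt → Cfg Pt →+ ℤ}

theorem w_pos (hΛ : Λ.Ok) (k : ℤ) : 0 < Λ.w k := (kerStmt _ hΛ.fam).lc.1 k

theorem xw_nonneg (hΛ : Λ.Ok) (s : Cfg Pt) : 0 ≤ xw Λ A ed g s :=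
  mul_nonneg (ind_nonneg _) (prod_nonneg fun _ _ => (w_pos hΛ _).le)

theorem xw_pos (hΛ : Λ.Ok) {s : Cfg Pt} (h : ∀ x, x ∉ A → s x = 0) : 0 < xw Λ A ed g s := by
  rw [xw, ind_pos h, one_mul]; exact prod_pos fun _ _ => w_pos hΛ _

theorem xw_off {s : Cfg Pt} (h : xw Λ A ed g s ≠ 0) : ∀ x, x ∉ A → s x = 0 := by
  by_contra h'; exact h (mul_eq_zero_of_left (ind_neg h') _)

theorem pd_xw (hΛ : Λ.Ok) : PD (xw Λ A ed g) :=
  (Cut7.pd_off pdStmt A).mul (PD.prod fun e _ => (kerStmt _ hΛ.fam).pd.comp (g e))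

theorem pd_edges (hΛ : Λ.Ok) (E : Finset (Pt × Pt)) : PD fun s : Cfg Pt => ∏ e ∈ E, Λ.w (dE e s) :=
  PD.prod (F := fun e s => Λ.w (dE e s)) fun e _ => (kerStmt _ hΛ.fam).pd.comp (Cut7.dH e)

theorem rsd_xw (hΛ : Λ.Ok) : RSD (xw Λ A ed g) := by
  refine Rsd63.rsd_mul ?_ (Cut7.rsd_prod rsdStmt _ fun e _ =>
    (rsdStmt _ _).2.1 _ (g e) (kerStmt _ hΛ.fam).cen.toRSD)
  have h := (rsdStmt (Cfg Pt) (Cfg Pt)).2.2.1 (Finsupp.filterAddHom (· ∉ A))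
  have e : ∀ s : Cfg Pt, Finsupp.filterAddHom (· ∉ A) s = 0 ↔ ∀ x, x ∉ A → s x = 0 := fun s =>
    Finsupp.filter_eq_zero_iff _ _
  simpa only [e] using h

/-- no zero mode: the extended weight is centred -/
theorem cen_xw (hΛ : Λ.Ok) (inj : ∀ s : Cfg Pt, (∀ x, x ∉ A → s x = 0) → (∀ e ∈ ed, g e s = 0) → s = 0) :
    Cen (xw Λ A ed g) := by
  refine ⟨rsd_xw hΛ, xw_pos hΛ fun _ _ => rfl, fun f => ?_⟩
  let S : AddSubgroup (Cfg Pt) := (Finsupp.filterAddHom (· ∉ A)).ker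
  have mS : ∀ s : Cfg Pt, s ∈ S ↔ ∀ x, x ∉ A → s x = 0 := fun s => Finsupp.filter_eq_zero_iff _ _
  let ι : S →+ (ed → ℤ) := AddMonoidHom.pi fun e => (g e.1).comp S.subtype
  have hι : Function.Injective ι := (injective_iff_map_eq_zero ι).2 fun s hs =>
    Subtype.ext (inj s.1 ((mS _).1 s.2) fun e he => congrFun hs ⟨e, he⟩)
  obtain ⟨φ, hφ⟩ := (Module.Baer.of_divisible ℝ).extension_property_addMonoidHom ι hι (f.comp S.subtype)
  have h1 := ((Cut7.cen_pi rsdStmt (ι := ed) (w := fun _ => Λ.w) fun _ => (kerStmt _ hΛ.fam).cen).se φ).comp_injective hι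
  refine (Subtype.val_injective.summable_iff (g := (Subtype.val : S → Cfg Pt)) fun s hs => ?_).1
    (h1.congr fun s => ?_)
  · exact mul_eq_zero_of_left (mul_eq_zero_of_left (ind_neg fun h => hs ⟨⟨s, (mS s).2 h⟩, rfl⟩) _) _
  · have := DFunLike.congr_fun hφ s
    simp only [AddMonoidHom.comp_apply] at this
    simp only [Function.comp_apply, this, xw, ind_pos ((mS _).1 s.2), one_mul]
    rw [← prod_coe_sort ed]
    rfl

theorem xw_erase {r : Pt} (s : Cfg Pt) : xw Λ (A.erase r) ed g s = xw Λ A ed g s * ind (s r = 0) := by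
  rw [xw, xw, mul_right_comm, ← ind_and]
  refine congrArg (· * _) (ind_congr ⟨fun h => ⟨fun x hx => h x fun h' => hx (mem_of_mem_erase h'),
    h r (notMem_erase _ _)⟩, fun h x hx => ?_⟩)
  by_cases e : x = r
  · exact e ▸ h.2
  · exact h.1 x fun h' => hx (mem_erase.2 ⟨e, h'⟩)

theorem xw_cst (hU : U ⊆ A) (hg : ∀ e ∈ ed, ∀ i, g e (cst U i) = 0) (s : Cfg Pt) (i : ℤ) :
    xw Λ A ed g (s + cst U i) = xw Λ A ed g s := by
  rw [xw, xw, prod_congr rfl fun e he => by rw [map_add, hg e he, add_zero]]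
  exact congrArg (· * _) (ind_congr (forall₂_congr fun x hx => by
    rw [Finsupp.add_apply, Md.cst_not fun h => hx (hU h), add_zero]))

theorem xw_split (hE : E ⊆ ed) (s : Cfg Pt) :
    xw Λ A ed g s = xw Λ A (ed \ E) g s * ∏ e ∈ E, Λ.w (g e s) := by
  rw [xw, xw, mul_assoc, prod_sdiff hE]

/-- pinning everything off `U` gives the model with the edges `E` -/
theorem pp_pin (hΛ : Λ.Ok) (hU : U ⊆ A) (hE : E ⊆ ed)
    (h1 : ∀ s : Cfg Pt, (∀ x, x ∉ U → s x = 0) → ∀ e ∈ E, g e s = dE e s)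
    (h2 : ∀ s : Cfg Pt, (∀ x, x ∉ U → s x = 0) → ∀ e ∈ ed, e ∉ E → g e s = 0) :
    Pp (fun s => xw Λ A ed g s * ind (∀ x, x ∉ U → s x = 0))
      ((⟨U, E, fun _ => Λ.w, fun _ _ => 1⟩ : Mdl Pt).W 0) := by
  refine ⟨∏ _e ∈ ed \ E, Λ.w 0, prod_pos fun _ _ => w_pos hΛ _, fun s => ?_⟩
  simp only [Mdl.W, prod_const_one, mul_one, Finsupp.coe_zero, Pi.zero_apply]
  by_cases hs : ∀ x, x ∉ U → s x = 0
  · have a1 : ∏ e ∈ ed \ E, Λ.w (g e s) = ∏ _e ∈ ed \ E, Λ.w 0 :=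
      prod_congr rfl fun e he => by rw [h2 s hs e (mem_sdiff.1 he).1 (mem_sdiff.1 he).2]
    have a2 : ∏ e ∈ E, Λ.w (g e s) = ∏ e ∈ E, Λ.w (dE e s) := prod_congr rfl fun e he => by rw [h1 s hs e he]
    rw [xw_split hE, xw, ind_pos hs, ind_pos fun x hx => hs x fun h => hx (hU h), a1, a2]
    ring
  · rw [ind_neg hs]; ring

theorem prj_W (Λ : Lat) {B : Finset Pt} (a : Pt) (s : Cfg Pt) :
    (Λ.Nr B a).W 0 (Cut7.prjH {()} (fun _ => B) (fun _ => a) s) = ∏ e ∈ Λ.edI B, Λ.w (dE e s) := by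
  have hd : ∀ i ∈ ({()} : Finset Unit), ∀ j ∈ ({()} : Finset Unit), i ≠ j → Disjoint B B :=
    fun _ _ _ _ h => absurd rfl h
  rw [Cut7.prjH_apply, Mdl.W, ind_pos fun x hx => ?_, one_mul]
  · change (∏ e ∈ Λ.edI B, Λ.w _) * ∏ _x ∈ B.erase a, (1 : ℝ) = _
    rw [prod_const_one, mul_one]
    refine prod_congr rfl fun e he => ?_
    obtain ⟨-, h1, h2⟩ := Lat.mem_edI.1 he
    rw [dE, dE, Cut7.prj_mem hd (mem_singleton_self _) h1, Cut7.prj_mem hd (mem_singleton_self _) h2]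
    congr 1; ring
  · by_cases h : x ∈ B
    · obtain rfl : x = a := by_contra fun hne => hx (mem_erase.2 ⟨hne, h⟩)
      rw [Cut7.prj_mem hd (mem_singleton_self _) h, sub_self]; rfl
    · exact Cut7.prj_not (fun _ _ => h) s

/-- a weight containing the edges of `B` is more localised than the free model on `B` -/
theorem vr_free (hΛ : Λ.Ok) {ρ : Cfg Pt → ℝ} (hρ : Cen ρ) {H : Cfg Pt → ℝ} (hH : PD H) (h0 : ∀ s, 0 ≤ H s)
    (hp : 0 < H 0) (e : ∀ s, ρ s = H s * ∏ e ∈ Λ.edI Ω', Λ.w (dE e s)) {B : Finset Pt} {a : Pt}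
    (hB : B ⊆ Ω') (hN : Cen ((Λ.Nr B a).W 0)) {f : Pt → ℝ} (f0 : Sup B f) (f1 : ∑ x ∈ B, f x = 0) :
    Vr ρ (pr f) (pr f) ≤ Vr ((Λ.Nr B a).W 0) (pr f) (pr f) := by
  have hE := Lat.edI_mono (Λ := Λ) hB
  have := Vr_dens (H := fun s => H s * ∏ e ∈ Λ.edI Ω' \ Λ.edI B, Λ.w (dE e s))
    (Cut7.prjH {()} (fun _ => B) fun _ => a) hρ hN
    (hH.mul (pd_edges hΛ _))
    (fun s => mul_nonneg (h0 s) (prod_nonneg fun _ _ => (w_pos hΛ _).le))
    (mul_pos hp (prod_pos fun _ _ => w_pos hΛ _))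
    (fun s => by rw [prj_W]; exact (prod_pos fun _ _ => w_pos hΛ _).ne')
    (fun s => by rw [prj_W, e, ← prod_sdiff hE, mul_assoc]) (pr f)
  have e2 : (pr f).comp (Cut7.prjH {()} (fun _ => B) fun _ => a) = pr f := AddMonoidHom.ext fun s => by
    rw [AddMonoidHom.comp_apply, Cut7.prjH_apply]
    exact pr_prj (fun _ _ _ _ h => absurd rfl h) (fun x hx => f0 x (hx () (mem_singleton_self _)))
      (fun _ _ => f1) s
  rwa [e2] at this

/-- a weight with the lattice edges on `Ω'` and Dirichlet restrictions on `Ω` is an ambient weight -/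
theorem ga (hΛ : Λ.Ok) {ρ : Cfg Pt → ℝ} (hρ : Cen ρ) (hs : Ω ⊆ Ω')
    (up : ∀ U ⊆ Ω, Pp (fun s => ρ s * ind (∀ x, x ∉ U → s x = 0)) ((Λ.D U).W 0))
    {H : Cfg Pt → ℝ} (hH : PD H) (h0 : ∀ s, 0 ≤ H s) (hp : 0 < H 0)
    (e : ∀ s, ρ s = H s * ∏ e ∈ Λ.edI Ω', Λ.w (dE e s)) : Uv.GA Λ ρ (AddMonoidHom.id _) Ω Ω' where
  cen := hρ
  sub := hs
  up := fun U hU Φ hΦ _ => ((hρ.loc_mul (Cut7.pd_off pdStmt U) (fun _ => ind_nonneg _)
    ((ind_pos (p := ∀ x, x ∉ U → (0 : Cfg Pt) x = 0) fun _ _ => rfl).symm ▸ one_pos)).pp_left (up U hU).symm).2 Φ hΦ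
  lo := fun a _ hn hB _ f0 f1 => vr_free hΛ hρ hH h0 hp e hB (hΛ.cen_Nr (self_mem_sq a hn)) f0 f1

/-- the extended weight is an ambient weight off the seams and slits -/
theorem ga_xw (hΛ : Λ.Ok) (hρ : Cen (xw Λ A ed g)) (hs : Ω ⊆ Ω') (hA : Ω ⊆ A) (e1 : Λ.edT Ω ⊆ ed)
    (e2 : Λ.edI Ω' ⊆ ed) (e3 : ∀ e ∈ ed, e.2 - e.1 ∈ Λ.Jp)
    (g1 : ∀ s : Cfg Pt, (∀ x, x ∉ Ω → s x = 0) → ∀ e ∈ ed, g e s = dE e s)
    (g2 : ∀ e ∈ Λ.edI Ω', ∀ s, g e s = dE e s) : Uv.GA Λ (xw Λ A ed g) (AddMonoidHom.id _) Ω Ω' :=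
  ga hΛ hρ hs (fun U hU => pp_pin hΛ (hU.trans hA) ((Lat.edT_mono hU).trans e1)
    (fun s hs e he => g1 s (fun x hx => hs x fun h => hx (hU h)) e (e1 (Lat.edT_mono hU he)))
    fun s hs e he hn => by
      have h := fun h => hn (Lat.mem_edT.2 ⟨e3 e he, h⟩)
      rw [g1 s (fun x hx => hs x fun h => hx (hU h)) e he, dE, hs _ fun h' => h (Or.inl h'),
        hs _ fun h' => h (Or.inr h'), sub_zero])
    (pd_xw hΛ) (xw_nonneg hΛ) (xw_pos hΛ fun _ _ => rfl) fun s => (xw_split e2 s).trans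
      (congrArg _ (prod_congr rfl fun e he => by rw [g2 e he]))

end Crest.Agent.T145.Xw
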