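import Crest.Agent.T145.KvDef_8
import Crest.Agent.T145.XW_49
import Crest.Agent.T145.KrR_49

/-!
# Row 145, module Kv: UV for the thin ring on the extended lattice (helper49)
-/

set_option autoImplicit false

namespace Crest.Agent.T145.Kv.U49

open Finset Uv

variable {Λ : Lat} {V : Gv} {W : ℝ}

theorem edI_nn (h : Λ.J = nn) (D : Finset Pt) : Λ.edI D = Pot.nL.edI D := by
  unfold Lat.edI Lat.edT Lat.Jp; rw [h]; rfl

theorem mem_rng {n : ℕ} {x : Pt} : x ∈ V.rng n ↔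
    ((-(V.G.rho + n : ℤ) ≤ x.1 ∧ x.1 < V.G.rho + n) ∧ -(V.G.rho + n : ℤ) ≤ x.2 ∧ x.2 < V.G.rho + n) ∧
      ¬ ((-(V.G.rho - n : ℤ) ≤ x.1 ∧ x.1 < -(V.G.rho - n : ℤ) + (2 * (V.G.rho - n) : ℕ)) ∧
        -(V.G.rho - n : ℤ) ≤ x.2 ∧ x.2 < -(V.G.rho - n : ℤ) + (2 * (V.G.rho - n) : ℕ)) := by
  simp only [Gv.rng, mem_sdiff, mem_sq]; omega

theorem Ga_sub (ge : V.Geo) : V.Ga ⊆ V.G.A :=
  (ge.Ga_sub.trans ge.mid_sub).trans (Nc.Geo.an_mono 0 (by have := ge.r_le; omega)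
    (by have := ge.rho_le; omega))

theorem cel_sub (ge : V.Geo) {q : ℕ} (hq : q ≤ V.om2) {i : Pt} (hi : i ∈ V.cor q) :
    sq i (2 ^ q) ⊆ V.Ga := (ge.cells q hq).1 ▸ subset_biUnion_of_mem (fun i => sq i (2 ^ q)) hi

/-- no seam starts in the thin ring -/
theorem gk_Ga (ge : V.Geo) {e : Pt × Pt} (he : e.1 ∈ V.Ga) (s : Cfg Pt) : V.gk e s = dE e s := by
  have h := mem_rng.1 he
  have := ge.ω_le
  have := ge.ω16
  have h1 : V.s1 e = 0 := by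
    by_contra h'
    have := (ge.seam e).1 h'
    omega
  have h2 : V.s2 e = 0 := by
    by_contra h'
    have := (ge.seam e).2 h'
    omega
  simp [Gv.gk, h1, h2, dE]

theorem vr_hf (hR : R1Stmt) (hΛ : Λ.Ok) (ge : V.Geo) (xt : V.Ext Λ) {q : ℕ}
    (hq : q ≤ V.om2) {t : Ix} (ht : t ∈ terms (V.cor q) q (range q)) :
    Vr (V.rw Λ) (pr (hf t.1 t.2.1 t.2.2)) (pr (hf t.1 t.2.1 t.2.2)) ≤ Λ.τ * 32 := by
  obtain ⟨h1, h2, h3⟩ := mem_terms.1 ht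
  have hs := cel_sub ge hq h1
  obtain ⟨-, -, ⟨H, hH, h0, e⟩, -⟩ := (xt.gamb _ 0 (hs.trans (Ga_sub ge)) ((ge.cells q hq).2.2.2 _ h1)).1
  have e' : ∀ s, V.rw Λ s = H s * ∏ e ∈ Λ.edI (sq t.1 (2 ^ q)), Λ.w (dE e s) := fun s =>
    (e s).trans (congrArg _ (prod_congr rfl fun e he => by
      rw [gk_Ga ge (hs (Lat.mem_edI.1 he).2.1)]))
  have hp : 0 < H 0 := by
    have := xt.cen.pos0
    rw [e'] at this
    exact (pos_iff_pos_of_mul_pos this).2 (prod_pos fun _ _ => Xw.w_pos hΛ _)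
  exact (Xw.vr_free hΛ xt.cen hH h0 hp e' (par_sub_top (mem_range.1 h2) h3)
    (hΛ.cen_Nr (self_mem_sq _ (by positivity))) (fun _ hx => hf_off hx) (sum_hf subset_rfl)).trans
    (((hf_flow hR hΛ _ _ _).f2a _).vr_le hΛ.pos (hΛ.ctr_Nr _ _)
      (hΛ.anch_Nr (self_mem_sq _ (by positivity))) subset_rfl fun _ _ => rfl)

theorem thn (ge : V.Geo) : Mx.Thn V.Ga (V.mid \ V.lip) (40 * V.G.rho) := fun ρ hρ => by
  have h1 := ge.ω_le
  have h2 := ge.ω16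
  have h3 : (#(V.Ga.filter fun x => ¬ bl x ρ ⊆ V.mid \ V.lip)) ≤ 40 * V.G.rho * ρ := by
    by_cases h : ρ ≤ V.ω
    · refine (card_le_card (t := Ico (V.G.rho - 5 * V.ω : ℤ) (V.G.rho + 5 * V.ω) ×ˢ Icc (-1 - ρ : ℤ) ρ)
        fun x hx => ?_).trans ?_
      · obtain ⟨hx, hb⟩ := mem_filter.1 hx
        obtain ⟨y, hy, hn⟩ := not_subset.1 hb
        have a1 := mem_rng.1 hx
        have a2 : y ∈ V.mid := by
          rw [mem_bl] at hy
          rw [Gv.mid, mem_rng]; omega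
        have a3 : y ∈ V.lip := by_contra fun h' => hn (mem_sdiff.2 ⟨a2, h'⟩)
        simp only [Gv.lip, Gv.up, Gv.lo, mem_filter, mem_union, mem_sq, mem_bl] at a3 hy
        simp only [mem_product, mem_Ico, mem_Icc]; omega
      · rw [card_product, Int.card_Ico, Int.card_Icc,
          show ((V.G.rho : ℤ) + 5 * V.ω - (V.G.rho - 5 * V.ω)).toNat = 10 * V.ω by omega,
          show ((ρ : ℤ) + 1 - (-1 - ρ)).toNat = 2 * ρ + 2 by omega]
        nlinarith [Nat.mul_le_mul (show V.ω ≤ V.G.rho by omega) (show 2 * ρ + 2 ≤ 4 * ρ by omega)]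
    · refine ((card_filter_le _ _).trans_eq ge.card_Ga).trans ?_
      rw [ge.rho_eq]
      nlinarith [Nat.mul_le_mul_left (2 ^ V.j * V.ω) (not_le.1 h).le]
  exact_mod_cast h3

/-- sizes in a good window -/
theorem sizes {θ₀ K δ N : ℝ} {l L n : ℕ} (hK : 1 ≤ K) (hw : Λ.Win θ₀ δ l L) (N0 : 0 ≤ N)
    (hδ : δ ≤ min 1 (N + 64 * K * 2 ^ (n + V.j))⁻¹) (ge : V.Geo) (at' : V.G.At K L) :
    N ≤ L ∧ n ≤ V.om2 ∧ (V.G.rho : ℝ) ≤ L ∧ (L : ℝ) ≤ 64 * K * 2 ^ V.j * V.ω := by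
  have N1 : 0 < N + 64 * K * 2 ^ (n + V.j) := by positivity
  have hNL : N + 64 * K * 2 ^ (n + V.j) ≤ L :=
    (hw.2.1.le_l ((mul_le_mul_of_nonneg_left (hδ.trans (min_le_right _ _)) N1.le).trans_eq
      (mul_inv_cancel₀ N1.ne'))).trans (by exact_mod_cast hw.2.1.le (hδ.trans (min_le_left _ _)))
  have e1 : (L : ℝ) ≤ 64 * K * V.G.rho := at'.2.trans (by
    have : (V.G.R : ℝ) ≤ 64 * V.G.rho := by exact_mod_cast ge.le_rho
    nlinarith)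
  have e2 : 2 ^ (n + V.j) ≤ V.G.rho := by
    have : 64 * K * 2 ^ (n + V.j) ≤ 64 * K * V.G.rho := by linarith
    exact_mod_cast le_of_mul_le_mul_left this (by positivity)
  have e3 : n + V.j ≤ V.G.p := (Nat.pow_le_pow_iff_right one_lt_two).1 e2
  have : (0 : ℝ) ≤ 64 * K * 2 ^ (n + V.j) := by positivity
  refine ⟨by linarith, by unfold Gv.om2; omega, ?_, ?_⟩
  · exact_mod_cast (by have := ge.rho_le; have := at'.1; omega : V.G.rho ≤ L)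
  · rw [ge.rho_eq] at e1; push_cast at e1; linarith

end Crest.Agent.T145.Kv.U49

namespace Crest.Agent.T145.Kv

open Finset Uv U49

theorem uvStmt (hU : Mx.UvGStmt) (hG : Mx.GdStmt) (hR : R1Stmt) (hg : GeoStmt) (hE : ExtStmt) :
    UvStmt := by
  intro F θ₀ W K j hJ hθ hK ε a hε
  obtain ⟨W', r₀, δ₁, hδ₁, h1⟩ := hG F θ₀ hθ
  obtain ⟨C, h2⟩ := hU F W' r₀ (40 + 4 ^ a * (64 * K * 2 ^ j) ^ 2)
  obtain ⟨δ₂, L₀, hδ₂, h3⟩ := h2 (Real.log (1 + ε)) (Real.log_pos (by linarith))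
  obtain ⟨b₀, hb₀⟩ := exists_pow_lt_of_lt_one hδ₂ (show (1 / 2 : ℝ) < 1 by norm_num)
  refine ⟨b₀, fun b hb => ⟨min δ₁ (min 1 ((L₀ : ℝ) + 64 * K * 2 ^ (a + b + j))⁻¹), by positivity,
    fun Λ hΛ l L hw V ok hj at' => ?_⟩⟩
  subst hj
  have ge := hg V W ok
  have xt := hE Λ V W hΛ.ok (hΛ.1.trans hJ) ok
  obtain ⟨s1, s2, s3, s4⟩ := sizes hK hw (Nat.cast_nonneg _) (min_le_right _ _) ge at'
  set q := V.om2 - (a + b) with hq
  obtain ⟨c1, c2, c3, -⟩ := ge.cells q (Nat.sub_le _ _)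
  have w0 : (0 : ℝ) < V.ω := by exact_mod_cast (by have := ge.ω16; omega : 0 < V.ω)
  have wr : (V.ω : ℝ) ≤ V.G.rho := by exact_mod_cast (by have := ge.ω_le; omega : V.ω ≤ V.G.rho)
  have p0 : (0 : ℝ) ≤ 4 ^ a * (64 * K * 2 ^ V.j) ^ 2 := by positivity
  refine ⟨s2, ?_⟩
  have H := (h3 Λ hΛ L (by exact_mod_cast s1) (h1 Λ hΛ l L (hw.mono le_rfl (min_le_left _ _)))
    (Cfg Pt) (V.rw Λ) (AddMonoidHom.id _) _ _ (V.cor q) q (range q) (V.ms a) xt.ga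
    (fun t ht => vr_hf hR hΛ.ok ge xt (Nat.sub_le _ _) ht) (fun i hi j hj h => c2 hi hj h) subset_rfl
    (sq_nonneg _) ?_ ?_ ?_ fun ρ hρ => ?_).2 fun i hi => ?_
  · rw [Real.exp_log (by linarith)] at H
    exact H
  · have : V.ms a * (L : ℝ) ^ 2 ≤ V.ms a * (64 * K * 2 ^ V.j * V.ω) ^ 2 :=
      mul_le_mul_of_nonneg_left (pow_le_pow_left₀ (by positivity) s4 2) (sq_nonneg _)
    have e : V.ms a * (64 * K * 2 ^ V.j * V.ω) ^ 2 = 4 ^ a * (64 * K * 2 ^ V.j) ^ 2 := by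
      rw [Gv.ms, div_pow, ← pow_mul, mul_comm a, pow_mul]; field_simp; norm_num
    linarith
  · have : 2 ^ q ≤ V.ω := Nat.pow_le_pow_right two_pos (Nat.sub_le _ _)
    exact this.trans (by exact_mod_cast wr.trans s3)
  · have e : (V.ω : ℝ) ^ 2 = 4 ^ (V.om2 - q) * 4 ^ q := by
      rw [← pow_add, Nat.sub_add_cancel (Nat.sub_le _ _), Gv.ω]; push_cast
      rw [← pow_mul, mul_comm, pow_mul]; norm_num
    have e2 : (V.G.rho : ℝ) = 2 ^ V.j * V.ω := by exact_mod_cast ge.rho_eq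
    rw [c3]; push_cast
    nlinarith [mul_le_mul s3 (wr.trans s3) w0.le (by positivity),
      mul_nonneg p0 (sq_nonneg (L : ℝ)), sq_nonneg (L : ℝ)]
  · rw [c1]
    refine (thn ge ρ hρ).trans (mul_le_mul_of_nonneg_right ?_ (by positivity))
    nlinarith [mul_nonneg p0 (show (0 : ℝ) ≤ L by positivity)]
  · have h4 : (2 : ℝ) ^ i * 2 ^ b₀ ≤ V.ω := by
      rw [← pow_add, Gv.ω]; push_cast
      exact pow_le_pow_right₀ one_le_two (by have := mem_range.1 hi; omega)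
    rw [one_div, inv_pow, inv_lt_iff_one_lt_mul₀ (by positivity)] at hb₀
    nlinarith [mul_le_mul_of_nonneg_left (h4.trans (wr.trans s3)) hδ₂.le,
      mul_le_mul_of_nonneg_left hb₀.le (show (0 : ℝ) ≤ 2 ^ i by positivity)]

end Crest.Agent.T145.Kv
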