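import Crest.Agent.T145.Xi_22

/-!
# Row 145, S0198 (helper34): envelope classes and dipole potentials

* `Env k p c ρ K u`: the differences of order `j ≤ k` of `u` are at most `K / (ρ + |z - c|) ^ (p + j)`;
  `Dip c ρ K u = Env 2 1 c ρ K u`;
* `dp ρ e = (1 - χ_ρ) D_e pk`: the dipole potential; `du ρ R e = dp ρ e - dp R e` has finite support;
* `lin j s = x_j χ_s`: the test functions.
-/

set_option autoImplicit false

namespace Crest.Agent.T145.Vx34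

open Finset Pot Xi

/-- differences of order `j ≤ k` are at most `K / (ρ + |z - c|) ^ (p + j)` -/
def Env (k p : ℕ) (c : Pt) (ρ K : ℝ) (u : Pt → ℝ) : Prop :=
  ∀ ys : List Pt, ys.length ≤ k → (∀ y ∈ ys, y ∈ nn) → ∀ z,
    |difs ys u z| ≤ K / (ρ + eu (z - c)) ^ (p + ys.length)

/-- the dipole class -/
def Dip (c : Pt) (ρ K : ℝ) (u : Pt → ℝ) : Prop := Env 2 1 c ρ K u

theorem sc_pos {ρ : ℝ} (h : 0 < ρ) (z : Pt) : 0 < ρ + eu z := by linarith [eu_nonneg z]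

theorem eu_near' {z w : Pt} {k : ℕ} (hw : w ∈ bl z k) (c : Pt) :
    eu (w - c) ≤ eu (z - c) + 2 * k ∧ eu (z - c) ≤ eu (w - c) + 2 * k := by
  refine eu_near (k := k) ?_
  rw [mem_bl_abs] at hw ⊢
  simpa using hw

theorem eu_tri (z w c : Pt) : eu (z - c) ≤ eu (w - c) + eu (z - w) := by
  have := eu_add_le (w - c) (z - w)
  rwa [show w - c + (z - w) = z - c by abel] at this

/-- differences vanish where the function vanishes -/
theorem difs_eq_zero {u : Pt → ℝ} {z : Pt} {k : ℕ} (h : ∀ w ∈ bl z k, u w = 0) {ys : List Pt}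
    (hk : ys.length ≤ k) (hy : ∀ y ∈ ys, y ∈ nn) : difs ys u z = 0 := by
  have h1 : Sm k {z} 0 1 u :=
    (Sm.zero' k {z} le_rfl one_pos).congr fun z' hz' w hw => h w (by rwa [hz'] at hw)
  simpa using h1 ys hk hy z rfl

namespace Env
variable {k p q : ℕ} {c : Pt} {ρ ρ' K K' : ℝ} {u v : Pt → ℝ}

theorem nonneg (h : Env k p c ρ K u) (hρ : 0 < ρ) : 0 ≤ K := by
  have h1 := (abs_nonneg _).trans (h [] (Nat.zero_le _) (by simp) c)
  by_contra hK
  exact absurd h1 (not_le.2 (div_neg_of_neg_of_pos (not_le.1 hK) (pow_pos (sc_pos hρ _) _)))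

theorem zero (h : Env k p c ρ K u) (z : Pt) : |u z| ≤ K / (ρ + eu (z - c)) ^ p := by
  simpa [difs] using h [] (Nat.zero_le _) (by simp) z

theorem one (h : Env k p c ρ K u) (hk : 1 ≤ k) {y : Pt} (hy : y ∈ nn) (z : Pt) :
    |dif y u z| ≤ K / (ρ + eu (z - c)) ^ (p + 1) := by
  simpa [difs] using h [y] hk (by simpa using hy) z

theorem two (h : Env k p c ρ K u) (hk : 2 ≤ k) {y y' : Pt} (hy : y ∈ nn) (hy' : y' ∈ nn) (z : Pt) :
    |difs [y, y'] u z| ≤ K / (ρ + eu (z - c)) ^ (p + 2) :=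
  h [y, y'] hk (by simp [hy, hy']) z

theorem mono (h : Env k p c ρ K u) {k' : ℕ} (hk : k' ≤ k) (hK : K ≤ K') (hρ : 0 < ρ) :
    Env k' p c ρ K' u := fun ys h1 h2 z =>
  (h ys (h1.trans hk) h2 z).trans (by have := sc_pos hρ (z - c); gcongr)

/-- smaller core -/
theorem down (h : Env k p c ρ K u) (h0 : 0 < ρ') (h1 : ρ' ≤ ρ) : Env k p c ρ' K u := fun ys h2 h3 z =>
  (h ys h2 h3 z).trans (by
    have := sc_pos h0 (z - c); have := h.nonneg (h0.trans_le h1); gcongr)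

/-- change of the scale function, pointwise -/
theorem of_le (h : Env k p c ρ K u) (hρ : 0 < ρ) {c' : Pt} {M : ℝ} (hM : 1 ≤ M) (hρ' : 0 < ρ')
    (hz : ∀ z, (∀ w ∈ bl z k, u w = 0) ∨ ρ' + eu (z - c') ≤ M * (ρ + eu (z - c))) :
    Env k p c' ρ' (M ^ (p + k) * K) u := fun ys h1 h2 z => by
  have hK := h.nonneg hρ
  have h3 := sc_pos hρ (z - c)
  have h4 := sc_pos hρ' (z - c')
  rcases hz z with h5 | h5
  · rw [difs_eq_zero h5 h1 h2, abs_zero]; positivity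
  · refine (h ys h1 h2 z).trans ?_
    rw [div_le_div_iff₀ (by positivity) (by positivity)]
    calc K * (ρ' + eu (z - c')) ^ (p + ys.length) ≤ K * (M * (ρ + eu (z - c))) ^ (p + ys.length) := by
          gcongr
      _ = M ^ (p + ys.length) * K * (ρ + eu (z - c)) ^ (p + ys.length) := by rw [mul_pow]; ring
      _ ≤ _ := by gcongr

/-- larger core -/
theorem up (h : Env k p c ρ K u) (hρ : 0 < ρ) {M : ℝ} (hM : 1 ≤ M) (hρ' : 0 < ρ') (h1 : ρ' ≤ M * ρ) :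
    Env k p c ρ' (M ^ (p + k) * K) u :=
  h.of_le hρ hM hρ' fun z => .inr (by nlinarith [eu_nonneg (z - c)])

/-- other centre -/
theorem move (h : Env k p c ρ K u) (hρ : 0 < ρ) {c' : Pt} (hc : eu (c - c') ≤ ρ) :
    Env k p c' ρ (2 ^ (p + k) * K) u :=
  h.of_le hρ one_le_two hρ fun z => .inr (by
    have := eu_tri z c c'; linarith [eu_nonneg (z - c)])

/-- a function that vanishes on the core -/
theorem far (h : Env k p c ρ K u) (hρ : 0 < ρ) (hρ' : 0 < ρ') (hk : 4 * k ≤ ρ')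
    (h0 : ∀ w, eu (w - c) ≤ ρ' → u w = 0) : Env k p c ρ' (3 ^ (p + k) * K) u :=
  h.of_le hρ (by norm_num) hρ' fun z => by
    by_cases hz : eu (z - c) ≤ ρ' / 2
    · exact .inl fun w hw => h0 w (by linarith [(eu_near' hw c).1])
    · exact .inr (by linarith [not_le.1 hz])

theorem add (h : Env k p c ρ K u) (h' : Env k p c ρ K' v) : Env k p c ρ (K + K') (u + v) :=
  fun ys h1 h2 z => by
    rw [difs_add, add_div]
    exact (abs_add_le _ _).trans (add_le_add (h ys h1 h2 z) (h' ys h1 h2 z))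

theorem sub (h : Env k p c ρ K u) (h' : Env k p c ρ K' v) : Env k p c ρ (K + K') (u - v) :=
  fun ys h1 h2 z => by
    rw [difs_sub, add_div]
    exact (abs_sub _ _).trans (add_le_add (h ys h1 h2 z) (h' ys h1 h2 z))

theorem smul (h : Env k p c ρ K u) (a : ℝ) : Env k p c ρ (|a| * K) (a • u) := fun ys h1 h2 z => by
  rw [difs_smul, Pi.smul_apply, smul_eq_mul, abs_mul, mul_div_assoc]
  exact mul_le_mul_of_nonneg_left (h ys h1 h2 z) (abs_nonneg _)

theorem const_mul (h : Env k p c ρ K u) (a : ℝ) : Env k p c ρ (|a| * K) fun z => a * u z := h.smul a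

theorem const (k : ℕ) (c : Pt) (hρ : 0 < ρ) (a : ℝ) : Env k 0 c ρ |a| fun _ => a := fun ys _ _ z => by
  cases ys with
  | nil => simp [difs]
  | cons y ys => rw [difs_const, abs_zero]; have := sc_pos hρ (z - c); positivity

/-- translation -/
theorem shift (h : Env k p c ρ K u) (a : Pt) : Env k p (c + a) ρ K fun z => u (z - a) :=
  fun ys h1 h2 z => by
    have := h ys h1 h2 (z + -a)
    rw [← difs_shift, show z + -a - c = z - (c + a) by abel] at this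
    simpa only [sub_eq_add_neg] using this

theorem shift0 (h : Env k p 0 ρ K u) (a : Pt) : Env k p a ρ K fun z => u (z - a) := by
  simpa using h.shift a

theorem dif' (h : Env (k + 1) p c ρ K u) {y : Pt} (hy : y ∈ nn) : Env k (p + 1) c ρ K (dif y u) :=
  fun ys h1 h2 z => by
    rw [← difs_cons', add_assoc, add_comm 1]
    exact h (y :: ys) (by simpa using h1) (by simpa [hy] using h2) z

/-- local smoothness -/
theorem sm (h : Env k p c ρ K u) (hρ : 0 < ρ) {n : ℕ} {z : Pt} (hn : 4 * n ≤ ρ + eu (z - c)) :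
    Sm k (bl z n) (K / ((ρ + eu (z - c)) / 2) ^ p) ((ρ + eu (z - c)) / 2) u := fun ys h1 h2 w hw => by
  have h3 := sc_pos hρ (z - c)
  have hK := h.nonneg hρ
  refine (h ys h1 h2 w).trans ?_
  rw [div_div, ← pow_add]
  gcongr
  linarith [(eu_near' hw c).2]

theorem mul (h : Env k p c ρ K u) (h' : Env k q c ρ K' v) (hρ : 0 < ρ) (hk : 4 * k ≤ ρ) :
    Env k (p + q) c ρ (2 ^ (2 * k + p + q) * K * K') fun z => u z * v z := fun ys h1 h2 z => by
  have h3 := sc_pos hρ (z - c)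
  have hK := h.nonneg hρ
  have hK' := h'.nonneg hρ
  have hn : 4 * (k : ℝ) ≤ ρ + eu (z - c) := by linarith [eu_nonneg (z - c)]
  have h4 := (Sm.mul (S := {z}) (half_pos h3) (h.sm hρ hn) (h'.sm hρ hn)
    fun z' hz' w hw => by rwa [hz'] at hw) ys h1 h2 z rfl
  refine h4.trans ?_
  have h5 : (2 : ℝ) ^ ys.length ≤ 2 ^ k := pow_le_pow_right₀ one_le_two h1
  calc _ = 2 ^ ys.length * (2 ^ (k + p + q) * K * K') / (ρ + eu (z - c)) ^ (p + q + ys.length) := by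
        simp only [div_pow, pow_add]; field_simp
    _ ≤ 2 ^ k * (2 ^ (k + p + q) * K * K') / (ρ + eu (z - c)) ^ (p + q + ys.length) := by gcongr
    _ = _ := by rw [two_mul]; simp only [pow_add]; ring

/-- the Lipschitz envelope -/
theorem lip (h : Env k 1 c ρ K u) (hk : 1 ≤ k) (hρ : 0 < ρ) (z w : Pt) :
    |u z - u w| ≤ 17 * K * eu (z - w) / ((ρ + eu (z - c)) * (ρ + eu (w - c))) := by
  have ha := sc_pos hρ (z - c)
  have hb := sc_pos hρ (w - c)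
  have hK := h.nonneg hρ
  have hd := eu_nonneg (z - w)
  have t1 := eu_tri w z c
  rw [eu_sub_comm w z] at t1
  set a := ρ + eu (z - c) with ha'
  set b := ρ + eu (w - c) with hb'
  set d := eu (z - w) with hd'
  have t2 : b ≤ a + d := by linarith
  rw [le_div_iff₀ (by positivity)]
  by_cases hc : d ≤ a / 8
  · have hw : w - z ∈ bl 0 ⌊d⌋₊ := mem_bl_of_eu (by
      rw [sub_zero, eu_sub_comm]; exact Nat.lt_floor_add_one d)
    have hn : (⌊d⌋₊ : ℝ) ≤ d := Nat.floor_le hd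
    have h1 := h.sm hρ (n := ⌊d⌋₊) (z := z) (by linarith)
    have h2 := Ha91.tay1 (u := u) (z := z) hw (K := K / (a / 2) ^ 1 / (a / 2)) fun x hx =>
      ⟨h1.one hk Ha91.e1_nn (Ha91.add_mem_bl.2 hx), h1.one hk Ha91.e2_nn (Ha91.add_mem_bl.2 hx)⟩
    rw [add_sub_cancel, abs_sub_comm] at h2
    have h3 : |u z - u w| ≤ 8 * d * K / a ^ 2 :=
      h2.trans (by
        rw [show K / (a / 2) ^ 1 / (a / 2) = 4 * K / a ^ 2 by field_simp; ring, ← mul_div_assoc]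
        gcongr ?_ / _
        nlinarith [mul_le_mul_of_nonneg_right hn hK])
    rw [le_div_iff₀ (by positivity)] at h3
    have h4 : |u z - u w| * (a * b) ≤ |u z - u w| * (a * (2 * a)) := by gcongr; linarith
    nlinarith [mul_nonneg hd hK]
  · have h1 := h.zero z
    have h2 := h.zero w
    rw [pow_one, le_div_iff₀ ha] at h1
    rw [pow_one, le_div_iff₀ hb] at h2
    have h3 : |u z - u w| * (a * b) ≤ (|u z| + |u w|) * (a * b) := by gcongr; exact abs_sub _ _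
    have h4 : |u z| * a * b ≤ K * b := by gcongr
    have h5 : |u w| * b * a ≤ K * a := by gcongr
    have h6 : a + b ≤ 17 * d := by linarith [not_le.1 hc]
    nlinarith [mul_le_mul_of_nonneg_left h6 hK]

/-- first order Taylor expansion -/
theorem tay (h : Env k p c ρ K u) (hk : 2 ≤ k) (hρ : 0 < ρ) {n : ℕ} {z y : Pt}
    (hn : 4 * n ≤ ρ + eu (z - c)) (hy : y ∈ bl 0 n) :
    |u (z + y) - u z - (y.1 * dif (1, 0) u z + y.2 * dif (0, 1) u z)| ≤
      2 ^ (p + 4) * (n : ℝ) ^ 2 * K / (ρ + eu (z - c)) ^ (p + 2) := by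
  have h1 := h.sm hρ hn
  have h3 := sc_pos hρ (z - c)
  refine (Ha91.tay2 hy fun x hx e he e' he' => h1.two hk he he' hx).trans (le_of_eq ?_)
  simp only [div_pow, pow_add]; field_simp; ring

/-- oscillation on a ball -/
theorem osc (h : Env k p c ρ K u) (hk : 1 ≤ k) (hρ : 0 < ρ) {n : ℕ} {z y : Pt}
    (hn : 4 * n ≤ ρ + eu (z - c)) (hy : y ∈ bl 0 n) :
    |u (z + y) - u z| ≤ 2 ^ (p + 2) * (n : ℝ) * K / (ρ + eu (z - c)) ^ (p + 1) := by
  have h1 := h.sm hρ hn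
  have h3 := sc_pos hρ (z - c)
  refine (Ha91.tay1 hy fun x hx => ⟨h1.one hk Ha91.e1_nn (Ha91.add_mem_bl.2 hx),
    h1.one hk Ha91.e2_nn (Ha91.add_mem_bl.2 hx)⟩).trans (le_of_eq ?_)
  simp only [div_pow, pow_add]; field_simp

end Env

/-- a smooth function of bounded support -/
theorem env_of_sm {k : ℕ} (p : ℕ) {C s M ρ : ℝ} {c : Pt} {u : Pt → ℝ} (h : Sm k Set.univ C s u)
    (hs : 0 < s) (hρ : 0 < ρ) (hM : 1 ≤ M) (hu : ∀ z, u z ≠ 0 → ρ + eu (z - c) + 2 * k ≤ M * s) :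
    Env k p c ρ (M ^ (p + k) * s ^ p * C) u := fun ys h1 h2 z => by
  have hC : 0 ≤ C := (abs_nonneg _).trans (h.zero (z := z) trivial)
  have h3 := sc_pos hρ (z - c)
  by_cases h4 : ∀ w ∈ bl z k, u w = 0
  · rw [difs_eq_zero h4 h1 h2, abs_zero]; positivity
  · push Not at h4
    obtain ⟨w, hw, h5⟩ := h4
    have h6 : ρ + eu (z - c) ≤ M * s := by linarith [hu w h5, (eu_near' hw c).2]
    refine (h ys h1 h2 z trivial).trans ?_
    rw [div_le_div_iff₀ (by positivity) (by positivity)]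
    calc C * (ρ + eu (z - c)) ^ (p + ys.length) ≤ C * (M * s) ^ (p + ys.length) := by gcongr
      _ = M ^ (p + ys.length) * s ^ p * C * s ^ ys.length := by rw [mul_pow, pow_add s]; ring
      _ ≤ _ := by gcongr

/-- the cut-off at scale `s`, seen from a centre and a core below the scale -/
theorem env_chi (k p : ℕ) : ∃ C : ℝ, 0 ≤ C ∧ ∀ (s ρ : ℝ) (c c' : Pt), 0 < ρ → ρ ≤ s → (k : ℝ) ≤ s →
    eu (c' - c) ≤ s → Env k p c ρ (C * s ^ p) fun z => Xi.chi s (z - c') := by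
  obtain ⟨C, h0, hC⟩ := sm_chi k
  refine ⟨8 ^ (p + k) * C, by positivity, fun s ρ c c' hρ h1 h2 h3 => ?_⟩
  have hs := hρ.trans_le h1
  have h4 : Sm k Set.univ C s fun z => Xi.chi s (z - c') := by
    simpa only [sub_eq_add_neg] using (hC s hs).shift (S' := Set.univ) (-c') fun _ _ => trivial
  refine (env_of_sm p h4 hs hρ (M := 8) (by norm_num) fun z hz => ?_).mono le_rfl (le_of_eq (by ring)) hρ
  have := eu_le_of_chi hs hz
  have := eu_tri z c' c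
  linarith

/-- product with the cut-off -/
theorem sm_mul_chi (k : ℕ) : ∃ C : ℝ, 0 ≤ C ∧ ∀ (s K : ℝ) (u : Pt → ℝ), 0 < s → (k : ℝ) ≤ s →
    Sm k {z | eu z ≤ 8 * s} K s u → Sm k Set.univ (C * K) s fun z => u z * Xi.chi s z := by
  obtain ⟨C, h0, hC⟩ := sm_chi k
  refine ⟨2 ^ k * C, by positivity, fun s K u hs hk hu => ?_⟩
  have hK : 0 ≤ K := (abs_nonneg _).trans (hu.zero (z := 0) (by simp [hs.le]))
  have ha : Sm k {z | eu z ≤ 6 * s} (2 ^ k * K * C) s fun z => u z * Xi.chi s z :=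
    hu.mul hs ((hC s hs).mono le_rfl (Set.subset_univ _) le_rfl hs) fun z hz w hw => by
      have := (eu_near hw).1
      simp only [Set.mem_ofPred_eq] at hz ⊢
      linarith
  have hb : Sm k {z | 6 * s < eu z} (2 ^ k * K * C) s fun z => u z * Xi.chi s z :=
    (Sm.zero' k _ (by positivity) hs).congr fun z hz w hw => by
      by_contra h
      have h3 : Xi.chi s w ≠ 0 := fun h' => h (by rw [h', mul_zero])
      linarith [eu_le_of_chi hs h3, (eu_near hw).2, show 6 * s < eu z from hz]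
  exact (Sm.union ha hb).mono le_rfl (fun z _ => (le_or_gt (eu z) (6 * s)).imp id id)
    (le_of_eq (by ring)) hs

/-! ## the dipole potential -/

/-- `(1 - χ_ρ) D_e pk` -/
noncomputable def dp (ρ : ℝ) (e z : Pt) : ℝ := (1 - Xi.chi ρ z) * dif e pk z

/-- the dipole potential cut off at the scale `R` -/
noncomputable def du (ρ R : ℝ) (e z : Pt) : ℝ := dp ρ e z - dp R e z

theorem env_dpk (k : ℕ) : ∃ C : ℝ, 0 ≤ C ∧ ∀ e ∈ nn, Env k 1 0 1 C (dif e pk) := by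
  choose C hC using pkD
  refine ⟨∑ j ∈ range (k + 1), |C j|, by positivity, fun e he ys h1 h2 z => ?_⟩
  have h3 := (hC ys.length (e :: ys) (by simp) (by simpa [he] using h2) z).1
  rw [difs_cons'] at h3
  have h4 := sc_pos one_pos z
  refine h3.trans ?_
  rw [sub_zero, add_comm 1 ys.length]
  gcongr
  exact (le_abs_self _).trans
    (single_le_sum (f := fun j => |C j|) (fun _ _ => abs_nonneg _) (mem_range.2 (by omega)))

theorem dp_of_eu {ρ : ℝ} (hρ : 0 < ρ) (e : Pt) {z : Pt} (hz : eu z ≤ ρ) : dp ρ e z = 0 := by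
  rw [dp, chi_one_of_eu hρ hz, sub_self, zero_mul]

theorem dp_in {ρ : ℝ} (hρ : 0 < ρ) (e : Pt) {n : ℕ} (hn : (n : ℝ) ≤ ρ) {z : Pt} (hz : z ∈ bl 0 n) :
    dp ρ e z = 0 := by rw [dp, chi_one hρ hn hz, sub_self, zero_mul]

theorem dp_out {ρ : ℝ} (hρ : 0 < ρ) (e : Pt) {n : ℕ} (hn : 2 * ρ ≤ n + 1) {z : Pt} (hz : z ∉ bl 0 n) :
    dp ρ e z = dif e pk z := by rw [dp, sup_chi hρ hn z hz, sub_zero, one_mul]

theorem env_dp (k : ℕ) : ∃ C : ℝ, 0 ≤ C ∧ ∀ ρ : ℝ, 4 * k + 1 ≤ ρ → ∀ e ∈ nn, Env k 1 0 ρ C (dp ρ e) := by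
  obtain ⟨C1, h1, hC1⟩ := env_dpk k
  obtain ⟨C2, h2, hC2⟩ := env_chi k 0
  have hk : (0 : ℝ) ≤ k := Nat.cast_nonneg k
  refine ⟨3 ^ (1 + k) * (2 ^ (2 * k + 0 + 1) * (|1| + C2 * 1) * ((4 * k + 1) ^ (1 + k) * C1)),
    by positivity, fun ρ hρ e he => ?_⟩
  have hk' : (0 : ℝ) < 4 * k + 1 := by positivity
  have a1 := (hC1 e he).up one_pos (M := 4 * k + 1) (by linarith) hk' (by linarith)
  have a2 := (Env.const k 0 hk' 1).sub (hC2 ρ (4 * k + 1) 0 0 hk' hρ (by linarith) (by simp; linarith))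
  rw [pow_zero] at a2
  have a3 := a2.mul a1 hk' (by linarith)
  simp only [Pi.sub_apply, sub_zero, zero_add] at a3
  exact Env.far a3 hk' (by linarith) (by linarith) fun w hw =>
    dp_of_eu (by linarith) e (by simpa using hw)

theorem env_du (k : ℕ) : ∃ C : ℝ, 0 ≤ C ∧ ∀ ρ R : ℝ, 4 * k + 1 ≤ ρ → ρ ≤ R → ∀ e ∈ nn,
    Env k 1 0 ρ C (du ρ R e) := by
  obtain ⟨C, h1, hC⟩ := env_dp k
  have hk : (0 : ℝ) ≤ k := Nat.cast_nonneg k
  exact ⟨C + C, by positivity, fun ρ R h2 h3 e he =>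
    (hC ρ h2 e he).sub ((hC R (h2.trans h3) e he).down (by linarith) h3)⟩

theorem sup_du {ρ R : ℝ} (hρ : 0 < ρ) (h : ρ ≤ R) (e : Pt) {n : ℕ} (hn : 2 * R ≤ n + 1) :
    Pot.Sup (bl 0 n) (du ρ R e) := fun z hz => by
  rw [du, dp_out hρ e (by linarith) hz, dp_out (hρ.trans_le h) e hn hz, sub_self]

theorem du_in {ρ R : ℝ} (hR : 0 < R) (e : Pt) {n : ℕ} (hn : (n : ℝ) ≤ R) {z : Pt} (hz : z ∈ bl 0 n) :
    du ρ R e z = dp ρ e z := by rw [du, dp_in hR e hn hz, sub_zero]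

theorem A0_du (ρ R : ℝ) (e : Pt) : A0 (du ρ R e) = A0 (dp ρ e) - A0 (dp R e) := A0_sub _ _

theorem A0_dpk (e z : Pt) : A0 (dif e pk) z = dl (0 : Pt) z - dl (-e) z := by
  have h1 : dif e pk = (fun w => pk (w - -e)) - pk := by funext w; simp [dif]
  rw [h1, A0_sub, Pi.sub_apply, A0_pk_sub, A0_pk]; ring

theorem dp_eq (ρ : ℝ) (e : Pt) : dp ρ e = dif e pk - fun z => Xi.chi ρ z * dif e pk z := by
  funext z; simp only [dp, Pi.sub_apply]; ring

theorem sup_chi_mul {ρ : ℝ} (hρ : 0 < ρ) {n : ℕ} (hn : 2 * ρ ≤ n + 1) (u : Pt → ℝ) :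
    Pot.Sup (bl 0 n) fun z => Xi.chi ρ z * u z := fun z hz => by simp only [sup_chi hρ hn z hz, zero_mul]

theorem neg_nn_bl {e : Pt} (he : e ∈ nn) {n : ℕ} (hn : 1 ≤ n) : -e ∈ bl 0 n :=
  mem_bl_of_eu (by
    rw [sub_zero, eu_neg, eu_nn he]; have : (1 : ℝ) ≤ n := by exact_mod_cast hn
    linarith)

/-- the charge of the dipole is supported in the ball of radius `2 ρ + 1` -/
theorem sup_A0_dp {ρ : ℝ} (hρ : 0 < ρ) {e : Pt} (he : e ∈ nn) {n : ℕ} (hn : 2 * ρ ≤ n + 1) :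
    Pot.Sup (bl 0 (n + 1)) (A0 (dp ρ e)) := fun z hz => by
  rw [dp_eq, A0_sub, Pi.sub_apply, sup_A0 (sup_chi_mul hρ hn _) z hz, A0_dpk, dl_apply, dl_apply,
    if_neg, if_neg, sub_self, sub_self]
  · rintro rfl; exact hz (neg_nn_bl he (by omega))
  · rintro rfl; exact hz (self_mem_bl _ _)

theorem A0_dp_in {ρ : ℝ} (hρ : 0 < ρ) (e : Pt) {n : ℕ} (hn : (n : ℝ) + 1 ≤ ρ) {z : Pt}
    (hz : z ∈ bl 0 n) : A0 (dp ρ e) z = 0 := by
  rw [A0_congr (v := fun _ => 0) fun w hw => dp_in hρ e (n := n + 1) (by exact_mod_cast hn)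
    (bl_subset_bl hz (by omega) hw), A0_const]; rfl

/-- the pairing of the dipole charge with any function -/
theorem pair_dp {ρ : ℝ} (hρ : 0 < ρ) {e : Pt} (he : e ∈ nn) {n N : ℕ} (hn : 2 * ρ ≤ n + 1)
    (hN : n + 1 ≤ N) (w : Pt → ℝ) : ∑ z ∈ bl 0 N, A0 (dp ρ e) z * w z =
      w 0 - w (-e) - ∑ z ∈ bl 0 N, A0 w z * (Xi.chi ρ z * dif e pk z) := by
  rw [green_bl hN w (sup_chi_mul hρ hn _), dp_eq, A0_sub]
  simp only [Pi.sub_apply, A0_dpk, sub_mul, sum_sub_distrib, dl_apply, ite_mul, one_mul, zero_mul,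
    sum_ite_eq', self_mem_bl, neg_nn_bl he (show 1 ≤ N by omega), if_true, mul_comm (w _)]

/-- the pairing with a harmonic function is one difference at the centre -/
theorem pair_dp_harm {ρ : ℝ} (hρ : 0 < ρ) {e : Pt} (he : e ∈ nn) {n N : ℕ} (hn : 2 * ρ ≤ n + 1)
    (hN : n + 1 ≤ N) {w : Pt → ℝ} (hw : ∀ z ∈ bl 0 n, A0 w z = 0) :
    ∑ z ∈ bl 0 N, A0 (dp ρ e) z * w z = w 0 - w (-e) := by
  rw [pair_dp hρ he hn hN, sum_eq_zero, sub_zero]
  intro z _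
  by_cases hz : z ∈ bl 0 n
  · rw [hw z hz, zero_mul]
  · rw [sup_chi hρ hn z hz, zero_mul, mul_zero]

theorem sum_A0_dp {ρ : ℝ} (hρ : 0 < ρ) {e : Pt} (he : e ∈ nn) {n N : ℕ} (hn : 2 * ρ ≤ n + 1)
    (hN : n + 1 ≤ N) : ∑ z ∈ bl 0 N, A0 (dp ρ e) z = 0 := by
  simpa using pair_dp_harm hρ he hn hN (w := fun _ => 1) fun z _ => by rw [A0_const]; rfl

theorem Env.abs_A0 {k p : ℕ} {c : Pt} {ρ K : ℝ} {u : Pt → ℝ} (h : Env k p c ρ K u) (hk : 2 ≤ k)
    (hρ : 4 ≤ ρ) (z : Pt) : |A0 u z| ≤ 2 ^ (p + 3) * K / (ρ + eu (z - c)) ^ (p + 2) := by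
  have h0 : 0 < ρ := by linarith
  have h3 := sc_pos h0 (z - c)
  have h1 := (h.sm h0 (n := 1) (z := z) (by simp; linarith [eu_nonneg (z - c)])).mono hk
    Set.Subset.rfl le_rfl (half_pos h3)
  rw [A0_apply, abs_neg]
  refine (h1.abs_lap fun w hw => hw).trans (le_of_eq ?_)
  simp only [div_pow, pow_add]; field_simp

theorem abs_A0_dp : ∃ C : ℝ, 0 ≤ C ∧ ∀ ρ : ℝ, 9 ≤ ρ → ∀ e ∈ nn, ∀ z, |A0 (dp ρ e) z| ≤ C / ρ ^ 3 := by
  obtain ⟨C, h1, hC⟩ := env_dp 2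
  refine ⟨2 ^ (1 + 3) * C, by positivity, fun ρ hρ e he z => ?_⟩
  refine ((hC ρ (by norm_num; linarith) e he).abs_A0 le_rfl (by linarith) z).trans ?_
  have := eu_nonneg (z - 0)
  gcongr
  linarith

/-! ## energies -/

/-- summation by parts -/
theorem en_eq {c : Pt} {n N : ℕ} (hN : n + 1 ≤ N) {u : Pt → ℝ} (hu : Pot.Sup (bl c n) u) (v : Pt → ℝ) :
    ∑ z ∈ bl c N, (dif (1, 0) u z * dif (1, 0) v z + dif (0, 1) u z * dif (0, 1) v z) =
      ∑ z ∈ bl c N, A0 u z * v z := by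
  have key : ∀ e ∈ nn, ∑ z ∈ bl c N, dif e u z * v (z + e) = ∑ z ∈ bl c N, dif e u (z - e) * v z := by
    intro e he
    have h1 : ∀ z, z ∉ bl c N ∨ z + e ∉ bl c N → dif e u z = 0 := by
      intro z hz
      have h2 : ∀ w ∈ bl c n, bl w 1 ⊆ bl c N := bl_one_sub hN
      have h3 : z ∈ bl (z + e) 1 := mem_bl_comm.1 (add_nn_mem_bl he z)
      rw [dif, hu z, hu (z + e), sub_self]
      · intro h; rcases hz with hz | hz
        exacts [hz (h2 _ h h3), hz (h2 _ h (self_mem_bl _ _))]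
      · intro h; rcases hz with hz | hz
        exacts [hz (h2 _ h (self_mem_bl _ _)), hz (h2 _ h (add_nn_mem_bl he z))]
    refine sum_bij_ne_zero (fun z _ _ => z + e) ?_ ?_ ?_ ?_
    · intro z _ h2
      by_contra h3
      exact h2 (by rw [h1 z (.inr h3), zero_mul])
    · intro z _ _ z' _ _ h; exact add_right_cancel h
    · intro w hw h2
      have h3 : w - e ∈ bl c N := by
        by_contra h3
        exact h2 (by rw [h1 _ (.inl h3), zero_mul])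
      exact ⟨w - e, h3, by simpa using h2, by simp⟩
    · intro z _ _; simp
  have k1 := key _ Ha91.e1_nn
  have k2 := key _ Ha91.e2_nn
  have h3 : ∀ z : Pt, A0 u z * v z = (dif (1, 0) u (z - (1, 0)) * v z - dif (1, 0) u z * v z) +
      (dif (0, 1) u (z - (0, 1)) * v z - dif (0, 1) u z * v z) := by
    intro z
    have a1 : z + (-1, 0) = z - (1, 0) := by ext <;> simp [sub_eq_add_neg]
    have a2 : z + (0, -1) = z - (0, 1) := by ext <;> simp [sub_eq_add_neg]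
    simp only [A0, dif, sub_add_cancel, a1, a2]; ring
  simp only [h3, sum_add_distrib, sum_sub_distrib, ← k1, ← k2]
  simp only [← sum_sub_distrib, ← mul_sub]
  rfl

/-- pairing of the far charge with a function of the dipole class -/
theorem pair_far : ∃ C : ℝ, 0 ≤ C ∧ ∀ (R ρ K : ℝ) (k : ℕ) (c : Pt) (v : Pt → ℝ) (N : ℕ), 9 ≤ R → 0 < ρ →
    Env k 1 c ρ K v → eu c ≤ R / 2 → ∀ e ∈ nn, |∑ z ∈ bl 0 N, A0 (dp R e) z * v z| ≤ C * K / R ^ 2 := by
  obtain ⟨C, h1, hC⟩ := abs_A0_dp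
  refine ⟨81 * 4 * C, by positivity, fun R ρ K k c v N hR hρ hv hc e he => ?_⟩
  have hK := hv.nonneg hρ
  have hR0 : 0 < R := by linarith
  have hn : 2 * R ≤ (⌈2 * R⌉₊ : ℝ) + 1 := by linarith [Nat.le_ceil (2 * R)]
  have h2 : ∀ z, |A0 (dp R e) z * v z| ≤
      if z ∈ bl 0 (⌈2 * R⌉₊ + 1) then C / R ^ 3 * (K / (R / 4)) else 0 := by
    intro z
    split_ifs with hz
    · by_cases h3 : z ∈ bl 0 (⌊R⌋₊ - 1)
      · rw [A0_dp_in hR0 e _ h3, zero_mul, abs_zero]; · positivity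
        have h4 : 1 ≤ ⌊R⌋₊ := Nat.le_floor (by simp; linarith)
        rw [Nat.cast_sub h4]; simpa using Nat.floor_le hR0.le
      · have h4 : 1 ≤ ⌊R⌋₊ := Nat.le_floor (by simp; linarith)
        have h5 := le_eu_of_not_bl h3
        rw [Nat.cast_sub h4] at h5
        have h6 := Nat.lt_floor_add_one R
        have h7 := eu_tri z c 0
        rw [abs_mul]
        refine mul_le_mul (hC R hR e he z) ((hv.zero z).trans ?_) (abs_nonneg _) (by positivity)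
        rw [pow_one]
        gcongr
        simp only [sub_zero, Nat.cast_one] at h5 h7
        linarith
    · rw [sup_A0_dp hR0 he hn z hz, zero_mul, abs_zero]
  refine (abs_sum_le_sum_abs _ _).trans ((sum_le_sum fun z _ => h2 z).trans ?_)
  rw [← sum_filter, sum_const, nsmul_eq_mul]
  have h3 : (((bl 0 N).filter fun z => z ∈ bl 0 (⌈2 * R⌉₊ + 1)).card : ℝ) ≤ 81 * R ^ 2 := by
    have h4 : ((bl 0 N).filter fun z => z ∈ bl 0 (⌈2 * R⌉₊ + 1)).card ≤ (bl 0 (⌈2 * R⌉₊ + 1)).card :=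
      card_le_card fun z hz => (mem_filter.1 hz).2
    rw [card_bl] at h4
    have h5 := Nat.ceil_lt_add_one (show 0 ≤ 2 * R by linarith)
    calc _ ≤ ((2 * ((⌈2 * R⌉₊ : ℝ) + 1) + 1)) ^ 2 := by exact_mod_cast h4
      _ ≤ (9 * R) ^ 2 := by gcongr; linarith
      _ = _ := by ring
  calc _ ≤ 81 * R ^ 2 * (C / R ^ 3 * (K / (R / 4))) := by gcongr
    _ = _ := by field_simp

/-! ## second differences of the potential kernel on the axis -/

theorem pk_dd : ∃ C : ℝ, 0 ≤ C ∧ ∀ m : ℤ, m ≠ 0 →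
    |difs [(0, 1), (0, 1)] pk (m, -1) - 1 / (2 * Real.pi * (m : ℝ) ^ 2)| ≤ C / |(m : ℝ)| ^ 3 := by
  obtain ⟨C, hC⟩ := pkD 1
  refine ⟨|C| + 1, by positivity, fun m hm => ?_⟩
  have h1 := (hC [(0, 1), (0, 1)] rfl (by simp [Ha91.e2_nn]) (m, -1)).2
  have hm1 : (1 : ℝ) ≤ |(m : ℝ)| := by exact_mod_cast Int.one_le_abs hm
  have hm2 : (1 : ℝ) ≤ (m : ℝ) ^ 2 := by rw [← sq_abs]; nlinarith
  have h2 : |(m : ℝ)| ≤ 1 + eu (m, -1) := by linarith [abs_fst_le_eu (m, -1)]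
  have h3 : C / (1 + eu (m, -1)) ^ (1 + 2) ≤ |C| / |(m : ℝ)| ^ 3 := by
    gcongr; exact le_abs_self _
  have h4 : difs [(0, 1), (0, 1)] lg (m, -1) = Real.log (1 + 1 / (m : ℝ) ^ 2) / (2 * Real.pi) := by
    simp only [difs, dif, Prod.mk_add_mk, add_zero, Pk15.lg_eq]
    rw [show 1 + 1 / (m : ℝ) ^ 2 = ((m : ℝ) ^ 2 + 1) / (m : ℝ) ^ 2 by field_simp,
      Real.log_div (by positivity) (by positivity)]
    norm_num
    ring
  have h5 := Pk15.abs_log_sub (x := 1 / (m : ℝ) ^ 2) (by positivity)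
  rw [difs_sub, Pi.sub_apply, h4] at h1
  have hpi := Real.pi_gt_three
  have h6 : |Real.log (1 + 1 / (m : ℝ) ^ 2) / (2 * Real.pi) - 1 / (2 * Real.pi * (m : ℝ) ^ 2)| ≤
      1 / |(m : ℝ)| ^ 3 := by
    rw [show Real.log (1 + 1 / (m : ℝ) ^ 2) / (2 * Real.pi) - 1 / (2 * Real.pi * (m : ℝ) ^ 2) =
      (Real.log (1 + 1 / (m : ℝ) ^ 2) - 1 / (m : ℝ) ^ 2) / (2 * Real.pi) by field_simp, abs_div,
      abs_of_pos (show 0 < 2 * Real.pi by positivity), div_le_iff₀ (by positivity)]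
    refine h5.trans ?_
    rw [div_pow, one_pow, ← sq_abs (m : ℝ), div_mul_eq_mul_div,
      div_le_div_iff₀ (by positivity) (by positivity)]
    have : (|(m : ℝ)| ^ 2) ^ 2 = |(m : ℝ)| ^ 3 * |(m : ℝ)| := by ring
    rw [this]
    have h8 := pow_pos (show 0 < |(m : ℝ)| by linarith) 3
    have h9 : |(m : ℝ)| ^ 3 * 1 ≤ |(m : ℝ)| ^ 3 * |(m : ℝ)| := by gcongr
    nlinarith
  have h7 := abs_add_le (difs [(0, 1), (0, 1)] pk (m, -1) - Real.log (1 + 1 / (m : ℝ) ^ 2) / (2 * Real.pi))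
    (Real.log (1 + 1 / (m : ℝ) ^ 2) / (2 * Real.pi) - 1 / (2 * Real.pi * (m : ℝ) ^ 2))
  rw [sub_add_sub_cancel] at h7
  rw [add_div]
  linarith

theorem pk_dd_le : ∃ C : ℝ, 0 ≤ C ∧ ∀ e ∈ nn, ∀ e' ∈ nn, ∀ z,
    |difs [e, e'] pk z| ≤ C / (1 + eu z) ^ 2 := by
  obtain ⟨C, hC⟩ := pkD 1
  refine ⟨|C|, abs_nonneg _, fun e he e' he' z => ?_⟩
  refine (hC [e, e'] rfl (by simp [he, he']) z).1.trans ?_
  have := sc_pos one_pos z
  gcongr; exact le_abs_self _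

/-- two dipoles: the pairing is a second difference of the potential kernel -/
theorem pair_dp_dp {ρ ρ' : ℝ} (hρ : 0 < ρ) (hρ' : 0 < ρ') {e e' : Pt} (he : e ∈ nn) (he' : e' ∈ nn)
    {n n' N : ℕ} (hn : 2 * ρ ≤ n + 1) (hn' : 2 * ρ' ≤ n' + 1) (hN : n + 1 ≤ N) {x : Pt}
    (hx : x ∉ bl 0 (n + n' + 1)) :
    ∑ z ∈ bl 0 N, A0 (dp ρ e) z * dp ρ' e' (z - x) = difs [e, e'] pk (-x - e) := by
  have h1 : ∀ m : ℕ, m + n' ≤ n + n' + 1 → ∀ {k : ℕ}, k ≤ n' → ∀ z ∈ bl 0 m, z - x ∉ bl 0 k := by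
    intro m hm k hk z hz h
    refine hx ?_
    rw [mem_bl] at hz h ⊢
    simp only [Prod.fst_sub, Prod.snd_sub, Prod.fst_zero, Prod.snd_zero] at hz h ⊢
    push_cast
    omega
  have h2 : ∀ z ∈ bl 0 n, z - x ∉ bl 0 (n' + 1) := by
    intro z hz h
    refine hx ?_
    rw [mem_bl] at hz h ⊢
    simp only [Prod.fst_sub, Prod.snd_sub, Prod.fst_zero, Prod.snd_zero] at hz h ⊢
    push_cast at h ⊢
    omega
  rw [pair_dp_harm hρ he hn hN fun z hz => by
    rw [A0_shift]; exact sup_A0_dp hρ' he' hn' _ (h2 z hz)]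
  rw [dp_out hρ' e' hn' (h1 0 (by omega) le_rfl 0 (self_mem_bl _ _)),
    dp_out hρ' e' hn' (h1 1 (by omega) le_rfl _ (neg_nn_bl he le_rfl))]
  simp only [difs, dif]
  congr 2 <;> congr 1 <;> abel

/-! ## the test functions -/

/-- `x_j χ_s` -/
noncomputable def lin (j : Fin 2) (s : ℝ) (z : Pt) : ℝ := co j z * Xi.chi s z

theorem co_add (j : Fin 2) (x y : Pt) : co j (x + y) = co j x + co j y := by
  fin_cases j <;> simp [co]

theorem abs_co_le (j : Fin 2) (x : Pt) : |co j x| ≤ eu x := by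
  fin_cases j
  exacts [abs_fst_le_eu x, abs_snd_le_eu x]

theorem dif_co (j : Fin 2) (y : Pt) : dif y (co j) = fun _ => co j y := by
  funext z; simp [dif, co_add]

theorem A0_co (j : Fin 2) (z : Pt) : A0 (co j) z = 0 := by
  fin_cases j <;> simp [A0, co] <;> ring

theorem sm_co (k : ℕ) (j : Fin 2) {s M : ℝ} (hs : 0 < s) (hM : 1 ≤ M) :
    Sm k {z | eu z ≤ M * s} (M * s) s (co j) := fun ys _ h2 z hz => by
  rcases ys with _ | ⟨y, _ | ⟨y', ys⟩⟩
  · simpa [difs] using (abs_co_le j z).trans hz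
  · have := abs_co_le j y
    rw [eu_nn (h2 y (by simp))] at this
    simp only [difs, dif_co, List.length_singleton, pow_one]
    rw [mul_div_assoc, div_self hs.ne']; linarith
  · rw [difs_cons', dif_co, difs_const, abs_zero]; positivity

theorem sm_lin (k : ℕ) : ∃ C : ℝ, 0 ≤ C ∧ ∀ s : ℝ, 0 < s → (k : ℝ) ≤ s → ∀ j,
    Sm k Set.univ (C * s) s (lin j s) := by
  obtain ⟨C, h0, hC⟩ := sm_mul_chi k
  exact ⟨C * 8, by positivity, fun s hs hk j =>
    (hC s _ _ hs hk (sm_co k j hs (by norm_num))).mono le_rfl Set.Subset.rfl (le_of_eq (by ring)) hs⟩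

theorem env_lin (k : ℕ) : ∃ C : ℝ, 0 ≤ C ∧ ∀ s : ℝ, 0 < s → (k : ℝ) ≤ s → ∀ j,
    Env k 1 0 s (C * s ^ 2) (lin j s) := by
  obtain ⟨C, h0, hC⟩ := sm_lin k
  refine ⟨7 ^ (1 + k) * C, by positivity, fun s hs hk j => ?_⟩
  refine (env_of_sm 1 (hC s hs hk j) hs hs (M := 7) (by norm_num) fun z hz => ?_).mono le_rfl
    (le_of_eq (by ring)) hs
  have := eu_le_of_chi hs (right_ne_zero_of_mul hz)
  rw [sub_zero]; linarith

theorem sup_lin (j : Fin 2) {s : ℝ} (hs : 0 < s) {n : ℕ} (hn : 2 * s ≤ n + 1) :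
    Pot.Sup (bl 0 n) (lin j s) := fun z hz => by rw [lin, sup_chi hs hn z hz, mul_zero]

theorem lin_in (j : Fin 2) {s : ℝ} (hs : 0 < s) {n : ℕ} (hn : (n : ℝ) ≤ s) {z : Pt} (hz : z ∈ bl 0 n) :
    lin j s z = co j z := by rw [lin, chi_one hs hn hz, mul_one]

theorem A0_lin_in (j : Fin 2) {s : ℝ} (hs : 0 < s) {n : ℕ} (hn : (n : ℝ) + 1 ≤ s) {z : Pt}
    (hz : z ∈ bl 0 n) : A0 (lin j s) z = 0 := by
  rw [A0_congr (v := co j) fun w hw => lin_in j hs (n := n + 1) (by exact_mod_cast hn)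
    (bl_subset_bl hz (by omega) hw), A0_co]

theorem abs_lin_le (j : Fin 2) {s : ℝ} (hs : 0 < s) (z : Pt) : |lin j s z| ≤ 4 * s := by
  by_cases h : Xi.chi s z = 0
  · rw [lin, h, mul_zero, abs_zero]; positivity
  · rw [lin, abs_mul]
    calc _ ≤ eu z * 1 := mul_le_mul (abs_co_le j z) (abs_chi_le _ _) (abs_nonneg _) (eu_nonneg _)
      _ ≤ _ := by rw [mul_one]; exact eu_le_of_chi hs h

/-- dipole against test function -/
theorem pair_dp_lin {ρ s : ℝ} (hρ : 0 < ρ) {e : Pt} (he : e ∈ nn) {n N : ℕ} (hn : 2 * ρ ≤ n + 1)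
    (hN : n + 1 ≤ N) (hs : (n : ℝ) + 1 ≤ s) (j : Fin 2) :
    ∑ z ∈ bl 0 N, A0 (dp ρ e) z * lin j s z = co j e := by
  have h0 : (0 : ℝ) ≤ n := Nat.cast_nonneg n
  have hs0 : 0 < s := by linarith
  rw [pair_dp_harm hρ he hn hN fun z hz => A0_lin_in j hs0 hs hz,
    lin_in j hs0 (n := 1) (by simp; linarith) (self_mem_bl _ _),
    lin_in j hs0 (n := 1) (by simp; linarith) (neg_nn_bl he le_rfl)]
  fin_cases j <;> simp [co]

end Crest.Agent.T145.Vx34
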