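import Crest.Agent.T145.MidDef2_97
import Crest.Agent.T145.VdDef_27
import Crest.Agent.T145.VxDip_34

/-!
# Row 145, the twisted module (S0198): definitions and target Props (helper35)

Text with proofs: `docs/T145_35.md` (origin/helper35).  `Λ = xyL b` at the critical point, one seam `V.σ` of
length `V.r`, cores `V.p` (this side) and `V.q` (other side), fixed gauge, finite ambient models.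
-/

set_option autoImplicit false

namespace Crest.Agent.T145.Vx

open Finset Filter Topology
open Nc (an Amb Nm St Gd pn rs)
open Vd (rat ray)
open Pot (cut cut1)

/-! ## the vortex pair -/

/-- sup distance -/
def ds (z w : Pt) : ℕ := max (z.1 - w.1).natAbs (z.2 - w.2).natAbs

/-- the seam on the columns `a ≤ j < a + r` (`seam r = sm 0 r`) -/
def sm (a : ℤ) (r : ℕ) (e : Pt × Pt) : ℤ := ray (a, 0) e - ray (a + r, 0) e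

/-- a seam and a choice of one of its ends -/
structure Vp where
  a : ℤ
  r : ℕ
  sd : Bool

namespace Vp
variable (V : Vp)

def σ : Pt × Pt → ℤ := sm V.a V.r
/-- the other end -/
def sw : Vp := ⟨V.a, V.r, !V.sd⟩
/-- centre of the balls around this core (`σ = ± ray p` up to a gauge on the balls of radius `r / 2`) -/
def p : Pt := if V.sd then (V.a, 0) else (V.a + V.r, 0)
/-- centre of the balls around the other core -/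
def q : Pt := V.sw.p
/-- the edge that prolongs the seam at this end -/
def e : Pt × Pt := if V.sd then ((V.a - 1, -1), (V.a - 1, 0)) else ((V.a + V.r, -1), (V.a + V.r, 0))
/-- distance to the cores -/
def d (z : Pt) : ℕ := min (ds z V.p) (ds z V.q)
/-- `t = log r` -/
noncomputable def t : ℝ := Real.log V.r

end Vp

/-- free model on `U` -/
noncomputable def fr (b : ℝ) (U : Finset Pt) : Mdl Pt := pn ((xyL b).N U) U (rs U)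

/-- `u (c)`: the free ball around the core -/
noncomputable def uu (b : ℝ) (V : Vp) (c : ℕ) : ℝ := rat (fr b (bl V.p c)) V.σ

/-- `T (c, R)`: the free annulus around the core -/
noncomputable def tt (b : ℝ) (V : Vp) (c R : ℕ) : ℝ := rat (fr b (an V.p c R)) V.σ

/-- gauge invariant `J_z` (`= Jz z` at `σ = 0`) -/
def Jv (σ : Pt × Pt → ℤ) (z : Pt) (s : Cfg Pt) : ℝ :=
  ∑ i, ((nE σ (z - ev i, z) s : ℝ) - nE σ (z, z + ev i) s)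

/-- `Y_u = ∑ u J` (`u` of finite support) -/
noncomputable def Yv (σ : Pt × Pt → ℤ) (u : Pt → ℝ) (s : Cfg Pt) : ℝ := ∑ᶠ z, u z * Jv σ z s

/-- Dirichlet form on `ℤ²` (finite supports) -/
noncomputable def En (u v : Pt → ℝ) : ℝ := ∑ᶠ z, ∑ i, df i u z * df i v z

/-- the micro move of the core -/
noncomputable def Dv (b : ℝ) (V : Vp) (s : Cfg Pt) : ℝ :=
  bes b (nE V.σ V.e s + 1) / bes b (nE V.σ V.e s)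

/-- the running stiffness at the critical point -/
noncomputable def gc (r : ℕ) : ℝ := 2 / Real.pi + 1 / (Real.pi * Real.log r)

/-- constants -/
structure Par where
  b : ℝ
  W₀ : ℕ
  r₀ : ℕ
  n : ℕ
  K : ℝ
  δ : ℝ

namespace Par
variable (P : Par)

/-- the lattice -/
def L : Lat := xyL P.b

/-- norm of an insertion of scale `ρ` at `z` -/
noncomputable def N (V : Vp) (z : Pt) (ρ : ℕ) (F : Cfg Pt → ℝ) : ℝ := P.L.nrm V.σ z (P.W₀ * ρ) F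

/-- centred norm of the core insertion `F` flowed to the scale `ρ` -/
noncomputable def ν (V : Vp) (ρ : ℕ) (F : Cfg Pt → ℝ) : ℝ :=
  P.N V V.p ρ fun s => P.L.tr V.σ V.p ρ F s - P.L.exN V.σ V.p (P.W₀ * ρ) F

/-- what is known at the critical point: cross ratios (`GdStmt`), the flow (`CritFlow2Stmt`), `KsStmt` -/
structure Ok : Prop where
  crit : P.L.Crit
  W2 : 4 ≤ P.W₀
  r2 : 16 ≤ P.r₀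
  K1 : 1 ≤ P.K
  δ0 : 0 < P.δ
  δ1 : P.δ ≤ 1 / 4
  gd : ∀ L, Gd P.L (1 / 400) P.W₀ P.r₀ L
  f1 : ∀ r, P.r₀ ≤ r → ∀ (z : Pt) (c : ℕ), P.W₀ * r ≤ c →
    Nm P.L z c (St P.L z r (Jz z)) ≤ P.K / ((r : ℝ) ^ 2 * Real.log r)
  f2 : ∀ r, P.r₀ ≤ r → ∃ R : ℕ, ∀ (m : Mdl Pt) (z : Pt), Amb P.L m (bl z R) →
    |gJ (m.W 0) z r - gc r| ≤ P.K * Real.log r ^ (-1 - 2 * P.δ)
  f3 : ∀ r, P.r₀ ≤ r → ∃ (a : ℝ) (ξ : Pt → ℝ) (R : ℕ), Sup (bl 0 r) ξ ∧ ∑ x ∈ bl 0 r, ξ x = 1 ∧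
    ∀ z : Pt, (∀ c : ℕ, P.W₀ * r ≤ c → Nm P.L z c (St P.L z r fun s =>
      Jz z s - a * Real.sin (2 * Real.pi * pr (fun x => ξ (x - z)) s)) ≤
        P.K * Real.log r ^ (-1 - P.δ) / (r : ℝ) ^ 2) ∧
    ∀ m : Mdl Pt, Amb P.L m (bl z R) → |a| * Ph (m.W 0) ((2 * Real.pi) • pr fun x => ξ (x - z)) ≤
      P.K * Real.log r ^ (-1 - P.δ) / (r : ℝ) ^ 2
  k0 : ∀ c : ℕ, ∃ k : ℝ, 0 < k ∧ ∀ V : Vp, 2 * c ≤ V.r → k ≤ uu P.b V c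
  k1 : ∀ (V : Vp) (c R : ℕ), P.r₀ ≤ c → c < R → 2 * R ≤ V.r →
    uu P.b V c * tt P.b V c R ≤ P.K * uu P.b V R ∧ ((c : ℝ) / R) ^ P.n ≤ P.K * tt P.b V c R
  k2 : ∀ (V : Vp) (m : Mdl Pt), 8 * P.r₀ ≤ V.r → Amb P.L m (bl V.p (4 * V.r)) →
    uu P.b V (V.r / 4) * uu P.b V.sw (V.r / 4) ≤ P.K * rat m V.σ

end Par

/-- all cross ratios are small at the critical point (from `Nc.GdStmt`) -/
def GdStmt : Prop := ∀ b : ℝ, (xyL b).Crit → ∀ g : ℝ, 0 < g → ∃ W₁ : ℕ, ∀ W, W₁ ≤ W → ∃ r₀ : ℕ,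
  ∀ L, Gd (xyL b) g W r₀ L

/-- the XY instance of `CritFlow2Stmt` -/
def CritXy : Prop := ∀ b : ℝ, (xyL b).Crit → ∃ (W₀ : ℕ) (C δ : ℝ), 0 < δ ∧ ∀ᶠ r : ℕ in atTop,
  (∀ (z : Pt) (c : ℕ), W₀ * r ≤ c →
    Nm (xyL b) z c (St (xyL b) z r (Jz z)) ≤ C / ((r : ℝ) ^ 2 * Real.log r)) ∧
  (∃ R : ℕ, ∀ (m : Mdl Pt) (z : Pt), Amb (xyL b) m (bl z R) →
    |gJ (m.W 0) z r - (2 / Real.pi + 1 / (Real.pi * Real.log r))| ≤ C * Real.log r ^ (-1 - δ)) ∧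
  ∃ (a : ℝ) (ξ : Pt → ℝ) (R : ℕ), Sup (bl 0 r) ξ ∧ ∑ x ∈ bl 0 r, ξ x = 1 ∧ ∀ z : Pt,
    (∀ c : ℕ, W₀ * r ≤ c → Nm (xyL b) z c (St (xyL b) z r fun s =>
      Jz z s - a * Real.sin (2 * Real.pi * pr (fun x => ξ (x - z)) s)) ≤
        C * Real.log r ^ (-1 - δ) / (r : ℝ) ^ 2) ∧
    ∀ m : Mdl Pt, Amb (xyL b) m (bl z R) →
      |a| * Ph (m.W 0) ((2 * Real.pi) • pr fun x => ξ (x - z)) ≤ C * Real.log r ^ (-1 - δ) / (r : ℝ) ^ 2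

theorem critXy (h : CritFlow2Stmt) : CritXy := fun _ hb => h _ hb

/-- the constants exist -/
def ParStmt : Prop := ∀ b : ℝ, (xyL b).Crit → ∃ P : Par, P.b = b ∧ P.Ok

/-! ## inputs: K-step and kernel theorem -/

/-- (H), quasi-multiplicativity, the constant of (D1v) -/
def KsStmt : Prop := ∀ b : ℝ, (xyL b).Crit → ∃ (K : ℝ) (ρ₀ n : ℕ), 1 ≤ K ∧
  (∀ c : ℕ, ∃ k : ℝ, 0 < k ∧ ∀ V : Vp, 2 * c ≤ V.r → k ≤ uu b V c) ∧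
  ∀ V : Vp, (∀ c R : ℕ, ρ₀ ≤ c → c < R → 2 * R ≤ V.r →
      uu b V c * tt b V c R ≤ K * uu b V R ∧ ((c : ℝ) / R) ^ n ≤ K * tt b V c R) ∧
    ∀ m : Mdl Pt, 8 * ρ₀ ≤ V.r → Amb (xyL b) m (bl V.p (4 * V.r)) →
      uu b V (V.r / 4) * uu b V.sw (V.r / 4) ≤ K * rat m V.σ

/-- conditional expectation in the free annulus given the heights off `an z c R` -/
noncomputable def trA (b : ℝ) (σ : Pt × Pt → ℤ) (z : Pt) (c R : ℕ) (F : Cfg Pt → ℝ) (s : Cfg Pt) : ℝ :=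
  Ex ((((xyL b).N (an z c (R + 1))).free (an z c R)).Ws s σ) F

/-- (K-V), dual form: on the twisted free annulus the transfer operator has rank two up to `W ^ (κ - 2)` -/
def KvStmt : Prop := ∀ b : ℝ, (xyL b).Crit → ∀ (W₀ : ℕ) (κ : ℝ), 2 ≤ W₀ → 0 < κ → ∃ W₁ : ℕ, ∀ W : ℕ,
  W₁ ≤ W → ∃ r₁ : ℕ, ∀ (V : Vp) (ρ : ℕ), r₁ ≤ ρ → 2 * (W₀ * (W * ρ)) ≤ V.r →
    ∃ a : (Cfg Pt → ℝ) → Fin 2 → ℝ,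
      (∀ (F G : Cfg Pt → ℝ) (x y M : ℝ), (∀ s, |F s| ≤ M) → (∀ s, |G s| ≤ M) →
        a (fun s => x * F s + y * G s) = x • a F + y • a G) ∧
      ∀ (F : Cfg Pt → ℝ) (M : ℝ), DepG (an V.p (W₀ * ρ) (W₀ * (W₀ * ρ) + 1)) F → (∀ s, |F s| ≤ M) →
        (∀ i, |a F i| ≤ (W : ℝ) ^ (κ - 1) * M) ∧
        Ex ((fr b (an V.p (W₀ * ρ) (W₀ * (W * ρ)))).Ws 0 V.σ) (fun s =>
          |trA b V.σ V.p (W₀ * ρ) (W * ρ) F s -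
            Ex ((fr b (an V.p (W₀ * ρ) (W₀ * (W * ρ)))).Ws 0 V.σ) F|) ≤
          ∑ i, |a F i| + (W : ℝ) ^ (κ - 2) * M

/-! ## the calculus of insertions in the twisted sector -/

/-- the transfer operator with a seam -/
def TrStmt : Prop := ∀ (b : ℝ) (σ : Pt × Pt → ℤ) (z : Pt) (R : ℕ) (F : Cfg Pt → ℝ), 0 < b →
  Ins z (R + 1) F →
    Tame ((xyL b).tr σ z R F) ∧ DepG (an z R (R + 1)) ((xyL b).tr σ z R F) ∧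
    (∀ (z' : Pt) (c : ℕ), bl z (R + 1) ⊆ bl z' c →
      (xyL b).nrm σ z' c ((xyL b).tr σ z R F) ≤ (xyL b).nrm σ z' c F) ∧
    ∀ G : Cfg Pt → ℝ, Out (bl z R) G → Tame G →
      (∀ (z' : Pt) (R' : ℕ), bl z R ⊆ bl z' R' →
        (xyL b).tr σ z' R' (fun s => F s * G s) =
          (xyL b).tr σ z' R' fun s => (xyL b).tr σ z R F s * G s) ∧
      (∀ (z' : Pt) (c : ℕ), bl z (R + 1) ⊆ bl z' c → DepG (bl z' c) G →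
        (xyL b).exN σ z' c (fun s => F s * G s) =
          (xyL b).exN σ z' c fun s => (xyL b).tr σ z R F s * G s) ∧
      ∀ m : Mdl Pt, Amb (xyL b) m (bl z R) →
        Ex (m.Ws 0 σ) (fun s => F s * G s) = Ex (m.Ws 0 σ) fun s => (xyL b).tr σ z R F s * G s

/-- a box that does not contain a core is gauge equivalent to a centred box -/
def GgStmt : Prop := ∀ (b : ℝ) (V : Vp) (z : Pt) (c : ℕ), 0 < b → c < V.d z → ∃ g : Cfg Pt,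
  (∀ e ∈ (xyL b).edI (bl z c), V.σ e = dE e g) ∧ rat (fr b (bl z c)) V.σ = 1 ∧
  ∀ c' ≤ c, ∀ G : Cfg Pt → ℝ, (Ins z c' G →
      (xyL b).exN V.σ z c' (fun s => G (s + g)) = Nc.EN (xyL b) z c' G) ∧
    ∀ ρ, ρ + 1 ≤ c' → Ins z (ρ + 1) G →
      (xyL b).tr V.σ z ρ (fun s => G (s + g)) = fun s => St (xyL b) z ρ G (s + g)

/-- admissible free cells `(z i, ρ i)` next to core cells of scales `ρp`, `ρq` -/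
structure Adm (P : Par) (Λc : ℕ) (V : Vp) (ρp ρq : ℕ) (I : Finset (Fin 2)) (z : Fin 2 → Pt)
    (ρ : Fin 2 → ℕ) : Prop where
  p0 : P.r₀ ≤ ρp
  p1 : 4 * (P.W₀ * ρp) ≤ V.r
  q0 : P.r₀ ≤ ρq
  q1 : 4 * (P.W₀ * ρq) ≤ V.r
  fr : ∀ i ∈ I, P.r₀ ≤ ρ i ∧ 4 * (P.W₀ * ρ i) ≤ V.d (z i)
  dp : ∀ i ∈ I, 2 * (P.W₀ * ρp) ≤ ds (z i) V.p ∧ (V.r ≤ 2 * ds (z i) V.p ∨ ds (z i) V.p ≤ Λc * ρp)
  dq : ∀ i ∈ I, 2 * (P.W₀ * ρq) ≤ ds (z i) V.q ∧ (V.r ≤ 2 * ds (z i) V.q ∨ ds (z i) V.q ≤ Λc * ρq)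
  dj : ∀ i ∈ I, ∀ j ∈ I, i ≠ j → P.W₀ * ρ i + P.W₀ * ρ j < ds (z i) (z j)

/-- domination in an ambient model -/
def DomStmt : Prop := ∀ P : Par, P.Ok → ∀ Λc : ℕ, ∃ C : ℝ, ∀ (V : Vp) (m : Mdl Pt) (ρp ρq : ℕ)
  (I : Finset (Fin 2)) (z : Fin 2 → Pt) (ρ : Fin 2 → ℕ) (F F' : Cfg Pt → ℝ) (G : Fin 2 → Cfg Pt → ℝ),
    Adm P Λc V ρp ρq I z ρ → Amb P.L m (bl V.p (4 * V.r)) →
    (∀ i ∈ I, Amb P.L m (bl (z i) (P.W₀ * ρ i)) ∧ Ins (z i) (ρ i + 1) (G i)) →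
    Ins V.p (ρp + 1) F → Ins V.q (ρq + 1) F' →
    Ex (m.Ws 0 V.σ) (fun s => |F s * F' s * ∏ i ∈ I, G i s|) ≤
      C * P.N V V.p ρp F * P.N V V.q ρq F' * ∏ i ∈ I, P.N V (z i) (ρ i) (G i)

/-- domination in the free ball around a core -/
def Dom1Stmt : Prop := ∀ P : Par, P.Ok → ∀ Λc : ℕ, ∃ C : ℝ, ∀ (V : Vp) (ρp R : ℕ) (F : Cfg Pt → ℝ),
  P.r₀ ≤ ρp → P.W₀ * ρp ≤ R → 2 * R ≤ V.r → Ins V.p (ρp + 1) F →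
    P.L.nrm V.σ V.p R F ≤ C * P.N V V.p ρp F ∧
    ∀ (z : Pt) (ρ : ℕ) (G : Cfg Pt → ℝ), P.r₀ ≤ ρ → 4 * (P.W₀ * ρ) ≤ ds z V.p →
      2 * (P.W₀ * ρp) ≤ ds z V.p → ds z V.p ≤ Λc * ρp → ds z V.p + P.W₀ * ρ ≤ R → Ins z (ρ + 1) G →
      P.L.nrm V.σ V.p R (fun s => F s * G s) ≤ C * P.N V V.p ρp F * P.N V z ρ G

/-- one transfer step at a core -/
def TsStmt : Prop := ∀ P : Par, P.Ok → ∀ κ : ℝ, 0 < κ → ∃ W₁ : ℕ, ∀ W : ℕ, W₁ ≤ W → ∃ r₁ : ℕ,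
  ∀ (V : Vp) (ρ : ℕ), r₁ ≤ ρ → 2 * (P.W₀ * (W * ρ)) ≤ V.r → ∃ a : (Cfg Pt → ℝ) → Fin 2 → ℝ,
    (∀ (F G : Cfg Pt → ℝ) (x y : ℝ), Ins V.p (ρ + 1) F → Ins V.p (ρ + 1) G →
      a (fun s => x * F s + y * G s) = x • a F + y • a G) ∧
    ∀ F, Ins V.p (ρ + 1) F → (∀ i, |a F i| ≤ (W : ℝ) ^ (κ - 1) * P.ν V ρ F) ∧
      P.ν V (W * ρ) F ≤ ∑ i, |a F i| + (W : ℝ) ^ (κ - 2) * P.ν V ρ F

/-- contraction with exponent `1 - κ` -/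
def NuStmt : Prop := ∀ P : Par, P.Ok → ∀ κ : ℝ, 0 < κ → ∃ C : ℝ, ∀ (V : Vp) (ρ ρ' : ℕ)
  (F : Cfg Pt → ℝ), P.r₀ ≤ ρ → ρ ≤ ρ' → 2 * (P.W₀ * ρ') ≤ V.r → Ins V.p (ρ + 1) F →
    P.ν V ρ' F ≤ C * ((ρ : ℝ) / ρ') ^ (1 - κ) * P.ν V ρ F

/-- covariances and means of cells -/
def CovStmt : Prop := ∀ P : Par, P.Ok → ∀ Λc : ℕ, ∃ C : ℝ, ∀ (V : Vp) (m : Mdl Pt) (ρp ρq : ℕ)
  (F F' : Cfg Pt → ℝ), P.r₀ ≤ ρp → 4 * (P.W₀ * ρp) ≤ V.r → P.r₀ ≤ ρq → 4 * (P.W₀ * ρq) ≤ V.r →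
    Amb P.L m (bl V.p (4 * V.r)) → Ins V.p (ρp + 1) F → Ins V.q (ρq + 1) F' →
    Ex (m.Ws 0 V.σ) (fun s => |P.L.tr V.σ V.p ρp F s - Ex (m.Ws 0 V.σ) F|) ≤ C * P.ν V ρp F ∧
    |Cv (m.Ws 0 V.σ) F F'| ≤ C * P.ν V ρp F * P.ν V.sw ρq F' ∧
    ∀ (z : Pt) (ρ : ℕ) (G : Cfg Pt → ℝ), P.r₀ ≤ ρ → 4 * (P.W₀ * ρ) ≤ V.d z →
      Amb P.L m (bl z (P.W₀ * ρ)) → Ins z (ρ + 1) G →
      Ex (m.Ws 0 V.σ) (fun s => |G s|) ≤ C * P.N V z ρ G ∧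
      (2 * (P.W₀ * ρp) ≤ ds z V.p → V.r ≤ 2 * ds z V.p ∨ ds z V.p ≤ Λc * ρp →
        |Cv (m.Ws 0 V.σ) F G| ≤ C * P.ν V ρp F * P.N V z ρ G) ∧
      ∀ (w : Pt) (ρ' : ℕ) (G' : Cfg Pt → ℝ), P.r₀ ≤ ρ' → 4 * (P.W₀ * ρ') ≤ V.d w →
        Amb P.L m (bl w (P.W₀ * ρ')) → Ins w (ρ' + 1) G' → P.W₀ * ρ + P.W₀ * ρ' < ds z w →
        (∀ c : Pt, c = V.p ∨ c = V.q → min (ds z c) V.r ≤ Λc * min (ds w c) V.r ∧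
          min (ds w c) V.r ≤ Λc * min (ds z c) V.r) →
        Ex (m.Ws 0 V.σ) (fun s => |G s * G' s|) ≤ C * P.N V z ρ G * P.N V w ρ' G'

/-- microscopic bounds, uniform in the pair -/
def MicStmt : Prop := ∀ P : Par, P.Ok → (∀ c : ℕ, ∃ C : ℝ, ∀ (V : Vp) (z w : Pt), 2 * c ≤ V.r →
    ds z V.p < c → ds w V.p < c → 2 ≤ c →
    P.L.nrm V.σ V.p c (fun s => Jv V.σ z s * Jv V.σ w s) ≤ C ∧
    P.L.nrm V.σ V.p c (Jv V.σ z) ≤ C ∧ P.L.nrm V.σ V.p c (Dv P.b V) ≤ C) ∧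
  ∃ (c₀ C : ℝ) (r₁ : ℕ), 0 < c₀ ∧ ∀ (V : Vp) (m : Mdl Pt), r₁ ≤ V.r → Amb P.L m (bl V.p (4 * V.r)) →
    c₀ ≤ Ex (m.Ws 0 V.σ) (Dv P.b V) ∧ Ex (m.Ws 0 V.σ) (Dv P.b V) ≤ C ∧
    ∀ z, Amb P.L m (bl z (P.W₀ * P.r₀)) → Ex (m.Ws 0 V.σ) (fun s => Jv V.σ z s ^ 2) ≤ C

/-! ## the field `J` -/

/-- majorant of the norm of `J_z` seen at the distance `l` -/
noncomputable def nb (V : Vp) (z : Pt) (l : ℕ) : ℝ :=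
  if min l V.r ≤ V.d z then 1 / (1 + (min (V.d z) l : ℕ) : ℝ) ^ 2
  else (1 + (V.d z : ℝ)) ^ (-(21 / 20 : ℝ)) * ((min l V.r : ℕ) : ℝ) ^ (-(19 / 20 : ℝ))

/-- norms of `J_z`: in a free cell, and fused with the core -/
def JnStmt : Prop := ∀ P : Par, P.Ok → ∃ C : ℝ, ∀ (V : Vp) (z : Pt) (ρ : ℕ), P.r₀ ≤ ρ →
  (P.W₀ * ρ < V.d z →
    P.N V z ρ (P.L.tr V.σ z ρ (Jv V.σ z)) ≤ C / ((ρ : ℝ) ^ 2 * Real.log ρ)) ∧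
  (2 * (P.W₀ * ρ) ≤ V.r → 2 * ds z V.p ≤ ρ → P.ν V ρ (Jv V.σ z) ≤
    C * (1 + (ds z V.p : ℝ)) ^ (-(21 / 20 : ℝ)) * (ρ : ℝ) ^ (-(19 / 20 : ℝ)) / Real.log ρ)

/-- a core insertion against `J_z` -/
def FjStmt : Prop := ∀ P : Par, P.Ok → ∀ Λc : ℕ, ∃ (C : ℝ) (r₁ : ℕ), ∀ (V : Vp) (m : Mdl Pt) (ρ : ℕ)
  (F : Cfg Pt → ℝ) (z : Pt), r₁ ≤ ρ → 4 * (P.W₀ * ρ) ≤ V.r → Ins V.p (ρ + 1) F →
    Amb P.L m (bl V.p (5 * V.r)) → Amb P.L m (bl z (ds z V.p)) → 2 * (P.W₀ * ρ) ≤ ds z V.p →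
    V.r ≤ 2 * ds z V.p ∨ ds z V.p ≤ Λc * ρ →
    |Cv (m.Ws 0 V.σ) F (Jv V.σ z)| ≤ C * P.ν V ρ F * nb V z (ds z V.p) / Real.log ρ

/-- crude two-point bound, all pairs -/
def JfarStmt : Prop := ∀ P : Par, P.Ok → ∃ (C : ℝ) (r₁ : ℕ), ∀ (V : Vp) (m : Mdl Pt) (R : ℕ)
  (z w : Pt), r₁ ≤ V.r → V.r ≤ R → Amb P.L m (bl V.p (8 * R)) → ds z V.p ≤ R → ds w V.p ≤ R → z ≠ w →
    |Cv (m.Ws 0 V.σ) (Jv V.σ z) (Jv V.σ w)| ≤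
      C * nb V z (ds z w) * nb V w (ds z w) / Real.log (2 + (min (ds z w) V.r : ℕ)) ^ 2 ∧
    |Ex (m.W 0) (fun s => Jz z s * Jz w s)| ≤ C / (ds z w : ℝ) ^ 4

/-- close pairs do not see the cores -/
def JnearStmt : Prop := ∀ P : Par, P.Ok → ∃ (C c : ℝ) (r₁ : ℕ), 0 < c ∧ c ≤ 1 ∧ ∀ (V : Vp)
  (m : Mdl Pt) (R : ℕ) (z w : Pt), r₁ ≤ V.r → V.r ≤ R → Amb P.L m (bl V.p (8 * R)) → ds z V.p ≤ R →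
    z ≠ w → 2 * ds z w ≤ V.d z →
    |Cv (m.Ws 0 V.σ) (Jv V.σ z) (Jv V.σ w) - Ex (m.W 0) (fun s => Jz z s * Jz w s)| ≤
      C / (ds z w : ℝ) ^ 4 * ((ds z w : ℝ) / V.d z) ^ c

/-- isotropy: the second moments of the centred two-point function -/
def IsoStmt : Prop := ∀ P : Par, P.Ok → ∃ C : ℝ, ∀ ρ : ℕ, P.r₀ ≤ ρ → ∃ R : ℕ, ∀ (m : Mdl Pt) (z : Pt),
  Amb P.L m (bl z R) → ∀ i j : Fin 2,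
    |-(1 / 2) * ∑ x ∈ bl 0 ρ, Ex (m.W 0) (fun s => Jz z s * Jz (z + x) s) * (co i x * co j x) -
      (if i = j then gc ρ else 0)| ≤ C * Real.log ρ ^ (-1 - 2 * P.δ)

/-- the only contraction beyond the scale of the pair -/
def FarStmt : Prop := ∀ P : Par, P.Ok → ∃ (C c : ℝ) (r₁ Λ₀ : ℕ), 0 < c ∧ c ≤ 1 ∧ 1 ≤ Λ₀ ∧ ∀ (V : Vp)
  (m : Mdl Pt) (S S' : ℕ), r₁ ≤ V.r → 4 * V.r ≤ S → Λ₀ * S ≤ S' → Amb P.L m (bl V.p (8 * S')) →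
    (∀ z, ds z V.p ≤ S → |Cv (m.Ws 0 V.σ) (Jv V.σ z) (Yv V.σ (cut V.p S' (2 * S')))| ≤
      C * ((S : ℝ) / S') ^ c * nb V z S) ∧
    ∀ (ρ : ℕ) (F : Cfg Pt → ℝ), P.r₀ ≤ ρ → 4 * (P.W₀ * ρ) ≤ V.r → Ins V.p (ρ + 1) F →
      |Cv (m.Ws 0 V.σ) F (Yv V.σ (cut V.p S' (2 * S')))| ≤ C * ((S : ℝ) / S') ^ c * P.ν V ρ F

/-- the twisted mean of `J` -/
def CmStmt : Prop := ∀ P : Par, P.Ok → ∀ Λc : ℕ, ∃ (C : ℝ) (r₁ : ℕ), ∀ (V : Vp) (D : ℕ), r₁ ≤ D →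
  ∃ R : ℕ, ∀ (m : Mdl Pt) (z : Pt), D ≤ V.r → Amb P.L m (bl V.p R) → ds z V.p ≤ V.r →
    D ≤ Λc * V.d z → |Ex (m.Ws 0 V.σ) (Jv V.σ z)| ≤ C * Real.log D ^ (-1 - P.δ) / (D : ℝ) ^ 2

/-! ## charges, dipoles, test functions -/

/-- a neutral charge on the shell `D ≤ |z - p| ≤ Λc D` -/
def Chg (p : Pt) (D Λc : ℕ) (A : ℝ) (g : Pt → ℝ) : Prop :=
  (∀ z, g z ≠ 0 → D ≤ ds z p ∧ ds z p ≤ Λc * D) ∧ ∑ z ∈ bl p (Λc * D), g z = 0 ∧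
    ∀ z, |g z| ≤ A / D

/-- routing inside the shell -/
def RouteStmt : Prop := ∀ Λc : ℕ, 2 ≤ Λc → ∃ C : ℝ, ∀ (p : Pt) (D : ℕ) (A : ℝ) (g : Pt → ℝ), 2 ≤ D →
  Chg p D Λc A g → Fs (nnL.edI (an p (D - 1) (Λc * D))) g (C * A)

/-- linear observables on one shell -/
def LinStmt : Prop := ∀ P : Par, P.Ok → ∀ Λc : ℕ, 2 ≤ Λc → ∃ (C : ℝ) (r₁ : ℕ), ∀ (V : Vp) (D : ℕ)
  (A : ℝ) (g : Pt → ℝ), r₁ ≤ D → r₁ ≤ V.r → Chg V.p D Λc A g →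
    4 * (Λc * D) ≤ V.r ∨ 4 * V.r ≤ D →
    (∀ m : Mdl Pt, Amb P.L m (bl V.p (4 * V.r)) → Amb P.L m (bl V.p (2 * (Λc * D))) →
      Vr (m.Ws 0 V.σ) (pr g) (pr g) ≤ (C * A * D) ^ 2 ∧
      ∀ (ρ : ℕ) (F : Cfg Pt → ℝ), P.r₀ ≤ ρ → 4 * (P.W₀ * ρ) ≤ D → 4 * (P.W₀ * ρ) ≤ V.r →
        D ≤ Λc * (Λc * (P.W₀ * ρ)) ∨ 4 * V.r ≤ D → Ins V.p (ρ + 1) F →
        |Cv (m.Ws 0 V.σ) F (pr g)| ≤ C * P.ν V ρ F * (A * D)) ∧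
    ∀ ρ : ℕ, Λc * D ≤ ρ → ρ ≤ Λc * (Λc * D) → 2 * (P.W₀ * ρ) ≤ V.r → P.ν V ρ (pr g) ≤ C * A * D

/-- `1 / (ρ₁ + |z - p|)` -/
noncomputable def al (p : Pt) (ρ₁ : ℕ) (z : Pt) : ℝ := 1 / ((ρ₁ : ℝ) + ds z p)

/-- the class of dipole potentials at `p` -/
structure Dip (p : Pt) (ρ₁ : ℕ) (A : ℝ) (u : Pt → ℝ) : Prop where
  b0 : ∀ z, |u z| ≤ A * al p ρ₁ z
  b1 : ∀ z w, |u z - u w| ≤ A * ds z w * al p ρ₁ z * al p ρ₁ w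
  b2 : ∀ i j z, |df j (df i u) z| ≤ A * al p ρ₁ z ^ 2 / ρ₁

/-- the calibration function `x_i χ`, symmetric about the line of the seam -/
noncomputable def uc (p : Pt) (ρ : ℕ) (i : Fin 2) (z : Pt) : ℝ :=
  (co i (z - p) + ![0, 1 / 2] i) *
    (cut1 ρ (2 * ρ) ((z.1 : ℝ) - p.1) * cut1 ρ (2 * ρ) ((z.2 : ℝ) - p.2 + 1 / 2))

/-- the dipole charge, on the shell `ρ / 4 ≤ |z - p| ≤ ρ / 2` -/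
noncomputable def fd (p : Pt) (ρ : ℕ) (i : Fin 2) (z : Pt) : ℝ :=
  A0 (Vx34.dp ((ρ : ℝ) / 4) (ev i)) (z - p)

/-- its potential, cut off at the scale `S` -/
noncomputable def ud (p : Pt) (ρ S : ℕ) (i : Fin 2) (z : Pt) : ℝ :=
  Vx34.du ((ρ : ℝ) / 4) S (ev i) (z - p)

/-- `u` is harmonic and flat near `p` -/
def Flat (p : Pt) (r : ℕ) (A : ℝ) (u : Pt → ℝ) : Prop :=
  ∀ z, ds z p ≤ r / 4 → A0 u z = 0 ∧ ∀ i j, |df j (df i u) z| ≤ A / (r : ℝ) ^ 3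

/-- algebra of `Y` -/
def YStmt : Prop := ∀ (σ : Pt × Pt → ℤ) (S : Finset Pt) (u : Pt → ℝ), Sup S u →
  (∀ s, Yv σ u s = ∑ z ∈ S, u z * Jv σ z s) ∧
  (∀ s, Yv σ u s = pr (A0 u) s + ∑ᶠ z, ∑ i, df i u z * σ (z, z + ev i)) ∧
  (∀ (T : Finset Pt) (v : Pt → ℝ), Sup T v → En u v = ∑ z ∈ T, A0 u z * v z) ∧
  Tame (Yv σ u) ∧ ∀ z, Ins z 1 (Jv σ z) ∧ Jv 0 z = Jz z

/-- the calibration functions -/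
def UcStmt : Prop := ∃ C : ℝ, ∀ (p : Pt) (ρ : ℕ) (i : Fin 2), 4 ≤ ρ →
  Sup (bl p (2 * ρ)) (uc p ρ i) ∧ Chg p (ρ - 1) 3 C (A0 (uc p ρ i)) ∧
  (∀ z, ds z p < ρ → uc p ρ i z = co i (z - p) + ![0, 1 / 2] i) ∧
  (∀ z, |uc p ρ i z| ≤ C * ρ ∧ ∀ j, |df j (uc p ρ i) z| ≤ C ∧
    ∀ k, |df k (df j (uc p ρ i)) z| ≤ C / ρ) ∧
  ∀ (q : Pt) (ρ₁ r : ℕ), 1 ≤ ρ₁ → ρ₁ ≤ ρ → 8 * ρ ≤ r → ds p q ≤ r →
    Dip q ρ₁ (C * (r : ℝ) ^ 2) (uc p ρ i)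

/-- the dipoles -/
def DipStmt : Prop := ∃ C : ℝ, ∀ (p : Pt) (ρ S : ℕ) (i : Fin 2), 32 ≤ ρ → 4 * ρ ≤ S →
  Chg p (ρ / 8) 8 (C / (ρ : ℝ) ^ 2) (fd p ρ i) ∧ Sup (bl p ρ) (fd p ρ i) ∧
  Sup (bl p (2 * S)) (ud p ρ S i) ∧ (∀ ρ₁, 1 ≤ ρ₁ → ρ₁ ≤ ρ → Dip p ρ₁ C (ud p ρ S i)) ∧
  Chg p (S - 1) 3 (C / (S : ℝ) ^ 2) (A0 (ud p ρ S i) - fd p ρ i) ∧
  (∀ j, ∑ z ∈ bl p ρ, fd p ρ i z * co j z = if i = j then 1 else 0) ∧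
  ∀ (q : Pt) (r : ℕ), q.2 = p.2 → ds p q = r → 8 * ρ ≤ r → 4 * r ≤ S →
    Flat q r C (ud p ρ S i) ∧
    (∀ j, |∑ z ∈ bl q ρ, fd q ρ j z * ud p ρ S i z| ≤ C / (r : ℝ) ^ 2) ∧
    |(r : ℝ) ^ 2 * ∑ z ∈ bl q ρ, fd q ρ 1 z * ud p ρ S 1 z - 1 / (2 * Real.pi)| ≤ C * ρ / r

/-! ## Lemma B and the left functionals -/

/-- Lemma B -/
def LbStmt : Prop := ∀ P : Par, P.Ok → ∃ (C : ℝ) (r₁ : ℕ), ∀ V : Vp, r₁ ≤ V.r → ∃ R : ℕ,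
  ∀ (m : Mdl Pt) (ρ₁ S : ℕ) (A A' : ℝ) (u u' : Pt → ℝ), Amb P.L m (bl V.p R) →
    (V.r : ℝ) ≤ ρ₁ * V.t ^ 3 → ρ₁ ≤ V.r → (S : ℝ) ≤ V.r * V.t ^ 8 → Sup (bl V.p S) u →
    Sup (bl V.p S) u' → Dip V.p ρ₁ A u → Dip V.q ρ₁ A' u' →
    |Cv (m.Ws 0 V.σ) (Yv V.σ u) (Yv V.σ u') - gc V.r * En u u'| ≤
      C * A * A' * V.t ^ (-1 - P.δ) / (V.r : ℝ) ^ 2

/-- the left functionals -/
noncomputable def lf (V : Vp) (m : Mdl Pt) (ρ : ℕ) (F : Cfg Pt → ℝ) (i : Fin 2) : ℝ :=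
  Cv (m.Ws 0 V.σ) F (Yv V.σ (uc V.p ρ i))

/-- covariances of the dipoles -/
def LvStmt : Prop := ∀ P : Par, P.Ok → ∃ (C : ℝ) (r₁ : ℕ), ∀ V : Vp, r₁ ≤ V.r → ∃ R : ℕ,
  ∀ (m : Mdl Pt) (ρ : ℕ), Amb P.L m (bl V.p R) → (V.r : ℝ) ≤ ρ * V.t ^ 3 → ∀ i j : Fin 2,
    (∀ ρ', ρ < ρ' → 16 * ρ' ≤ V.r →
      |lf V m ρ' (pr (fd V.p ρ i)) j - if i = j then gc V.r else 0| ≤ C * V.t ^ (-1 - P.δ) ∧
      |lf V m ρ' (pr (fd V.q ρ i)) j| ≤ C * V.t ^ (-1 - P.δ)) ∧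
    (ρ * V.t ^ 2 ≤ V.r →
      |(V.r : ℝ) ^ 2 * Vr (m.Ws 0 V.σ) (pr (fd V.p ρ i)) (pr (fd V.q ρ j))| ≤ C ∧
      |(V.r : ℝ) ^ 2 * Vr (m.Ws 0 V.σ) (pr (fd V.p ρ 1)) (pr (fd V.q ρ 1)) -
        gc V.r / (2 * Real.pi)| ≤ C * V.t ^ (-1 - P.δ))

/-- Lasota-Yorke inequality (at the ratio `W`) -/
def Ly (P : Par) (W : ℕ) : Prop := ∃ (C : ℝ) (r₁ : ℕ), ∀ V : Vp, r₁ ≤ V.r → ∃ R : ℕ,
  ∀ (m : Mdl Pt) (ρ : ℕ) (F : Cfg Pt → ℝ), Amb P.L m (bl V.p R) → (V.r : ℝ) ≤ ρ * V.t ^ 3 →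
    128 * (P.W₀ * (W * ρ)) ≤ V.r → Ins V.p (ρ + 1) F →
    (W * ρ : ℕ) * P.ν V (W * ρ) F ≤ C * ∑ i, |lf V m (8 * (P.W₀ * (W * ρ))) F i| +
      (W : ℝ) ^ (-(3 / 4 : ℝ)) * (ρ * P.ν V ρ F)

def LyStmt : Prop := ∀ P : Par, P.Ok → ∃ W : ℕ, 16 ≤ W ∧ Ly P W

/-- transport of the left functionals -/
def TpStmt : Prop := ∀ P : Par, P.Ok → ∀ W : ℕ, 1 ≤ W → ∃ (C : ℝ) (r₁ : ℕ), ∀ (V : Vp) (m : Mdl Pt)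
  (ρ : ℕ) (F : Cfg Pt → ℝ), r₁ ≤ ρ → 128 * (P.W₀ * (W * ρ)) ≤ V.r → Amb P.L m (bl V.p (5 * V.r)) →
    Ins V.p (ρ + 1) F → ∀ i, |lf V m (8 * (P.W₀ * (W * ρ))) F i - lf V m (8 * (P.W₀ * ρ)) F i| ≤
      C * (ρ * P.ν V ρ F) / Real.log ρ

/-- purification: an insertion killed by the top functionals -/
def PurStmt : Prop := ∀ P : Par, P.Ok → ∀ W : ℕ, 16 ≤ W → Ly P W → ∃ r₁ : ℕ, ∀ V : Vp, r₁ ≤ V.r →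
  ∃ R : ℕ, ∀ (m : Mdl Pt) (ρ n : ℕ) (F : Cfg Pt → ℝ), Amb P.L m (bl V.p R) →
    (V.r : ℝ) ≤ ρ * V.t ^ 3 → 128 * (P.W₀ * (W ^ n * ρ)) ≤ V.r → Ins V.p (ρ + 1) F →
    (∀ i, lf V m (8 * (P.W₀ * (W ^ n * ρ))) F i = 0) → ∀ k ≤ n,
      (W ^ k * ρ : ℕ) * P.ν V (W ^ k * ρ) F ≤
        (ρ * P.ν V ρ F) * (V.t ^ (-(3 / 4 : ℝ)) + ((W : ℝ) ^ k) ^ (-(3 / 4 : ℝ)))

/-- a purified insertion against a potential that is flat at the core -/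
def RwStmt : Prop := ∀ P : Par, P.Ok → ∀ W : ℕ, 16 ≤ W → ∃ (C : ℝ) (r₁ : ℕ), ∀ V : Vp, r₁ ≤ V.r →
  ∃ R : ℕ, ∀ (m : Mdl Pt) (ρ n S : ℕ) (A μ : ℝ) (F : Cfg Pt → ℝ) (u : Pt → ℝ),
    Amb P.L m (bl V.p R) → (V.r : ℝ) ≤ ρ * V.t ^ 3 → ρ * V.t ^ 2 ≤ V.r →
    128 * (P.W₀ * (W ^ n * ρ)) ≤ V.r → V.r ≤ 128 * (P.W₀ * (W ^ (n + 1) * ρ)) → Ins V.p (ρ + 1) F →
    (∀ i, lf V m (8 * (P.W₀ * (W ^ n * ρ))) F i = 0) →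
    (∀ k ≤ n, (W ^ k * ρ : ℕ) * P.ν V (W ^ k * ρ) F ≤
      μ * (V.t ^ (-(3 / 4 : ℝ)) + ((W : ℝ) ^ k) ^ (-(3 / 4 : ℝ)))) →
    (S : ℝ) ≤ V.r * V.t ^ 8 → Sup (bl V.p S) u → Dip V.q ρ A u → Flat V.p V.r A u →
    |Cv (m.Ws 0 V.σ) F (Yv V.σ u)| ≤ C * A * μ * V.t ^ (-(3 / 2 : ℝ)) / (V.r : ℝ) ^ 2

/-- exact calibration (translation invariance in the limit, reflection symmetry of the box) -/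
def CalStmt : Prop := ∀ P : Par, P.Ok → ∃ (C : ℝ) (r₁ : ℕ), ∀ (V : Vp) (ρ : ℕ), r₁ ≤ ρ →
  16 * ρ ≤ V.r → ∀ᶠ R : ℕ in atTop, lf V (P.L.D (faces R)) ρ (Dv P.b V) 0 = 0 ∧
    |lf V (P.L.D (faces R)) ρ (Dv P.b V) 1 / Ex ((P.L.D (faces R)).Ws 0 V.σ) (Dv P.b V) + 1 -
      lf V (P.L.D (faces R)) ρ (Dv P.b V.sw) 1 / Ex ((P.L.D (faces R)).Ws 0 V.σ) (Dv P.b V.sw)| ≤
      C * Real.log ρ ^ (-1 - P.δ)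

/-- a priori bound for the micro move -/
def AprStmt : Prop := ∀ P : Par, P.Ok → ∃ M : ℝ, ∀ (V : Vp) (ρ : ℕ), P.r₀ ≤ ρ →
  2 * (P.W₀ * ρ) ≤ V.r → ρ * P.ν V ρ (Dv P.b V) ≤ M

/-- the micro cross ratio in a large box -/
def XStmt : Prop := ∀ P : Par, P.Ok → ∃ (C : ℝ) (r₁ : ℕ), ∀ V : Vp, r₁ ≤ V.r → ∀ᶠ R : ℕ in atTop,
  |(V.r : ℝ) ^ 2 * (Cv ((P.L.D (faces R)).Ws 0 V.σ) (Dv P.b V) (Dv P.b V.sw) /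
      (Ex ((P.L.D (faces R)).Ws 0 V.σ) (Dv P.b V) * Ex ((P.L.D (faces R)).Ws 0 V.σ) (Dv P.b V.sw))) -
    1 / (2 * Real.pi * gc V.r)| ≤ C * V.t ^ (-1 - P.δ)

end Crest.Agent.T145.Vx
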