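import Crest.Agent.T145.KvOut_90
import Crest.Agent.T145.KsT_68
import Crest.Agent.T145.VxDef_35
import Crest.Agent.T145.Soft_23

/-!
# Row 145: from the output `VecStmt` of the twisted kernel module to `Vx.KvStmt` (helper90)
-/

set_option autoImplicit false

namespace Crest.Agent.T145.Ks68

open Finset Nc Nc.Geo Filter Real

variable {Λ : Lat} {U I O : Finset Pt} {z : Pt} {σ : Pt × Pt → ℤ} {α β α' β' : ℝ}

theorem Vec.mono {V : Type} {W : Cfg V → ℝ} {I O : Finset V} (h : Vec W I O α β) (h1 : α ≤ α') (h2 : β ≤ β') :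
    Vec W I O α' β' := by
  obtain ⟨a, hl, h⟩ := h
  refine ⟨a, hl, fun F M dF bF => ?_⟩
  have M0 : 0 ≤ M := (abs_nonneg _).trans (bF 0)
  exact ⟨fun i => ((h F M dF bF).1 i).trans (mul_le_mul_of_nonneg_right h1 M0), fun φ d b =>
    ((h F M dF bF).2 φ d b).trans (add_le_add le_rfl (mul_le_mul_of_nonneg_right h2 M0))⟩

theorem vec_vtx (hΛ : Λ.Ok) (hv : Vtx Λ z (U.map (Equiv.addRight z).toEmbedding) σ) (hn : U.Nonempty)
    (hI : I ⊆ U) (hO : O ⊆ U) (M : Vec (wN Λ U (Vd.ray 0)) I O α β) :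
    Vec (wN Λ (U.map (Equiv.addRight z).toEmbedding) σ) (I.map (Equiv.addRight z).toEmbedding)
      (O.map (Equiv.addRight z).toEmbedding) α β := by
  obtain ⟨r, hr⟩ := hn
  obtain ⟨φ, ε, v, -, h1, h⟩ := vtx_equiv hΛ hv r
  have k : ∀ {X : Cfg Pt → ℝ}, DepG (U.map (Equiv.addRight z).toEmbedding) X →
      Ex (wN Λ (U.map (Equiv.addRight z).toEmbedding) σ) X =
        Ex (wN Λ U (Vd.ray 0)) fun s => X (φ s) := fun hX => by
    rw [ex_wN (r := r + z) (mem_map_of_mem _ hr) hX, ex_wN hr (depG_equiv h1 hX), ← Md.ex_equiv φ,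
      funext h]
  obtain ⟨a, hl, M⟩ := M
  refine ⟨fun F => a fun s => F (φ s), fun F G x y B bF bG => hl _ _ x y B (fun _ => bF _) fun _ => bG _,
    fun F B dF bF => ⟨(M _ B (depG_equiv h1 dF) fun _ => bF _).1, fun G dG bG => ?_⟩⟩
  have dF' := dF.mono (map_subset_map.2 hI)
  have dG' := dG.mono (map_subset_map.2 hO)
  rw [Cv, k (dF'.mul dG'), k dF', k dG']
  exact (M _ B (depG_equiv h1 dF) fun _ => bF _).2 _ (depG_equiv h1 dG) fun _ => bG _

/-- near a core the seam of the pair is a unit vortex -/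
theorem vtx_Vp (hJ : Λ.J = nn) (V : Vx.Vp) {R : ℕ} (h : R < V.r) : Vtx Λ V.p (bl V.p R) V.σ := by
  obtain ⟨a, r, _ | _⟩ := V
  · refine ⟨-1, cst ((bl ((a + r, 0) : Pt) R).filter fun x => 0 ≤ x.2) 1, .inr rfl, fun e he => ?_⟩
    obtain ⟨h0, h1, h2⟩ := Lat.mem_edI.1 he
    simp only [Vx.Vp.p, Bool.false_eq_true, if_false] at h1 h2
    simp only [Vx.Vp.σ, Vx.sm, Vx.Vp.p, Bool.false_eq_true, if_false, dE, cst_apply, mem_filter, h1, h2, true_and]
    have h3 := mem_bl.1 h1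
    simp only [Lat.Jp, hJ, nn, mem_filter, mem_insert, mem_singleton, posD, Prod.ext_iff, Prod.fst_sub,
      Prod.snd_sub] at h0
    simp only [Vd.ray] at *
    split_ifs <;> omega
  · refine ⟨1, 0, .inl rfl, fun e he => ?_⟩
    have h3 := mem_bl.1 (Lat.mem_edI.1 he).2.1
    simp only [Vx.Vp.p, if_true] at h3
    simp only [Vx.Vp.σ, Vx.sm, Vx.Vp.p, if_true, dE, Finsupp.coe_zero, Pi.zero_apply, Vd.ray] at *
    split_ifs <;> omega

/-- the dual bound controls the `L¹` norm of the conditional expectation -/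
theorem l1_of_dual {b : ℝ} (hΛ : (xyL b).Ok) {c r R R₂ : ℕ} (h1 : c ≤ R) (h2 : r ≤ R) (h3 : R < R₂)
    {F : Cfg Pt → ℝ} {M B : ℝ} (dF : DepG (an z c r) F) (bF : ∀ s, |F s| ≤ M)
    (h : ∀ φ : Cfg Pt → ℝ, DepG (an z R R₂) φ → (∀ s, |φ s| ≤ 1) →
      |Cv (wN (xyL b) (an z c R₂) σ) F φ| ≤ B) :
    Ex (wN (xyL b) (an z c R₂) σ)
      (fun s => |Vx.trA b σ z c R F s - Ex (wN (xyL b) (an z c R₂) σ) F|) ≤ B := by
  obtain ⟨x, hx⟩ := an_nonempty z h3
  have sO : an z R R₂ ⊆ an z c R₂ := an_mono z h1 le_rfl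
  have cn := cnL_an hΛ z (h1.trans_lt h3)
  have wt := wt_wN hΛ cn ⟨x, sO hx⟩ σ
  let m₁ := tw ((xyL b).N (an z c (R + 1))) σ
  let m₂ := tw ((xyL b).Nr (an z c R₂) x) σ
  have n1 := tw_ne (hΛ.ctr_N (an z c (R + 1))).1 σ
  have n2 := tw_ne (hΛ.ctr_Nr (an z c R₂) x).1 σ
  have e1 : Vx.trA b σ z c R F = m₁.cE (an z c R) F := rfl
  have e2 : m₁.cE (an z c R) = m₂.cE (an z c R) := by
    refine Mdl.cE_congr_mdl n1 n2 (ext fun e => ?_) (fun _ _ => rfl) fun _ _ => rfl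
    rw [Mdl.mem_edM, Mdl.mem_edM]
    refine and_congr_left fun he => ?_
    change e ∈ (xyL b).edI _ ↔ e ∈ (xyL b).edI _
    refine ⟨fun k => Lat.edI_mono (an_mono z le_rfl h3) k, fun k => ?_⟩
    obtain ⟨k0, k1, k2⟩ := Lat.mem_edI.1 k
    have := near_bl (z := z) (r := R) k0 (he.imp (fun k => an_subset_bl _ _ _ k) fun k => an_subset_bl _ _ _ k)
    rw [xyL_rg] at this
    exact Lat.mem_edI.2 ⟨k0, mem_an.2 ⟨this.1, (mem_an.1 k1).2⟩, mem_an.2 ⟨this.2, (mem_an.1 k2).2⟩⟩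
  have dT : DepG (an z R R₂) (m₁.cE (an z c R) F) := by
    refine (Mdl.cE_depG n1 (fun _ _ _ _ => rfl) dF).mono (union_subset ?_ fun y hy => ?_)
    · refine (bd_subset (B' := an z c (R + 1)) fun e he _ => (Lat.mem_edI.1 he).2).trans ?_
      rw [an_sdiff_an' z _ h1]; exact an_mono z le_rfl h3
    · exact absurd (an_mono z le_rfl h2 (mem_sdiff.1 hy).1) (mem_sdiff.1 hy).2
  have bT : ∀ s, |m₁.cE (an z c R) F s| ≤ M := fun s => Mdl.abs_cE_le_of_bdd
    (Mdl.W_nonneg (m := m₁.free (an z c R)) (fun e he k => (tw_pos (hΛ.ctr_N _).1 σ e he k).le)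
      (fun _ _ _ => zero_le_one) s) bF
  rw [e1]
  set T := m₁.cE (an z c R) F
  set μ := Ex (wN (xyL b) (an z c R₂) σ) F with hμ
  let φ : Cfg Pt → ℝ := fun s => if 0 ≤ T s - μ then 1 else -1
  have dφ : DepG (an z R R₂) φ := dT.comp fun t => if 0 ≤ t - μ then (1 : ℝ) else -1
  have bφ : ∀ s, |φ s| ≤ 1 := fun s => by simp only [φ]; split_ifs <;> simp
  have am : ∀ {u : Cfg Pt → ℝ}, (∀ s, |u s| ≤ M) → ∀ s, |φ s * u s| ≤ M := fun hu s => by
    rw [abs_mul]; exact (mul_le_of_le_one_left (abs_nonneg _) (bφ s)).trans (hu s)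
  have w2 : Wt (m₂.W 0) := Md.ctr_wts (hΛ.ctr_Nr _ x) (Lat.anch_Nr fun y hy => cn y hy x (sO hx)) 0 σ
  have tow := (Mdl.tower_cE_mul (m := m₂) (B := an z c R) (F := F) (fun y hy => mem_erase.2
    ⟨fun k => (mem_an.1 hx).2 (k ▸ an_subset_bl _ _ _ hy), an_mono z le_rfl h3.le hy⟩)
    (dφ.dep.out (disjoint_left.2 fun y k1 k2 => (mem_an.1 k1).2 (an_subset_bl _ _ _ k2))) w2
    (w2.ig_bdd (am bF))).2
  have dF' := dF.mono (an_mono z le_rfl (h2.trans h3.le))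
  rw [← e2, tw_W, ← ex_wN (sO hx) ((dφ.mono sO).mul dF'), ← ex_wN (sO hx) ((dφ.mono sO).mul (dT.mono sO))] at tow
  refine le_trans (le_of_eq ?_) ((le_abs_self _).trans (h φ dφ bφ))
  rw [Cv, Ex_congr (G := fun s => φ s * F s) fun s _ => mul_comm _ _, tow, ← hμ, ← Ex_const_mul,
    ← Ex_sub (wt.ig_bdd (am bT)) ((wt.ig_bdd bφ).const_mul _)]
  refine Ex_congr fun s _ => ?_
  simp only [φ]
  split_ifs with k
  · rw [abs_of_nonneg k]; ring
  · rw [abs_of_neg (not_le.1 k)]; ring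

theorem num {W D a t b : ℝ} (hW : 1 ≤ W) (hD : 1 ≤ D) (ha : -2 ≤ a) (h : D ^ 2 ≤ W ^ t) (hb : a + t ≤ b) :
    (W / D) ^ a ≤ W ^ b := by
  have W0 : 0 < W := by linarith
  have D0 : 0 < D := by linarith
  have h1 : D ^ (-2 : ℝ) ≤ D ^ a := rpow_le_rpow_of_exponent_le hD ha
  rw [rpow_neg D0.le, rpow_two] at h1
  rw [div_rpow W0.le D0.le, div_le_iff₀ (rpow_pos_of_pos D0 _)]
  refine le_trans ?_ (mul_le_mul (rpow_le_rpow_of_exponent_le hW hb) h1 (by positivity) (by positivity))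
  rw [rpow_add W0, mul_assoc]
  exact le_mul_of_one_le_right (by positivity) (by rwa [← div_eq_mul_inv, one_le_div (by positivity)])

end Crest.Agent.T145.Ks68

namespace Crest.Agent.T145.Vx

open Finset Nc Nc.Geo Filter Real Ks68 Topology

theorem kvStmt (h : VecStmt) (hm : T1mStmt) : KvStmt := by
  intro b hb W₀ κ hW₀ hκ
  have ok := hb.1
  have p0 := pi_pos
  have t0 : 0 < (xyL b).tI := ok.gI_pos_iff.1 (by rw [hb.2.1]; positivity)
  set ε := min (κ / 4) (1 / 4) with hε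
  have ε0 : 0 < ε := by positivity
  have ε1 : ε ≤ κ / 4 := min_le_left _ _
  obtain ⟨W₁, h⟩ := h ((xyL b).fa ok) _ ε rfl (half_pos t0) ε0 (min_le_right _ _)
  have w0 : (2 : ℝ) ≤ W₀ := by exact_mod_cast hW₀
  set D : ℝ := 2 * (W₀ : ℝ) ^ 2 with hD
  have D1 : 1 ≤ D := by nlinarith
  have t1 : Tendsto (fun W : ℕ => (W : ℝ) / D) atTop atTop :=
    tendsto_natCast_atTop_atTop.atTop_div_const (by linarith)
  obtain ⟨W₂, hW₂⟩ := eventually_atTop.1 ((t1.eventually_ge_atTop W₁).and ((t1.eventually_ge_atTop 1024).and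
    ((t1.eventually_ge_atTop (2 * W₀)).and (((tendsto_rpow_atTop (y := κ / 4) (by positivity)).comp
      tendsto_natCast_atTop_atTop).eventually_ge_atTop (D ^ 2)))))
  refine ⟨W₂, fun W hW => ?_⟩
  obtain ⟨w1, w2, w3, w4⟩ := hW₂ W hW
  have w5 : 1024 * D ≤ W := (le_div_iff₀ (by linarith)).1 w2
  obtain ⟨δ, δ0, h⟩ := h _ w1 (2 * W₀) (by linarith)
  obtain ⟨l1, -, -, -, -, l2⟩ := hm.1 _ ok
  have l3 : Tendsto (fun l => π * (xyL b).gN l) atTop (𝓝 2) := by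
    have := (l1.div_const (xyL b).e0).const_mul π
    rwa [show π * ((xyL b).tI / (xyL b).e0) = 2 by
      change π * (xyL b).gI = 2
      rw [hb.2.1]; field_simp] at this
  obtain ⟨l, hl, hg⟩ := ((l2 t0 δ δ0).and (l3.eventually (le_mem_nhds (show 2 - ε < 2 by linarith)))).exists
  obtain ⟨j₀, hj⟩ := eventually_atTop.1 hl
  refine ⟨max 64 (2 ^ j₀), fun V ρ hρ hV => ?_⟩
  have ρ1 : 64 ≤ ρ := (le_max_left _ _).trans hρ
  have ρ2 : (64 : ℝ) ≤ ρ := by exact_mod_cast ρ1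
  have w6 : W₀ * W₀ * 2 ≤ W := by
    have : (W₀ * W₀ * 2 : ℝ) ≤ W := by nlinarith
    exact_mod_cast this
  have a1 : W₀ * ρ * 2 ≤ W₀ * (W₀ * ρ) := by nlinarith [Nat.mul_le_mul_left (W₀ * ρ) hW₀]
  have a2 : W₀ * (W₀ * ρ) * 2 ≤ W * ρ := by nlinarith [Nat.mul_le_mul_right ρ w6]
  have a3 : W * ρ * 2 ≤ W₀ * (W * ρ) := by nlinarith [Nat.mul_le_mul_left (W * ρ) hW₀]
  have a4 : ρ * 2 ≤ W₀ * ρ := by nlinarith [Nat.mul_le_mul_left ρ hW₀]
  let G : Kr.Gm := ⟨W₀ * ρ, W₀ * (W₀ * ρ) + 1, W * ρ, W₀ * (W * ρ)⟩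
  have b1 := Nat.lt_pow_succ_log_self one_lt_two G.R₂
  have b2 := Nat.pow_log_le_self 2 (x := G.R₂) (by simp only [G]; omega)
  have b3 : j₀ ≤ Nat.log 2 G.R₂ + 1 := by
    refine (Nat.pow_le_pow_iff_right one_lt_two).1 (le_trans ?_ b1.le)
    exact ((le_max_right _ _).trans hρ).trans (by simp only [G]; omega)
  have D0 : 0 < D := by linarith
  have c0 : (1 : ℝ) ≤ W₀ * (W₀ * ρ) := by nlinarith [mul_le_mul w0 ρ2 (by norm_num) (by linarith)]
  have W0 : (0 : ℝ) ≤ W := Nat.cast_nonneg _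
  have hG : G.Ok (W / D) := ⟨w2, by simp only [G]; omega, by simp only [G]; omega, by
      simp only [G]; push_cast
      rw [div_mul_eq_mul_div, div_le_iff₀ D0, hD]
      nlinarith [mul_le_mul_of_nonneg_left c0 W0], by
      simp only [G]; push_cast
      rw [mul_div_assoc', div_mul_eq_mul_div, le_div_iff₀ D0, hD]
      nlinarith, by simp only [G]; omega⟩
  have k := h _ (Lat.mem_fa ok) l _ (hj _ b3) hg G hG ⟨by simp only [G] at b1 ⊢; omega, by
      have : 2 ^ (Nat.log 2 G.R₂ + 1) ≤ 2 * W₀ * (W * ρ) := by rw [pow_succ]; simp only [G] at b2 ⊢; linarith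
      simp only [G] at this ⊢
      exact_mod_cast this⟩ b1.le (by
      simp only [G]; push_cast
      nlinarith [mul_le_mul_of_nonneg_right w3 (by positivity : (0 : ℝ) ≤ W₀ * ρ)]) (by
      simp only [G]; push_cast
      exact mul_le_mul_of_nonneg_right (by linarith) (by positivity))
  have k2 := (vec_vtx (z := V.p) (σ := V.σ) ok (by
      rw [map_an0]
      exact (vtx_Vp rfl V (R := G.R₂) (by simp only [G]; omega)).mono (an_subset_bl _ _ _))
    (an_nonempty 0 (by simp only [G]; omega)) (an_mono 0 le_rfl (by simp only [G]; omega))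
    (an_mono 0 (by simp only [G]; omega) le_rfl) k).mono
    (num (b := κ - 1) (by linarith) D1 (by linarith) w4 (by linarith))
    (num (b := κ - 2) (by linarith) D1 (by linarith) w4 (by linarith))
  simp only [map_an0] at k2
  obtain ⟨a, al, k2⟩ := k2
  exact ⟨a, al, fun F M dF bF => ⟨(k2 F M dF bF).1,
    l1_of_dual ok (by omega) (by omega) (by omega) dF bF (k2 F M dF bF).2⟩⟩

end Crest.Agent.T145.Vx
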