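import Crest.Agent.T145.KrO_85

/-!
# Row 145: the slit vortex, the loop bound, removal of the inner twist (helper85)
-/

set_option autoImplicit false

namespace Crest.Agent.T145.Pot.V85

open Finset H59 Kw56 K85

/-! ## the vortex function -/

/-- clamp to `[0, 1]` -/
noncomputable def cl (t : ℝ) : ℝ := max 0 (min 1 t)

theorem cl_mem (t : ℝ) : 0 ≤ cl t ∧ cl t ≤ 1 := ⟨le_max_left _ _, max_le zero_le_one (min_le_left _ _)⟩
theorem cl_one {t : ℝ} (h : 1 ≤ t) : cl t = 1 := by rw [cl, min_eq_left h, max_eq_right zero_le_one]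
theorem cl_zero {t : ℝ} (h : t ≤ 0) : cl t = 0 := max_eq_left ((min_le_right _ _).trans h)
theorem cl_lip (s t : ℝ) : |cl s - cl t| ≤ |s - t| := by
  refine (abs_max_sub_max_le_max _ _ _ _).trans (max_le (by simp) ?_)
  exact (abs_min_sub_min_le_max _ _ _ _).trans (max_le (by simp) le_rfl)

/-- the bound for the increments of a wedge function -/
noncomputable def wb (n t : ℝ) : ℝ := if |t| ≤ n + 1 then 1 / n ^ 2 else 0

theorem wb_nonneg (n t : ℝ) : 0 ≤ wb n t := by unfold wb; split_ifs <;> positivity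

theorem wedge {n n' t t' : ℝ} (hn : 1 ≤ n) (h : (n' = n ∧ |t' - t| ≤ 1) ∨ (n' = n + 1 ∧ t' = t)) :
    (cl (t' / n') - cl (t / n)) ^ 2 ≤ wb n t := by
  have n0 : 0 < n := by linarith
  have n1 : 0 < n' ∧ n' ≤ n + 1 := by rcases h with h | h <;> rw [h.1] <;> constructor <;> linarith
  have h1 : |t' - t| ≤ 1 := by rcases h with h | h <;> simp [h.2]
  have h2 := abs_le.1 h1
  unfold wb
  split_ifs with h3
  · rw [← sq_abs, ← one_div_pow]
    refine pow_le_pow_left₀ (abs_nonneg _) ((cl_lip _ _).trans ?_) 2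
    rcases h with ⟨rfl, -⟩ | ⟨rfl, rfl⟩
    · rw [← sub_div, abs_div, abs_of_pos n0]; gcongr
    · rw [show t' / (n + 1) - t' / n = -t' / (n + 1) / n by field_simp; ring, abs_div, abs_div, abs_neg,
        abs_of_pos n0, abs_of_pos n1.1]
      gcongr
      rwa [div_le_one n1.1]
  · rw [not_le, lt_abs] at h3
    rcases h3 with h3 | h3
    · rw [cl_one (t := t / n) ((one_le_div n0).2 (by linarith)), cl_one ((one_le_div n1.1).2 ?_)]
      · simp
      · rcases h with ⟨rfl, -⟩ | ⟨rfl, rfl⟩ <;> linarith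
    · rw [cl_zero (div_nonpos_of_nonpos_of_nonneg (by linarith) n0.le),
        cl_zero (div_nonpos_of_nonpos_of_nonneg (by linarith) n1.1.le)]
      simp

theorem sum_wb {n : ℕ} (hn : 1 ≤ n) (S : Finset ℤ) (c : ℤ) {t : ℤ → ℝ} (ht : ∀ i, |t i| = |(i : ℝ) - c|) :
    ∑ i ∈ S, wb n (t i) ≤ 5 / n := by
  have n0 : (1 : ℝ) ≤ n := by exact_mod_cast hn
  simp only [wb, ← sum_filter, sum_const, nsmul_eq_mul]
  have h : (S.filter fun i => |t i| ≤ n + 1) ⊆ Icc (c - (n + 1)) (c + (n + 1)) := fun i hi => by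
    have := (mem_filter.1 hi).2
    rw [ht, abs_le] at this
    rw [mem_Icc]
    constructor
    · exact_mod_cast (by linarith : (c : ℝ) - (n + 1) ≤ i)
    · exact_mod_cast (by linarith : (i : ℝ) ≤ c + (n + 1))
  have h1 := card_le_card h
  rw [Int.card_Icc] at h1
  have h2 : ((S.filter fun i => |t i| ≤ n + 1).card : ℝ) ≤ 5 * n := by
    exact_mod_cast h1.trans (by omega)
  calc _ ≤ 5 * n * (1 / (n : ℝ) ^ 2) := by gcongr
    _ = _ := by field_simp

theorem sum_inv_le {w : ℕ} (hw : 1 ≤ w) (h : ℕ) :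
    ∑ m ∈ range h, 1 / ((w + m : ℕ) : ℝ) ≤ 1 + Real.log (1 + h / w) := by
  have w0 : (1 : ℝ) ≤ w := by exact_mod_cast hw
  have key : ∀ h : ℕ, ∑ m ∈ range (h + 1), 1 / ((w + m : ℕ) : ℝ) ≤ 1 + Real.log (w + h) - Real.log w := by
    intro h
    induction h with
    | zero => simpa using inv_le_one_of_one_le₀ w0
    | succ h ih =>
      have h0 : (0 : ℝ) < w + h := by positivity
      have h1 := Real.log_le_sub_one_of_pos (x := (w + h) / (w + h + 1)) (by positivity)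
      rw [Real.log_div h0.ne' (by positivity), show ((w : ℝ) + h) / (w + h + 1) - 1 = -(1 / (w + h + 1)) by
        field_simp; ring] at h1
      rw [sum_range_succ]
      push_cast at *
      rw [← add_assoc]
      linarith
  refine (sum_le_sum_of_subset_of_nonneg (range_mono h.le_succ) fun _ _ _ => by positivity).trans
    ((key h).trans_eq ?_)
  rw [add_sub_assoc, ← Real.log_div (by positivity) (by positivity), add_div, div_self (by positivity)]

/-- the vortex function: `1` on `[q, b - w] × {0}`, supported in `(0, b) × [0, h)` -/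
noncomputable def vf (q w b h : ℕ) (x : Pt) : ℝ :=
  if 0 ≤ x.2 then cl ((b - x.1) / (w + x.2)) * cl (x.1 / (q + x.2)) * cl (1 - x.2 / h) else 0

variable {q w b h : ℕ}

theorem vf_mem (x : Pt) : 0 ≤ vf q w b h x ∧ vf q w b h x ≤ 1 := by
  unfold vf
  split_ifs
  · exact ⟨mul_nonneg (mul_nonneg (cl_mem _).1 (cl_mem _).1) (cl_mem _).1,
      mul_le_one₀ (mul_le_one₀ (cl_mem _).2 (cl_mem _).1 (cl_mem _).2) (cl_mem _).1 (cl_mem _).2⟩
  · exact ⟨le_rfl, zero_le_one⟩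

theorem vf_ne (hh : 1 ≤ h) {x : Pt} (hx : vf q w b h x ≠ 0) : 0 < x.1 ∧ x.1 < b ∧ 0 ≤ x.2 ∧ x.2 < h := by
  have h0 : 0 ≤ x.2 := by_contra fun h0 => hx (if_neg h0)
  have h1 : (0 : ℝ) ≤ x.2 := by exact_mod_cast h0
  have h2 : (0 : ℝ) < h := by exact_mod_cast hh
  rw [vf, if_pos h0] at hx
  refine ⟨?_, ?_, h0, ?_⟩ <;> by_contra h3 <;> rw [not_lt] at h3 <;> apply hx
  · rw [cl_zero (t := x.1 / _) (div_nonpos_of_nonpos_of_nonneg (by exact_mod_cast h3) (by positivity)),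
      mul_zero, zero_mul]
  · rw [cl_zero (div_nonpos_of_nonpos_of_nonneg (sub_nonpos.2 (by exact_mod_cast h3)) (by positivity)),
      zero_mul, zero_mul]
  · rw [cl_zero (t := 1 - _) (sub_nonpos.2 ((one_le_div h2).2 (by exact_mod_cast h3))), mul_zero]

theorem vf_one (hq : 1 ≤ q) (hw : 1 ≤ w) {x : Pt} (h0 : x.2 = 0) (h1 : (q : ℤ) ≤ x.1) (h2 : x.1 + w ≤ b) :
    vf q w b h x = 1 := by
  have a1 : (q : ℝ) ≤ x.1 := by exact_mod_cast h1
  have a2 : (x.1 : ℝ) + w ≤ b := by exact_mod_cast h2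
  have a3 : (1 : ℝ) ≤ q := by exact_mod_cast hq
  have a4 : (1 : ℝ) ≤ w := by exact_mod_cast hw
  rw [vf, if_pos h0.ge, h0, Int.cast_zero, add_zero, add_zero, zero_div, sub_zero, cl_one le_rfl,
    cl_one ((one_le_div (by linarith)).2 (by linarith)), cl_one ((one_le_div (by linarith)).2 a1)]
  simp

theorem sum_edge {E : Finset (Pt × Pt)} (hE : ∀ e ∈ E, e.2 - e.1 ∈ nL.Jp) {T : Finset Pt}
    {F : Pt × Pt → ℝ} {g : Pt → ℝ} (h0 : ∀ x, 0 ≤ g x) (hT : ∀ e ∈ E, F e ≠ 0 → e.1 ∈ T ∧ F e ≤ g e.1) :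
    ∑ e ∈ E, F e ≤ 2 * ∑ x ∈ T, g x := by
  rw [← sum_filter_of_ne (p := fun e => F e ≠ 0) fun _ _ h => h]
  calc _ ≤ ∑ e ∈ E.filter (fun e => F e ≠ 0), g e.1 :=
        sum_le_sum fun e he => (hT e (mem_filter.1 he).1 (mem_filter.1 he).2).2
    _ ≤ ∑ p ∈ nL.Jp ×ˢ T, g p.2 := by
        have hinj : Set.InjOn (fun e : Pt × Pt => (e.2 - e.1, e.1)) (E.filter fun e => F e ≠ 0) :=
          fun e _ e' _ h => by
            have h4 := congrArg Prod.snd h
            have h5 := congrArg Prod.fst h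
            simp only at h4 h5
            exact Prod.ext h4 (by rw [h4] at h5; exact sub_left_injective h5)
        refine le_trans (le_of_eq (sum_image (g := fun e : Pt × Pt => (e.2 - e.1, e.1))
          (f := fun p : Pt × Pt => g p.2) hinj).symm)
          (sum_le_sum_of_subset_of_nonneg (fun p hp => ?_) fun _ _ _ => h0 _)
        obtain ⟨e, he, rfl⟩ := mem_image.1 hp
        rw [mem_filter] at he
        exact mem_product.2 ⟨hE e he.1, (hT e he.1 he.2).1⟩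
    _ = _ := by rw [sum_product, nL_Jp, sum_pair (by decide), two_mul]

theorem edge_cases {e : Pt × Pt} (he : e.2 - e.1 ∈ nL.Jp) :
    (e.2.1 = e.1.1 + 1 ∧ e.2.2 = e.1.2) ∨ (e.2.1 = e.1.1 ∧ e.2.2 = e.1.2 + 1) := by
  simp only [nL_Jp, mem_insert, mem_singleton, Prod.ext_iff, Prod.fst_sub, Prod.snd_sub] at he
  omega

theorem mul3 {a a' b b' c c' : ℝ} (ha : 0 ≤ a ∧ a ≤ 1) (hb : 0 ≤ b ∧ b ≤ 1) (hb' : 0 ≤ b' ∧ b' ≤ 1)
    (hc' : 0 ≤ c' ∧ c' ≤ 1) :
    (a' * b' * c' - a * b * c) ^ 2 ≤ 3 * ((a' - a) ^ 2 + (b' - b) ^ 2 + (c' - c) ^ 2) := by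
  have k : ∀ {s t : ℝ}, (0 ≤ s ∧ s ≤ 1) → (0 ≤ t ∧ t ≤ 1) → ∀ d : ℝ, (d * (s * t)) ^ 2 ≤ d ^ 2 :=
    fun hs ht d => by
      rw [mul_pow]
      exact mul_le_of_le_one_right (sq_nonneg _)
        (pow_le_one₀ (mul_nonneg hs.1 ht.1) (mul_le_one₀ hs.2 ht.1 ht.2))
  have h1 := k hb' hc' (a' - a)
  have h2 := k ha hc' (b' - b)
  have h3 := k ha hb (c' - c)
  rw [show a' * b' * c' - a * b * c = (a' - a) * (b' * c') + (b' - b) * (a * c') + (c' - c) * (a * b) by ring]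
  nlinarith [sq_nonneg ((a' - a) * (b' * c') - (b' - b) * (a * c')),
    sq_nonneg ((a' - a) * (b' * c') - (c' - c) * (a * b)), sq_nonneg ((b' - b) * (a * c') - (c' - c) * (a * b))]

/-- the energy of the vortex -/
noncomputable def ve (q w b h : ℕ) : ℝ :=
  60 + 30 * Real.log (1 + h / w) + 30 * Real.log (1 + h / q) + 6 * (b + 1) / h

/-- energy of the vortex function, `σ` = its jump across the axis -/
theorem vf_en (hq : 1 ≤ q) (hw : 1 ≤ w) (hh : 1 ≤ h) {E : Finset (Pt × Pt)}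
    (hE : ∀ e ∈ E, e.2 - e.1 ∈ nL.Jp) {σ : Pt × Pt → ℝ}
    (hσ : ∀ e ∈ E, σ e = if e.1.2 = -1 ∧ e.2.2 = 0 then vf q w b h e.2 else 0) :
    ∑ e ∈ E, (vf q w b h e.2 - vf q w b h e.1 - σ e) ^ 2 ≤ ve q w b h := by
  have h0 : (1 : ℝ) ≤ h := by exact_mod_cast hh
  have q0 : (1 : ℝ) ≤ q := by exact_mod_cast hq
  have w0 : (1 : ℝ) ≤ w := by exact_mod_cast hw
  refine (sum_edge hE (T := Icc (0 : ℤ) b ×ˢ Ico (0 : ℤ) h)
    (g := fun x => 3 * (wb (w + x.2) (b - x.1) + wb (q + x.2) x.1 + 1 / (h : ℝ) ^ 2))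
    (fun x => by have := wb_nonneg (w + x.2) (b - x.1); have := wb_nonneg (q + x.2) x.1; positivity)
    fun e he hne => ?_).trans ?_
  · have hc := edge_cases (hE e he)
    have h1 : ¬(e.1.2 = -1 ∧ e.2.2 = 0) := fun h1 => hne (by
      rw [hσ e he, if_pos h1, vf.eq_1 q w b h e.1, if_neg (by omega)]; simp)
    rw [hσ e he, if_neg h1, sub_zero] at hne ⊢
    have h2 : 0 ≤ e.1.1 ∧ e.1.1 ≤ b ∧ 0 ≤ e.1.2 ∧ e.1.2 < h := by
      by_cases h3 : vf q w b h e.1 = 0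
      · have := vf_ne hh (x := e.2) fun h4 => hne (by rw [h3, h4]; simp)
        omega
      · have := vf_ne hh h3; omega
    refine ⟨by simp only [mem_product, mem_Icc, mem_Ico]; omega, ?_⟩
    have h3 : (0 : ℝ) ≤ e.1.2 := by exact_mod_cast h2.2.2.1
    rw [vf, vf, if_pos h2.2.2.1, if_pos (by omega)]
    refine (mul3 (cl_mem _) (cl_mem _) (cl_mem _) (cl_mem _)).trans ?_
    have h4 : (cl (1 - e.2.2 / h) - cl (1 - e.1.2 / h)) ^ 2 ≤ 1 / (h : ℝ) ^ 2 := by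
      rw [← sq_abs, ← one_div_pow]
      refine pow_le_pow_left₀ (abs_nonneg _) ((cl_lip _ _).trans ?_) 2
      rw [sub_sub_sub_cancel_left, ← sub_div, abs_div, abs_of_pos (by linarith : (0 : ℝ) < h)]
      gcongr
      rcases hc with hc | hc <;> rw [hc.2] <;> simp
    have h5 := wedge (n := w + e.1.2) (n' := w + e.2.2) (t := b - e.1.1) (t' := b - e.2.1) (by linarith)
      (hc.imp (fun hc => by rw [hc.1, hc.2]; simp) fun hc => by rw [hc.1, hc.2]; simp [add_assoc])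
    have h6 := wedge (n := q + e.1.2) (n' := q + e.2.2) (t := e.1.1) (t' := e.2.1) (by linarith)
      (hc.imp (fun hc => by rw [hc.1, hc.2]; simp) fun hc => by rw [hc.1, hc.2]; simp [add_assoc])
    linarith
  · have k : ∀ m ∈ range h, ∑ i ∈ Icc (0 : ℤ) b,
        3 * (wb (w + (m : ℤ)) (b - i) + wb (q + (m : ℤ)) i + 1 / (h : ℝ) ^ 2) ≤
        15 * (1 / ((w + m : ℕ) : ℝ)) + 15 * (1 / ((q + m : ℕ) : ℝ)) + 3 * (b + 1) / (h : ℝ) ^ 2 :=
      fun m _ => by
        have h1 := sum_wb (n := w + m) (by omega) (Icc (0 : ℤ) b) b (t := fun i => (b : ℝ) - i)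
          fun i => by rw [abs_sub_comm]; simp
        have h2 := sum_wb (n := q + m) (by omega) (Icc (0 : ℤ) b) 0 (t := fun i => (i : ℝ)) fun i => by simp
        rw [← mul_sum, sum_add_distrib, sum_add_distrib, sum_const, Int.card_Icc, nsmul_eq_mul,
          show ((b : ℤ) + 1 - 0).toNat = b + 1 by omega]
        push_cast at *
        simp only [div_eq_mul_inv] at *
        linarith
    rw [sum_product_right, show Ico (0 : ℤ) h = (range h).map Nat.castEmbedding by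
      ext i; simp only [mem_Ico, mem_map, mem_range, Nat.castEmbedding_apply]
      exact ⟨fun hi => ⟨i.toNat, by omega, by omega⟩, by rintro ⟨m, hm, rfl⟩; omega⟩, sum_map]
    refine (mul_le_mul_of_nonneg_left (sum_le_sum k) zero_le_two).trans ?_
    rw [sum_add_distrib, sum_add_distrib, ← mul_sum, ← mul_sum, sum_const, card_range, nsmul_eq_mul,
      show (h : ℝ) * (3 * (b + 1) / h ^ 2) = 3 * (b + 1) / h by field_simp, ve]
    have := sum_inv_le hw h
    have := sum_inv_le hq h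
    simp only [mul_div_assoc]
    linarith

/-! ## the loop bound -/

theorem loop {p q : ℕ} (hpq : p < q) (u : Pt → ℝ) (k : ℝ) {σ : Pt × Pt → ℝ}
    (hσ : ∀ e ∈ nL.edI (an 0 p q), σ e = if e.1.2 = -1 ∧ e.2.2 = 0 ∧ 0 < e.1.1 then 1 else 0) :
    (((q : ℝ) - p) * k) ^ 2 ≤
      128 * (2 * q + 1 : ℝ) ^ 2 * ∑ e ∈ nL.edI (an 0 p q), (u e.2 - u e.1 + σ e * k) ^ 2 := by
  obtain ⟨w, rfl⟩ := Nat.exists_eq_add_of_le hpq.le
  set n := 2 * (p + w) + 1 with hn
  set S := an 0 p (p + w) with hS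
  set T := rc (-(p + w : ℕ), p + 1) n w with hT
  set B := rc (-(p + w : ℕ), -(p + w : ℕ)) n w with hB
  set L := rc (-(p + w : ℕ), -(p + w : ℕ)) w n with hL
  set R := rc (p + 1, -(p + w : ℕ)) w n with hR
  set U : Pt → ℝ := fun x => u x + if 0 ≤ x.2 then k else 0 with hU
  set En := ∑ e ∈ nL.edI S, (u e.2 - u e.1 + σ e * k) ^ 2 with hEn
  have hE : 0 ≤ En := sum_nonneg fun _ _ => sq_nonneg _
  have hn' : (n : ℝ) = 2 * (p + w : ℕ) + 1 := by rw [hn]; push_cast; ring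
  have hwn : (w : ℝ) ≤ n := by exact_mod_cast (by omega : w ≤ n)
  rw [← hn']
  set P := 2 * (n : ℝ) ^ 2 * En with hP
  have key : ∀ (v : Pt → ℝ) (a : Pt) (n₁ n₂ : ℕ), (n₁ : ℝ) ≤ n → (n₂ : ℝ) ≤ n → rc a n₁ n₂ ⊆ S →
      (∀ e ∈ nL.edI (rc a n₁ n₂), v e.2 - v e.1 = u e.2 - u e.1 +
        (if e.1.2 = -1 ∧ e.2.2 = 0 ∧ 0 < e.1.1 then 1 else 0) * k) →
      ∑ x ∈ rc a n₁ n₂, (v x - av (rc a n₁ n₂) v) ^ 2 ≤ P := fun v a n₁ n₂ h1 h2 h3 h4 =>
    (poin_rc a n₁ n₂ v).trans (mul_le_mul (by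
      have := pow_le_pow_left₀ n₁.cast_nonneg h1 2
      have := pow_le_pow_left₀ n₂.cast_nonneg h2 2
      linarith) (by
        rw [eN, edF_self, sum_congr rfl fun e he => by rw [h4 e he, ← hσ e (Lat.edI_mono h3 he)]]
        exact sum_le_sum_of_subset_of_nonneg (Lat.edI_mono h3) fun _ _ _ => sq_nonneg _)
      (Po44.eN_nonneg _ _ _) (by positivity))
  have kT := key u _ _ _ le_rfl hwn (show T ⊆ S from fun x hx => by
    rw [hT, mem_rc] at hx; rw [hS, an, mem_sdiff, mem_bl, mem_bl]; push_cast at *; simp; omega)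
    fun e he => by
      rw [Lat.mem_edI, mem_rc, mem_rc] at he; rw [if_neg (by push_cast at *; omega)]; simp
  have kB := key u _ _ _ le_rfl hwn (show B ⊆ S from fun x hx => by
    rw [hB, mem_rc] at hx; rw [hS, an, mem_sdiff, mem_bl, mem_bl]; push_cast at *; simp; omega)
    fun e he => by
      rw [Lat.mem_edI, mem_rc, mem_rc] at he; rw [if_neg (by push_cast at *; omega)]; simp
  have kL := key u _ _ _ hwn le_rfl (show L ⊆ S from fun x hx => by
    rw [hL, mem_rc] at hx; rw [hS, an, mem_sdiff, mem_bl, mem_bl]; push_cast at *; simp; omega)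
    fun e he => by
      rw [Lat.mem_edI, mem_rc, mem_rc] at he; rw [if_neg (by push_cast at *; omega)]; simp
  have kR := key U _ _ _ hwn le_rfl (show R ⊆ S from fun x hx => by
    rw [hR, mem_rc] at hx; rw [hS, an, mem_sdiff, mem_bl, mem_bl]; push_cast at *; simp; omega)
    fun e he => by
      rw [Lat.mem_edI, mem_rc, mem_rc] at he
      have hc := edge_cases he.1
      simp only [hU]
      split_ifs <;> first | ring1 | (exfalso; push_cast at *; omega)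
  rw [← hT] at kT; rw [← hB] at kB; rw [← hL] at kL; rw [← hR] at kR
  have c1 := chain (X := T) (Y := L) (Q := rc (-(p + w : ℕ), p + 1) w w) (fun x hx => by
    rw [hT, mem_rc] at *; push_cast at *; omega) (fun x hx => by
    rw [hL, mem_rc] at *; push_cast at *; omega) kT kL
  have c2 := chain (X := B) (Y := L) (Q := rc (-(p + w : ℕ), -(p + w : ℕ)) w w)
    (fun x hx => by rw [hB, mem_rc] at *; push_cast at *; omega)
    (fun x hx => by rw [hL, mem_rc] at *; push_cast at *; omega) kB kL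
  have c3 := chain (X := R) (Y := T) (Q := rc (p + 1, p + 1) w w) (c' := av T u + k) (fun x hx => by
    rw [hR, mem_rc] at *; push_cast at *; omega) (fun x hx => by
    rw [hT, mem_rc] at *; push_cast at *; omega) kR ((sum_congr rfl fun x hx => by
      rw [hT, mem_rc] at hx; simp only [hU]; rw [if_pos (by push_cast at *; omega)]; ring).trans_le kT)
  have c4 := chain (X := R) (Y := B) (Q := rc (p + 1, -(p + w : ℕ)) w w) (c' := av B u) (fun x hx => by
    rw [hR, mem_rc] at *; push_cast at *; omega) (fun x hx => by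
    rw [hB, mem_rc] at *; push_cast at *; omega) kR ((sum_congr rfl fun x hx => by
      rw [hB, mem_rc] at hx; simp only [hU]; rw [if_neg (by push_cast at *; omega)]; ring).trans_le kB)
  rw [card_rc] at c1 c2 c3 c4
  push_cast at c1 c2 c3 c4 ⊢
  have c5 : k ^ 2 ≤ 4 * ((av T u - av L u) ^ 2 + (av B u - av L u) ^ 2 + (av R U - (av T u + k)) ^ 2 +
      (av R U - av B u) ^ 2) := by
    generalize av T u = a₁, av L u = a₂, av B u = a₃, av R U = a₄
    nlinarith [sq_nonneg ((a₂ - a₁) - (a₃ - a₂)), sq_nonneg ((a₂ - a₁) - (a₁ + k - a₄)),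
      sq_nonneg ((a₂ - a₁) - (a₄ - a₃)), sq_nonneg ((a₃ - a₂) - (a₁ + k - a₄)),
      sq_nonneg ((a₃ - a₂) - (a₄ - a₃)), sq_nonneg ((a₁ + k - a₄) - (a₄ - a₃))]
  have c6 := mul_le_mul_of_nonneg_left c5 (show (0 : ℝ) ≤ w * w by positivity)
  rw [add_sub_cancel_left]
  nlinarith

/-! ## removal of the inner twist -/

/-- the slit geometry outside `bl 0 q`: seam `s₁` on the columns `(0, a)`, no crossing edge on `[a, b)`,
`s₂ = 0` on the columns left of `b` -/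
structure Sg (E : Finset (Pt × Pt)) (s₁ s₂ : Pt × Pt → ℝ) (q a b : ℕ) : Prop where
  nn : ∀ e ∈ E, e.2 - e.1 ∈ nL.Jp
  s1 : ∀ e ∈ E, (q : ℤ) < ds 0 e.2 → s₁ e = if e.1.2 = -1 ∧ e.2.2 = 0 ∧ 0 < e.1.1 ∧ e.1.1 < a then 1 else 0
  slit : ∀ e ∈ E, e.1.2 = -1 → e.2.2 = 0 → e.1.1 < a ∨ (b : ℤ) ≤ e.1.1
  s2 : ∀ e ∈ E, e.1.1 < b → s₂ e = 0
  ab : a ≤ b

variable {E : Finset (Pt × Pt)} {s₁ s₂ : Pt × Pt → ℝ} {a : ℕ}

theorem Sg.subset (H : Sg E s₁ s₂ q a b) {E' : Finset (Pt × Pt)} (hE : E' ⊆ E) {q' : ℕ} (hq : q ≤ q') :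
    Sg E' s₁ s₂ q' a b :=
  ⟨fun e he => H.nn e (hE he), fun e he h => H.s1 e (hE he) (by omega), fun e he => H.slit e (hE he),
    fun e he => H.s2 e (hE he), H.ab⟩

theorem ve_nonneg : 0 ≤ ve q w b h := by
  have := Real.log_nonneg (show (1 : ℝ) ≤ 1 + h / w from le_add_of_nonneg_right (by positivity))
  have := Real.log_nonneg (show (1 : ℝ) ≤ 1 + h / q from le_add_of_nonneg_right (by positivity))
  unfold ve; positivity

/-- the vortex function absorbs the seam `s₁` -/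
theorem Sg.en (H : Sg E s₁ s₂ q a b) (hq : 1 ≤ q) (hh : 1 ≤ h) (hE : ∀ e ∈ E, (q : ℤ) < ds 0 e.2) :
    ∑ e ∈ E, (vf q (b - a + 1) b h e.2 - vf q (b - a + 1) b h e.1 - s₁ e) ^ 2 ≤ ve q (b - a + 1) b h :=
  vf_en hq (by omega) hh H.nn fun e he => by
    have hc := edge_cases (H.nn e he)
    have h1 := hE e he
    have h2 := H.ab
    rw [H.s1 e he h1]
    by_cases h3 : e.1.2 = -1 ∧ e.2.2 = 0
    · have h4 := H.slit e he h3.1 h3.2
      simp only [ds, Prod.fst_zero, Prod.snd_zero, sub_zero, abs_eq_max_neg] at h1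
      rw [if_pos h3]
      split_ifs with h5
      · exact (vf_one hq (by omega) h3.2 (by omega) (by omega)).symm
      · by_contra h6
        have := vf_ne hh (Ne.symm h6)
        omega
    · rw [if_neg h3, if_neg fun h => h3 ⟨h.1, h.2.1⟩]

theorem Sg.twist (H : Sg E s₁ s₂ q a b) {p : ℕ} (hq : 2 ≤ q) (hp : 2 * q ≤ p) (hp' : p ≤ 2 * q + 1) (ha : p < a)
    (hE : nL.edI (an 0 q p) ⊆ E) (u : Pt → ℝ) (k₁ k₂ : ℝ) :
    k₁ ^ 2 ≤ 4000 * ∑ e ∈ E, (u e.2 - u e.1 + s₁ e * k₁ + s₂ e * k₂) ^ 2 := by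
  have key : ∀ e ∈ nL.edI (an 0 q p), (q : ℤ) < ds 0 e.2 ∧ e.1.1 < a := fun e he => by
    rw [Lat.mem_edI, K85.mem_an, K85.mem_an] at he
    refine ⟨he.2.2.1, ?_⟩
    have := he.2.1.2
    simp only [ds, Prod.fst_zero, Prod.snd_zero, sub_zero, abs_eq_max_neg] at this
    omega
  have h1 := loop (p := q) (q := p) (by omega) u k₁ (σ := s₁) fun e he => by
    rw [H.s1 e (hE he) (key e he).1]; simp only [(key e he).2, and_true]
  have h2 : ∑ e ∈ nL.edI (an 0 q p), (u e.2 - u e.1 + s₁ e * k₁) ^ 2 ≤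
      ∑ e ∈ E, (u e.2 - u e.1 + s₁ e * k₁ + s₂ e * k₂) ^ 2 :=
    (sum_congr rfl fun e he => by
      rw [H.s2 e (hE he) (by have := (key e he).2; have := H.ab; omega), zero_mul, add_zero]).trans_le
      (sum_le_sum_of_subset_of_nonneg hE fun _ _ _ => sq_nonneg _)
  have a1 : (2 : ℝ) ≤ q := by exact_mod_cast hq
  have a2 : 2 * (q : ℝ) ≤ p := by exact_mod_cast hp
  have a3 : (p : ℝ) ≤ 2 * q + 1 := by exact_mod_cast hp'
  have a4 : (2 * p + 1 : ℝ) ^ 2 ≤ (11 / 2 * (p - q)) ^ 2 := pow_le_pow_left₀ (by positivity) (by linarith) 2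
  have h3 := h1.trans (mul_le_mul (mul_le_mul_of_nonneg_left a4 (by norm_num)) h2
    (sum_nonneg fun _ _ => sq_nonneg _) (by positivity))
  have h0 : 0 ≤ ∑ e ∈ E, (u e.2 - u e.1 + s₁ e * k₁ + s₂ e * k₂) ^ 2 := sum_nonneg fun _ _ => sq_nonneg _
  have a5 : 0 < ((p : ℝ) - q) ^ 2 := pow_pos (by linarith) 2
  refine le_of_mul_le_mul_left ?_ a5
  nlinarith [mul_nonneg a5.le h0]

/-- a competitor without inner twist, constant on `bl 0 q` -/
theorem Sg.untw (H : Sg E s₁ s₂ q a b) {p : ℕ} (hq : 2 ≤ q) (hp : 2 * q ≤ p) (hp' : p ≤ 2 * q + 1)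
    (ha : p < a) (hh : 1 ≤ h) (hE : nL.edI (an 0 q p) ⊆ E) (u : Pt → ℝ) (k₁ k₂ : ℝ) :
    ∃ (c : ℝ) (v : Pt → ℝ), (∀ x, ds 0 x ≤ q + 1 → v x = c) ∧
      (∀ x, (p : ℤ) ≤ ds 0 x → v x = u x + k₁ * vf q (b - a + 1) b h x) ∧
      ∑ e ∈ E, (v e.2 - v e.1 + s₂ e * k₂) ^ 2 ≤ 3 * 10 ^ 9 * (1 + ve q (b - a + 1) b h) *
        ∑ e ∈ E, (u e.2 - u e.1 + s₁ e * k₁ + s₂ e * k₂) ^ 2 := by
  set f := vf q (b - a + 1) b h with hf
  set U : Pt → ℝ := fun x => u x + k₁ * f x with hU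
  set T := ∑ e ∈ E, (u e.2 - u e.1 + s₁ e * k₁ + s₂ e * k₂) ^ 2 with hT
  have T0 : 0 ≤ T := sum_nonneg fun _ _ => sq_nonneg _
  have V0 := ve_nonneg (q := q) (w := b - a + 1) (b := b) (h := h)
  set E' := E.filter fun e => (q : ℤ) < ds 0 e.2 with hE'
  have h1 := (H.subset (filter_subset _ _ : E' ⊆ E) le_rfl).en (h := h) (by omega) hh
    fun e he => (mem_filter.1 he).2
  have h2 := H.twist hq hp hp' ha hE u k₁ k₂
  have h3 : ∑ e ∈ E', (U e.2 - U e.1 + s₂ e * k₂) ^ 2 ≤ 8000 * (1 + ve q (b - a + 1) b h) * T := by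
    have c1 : ∑ e ∈ E', (U e.2 - U e.1 + s₂ e * k₂) ^ 2 ≤ ∑ e ∈ E', (2 * (u e.2 - u e.1 + s₁ e * k₁ +
        s₂ e * k₂) ^ 2 + 2 * k₁ ^ 2 * (f e.2 - f e.1 - s₁ e) ^ 2) := sum_le_sum fun e _ => by
      simp only [hU]
      nlinarith [sq_nonneg (u e.2 - u e.1 + s₁ e * k₁ + s₂ e * k₂ - k₁ * (f e.2 - f e.1 - s₁ e))]
    rw [sum_add_distrib, ← mul_sum, ← mul_sum] at c1
    have c2 : ∑ e ∈ E', (u e.2 - u e.1 + s₁ e * k₁ + s₂ e * k₂) ^ 2 ≤ T :=
      sum_le_sum_of_subset_of_nonneg (filter_subset _ _) fun _ _ _ => sq_nonneg _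
    have c3 := mul_le_mul h2 h1 (sum_nonneg fun _ _ => sq_nonneg _) (by positivity)
    nlinarith
  have a1 : (2 : ℝ) ≤ q := by exact_mod_cast hq
  have a2 : 2 * (q : ℝ) ≤ p := by exact_mod_cast hp
  have a3 : (p : ℝ) ≤ 2 * q + 1 := by exact_mod_cast hp'
  have b1 : (q : ℝ) + 1 < p := by linarith
  obtain ⟨c, hc⟩ := poin_an 0 (a := q) (b := p) (by omega) (κ := 6) (by linarith) U
  have h4 : eN nL (an 0 q p) U U ≤ ∑ e ∈ E', (U e.2 - U e.1 + s₂ e * k₂) ^ 2 := by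
    rw [eN, edF_self]
    refine (sum_congr rfl fun e he => ?_).trans_le (sum_le_sum_of_subset_of_nonneg (fun e he =>
      mem_filter.2 ⟨hE he, (K85.mem_an.1 (Lat.mem_edI.1 he).2.2).1⟩) fun _ _ _ => sq_nonneg _)
    have := (K85.mem_an.1 (Lat.mem_edI.1 he).2.1).2
    simp only [ds, Prod.fst_zero, Prod.snd_zero, sub_zero, abs_eq_max_neg] at this
    rw [H.s2 e (hE he) (by have := H.ab; omega), zero_mul, add_zero]
  set ζ : Pt → ℝ := fun x => 1 - rmp 0 (q + 1) p x with hζ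
  have z1 : ∀ x, (p : ℤ) ≤ ds 0 x → ζ x = 1 := fun x hx => by
    simp only [hζ, rmp_zero b1 (show (p : ℝ) ≤ ds 0 x by exact_mod_cast hx), sub_zero]
  have z0 : ∀ x, ds 0 x ≤ q + 1 → ζ x = 0 := fun x hx => by
    simp only [hζ, rmp_one b1 (show (ds 0 x : ℝ) ≤ q + 1 by exact_mod_cast hx), sub_self]
  refine ⟨c, fun x => ζ x * (U x - c) + c, fun x hx => by simp only [z0 x hx, zero_mul, zero_add],
    fun x hx => by simp only [z1 x hx, one_mul, sub_add_cancel, hU], ?_⟩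
  have h5 : ∑ e ∈ E, (ζ e.2 * (U e.2 - c) + c - (ζ e.1 * (U e.1 - c) + c) + s₂ e * k₂) ^ 2 ≤
      ∑ e ∈ E, (2 * (ζ e.2 * (U e.2 - U e.1 + s₂ e * k₂)) ^ 2 + 2 * ((ζ e.2 - ζ e.1) * (U e.1 - c)) ^ 2) :=
    sum_le_sum fun e he => by
      have c1 : s₂ e * k₂ = ζ e.2 * (s₂ e * k₂) := by
        by_cases h6 : e.1.1 < b
        · rw [H.s2 e he h6, zero_mul, mul_zero]
        · have := edge_cases (H.nn e he)
          have := H.ab
          rw [z1 e.2 (by simp only [ds, Prod.fst_zero, Prod.snd_zero, sub_zero, abs_eq_max_neg]; omega),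
            one_mul]
      have c2 : ζ e.2 * (U e.2 - c) + c - (ζ e.1 * (U e.1 - c) + c) + s₂ e * k₂ =
          ζ e.2 * (U e.2 - U e.1 + s₂ e * k₂) + (ζ e.2 - ζ e.1) * (U e.1 - c) := by
        linear_combination c1
      rw [c2]
      nlinarith [sq_nonneg (ζ e.2 * (U e.2 - U e.1 + s₂ e * k₂) - (ζ e.2 - ζ e.1) * (U e.1 - c))]
  rw [sum_add_distrib, ← mul_sum, ← mul_sum] at h5
  have h6 : ∑ e ∈ E, (ζ e.2 * (U e.2 - U e.1 + s₂ e * k₂)) ^ 2 ≤
      ∑ e ∈ E', (U e.2 - U e.1 + s₂ e * k₂) ^ 2 := by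
    rw [hE', sum_filter]
    refine sum_le_sum fun e _ => ?_
    split_ifs with h7
    · have := rmp_mem 0 (q + 1) p e.2
      rw [mul_pow]
      exact mul_le_of_le_one_left (sq_nonneg _)
        (pow_le_one₀ (by simp only [hζ]; linarith) (by simp only [hζ]; linarith))
    · rw [z0 e.2 (by omega)]; simp
  have h7 := sum_edge H.nn (T := an 0 q p) (F := fun e => ((ζ e.2 - ζ e.1) * (U e.1 - c)) ^ 2)
    (g := fun x => (10 / (2 * p + 1)) ^ 2 * (U x - c) ^ 2) (fun x => by positivity) fun e he hne => by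
      have c1 := (edge_ds 0 (H.nn e he)).1
      have c2 := rmp_ne (z := 0) b1 c1 fun h => hne (by simp only [hζ, h, sub_self, zero_mul]; simp)
      refine ⟨mem_ring.2 ⟨by simpa using c2.1.1, ?_⟩, ?_⟩
      · have : ds 0 e.1 < p + 1 := by exact_mod_cast c2.1.2
        exact_mod_cast (by omega : ds 0 e.1 ≤ p)
      · rw [mul_pow, ← sq_abs (ζ e.2 - ζ e.1)]
        refine mul_le_mul_of_nonneg_right (pow_le_pow_left₀ (abs_nonneg _) ?_ 2) (sq_nonneg _)
        rw [hζ, sub_sub_sub_cancel_left, abs_sub_comm]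
        refine (rmp_lip 0 b1 c1).trans ?_
        rw [div_le_div_iff₀ (by linarith) (by linarith)]; push_cast; linarith
  rw [← mul_sum] at h7
  have h8 : (10 / (2 * p + 1) : ℝ) ^ 2 * ∑ x ∈ an 0 q p, (U x - c) ^ 2 ≤ 67200 * eN nL (an 0 q p) U U :=
    (mul_le_mul_of_nonneg_left hc (sq_nonneg _)).trans_eq (by rw [an]; field_simp; ring)
  refine h5.trans ?_
  nlinarith [mul_nonneg V0 T0]

/-! ## the inner half -/

/-- the charge induced on `bl z r` by a function that vanishes there and is harmonic around it -/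
theorem ind_eq {z : Pt} {r R : ℕ} (hr : r ≤ R) {ψ : Pt → ℝ} (h0 : ∀ x ∈ bl z r, ψ x = 0)
    (h1 : ∀ x ∈ an z r R, lap ψ x = 0) (h2 : ∑ x ∈ bl z r, lap ψ x = 0) (u : Pt → ℝ) :
    ∑ x ∈ bl z r, u x * lap ψ x = Yb z r R u (Mh z R ψ) := by
  have hC := co_eD nL_ok (bl z R)
  have hK := bl_mono z hr
  have e1 : exo (bl z r) (bl z R) (eD nL (bl z R)) ψ = ψ :=
    (hC.sd _).hx_unique (fun x _ => by
      by_cases hx : x ∈ bl z r
      · rw [off_of_mem hx, h0 x hx]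
      · rw [off_of_not hx]) ((hm_eD nL_ok sdiff_subset).2 h1)
  have e2 : ∀ u : Pt → ℝ, ∑ x ∈ bl z r, u x * lap ψ x =
      cap (bl z r) (bl z R) (eD nL (bl z R)) * Hh z r R u * Hh z r R (Mh z R ψ) + Yb z r R u (Mh z R ψ) :=
    fun u => by
      rw [← cross hr, e1, hC.symm, ← ip_op _ _ _ (hC.ex_sup hK u), ip, ← sum_sdiff hK,
        sum_eq_zero (s := _ \ _) fun x hx => by
          rw [op_eD nL_ok (mem_sdiff.1 hx).1, show lapJ nL.J ψ x = 0 from h1 x hx, neg_zero, zero_mul],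
        zero_add, ← sum_neg_distrib]
      exact sum_congr rfl fun x hx => by
        rw [op_eD nL_ok (hK hx), show lapJ nL.J ψ x = lap ψ x from rfl, hC.ex_on u hx]; ring
  have e3 := e2 fun _ => 1
  have e4 := Yb_shift_left (z := z) hr (fun _ => 0) (Mh z R ψ) 1
  have e5 := Yb_smul_left (z := z) (r := r) (R := R) 0 0 (Mh z R ψ)
  simp only [one_mul, zero_add, zero_smul, zero_mul] at e3 e4 e5
  rw [h2, Hh_const hr, mul_one, e4, show (fun _ => 0 : Pt → ℝ) = 0 from rfl, e5, add_zero] at e3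
  rw [e2, mul_right_comm, ← e3, zero_mul, zero_add]

end Crest.Agent.T145.Pot.V85
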