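import Crest.Agent.T145.KvDef_8
import Crest.Agent.T145.KvV_85
import Crest.Agent.T145.KsT_68
import Crest.Agent.T145.CorB_59

/-!
# Row 145, module Kv (helper62): the weight of the sector, `ZkStmt`
-/

set_option autoImplicit false

namespace Crest.Agent.T145.Kv

open Finset
open Kr (Gm cu)
open Vd (ray)

namespace Zk62

variable {V : Gv} {W : ℝ}

/-- a coset weighs at most the subgroup -/
theorem coset {L Q : Type} [AddCommGroup L] [AddCommGroup Q] [IsAddTorsionFree L] {ρ : L → ℝ}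
    (h : Cen ρ) (φ : L →+ Q) (q : Q) : Pr ρ (fun s => φ s = q) ≤ Pr ρ fun s => φ s = 0 := by
  have h1 := (Rsd63.rsd_comp h.toRSD (AddMonoidHom.fst L Q)).abs_ex_le
    (pd_ind (φ.comp (AddMonoidHom.fst L Q) - AddMonoidHom.snd L Q)) (q := q) (f := 0) h.wt
    (by rw [tilt_zero]; exact h.wt)
  rw [tilt_zero] at h1
  simp only [AddMonoidHom.sub_apply, AddMonoidHom.comp_apply, AddMonoidHom.coe_fst,
    AddMonoidHom.coe_snd, sub_eq_zero] at h1
  exact (le_abs_self _).trans h1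

theorem eT_eq (ed : Finset (Pt × Pt)) (u : Pt → ℝ) :
    V.eT ed u u = ∑ e ∈ ed, (u e.2 - u e.1 + V.s1 e * u V.k1 + V.s2 e * u V.k2) ^ 2 := by
  rw [Gv.eT, Pot.sqF_apply]
  exact sum_congr rfl fun e _ => by simp [Gv.Gk, Pot.dr, pow_two]

/-- the loop bound in an annulus that does not meet the slit -/
theorem loop {p q : ℕ} (hp : 1 ≤ p) (hpq : p < q) (h3 : 2 * q + 1 ≤ 6 * (q - p)) (hc : V.G.c ≤ p)
    (hq : q ≤ V.G.R₂) (u : Pt → ℝ) (k : ℝ)
    (h : ∀ e : Pt × Pt, e.1 ∈ Nc.an 0 p q → ray 0 e = V.s1 e + V.s2 e ∧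
      V.s1 e * u V.k1 + V.s2 e * u V.k2 = ray 0 e * k) : k ^ 2 ≤ 5000 * V.eT V.EO u u := by
  have h1 := Pot.V85.loop hpq u k (σ := fun e => ray 0 e) fun e he => by
    obtain ⟨a, b, -⟩ := Lat.mem_edI.1 he
    have c := Pot.V85.edge_cases a
    simp only [Pot.an, mem_sdiff, mem_bl, Prod.fst_zero, Prod.snd_zero] at b
    simp only [ray, Prod.fst_zero, Prod.snd_zero]
    split_ifs <;> first | omega | simp
  have h2 : ∑ e ∈ Pot.nL.edI (Pot.an 0 p q), (u e.2 - u e.1 + ray 0 e * k) ^ 2 ≤ V.eT V.EO u u := by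
    rw [eT_eq]
    refine le_trans (le_of_eq (sum_congr rfl fun e he => ?_))
      (sum_le_sum_of_subset_of_nonneg (s := Pot.nL.edI (Pot.an 0 p q)) (fun e he => mem_filter.2
        ⟨Lat.edI_mono (sdiff_subset_sdiff (bl_mono 0 hq) (bl_mono 0 hc)) he,
          (h e (Lat.mem_edI.1 he).2.1).1⟩) fun _ _ _ => sq_nonneg _)
    rw [add_assoc _ (_ * u V.k1), (h e (Lat.mem_edI.1 he).2.1).2]
  have h4 : (2 * q + 1 : ℝ) ≤ 6 * (q - p) := by
    have := (Nat.cast_le (α := ℝ)).2 h3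
    push_cast [Nat.cast_sub hpq.le] at this
    exact this
  have h5 : (0 : ℝ) < q - p := sub_pos.2 (by exact_mod_cast hpq)
  have h0 := (sum_nonneg fun e _ => sq_nonneg _).trans h2
  have h6 : (2 * q + 1 : ℝ) ^ 2 ≤ (6 * (q - p)) ^ 2 := by gcongr
  generalize V.eT V.EO u u = T at *
  refine le_of_mul_le_mul_left ?_ (pow_pos h5 2)
  calc _ = ((q - p : ℝ) * k) ^ 2 := by ring
    _ ≤ 128 * (6 * (q - p : ℝ)) ^ 2 * T := h1.trans (by gcongr)
    _ ≤ _ := by nlinarith [mul_nonneg (pow_pos h5 2).le h0]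

theorem k1_le (h : V.Ok W) (g : V.Geo) (u : Pt → ℝ) : u V.k1 ^ 2 ≤ 5000 * V.eT V.EO u u := by
  have := h.g.hc; have := h.g.hr; have := h.g.out; have := g.r_le; have := g.rho_le; have := g.ω_le
  refine loop (p := V.G.r / 2) (q := V.G.r) (by omega) (by omega) (by omega) (by omega) (by omega) u _
    fun e he => ?_
  simp only [Nc.an, mem_sdiff, mem_bl, Prod.fst_zero, Prod.snd_zero] at he
  simp only [Gv.s1, Gv.s2]
  rw [if_pos (by omega), if_neg (by omega)]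
  simp

theorem k2_le (h : V.Ok W) (g : V.Geo) (u : Pt → ℝ) : u V.k2 ^ 2 ≤ 5000 * V.eT V.EO u u := by
  have := h.g.hc; have := h.g.hr; have := h.g.out; have := g.r_le; have := g.rho_le; have := g.ω_le
  refine loop (p := V.G.R) (q := 2 * V.G.R) (by omega) (by omega) (by omega) (by omega) (by omega) u _
    fun e he => ?_
  simp only [Nc.an, mem_sdiff, mem_bl, Prod.fst_zero, Prod.snd_zero] at he
  simp only [Gv.s1, Gv.s2]
  by_cases k : 0 ≤ e.1.1 ∧ e.1.2 = -1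
  · rw [if_neg (by omega), if_pos (by omega)]
    simp
  · have : ray 0 e = 0 := if_neg (by simp only [Prod.fst_zero, Prod.snd_zero]; omega)
    simp [this]

/-- cutting the slit increases the weight of the twist -/
theorem cut {Λ : Lat} (hΛ : Λ.Ok) (hJ : Λ.J = nn) (h : V.Ok W) (g : V.Geo) (x : V.Ext Λ) :
    TV Λ V.G ≤ Vd.rat (V.sl Λ) (ray 0) := by
  have := h.g.hc; have := h.g.hr; have := h.g.out; have := g.r_le; have := g.rho_le
  have lt : V.G.c < V.G.R₂ := by omega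
  have c : (fr Λ V.G).Ctr := Ks68.fr_ctr (hΛ.ctr_N _).1 _
  have a : (fr Λ V.G).Anch :=
    Ks68.fr_anch ((Nc.Geo.inL_N subset_rfl).cn (Nc.Geo.cnL_an hΛ 0 lt)) (Nc.Geo.an_nonempty 0 lt)
  have hE : ∀ e ∈ V.EO, e ∈ Λ.edI V.G.Om := fun e he => by
    have := Lat.mem_edI.1 (mem_filter.1 he).1
    rw [Lat.mem_edI, Lat.Jp, hJ]
    exact this
  have d : ∀ i ∈ ({()} : Finset Unit), ∀ j ∈ ({()} : Finset Unit), i ≠ j → Disjoint V.G.Om V.G.Om :=
    fun _ _ _ _ k => absurd rfl k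
  have k := Sl46.cut_proj c a x.sl.2 (prjH {()} (fun _ => V.G.Om) fun _ => V.rt)
    (fun e he => mem_filter.2 ⟨hE e he, (Lat.mem_edI.1 (hE e he)).2⟩) (fun _ _ => rfl) (fun _ _ _ => rfl)
    (fun s _ => ⟨fun y hy => by
      by_cases k : y ∈ V.G.Om
      · obtain rfl : y = V.rt := by_contra fun k' => hy (mem_erase.2 ⟨k', k⟩)
        rw [prjH_apply, prj_of_mem _ d s (mem_singleton_self ()) k, sub_self]
      · rw [prjH_apply]; exact prj_of_notMem _ s fun _ _ => k, fun e he => by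
      have := (Lat.mem_edI.1 (hE e he)).2
      simp only [dE, prjH_apply, prj_of_mem _ d s (mem_singleton_self ()) this.1,
        prj_of_mem _ d s (mem_singleton_self ()) this.2]
      ring⟩) (ray 0) 0
  rw [AddMonoidHom.zero_comp, tilt_zero, tilt_zero] at k
  rw [TV, Vd.rat, Vd.rat, div_le_div_iff₀ (Md.ctr_wt c a 0).pos (Md.ctr_wt x.sl.1 x.sl.2 0).pos]
  exact k

end Zk62

open Zk62 in
theorem zkStmt (hG : GeoStmt) (hD : DualStmt) (hM : MomStmt) (hE : ExtStmt) : ZkStmt := fun F hJ => by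
  obtain ⟨C, hC, hM⟩ := hM F 1 hJ
  obtain ⟨N, hN⟩ := exists_nat_ge (2 * C * 5000 * 2)
  refine ⟨1 / 2 / (2 * N + 1) ^ 2, by positivity, fun Λ hΛ V W h => ?_⟩
  have g := hG V W h
  have x := hE Λ V W hΛ.ok (hΛ.1.trans hJ) h
  have c := cut hΛ.ok (hΛ.1.trans hJ) h g x
  have p : 0 < TV Λ V.G := Ks68.TT_pos hΛ.ok _ _
  refine ⟨?_, c, p, Ks68.TT_le_one hΛ.ok _ _⟩
  have w := x.cen.wt
  let k : Bool → Pt := fun b => if b then V.k1 else V.k2
  have f := fun b => (hD V V.EO 5000).1 (LinearMap.proj (k b))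
  have m := (hM Λ hΛ V W h Bool univ _ 5000 (by norm_num) fun b _ => (f b).2 (by norm_num) fun u => by
    cases b
    exacts [k2_le h g u, k1_le h g u]).2 (2 * C) (by positivity)
  simp only [fun b => (f b).1] at m
  simp only [Fintype.sum_bool, k, LinearMap.proj_apply, cu, card_univ, Fintype.card_bool,
    if_true, Bool.false_eq_true, if_false, pow_one] at m
  let φ : Cfg Pt →+ ℤ × ℤ := (Finsupp.applyAddHom V.k1).prod (Finsupp.applyAddHom V.k2)
  have m1 := w.pr_exists_le (Icc (-N : ℤ) N ×ˢ Icc (-N : ℤ) N) fun q s => φ s = q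
  have m2 := sum_le_card_nsmul (Icc (-N : ℤ) N ×ˢ Icc (-N : ℤ) N) _ _ fun q _ => coset x.cen φ q
  have m3 : Pr (V.rw Λ) (fun s => φ s = 0) = V.Pk Λ 0 := Pr_congr fun s _ => Prod.ext_iff
  have m4 := w.pr_mono (p := fun s => ¬ 2 * C * 5000 * (2 : ℕ) < (s V.k1 : ℝ) ^ 2 + (s V.k2 : ℝ) ^ 2)
    (q := fun s => ∃ q ∈ Icc (-N : ℤ) N ×ˢ Icc (-N : ℤ) N, φ s = q) fun s _ hs => by
      have hs : s V.k1 ^ 2 + s V.k2 ^ 2 ≤ N := by exact_mod_cast (not_lt.1 hs).trans hN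
      refine ⟨_, mem_product.2 ⟨mem_Icc.2 ?_, mem_Icc.2 ?_⟩, rfl⟩
      · change -(N : ℤ) ≤ s V.k1 ∧ s V.k1 ≤ N
        constructor <;> nlinarith [sq_nonneg (s V.k2), sq_nonneg (2 * s V.k1 + 1),
          sq_nonneg (2 * s V.k1 - 1), Int.le_self_sq (s V.k1), Int.le_self_sq (-s V.k1)]
      · change -(N : ℤ) ≤ s V.k2 ∧ s V.k2 ≤ N
        constructor <;> nlinarith [sq_nonneg (s V.k1), Int.le_self_sq (s V.k2), Int.le_self_sq (-s V.k2)]
  rw [w.pr_not] at m4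
  rw [m3, card_product, Int.card_Icc, show ((N : ℤ) + 1 - -N).toNat = 2 * N + 1 by omega,
    nsmul_eq_mul] at m2
  have m5 : 1 / 2 / (2 * N + 1 : ℝ) ^ 2 ≤ V.Pk Λ 0 := by
    rw [div_le_iff₀ (by positivity)]
    have : C / (2 * C) = 1 / 2 := by field_simp
    have m6 := m4.trans (m1.trans m2)
    push_cast at m6 m
    linarith
  rw [x.rat]
  exact mul_le_mul m5 c p.le ((by positivity : (0 : ℝ) ≤ _).trans m5)

end Crest.Agent.T145.Kv
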