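import Crest.Agent.T145.GffDef_8

/-!
# Row 145: the TOP frame (helper76)

S0198 … S0202 follow (file `Top_76`) from `T1mStmt`, `T5Stmt`, `TLimStmt` (module (b)), `FS.E1Stmt … FS.E4Stmt`
(module (e)), the bridges of `Geo_97`, and the seven Props below.  `gN`, `gI` are those of `GffDef_8`.
-/

set_option autoImplicit false

namespace Crest.Agent.T145

open Finset Filter Topology Crest.ProbabilityR.HeightModel Crest.ProbabilityR.SpinModel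

/-- `Λ` sits at the threshold -/
def Lat.Crit (Λ : Lat) : Prop :=
  Λ.Ok ∧ Λ.gI = 2 / Real.pi ∧ ∀ τ, 0 < τ → τ < Λ.τ → (Λ.at' τ).gI = 0

namespace Top

/-- `C` is the infinite-volume axis correlation at `b` -/
def IsC (b : ℝ) (C : ℕ → ℝ) : Prop :=
  ∀ r, Tendsto (fun R => xyBoxCorrelation b R r) atTop (𝓝 (C r))

/-- `m` is the mass of `C` -/
def IsM (C : ℕ → ℝ) (m : ℝ) : Prop := Tendsto (fun r : ℕ => -Real.log (C r) / r) atTop (𝓝 m)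

/-- (P1) differentiability off the critical value (BOTH families: it gives `gI = 2/π` at the threshold) -/
def DiffStmt : Prop := ∀ Λ : Lat, Λ.Ok → 2 / Real.pi < Λ.gI →
  DifferentiableAt ℝ (fun τ => (Λ.at' τ).gI) Λ.τ

/-- (P2) infinite slope at the threshold (DG) -/
def SlopeStmt : Prop := ∀ Λ : Lat, Λ.xy = false → Λ.Crit →
  Tendsto (fun τ => ((Λ.at' τ).gI - 2 / Real.pi) / (τ - Λ.τ)) (𝓝[>] Λ.τ) atTop

/-- (P3) the exit scale below the threshold (XY): F1, F2 of #1549 -/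
def ScaleStmt : Prop := ∀ b₀ : ℝ, (xyL b₀).Crit → ∃ A : ℝ, 0 < A ∧
  ∀ ε, 0 < ε → ∃ ε₁, 0 < ε₁ ∧ ∀ᶠ b in 𝓝[<] b₀,
    (∃ L : ℕ, |√(b₀ - b) * Real.log L - A| ≤ ε ∧ ε₁ ≤ (xyL b).gN L) ∧
      ∃ L : ℕ, |√(b₀ - b) * Real.log L - A| ≤ ε ∧ (xyL b).gN L ≤ 2 / Real.pi - ε₁

/-- (P4) the mass is small when the scale `L` is still stiff -/
def MassUpStmt : Prop := ∀ b₁ b₂ g₀ δ : ℝ, 0 < b₁ → 0 < g₀ → 0 < δ → ∃ (K : ℝ) (L₁ : ℕ),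
  ∀ b, b₁ ≤ b → b ≤ b₂ → ∀ L : ℕ, L₁ ≤ L → g₀ ≤ (xyL b).gN L →
    ∀ C m, IsC b C → IsM C m → m ≤ K / (L : ℝ) ^ (1 - δ)

/-- (P5) the mass is large once the stiffness has dropped below the critical value -/
def MassLoStmt : Prop := ∀ b₁ b₂ ε₁ δ : ℝ, 0 < b₁ → b₁ ≤ b₂ → (xyL b₂).gI ≤ 2 / Real.pi →
  0 < ε₁ → 0 < δ → ∃ (c : ℝ) (L₁ : ℕ), 0 < c ∧ ∀ b, b₁ ≤ b → b ≤ b₂ → ∀ L : ℕ, L₁ ≤ L →
    (xyL b).gN L ≤ 2 / Real.pi - ε₁ → ∀ C m, IsC b C → IsM C m → c / (L : ℝ) ^ (1 + δ) ≤ m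

/-- (P6) the XY heights are rough for some `b` -/
def XyRoughStmt : Prop := ∃ b : ℝ, 0 < b ∧ (xyL b).Rough

/-- (P7) the critical two-point function -/
def CritStmt : Prop := ∀ b₀ : ℝ, (xyL b₀).Crit → ∀ C : ℕ → ℝ, IsC b₀ C → IsM C 0 →
  ∃ B : ℝ, 0 < B ∧ Tendsto (fun r : ℕ => C r * (r : ℝ) ^ ((1 : ℝ) / 4) / Real.log r ^ ((1 : ℝ) / 8))
    atTop (𝓝 B)

end Top

end Crest.Agent.T145
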