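import Crest.Agent.T145.Vx1_35

/-!
# Row 145, S0198 (helper34): from the MICRO cross ratios to the asymptotics

`d2 H r = H (r+2) - 2 H (r+1) + H r`; `asym_of_micro`: if `r² d2 (log C) r = 1/4 - 1/(8 log r) + O (log^{-1-δ} r)`
then the conclusion of S0198 holds.
-/

set_option autoImplicit false

open Filter Topology Finset

namespace Crest.Agent.T145.Vx34

open Vx35

/-- unit second difference -/
def d2 (H : ℕ → ℝ) (r : ℕ) : ℝ := H (r + 2) - 2 * H (r + 1) + H r

theorem sum_d2 (H : ℕ → ℝ) (r t : ℕ) :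
    ∑ b ∈ range t, d2 H (r + b) = (H (r + t + 1) - H (r + t)) - (H (r + 1) - H r) := by
  induction t with
  | zero => simp
  | succ t ih =>
    rw [sum_range_succ, ih]
    simp only [d2]
    rw [show r + (t + 1) + 1 = r + t + 2 by ring, show r + (t + 1) = r + t + 1 by ring]
    ring

theorem sum_sum_d2 (H : ℕ → ℝ) (r s t : ℕ) :
    ∑ a ∈ range s, ∑ b ∈ range t, d2 H (r + a + b) =
      H (r + s + t) - H (r + s) - H (r + t) + H r := by
  induction s with
  | zero => simp
  | succ s ih =>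
    rw [sum_range_succ, ih, sum_d2]
    rw [show r + (s + 1) + t = r + s + t + 1 by ring, show r + (s + 1) = r + s + 1 by ring]
    ring

theorem dd_eq_sum (H : ℕ → ℝ) (j t : ℕ) :
    dd H j t = ∑ a ∈ range t, ∑ b ∈ range t, d2 H (j * t + a + b) := by
  rw [sum_sum_d2, dd, show (j + 2) * t = j * t + t + t by ring, show (j + 1) * t = j * t + t by ring]
  ring

theorem xr_eq_dd {j t : ℕ} (hj : 1 ≤ j) (ht : 1 ≤ t) :
    xr j = dd (fun r => Real.log r) j t := by
  have hj' : (1 : ℝ) ≤ j := by exact_mod_cast hj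
  have ht' : (1 : ℝ) ≤ t := by exact_mod_cast ht
  simp only [xr, dd]
  push_cast
  rw [Real.log_div (by positivity) (by positivity), Real.log_mul (by positivity) (by positivity),
    Real.log_pow, Real.log_mul (by positivity) (by positivity),
    Real.log_mul (by positivity) (by positivity), Real.log_mul (by positivity) (by positivity)]
  push_cast
  ring

theorem d2_log {r : ℕ} (hr : 1 ≤ r) :
    |d2 (fun r => Real.log r) r + 1 / (r : ℝ) ^ 2| ≤ 4 / (r : ℝ) ^ 3 := by
  have hr' : (1 : ℝ) ≤ r := by exact_mod_cast hr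
  obtain ⟨x, hx⟩ : ∃ x : ℝ, x = r := ⟨_, rfl⟩
  have e : d2 (fun r => Real.log r) r = -Real.log (1 + 1 / (x * (x + 2))) := by
    simp only [d2]
    push_cast
    rw [← hx] at hr' ⊢
    rw [show 1 + 1 / (x * (x + 2)) = (x + 1) ^ 2 / (x * (x + 2)) by field_simp; ring,
      Real.log_div (by positivity) (by positivity), Real.log_mul (by positivity) (by positivity),
      Real.log_pow]
    push_cast
    ring
  rw [← hx] at hr' ⊢
  have h := log_add_sub (u := 1) (a := 1 / (x * (x + 2))) one_pos (by positivity)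
  rw [Real.log_one, sub_zero, div_one] at h
  have h1 : (1 / (x * (x + 2))) ^ 2 ≤ 1 / x ^ 3 := by
    rw [div_pow, one_pow]
    apply one_div_le_one_div_of_le (by positivity)
    nlinarith [mul_nonneg (pow_nonneg (show 0 ≤ x by linarith) 3) (show 0 ≤ x + 3 by linarith),
      pow_nonneg (show 0 ≤ x by linarith) 2]
  have h2 : 1 / x ^ 2 - 1 / (x * (x + 2)) = 2 / (x ^ 2 * (x + 2)) := by field_simp; ring
  have h3 : 2 / (x ^ 2 * (x + 2)) ≤ 2 / x ^ 3 := by
    apply div_le_div_of_nonneg_left (by norm_num) (by positivity)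
    nlinarith [pow_nonneg (show 0 ≤ x by linarith) 2]
  have h4 : 0 ≤ 2 / (x ^ 2 * (x + 2)) := by positivity
  have h5 : 4 / x ^ 3 = 4 * (1 / x ^ 3) := by ring
  have h6 : 2 / x ^ 3 = 2 * (1 / x ^ 3) := by ring
  have h7 : 0 ≤ 1 / x ^ 3 := by positivity
  rw [e, abs_le] at *
  constructor <;> linarith [h.1, h.2]

theorem inv_le_log_rpow (p : ℝ) : ∀ᶠ t : ℕ in atTop, 1 / (t : ℝ) ≤ Real.log t ^ (-p) := by
  have h := (isLittleO_log_rpow_rpow_atTop p (show (0 : ℝ) < 1 by norm_num)).bound one_pos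
  filter_upwards [tendsto_natCast_atTop_atTop.eventually h, eventually_ge_atTop 2] with t a1 a2
  have ht : (2 : ℝ) ≤ t := by exact_mod_cast a2
  have hu : 0 < Real.log t := Real.log_pos (by linarith)
  rw [Real.rpow_one, one_mul, Real.norm_of_nonneg (Real.rpow_nonneg hu.le _),
    Real.norm_of_nonneg (by linarith)] at a1
  rw [Real.rpow_neg hu.le, one_div]
  exact inv_anti₀ (Real.rpow_pos_of_pos hu _) a1

/-- **micro cross ratios give the asymptotics of S0198** -/
theorem asym_of_micro (C : ℕ → ℝ) (δ K : ℝ) (hδ : 0 < δ) (hpos : ∀ᶠ r in atTop, 0 < C r)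
    (h0 : Tendsto (fun r : ℕ => -Real.log (C r) / r) atTop (𝓝 0))
    (hX : ∀ᶠ r : ℕ in atTop,
      |(r : ℝ) ^ 2 * d2 (fun r => Real.log (C r)) r - (1 / 4 - 1 / (8 * Real.log r))| ≤
        K * Real.log r ^ (-(1 + δ))) :
    ∃ B : ℝ, 0 < B ∧ Tendsto (fun r : ℕ => C r * (r : ℝ) ^ ((1 : ℝ) / 4) /
      Real.log r ^ ((1 : ℝ) / 8)) atTop (𝓝 B) := by
  obtain ⟨r0, hr0⟩ := eventually_atTop.1 hX
  set δ' := min δ 1 with hδ'
  have hδ'0 : 0 < δ' := lt_min hδ one_pos
  refine asym_of_cross C δ' hδ'0 hpos h0 fun j hj => ⟨|K| + Real.log (j + 2) + 4, ?_⟩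
  filter_upwards [inv_le_log_rpow (1 + δ'), eventually_ge_atTop r0, eventually_ge_atTop 3] with t a1 a2 a3
  have ht : (3 : ℝ) ≤ t := by exact_mod_cast a3
  have hj' : (1 : ℝ) ≤ j := by exact_mod_cast hj
  have hu : 1 ≤ Real.log t := by
    rw [Real.le_log_iff_exp_le (by linarith)]
    exact (Real.exp_one_lt_d9.le.trans (by norm_num)).trans ht
  set u := Real.log t with hudef
  set ε := u ^ (-(1 + δ')) with hε
  have hε0 : 0 ≤ ε := Real.rpow_nonneg (by linarith) _
  have hl0 : 0 ≤ Real.log ((j : ℝ) + 2) := Real.log_nonneg (by linarith)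
  have key : ∀ a ∈ range t, ∀ b ∈ range t,
      |d2 (fun r => Real.log (C r)) (j * t + a + b) +
        (1 / 4 - 1 / (8 * u)) * d2 (fun r => Real.log r) (j * t + a + b)| ≤
        (|K| + Real.log (j + 2) + 4) * ε / (t : ℝ) ^ 2 := by
    intro a ha b hb
    rw [mem_range] at ha hb
    set r := j * t + a + b with hr
    have hrt : t ≤ r := by
      have : t ≤ j * t := Nat.le_mul_of_pos_left _ hj
      omega
    have hrt' : (t : ℝ) ≤ r := by exact_mod_cast hrt
    have hr2 : (r : ℝ) ≤ (j + 2) * t := by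
      have : r ≤ (j + 2) * t := by rw [add_mul]; omega
      exact_mod_cast this
    have hv : u ≤ Real.log r := Real.log_le_log (by linarith) hrt'
    have hv2 : Real.log r ≤ Real.log (j + 2) + u := by
      rw [hudef, ← Real.log_mul (by positivity) (by positivity)]
      exact Real.log_le_log (by linarith) hr2
    set v := Real.log r with hvdef
    have b1 := hr0 r (a2.trans hrt)
    have b2 := d2_log (r := r) (by omega)
    have b3 : v ^ (-(1 + δ)) ≤ ε := by
      refine (Real.rpow_le_rpow_of_nonpos (by linarith) hv (by linarith)).trans ?_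
      exact Real.rpow_le_rpow_of_exponent_le hu (by linarith [min_le_left δ 1])
    have b4 : K * v ^ (-(1 + δ)) ≤ |K| * ε :=
      (mul_le_mul_of_nonneg_right (le_abs_self K) (Real.rpow_nonneg (by linarith) _)).trans
        (mul_le_mul_of_nonneg_left b3 (abs_nonneg K))
    have b5 : 1 / u ^ 2 ≤ ε := by
      have : u ^ (-(2 : ℝ)) ≤ ε :=
        Real.rpow_le_rpow_of_exponent_le hu (by linarith [min_le_right δ 1])
      rwa [Real.rpow_neg (by linarith), Real.rpow_two, ← one_div] at this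
    have b6 : |1 / (8 * u) - 1 / (8 * v)| ≤ Real.log (j + 2) * ε := by
      have e1 : 1 / (8 * u) - 1 / (8 * v) = (v - u) / (8 * (u * v)) := by
        have : u ≠ 0 := by linarith
        have : v ≠ 0 := by linarith
        field_simp
      have e2 : (v - u) / (8 * (u * v)) ≤ Real.log (j + 2) * (1 / u ^ 2) := by
        rw [mul_one_div]
        apply div_le_div₀ hl0 (by linarith) (by positivity)
        nlinarith
      rw [e1, abs_of_nonneg (div_nonneg (by linarith) (by nlinarith))]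
      exact e2.trans (mul_le_mul_of_nonneg_left b5 hl0)
    have b7 : |1 / 4 - 1 / (8 * u)| ≤ 1 := by
      have : 0 < 1 / (8 * u) := by positivity
      have : 1 / (8 * u) ≤ 1 := by
        rw [div_le_one (by positivity)]; linarith
      rw [abs_le]; constructor <;> linarith
    have hrp : (0 : ℝ) < r := by linarith
    set X := d2 (fun r => Real.log (C r)) r
    set Y := d2 (fun r => Real.log r) r
    have e3 : X + (1 / 4 - 1 / (8 * u)) * Y =
        (((r : ℝ) ^ 2 * X - (1 / 4 - 1 / (8 * v))) + (1 / (8 * u) - 1 / (8 * v)) +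
          (1 / 4 - 1 / (8 * u)) * ((r : ℝ) ^ 2 * (Y + 1 / (r : ℝ) ^ 2))) / (r : ℝ) ^ 2 := by
      field_simp
      ring
    have b8 : |(r : ℝ) ^ 2 * (Y + 1 / (r : ℝ) ^ 2)| ≤ 4 * ε := by
      rw [abs_mul, abs_of_pos (by positivity)]
      calc (r : ℝ) ^ 2 * |Y + 1 / (r : ℝ) ^ 2| ≤ (r : ℝ) ^ 2 * (4 / (r : ℝ) ^ 3) := by gcongr
        _ = 4 * (1 / (r : ℝ)) := by field_simp
        _ ≤ 4 * (1 / (t : ℝ)) := by gcongr
        _ ≤ 4 * ε := by gcongr
    have b9 : |(1 / 4 - 1 / (8 * u)) * ((r : ℝ) ^ 2 * (Y + 1 / (r : ℝ) ^ 2))| ≤ 4 * ε := by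
      rw [abs_mul]
      calc _ ≤ 1 * (4 * ε) := by gcongr
        _ = 4 * ε := one_mul _
    rw [e3, abs_div, abs_of_pos (show (0 : ℝ) < (r : ℝ) ^ 2 by positivity)]
    apply div_le_div₀ (by positivity) _ (by positivity) (by gcongr)
    refine (abs_add_le _ _).trans ((add_le_add_left (abs_add_le _ _) _).trans ?_)
    have b10 : |(r : ℝ) ^ 2 * X - (1 / 4 - 1 / (8 * v))| ≤ |K| * ε := b1.trans b4
    nlinarith
  rw [xr_eq_dd hj (show 1 ≤ t by omega), dd_eq_sum, dd_eq_sum, mul_sum, ← sum_add_distrib]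
  refine (abs_sum_le_sum_abs _ _).trans ?_
  have htp : (0 : ℝ) < t := by linarith
  calc _ ≤ ∑ _a ∈ range t, ∑ _b ∈ range t, (|K| + Real.log (j + 2) + 4) * ε / (t : ℝ) ^ 2 := by
        refine sum_le_sum fun a ha => ?_
        rw [mul_sum, ← sum_add_distrib]
        exact (abs_sum_le_sum_abs _ _).trans (sum_le_sum fun b hb => key a ha b hb)
    _ = _ := by
        simp only [sum_const, card_range, nsmul_eq_mul]
        field_simp

end Crest.Agent.T145.Vx34
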