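import Crest.Prelude.Def_DGHeight
import Crest.Prelude.Def_XY
import Crest.Agent.T145.Def_97

/-!
# Row 145: translation invariant models on `ℤ²`, boxes, tori, bridges to the statements (helper97)
-/

set_option autoImplicit false

namespace Crest.Agent.T145

open Finset Crest.ProbabilityR.HeightModel Crest.ProbabilityR.SpinModel

/-- lattice points -/
abbrev Pt : Type := ℤ × ℤ

/-- the positive half of `ℤ² \ 0` -/
def posD (y : Pt) : Prop := 0 < y.1 ∨ (y.1 = 0 ∧ 0 < y.2)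

instance : DecidablePred posD := fun y => by unfold posD; infer_instance

/-- steps `J`, kernel family `xy`, edge length `τ` -/
structure Lat where
  J : Finset Pt
  xy : Bool
  τ : ℝ

/-- the square `a + [0, n)²` -/
noncomputable def sq (a : Pt) (n : ℕ) : Finset Pt :=
  Finset.Ico a.1 (a.1 + n) ×ˢ Finset.Ico a.2 (a.2 + n)

/-- the ball `z + [-r, r]²` -/
noncomputable def bl (z : Pt) (r : ℕ) : Finset Pt :=
  Finset.Icc (z.1 - r) (z.1 + r) ×ˢ Finset.Icc (z.2 - r) (z.2 + r)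

namespace Lat
variable (Λ : Lat)

def Ok : Prop := IsAdmissible Λ.J ∧ 0 < Λ.τ

/-- one step per unordered pair -/
def Jp : Finset Pt := Λ.J.filter posD

noncomputable def w : ℤ → ℝ := kern Λ.xy Λ.τ

/-- range -/
def rg : ℕ := interactionRange Λ.J

/-- `∑_{y ∈ J⁺} y₁²`; the bare stiffness is `τ / a` -/
noncomputable def a : ℝ := ∑ y ∈ Λ.Jp, (y.1 : ℝ) ^ 2

/-- same steps and family, other length -/
def at' (τ : ℝ) : Lat := { Λ with τ := τ }

/-- edges with at least one end in `D` -/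
def edT (D : Finset Pt) : Finset (Pt × Pt) :=
  (D ×ˢ Λ.Jp).image (fun p => (p.1, p.1 + p.2)) ∪ (D ×ˢ Λ.Jp).image fun p => (p.1 - p.2, p.1)

/-- edges with both ends in `B` -/
def edI (B : Finset Pt) : Finset (Pt × Pt) := inn B (Λ.edT B)

/-- Dirichlet model on `D` -/
noncomputable def D (D : Finset Pt) : Mdl Pt := ⟨D, Λ.edT D, fun _ => Λ.w, fun _ _ => 1⟩

/-- free model on `B`, no pin (infinite mass; add site weights by `mulSite`) -/
noncomputable def N (B : Finset Pt) : Mdl Pt := ⟨B, Λ.edI B, fun _ => Λ.w, fun _ _ => 1⟩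

/-- free model on `B` pinned at the root `r` -/
noncomputable def Nr (B : Finset Pt) (r : Pt) : Mdl Pt := (Λ.N B).free (B.erase r)

/-- the torus of side `n` on the representatives `[0, n)²`, pinned at the origin -/
noncomputable def T (n : ℕ) : Mdl Pt :=
  ⟨(sq 0 n).erase 0,
    (sq 0 n ×ˢ Λ.Jp).image fun p => (p.1, ((p.1.1 + p.2.1) % n, (p.1.2 + p.2.2) % n)),
    fun _ => Λ.w, fun _ _ => 1⟩

/-- variance at the centre of the Dirichlet box -/
noncomputable def vD (R : ℕ) : ℝ := Ex ((Λ.D (bl 0 R)).W 0) fun s => (s 0 : ℝ) ^ 2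

/-- rough phase -/
def Rough : Prop := ¬ BddAbove (Set.range Λ.vD)

end Lat

/-- discrete Gaussian at temperature `β` -/
noncomputable def dg (J : Finset Pt) (β : ℝ) : Lat := ⟨J, false, β * J.card / (4 * Real.pi ^ 2)⟩

/-- nearest neighbours -/
def nn : Finset Pt := {(1, 0), (-1, 0), (0, 1), (0, -1)}

/-- heights dual to the XY model -/
def xyL (b : ℝ) : Lat := ⟨nn, true, b⟩

/-- faces of `[-R, R]²`, named by their lower left corner -/
noncomputable def faces (R : ℕ) : Finset Pt := sq (-(R : ℤ), -(R : ℤ)) (2 * R)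

/-- the seam dual to the path from `0` to `(r, 0)` -/
def seam (r : ℕ) (e : Pt × Pt) : ℤ :=
  if e.1.2 = -1 ∧ e.2.2 = 0 ∧ e.1.1 = e.2.1 ∧ 0 ≤ e.1.1 ∧ e.1.1 < r then 1 else 0

/-- the force of the rescaled, mean-subtracted torus field -/
noncomputable def torF (n : ℕ) (f : ℝ × ℝ → ℝ) (x : Pt) : ℝ :=
  2 * Real.pi / (n : ℝ) ^ 2 * (f ((x.1 : ℝ) / n, (x.2 : ℝ) / n) -
    (∑ y ∈ sq 0 n, f ((y.1 : ℝ) / n, (y.2 : ℝ) / n)) / (n : ℝ) ^ 2)

/-- the standard models are centred and anchored -/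
def GeoStmt : Prop := ∀ Λ : Lat, Λ.Ok →
  (∀ D, (Λ.D D).Ctr ∧ (Λ.D D).Anch) ∧
  (∀ a n r, r ∈ sq a n → (Λ.Nr (sq a n) r).Ctr ∧ (Λ.Nr (sq a n) r).Anch) ∧
  (∀ n, (Λ.T n).Ctr ∧ (Λ.T n).Anch) ∧ 1 ≤ Λ.a ∧ Λ.a = Λ.J.card * varianceConst Λ.J

/-- bridge: boxes -/
def BoxStmt : Prop := ∀ (J : Finset Pt) (β : ℝ), IsAdmissible J → 0 < β →
  (∀ R, boxVariance J β R = ENNReal.ofReal (4 * Real.pi ^ 2 * (dg J β).vD R)) ∧
    (IsRough J β ↔ (dg J β).Rough)

/-- bridge: tori -/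
def TorStmt : Prop := ∀ (J : Finset Pt) (β : ℝ), IsAdmissible J → 0 < β →
  ∀ (n : ℕ) (f : ℝ × ℝ → ℝ), 2 * interactionRange J < n →
    Real.log (torusLaplace J β n f) = M (((dg J β).T n).W 0) (pr (torF n f))

/-- bridge: XY duality -/
def XyStmt : Prop := ∀ (b : ℝ) (R r : ℕ), 0 < b → r ≤ R →
  xyBoxCorrelation b R r =
    Zs (((xyL b).D (faces R)).Ws 0 (seam r)) / Zs (((xyL b).D (faces R)).W 0)

end Crest.Agent.T145
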