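import Crest.Agent.T145.XyC_48
import Crest.Agent.T145.Geo_97

/-!
# Row 145, XY duality (helper48): `xyStmt : XyStmt`
-/

set_option autoImplicit false

open Finset

namespace Crest.Agent.T145.Xy48

theorem faces_eq (R : ℕ) : T145.faces R = Xy48.faces R := by
  ext x
  rw [mem_faces]
  simp only [T145.faces, T145.sq, mem_product, mem_Ico]
  push_cast
  omega

theorem seam_eq (r : ℕ) : T145.seam r = Xy48.seam r := by
  funext e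
  simp only [T145.seam, Xy48.seam]
  split_ifs <;> omega

theorem Jp_xyL (b : ℝ) : (xyL b).Jp = {(1, 0), (0, 1)} := by
  change nn.filter posD = _
  decide

theorem mem_edT_xyL (b : ℝ) (D : Finset Pt) (e : Pt × Pt) : e ∈ (xyL b).edT D ↔
    (e.2 = e.1 + (1, 0) ∨ e.2 = e.1 + (0, 1)) ∧ (e.1 ∈ D ∨ e.2 ∈ D) := by
  obtain ⟨u, v⟩ := e
  simp only [Lat.edT, Jp_xyL, mem_union, mem_image, mem_product, mem_insert, mem_singleton,
    Prod.mk.injEq, Prod.exists]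
  constructor
  · rintro (⟨a, b, c, d, ⟨h1, h2⟩, rfl, rfl⟩ | ⟨a, b, c, d, ⟨h1, h2⟩, rfl, rfl⟩)
    · refine ⟨?_, Or.inl h1⟩
      rcases h2 with ⟨rfl, rfl⟩ | ⟨rfl, rfl⟩ <;> simp
    · refine ⟨?_, Or.inr h1⟩
      rcases h2 with ⟨rfl, rfl⟩ | ⟨rfl, rfl⟩ <;> simp
  · rintro ⟨rfl | rfl, h | h⟩
    · exact Or.inl ⟨u.1, u.2, 1, 0, ⟨h, Or.inl ⟨rfl, rfl⟩⟩, rfl, rfl⟩
    · exact Or.inr ⟨_, _, 1, 0, ⟨h, Or.inl ⟨rfl, rfl⟩⟩, by simp, rfl⟩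
    · exact Or.inl ⟨u.1, u.2, 0, 1, ⟨h, Or.inr ⟨rfl, rfl⟩⟩, rfl, rfl⟩
    · exact Or.inr ⟨_, _, 0, 1, ⟨h, Or.inr ⟨rfl, rfl⟩⟩, by simp, rfl⟩

theorem dual (b : ℝ) (R : ℕ) : Dual b R ((xyL b).D (T145.faces R)) where
  A := faces_eq R
  ed := mem_edT_xyL b _
  w := fun _ _ => rfl
  site := fun _ _ _ => rfl

theorem xyStmt : XyStmt := fun b R r _ hr => by
  rw [seam_eq]
  exact xy_dual (dual b R) hr

end Crest.Agent.T145.Xy48
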