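import Crest.Agent.T145.VxInf_48
import Crest.Agent.T145.VxSum_34
import Crest.Agent.T145.XyD_48
import Crest.Agent.T145.TopDef_76

/-!
# Row 145, twisted module (helper63): from the micro cross ratio in finite boxes to `Top.CritStmt`
-/

set_option autoImplicit false

open Finset Filter Topology

noncomputable section

namespace Crest.Agent.T145.Tw

open Inf48

/-- the edge that extends the seam to the left -/
def eL : Pt × Pt := ((-1, -1), (-1, 0))

/-- the edge that extends `seam r` to the right -/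
def eR (r : ℕ) : Pt × Pt := (((r : ℤ), -1), ((r : ℤ), 0))

/-- the insertion `w (k + 1) / w k` on the edge `e` -/
def Dm (Λ : Lat) (σ : Pt × Pt → ℤ) (e : Pt × Pt) (s : Cfg Pt) : ℝ :=
  Λ.w (nE σ e s + 1) / Λ.w (nE σ e s)

/-- normalised covariance -/
def cvn (W F G : Cfg Pt → ℝ) : ℝ := Cv W F G / (Ex W F * Ex W G)

theorem finS_seam (r : ℕ) : FinS (seam r) :=
  ⟨(range r).image fun i : ℕ => (((i : ℤ), -1), ((i : ℤ), 0)), fun e he => by
    refine if_neg fun h => he ?_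
    obtain ⟨⟨a, b⟩, ⟨c, d⟩⟩ := e
    obtain ⟨h1, h2, h3, h4, h5⟩ := h
    simp only at h1 h2 h3 h4 h5
    refine mem_image.2 ⟨a.toNat, mem_range.2 (by omega), ?_⟩
    simp only [Prod.mk.injEq]
    omega⟩

theorem seam_R (r : ℕ) : seam r + Pi.single (eR r) 1 = seam (r + 1) := by
  funext e
  obtain ⟨⟨a, b⟩, ⟨c, d⟩⟩ := e
  simp only [Pi.add_apply, seam, Pi.single_apply, eR, Prod.mk.injEq]
  push_cast
  split_ifs <;> omega

theorem seam_L (r : ℕ) : seam r + Pi.single eL 1 = shS (-1, 0) (seam (r + 1)) := by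
  funext e
  obtain ⟨⟨a, b⟩, ⟨c, d⟩⟩ := e
  simp only [Pi.add_apply, seam, Pi.single_apply, eL, shS, Prod.mk.injEq, Prod.fst_sub, Prod.snd_sub]
  push_cast
  split_ifs <;> omega

theorem seam_LR (r : ℕ) :
    seam r + Pi.single eL 1 + Pi.single (eR r) 1 = shS (-1, 0) (seam (r + 2)) := by
  rw [add_right_comm, seam_R, seam_L]

variable {Λ : Lat} {D : Finset Pt} {σ : Pt × Pt → ℤ} {e e' : Pt × Pt}

theorem Ws_Dm (h : Λ.Ok) (he : e ∈ Λ.edT D) (σ : Pt × Pt → ℤ) (η s : Cfg Pt) :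
    (Λ.D D).Ws η σ s * Dm Λ σ e s = (Λ.D D).Ws η (σ + Pi.single e 1) s := by
  rw [← Ws_dens h (S := {e}) (by simpa using he) (σ := σ) (σ' := σ + Pi.single e 1)
    fun e' he' => by simp [Pi.single_eq_of_ne (notMem_singleton.1 he')]]
  simp [Inf48.dens, Dm, nE, add_assoc]

theorem Dm_add (hne : e ≠ e') (σ : Pt × Pt → ℤ) : Dm Λ (σ + Pi.single e' 1) e = Dm Λ σ e := by
  funext s
  simp [Dm, nE, Pi.single_eq_of_ne hne]

theorem ex_Dm (h : Λ.Ok) (he : e ∈ Λ.edT D) (σ : Pt × Pt → ℤ) :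
    Ex ((Λ.D D).Ws 0 σ) (Dm Λ σ e) = ratD Λ (σ + Pi.single e 1) D / ratD Λ σ D := by
  have h3 := (h.wt_D D 0).ne
  have h4 := (wts h D σ).ne
  simp only [ratD, Ex_def, Ws_Dm h he]
  field_simp
  rfl

theorem ex_Dm₂ (h : Λ.Ok) (he : e ∈ Λ.edT D) (he' : e' ∈ Λ.edT D) (hne : e ≠ e') (σ : Pt × Pt → ℤ) :
    Ex ((Λ.D D).Ws 0 σ) (fun s => Dm Λ σ e s * Dm Λ σ e' s) =
      ratD Λ (σ + Pi.single e 1 + Pi.single e' 1) D / ratD Λ σ D := by
  have h3 := (h.wt_D D 0).ne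
  have h4 := (wts h D σ).ne
  simp only [ratD, Ex_def, ← mul_assoc, Ws_Dm h he]
  rw [← Dm_add hne.symm σ]
  simp only [Ws_Dm h he']
  field_simp
  rfl

theorem cvn_Dm (h : Λ.Ok) (he : e ∈ Λ.edT D) (he' : e' ∈ Λ.edT D) (hne : e ≠ e') (σ : Pt × Pt → ℤ) :
    cvn ((Λ.D D).Ws 0 σ) (Dm Λ σ e) (Dm Λ σ e') =
      ratD Λ (σ + Pi.single e 1 + Pi.single e' 1) D * ratD Λ σ D /
        (ratD Λ (σ + Pi.single e 1) D * ratD Λ (σ + Pi.single e' 1) D) - 1 := by
  have h1 := (ratD_pos h σ D).ne'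
  have h2 := (ratD_pos h (σ + Pi.single e 1) D).ne'
  have h3 := (ratD_pos h (σ + Pi.single e' 1) D).ne'
  simp only [cvn, Cv, ex_Dm h he, ex_Dm h he', ex_Dm₂ h he he' hne]
  field_simp

theorem isC_eq {b : ℝ} (hb : 0 < b) {C : ℕ → ℝ} (hC : Top.IsC b C) (r : ℕ) :
    C r = ratI (xyL b) (seam r) := by
  refine tendsto_nhds_unique (hC r)
    (((tendsto_ratI (xyL_ok hb) (finS_seam r)).comp tendsto_faces).congr' ?_)
  filter_upwards [eventually_ge_atTop r] with R hR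
  rw [Xy48.xyStmt b R r hb hR]
  rfl

theorem tendsto_cvn {b : ℝ} (hb : 0 < b) {C : ℕ → ℝ} (hC : Top.IsC b C) (r : ℕ) :
    Tendsto (fun D => cvn (((xyL b).D D).Ws 0 (seam r)) (Dm (xyL b) (seam r) eL)
      (Dm (xyL b) (seam r) (eR r))) atTop (𝓝 (C (r + 2) * C r / (C (r + 1) * C (r + 1)) - 1)) := by
  have h := xyL_ok hb
  have hp := fun r => (ratI_pos h (finS_seam r)).ne'
  have t0 := tendsto_ratI h (finS_seam r)
  have t1 := tendsto_ratI h (finS_seam (r + 1))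
  have t1' := tendsto_ratI h ((finS_seam (r + 1)).shS (-1, 0))
  have t2 := tendsto_ratI h ((finS_seam (r + 2)).shS (-1, 0))
  rw [ratI_shS h (finS_seam _)] at t1' t2
  simp only [isC_eq hb hC]
  refine (((t2.mul t0).div (t1'.mul t1) (mul_ne_zero (hp _) (hp _))).sub_const 1).congr' ?_
  filter_upwards [eventually_ge_atTop ({eL.1, (eR r).1} : Finset Pt)] with D hD
  have m1 : eL ∈ (xyL b).edT D := Lat.mem_edT.2 ⟨show _ ∈ nn.filter posD by simp [eL, nn, posD], Or.inl (hD (by simp))⟩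
  have m2 : eR r ∈ (xyL b).edT D := Lat.mem_edT.2 ⟨show _ ∈ nn.filter posD by simp [eR, nn, posD], Or.inl (hD (by simp))⟩
  rw [cvn_Dm h m1 m2 (by simp [eL, eR]), seam_LR, seam_L, seam_R]
  rfl

/-- the micro estimate in finite Dirichlet domains -/
def MicroStmt : Prop := ∀ b : ℝ, (xyL b).Crit → ∃ K δ : ℝ, 0 < δ ∧ ∀ᶠ r : ℕ in atTop,
  ∃ᶠ D : Finset Pt in atTop,
    |(r : ℝ) ^ 2 * cvn (((xyL b).D D).Ws 0 (seam r)) (Dm (xyL b) (seam r) eL)
      (Dm (xyL b) (seam r) (eR r)) - (1 / 4 - 1 / (8 * Real.log r))| ≤ K * Real.log r ^ (-(1 + δ))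

theorem log_near {x : ℝ} (hx : |x| ≤ 1 / 2) : |Real.log (1 + x) - x| ≤ 2 * x ^ 2 := by
  have h := Real.abs_log_sub_add_sum_range_le (x := -x) (by rw [abs_neg]; linarith) 1
  simp only [range_one, sum_singleton, zero_add, pow_one, Nat.cast_zero, div_one, sub_neg_eq_add,
    abs_neg] at h
  rw [show Real.log (1 + x) - x = -x + Real.log (1 + x) by ring]
  refine h.trans ?_
  rw [div_le_iff₀ (by linarith), show |x| ^ (1 + 1) = x ^ 2 from sq_abs x]
  nlinarith [sq_nonneg x]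

theorem critStmt (H : MicroStmt) : Top.CritStmt := fun b hb C hC hM => by
  have hb0 : 0 < b := hb.1.2
  obtain ⟨K, δ, hδ, H⟩ := H b hb
  have hpos : ∀ r, 0 < C r := fun r => by
    rw [isC_eq hb0 hC]; exact ratI_pos (xyL_ok hb0) (finS_seam r)
  refine Vx34.asym_of_micro C (min δ 1) (|K| + 2 * (|K| + 1) ^ 2) (lt_min hδ one_pos)
    (Eventually.of_forall hpos) hM ?_
  filter_upwards [H, eventually_ge_atTop 3,
    (tendsto_natCast_atTop_atTop (R := ℝ)).eventually_ge_atTop (2 * (|K| + 1))] with r hr h3 hK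
  have hr3 : (3 : ℝ) ≤ r := by exact_mod_cast h3
  have hl : 1 ≤ Real.log r := by
    rw [Real.le_log_iff_exp_le (by linarith)]
    linarith [Real.exp_one_lt_d9]
  set x := C (r + 2) * C r / (C (r + 1) * C (r + 1)) - 1 with hx
  have h1 : |(r : ℝ) ^ 2 * x - (1 / 4 - 1 / (8 * Real.log r))| ≤ K * Real.log r ^ (-(1 + δ)) :=
    le_of_tendsto_of_frequently
      (((tendsto_cvn hb0 hC r).const_mul _).sub_const _).abs hr
  have h2 : Real.log r ^ (-(1 + δ)) ≤ Real.log r ^ (-(1 + min δ 1)) :=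
    Real.rpow_le_rpow_of_exponent_le hl (by linarith [min_le_left δ 1])
  have h4 : Real.log r ^ (-(1 + min δ 1)) ≤ 1 :=
    Real.rpow_le_one_of_one_le_of_nonpos hl (by linarith [lt_min hδ one_pos])
  have h0 : 0 < Real.log r ^ (-(1 + δ)) := Real.rpow_pos_of_pos (by linarith) _
  have h5 : K * Real.log r ^ (-(1 + δ)) ≤ |K| * Real.log r ^ (-(1 + min δ 1)) :=
    (mul_le_mul_of_nonneg_right (le_abs_self K) h0.le).trans
      (mul_le_mul_of_nonneg_left h2 (abs_nonneg K))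
  have h6 : 0 < 1 / (8 * Real.log r) := by positivity
  have h7 : 1 / (8 * Real.log r) ≤ 1 / 8 := by
    apply one_div_le_one_div_of_le <;> linarith
  have h8 : |(r : ℝ) ^ 2 * x| ≤ |K| + 1 := by
    have := mul_le_mul_of_nonneg_left h4 (abs_nonneg K)
    rw [abs_le] at h1 ⊢
    constructor <;> linarith [h1.1, h1.2]
  have hr2 : (0 : ℝ) < (r : ℝ) ^ 2 := by positivity
  have h9 : |x| ≤ (|K| + 1) / (r : ℝ) ^ 2 := by
    rw [le_div_iff₀ hr2, mul_comm]
    rwa [abs_mul, abs_of_pos hr2] at h8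
  have h10 : |x| ≤ 1 / 2 := h9.trans (by rw [div_le_iff₀ hr2]; nlinarith)
  have h11 : Vx34.d2 (fun r => Real.log (C r)) r = Real.log (1 + x) := by
    have a0 := (hpos r).ne'
    have a1 := (hpos (r + 1)).ne'
    have a2 := (hpos (r + 2)).ne'
    rw [hx, add_sub_cancel, Real.log_div (mul_ne_zero a2 a0) (mul_ne_zero a1 a1),
      Real.log_mul a2 a0, Real.log_mul a1 a1, Vx34.d2]
    ring
  have h12 : 1 / (r : ℝ) ^ 2 ≤ Real.log r ^ (-(1 + min δ 1)) := by
    refine le_trans ?_ (Real.rpow_le_rpow_of_exponent_le hl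
      (show (-2 : ℝ) ≤ -(1 + min δ 1) by linarith [min_le_right δ 1]))
    rw [Real.rpow_neg (by linarith), one_div, show (2 : ℝ) = (2 : ℕ) by norm_num, Real.rpow_natCast]
    exact inv_anti₀ (by positivity)
      (pow_le_pow_left₀ (by linarith) ((Real.log_le_sub_one_of_pos (by linarith)).trans (by linarith)) 2)
  have h13 : (r : ℝ) ^ 2 * (2 * x ^ 2) ≤ 2 * (|K| + 1) ^ 2 * (1 / (r : ℝ) ^ 2) := by
    have := pow_le_pow_left₀ (abs_nonneg _) h8 2
    rw [sq_abs] at this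
    rw [mul_one_div, le_div_iff₀ hr2]
    nlinarith
  have h14 := mul_le_mul_of_nonneg_left (log_near h10) hr2.le
  rw [← abs_of_pos hr2, ← abs_mul, abs_of_pos hr2] at h14
  have h15 := mul_le_mul_of_nonneg_left h12 (show 0 ≤ 2 * (|K| + 1) ^ 2 by positivity)
  rw [h11]
  rw [abs_le] at h1 h14 ⊢
  constructor <;> nlinarith [h1.1, h1.2, h14.1, h14.2]

end Crest.Agent.T145.Tw
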