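import Crest.Agent.T145.UvE_49

/-!
# Row 145, UV lemma in group form (extended lattices, seams, slits) (helper49)
-/

set_option autoImplicit false

namespace Crest.Agent.T145.Mx

open Finset Uv

/-- UV in group form: the ambient is any centred weight `ρ` on a group, heights are read through `π` -/
def UvGStmt : Prop := ∀ (F : Fa) (W r₀ : ℕ) (K : ℝ), ∃ C : ℝ, ∀ ε : ℝ, 0 < ε → ∃ (δ : ℝ) (L₀ : ℕ), 0 < δ ∧
  ∀ Λ, F.Mem Λ → ∀ L : ℕ, L₀ ≤ L → Nc.Gd Λ (1 / 400) W r₀ (L / W) →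
  ∀ (G : Type) [AddCommGroup G] (ρ : G → ℝ) (π : G →+ Cfg Pt) (U U' I : Finset Pt) (c : ℕ)
    (Jv : Finset ℕ) (μ : ℝ), GA Λ ρ π U U' →
    (∀ t ∈ terms I c Jv,
      Vr ρ ((pr (hf t.1 t.2.1 t.2.2)).comp π) ((pr (hf t.1 t.2.1 t.2.2)).comp π) ≤ Λ.τ * 32) →
    (∀ a ∈ I, ∀ a' ∈ I, a ≠ a' → Disjoint (sq a (2 ^ c)) (sq a' (2 ^ c))) → Jv ⊆ range c →
    0 ≤ μ → μ * (L : ℝ) ^ 2 ≤ K → 2 ^ c ≤ L → (#I : ℝ) * 4 ^ c ≤ K * (L : ℝ) ^ 2 →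
    Thn (I.biUnion fun a => sq a (2 ^ c)) U (K * L) →
      Ex ρ (fun s => gq (terms I c Jv) (hl μ) (π s) ^ 2) ≤
        Real.exp C * Ex ρ (fun s => gq (terms I c Jv) (hl μ) (π s)) ^ 2 ∧
      ((∀ j ∈ Jv, (2 : ℝ) ^ j ≤ δ * L) → Ex ρ (fun s => gq (terms I c Jv) (hl μ) (π s) ^ 2) ≤
        Real.exp ε * Ex ρ (fun s => gq (terms I c Jv) (hl μ) (π s)) ^ 2)

theorem uvGStmt (hR : R1Stmt) (hD : Nc.LD1Stmt) (hS : Nc.SubStmt) : UvGStmt := by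
  intro F W r₀ K
  set E : ℝ := 10 ^ 5 * Real.exp F.τ₂ with hE
  have E0 : 0 < E := by positivity
  -- one estimate for every `n`, `N`
  have key : ∀ (n N : ℕ), (4 * W ^ 4) ^ (n + 2) * W ≤ N → 0 < N → ∀ Λ, F.Mem Λ → ∀ L : ℕ,
      2 * (r₀ ^ 2 + 1) * N ≤ L → Nc.Gd Λ (1 / 400) W r₀ (L / W) →
      ∀ (G : Type) [AddCommGroup G] (ρ : G → ℝ) (π : G →+ Cfg Pt) (U U' I : Finset Pt)
      (c : ℕ) (Jv : Finset ℕ) (μ : ℝ), GA Λ ρ π U U' → (∀ t ∈ terms I c Jv,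
        Vr ρ ((pr (hf t.1 t.2.1 t.2.2)).comp π) ((pr (hf t.1 t.2.1 t.2.2)).comp π) ≤ Λ.τ * 32) →
      (∀ a ∈ I, ∀ a' ∈ I, a ≠ a' → Disjoint (sq a (2 ^ c)) (sq a' (2 ^ c))) → Jv ⊆ range c →
      0 ≤ μ → μ * (L : ℝ) ^ 2 ≤ K → (#I : ℝ) * 4 ^ c ≤ K * (L : ℝ) ^ 2 →
      Thn (I.biUnion fun a => sq a (2 ^ c)) U (K * L) →
      Ex ρ (fun s => gq (terms I c Jv) (hl μ) (π s) ^ 2) ≤
        Real.exp (E * (28 * K ^ 2 * ((4 * W ^ 4) ^ (n + 2) / N) + 1920 * K ^ 2 * W ^ 4 * (3 / 4) ^ n +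
          180 * K ^ 3 * ((4 * W ^ 4) ^ (n + 2) / N) ^ 2) +
          32 * |F.τ₂| * K ^ 2 * #(Jv.filter fun j => ¬ j < Nat.log 2 (L / N))) *
        Ex ρ (fun s => gq (terms I c Jv) (hl μ) (π s)) ^ 2 := by
    intro n N hN N0 Λ hΛ L hL hG G _ ρ π U U' I c Jv μ hA hI hd hJ hμ hK hc hT
    have ok : Λ.Ok := ⟨hΛ.1 ▸ F.adm, F.pos.trans_le hΛ.2.2.1⟩
    have hJ' : ∀ j ∈ Jv, j < c := fun j hj => mem_range.1 (hJ hj)
    have q1 : 2 * (r₀ ^ 2 + 1) ≤ L / N := (Nat.le_div_iff_mul_le N0).2 hL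
    have q2 : 2 ^ Nat.log 2 (L / N) ≤ L / N := Nat.pow_log_le_self 2 (by omega)
    have q3 : L / N < 2 ^ (Nat.log 2 (L / N) + 1) := Nat.lt_pow_succ_log_self one_lt_two _
    have q4 : N * 2 ^ Nat.log 2 (L / N) ≤ L := (Nat.mul_le_mul_left N q2).trans (Nat.mul_div_le L N)
    have K0 : 0 ≤ K := le_trans (by positivity) hK
    have H := hA.sq_le hR hD hS ok hG (c₂ := Nat.log 2 (L / N)) hJ' hI hd hμ (b := K * L)
      (by positivity) (fun r hr => (bad_eq hd U r).trans_le (hT r hr)) n (by rw [pow_succ] at q3; omega)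
      ((Nat.le_div_iff_mul_le (by have := hG.1; omega)).2 (by
        rw [mul_right_comm]; exact (Nat.mul_le_mul_right _ hN).trans q4))
    refine H.trans (mul_le_mul_of_nonneg_right (Real.exp_le_exp.2 ?_) (sq_nonneg _))
    have N0' : (0 : ℝ) < N := by exact_mod_cast N0
    set B : ℝ := (4 * W ^ 4) ^ (n + 2) with hB
    have B0 : 0 ≤ B := by positivity
    have s1 : B * 2 ^ Nat.log 2 (L / N) ≤ B / N * L := by
      have : (N : ℝ) * 2 ^ Nat.log 2 (L / N) ≤ L := by exact_mod_cast q4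
      rw [div_mul_eq_mul_div, le_div_iff₀ N0', mul_assoc, mul_comm _ (N : ℝ)]
      exact mul_le_mul_of_nonneg_left this B0
    have s2 : (#I : ℝ) * ((2 : ℝ) ^ c) ^ 2 ≤ K * L ^ 2 := by
      rwa [← pow_mul, mul_comm c, pow_mul, show (2 : ℝ) ^ 2 = 4 by norm_num]
    have s3 : cU Λ ≤ E := by rw [cU, hE]; gcongr; exact hΛ.2.2.2
    have s4 : Λ.τ ≤ |F.τ₂| := hΛ.2.2.2.trans (le_abs_self _)
    have τ0 := ok.pos.le
    have s5 : μ * (#I * ((2 : ℝ) ^ c) ^ 2) ≤ K ^ 2 :=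
      (mul_le_mul_of_nonneg_left s2 hμ).trans (by nlinarith [mul_le_mul_of_nonneg_left hK K0])
    have s6 : μ * (B * 2 ^ Nat.log 2 (L / N)) ^ 2 ≤ K * (B / N) ^ 2 :=
      calc _ ≤ μ * (B / N * L) ^ 2 := by gcongr
        _ = μ * L ^ 2 * (B / N) ^ 2 := by ring
        _ ≤ _ := by gcongr
    have s7 : μ * (K * L) * (B * 2 ^ Nat.log 2 (L / N)) ≤ K ^ 2 * (B / N) :=
      calc _ ≤ μ * (K * L) * (B / N * L) := by gcongr
        _ = μ * L ^ 2 * (K * (B / N)) := by ring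
        _ ≤ K * (K * (B / N)) := by gcongr
        _ = _ := by ring
    refine add_le_add (mul_le_mul s3 ?_ (by positivity) E0.le) ?_
    · nlinarith [mul_le_mul s5 s6 (by positivity) (by positivity),
        mul_le_mul_of_nonneg_right s5 (show 0 ≤ (W : ℝ) ^ 4 * (3 / 4) ^ n by positivity)]
    · rw [mul_assoc (32 * Λ.τ)]; gcongr
  set N₀ : ℕ := (4 * W ^ 4) ^ (0 + 2) * W + 1 with hN₀
  refine ⟨E * (28 * K ^ 2 * ((4 * W ^ 4) ^ (0 + 2) / N₀) + 1920 * K ^ 2 * W ^ 4 * (3 / 4) ^ 0 +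
    180 * K ^ 3 * ((4 * W ^ 4) ^ (0 + 2) / N₀) ^ 2) + 32 * |F.τ₂| * K ^ 2 * N₀, fun ε hε => ?_⟩
  obtain ⟨n, hn⟩ : ∃ n : ℕ, E * (1920 * K ^ 2 * W ^ 4 * (3 / 4) ^ n) < ε := by
    have := ((tendsto_pow_atTop_nhds_zero_of_lt_one (r := (3 / 4 : ℝ)) (by norm_num)
      (by norm_num)).const_mul (1920 * K ^ 2 * W ^ 4)).const_mul E
    simp only [mul_zero] at this
    exact (this.eventually (gt_mem_nhds hε)).exists
  obtain ⟨N, hN, hN1, hN2⟩ : ∃ N : ℕ, E * (28 * K ^ 2 * ((4 * W ^ 4) ^ (n + 2) / N) +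
      1920 * K ^ 2 * W ^ 4 * (3 / 4) ^ n + 180 * K ^ 3 * ((4 * W ^ 4) ^ (n + 2) / N) ^ 2) < ε ∧
      (4 * W ^ 4) ^ (n + 2) * W ≤ N ∧ N₀ ≤ N := by
    have t := tendsto_const_div_atTop_nhds_zero_nat ((4 * W ^ 4) ^ (n + 2) : ℝ)
    have := (((t.const_mul (28 * K ^ 2)).add_const (1920 * K ^ 2 * W ^ 4 * (3 / 4) ^ n)).add
      ((t.pow 2).const_mul (180 * K ^ 3))).const_mul E
    exact ((this.eventually (gt_mem_nhds (by simpa using hn))).and ((Filter.eventually_ge_atTop _).and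
      (Filter.eventually_ge_atTop _))).exists
  have N0 : 0 < N := by omega
  refine ⟨1 / (2 * N), 2 * (r₀ ^ 2 + 1) * N, by positivity,
    fun Λ hΛ L hL hG G _ ρ π U U' I c Jv μ hm hI hd hJ hμ hK hcL hc hT => ⟨?_, fun hδ => ?_⟩⟩
  · have hL₀ : 2 * (r₀ ^ 2 + 1) * N₀ ≤ L := (Nat.mul_le_mul_left _ hN2).trans hL
    refine (key 0 N₀ (by omega) (by omega) Λ hΛ L hL₀ hG G ρ π U U' I c Jv μ hm hI hd hJ hμ hK hc hT).trans ?_
    gcongr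
    have q3 : L / N₀ < 2 ^ (Nat.log 2 (L / N₀) + 1) := Nat.lt_pow_succ_log_self one_lt_two _
    rw [Nat.div_lt_iff_lt_mul (by omega)] at q3
    refine (card_le_card (t := Ico (Nat.log 2 (L / N₀)) c) fun j hj => mem_Ico.2
      ⟨not_lt.1 (mem_filter.1 hj).2, mem_range.1 (hJ (mem_filter.1 hj).1)⟩).trans ?_
    rw [Nat.card_Ico]
    by_contra! h
    have h1 : 2 ^ (Nat.log 2 (L / N₀) + 1) * 2 ^ N₀ ≤ 2 ^ c := by
      rw [← pow_add]; exact Nat.pow_le_pow_right two_pos (by omega)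
    have h2 := Nat.mul_le_mul_left (2 ^ (Nat.log 2 (L / N₀) + 1)) (Nat.lt_two_pow_self (n := N₀)).le
    omega
  · refine (key n N hN1 N0 Λ hΛ L hL hG G ρ π U U' I c Jv μ hm hI hd hJ hμ hK hc hT).trans ?_
    rw [filter_eq_empty_iff.2 fun j hj => not_not.2 ?_]
    · gcongr; simpa using hN.le
    · refine Nat.succ_le_iff.1 (Nat.le_log_of_pow_le one_lt_two ((Nat.le_div_iff_mul_le N0).2 ?_))
      have h := hδ j hj
      rw [one_div_mul_eq_div, le_div_iff₀ (by positivity)] at h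
      have : ((2 ^ (j + 1) * N : ℕ) : ℝ) ≤ L := by push_cast; rwa [pow_succ, mul_assoc]
      exact_mod_cast this

end Crest.Agent.T145.Mx
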