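import Crest.Agent.T145.BesB_66
import Crest.Agent.T145.ApiC_98
import Crest.Agent.T145.MdlC_73

/-!
# Row 145: calculus in the edge length `τ` (energy insertion), both kernels (helper5)
-/

set_option autoImplicit false

namespace Crest.Agent.T145.Tau5

open Finset Bes66

/-- Bessel recurrence `2 k I_k = t (I_{k-1} - I_{k+1})` -/
theorem bes_rec (t : ℝ) (k : ℤ) : 2 * k * bes t k = t * (bes t (k - 1) - bes t (k + 1)) := by
  have h1 := (hasSum_nat_add_iff' 1).2 ((hasSum_bes t k).mul_left (2 * (k : ℝ)))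
  have h0 : ∑ i ∈ range 1, 2 * (k : ℝ) * (nu t i * ph i k) = 0 := by
    by_cases hk : k = 0 <;> simp [ph, hk]
  rw [h0, sub_zero] at h1
  refine h1.unique (hs_congr (((hasSum_bes t (k - 1)).sub (hasSum_bes t (k + 1))).mul_left t)
    (fun N => ?_) rfl)
  have h2 := ph_ratio N (k - 1)
  rw [show k - 1 + 2 = k + 1 by ring] at h2
  have h3 : nu t (N + 1) * (2 * (N + 1)) = nu t N * t := by
    simp only [nu, Nat.factorial_succ, pow_succ]; push_cast; field_simp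
  have h4 : (0 : ℝ) < N + 1 := by positivity
  refine mul_left_cancel₀ h4.ne' ?_
  rw [ph_succ]
  push_cast at h2
  linear_combination (k * (ph N (k - 1) + ph N (k + 1))) * h3 + (nu t N * t) * h2

/-- the energy of an edge: logarithmic derivative of the kernel in its length -/
noncomputable def eps (xy : Bool) (τ : ℝ) (k : ℤ) : ℝ :=
  if xy then (bes τ (k - 1) + bes τ (k + 1)) / (2 * bes τ k) else (k : ℝ) ^ 2 / (2 * τ ^ 2)

theorem eps_true (τ : ℝ) (k : ℤ) :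
    eps true τ k = (bes τ (k - 1) + bes τ (k + 1)) / (2 * bes τ k) := rfl

theorem eps_false (τ : ℝ) (k : ℤ) : eps false τ k = (k : ℝ) ^ 2 / (2 * τ ^ 2) := rfl

theorem kern_pos (xy : Bool) {τ : ℝ} (hτ : 0 < τ) (k : ℤ) : 0 < kern xy τ k := by
  cases xy
  · exact gau_pos τ k
  · exact bes_pos hτ k

theorem kern_mono (xy : Bool) (k : ℤ) {s t : ℝ} (hs : 0 < s) (h : s ≤ t) :
    kern xy s k ≤ kern xy t k := by
  cases xy
  · refine Real.exp_le_exp.2 ?_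
    rw [neg_div, neg_div, neg_le_neg_iff]
    gcongr
  · exact bes_mono k hs.le h

theorem hasDerivAt_kern (xy : Bool) {τ : ℝ} (hτ : 0 < τ) (k : ℤ) :
    HasDerivAt (fun t => kern xy t k) (kern xy τ k * eps xy τ k) τ := by
  cases xy
  · have h := ((((hasDerivAt_id' τ).const_mul 2).fun_inv (by positivity)).const_mul
      (-(k : ℝ) ^ 2)).exp
    refine (h.congr_deriv ?_).congr_of_eventuallyEq (Filter.Eventually.of_forall fun t => ?_)
    · simp only [kern, gau, eps_false, div_eq_mul_inv, Bool.false_eq_true, if_false]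
      field_simp
    · simp only [kern, gau, div_eq_mul_inv, Bool.false_eq_true, if_false]
  · refine (hasDerivAt_bes τ k).congr_deriv ?_
    have := bes_pos hτ k
    simp only [kern, eps_true, if_true]
    field_simp

theorem eps_neg (xy : Bool) (τ : ℝ) (k : ℤ) : eps xy τ (-k) = eps xy τ k := by
  cases xy
  · simp [eps_false]
  · rw [eps_true, eps_true, T145.bes_neg, show -k - 1 = -(k + 1) by ring,
      show -k + 1 = -(k - 1) by ring, T145.bes_neg, T145.bes_neg, add_comm]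

theorem eps_abs (xy : Bool) (τ : ℝ) (k : ℤ) : eps xy τ |k| = eps xy τ k := by
  rcases abs_choice k with h | h <;> rw [h]; exact eps_neg xy τ k

theorem eps_nonneg (xy : Bool) {τ : ℝ} (hτ : 0 < τ) (k : ℤ) : 0 ≤ eps xy τ k := by
  cases xy
  · rw [eps_false]; positivity
  · have := bes_pos hτ k
    have := bes_pos hτ (k - 1)
    have := bes_pos hτ (k + 1)
    rw [eps_true]; positivity

theorem eps_true_eq {τ : ℝ} (hτ : 0 < τ) (k : ℤ) :
    eps true τ k = bes τ (k + 1) / bes τ k + k / τ := by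
  have h := bes_rec τ k
  have := bes_pos hτ k
  rw [eps_true]
  field_simp
  linear_combination -h

theorem eps_true_le {τ : ℝ} (hτ : 0 < τ) (k : ℤ) : eps true τ k ≤ 1 + |(k : ℝ)| / τ := by
  rw [← eps_abs, eps_true_eq hτ, Int.cast_abs]
  gcongr
  rw [div_le_one (bes_pos hτ _)]
  exact lc_succ_le (isKer_bes hτ).lc (T145.bes_neg τ) (abs_nonneg k)

theorem eps_le (xy : Bool) {τ : ℝ} (hτ : 0 < τ) (k : ℤ) : eps xy τ k ≤ (1 + |(k : ℝ)| / τ) ^ 2 := by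
  have h0 : 0 ≤ |(k : ℝ)| / τ := by positivity
  cases xy
  · rw [eps_false, show (k : ℝ) ^ 2 / (2 * τ ^ 2) = (|(k : ℝ)| / τ) ^ 2 / 2 by
      rw [div_pow, sq_abs]; ring]
    nlinarith
  · exact (eps_true_le hτ k).trans (by nlinarith)

theorem eps_le' (xy : Bool) {τ₀ τ : ℝ} (h0 : 0 < τ₀) (h : τ₀ ≤ τ) (k : ℤ) :
    |eps xy τ k| ≤ (1 + |(k : ℝ)| / τ₀) ^ 2 := by
  rw [abs_of_nonneg (eps_nonneg xy (h0.trans_le h) k)]
  have := h0.trans_le h
  exact (eps_le xy this k).trans (by gcongr)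

theorem tame_bd {L : Type*} [AddCommGroup L] {d : L → ℤ} (hd : Tame fun s => (d s : ℝ)) (τ : ℝ) :
    Tame fun s => (1 + |(d s : ℝ)| / τ) ^ 2 := ((Tame.const 1).add (hd.abs.div_const τ)).pow 2

theorem tame_eps {L : Type*} [AddCommGroup L] {d : L → ℤ} (hd : Tame fun s => (d s : ℝ))
    (xy : Bool) {τ : ℝ} (hτ : 0 < τ) : Tame fun s => eps xy τ (d s) :=
  (tame_bd hd τ).of_le fun _ => eps_le' xy hτ le_rfl _

section grp
variable {L ι : Type*} [AddCommGroup L] {ρ : L → ℝ} {E : Finset ι} {d : ι → L → ℤ} {xy : Bool}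
  {τ : ℝ}

/-- the weight `ρ ∏ kern xy τ (d e ·)` -/
noncomputable def wt (ρ : L → ℝ) (E : Finset ι) (d : ι → L → ℤ) (xy : Bool) (τ : ℝ) : L → ℝ :=
  fun s => ρ s * ∏ e ∈ E, kern xy τ (d e s)

/-- the total energy -/
noncomputable def en (E : Finset ι) (d : ι → L → ℤ) (xy : Bool) (τ : ℝ) : L → ℝ :=
  fun s => ∑ e ∈ E, eps xy τ (d e s)

omit [AddCommGroup L] in
theorem wt_nonneg (h0 : ∀ s, 0 ≤ ρ s) (hτ : 0 < τ) (s : L) : 0 ≤ wt ρ E d xy τ s :=
  mul_nonneg (h0 s) (prod_nonneg fun _ _ => (kern_pos xy hτ _).le)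

omit [AddCommGroup L] in
theorem wt_mono (h0 : ∀ s, 0 ≤ ρ s) (hτ : 0 < τ) {τ' : ℝ} (h : τ ≤ τ') (s : L) :
    wt ρ E d xy τ s ≤ wt ρ E d xy τ' s :=
  mul_le_mul_of_nonneg_left (prod_le_prod (fun _ _ => (kern_pos xy hτ _).le)
    fun _ _ => kern_mono xy _ hτ h) (h0 s)

theorem wt_se (h0 : ∀ s, 0 ≤ ρ s) (hτ : 0 < τ) {τ' : ℝ} (h : τ ≤ τ') (hS : SE (wt ρ E d xy τ')) :
    SE (wt ρ E d xy τ) :=
  hS.of_le (C := 1) fun s => by
    rw [one_mul, abs_of_nonneg (wt_nonneg h0 hτ s), abs_of_nonneg (wt_nonneg h0 (hτ.trans_le h) s)]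
    exact wt_mono h0 hτ h s

theorem tame_en (hd : ∀ e ∈ E, Tame fun s => (d e s : ℝ)) (hτ : 0 < τ) : Tame (en E d xy τ) :=
  Tame.sum E fun e he => tame_eps (hd e he) xy hτ

omit [AddCommGroup L] in
theorem hasDerivAt_wt (hτ : 0 < τ) (s : L) :
    HasDerivAt (fun t => wt ρ E d xy t s) (wt ρ E d xy τ s * en E d xy τ s) τ := by
  classical
  refine ((HasDerivAt.fun_finsetProd fun e (_ : e ∈ E) =>
    hasDerivAt_kern xy hτ (d e s)).const_mul (ρ s)).congr_deriv ?_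
  simp only [wt, en, mul_sum, smul_eq_mul]
  refine sum_congr rfl fun e he => ?_
  rw [← mul_prod_erase E _ he]; ring

/-- derivative of the unnormalised sum, observable depending on `τ` -/
theorem hasDerivAt_sum (h0 : ∀ s, 0 ≤ ρ s) (hd : ∀ e ∈ E, Tame fun s => (d e s : ℝ)) {ε : ℝ}
    (hε : 0 < ε) (hετ : ε < τ) (hS : SE (wt ρ E d xy (τ + ε))) {F F' : ℝ → L → ℝ} {B : L → ℝ}
    (hB : Tame B)
    (hF : ∀ s, ∀ t ∈ Set.Ioo (τ - ε) (τ + ε), HasDerivAt (fun t => F t s) (F' t s) t)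
    (hb : ∀ s, ∀ t ∈ Set.Ioo (τ - ε) (τ + ε), |F t s| ≤ B s ∧ |F' t s| ≤ B s) :
    HasDerivAt (fun t => ∑' s, wt ρ E d xy t s * F t s)
      (∑' s, wt ρ E d xy τ s * (F' τ s + F τ s * en E d xy τ s)) τ := by
  have ht : τ ∈ Set.Ioo (τ - ε) (τ + ε) := ⟨by linarith, by linarith⟩
  have hτ : 0 < τ := hε.trans hετ
  have hT : Tame fun s => B s + B s * ∑ e ∈ E, (1 + |(d e s : ℝ)| / (τ - ε)) ^ 2 :=
    hB.add (hB.mul (Tame.sum E fun e he => tame_bd (hd e he) _))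
  refine hasDerivAt_tsum_of_isPreconnected (g := fun s t => wt ρ E d xy t s * F t s)
    (g' := fun s t => wt ρ E d xy t s * (F' t s + F t s * en E d xy t s)) (hS.ig hT) isOpen_Ioo
    isPreconnected_Ioo (fun s t h => ?_) (fun s t h => ?_) ht ?_ ht
  · have h1 : 0 < t := by linarith [h.1]
    exact ((hasDerivAt_wt h1 s).fun_mul (hF s t h)).congr_deriv (by ring)
  · have h1 : 0 < t := by linarith [h.1]
    rw [Real.norm_eq_abs, abs_mul, abs_of_nonneg (wt_nonneg h0 h1 s)]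
    have h2 := hb s t h
    have h3 : 0 ≤ B s := (abs_nonneg _).trans h2.1
    refine mul_le_mul (wt_mono h0 h1 h.2.le s) ((abs_add_le _ _).trans (add_le_add h2.2 ?_))
      (abs_nonneg _) (wt_nonneg h0 (by linarith) s)
    rw [abs_mul]
    refine mul_le_mul h2.1 ((abs_sum_le_sum_abs _ _).trans (sum_le_sum fun e _ =>
      eps_le' xy (by linarith) h.1.le _)) (abs_nonneg _) h3
  · exact (wt_se h0 hτ (by linarith) hS).ig (hB.of_le fun s => (hb s τ ht).1)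

theorem hasDerivAt_Zs (h0 : ∀ s, 0 ≤ ρ s) (hd : ∀ e ∈ E, Tame fun s => (d e s : ℝ)) (hτ : 0 < τ)
    (hS : SE (wt ρ E d xy (2 * τ))) :
    HasDerivAt (fun t => Zs (wt ρ E d xy t)) (∑' s, wt ρ E d xy τ s * en E d xy τ s) τ := by
  have h := hasDerivAt_sum (xy := xy) h0 hd (half_pos hτ) (half_lt_self hτ)
    (wt_se h0 (by positivity) (by linarith) hS) (F := fun _ _ => 1) (F' := fun _ _ => 0)
    (Tame.const 1) (fun s t _ => hasDerivAt_const _ _) fun s t _ => by simp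
  simpa [Zs] using h

/-- **energy insertion**, observable depending on `τ` -/
theorem hasDerivAt_ex' (h0 : ∀ s, 0 ≤ ρ s) (hd : ∀ e ∈ E, Tame fun s => (d e s : ℝ)) {ε : ℝ}
    (hε : 0 < ε) (hετ : ε < τ) (hS : SE (wt ρ E d xy (2 * τ))) (hW : Wt (wt ρ E d xy τ))
    {F F' : ℝ → L → ℝ} {B : L → ℝ} (hB : Tame B)
    (hF : ∀ s, ∀ t ∈ Set.Ioo (τ - ε) (τ + ε), HasDerivAt (fun t => F t s) (F' t s) t)
    (hb : ∀ s, ∀ t ∈ Set.Ioo (τ - ε) (τ + ε), |F t s| ≤ B s ∧ |F' t s| ≤ B s) :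
    HasDerivAt (fun t => Ex (wt ρ E d xy t) (F t))
      (Ex (wt ρ E d xy τ) (F' τ) + Cv (wt ρ E d xy τ) (F τ) (en E d xy τ)) τ := by
  have ht : τ ∈ Set.Ioo (τ - ε) (τ + ε) := ⟨by linarith, by linarith⟩
  have hτ : 0 < τ := hε.trans hετ
  have hs := wt_se h0 hτ (by linarith) hS
  have h := (hasDerivAt_sum h0 hd hε hετ (wt_se h0 (by linarith) (by linarith) hS) hB hF hb).fun_div
    (hasDerivAt_Zs h0 hd hτ hS) hW.ne
  refine h.congr_deriv ?_
  have t1 : Tame (F τ) := hB.of_le fun s => (hb s τ ht).1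
  have t2 : Tame (F' τ) := hB.of_le fun s => (hb s τ ht).2
  rw [hW.tsum_eq, hW.tsum_eq, hW.tsum_eq, Ex_add (hs.ig t2) (hs.ig (t1.mul (tame_en hd hτ))), Cv]
  have := hW.ne
  field_simp
  ring

/-- **energy insertion** -/
theorem hasDerivAt_ex (h0 : ∀ s, 0 ≤ ρ s) (hd : ∀ e ∈ E, Tame fun s => (d e s : ℝ)) (hτ : 0 < τ)
    (hS : SE (wt ρ E d xy (2 * τ))) (hW : Wt (wt ρ E d xy τ)) {F : L → ℝ} (hF : Tame F) :
    HasDerivAt (fun t => Ex (wt ρ E d xy t) F) (Cv (wt ρ E d xy τ) F (en E d xy τ)) τ := by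
  have h := hasDerivAt_ex' (xy := xy) h0 hd (half_pos hτ) (half_lt_self hτ) hS hW
    (F := fun _ => F) (F' := fun _ _ => 0) hF.abs (fun s t _ => hasDerivAt_const _ _)
    fun s t _ => by simp
  simpa using h

theorem hasDerivAt_logZ (h0 : ∀ s, 0 ≤ ρ s) (hd : ∀ e ∈ E, Tame fun s => (d e s : ℝ)) (hτ : 0 < τ)
    (hS : SE (wt ρ E d xy (2 * τ))) (hW : Wt (wt ρ E d xy τ)) :
    HasDerivAt (fun t => Real.log (Zs (wt ρ E d xy t))) (Ex (wt ρ E d xy τ) (en E d xy τ)) τ :=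
  (hasDerivAt_Zs h0 hd hτ hS).log hW.ne

end grp

section mdl
variable {V : Type*} [DecidableEq V]

/-- all edges get the kernel `kern xy τ` -/
noncomputable def _root_.Crest.Agent.T145.Mdl.len (m : Mdl V) (xy : Bool) (τ : ℝ) : Mdl V :=
  { m with w := fun _ => kern xy τ }

/-- total energy of a model with seam `σ` -/
noncomputable def _root_.Crest.Agent.T145.Mdl.en (m : Mdl V) (xy : Bool) (τ : ℝ) (σ : V × V → ℤ) :
    Cfg V → ℝ := fun s => ∑ e ∈ m.ed, eps xy τ (dE e s + σ e)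

variable {m : Mdl V} {xy : Bool} {τ : ℝ}

omit [DecidableEq V] in
theorem len_fm (m : Mdl V) (xy : Bool) (hτ : 0 < τ) : (m.len xy τ).Fm := fun _ _ => ⟨xy, τ, hτ, rfl⟩

omit [DecidableEq V] in
theorem len_ctr (h : m.Ctr) (xy : Bool) (hτ : 0 < τ) : (m.len xy τ).Ctr := ⟨len_fm m xy hτ, h.2⟩

omit [DecidableEq V] in
theorem len_anch (h : m.Anch) (xy : Bool) (τ : ℝ) : (m.len xy τ).Anch := h

omit [DecidableEq V] in
theorem len_Ws (m : Mdl V) (xy : Bool) (η : Cfg V) (σ : V × V → ℤ) (t : ℝ) :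
    (m.len xy t).Ws η σ = wt (fun s => ind (∀ x, x ∉ m.A → s x = η x) * ∏ x ∈ m.A, m.site x (s x))
      m.ed (fun e s => dE e s + σ e) xy t := funext fun s => by
  simp only [Mdl.Ws, Mdl.len, wt]; ring

theorem tame_d (σ : V × V → ℤ) (e : V × V) : Tame fun s : Cfg V => ((dE e s + σ e : ℤ) : ℝ) :=
  ((Tame.dE e).add (Tame.const (σ e))).congr fun s => by push_cast; rfl

theorem tame_men (m : Mdl V) (xy : Bool) (hτ : 0 < τ) (σ : V × V → ℤ) : Tame (m.en xy τ σ) :=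
  Tame.sum _ fun e _ => tame_eps (tame_d σ e) xy hτ

/-- **energy insertion for models** (seam `σ`, boundary condition `η`, `τ`-dependent observable) -/
theorem hasDerivAt_Ws' (hN : m.Nn) (hA : m.Anch) (hT : Md.Tm m) (η : Cfg V) (σ : V × V → ℤ) {ε : ℝ}
    (hε : 0 < ε) (hετ : ε < τ) (hW : Wt ((m.len xy τ).Ws η σ))
    {F F' : ℝ → Cfg V → ℝ} {B : Cfg V → ℝ} (hB : Tame B)
    (hF : ∀ s, ∀ t ∈ Set.Ioo (τ - ε) (τ + ε), HasDerivAt (fun t => F t s) (F' t s) t)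
    (hb : ∀ s, ∀ t ∈ Set.Ioo (τ - ε) (τ + ε), |F t s| ≤ B s ∧ |F' t s| ≤ B s) :
    HasDerivAt (fun t => Ex ((m.len xy t).Ws η σ) (F t))
      (Ex ((m.len xy τ).Ws η σ) (F' τ) + Cv ((m.len xy τ).Ws η σ) (F τ) (m.en xy τ σ)) τ := by
  have hS := Md.se_Ws' (len_fm m xy (show 0 < 2 * τ by linarith)) hA hT η σ
  simp only [len_Ws] at hW hS ⊢
  exact hasDerivAt_ex' (fun s => mul_nonneg (ind_nonneg _) (prod_nonneg fun x hx => hN x hx _))
    (fun e _ => tame_d σ e) hε hετ hS hW hB hF hb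

theorem hasDerivAt_Ws (hN : m.Nn) (hA : m.Anch) (hT : Md.Tm m) (η : Cfg V) (σ : V × V → ℤ)
    (hτ : 0 < τ) (hW : Wt ((m.len xy τ).Ws η σ)) {F : Cfg V → ℝ} (hF : Tame F) :
    HasDerivAt (fun t => Ex ((m.len xy t).Ws η σ) F)
      (Cv ((m.len xy τ).Ws η σ) F (m.en xy τ σ)) τ := by
  have hS := Md.se_Ws' (len_fm m xy (show 0 < 2 * τ by linarith)) hA hT η σ
  simp only [len_Ws] at hW hS ⊢
  exact hasDerivAt_ex (fun s => mul_nonneg (ind_nonneg _) (prod_nonneg fun x hx => hN x hx _))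
    (fun e _ => tame_d σ e) hτ hS hW hF

theorem hasDerivAt_logZs (hN : m.Nn) (hA : m.Anch) (hT : Md.Tm m) (η : Cfg V) (σ : V × V → ℤ)
    (hτ : 0 < τ) (hW : Wt ((m.len xy τ).Ws η σ)) :
    HasDerivAt (fun t => Real.log (Zs ((m.len xy t).Ws η σ)))
      (Ex ((m.len xy τ).Ws η σ) (m.en xy τ σ)) τ := by
  have hS := Md.se_Ws' (len_fm m xy (show 0 < 2 * τ by linarith)) hA hT η σ
  simp only [len_Ws] at hW hS ⊢
  exact hasDerivAt_logZ (fun s => mul_nonneg (ind_nonneg _) (prod_nonneg fun x hx => hN x hx _))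
    (fun e _ => tame_d σ e) hτ hS hW

/-- centred anchored models, seam and boundary condition arbitrary -/
theorem ctr_hasDerivAt_Ws (hc : m.Ctr) (hA : m.Anch) (η : Cfg V) (σ : V × V → ℤ) (hτ : 0 < τ)
    {F : Cfg V → ℝ} (hF : Tame F) :
    HasDerivAt (fun t => Ex ((m.len xy t).Ws η σ) F)
      (Cv ((m.len xy τ).Ws η σ) F (m.en xy τ σ)) τ :=
  hasDerivAt_Ws hc.nn hA (Md.ctr_tm hc) η σ hτ (Md.ctr_wts (len_ctr hc xy hτ) hA η σ) hF

theorem ctr_hasDerivAt (hc : m.Ctr) (hA : m.Anch) (η : Cfg V) (hτ : 0 < τ)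
    {F : Cfg V → ℝ} (hF : Tame F) :
    HasDerivAt (fun t => Ex ((m.len xy t).W η) F) (Cv ((m.len xy τ).W η) F (m.en xy τ 0)) τ := by
  simp only [Mdl.W_eq_Ws]
  exact ctr_hasDerivAt_Ws hc hA η 0 hτ hF

theorem ctr_hasDerivAt' (hc : m.Ctr) (hA : m.Anch) (η : Cfg V) {ε : ℝ} (hε : 0 < ε) (hετ : ε < τ)
    {F F' : ℝ → Cfg V → ℝ} {B : Cfg V → ℝ} (hB : Tame B)
    (hF : ∀ s, ∀ t ∈ Set.Ioo (τ - ε) (τ + ε), HasDerivAt (fun t => F t s) (F' t s) t)
    (hb : ∀ s, ∀ t ∈ Set.Ioo (τ - ε) (τ + ε), |F t s| ≤ B s ∧ |F' t s| ≤ B s) :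
    HasDerivAt (fun t => Ex ((m.len xy t).W η) (F t))
      (Ex ((m.len xy τ).W η) (F' τ) + Cv ((m.len xy τ).W η) (F τ) (m.en xy τ 0)) τ := by
  simp only [Mdl.W_eq_Ws]
  exact hasDerivAt_Ws' hc.nn hA (Md.ctr_tm hc) η 0 hε hετ
    (Md.ctr_wts (len_ctr hc xy (hε.trans hετ)) hA η 0) hB hF hb

/-- variance of a linear functional in a centred model -/
theorem ctr_hasDerivAt_Vr (hc : m.Ctr) (hA : m.Anch) (hτ : 0 < τ) (f g : Cfg V →+ ℝ) :
    HasDerivAt (fun t => Vr ((m.len xy t).W 0) f g)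
      (Cv ((m.len xy τ).W 0) (fun s => f s * g s) (m.en xy τ 0)) τ := by
  refine (ctr_hasDerivAt hc hA 0 hτ ((Tame.hom f).mul (Tame.hom g))).congr_of_eventuallyEq ?_
  filter_upwards [Ioi_mem_nhds hτ] with t ht
  exact (Md.ctr_cen (len_ctr hc xy ht) hA).Vr_eq f g

theorem ctr_continuousOn (hc : m.Ctr) (hA : m.Anch) (η : Cfg V) (σ : V × V → ℤ) {F : Cfg V → ℝ}
    (hF : Tame F) : ContinuousOn (fun t => Ex ((m.len xy t).Ws η σ) F) (Set.Ioi 0) :=
  fun _ ht => (ctr_hasDerivAt_Ws hc hA η σ ht hF).continuousAt.continuousWithinAt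

end mdl

end Crest.Agent.T145.Tau5
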