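import Crest.Agent.T145.VxInfB_48
import Crest.Agent.T145.TauA_5

/-!
# Row 145 (helper48): the micro move is tame; the exact calibration identities
-/

set_option autoImplicit false

open Finset Filter Topology

noncomputable section

namespace Crest.Agent.T145.Inf48

variable {b : ℝ} {Λ : Lat} {σ σ' : Pt × Pt → ℤ} {F : Cfg Pt → ℝ}

theorem bes_succ_le (hb : 0 < b) (k : ℤ) : bes b (k + 1) / bes b k ≤ 1 + 2 / b * |(k : ℝ)| := by
  have hF : Fam (bes b) := ⟨true, b, hb, rfl⟩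
  have h0 := hF.pos k
  have ha : ∀ k l : ℤ, |k| ≤ |l| → bes b l ≤ bes b k := fun k l h => by
    rw [← hF.abs k, ← hF.abs l]
    generalize hm : |k| = m at h
    have hm0 : 0 ≤ m := hm ▸ abs_nonneg k
    generalize |l| = n at h
    induction n, h using Int.leInduction with
    | base => exact le_rfl
    | succ n hn ih =>
      refine le_trans ?_ ih
      have h1 := Tau5.bes_rec b (n + 1)
      have h2 : ∀ j : ℕ, bes b ((j : ℤ) + 1) ≤ bes b j := fun j => by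
        induction j with
        | zero => exact hF.pd.le _
        | succ j ih =>
          have h3 := hF.lc.2 ((j : ℤ) + 1)
          have h4 := hF.pos ((j : ℤ) + 1)
          have h5 := hF.pos j
          rw [add_sub_cancel_right] at h3
          push_cast
          by_contra h6
          push Not at h6
          nlinarith
      obtain ⟨j, rfl⟩ := Int.eq_ofNat_of_zero_le (hm0.trans hn)
      exact h2 j
  rw [div_le_iff₀ h0]
  rcases le_or_gt 0 k with hk | hk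
  · have h1 := ha k (k + 1) (by rw [abs_of_nonneg hk, abs_of_nonneg (by omega)]; omega)
    have h2 : 0 ≤ 2 / b * |(k : ℝ)| * bes b k := by positivity
    nlinarith
  · have h1 := ha k (k - 1) (by rw [abs_of_neg hk, abs_of_neg (by omega)]; omega)
    have h2 := Tau5.bes_rec b k
    have h3 : |(k : ℝ)| = -k := abs_of_neg (by exact_mod_cast hk)
    have h4 : 2 / b * -(k : ℝ) * bes b k = bes b (k + 1) - bes b (k - 1) := by
      field_simp
      linarith
    rw [h3, add_mul, h4]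
    linarith

theorem mv_pos (h : Λ.Ok) (σ : Pt × Pt → ℤ) (e : Pt × Pt) (s : Cfg Pt) : 0 < mv Λ σ e s :=
  div_pos (h.fam.pos _) (h.fam.pos _)

theorem mv_le (hb : 0 < b) (σ : Pt × Pt → ℤ) (e : Pt × Pt) (s : Cfg Pt) :
    mv (xyL b) σ e s ≤ 1 + 2 / b * |(nE σ e s : ℝ)| := bes_succ_le hb _

theorem tame_nE (σ : Pt × Pt → ℤ) (e : Pt × Pt) : Tame fun s => (nE σ e s : ℝ) :=
  ((Tame.dE e).add (Tame.const (σ e))).congr fun s => by rw [nE]; push_cast; rfl

theorem tame_mv (hb : 0 < b) (σ : Pt × Pt → ℤ) (e : Pt × Pt) : Tame (mv (xyL b) σ e) :=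
  ((Tame.const 1).add ((tame_nE σ e).abs.const_mul (2 / b))).of_le fun s => by
    rw [abs_of_pos (mv_pos (xyL_ok hb) σ e s)]
    exact mv_le hb σ e s

theorem depG_mv (Λ : Lat) (σ : Pt × Pt → ℤ) {e : Pt × Pt} {B : Finset Pt} (h1 : e.1 ∈ B)
    (h2 : e.2 ∈ B) : DepG B (mv Λ σ e) :=
  (DepG.dE h1 h2).comp fun k => Λ.w (k + σ e + 1) / Λ.w (k + σ e)

theorem lo_mv (hb : 0 < b) (σ : Pt × Pt → ℤ) (e : Pt × Pt) : Lo (mv (xyL b) σ e) :=
  ⟨⟨{e.1, e.2}, depG_mv _ σ (by simp) (by simp)⟩, tame_mv hb σ e⟩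

/-- a linear functional of the gauge invariant gradients -/
def Yf (T : Finset (Pt × Pt)) (ψ : Pt × Pt → ℝ) (σ : Pt × Pt → ℤ) (s : Cfg Pt) : ℝ :=
  ∑ e ∈ T, ψ e * nE σ e s

theorem lo_Yf (T : Finset (Pt × Pt)) (ψ : Pt × Pt → ℝ) (σ : Pt × Pt → ℤ) : Lo (Yf T ψ σ) :=
  Lo.sum T fun e _ => (Lo.edge e σ (fun k => (k : ℝ)) (tame_nE σ e)).const_mul _

theorem Yf_single (T : Finset (Pt × Pt)) (ψ : Pt × Pt → ℝ) (σ : Pt × Pt → ℤ) (e : Pt × Pt)
    (s : Cfg Pt) :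
    Yf T ψ (σ + Pi.single e 1) s = Yf T ψ σ s + if e ∈ T then ψ e else 0 := by
  rw [← sum_ite_eq' T e ψ, Yf, Yf, ← sum_add_distrib]
  refine sum_congr rfl fun e' _ => ?_
  simp only [nE, Pi.add_apply, Pi.single_apply]
  split_ifs <;> push_cast <;> ring

/-- finite volume, any model: the move changes the sector -/
theorem ex_mv {m : Mdl Pt} (hF : m.Fm) {e : Pt × Pt} (he : e ∈ m.ed) (hw : m.w e = Λ.w)
    (η : Cfg Pt) (σ : Pt × Pt → ℤ) (s : Cfg Pt) :
    m.Ws η σ s * mv Λ σ e s = m.Ws η (σ + Pi.single e 1) s := by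
  have h1 : (∏ e' ∈ m.ed, m.w e' (dE e' s + σ e')) * mv Λ σ e s =
      ∏ e' ∈ m.ed, m.w e' (dE e' s + (σ + Pi.single e 1 : Pt × Pt → ℤ) e') := by
    rw [← mul_prod_erase _ _ he, ← mul_prod_erase _ _ he, mul_right_comm, mv, ← hw, nE,
      mul_div_cancel₀ _ ((hF e he).pos _).ne', Pi.add_apply, Pi.single_eq_same, add_assoc]
    congr 1
    exact prod_congr rfl fun e' he' => by
      rw [Pi.add_apply, Pi.single_eq_of_ne (ne_of_mem_erase he'), add_zero]
  rw [Mdl.Ws, Mdl.Ws, ← h1]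
  ring

theorem exI_mv_mul (h : Λ.Ok) (hσ : FinS σ) {e : Pt × Pt} (he : e.2 - e.1 ∈ Λ.Jp) (hF : Lo F) :
    exI Λ σ (fun s => mv Λ σ e s * F s) =
      ratI Λ (σ + Pi.single e 1) / ratI Λ σ * exI Λ (σ + Pi.single e 1) F := by
  have h2 := (exI_dens h (S := {e}) (by simpa using he) (fun e' he' => by
    rw [Pi.add_apply, Pi.single_eq_of_ne (notMem_singleton.1 he'), add_zero]) hσ
    (hσ.add (finS_single e 1)) hF).2
  rwa [dens_one] at h2

theorem exI_mv (h : Λ.Ok) (hσ : FinS σ) {e : Pt × Pt} (he : e.2 - e.1 ∈ Λ.Jp) :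
    exI Λ σ (mv Λ σ e) = ratI Λ (σ + Pi.single e 1) / ratI Λ σ :=
  (tendsto_mv h hσ he).limUnder_eq

/-- infinite-volume covariance -/
def cvI (Λ : Lat) (σ : Pt × Pt → ℤ) (F G : Cfg Pt → ℝ) : ℝ :=
  exI Λ σ (fun s => F s * G s) - exI Λ σ F * exI Λ σ G

theorem tendsto_cvI (h : Λ.Ok) (hσ : FinS σ) {G : Cfg Pt → ℝ} (hF : Lo F) (hG : Lo G) :
    Tendsto (fun D => Cv ((Λ.D D).Ws 0 σ) F G) atTop (𝓝 (cvI Λ σ F G)) :=
  (tendsto_exI h hσ (hF.mul hG)).sub ((tendsto_exI h hσ hF).mul (tendsto_exI h hσ hG))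

/-- one move against a linear functional -/
theorem cal_one (h : Λ.Ok) (hσ : FinS σ) {e : Pt × Pt} (he : e.2 - e.1 ∈ Λ.Jp)
    (T : Finset (Pt × Pt)) (ψ : Pt × Pt → ℝ) :
    cvI Λ σ (mv Λ σ e) (Yf T ψ σ) / exI Λ σ (mv Λ σ e) =
      exI Λ (σ + Pi.single e 1) (Yf T ψ (σ + Pi.single e 1)) - exI Λ σ (Yf T ψ σ) -
        if e ∈ T then ψ e else 0 := by
  have h1 := hσ.add (finS_single e 1)
  have h2 := (div_pos (ratI_pos h h1) (ratI_pos h hσ)).ne'
  rw [cvI, exI_mv_mul h hσ he (lo_Yf T ψ σ), exI_mv h hσ he, ← mul_sub, mul_div_cancel_left₀ _ h2,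
    funext (Yf_single T ψ σ e), exI_add h h1 (lo_Yf T ψ σ) (Lo.const _), exI_const h h1]
  ring

/-- translate of an edge -/
def shE (t : Pt) : Pt × Pt ≃ Pt × Pt := (Equiv.addRight t).prodCongr (Equiv.addRight t)

theorem exI_Yf_sh (h : Λ.Ok) (hσ : FinS σ) (t : Pt) (T : Finset (Pt × Pt)) (ψ : Pt × Pt → ℝ) :
    exI Λ (shS t σ) (Yf (T.map (shE t).toEmbedding) ψ (shS t σ)) =
      exI Λ σ (Yf T (fun e => ψ (shE t e)) σ) := by
  rw [← exI_trl h hσ (lo_Yf _ _ _) t]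
  congr 1
  funext s
  simp only [Yf, sum_map, trl, nE_trl]
  rfl

/-- CALIBRATION: moving the left end of the seam = moving the right end and translating the test flow -/
theorem calib (h : Λ.Ok) (hJ : ((0, 1) : Pt) ∈ Λ.Jp) (r : ℕ) (T : Finset (Pt × Pt))
    (ψ : Pt × Pt → ℝ) :
    cvI Λ (seam r) (mv Λ (seam r) (eV (-1))) (Yf (T.map (shE (-1, 0)).toEmbedding) ψ (seam r)) /
        exI Λ (seam r) (mv Λ (seam r) (eV (-1))) =
      cvI Λ (seam r) (mv Λ (seam r) (eV r)) (Yf T (fun e => ψ (shE (-1, 0) e)) (seam r)) /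
          exI Λ (seam r) (mv Λ (seam r) (eV r)) +
        (exI Λ (seam r) (Yf T (fun e => ψ (shE (-1, 0) e)) (seam r)) -
          exI Λ (seam r) (Yf (T.map (shE (-1, 0)).toEmbedding) ψ (seam r))) +
        (if eV r ∈ T then ψ (eV (r - 1)) else 0) - if eV 0 ∈ T then ψ (eV (-1)) else 0 := by
  have he : ∀ i, (eV i).2 - (eV i).1 ∈ Λ.Jp := fun i => by simpa [eV] using hJ
  have e1 : shE (-1, 0) (eV r) = eV (r - 1) := by simp [shE, eV, sub_eq_add_neg]
  have e2 : eV (-1) ∈ T.map (shE (-1, 0)).toEmbedding ↔ eV 0 ∈ T := by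
    rw [mem_map_equiv]; simp [shE, eV]
  rw [cal_one h (finS_seam r) (he _), cal_one h (finS_seam r) (he _), seam_left, seam_right,
    exI_Yf_sh h (finS_seam _), e1]
  simp only [e2]
  ring

end Crest.Agent.T145.Inf48
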