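import Crest.Agent.T145.VxDef_35
import Crest.Agent.T145.VxCal_48

/-!
# Row 145 (helper48): the exact calibration (`Vx.CalStmt`)
-/

set_option autoImplicit false

open Finset Filter Topology

noncomputable section

namespace Crest.Agent.T145.Vx.C48

open Inf48
open _root_.Crest.Agent.T145.Lat (rf2 rf2_apply)

variable {Λ : Lat} {σ : Pt × Pt → ℤ}

theorem sm_eq (a : ℤ) (r : ℕ) (e : Pt × Pt) : sm a r e =
    if e.1.2 = -1 ∧ e.2.2 = 0 ∧ e.1.1 = e.2.1 ∧ a ≤ e.1.1 ∧ e.1.1 < a + r then 1 else 0 := by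
  simp only [sm, Vd.ray]
  split_ifs <;> omega

theorem finS_sm (a : ℤ) (r : ℕ) : FinS (sm a r) :=
  ⟨(Ico a (a + r)).image eV, fun e he => (sm_eq a r e).trans (if_neg fun h => he
    (mem_image.2 ⟨e.1.1, mem_Ico.2 ⟨h.2.2.2.1, h.2.2.2.2⟩, by
      ext <;> simp only [eV] <;> omega⟩))⟩

theorem sm_left (a : ℤ) (r : ℕ) : sm a r + Pi.single (eV (a - 1)) 1 = sm (a - 1) (r + 1) := by
  funext ⟨⟨x, y⟩, x', y'⟩
  simp only [Pi.add_apply, sm_eq, Pi.single_apply, eV, Prod.mk.injEq]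
  push_cast
  split_ifs <;> omega

theorem sm_right (a : ℤ) (r : ℕ) : sm a r + Pi.single (eV (a + r)) 1 = sm a (r + 1) := by
  funext ⟨⟨x, y⟩, x', y'⟩
  simp only [Pi.add_apply, sm_eq, Pi.single_apply, eV, Prod.mk.injEq]
  push_cast
  split_ifs <;> omega

theorem shS_sm (t a : ℤ) (r : ℕ) : shS (t, 0) (sm a r) = sm (a + t) r := by
  funext ⟨⟨x, y⟩, x', y'⟩
  simp only [shS, sm_eq, Prod.fst_sub, Prod.snd_sub]
  split_ifs <;> omega

theorem lo_Jv (σ : Pt × Pt → ℤ) (z : Pt) : Lo (Jv σ z) :=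
  Lo.sum univ fun _ _ => (Lo.edge _ σ (fun k => (k : ℝ)) (tame_nE σ _)).sub
    (Lo.edge _ σ (fun k => (k : ℝ)) (tame_nE σ _))

theorem Yv_eq {S : Finset Pt} {u : Pt → ℝ} (hu : Sup S u) (σ : Pt × Pt → ℤ) :
    Yv σ u = fun s => ∑ z ∈ S, u z * Jv σ z s := funext fun _ =>
  finsum_eq_sum_of_support_subset _ fun z hz => by_contra fun h => hz (by
    simp only [hu z h, zero_mul])

theorem lo_Yv {S : Finset Pt} {u : Pt → ℝ} (hu : Sup S u) (σ : Pt × Pt → ℤ) : Lo (Yv σ u) := by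
  rw [Yv_eq hu]
  exact Lo.sum S fun z _ => (lo_Jv σ z).const_mul _

/-! ## the reflection -/

/-- reflection in the line of the seam, with a change of sign -/
def θ (s : Cfg Pt) : Cfg Pt := -mapH (rf2 (-1)) s

theorem θ_apply (s : Cfg Pt) (z : Pt) : θ s z = -s (z.1, -1 - z.2) := by
  rw [θ, Finsupp.neg_apply, mapH_apply]
  congr 2
  ext <;> simp [rf2, neg_add_eq_sub]

theorem ori_eV (i : ℤ) : ori (rf2 (-1)) (eV i) = eV i := by
  show oriF _ _ = _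
  simp [oriF, eV, posD]

theorem tr_sm (a : ℤ) (r : ℕ) : Tr (rf2 (-1)) (sm a r) (-sm a r) := fun e => by
  have h0 : ∀ e : Pt × Pt, (∀ i, e ≠ eV i) → sm a r e = 0 := fun e he =>
    (sm_eq a r e).trans (if_neg fun h => he e.1.1 (by ext <;> simp only [eV] <;> omega))
  by_cases he : ∀ i, e ≠ eV i
  · rw [Pi.neg_apply, h0 e he, h0 _ fun i h => he i ((ori _).injective (h.trans (ori_eV i).symm))]
    simp
  · obtain ⟨i, hi⟩ := not_forall.1 he
    rw [not_not.1 hi, ori_eV, if_neg (by simp [eV]), Pi.neg_apply]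

theorem faces_map (R : ℕ) : (faces R).map (rf2 (-1)).toEmbedding = faces R := by
  ext x
  rw [mem_map_equiv]
  simp only [faces, mem_sq, rf2, Equiv.prodCongr_symm, Equiv.prodCongr_apply, Equiv.refl_symm,
    Equiv.subLeft_symm_apply, Prod.map_fst, Prod.map_snd, Equiv.coe_refl, id]
  push_cast
  omega

theorem ex_θ (h : Λ.Ok) (a : ℤ) (r R : ℕ) (F : Cfg Pt → ℝ) :
    Ex ((Λ.D (faces R)).Ws 0 (sm a r)) (fun s => F (θ s)) =
      Ex ((Λ.D (faces R)).Ws 0 (sm a r)) F := by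
  have h1 := tsum_sym h (h.sym_rf2 (-1)) (tr_sm a r) (faces R) fun s => F (-s)
  rw [faces_map, ← (Equiv.neg (Cfg Pt)).tsum_eq] at h1
  simp only [Equiv.neg_apply, Ws_neg h, neg_neg] at h1
  simp only [Ex_def, θ, h1]

theorem nE_θ (σ : Pt × Pt → ℤ) (i : ℤ) (s : Cfg Pt) : nE σ (eV i) (θ s) = nE σ (eV i) s := by
  simp only [nE, dE, θ_apply, eV]
  norm_num
  ring

theorem Jv_θ (a : ℤ) (r : ℕ) (z : Pt) (s : Cfg Pt) :
    Jv (sm a r) z (θ s) = -Jv (sm a r) (rf2 (-1) z) s := by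
  obtain ⟨x, y⟩ := z
  have e1 : -1 - (y - 1) = -1 - y + 1 := by ring
  have e2 : -1 - (y + 1) = -1 - y - 1 := by ring
  have e3 : sm a r ((x, y - 1), (x, y)) = sm a r ((x, -1 - y), (x, -1 - y + 1)) := by
    simp only [sm_eq, true_and]; split_ifs <;> omega
  have e4 : sm a r ((x, y), (x, y + 1)) = sm a r ((x, -1 - y - 1), (x, -1 - y)) := by
    simp only [sm_eq, true_and]; split_ifs <;> omega
  have e5 : ∀ x x' y : ℤ, sm a r ((x, y), (x', y)) = 0 := fun x x' y => by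
    simp only [sm_eq]; split_ifs <;> omega
  simp only [Jv, Fin.sum_univ_two, nE, dE, θ_apply, ev, rf2_apply, Matrix.cons_val_zero,
    Matrix.cons_val_one, Prod.mk_sub_mk, Prod.mk_add_mk, sub_zero, add_zero, e1, e2, e3, e4, e5]
  push_cast
  ring

theorem Yv_θ (a : ℤ) (r : ℕ) {u : Pt → ℝ} (hu : ∀ z, u (rf2 (-1) z) = u z) (s : Cfg Pt) :
    Yv (sm a r) u (θ s) = -Yv (sm a r) u s := by
  rw [Yv, Yv, ← finsum_neg_distrib, ← finsum_comp_equiv (rf2 (-1)) (f := fun z => -(u z * _))]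
  exact finsum_congr fun z => by rw [Jv_θ, hu, mul_neg]

theorem uc_even (x : ℤ) (ρ : ℕ) (z : Pt) : uc (x, 0) ρ 0 (rf2 (-1) z) = uc (x, 0) ρ 0 z := by
  have e : (((-1 - z.2 : ℤ) : ℝ) - (0 : ℤ) + 1 / 2) = -((z.2 : ℝ) - (0 : ℤ) + 1 / 2) := by
    push_cast; ring
  simp only [uc, rf2_apply, e, Pot.cut1_neg]
  rfl

theorem e_eq (V : Vp) : ∃ i, V.e = eV i := by
  unfold Vp.e; split_ifs <;> exact ⟨_, rfl⟩

theorem p_eq (V : Vp) : ∃ x, V.p = (x, 0) := by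
  unfold Vp.p; split_ifs <;> exact ⟨_, rfl⟩

theorem cal_zero (h : Λ.Ok) (b : ℝ) (V : Vp) (ρ R : ℕ) : lf V (Λ.D (faces R)) ρ (Dv b V) 0 = 0 := by
  obtain ⟨i, hi⟩ := e_eq V
  obtain ⟨x, hx⟩ := p_eq V
  have h1 : ∀ s, Dv b V (θ s) = Dv b V s := fun s => by simp only [Dv, hi, nE_θ]
  have h2 := Yv_θ V.a V.r (uc_even x ρ)
  have h3 := ex_θ h V.a V.r R (Yv (sm V.a V.r) (uc (x, 0) ρ 0))
  have h4 := ex_θ h V.a V.r R fun s => Dv b V s * Yv (sm V.a V.r) (uc (x, 0) ρ 0) s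
  simp only [h1, h2, mul_neg, Ex_neg] at h3 h4
  rw [lf, Cv, hx, Vp.σ, show Ex _ (Yv _ _) = 0 by linarith, show Ex _ _ = 0 by linarith]
  ring

/-! ## the calibration in the limit -/

theorem Jv_single (σ : Pt × Pt → ℤ) (i : ℤ) (z : Pt) (s : Cfg Pt) :
    Jv σ z s = Jv (σ + Pi.single (eV i) 1) z s -
      ((if z = (i, 0) then 1 else 0) - if z = (i, -1) then 1 else 0) := by
  obtain ⟨x, y⟩ := z
  have e1 : ((x - 1, y), (x, y)) ≠ eV i := by simp only [eV, ne_eq, Prod.mk.injEq]; omega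
  have e2 : ((x, y), (x + 1, y)) ≠ eV i := by simp only [eV, ne_eq, Prod.mk.injEq]; omega
  have e3 : ((x, y - 1), (x, y)) = eV i ↔ (x, y) = (i, 0) := by
    simp only [eV, Prod.mk.injEq]; omega
  have e4 : ((x, y), (x, y + 1)) = eV i ↔ (x, y) = (i, -1) := by
    simp only [eV, Prod.mk.injEq]; omega
  simp only [Jv, Fin.sum_univ_two, nE, ev, Matrix.cons_val_zero, Matrix.cons_val_one,
    Prod.mk_sub_mk, Prod.mk_add_mk, sub_zero, add_zero, Pi.add_apply, Pi.single_apply, if_neg e1,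
    if_neg e2, e3, e4]
  push_cast
  ring

/-- the mean of `J` in the limit -/
def jI (Λ : Lat) (σ : Pt × Pt → ℤ) (z : Pt) : ℝ := exI Λ σ (Jv σ z)

theorem jI_sh (h : Λ.Ok) (hσ : FinS σ) (t z : Pt) : jI Λ (shS t σ) (z + t) = jI Λ σ z := by
  rw [jI, jI, ← exI_trl h hσ (lo_Jv σ z) t]
  congr 1
  funext s
  simp only [trl, Jv, nE_trl, sub_add_eq_add_sub, add_right_comm z _ t]

theorem cal_mv (h : Λ.Ok) (hσ : FinS σ) {i : ℤ} (he : (eV i).2 - (eV i).1 ∈ Λ.Jp) {S : Finset Pt}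
    {u : Pt → ℝ} (hu : Sup S u) :
    cvI Λ σ (mv Λ σ (eV i)) (Yv σ u) / exI Λ σ (mv Λ σ (eV i)) =
      ∑ z ∈ S, u z * jI Λ (σ + Pi.single (eV i) 1) z - (u (i, 0) - u (i, -1)) - exI Λ σ (Yv σ u) := by
  have h1 := hσ.add (finS_single (eV i) 1)
  have h2 := (div_pos (ratI_pos h h1) (ratI_pos h hσ)).ne'
  have h3 : ∀ w, ∑ z ∈ S, u z * (if z = w then (1 : ℝ) else 0) = u w := fun w => by
    simp only [mul_ite, mul_one, mul_zero, sum_ite_eq']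
    split_ifs with hw
    exacts [rfl, (hu w hw).symm]
  rw [cvI, exI_mv_mul h hσ he (lo_Yv hu σ), exI_mv h hσ he, ← mul_sub, mul_div_cancel_left₀ _ h2]
  congr 1
  rw [Yv_eq hu, exI_sum h h1 S fun z _ => (lo_Jv σ z).const_mul _, ← h3 (i, 0), ← h3 (i, -1),
    ← sum_sub_distrib, ← sum_sub_distrib]
  refine sum_congr rfl fun z _ => ?_
  rw [exI_const_mul h h1 (lo_Jv σ z), funext (Jv_single σ i z),
    exI_sub h h1 (lo_Jv _ z) (Lo.const _), exI_const h h1, jI]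
  ring

/-- the pair prolonged at the other end -/
def xt (V : Vp) : Vp := ⟨if V.sd then V.a else V.a - 1, V.r + 1, V.sd⟩

/-- the translation that exchanges the two prolongations -/
def tv (V : Vp) : Pt := (if V.sd then -1 else 1, 0)

theorem ext_p (V : Vp) : (xt V).p = V.p := by
  obtain ⟨a, r, _ | _⟩ := V <;> simp [xt, Vp.p]

theorem ext_σ (V : Vp) : V.σ + Pi.single V.sw.e 1 = (xt V).σ := by
  obtain ⟨a, r, _ | _⟩ := V
  exacts [sm_left a r, sm_right a r]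

theorem ext_σ' (V : Vp) : V.σ + Pi.single V.e 1 = shS (tv V) (xt V).σ := by
  obtain ⟨a, r, _ | _⟩ := V
  · exact (sm_right a r).trans (by simp [xt, tv, Vp.σ, shS_sm])
  · exact (sm_left a r).trans (by simp [xt, tv, Vp.σ, shS_sm, sub_eq_add_neg])

theorem sum_sh {S T : Finset Pt} {u : Pt → ℝ} (hu : Sup S u) (t : Pt) (hT : ∀ z, z + t ∈ S → z ∈ T)
    (j : Pt → ℝ) : ∑ z ∈ S, u z * j z = ∑ z ∈ T, u (z + t) * j (z + t) := by
  refine Eq.trans ?_ (sum_map T (Equiv.addRight t).toEmbedding fun z => u z * j z)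
  refine sum_subset (fun z hz => mem_map_equiv.2 (hT _ (by simpa using hz))) fun z _ hz => ?_
  rw [hu z hz, zero_mul]

theorem mem_ds {z p : Pt} {c : ℕ} : z ∈ bl p c ↔ ds z p ≤ c := by
  rw [mem_bl, ds]; omega

theorem cal_lim {b : ℝ} (hb : 0 < b) (V : Vp) {ρ : ℕ} (hρ : 4 ≤ ρ) (hr : 16 * ρ ≤ V.r) {u : Pt → ℝ}
    (hu : Sup (bl V.p (2 * ρ)) u) (h1 : ∀ z, ds z V.p < ρ → u z = z.2 + 1 / 2) :
    cvI (xyL b) V.σ (Dv b V) (Yv V.σ u) / exI (xyL b) V.σ (Dv b V) + 1 -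
      cvI (xyL b) V.σ (Dv b V.sw) (Yv V.σ u) / exI (xyL b) V.σ (Dv b V.sw) =
      ∑ z ∈ bl V.p (2 * ρ + 1), (u (z + tv V) - u z) * jI (xyL b) (xt V).σ z := by
  have h := xyL_ok hb
  obtain ⟨i, hi, i1, i2⟩ : ∃ i, V.e = eV i ∧ ds (i, 0) V.p < ρ ∧ ds (i, -1) V.p < ρ := by
    obtain ⟨a, r, _ | _⟩ := V
    · exact ⟨a + r, rfl, by simp [ds, Vp.p]; omega, by simp [ds, Vp.p]; omega⟩
    · exact ⟨a - 1, rfl, by simp [ds, Vp.p]; omega, by simp [ds, Vp.p]; omega⟩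
  obtain ⟨k, hk, k1, k2⟩ : ∃ i, V.sw.e = eV i ∧ 2 * ρ < ds (i, 0) V.p ∧ 2 * ρ < ds (i, -1) V.p := by
    obtain ⟨a, r, _ | _⟩ := V <;> simp only at hr
    · exact ⟨a - 1, rfl, by simp [ds, Vp.p]; omega, by simp [ds, Vp.p]; omega⟩
    · exact ⟨a + r, rfl, by simp [ds, Vp.p]; omega, by simp [ds, Vp.p]; omega⟩
  have e1 : Dv b V = mv (xyL b) V.σ (eV i) := hi ▸ rfl
  have e2 : Dv b V.sw = mv (xyL b) V.σ (eV k) := hk ▸ rfl
  have hT : ∀ z, z + tv V ∈ bl V.p (2 * ρ) → z ∈ bl V.p (2 * ρ + 1) := fun z hz => by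
    rw [mem_bl] at hz ⊢
    simp only [tv, Prod.fst_add, Prod.snd_add] at hz
    split_ifs at hz <;> omega
  have hσ : FinS V.σ := finS_sm _ _
  rw [e1, e2, cal_mv h hσ (eV_Jp b i) hu, cal_mv h hσ (eV_Jp b k) hu, ← hi, ← hk, h1 _ i1, h1 _ i2, hu _ fun hh => (mem_ds.1 hh).not_gt k1,
    hu _ fun hh => (mem_ds.1 hh).not_gt k2]
  rw [ext_σ, ext_σ', sum_sh hu (tv V) hT, sum_sh hu 0 (T := bl V.p (2 * ρ + 1))
    fun z hz => bl_mono _ (Nat.le_succ _) (by simpa using hz)]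
  simp only [jI_sh (σ := (xt V).σ) h (finS_sm _ _), add_zero, sub_mul, sum_sub_distrib]
  push_cast
  ring

theorem lo_Dv {b : ℝ} (hb : 0 < b) (V : Vp) : Lo (Dv b V) := lo_mv hb V.σ V.e

theorem exI_Dv {b : ℝ} (hb : 0 < b) (V : Vp) : exI (xyL b) V.σ (Dv b V) ≠ 0 := by
  obtain ⟨i, hi⟩ := e_eq V
  have hσ : FinS V.σ := finS_sm _ _
  rw [show Dv b V = mv (xyL b) V.σ (eV i) from hi ▸ rfl, exI_mv (xyL_ok hb) hσ (eV_Jp b i)]
  exact (div_pos (ratI_pos (xyL_ok hb) (hσ.add (finS_single _ 1))) (ratI_pos (xyL_ok hb) hσ)).ne'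

end C48

open C48 Inf48

theorem calStmt (hC : CmStmt) (hU : UcStmt) : CalStmt := fun P hP => by
  obtain ⟨C, r₁, hC⟩ := hC P hP 2
  obtain ⟨K, hU⟩ := hU
  have h : P.L.Ok := hP.crit.1
  have hb : 0 < P.b := h.2
  refine ⟨25 * (K * |C|) + 1, max r₁ 4, fun V ρ hρ hr => ?_⟩
  obtain ⟨h1, h4⟩ := max_le_iff.1 hρ
  obtain ⟨hS, -, hu, hK, -⟩ := hU V.p ρ 1 h4
  obtain ⟨R, hC⟩ := hC (xt V) ρ h1
  obtain ⟨x, hx⟩ := p_eq V
  have hσ : FinS V.σ := finS_sm _ _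
  have ρ4 : (4 : ℝ) ≤ ρ := by exact_mod_cast h4
  have hL : 0 < Real.log ρ ^ (-1 - P.δ) := Real.rpow_pos_of_pos (Real.log_pos (by linarith)) _
  have K0 : 0 ≤ K := (abs_nonneg _).trans ((hK 0).2 0).1
  have hu' : ∀ z, ds z V.p < ρ → uc V.p ρ 1 z = z.2 + 1 / 2 := fun z hz => by
    rw [hu z hz, hx]; simp [co]
  have hlim := (((tendsto_cvI h hσ (lo_Dv hb V) (lo_Yv hS V.σ)).div (tendsto_exI h hσ (lo_Dv hb V))
    (exI_Dv hb V)).add_const 1).sub ((tendsto_cvI h hσ (lo_Dv hb V.sw) (lo_Yv hS V.σ)).div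
      (tendsto_exI h hσ (lo_Dv hb V.sw)) (exI_Dv hb V.sw))
  have hj : ∀ z ∈ bl V.p (2 * ρ + 1), |(uc V.p ρ 1 (z + tv V) - uc V.p ρ 1 z) * jI P.L (xt V).σ z| ≤
      K * (|C| * Real.log ρ ^ (-1 - P.δ) / (ρ : ℝ) ^ 2) := fun z hz => by
    by_cases hz' : ds z V.p + 1 < ρ
    · have h5 : ds (z + tv V) V.p < ρ := by
        simp only [ds, tv, Prod.fst_add, Prod.snd_add] at hz' ⊢
        split_ifs <;> omega
      rw [hu' _ h5, hu' z (by omega)]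
      simp only [tv, Prod.snd_add, add_zero, sub_self, zero_mul, abs_zero]
      positivity
    · rw [abs_mul]
      refine mul_le_mul ?_ ?_ (abs_nonneg _) K0
      · unfold tv
        split_ifs
        · have h5 := ((hK (z + (-1, 0))).2 0).1
          rwa [df, show z + (-1, 0) + ev 0 = z by ext <;> simp [ev], abs_sub_comm] at h5
        · exact ((hK z).2 0).1
      · have h5 := mem_ds.1 hz
        have h6 : ρ ≤ 2 * (xt V).d z := by
          obtain ⟨a, r, _ | _⟩ := V <;> simp [Vp.d, Vp.q, Vp.sw, Vp.p, xt, ds] at hz' h5 hr ⊢ <;> omega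
        refine le_of_tendsto (tendsto_exI h (finS_sm _ _ : FinS (xt V).σ) (lo_Jv _ z)).abs
          ((eventually_ge_atTop (bl V.p R)).mono fun D hD => ?_)
        refine (hC (P.L.D D) z (by simp only [xt]; omega) ?_ (by rw [ext_p]; simp only [xt]; omega)
          h6).trans ?_
        · rw [ext_p]
          exact ⟨h.ctr_D D, h.anch_D D, hD, Lat.near_D hD⟩
        · gcongr
          exact le_abs_self C
  have hlt : |∑ z ∈ bl V.p (2 * ρ + 1), (uc V.p ρ 1 (z + tv V) - uc V.p ρ 1 z) * jI P.L (xt V).σ z| <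
      (25 * (K * |C|) + 1) * Real.log ρ ^ (-1 - P.δ) := by
    refine ((abs_sum_le_sum_abs _ _).trans (sum_le_card_nsmul _ _ _ hj)).trans_lt ?_
    have h5 : (2 * (2 * (ρ : ℝ) + 1) + 1) ^ 2 / (ρ : ℝ) ^ 2 ≤ 25 := by
      rw [div_le_iff₀ (by positivity)]; nlinarith
    have h6 := mul_le_mul_of_nonneg_right h5 (show 0 ≤ K * |C| * Real.log ρ ^ (-1 - P.δ) by positivity)
    rw [card_bl, nsmul_eq_mul]
    push_cast
    calc _ = _ := by ring
      _ ≤ _ := h6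
      _ < _ := by linarith
  rw [← show _ = ∑ z ∈ _, _ * jI P.L _ z from cal_lim hb V h4 hr hS hu'] at hlt
  exact ((hlim.abs.comp tendsto_faces).eventually (gt_mem_nhds hlt)).mono fun R hR =>
    ⟨cal_zero h P.b V ρ R, hR.le⟩

end Crest.Agent.T145.Vx
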