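import Crest.Agent.T145.VxBas_30
import Crest.Agent.T145.CorB_59

/-!
# Row 145 (helper48): the twisted mean of `J` (`Vx.CmStmt`)
-/

set_option autoImplicit false

open Finset

noncomputable section

namespace Crest.Agent.T145.Vx

open Nc (Amb Nm St)

namespace M48

theorem ins_Jz (z : Pt) : Ins z 1 (Jz z) :=
  ⟨fun s s' k hs => by
    simp only [Jz]
    rw [hs z (self_mem_bl _ _), hs (z + (1, 0)) (by simp [B30.mem_bl_ds, ds]),
      hs (z + (-1, 0)) (by simp [B30.mem_bl_ds, ds]), hs (z + (0, 1)) (by simp [B30.mem_bl_ds, ds]),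
      hs (z + (0, -1)) (by simp [B30.mem_bl_ds, ds])]
    push_cast
    ring,
  (((((Tame.ev z).const_mul 4).sub (Tame.ev _)).sub (Tame.ev _)).sub (Tame.ev _)).sub (Tame.ev _)⟩

theorem ins_sin {ρ : ℕ} {ξ : Pt → ℝ} (h0 : Sup (bl 0 ρ) ξ) (h1 : ∑ x ∈ bl 0 ρ, ξ x = 1) (z : Pt) :
    Ins z ρ fun s => Real.sin (2 * Real.pi * pr (fun x => ξ (x - z)) s) := by
  have h2 : ∀ x, x ∉ bl z ρ → ξ (x - z) = 0 := fun x hx => h0 _ fun h => hx (by
    rw [B30.mem_bl_ds] at h ⊢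
    rwa [B30.ds_sub] at h)
  have h3 : ∑ x ∈ bl z ρ, ξ (x - z) = 1 := by
    rw [← h1]
    exact sum_equiv (Equiv.subRight z) (fun x => by
      simp only [B30.mem_bl_ds, Equiv.subRight_apply, B30.ds_sub]) fun _ _ => rfl
  refine ⟨fun s s' k hs => ?_, Tame.bdd fun _ => Real.abs_sin_le_one _⟩
  have h4 : ∑ x ∈ bl z ρ, ξ (x - z) * (s' x : ℝ) = ∑ x ∈ bl z ρ, ξ (x - z) * (s x : ℝ) + k := by
    rw [← one_mul (k : ℝ), ← h3, sum_mul, ← sum_add_distrib]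
    exact sum_congr rfl fun x hx => by rw [hs x hx]; push_cast; ring
  simp only [pr_of_fsupp _ _ h2]
  rw [h4, mul_add, mul_comm (2 * Real.pi) (k : ℝ), Real.sin_add_int_mul_two_pi]

theorem ins_shift {z : Pt} {r : ℕ} {G : Cfg Pt → ℝ} (h : Ins z r G) (g : Cfg Pt) :
    Ins z r fun s => G (s + g) :=
  ⟨fun s s' k hs => h.1 _ _ k fun x hx => by simp only [Finsupp.add_apply, hs x hx]; ring,
    h.2.shift g⟩

theorem Jv_gauge {b : ℝ} {σ : Pt × Pt → ℤ} {z : Pt} {c : ℕ} (hc : 1 ≤ c) {g : Cfg Pt}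
    (hg : ∀ e ∈ (xyL b).edI (bl z c), σ e = dE e g) (s : Cfg Pt) : Jv σ z s = Jz z (s + g) := by
  have hJ : (xyL b).Jp = {(1, 0), (0, 1)} := by
    change nn.filter posD = _
    decide
  have h : ∀ x y : Pt, y - x = (1, 0) ∨ y - x = (0, 1) → ds x z ≤ 1 → ds y z ≤ 1 →
      σ (x, y) = g y - g x := fun x y h1 h2 h3 => hg (x, y) (Lat.mem_edI.2
    ⟨by simpa [hJ] using h1, B30.mem_bl_ds.2 (h2.trans hc), B30.mem_bl_ds.2 (h3.trans hc)⟩)
  have e1 : z - (1, 0) = z + (-1, 0) := by ext <;> simp [sub_eq_add_neg]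
  have e2 : z - (0, 1) = z + (0, -1) := by ext <;> simp [sub_eq_add_neg]
  simp only [Jv, Jz, Fin.sum_univ_two, nE, dE, ev, Matrix.cons_val_zero, Matrix.cons_val_one, e1, e2,
    Finsupp.add_apply]
  rw [h (z + (-1, 0)) z (by simp) (by simp [ds]) (by simp [ds]),
    h z (z + (1, 0)) (by simp) (by simp [ds]) (by simp [ds]),
    h (z + (0, -1)) z (by simp) (by simp [ds]) (by simp [ds]),
    h z (z + (0, 1)) (by simp) (by simp [ds]) (by simp [ds])]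
  push_cast
  ring

/-- the charged mean in a sector is bounded by the centred one -/
theorem abs_ex_sin {m : Mdl Pt} (hc : m.Ctr) (ha : m.Anch) (σ : Pt × Pt → ℤ) (f : Cfg Pt →+ ℝ)
    (g : Cfg Pt) : |Ex (m.Ws 0 σ) fun s => Real.sin (2 * Real.pi * f (s + g))| ≤
      Ph (m.W 0) ((2 * Real.pi) • f) := by
  have h1 := RSD.abs_ex_cos_le (Md.ctr_rsd_seam hc) (fun q => Md.ctr_ses hc ha 0 q)
    ((hc.cen ha).pos0.trans_eq (congrFun (m.W_eq_Ws 0) 0)) (q := σ) (Md.ctr_wts hc ha 0 σ).pos 0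
    ((2 * Real.pi) • f) (2 * Real.pi * f g - Real.pi / 2)
  rw [tilt_zero] at h1
  rw [Mdl.W_eq_Ws]
  refine le_of_eq_of_le (congrArg _ (congrArg _ (funext fun s => ?_))) h1
  rw [← add_sub_assoc, Real.cos_sub_pi_div_two, map_add, mul_add]
  rfl

theorem num {δ : ℝ} (h0 : 0 < δ) (h1 : δ ≤ 1 / 4) {Q D ρ : ℝ} (hQ : 1 ≤ Q) (hD : Q ^ 2 < D)
    (hρ : D ≤ Q * ρ) : Real.log ρ ^ (-1 - δ) / ρ ^ 2 ≤ 4 * Q ^ 2 * (Real.log D ^ (-1 - δ) / D ^ 2) := by
  have D1 : 1 < D := by nlinarith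
  have ρ0 : 0 < ρ := by nlinarith
  have hL := Real.log_pos D1
  have h2 : Real.log D / 2 ≤ Real.log ρ := by
    have h3 := Real.log_le_log (by positivity) hD.le
    have h4 := Real.log_le_log (by positivity) hρ
    rw [Real.log_pow] at h3
    rw [Real.log_mul (by positivity) ρ0.ne'] at h4
    push_cast at h3
    linarith
  have h3 : Real.log ρ ^ (-1 - δ) ≤ 4 * Real.log D ^ (-1 - δ) := by
    refine (Real.rpow_le_rpow_of_nonpos (by positivity) h2 (by linarith)).trans ?_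
    rw [Real.div_rpow hL.le zero_le_two, div_eq_mul_inv, mul_comm, ← Real.rpow_neg zero_le_two]
    refine mul_le_mul_of_nonneg_right ?_ (by positivity)
    exact (Real.rpow_le_rpow_of_exponent_le one_le_two (show _ ≤ (2 : ℝ) by linarith)).trans_eq
      (by norm_num)
  have h4 : 1 / ρ ^ 2 ≤ Q ^ 2 / D ^ 2 := by
    rw [div_le_div_iff₀ (by positivity) (by positivity), one_mul, ← mul_pow]
    gcongr
  calc _ = Real.log ρ ^ (-1 - δ) * (1 / ρ ^ 2) := by ring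
    _ ≤ 4 * Real.log D ^ (-1 - δ) * (Q ^ 2 / D ^ 2) := by gcongr
    _ = _ := by ring

end M48

open M48 B30

theorem cmStmt (hT : TrStmt) (hG : GgStmt) (hC : CovStmt) : CmStmt := fun P hP Λc => by
  obtain ⟨C, hC⟩ := hC P hP 1
  set Q : ℕ := 8 * ((Λc + 1) * P.W₀) with hQ
  have W4 := hP.W2
  have r16 := hP.r2
  have Q1 : 4 * P.W₀ ≤ Q := by nlinarith
  refine ⟨(|C| + 1) * P.K * (4 * (2 * Q) ^ 2), Q * P.r₀ + (2 * Q) ^ 2 + 1, fun V D hD => ?_⟩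
  set ρ := D / Q with hρ
  have ρ0 : P.r₀ ≤ ρ := (Nat.le_div_iff_mul_le (by omega)).2 (by nlinarith)
  have ρ1 : Q * ρ ≤ D := Nat.mul_div_le D Q
  have ρ2 : D ≤ 2 * Q * ρ := by
    have := Nat.lt_mul_div_succ D (show 0 < Q by omega)
    nlinarith
  obtain ⟨a, ξ, R, ξ0, ξ1, h3⟩ := hP.f3 ρ ρ0
  refine ⟨5 * V.r + R + P.W₀ * ρ, fun m z hr hm hz hd => ?_⟩
  have d8 : 8 * (P.W₀ * ρ) ≤ V.d z := by
    refine Nat.le_of_mul_le_mul_left ?_ (Nat.succ_pos Λc)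
    calc _ = Q * ρ := by rw [hQ]; simp only [Nat.succ_eq_add_one]; ring
      _ ≤ Λc * V.d z := ρ1.trans hd
      _ ≤ _ := Nat.mul_le_mul_right _ (Nat.le_succ _)
  have c1 := succ_le hP (show 1 ≤ ρ by omega)
  have r4 : 4 * (P.W₀ * P.r₀) ≤ V.r := by nlinarith
  obtain ⟨g, g1, -, g2⟩ := hG P.b V z (P.W₀ * ρ) (b_pos hP) (by omega)
  obtain ⟨n1, n2⟩ := h3 z
  have iS := ins_le (ins_sin ξ0 ξ1 z) (Nat.le_succ ρ)
  have iG := ins_sub (ins_le (ins_Jz z) (show 1 ≤ ρ + 1 by omega)) (ins_smul iS a)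
  set G := fun s => Jz z s - a * Real.sin (2 * Real.pi * pr (fun x => ξ (x - z)) s) with hGd
  have iG' := ins_shift iG g
  have iT := ins_tr hP hT iG' V.σ
  have am : ∀ c, c ≤ R + P.W₀ * ρ → Amb P.L m (bl z c) := fun c hc => amb_mono hm (bl_sub (by omega))
  have e1 : P.L.tr V.σ z ρ (fun s => G (s + g)) = fun s => St P.L z ρ G (s + g) :=
    (g2 _ le_rfl G).2 ρ c1 iG
  have e2 : St P.L z ρ G = P.L.tr 0 z ρ G := funext fun s => by rw [St, Mdl.W_eq_Ws]; rfl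
  have e3 : P.N V z ρ (P.L.tr V.σ z ρ fun s => G (s + g)) = Nm P.L z (P.W₀ * ρ) (St P.L z ρ G) := by
    rw [e1]
    exact (g2 _ le_rfl fun s => |St P.L z ρ G s|).1 (ins_abs (ins_le (e2 ▸ ins_tr hP hT iG 0) c1))
  have b1 := ((hC V m P.r₀ P.r₀ _ _ le_rfl r4 le_rfl r4 (amb_mono hm (bl_mono _ (by omega)))
    (ins_const _ _ 0) (ins_const _ _ 0)).2.2 z ρ _ ρ0 (by omega) (am _ (by omega)) iT).1
  have N0 := N_nonneg hP V z ρ (P.L.tr V.σ z ρ fun s => G (s + g))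
  have b2 : |Ex (m.Ws 0 V.σ) fun s => G (s + g)| ≤
      |C| * (P.K * Real.log ρ ^ (-1 - P.δ) / (ρ : ℝ) ^ 2) := by
    rw [← ex_tr hP hT iG' V.σ (am ρ (by omega))]
    refine ((abs_Ex_le (amb_wt hm _).nonneg (amb_ig hm _ iT.2)).trans b1).trans ?_
    exact mul_le_mul (le_abs_self C) (e3.trans_le (n1 _ le_rfl)) N0 (abs_nonneg C)
  have b3 := (mul_le_mul_of_nonneg_left (abs_ex_sin hm.ctr hm.anch V.σ (pr fun x => ξ (x - z)) g)
    (abs_nonneg a)).trans (n2 m (am R (by omega)))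
  have e4 : Jv V.σ z = fun s => G (s + g) +
      a * Real.sin (2 * Real.pi * pr (fun x => ξ (x - z)) (s + g)) := funext fun s => by
    rw [Jv_gauge (by omega) g1, hGd, sub_add_cancel]
  rw [e4, Ex_add (amb_ig hm _ iG'.2) (amb_ig hm _ (ins_shift (ins_smul iS a) g).2), Ex_const_mul]
  rw [← abs_mul] at b3
  have b4 := num hP.δ0 hP.δ1 (Q := 2 * Q) (D := D) (ρ := ρ) (by exact_mod_cast (by omega : 1 ≤ 2 * Q))
    (by exact_mod_cast (by omega : (2 * Q) ^ 2 < D)) (by exact_mod_cast ρ2)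
  have K0 : 0 ≤ (|C| + 1) * P.K := mul_nonneg (by positivity) (zero_le_one.trans hP.K1)
  calc _ ≤ _ := abs_add_le _ _
    _ ≤ _ := add_le_add b2 b3
    _ = (|C| + 1) * P.K * (Real.log ρ ^ (-1 - P.δ) / (ρ : ℝ) ^ 2) := by ring
    _ ≤ _ := mul_le_mul_of_nonneg_left b4 K0
    _ = _ := by ring

end Crest.Agent.T145.Vx
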