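import Crest.Agent.T145.VxBas_30

/-!
# Row 145, twisted module: covariances and means of cells (helper30)
-/

set_option autoImplicit false

namespace Crest.Agent.T145.Vx

open Finset B30
open Nc (an Amb)

namespace Cov30

/-- a core scale adapted to two distances -/
theorem pick {W r₀ r Λc a b : ℕ} (hW : 1 ≤ W) (h0 : 1 ≤ r₀) (hr : 4 * (W * r₀) ≤ r)
    (ha : 4 * (W * r₀) ≤ a) (hb : 4 * (W * r₀) ≤ b) (hab : min a r ≤ Λc * min b r)
    (hba : min b r ≤ Λc * min a r) {Λ' : ℕ} (hΛ : (Λc + 1) * (4 * W) ≤ Λ') :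
    ∃ ρ, r₀ ≤ ρ ∧ 4 * (W * ρ) ≤ r ∧ (2 * (W * ρ) ≤ a ∧ (r ≤ 2 * a ∨ a ≤ Λ' * ρ)) ∧
      2 * (W * ρ) ≤ b ∧ (r ≤ 2 * b ∨ b ≤ Λ' * ρ) := by
  set M := min (min a b) (r / 2) with hM
  have h2W : 0 < 2 * W := by omega
  have e1 : 2 * (W * (M / (2 * W))) ≤ M := by
    rw [← mul_assoc]; exact Nat.mul_div_le M (2 * W)
  have e0 : r₀ ≤ M / (2 * W) := (Nat.le_div_iff_mul_le h2W).2 (by
    rw [mul_comm, mul_assoc]; omega)
  have e2 : M < 2 * W * (M / (2 * W) + 1) := Nat.lt_mul_div_succ M h2W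
  set ρ := M / (2 * W)
  have e3 : M ≤ 4 * W * ρ := by nlinarith
  have e4 : (Λc + 1) * M ≤ Λ' * ρ :=
    (Nat.mul_le_mul_left _ e3).trans (by rw [← mul_assoc]; exact Nat.mul_le_mul_right _ hΛ)
  have key : ∀ x y : ℕ, M = min (min x y) (r / 2) → min x r ≤ Λc * min y r → r ≤ 2 * x ∨ x ≤ Λ' * ρ := by
    intro x y h1 h2
    by_cases hx : r ≤ 2 * x
    · exact Or.inl hx
    right
    refine le_trans ?_ e4
    rw [add_mul, one_mul]
    by_cases hy : x ≤ y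
    · omega
    · rw [min_eq_left (by omega), min_eq_left (by omega)] at h2
      rw [show M = y by omega]; omega
  exact ⟨ρ, e0, by omega, ⟨by omega, key a b hM hab⟩, by omega, key b a (by omega) hba⟩

end Cov30

open Cov30

theorem covStmt (hT : TrStmt) (hD : DomStmt) : CovStmt := fun P hP Λc => by
  obtain ⟨C₀, hC⟩ := hD P hP ((max Λc 1 + 1) * (4 * P.W₀))
  have hW := hP.W2
  have hr₀ := hP.r2
  obtain ⟨C, C0, CC⟩ : ∃ C : ℝ, 0 ≤ C ∧ C₀ ≤ C := ⟨max C₀ 0, le_max_right _ _, le_max_left _ _⟩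
  -- domination with a nonnegative constant
  have dom : ∀ (V : Vp) (m : Mdl Pt) (ρp ρq : ℕ) (I : Finset (Fin 2)) (z : Fin 2 → Pt) (ρ : Fin 2 → ℕ)
      (F F' : Cfg Pt → ℝ) (G : Fin 2 → Cfg Pt → ℝ),
      Adm P ((max Λc 1 + 1) * (4 * P.W₀)) V ρp ρq I z ρ → Amb P.L m (bl V.p (4 * V.r)) →
      (∀ i ∈ I, Amb P.L m (bl (z i) (P.W₀ * ρ i)) ∧ Ins (z i) (ρ i + 1) (G i)) →
      Ins V.p (ρp + 1) F → Ins V.q (ρq + 1) F' →
      Ex (m.Ws 0 V.σ) (fun s => |F s * F' s * ∏ i ∈ I, G i s|) ≤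
        C * P.N V V.p ρp F * P.N V V.q ρq F' * ∏ i ∈ I, P.N V (z i) (ρ i) (G i) := by
    intro V m ρp ρq I z ρ F F' G h1 h2 h3 h4 h5
    refine (hC V m ρp ρq I z ρ F F' G h1 h2 h3 h4 h5).trans ?_
    have a := N_nonneg hP V V.p ρp F
    have b := N_nonneg hP V V.q ρq F'
    have c : 0 ≤ ∏ i ∈ I, P.N V (z i) (ρ i) (G i) := prod_nonneg fun i _ => N_nonneg hP _ _ _ _
    exact mul_le_mul_of_nonneg_right (mul_le_mul_of_nonneg_right
      (mul_le_mul_of_nonneg_right CC a) b) c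
  refine ⟨2 * C + C * C, fun V m ρp ρq F F' p0 p1 q0 q1 hm hF hF' => ?_⟩
  have hw := amb_wt hm V.σ
  have hs := amb_se hm V.σ
  have l1 := four_le (ρ := ρp) hP
  have l2 := four_le (ρ := ρq) hP
  have l0 : P.W₀ * P.r₀ ≤ P.W₀ * ρp := Nat.mul_le_mul_left _ p0
  have hpq := ds_pq V
  have hmp : Amb P.L m (bl V.p ρp) := amb_mono hm (bl_mono _ (by omega))
  have hmq : Amb P.L m (bl V.q ρq) := amb_mono hm (bl_sub (by rw [ds_qp]; omega))
  obtain ⟨A, hA⟩ : ∃ A : Cfg Pt → ℝ,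
    A = fun s => P.L.tr V.σ V.p ρp F s - P.L.exN V.σ V.p (P.W₀ * ρp) F := ⟨_, rfl⟩
  obtain ⟨B, hB⟩ : ∃ B : Cfg Pt → ℝ,
    B = fun s => P.L.tr V.σ V.q ρq F' s - P.L.exN V.σ V.q (P.W₀ * ρq) F' := ⟨_, rfl⟩
  have iA : Ins V.p (ρp + 1) A := hA ▸ ins_sub_const (ins_tr hP hT hF _) _
  have iB : Ins V.q (ρq + 1) B := hB ▸ ins_sub_const (ins_tr hP hT hF' _) _
  have nA : P.N V V.p ρp A = P.ν V ρp F := by rw [hA, ν_eq]
  have nB : P.N V V.q ρq B = P.ν V.sw ρq F' := by rw [hB, ν_sw_eq]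
  have νA := ν_nonneg hP V ρp F
  have νB := ν_nonneg hP V.sw ρq F'
  have adm0 : Adm P ((max Λc 1 + 1) * (4 * P.W₀)) V ρp ρq ∅ 0 0 :=
    ⟨p0, p1, q0, q1, by simp, by simp, by simp, by simp⟩
  have dAB := dom V m ρp ρq ∅ 0 0 A B 0 adm0 hm (by simp) iA iB
  have dA := dom V m ρp ρq ∅ 0 0 A (fun _ => 1) 0 adm0 hm (by simp) iA (ins_const _ _ 1)
  have dB := dom V m ρp ρq ∅ 0 0 (fun _ => 1) B 0 adm0 hm (by simp) (ins_const _ _ 1) iB
  simp only [prod_empty, mul_one, one_mul, N_one hP, nA, nB] at dAB dA dB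
  have eA : 0 ≤ Ex (m.Ws 0 V.σ) fun s => |A s| := Ex_nonneg hw.nonneg fun _ _ => abs_nonneg _
  refine ⟨?_, ?_, fun z ρ G z0 z1 hz hG => ?_⟩
  · have e : (fun s => |P.L.tr V.σ V.p ρp F s - Ex (m.Ws 0 V.σ) F|) =
        fun s => |A s - Ex (m.Ws 0 V.σ) A| := by
      funext s
      rw [hA, hw.ex_sub_const (hs.ig (tame_tr hP hT hF _)), ex_tr hP hT hF _ hmp]
      simp only [sub_sub_sub_cancel_right]
    rw [e]
    have h1 := abs_Ex_le hw.nonneg (hs.ig iA.2)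
    have h2 : Ex (m.Ws 0 V.σ) (fun s => |A s - Ex (m.Ws 0 V.σ) A|) ≤
        Ex (m.Ws 0 V.σ) fun s => |A s| + |Ex (m.Ws 0 V.σ) A| :=
      Ex_mono hw.nonneg (hs.ig (iA.2.sub (Tame.const _)).abs) (hs.ig (iA.2.abs.add (Tame.const _)))
        fun s => abs_sub _ _
    rw [hw.ex_add_const (hs.ig iA.2.abs)] at h2
    nlinarith only [h1, h2, dA, νA, mul_nonneg (mul_nonneg C0 C0) νA]
  · have o1 : Out (bl V.p ρp) F' := ins_out hF' (by rw [ds_qp]; omega)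
    have o2 : Out (bl V.q ρq) (P.L.tr V.σ V.p ρp F) := ins_out (ins_tr hP hT hF _) (by omega)
    rw [← cv_tr hP hT hF _ o1 hF'.2 hmp, Cv_comm, ← cv_tr hP hT hF' _ o2 (tame_tr hP hT hF _) hmq,
      Cv_comm, ← cv_sub_const hw hs (tame_tr hP hT hF _) (tame_tr hP hT hF' _)
        (P.L.exN V.σ V.p (P.W₀ * ρp) F) (P.L.exN V.σ V.q (P.W₀ * ρq) F'), ← hA, ← hB]
    refine (abs_cv_le hw hs iA.2 iB.2).trans ?_
    have h1 := mul_le_mul dA dB (Ex_nonneg hw.nonneg fun _ _ => abs_nonneg _) (mul_nonneg C0 νA)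
    nlinarith only [h1, dAB, mul_nonneg (mul_nonneg C0 νA) νB]
  have l3 : P.W₀ * P.r₀ ≤ P.W₀ * ρ := Nat.mul_le_mul_left _ z0
  have l4 := four_le (ρ := ρ) hP
  have zp := d_le_p V z
  have zq := d_le_q V z
  have one : ∀ a : ℕ, min a V.r ≤ max Λc 1 * min a V.r := fun a =>
    Nat.le_mul_of_pos_left _ (by omega)
  have nG := N_nonneg hP V z ρ G
  obtain ⟨σp, s0, s1, s2, -⟩ := pick (W := P.W₀) (r₀ := P.r₀) (r := V.r) (a := ds z V.p) (b := ds z V.p) (by omega)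
    (by omega) (by omega) (by omega) (by omega) (one _) (one _) le_rfl
  obtain ⟨σq, t0, t1, t2, -⟩ := pick (W := P.W₀) (r₀ := P.r₀) (r := V.r) (a := ds z V.q) (b := ds z V.q) (by omega)
    (by omega) (by omega) (by omega) (by omega) (one _) (one _) le_rfl
  have dG := dom V m σp σq {0} (fun _ => z) (fun _ => ρ) (fun _ => 1) (fun _ => 1) (fun _ => G)
    ⟨s0, s1, t0, t1, fun _ _ => ⟨z0, z1⟩, fun _ _ => s2, fun _ _ => t2, by simp⟩ hm
    (fun _ _ => ⟨hz, hG⟩) (ins_const _ _ 1) (ins_const _ _ 1)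
  simp only [prod_singleton, mul_one, one_mul, N_one hP] at dG
  refine ⟨by nlinarith only [dG, mul_nonneg C0 nG, mul_nonneg (mul_nonneg C0 C0) nG],
    fun h1 h2 => ?_, fun w ρ' G' w0 w1 hw' hG' hzw hc => ?_⟩
  · have h3 : Λc * ρp ≤ (max Λc 1 + 1) * (4 * P.W₀) * ρp := Nat.mul_le_mul_right _
      (le_trans (by omega) (Nat.le_mul_of_pos_right _ (by omega)))
    have dAG := dom V m ρp σq {0} (fun _ => z) (fun _ => ρ) A (fun _ => 1) (fun _ => G)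
      ⟨p0, p1, t0, t1, fun _ _ => ⟨z0, z1⟩, fun _ _ => ⟨h1, h2.imp_right fun h => h.trans h3⟩,
        fun _ _ => t2, by simp⟩ hm (fun _ _ => ⟨hz, hG⟩) iA (ins_const _ _ 1)
    simp only [prod_singleton, mul_one, N_one hP, nA] at dAG
    have o1 : Out (bl V.p ρp) G := ins_out hG (by omega)
    rw [← cv_tr hP hT hF _ o1 hG.2 hmp, ← cv_sub_const hw hs (tame_tr hP hT hF _) hG.2
      (P.L.exN V.σ V.p (P.W₀ * ρp) F) 0, ← hA]
    simp only [sub_zero]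
    refine (abs_cv_le hw hs iA.2 hG.2).trans ?_
    have h4 := mul_le_mul dA dG (Ex_nonneg hw.nonneg fun _ _ => abs_nonneg _) (mul_nonneg C0 νA)
    nlinarith only [h4, dAG, mul_nonneg (mul_nonneg C0 νA) nG]
  · have l5 : P.W₀ * P.r₀ ≤ P.W₀ * ρ' := Nat.mul_le_mul_left _ w0
    have wp := d_le_p V w
    have wq := d_le_q V w
    have up : ∀ a b : ℕ, a ≤ Λc * b → a ≤ max Λc 1 * b := fun a b h =>
      h.trans (Nat.mul_le_mul_right _ (le_max_left _ _))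
    obtain ⟨τp, a0, a1, a2, a3⟩ := pick (W := P.W₀) (r₀ := P.r₀) (r := V.r) (a := ds z V.p) (b := ds w V.p)
      (by omega) (by omega) (by omega) (by omega) (by omega) (up _ _ (hc _ (Or.inl rfl)).1)
      (up _ _ (hc _ (Or.inl rfl)).2) le_rfl
    obtain ⟨τq, b0, b1, b2, b3⟩ := pick (W := P.W₀) (r₀ := P.r₀) (r := V.r) (a := ds z V.q) (b := ds w V.q)
      (by omega) (by omega) (by omega) (by omega) (by omega) (up _ _ (hc _ (Or.inr rfl)).1)
      (up _ _ (hc _ (Or.inr rfl)).2) le_rfl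
    have dGG := dom V m τp τq univ ![z, w] ![ρ, ρ'] (fun _ => 1) (fun _ => 1) ![G, G']
      ⟨a0, a1, b0, b1, fun i _ => by fin_cases i; exacts [⟨z0, z1⟩, ⟨w0, w1⟩],
        fun i _ => by fin_cases i; exacts [a2, a3], fun i _ => by fin_cases i; exacts [b2, b3],
        fun i _ j _ hij => by
          fin_cases i <;> fin_cases j
          · exact absurd rfl hij
          · exact hzw
          · rw [add_comm, ds_comm]; exact hzw
          · exact absurd rfl hij⟩ hm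
      (fun i _ => by fin_cases i; exacts [⟨hz, hG⟩, ⟨hw', hG'⟩]) (ins_const _ _ 1) (ins_const _ _ 1)
    simp only [Fin.prod_univ_two, Matrix.cons_val_zero, Matrix.cons_val_one, mul_one, one_mul,
      N_one hP] at dGG
    have nG' := N_nonneg hP V w ρ' G'
    nlinarith only [dGG, mul_nonneg (mul_nonneg C0 nG) nG', mul_nonneg (mul_nonneg (mul_nonneg C0 C0) nG) nG']

end Crest.Agent.T145.Vx
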