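import Crest.Agent.T145.VxDomA_89
import Crest.Agent.T145.VxBas_30

/-!
# Row 145 (helper89): `DomStmt`, `Dom1Stmt`
-/

set_option autoImplicit false

namespace Crest.Agent.T145.Vx

open Finset Nc Nc.Geo B30
open Ks68 (zr zx)

namespace D89

variable {P : Par} {V : Vp} {m : Mdl Pt} {c c' R M ρ : ℕ} {F : Cfg Pt → ℝ} {z : Pt}

theorem uu_pos (hP : P.Ok) (V : Vp) (c : ℕ) : 0 < uu P.b V c :=
  zr_fr_pos (σ := V.σ) (lok hP) (cnL_bl (lok hP) V.p c) ⟨_, self_mem_bl _ _⟩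

theorem uu_le_one (hP : P.Ok) (V : Vp) (c : ℕ) : uu P.b V c ≤ 1 :=
  zr_fr_le (σ := V.σ) (lok hP) (cnL_bl (lok hP) V.p c) ⟨_, self_mem_bl _ _⟩

theorem tt_empty (hP : P.Ok) (V : Vp) (h : R ≤ c) : tt P.b V c R = 1 := by
  have e : an V.p c R = ∅ := sdiff_eq_empty_iff_subset.2 (bl_mono _ h)
  rw [tt, e]
  exact zr_empty (P.L.N ∅) V.σ (fm_N (lok hP) _)

theorem tt_nonneg (hP : P.Ok) (V : Vp) (c R : ℕ) : 0 ≤ tt P.b V c R := by
  rcases lt_or_ge c R with h | h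
  · exact (zr_fr_pos (σ := V.σ) (lok hP) (cnL_an (lok hP) V.p h) (an_nonempty _ h)).le
  · rw [tt_empty hP V h]; exact zero_le_one

/-- `u` loses at most a power over a bounded ratio of scales -/
theorem uu_up (hP : P.Ok) (h0 : P.r₀ ≤ c) (h1 : c ≤ R) (h2 : 2 * R ≤ V.r) (hM : R ≤ M * c) :
    uu P.b V c ≤ P.K ^ 2 * (M : ℝ) ^ P.n * uu P.b V R := by
  have c0 : 0 < c := by have := hP.r2; omega
  have M1 : 1 ≤ M := Nat.pos_of_ne_zero fun k => by rw [k, zero_mul] at hM; omega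
  have M1' : (1 : ℝ) ≤ M := by exact_mod_cast M1
  have K1 := hP.K1
  have u0 := uu_pos hP V c
  rcases h1.eq_or_lt with rfl | h1
  · exact le_mul_of_one_le_left u0.le (one_le_mul_of_one_le_of_one_le (one_le_pow₀ K1) (one_le_pow₀ M1'))
  obtain ⟨k1, k2⟩ := hP.k1 V c R h0 h1 h2
  have R0 : (0 : ℝ) < R := by exact_mod_cast c0.trans h1
  have e : 1 ≤ (M : ℝ) ^ P.n * ((c : ℝ) / R) ^ P.n := by
    rw [← mul_pow]
    refine one_le_pow₀ ?_
    rw [← mul_div_assoc, le_div_iff₀ R0, one_mul]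
    exact_mod_cast hM
  have M0 : 0 ≤ (M : ℝ) ^ P.n := by positivity
  calc uu P.b V c ≤ uu P.b V c * ((M : ℝ) ^ P.n * ((c : ℝ) / R) ^ P.n) :=
        le_mul_of_one_le_right u0.le e
    _ ≤ uu P.b V c * ((M : ℝ) ^ P.n * (P.K * tt P.b V c R)) :=
        mul_le_mul_of_nonneg_left (mul_le_mul_of_nonneg_left k2 M0) u0.le
    _ = (M : ℝ) ^ P.n * P.K * (uu P.b V c * tt P.b V c R) := by ring
    _ ≤ (M : ℝ) ^ P.n * P.K * (P.K * uu P.b V R) :=
        mul_le_mul_of_nonneg_left k1 (mul_nonneg M0 (zero_le_one.trans K1))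
    _ = _ := by ring

/-- quasi-multiplicativity with a gap -/
theorem uu_tt (hP : P.Ok) (h0 : P.r₀ ≤ c) (h1 : c ≤ R) (h2 : 2 * R ≤ V.r) (hc : c ≤ c')
    (hM : c' ≤ M * c) :
    uu P.b V c * tt P.b V c' R ≤ P.K ^ 3 * (M : ℝ) ^ P.n * uu P.b V R := by
  have K1 := hP.K1
  have A0 : 0 ≤ P.K ^ 2 * (M : ℝ) ^ P.n := by positivity
  rcases lt_or_ge c' R with h | h
  · calc uu P.b V c * tt P.b V c' R
        ≤ P.K ^ 2 * (M : ℝ) ^ P.n * uu P.b V c' * tt P.b V c' R :=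
          mul_le_mul_of_nonneg_right (uu_up hP h0 hc (by omega) hM) (tt_nonneg hP V _ _)
      _ = P.K ^ 2 * (M : ℝ) ^ P.n * (uu P.b V c' * tt P.b V c' R) := by ring
      _ ≤ P.K ^ 2 * (M : ℝ) ^ P.n * (P.K * uu P.b V R) :=
          mul_le_mul_of_nonneg_left (hP.k1 V c' R (h0.trans hc) h h2).1 A0
      _ = _ := by ring
  · rw [tt_empty hP V h, mul_one]
    refine (uu_up hP h0 h1 h2 (h.trans hM)).trans ?_
    calc _ = 1 * (P.K ^ 2 * (M : ℝ) ^ P.n * uu P.b V R) := by ring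
      _ ≤ P.K * (P.K ^ 2 * (M : ℝ) ^ P.n * uu P.b V R) :=
          mul_le_mul_of_nonneg_right K1 (mul_nonneg A0 (uu_pos hP V R).le)
      _ = _ := by ring

theorem gam_le (hP : P.Ok) (h : P.r₀ ≤ ρ) : gam P.L ρ (P.W₀ * ρ) ≤ 2 :=
  ((hP.gd ρ).2.2 ρ h le_rfl).trans (by norm_num)

theorem room (hP : P.Ok) (h : P.r₀ ≤ ρ) : ρ + 2 * P.L.rg ≤ P.W₀ * ρ := by
  have := four_le hP (ρ := ρ); have := hP.r2; rw [L_rg]; omega

/-- a free cell -/
theorem fam_free (hP : P.Ok) (hF : m.Fm) (h0 : P.r₀ ≤ ρ) (h : Lh P.L m ∅ z (P.W₀ * ρ - P.L.rg))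
    (hI : Ins z (ρ + 1) F) (V : Vp) :
    Fam m V.σ (bl z (P.W₀ * ρ)) (fun s => |F s|) (2 * P.N V z ρ F) :=
  fam_cell' (lok hP) hF h (room hP h0) hI (gam_le hP h0)

/-- the core cell together with the annulus between `c'` and `R` -/
theorem fam_core (hP : P.Ok) (hF : m.Fm) (h0 : P.r₀ ≤ ρ) (h1 : P.W₀ * ρ ≤ R) (h2 : 2 * R ≤ V.r)
    (hc : P.W₀ * ρ ≤ c') (hM : c' ≤ M * (P.W₀ * ρ)) (h : Lh P.L m ∅ V.p (P.W₀ * ρ - P.L.rg))
    (h' : InL P.L m (an V.p c' R)) (hI : Ins V.p (ρ + 1) F) :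
    Fam m V.σ (bl V.p (P.W₀ * ρ) ∪ an V.p c' R) (fun s => |F s|)
      (2 * (P.K ^ 3 * (M : ℝ) ^ P.n) * uu P.b V R * P.N V V.p ρ F) := by
  have k := (fam_cell (σ := V.σ) (lok hP) hF h (room hP h0) hI).mul (fam_an (lok hP) hF h') hF
    (disjoint_bl_an _ _ hc)
  refine (k.congr fun s => (mul_one _).symm).mono Subset.rfl ?_
  have n0 := N_nonneg hP V V.p ρ F
  have r0 : P.r₀ ≤ P.W₀ * ρ := by have := four_le hP (ρ := ρ); omega
  calc _ = gam P.L ρ (P.W₀ * ρ) * (uu P.b V (P.W₀ * ρ) * tt P.b V c' R * P.N V V.p ρ F) := by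
        change _ * (uu P.b V (P.W₀ * ρ) * P.N V V.p ρ F) * tt P.b V c' R = _
        ring
    _ ≤ 2 * (P.K ^ 3 * (M : ℝ) ^ P.n * uu P.b V R * P.N V V.p ρ F) :=
        mul_le_mul (gam_le hP h0) (mul_le_mul_of_nonneg_right (uu_tt hP r0 h1 h2 hc hM) n0)
          (mul_nonneg (mul_nonneg (uu_pos hP V _).le (tt_nonneg hP V _ _)) n0) zero_le_two
    _ = _ := by ring

theorem cell_disj {p : Pt} {a : ℕ} (h0 : 0 < c) (h1 : 4 * a ≤ ds z p) (h2 : 2 * c ≤ ds z p)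
    (h3 : 2 * R ≤ ds z p ∨ 2 * ds z p ≤ c') : Disjoint (bl p c ∪ an p c' R) (bl z a) := by
  refine disjoint_left.2 fun x hx hx' => ?_
  have t1 := ds_tri z x p
  have t2 := ds_tri x z p
  rw [mem_bl_ds] at hx'
  rw [ds_comm z x] at t1
  rcases mem_union.1 hx with hx | hx
  · rw [mem_bl_ds] at hx; omega
  · rw [mem_an_ds] at hx; omega

theorem far_le (hP : P.Ok) (Λc ρ : ℕ) : 2 * (Λc * ρ) ≤ (Λc + 1) * (P.W₀ * ρ) := by
  have h := four_le hP (ρ := ρ)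
  calc 2 * (Λc * ρ) ≤ Λc * (4 * ρ) := by rw [Nat.mul_left_comm Λc 4 ρ]; omega
    _ ≤ (Λc + 1) * (P.W₀ * ρ) := Nat.mul_le_mul (Nat.le_succ _) h

theorem le_far (Λc c : ℕ) : c ≤ (Λc + 1) * c := Nat.le_mul_of_pos_left _ (Nat.succ_pos _)

theorem core_sub (p : Pt) (h : c ≤ R) (c' : ℕ) : bl p c ∪ an p c' R ⊆ bl p R :=
  union_subset (bl_mono _ h) (an_sub _ _ _)

end D89

open D89

theorem domStmt : DomStmt := by
  intro P hP Λc
  obtain ⟨A, hA⟩ : ∃ A : ℝ, A = P.K ^ 3 * ((Λc + 1 : ℕ) : ℝ) ^ P.n := ⟨_, rfl⟩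
  have K1 := hP.K1
  have A0 : 0 ≤ A := by rw [hA]; positivity
  refine ⟨16 * A ^ 2 * P.K, fun V m ρp ρq I z ρ F F' G h hm hG hF hF' => ?_⟩
  have r2 := hP.r2
  have p0 := h.p0
  have q0 := h.q0
  have p1 := h.p1
  have q1 := h.q1
  have p4 := four_le hP (ρ := ρp)
  have q4 := four_le hP (ρ := ρq)
  have hf := hm.ctr.1
  have rg := L_rg P
  have ap : Amb P.L m (bl V.p (V.r / 4)) := B30.amb_mono hm (bl_mono _ (by omega))
  have aq : Amb P.L m (bl V.q (V.r / 4)) := B30.amb_mono hm (bl_sub (by rw [ds_qp]; omega))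
  have fp := fam_core (V := V) (R := V.r / 4) (M := Λc + 1) hP hf p0 (by omega) (by omega)
    (le_far Λc _) le_rfl (lh_of_amb (B30.amb_mono ap (bl_mono _ (by omega))) (by omega))
    ((inL_near ap.near).mono (an_sub _ _ _)) hF
  have fq := fam_core (V := V.sw) (R := V.r / 4) (M := Λc + 1) hP hf q0 (by omega)
    (by rw [sw_r]; omega) (le_far Λc _) le_rfl
    (lh_of_amb (B30.amb_mono aq (bl_mono _ (by omega))) (by omega))
    ((inL_near aq.near).mono (an_sub _ _ _)) hF'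
  rw [sw_σ, sw_p, N_sw] at fq
  have fi := D89.Fam.prod (σ := V.σ) hf I (N := fun i => bl (z i) (P.W₀ * ρ i)) (G := fun i s => |G i s|)
    (b := fun i => 2 * P.N V (z i) (ρ i) (G i)) (fun i hi j hj hij => bl_disj (h.dj i hi j hj hij))
    fun i hi => fam_free hP hf (h.fr i hi).1 (lh_of_amb (hG i hi).1 (by
      have := four_le hP (ρ := ρ i); have := (h.fr i hi).1; omega)) (hG i hi).2 V
  have fa := (fp.mul fq hf ((bl_disj (r := V.r / 4) (r' := V.r / 4) (by rw [ds_pq]; omega)).mono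
    (core_sub _ (by omega) _) (core_sub _ (by omega) _))).mul fi hf (by
      refine (disjoint_biUnion_right _ _ _).2 fun i hi => disjoint_union_left.2 ⟨?_, ?_⟩
      · have := far_le hP Λc ρp
        exact cell_disj (by omega) ((h.fr i hi).2.trans (d_le_p V _)) (h.dp i hi).1
          ((h.dp i hi).2.imp (by omega) (by omega))
      · have := far_le hP Λc ρq
        exact cell_disj (by omega) ((h.fr i hi).2.trans (d_le_q V _)) (h.dq i hi).1
          ((h.dq i hi).2.imp (by omega) (by omega)))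
  have k := (fa.congr (F' := fun s => |F s * F' s * ∏ i ∈ I, G i s|) fun s => by
    rw [abs_mul, abs_mul, abs_prod]).ex hm.ctr hm.anch
  rw [← hA, prod_mul_distrib, prod_const] at k
  have k2 : uu P.b V (V.r / 4) * uu P.b V.sw (V.r / 4) ≤ P.K * zr m V.σ := hP.k2 V m (by omega) hm
  have z0 := Ks68.zr_pos hm.ctr hm.anch V.σ
  have n1 := N_nonneg hP V V.p ρp F
  have n2 := N_nonneg hP V V.q ρq F'
  have n3 : 0 ≤ ∏ i ∈ I, P.N V (z i) (ρ i) (G i) := prod_nonneg fun i _ => N_nonneg hP V _ _ _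
  have c4 : (2 : ℝ) ^ I.card ≤ 4 :=
    (pow_le_pow_right₀ one_le_two (show I.card ≤ 2 from card_le_univ I)).trans (by norm_num)
  generalize P.N V V.p ρp F = a at *
  generalize P.N V V.q ρq F' = b at *
  generalize ∏ i ∈ I, P.N V (z i) (ρ i) (G i) = d at *
  have u0 := mul_pos (uu_pos hP V (V.r / 4)) (uu_pos hP V.sw (V.r / 4))
  refine le_of_mul_le_mul_left (k.trans ?_) z0
  calc _ = 4 * A ^ 2 * a * b * d * (2 ^ I.card *
        (uu P.b V (V.r / 4) * uu P.b V.sw (V.r / 4))) := by ring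
    _ ≤ 4 * A ^ 2 * a * b * d * (4 * (P.K * zr m V.σ)) :=
        mul_le_mul_of_nonneg_left (mul_le_mul c4 k2 u0.le (by norm_num)) (by positivity)
    _ = _ := by ring

theorem dom1Stmt : Dom1Stmt := by
  intro P hP Λc
  obtain ⟨A, hA⟩ : ∃ A : ℝ, A = P.K ^ 3 * ((Λc + 1 : ℕ) : ℝ) ^ P.n := ⟨_, rfl⟩
  have K1 := hP.K1
  have A0 : 0 ≤ A := by rw [hA]; positivity
  refine ⟨4 * A, fun V ρp R F p0 p1 hR hF => ?_⟩
  have r2 := hP.r2
  have p4 := four_le hP (ρ := ρp)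
  have rg := L_rg P
  have hL := lok hP
  obtain ⟨x, hx⟩ : ∃ x : Pt, ds x V.p = R := ⟨V.p + ((R : ℤ), 0), by rw [ds_add]; simp [ds]⟩
  have xm : x ∈ bl V.p R := mem_bl_ds.2 hx.le
  have cn := cnL_bl hL V.p R
  have hc := ctr_Nr hL (bl V.p R) x
  have ha := anch_Nr cn xm
  have u0 := uu_pos hP V R
  have fin : ∀ {U : Finset Pt} {H : Cfg Pt → ℝ} {β : ℝ}, DepG (bl V.p R) H →
      D89.Fam (pn (P.L.N (bl V.p R)) (bl V.p R) {x}) V.σ U (fun s => |H s|) (uu P.b V R * β) →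
      P.L.nrm V.σ V.p R H ≤ β := fun {U H β} dH f => by
    have k := f.ex hc ha
    rw [← Ks68.zr_root xm, pn_Nr, ex_Nr hL cn xm (self_mem_bl _ _)
      fun s s' k hk => congrArg abs (dH s s' k hk)] at k
    exact le_of_mul_le_mul_left k u0
  have fp := fam_core (V := V) (R := R) (M := Λc + 1) hP hc.1 p0 p1 hR (le_far Λc _) le_rfl
    (lh_free (by omega) (bl_mono _ p1) (by rw [mem_bl_ds]; omega))
    ((inL_N (an_sub _ _ _)).pn (an_sub _ _ _) _) hF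
  rw [← hA] at fp
  have dF : DepG (bl V.p R) F := (ins_le hF (by omega)).1
  have n1 := N_nonneg hP V V.p ρp F
  refine ⟨fin dF (fp.mono Subset.rfl ?_), fun z ρ G h0 h1 h2 h3 h4 hG => ?_⟩
  · calc _ = uu P.b V R * (2 * A * P.N V V.p ρp F) := by ring
      _ ≤ _ := mul_le_mul_of_nonneg_left (mul_le_mul_of_nonneg_right (by linarith) n1) u0.le
  have r4 := four_le hP (ρ := ρ)
  have fz := fam_free hP hc.1 h0 (lh_free (by omega) (bl_sub h4) (by
    have := ds_tri x z V.p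
    rw [mem_bl_ds]; omega)) hG V
  have := far_le hP Λc ρp
  have fa := fp.mul fz hc.1 (cell_disj (by omega) h1 h2 (Or.inr (by omega)))
  refine fin (ins_mul (ins_le hF (by omega)) (ins_mono hG (by omega))).1
    ((fa.congr fun s => abs_mul _ _).mono Subset.rfl (le_of_eq ?_))
  ring

end Crest.Agent.T145.Vx
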