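import Crest.Agent.T145.VxDip_34
import Crest.Agent.T145.PotAn_44
import Crest.Agent.T145.Route_51

/-!
# Row 145, S0198 (helper34): swap symmetric test functions, flows of smooth charges

* `cw j s = D₂⁻ (Ψ_j χ_s)` equals `x_j` near `0`, and `cf j s = D₁⁻ (cw j s)` is swap symmetric;
* `gd u`: the gradient flow, `A0 u = dv (gd u)`; `f2_bl`, `f2_an`: flows of neutral charges.
-/

set_option autoImplicit false

namespace Crest.Agent.T145.Vx34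

open Finset Pot Xi

/-- backward difference -/
def db (y : Pt) (u : Pt → ℝ) (z : Pt) : ℝ := u z - u (z - y)

theorem db_eq (y : Pt) (u : Pt → ℝ) : db y u = fun z => dif y u (z + -y) := by
  funext z; simp [db, dif, sub_eq_add_neg]

theorem sm_db {k : ℕ} {C s : ℝ} {u : Pt → ℝ} (h : Sm (k + 1) Set.univ C s u) {y : Pt} (hy : y ∈ nn) :
    Sm k Set.univ (C / s) s (db y u) := by
  rw [db_eq]; exact (h.dif' hy).shift (-y) fun _ _ => trivial

theorem sub_nn_mem {y z c : Pt} {n : ℕ} (hy : y ∈ nn) (hz : z ∈ bl c n) : z - y ∈ bl c (n + 1) :=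
  bl_one_sub le_rfl z hz (mem_bl_comm.1 (by simpa using add_nn_mem_bl hy (z - y)))

theorem sup_db {c : Pt} {n : ℕ} {u : Pt → ℝ} (h : Pot.Sup (bl c n) u) {y : Pt} (hy : y ∈ nn) :
    Pot.Sup (bl c (n + 1)) (db y u) := fun z hz => by
  rw [db, h z fun h' => hz (bl_mono c (by omega) h'), h (z - y) fun h' => hz ?_, sub_self]
  simpa using bl_one_sub le_rfl _ h' (add_nn_mem_bl hy (z - y))

/-- the symmetric primitives of the coordinates -/
noncomputable def Ps (j : Fin 2) (z : Pt) : ℝ :=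
  ![co 0 z * co 1 z, (co 0 z * co 0 z + co 0 z + (co 1 z * co 1 z + co 1 z)) / 2] j

/-- the test function `D₂⁻ (Ψ_j χ_s)` -/
noncomputable def cw (j : Fin 2) (s : ℝ) : Pt → ℝ := db (0, 1) fun z => Ps j z * Xi.chi s z

/-- its backward difference in the first direction -/
noncomputable def cf (j : Fin 2) (s : ℝ) : Pt → ℝ := db (1, 0) (cw j s)

theorem Ps_swap (j : Fin 2) (z : Pt) : Ps j z.swap = Ps j z := by
  fin_cases j <;> simp [Ps, co] <;> ring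

theorem db_Ps (j : Fin 2) (z : Pt) : db (0, 1) (Ps j) z = co j z := by
  fin_cases j <;> simp [db, Ps, co] <;> ring

theorem cf_swap (j : Fin 2) (s : ℝ) (z : Pt) : cf j s z.swap = cf j s z := by
  have h : ∀ w : Pt, Ps j w.swap * Xi.chi s w.swap = Ps j w * Xi.chi s w := fun w => by
    rw [Ps_swap, chi_swap]
  obtain ⟨a, b⟩ := z
  simp only [cf, cw, db, Prod.swap_prod_mk, Prod.mk_sub_mk, sub_zero]
  rw [← h (a, b), ← h (a, b - 1), ← h (a - 1, b), ← h (a - 1, b - 1)]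
  simp only [Prod.swap_prod_mk]
  ring

theorem sm_Ps (k : ℕ) : ∃ C : ℝ, 0 ≤ C ∧ ∀ s : ℝ, 1 ≤ s → (k : ℝ) ≤ s → ∀ j,
    Sm k {z | eu z ≤ 8 * s} (C * s ^ 2) s (Ps j) := by
  refine ⟨2 ^ k * 100 + 8, by positivity, fun s h1 hk j => ?_⟩
  have hs : 0 < s := by linarith
  have h2 : ∀ i i' : Fin 2, Sm k {z | eu z ≤ 8 * s} (2 ^ k * (10 * s) * (10 * s)) s
      fun z => co i z * co i' z := fun i i' =>
    (sm_co k i hs (M := 10) (by norm_num)).mul hs (sm_co k i' hs (by norm_num)) fun z hz w hw => by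
      have := (eu_near hw).1
      simp only [Set.mem_ofPred_eq] at hz ⊢
      linarith
  have h3 := fun i => sm_co k i hs (M := 8) (by norm_num)
  have h4 : (0 : ℝ) < 2 ^ k := by positivity
  fin_cases j
  · exact (h2 0 1).mono le_rfl Set.Subset.rfl (by nlinarith) hs
  · refine ((((h2 0 0).add (h3 0)).add ((h2 1 1).add (h3 1))).smul (1 / 2)).mono le_rfl
      Set.Subset.rfl ?_ hs |>.congr fun z _ w _ => by simp [Ps]; ring
    rw [abs_of_pos (by norm_num)]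
    nlinarith

theorem sm_cw (k : ℕ) : ∃ C : ℝ, 0 ≤ C ∧ ∀ s : ℝ, (k : ℝ) + 1 ≤ s → ∀ j,
    Sm k Set.univ (C * s) s (cw j s) := by
  obtain ⟨C, h0, hC⟩ := sm_mul_chi (k + 1)
  obtain ⟨C', h0', hC'⟩ := sm_Ps (k + 1)
  refine ⟨C * C', by positivity, fun s hk j => ?_⟩
  have h1 : (0 : ℝ) ≤ k := Nat.cast_nonneg k
  have hs : 0 < s := by linarith
  have h2 : ((k + 1 : ℕ) : ℝ) ≤ s := by exact_mod_cast hk
  refine (sm_db (hC s _ _ hs h2 (hC' s (by linarith) h2 j)) Ha91.e2_nn).mono le_rfl Set.Subset.rfl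
    (le_of_eq ?_) hs
  field_simp

theorem sm_cf (k : ℕ) : ∃ C : ℝ, 0 ≤ C ∧ ∀ s : ℝ, (k : ℝ) + 2 ≤ s → ∀ j,
    Sm k Set.univ C s (cf j s) := by
  obtain ⟨C, h0, hC⟩ := sm_cw (k + 1)
  refine ⟨C, h0, fun s hk j => ?_⟩
  have h1 : (0 : ℝ) ≤ k := Nat.cast_nonneg k
  have hs : 0 < s := by linarith
  refine (sm_db (hC s (by push_cast; linarith) j) Ha91.e1_nn).mono le_rfl Set.Subset.rfl
    (le_of_eq ?_) hs
  field_simp

theorem sup_cw (j : Fin 2) {s : ℝ} (hs : 0 < s) {n : ℕ} (hn : 2 * s ≤ n + 1) :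
    Pot.Sup (bl 0 (n + 1)) (cw j s) :=
  sup_db (fun z hz => by simp only [sup_chi hs hn z hz, mul_zero]) Ha91.e2_nn

theorem sup_cf (j : Fin 2) {s : ℝ} (hs : 0 < s) {n : ℕ} (hn : 2 * s ≤ n + 1) :
    Pot.Sup (bl 0 (n + 1 + 1)) (cf j s) := sup_db (sup_cw j hs hn) Ha91.e1_nn

theorem cw_in (j : Fin 2) {s : ℝ} (hs : 0 < s) {n : ℕ} (hn : (n : ℝ) + 1 ≤ s) {z : Pt}
    (hz : z ∈ bl 0 n) : cw j s z = co j z := by
  have h1 : ((n + 1 : ℕ) : ℝ) ≤ s := by exact_mod_cast hn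
  rw [← db_Ps, cw, db, db, chi_one hs h1 (bl_mono 0 (by omega) hz),
    chi_one hs h1 (sub_nn_mem Ha91.e2_nn hz), mul_one, mul_one]

theorem cf_in (j : Fin 2) {s : ℝ} (hs : 0 < s) {n : ℕ} (hn : (n : ℝ) + 2 ≤ s) {z : Pt}
    (hz : z ∈ bl 0 n) : cf j s z = co j (1, 0) := by
  have h1 : ((n + 1 : ℕ) : ℝ) + 1 ≤ s := by push_cast; linarith
  rw [cf, db, cw_in j hs h1 (bl_mono 0 (by omega) hz), cw_in j hs h1 (sub_nn_mem Ha91.e1_nn hz),
    sub_eq_iff_eq_add, ← co_add, add_sub_cancel]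

theorem A0_cw_in (j : Fin 2) {s : ℝ} (hs : 0 < s) {n : ℕ} (hn : (n : ℝ) + 2 ≤ s) {z : Pt}
    (hz : z ∈ bl 0 n) : A0 (cw j s) z = 0 := by
  rw [A0_congr (v := co j) fun w hw => cw_in j hs (n := n + 1) (by push_cast; linarith)
    (bl_subset_bl hz (by omega) hw), A0_co]

theorem eu_le_of_cw (j : Fin 2) {s : ℝ} (hs : 0 < s) {z : Pt} (hz : cw j s z ≠ 0) :
    eu z ≤ 4 * s + 1 := by
  by_contra h
  have h1 : Xi.chi s z = 0 := by
    by_contra h1; linarith [eu_le_of_chi hs h1, not_le.1 h]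
  have h2 : Xi.chi s (z - (0, 1)) = 0 := by
    by_contra h2
    have := eu_add_le (z - (0, 1)) (0, 1)
    rw [sub_add_cancel, eu_nn Ha91.e2_nn] at this
    linarith [eu_le_of_chi hs h2, not_le.1 h]
  exact hz (by simp only [cw, db, h1, h2, mul_zero, sub_self])

theorem env_cw (k : ℕ) : ∃ C : ℝ, 0 ≤ C ∧ ∀ s : ℝ, (k : ℝ) + 1 ≤ s → ∀ j,
    Env k 1 0 s (C * s ^ 2) (cw j s) := by
  obtain ⟨C, h0, hC⟩ := sm_cw k
  refine ⟨7 ^ (1 + k) * C, by positivity, fun s hk j => ?_⟩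
  have h1 : (0 : ℝ) ≤ k := Nat.cast_nonneg k
  have hs : 0 < s := by linarith
  refine (env_of_sm 1 (hC s hk j) hs hs (M := 7) (by norm_num) fun z hz => ?_).mono le_rfl
    (le_of_eq (by ring)) hs
  have := eu_le_of_cw j hs hz
  rw [sub_zero]; linarith

/-- the dipole charge against the test function -/
theorem pair_dp_cw {ρ s : ℝ} (hρ : 0 < ρ) (hs : 0 < s) {e : Pt} (he : e ∈ nn) {n N : ℕ}
    (hn : 2 * ρ ≤ n + 1) (hN : n + 1 ≤ N) (h : (n : ℝ) + 2 ≤ s) (j : Fin 2) :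
    ∑ z ∈ bl 0 N, A0 (dp ρ e) z * cw j s z = co j e := by
  have h0 : (0 : ℝ) ≤ n := Nat.cast_nonneg n
  rw [pair_dp_harm hρ he hn hN fun z hz => A0_cw_in j hs h hz,
    cw_in j hs (n := 1) (by push_cast; linarith) (self_mem_bl _ _),
    cw_in j hs (n := 1) (by push_cast; linarith) (neg_nn_bl he le_rfl), sub_eq_iff_eq_add, ← co_add,
    add_neg_cancel]

/-! ## flows -/

/-- the gradient flow -/
def gd (u : Pt → ℝ) (e : Pt × Pt) : ℝ := u e.2 - u e.1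

theorem A0_eq_dv {Λ : Lat} (hJ : Λ.J = nn) (h : Λ.Ok) {B : Finset Pt} {u : Pt → ℝ}
    (hu : ∀ x y, u x ≠ 0 → y ∈ bl x 1 → y ∈ B) : A0 u = dv (Λ.edT B) (gd u) := by
  funext x
  by_cases hx : x ∈ B
  · have := op_eD h hx u
    rw [eD, op_edF_eq, hJ] at this
    rw [A0_apply, lap, ← this]; rfl
  · have h1 : ∀ y ∈ bl x 1, u y = 0 := fun y hy => by
      by_contra h2; exact hx (hu y x h2 (mem_bl_comm.1 hy))
    rw [A0_congr (v := fun _ => 0) h1, A0_const]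
    refine (sum_eq_zero fun e he => ?_).symm
    have h2 : e.2 - e.1 ∈ nn := hJ ▸ (mem_filter.1 (Lat.mem_edT.1 he).1).1
    have h3 : e.2 ∈ bl e.1 1 := by simpa using add_nn_mem_bl h2 e.1
    by_cases h4 : e.1 = x
    · subst h4
      rw [gd, h1 _ h3, h1 _ (self_mem_bl _ _), sub_self, zero_mul]
    · by_cases h5 : e.2 = x
      · subst h5
        rw [gd, h1 _ (mem_bl_comm.1 h3), h1 _ (self_mem_bl _ _), sub_self, zero_mul]
      · rw [ind_neg h4, ind_neg h5, sub_self, mul_zero]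

/-- only the edges on which the gradient lives matter -/
theorem A0_eq_dv' {Λ : Lat} (hJ : Λ.J = nn) (h : Λ.Ok) {c : Pt} {n : ℕ} {u : Pt → ℝ}
    (hu : Pot.Sup (bl c n) u) {T : Finset (Pt × Pt)} (hT : ∀ e ∈ T, e.2 - e.1 ∈ Λ.Jp)
    (hT' : ∀ e : Pt × Pt, e.2 - e.1 ∈ Λ.Jp → gd u e ≠ 0 → e ∈ T) : A0 u = dv T (gd u) := by
  rw [A0_eq_dv hJ h (B := bl c (n + 1)) fun x y hx hy =>
    bl_one_sub le_rfl x (by by_contra h'; exact hx (hu x h')) hy]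
  funext x
  refine sum_bij_ne_zero (fun e _ _ => e) (fun e he h1 => hT' e (Lat.mem_edT.1 he).1
    (left_ne_zero_of_mul h1)) (fun _ _ _ _ _ _ h => h) (fun e he h1 => ⟨e, ?_, h1, rfl⟩) fun _ _ _ => rfl
  refine Lat.mem_edT.2 ⟨hT e he, ?_⟩
  by_contra h2
  push Not at h2
  exact left_ne_zero_of_mul h1 (by
    rw [gd, hu _ fun h' => h2.2 (bl_mono c (by omega) h'), hu _ fun h' => h2.1 (bl_mono c (by omega) h'),
      sub_self])

theorem A0_eq_dv_bl {Λ : Lat} (hJ : Λ.J = nn) (h : Λ.Ok) {c : Pt} {n : ℕ} {u : Pt → ℝ}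
    (hu : Pot.Sup (bl c n) u) {B : Finset Pt} (hB : bl c (n + 1) ⊆ B) : A0 u = dv (Λ.edI B) (gd u) := by
  refine A0_eq_dv' hJ h hu (fun e he => (Lat.mem_edI.1 he).1) fun e he h1 => Lat.mem_edI.2 ⟨he, ?_⟩
  have h2 : e.2 - e.1 ∈ nn := hJ ▸ (mem_filter.1 he).1
  have h3 : e.2 ∈ bl e.1 1 := by simpa using add_nn_mem_bl h2 e.1
  by_cases h4 : e.1 ∈ bl c n
  · exact ⟨hB (bl_mono c (by omega) h4), hB (bl_one_sub le_rfl _ h4 h3)⟩
  · by_cases h5 : e.2 ∈ bl c n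
    · exact ⟨hB (bl_one_sub le_rfl _ h5 (mem_bl_comm.1 h3)), hB (bl_mono c (by omega) h5)⟩
    · exact absurd (by rw [gd, hu _ h4, hu _ h5, sub_self]) h1

/-- Thomson + Poincaré -/
theorem f2_of_poin {U : Finset Pt} {P : ℝ} (hP : 0 ≤ P)
    (h : ∀ u : Pt → ℝ, ∑ x ∈ U, (u x - av U u) ^ 2 ≤ P * eN nL U u u) {f : Pt → ℝ} (hf : Pot.Sup U f)
    (h0 : ∑ x ∈ U, f x = 0) : F2 (nL.edI U) f (P * ∑ x ∈ U, f x ^ 2) := by
  refine f2_of_dual (fun e he => (Lat.mem_edI.1 he).2) hf (by positivity) fun u => ?_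
  have h1 : Pot.ip U f u = ∑ x ∈ U, f x * (u x - av U u) := by
    simp only [Pot.ip, mul_sub, sum_sub_distrib, ← sum_mul, h0, zero_mul, sub_zero]
  rw [h1]
  calc _ ≤ _ := sum_mul_sq_le_sq_mul_sq _ _ _
    _ ≤ (∑ x ∈ U, f x ^ 2) * (P * eN nL U u u) := by gcongr; exact h u
    _ = _ := by rw [eN]; ring

theorem sum_sq_le {U : Finset Pt} {c : Pt} {N : ℕ} (hU : U ⊆ bl c N) {f : Pt → ℝ} {M : ℝ}
    (hM : ∀ x ∈ U, |f x| ≤ M) : ∑ x ∈ U, f x ^ 2 ≤ (2 * N + 1 : ℝ) ^ 2 * M ^ 2 := by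
  calc _ ≤ ∑ _x ∈ U, M ^ 2 := sum_le_sum fun x hx => by
        rw [← sq_abs]; exact pow_le_pow_left₀ (abs_nonneg _) (hM x hx) 2
    _ = U.card * M ^ 2 := by rw [sum_const, nsmul_eq_mul]
    _ ≤ _ := by
        gcongr
        have := card_le_card hU
        rw [card_bl] at this
        exact_mod_cast this

/-- a bounded neutral charge in a ball -/
theorem f2_bl (c : Pt) (N : ℕ) {f : Pt → ℝ} {M : ℝ} (hf : Pot.Sup (bl c N) f)
    (h0 : ∑ x ∈ bl c N, f x = 0) (hM : ∀ x, |f x| ≤ M) :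
    F2 (nL.edI (bl c N)) f (2 * (2 * N + 1 : ℝ) ^ 4 * M ^ 2) := by
  obtain ⟨φ, h1, h2⟩ := f2_of_poin (U := bl c N) (P := 2 * (2 * N + 1 : ℝ) ^ 2) (by positivity)
    (fun u => by rw [bl_eq_sq]; exact_mod_cast Po44.poin1 _ (2 * N + 1) u) hf h0
  refine ⟨φ, h1, h2.trans ?_⟩
  have := sum_sq_le (subset_refl (bl c N)) fun x _ => hM x
  calc _ ≤ 2 * (2 * N + 1 : ℝ) ^ 2 * ((2 * N + 1 : ℝ) ^ 2 * M ^ 2) := by gcongr
    _ = _ := by ring

/-- a bounded neutral charge in an annulus -/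
theorem f2_an (lam : ℕ) : ∃ C : ℝ, 0 ≤ C ∧ ∀ (c : Pt) (r R : ℕ) (f : Pt → ℝ) (M : ℝ), R ≤ lam * (R - r) →
    Pot.Sup (bl c R \ bl c r) f → ∑ x ∈ bl c R, f x = 0 → (∀ x, |f x| ≤ M) →
    F2 (nL.edI (bl c R \ bl c r)) f (C * (R + 1 : ℝ) ^ 4 * M ^ 2) := by
  obtain ⟨C, hC0, hC⟩ := An44.poin_an lam
  refine ⟨4 * C, by positivity, fun c r R f M hR hf h0 hM => ?_⟩
  obtain ⟨φ, h1, h2⟩ := f2_of_poin (U := bl c R \ bl c r) (P := C * (R : ℝ) ^ 2) (by positivity)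
    (fun u => hC c r R u hR) hf (by
      rw [← h0]; exact sum_subset sdiff_subset fun x _ hx => hf x hx)
  refine ⟨φ, h1, h2.trans ?_⟩
  have := sum_sq_le (sdiff_subset : bl c R \ bl c r ⊆ _) fun x _ => hM x
  have h3 : (0 : ℝ) ≤ R := Nat.cast_nonneg R
  calc _ ≤ C * (R + 1 : ℝ) ^ 2 * ((2 * (R + 1) : ℝ) ^ 2 * M ^ 2) := by
        gcongr
        · linarith
        · exact this.trans (by gcongr; linarith)
    _ = _ := by ring

end Crest.Agent.T145.Vx34
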