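import Crest.Agent.T145.GffDef_8
import Crest.Agent.T145.GeoA_51

/-!
# Row 145, module (b) (helper57): flow algebra, nearest-neighbour routing, discrete Taylor bounds
-/

set_option autoImplicit false

namespace Crest.Agent.T145.RJ57

open Finset Crest.ProbabilityR.HeightModel

section alg
variable {V : Type*} {ed : Finset (V × V)} {f g : V → ℝ} {n m : ℝ}

theorem dv_add (φ ψ : V × V → ℝ) : dv ed (fun e => φ e + ψ e) = dv ed φ + dv ed ψ :=
  funext fun x => by simp only [dv, add_mul, sum_add_distrib, Pi.add_apply]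

theorem dv_smul (c : ℝ) (φ : V × V → ℝ) : dv ed (fun e => c * φ e) = c • dv ed φ :=
  funext fun x => by simp only [dv, mul_assoc, ← mul_sum, Pi.smul_apply, smul_eq_mul]

theorem f2_mono (h : F2 ed f n) (hn : n ≤ m) : F2 ed f m :=
  let ⟨φ, h1, h2⟩ := h; ⟨φ, h1, h2.trans hn⟩

theorem f2_nonneg (h : F2 ed f n) : 0 ≤ n :=
  let ⟨_, _, h2⟩ := h; (sum_nonneg fun _ _ => sq_nonneg _).trans h2

theorem f2_add (h : F2 ed f n) (h' : F2 ed g m) : F2 ed (f + g) (2 * n + 2 * m) := by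
  obtain ⟨φ, rfl, h2⟩ := h
  obtain ⟨ψ, rfl, h2'⟩ := h'
  refine ⟨_, (dv_add φ ψ).symm, ?_⟩
  calc ∑ e ∈ ed, (φ e + ψ e) ^ 2 ≤ ∑ e ∈ ed, (2 * φ e ^ 2 + 2 * ψ e ^ 2) :=
        sum_le_sum fun e _ => by nlinarith [sq_nonneg (φ e - ψ e)]
    _ ≤ _ := by rw [sum_add_distrib, ← mul_sum, ← mul_sum]; linarith

theorem f2_smul (c : ℝ) (h : F2 ed f n) : F2 ed (c • f) (c ^ 2 * n) := by
  obtain ⟨φ, rfl, h2⟩ := h
  refine ⟨_, (dv_smul c φ).symm, ?_⟩
  simp only [mul_pow, ← mul_sum]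
  exact mul_le_mul_of_nonneg_left h2 (sq_nonneg c)

theorem f2_congr (h : F2 ed f n) (e : g = f) : F2 ed g n := e ▸ h

end alg

/-- both `x` and `x + y` lie in `B` -/
noncomputable def gt (B : Finset Pt) (y x : Pt) : ℝ := ind (x ∈ B ∧ x + y ∈ B)

theorem gt_one {B : Finset Pt} {y x : Pt} (h1 : x ∈ B) (h2 : x + y ∈ B) : gt B y x = 1 :=
  if_pos ⟨h1, h2⟩

theorem gt_zero {B : Finset Pt} {y x : Pt} (h : ¬ (x ∈ B ∧ x + y ∈ B)) : gt B y x = 0 := if_neg h

theorem of_gt {B : Finset Pt} {y x : Pt} {a : ℝ} (h : gt B y x * a ≠ 0) : x ∈ B ∧ x + y ∈ B := by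
  by_contra hc
  exact h (by rw [gt_zero hc, zero_mul])

theorem abs_gt_mul (B : Finset Pt) (y x : Pt) (a : ℝ) : |gt B y x * a| ≤ |a| := by
  by_cases h : x ∈ B ∧ x + y ∈ B
  · rw [gt_one h.1 h.2, one_mul]
  · rw [gt_zero h, zero_mul, abs_zero]; exact abs_nonneg a

theorem sum_edI' (Λ : Lat) (B : Finset Pt) (f : Pt × Pt → ℝ) :
    ∑ e ∈ Λ.edI B, f e = ∑ x ∈ B, ∑ y ∈ Λ.Jp, gt B y x * f (x, x + y) := by
  rw [Lat.sum_edI]
  simp only [sum_filter]
  rw [sum_comm]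
  refine sum_congr rfl fun x hx => sum_congr rfl fun y _ => ?_
  by_cases h : x + y ∈ B
  · rw [if_pos h, gt_one hx h, one_mul]
  · rw [if_neg h, gt_zero fun h' => h h'.2, zero_mul]

theorem dv_edI (Λ : Lat) (B : Finset Pt) (φ : Pt × Pt → ℝ) (z : Pt) :
    dv (Λ.edI B) φ z = ∑ y ∈ Λ.Jp, (gt B y (z - y) * φ (z - y, z) - gt B y z * φ (z, z + y)) := by
  rw [dv, sum_edI', sum_comm]
  refine sum_congr rfl fun y _ => ?_
  simp only [mul_sub, sum_sub_distrib]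
  congr 1
  · rw [sum_eq_single (z - y) (fun x _ hx => by
      rw [ind, if_neg (fun h => hx (eq_sub_of_add_eq h)), mul_zero, mul_zero])
      fun h => by rw [gt_zero fun h' => h h'.1, zero_mul]]
    simp [ind]
  · rw [sum_eq_single z (fun x _ hx => by rw [ind, if_neg hx, mul_zero, mul_zero])
      fun h => by rw [gt_zero fun h' => h h'.1, zero_mul]]
    simp [ind]

theorem nn_Jp : nnL.Jp = {(1, 0), (0, 1)} := by decide

theorem sum_nn (f : Pt → ℝ) : ∑ y ∈ nnL.Jp, f y = ∑ i, f (ev i) := by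
  rw [nn_Jp, sum_pair (by decide), Fin.sum_univ_two]; rfl

@[simp] theorem ev0 : ev 0 = (1, 0) := rfl
@[simp] theorem ev1 : ev 1 = (0, 1) := rfl
@[simp] theorem co0 (x : Pt) : co 0 x = x.1 := rfl
@[simp] theorem co1 (x : Pt) : co 1 x = x.2 := rfl

theorem co_add (i : Fin 2) (x y : Pt) : co i (x + y) = co i x + co i y := by
  fin_cases i <;> simp

theorem sum_co_ev (y : Pt) (i : Fin 2) : ∑ j, co j y * co j (ev i) = co i y := by
  fin_cases i <;> simp [Fin.sum_univ_two]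

theorem dv_nn (B : Finset Pt) (φ : Pt × Pt → ℝ) (z : Pt) :
    dv (nnL.edI B) φ z =
      ∑ i, (gt B (ev i) (z - ev i) * φ (z - ev i, z) - gt B (ev i) z * φ (z, z + ev i)) := by
  rw [dv_edI, sum_nn]

theorem Au_nn (B : Finset Pt) (u : Pt → ℝ) (z : Pt) :
    nnL.Au B u z = ∑ i, (gt B (ev i) (z - ev i) * df i u (z - ev i) - gt B (ev i) z * df i u z) := by
  rw [Lat.Au, dv_nn]
  simp [df, nnL]

/-- a nearest-neighbour flow -/
theorem nn_f2 {Λ : Lat} (hΛ : Λ.Ok) (B : Finset Pt) (H : Fin 2 → Pt → ℝ)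
    (hH : ∀ i z, H i z ≠ 0 → z ∈ B ∧ z + ev i ∈ B) :
    F2 (Λ.edI B) (fun z => ∑ i, (H i (z - ev i) - H i z)) (∑ i, ∑ z ∈ B, H i z ^ 2) := by
  have hg : ∀ i z, gt B (ev i) z * H i z = H i z := fun i z => by
    by_cases h : H i z = 0
    · rw [h, mul_zero]
    · rw [gt_one (hH i z h).1 (hH i z h).2, one_mul]
  have hs : nnL.Jp ⊆ Λ.Jp := by
    rw [nn_Jp]
    intro y hy
    simp only [mem_insert, mem_singleton] at hy
    rcases hy with rfl | rfl
    exacts [hΛ.e1, hΛ.e2]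
  let φ : Pt × Pt → ℝ := fun e =>
    if e.2 - e.1 = (1, 0) then H 0 e.1 else if e.2 - e.1 = (0, 1) then H 1 e.1 else 0
  have h0 : ∀ y, y ∉ nnL.Jp → ∀ x x', x' - x = y → φ (x, x') = 0 := fun y hy x x' h => by
    rw [nn_Jp] at hy
    simp only [mem_insert, mem_singleton, not_or] at hy
    simp only [φ, h, if_neg hy.1, if_neg hy.2]
  have h1 : ∀ i x x', x' - x = ev i → φ (x, x') = H i x := fun i x x' h => by
    fin_cases i <;> simp [φ, h]
  refine ⟨φ, funext fun z => ?_, ?_⟩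
  · rw [dv_edI, ← sum_subset hs fun y _ hy => by
      rw [h0 y hy _ _ (by simp), h0 y hy _ _ (by simp)]; simp, sum_nn]
    refine sum_congr rfl fun i _ => ?_
    rw [h1 i _ _ (by simp), h1 i _ _ (by simp), hg, hg]
  · rw [sum_edI', sum_comm (s := univ)]
    refine sum_le_sum fun x _ => ?_
    rw [← sum_subset hs fun y _ hy => by rw [h0 y hy _ _ (by simp)]; simp, sum_nn]
    refine sum_le_sum fun i _ => ?_
    rw [h1 i _ _ (by simp), pow_two, ← mul_assoc, hg]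

theorem mem_rc {a x : Pt} {n₁ n₂ : ℕ} :
    x ∈ rc a n₁ n₂ ↔ (a.1 ≤ x.1 ∧ x.1 < a.1 + n₁) ∧ a.2 ≤ x.2 ∧ x.2 < a.2 + n₂ := by
  simp only [rc, mem_product, mem_Ico]

theorem card_rc (a : Pt) (n₁ n₂ : ℕ) : ((rc a n₁ n₂).card : ℝ) = n₁ * n₂ := by
  simp [rc]

theorem card_bd (a : Pt) (n₁ n₂ r : ℕ) :
    (((rc a n₁ n₂).filter fun x => ¬ bl x r ⊆ rc a n₁ n₂).card : ℝ) ≤ 2 * r * (n₁ + n₂) := by
  have h : ((rc a n₁ n₂).filter fun x => ¬ bl x r ⊆ rc a n₁ n₂) ⊆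
      (rc a r n₂ ∪ rc (a.1 + n₁ - r, a.2) r n₂) ∪ (rc a n₁ r ∪ rc (a.1, a.2 + n₂ - r) n₁ r) := by
    intro x hx
    obtain ⟨h1, h2⟩ := mem_filter.1 hx
    by_contra hc
    refine h2 fun z hz => ?_
    simp only [mem_union, mem_rc, mem_bl] at h1 hc hz ⊢
    omega
  have h1 : _ ≤ _ := (card_le_card h).trans ((card_union_le _ _).trans
    (add_le_add (card_union_le _ _) (card_union_le _ _)))
  have h2 := (Nat.cast_le (α := ℝ)).2 h1
  push_cast at h2
  simp only [card_rc] at h2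
  linarith

theorem sum_bd_le (a : Pt) (n₁ n₂ r : ℕ) (f : Pt → ℝ) {A A' : ℝ} (hA : 0 ≤ A) (hA' : 0 ≤ A')
    (h : ∀ z, f z ≤ A) (h' : ∀ z, bl z r ⊆ rc a n₁ n₂ → f z ≤ A') :
    ∑ z ∈ rc a n₁ n₂, f z ≤ n₁ * n₂ * A' + 2 * r * (n₁ + n₂) * A := by
  rw [← sum_filter_add_sum_filter_not _ fun z => bl z r ⊆ rc a n₁ n₂]
  refine add_le_add ?_ ?_
  · refine (sum_le_card_nsmul _ _ A' fun z hz => h' z (mem_filter.1 hz).2).trans ?_
    rw [nsmul_eq_mul, ← card_rc a]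
    exact mul_le_mul_of_nonneg_right (by exact_mod_cast card_filter_le _ _) hA'
  · refine (sum_le_card_nsmul _ _ A fun z _ => h z).trans ?_
    rw [nsmul_eq_mul]
    exact mul_le_mul_of_nonneg_right (card_bd a n₁ n₂ r) hA

/-! ### one-dimensional telescoping -/

theorem one (g : ℤ → ℝ) (m b : ℝ) (k : ℤ) (h : ∀ j, |j| ≤ |k| → |g (j + 1) - g j - m| ≤ b) :
    |g k - g 0 - k * m| ≤ |(k : ℝ)| * b := by
  induction k using Int.induction_on with
  | zero => simp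
  | succ n ih =>
    have e : |(n : ℤ)| ≤ |(n : ℤ) + 1| := by rw [abs_of_nonneg, abs_of_nonneg] <;> omega
    have h1 := ih fun j hj => h j (hj.trans e)
    have h2 := h n e
    push_cast at h1 ⊢
    rw [abs_of_nonneg (by positivity : (0 : ℝ) ≤ n + 1)]
    rw [abs_of_nonneg (Nat.cast_nonneg (α := ℝ) n)] at h1
    rw [abs_le] at h1 h2 ⊢
    constructor <;> linarith [h1.1, h1.2, h2.1, h2.2]
  | pred n ih =>
    have e : |-(n : ℤ)| ≤ |-(n : ℤ) - 1| := by rw [abs_of_nonpos, abs_of_nonpos] <;> omega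
    have h1 := ih fun j hj => h j (hj.trans e)
    have h2 := h _ le_rfl
    rw [sub_add_cancel] at h2
    push_cast at h1 ⊢
    have hn : (0 : ℝ) ≤ n := Nat.cast_nonneg n
    rw [abs_of_nonpos (by linarith : -(n : ℝ) - 1 ≤ 0)]
    rw [abs_of_nonpos (by linarith : -(n : ℝ) ≤ 0)] at h1
    rw [abs_le] at h1 h2 ⊢
    constructor <;> linarith [h1.1, h1.2, h2.1, h2.2]

theorem cast_le {k : ℤ} {ρ : ℕ} (h : |k| ≤ ρ) : |(k : ℝ)| ≤ ρ := by exact_mod_cast h

/-- first-order expansion with prescribed slopes -/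
theorem two (u : Pt → ℝ) (x y : Pt) (ρ : ℕ) (m : Fin 2 → ℝ) (b : ℝ) (h1 : |y.1| ≤ ρ) (h2 : |y.2| ≤ ρ)
    (h : ∀ i (w : Pt), |w.1| ≤ ρ → |w.2| ≤ ρ → |df i u (x + w) - m i| ≤ b) :
    |u (x + y) - u x - ∑ i, m i * co i y| ≤ 2 * ρ * b := by
  have hb : 0 ≤ b := (abs_nonneg _).trans (h 0 0 (by simp) (by simp))
  have a1 := one (fun j => u (x + (j, 0))) (m 0) b y.1 fun j hj => by
    have := h 0 (j, 0) (hj.trans h1) (by simp)
    simpa [df, add_assoc] using this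
  have a2 := one (fun j => u (x + (y.1, j))) (m 1) b y.2 fun j hj => by
    have := h 1 (y.1, j) h1 (hj.trans h2)
    simpa [df, add_assoc] using this
  have b1 := mul_le_mul_of_nonneg_right (cast_le h1) hb
  have b2 := mul_le_mul_of_nonneg_right (cast_le h2) hb
  simp only [Prod.mk_zero_zero, add_zero, Prod.mk.eta] at a1 a2
  simp only [Fin.sum_univ_two, co0, co1]
  rw [abs_le] at a1 a2 ⊢
  constructor <;> linarith [a1.1, a1.2, a2.1, a2.2]

theorem lip {u : Pt → ℝ} {c : ℝ} (h : ∀ i x, |df i u x| ≤ c) (x y : Pt) {ρ : ℕ} (h1 : |y.1| ≤ ρ)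
    (h2 : |y.2| ≤ ρ) : |u (x + y) - u x| ≤ 2 * ρ * c := by
  simpa using two u x y ρ 0 c h1 h2 fun i w _ _ => by simpa using h i _

theorem tay {u : Pt → ℝ} {c : ℝ} (h : ∀ i j x, |df j (df i u) x| ≤ c) (x y : Pt) {ρ : ℕ}
    (h1 : |y.1| ≤ ρ) (h2 : |y.2| ≤ ρ) :
    |u (x + y) - u x - ∑ i, df i u x * co i y| ≤ 2 * ρ * (2 * ρ * c) :=
  two u x y ρ (fun i => df i u x) _ h1 h2 fun i w w1 w2 => lip (h i) x w w1 w2

/-- a displacement by `k` steps as a unit-step flow -/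
theorem exS (e : Pt) (g : Pt → ℝ) (k : ℤ) : ∃ h : Pt → ℝ,
    (∀ z, h (z - e) - h z = g (z - k • e) - g z) ∧
    (∀ z m b, (∀ j : ℤ, |j| ≤ |k| → |g (z - j • e) - m| ≤ b) → |h z - k * m| ≤ |(k : ℝ)| * b) ∧
    ∀ z, h z ≠ 0 → ∃ j : ℤ, (0 ≤ j ∧ j < k ∨ k ≤ j ∧ j < 0) ∧ g (z - j • e) ≠ 0 := by
  induction k using Int.induction_on with
  | zero => exact ⟨0, by simp, by simp, by simp⟩
  | succ n ih =>
    obtain ⟨h, h1, h2, h3⟩ := ih
    have e0 : |(n : ℤ)| ≤ |(n : ℤ) + 1| := by rw [abs_of_nonneg, abs_of_nonneg] <;> omega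
    refine ⟨fun z => h z + g (z - (n : ℤ) • e), fun z => ?_, fun z m b hb => ?_, fun z hz => ?_⟩
    · have := h1 z
      rw [show z - ((n : ℤ) + 1) • e = z - e - (n : ℤ) • e by rw [add_smul, one_smul]; abel]
      linarith
    · have a1 := h2 z m b fun j hj => hb j (hj.trans e0)
      have a2 := hb n e0
      push_cast at a1 ⊢
      rw [abs_of_nonneg (by positivity : (0 : ℝ) ≤ n + 1)]
      rw [abs_of_nonneg (Nat.cast_nonneg (α := ℝ) n)] at a1
      rw [abs_le] at a1 a2 ⊢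
      constructor <;> linarith [a1.1, a1.2, a2.1, a2.2]
    · by_cases h0 : h z = 0
      · exact ⟨n, by omega, by simpa [h0] using hz⟩
      · obtain ⟨j, j1, j2⟩ := h3 z h0
        exact ⟨j, by omega, j2⟩
  | pred n ih =>
    obtain ⟨h, h1, h2, h3⟩ := ih
    have e0 : |-(n : ℤ)| ≤ |-(n : ℤ) - 1| := by rw [abs_of_nonpos, abs_of_nonpos] <;> omega
    refine ⟨fun z => h z - g (z - (-(n : ℤ) - 1) • e), fun z => ?_, fun z m b hb => ?_,
      fun z hz => ?_⟩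
    · have := h1 z
      beta_reduce
      rw [show z - e - (-(n : ℤ) - 1) • e = z - (-(n : ℤ)) • e by rw [sub_smul, one_smul]; abel]
      linarith
    · have a1 := h2 z m b fun j hj => hb j (hj.trans e0)
      have a2 := hb _ le_rfl
      push_cast at a1 ⊢
      have hn : (0 : ℝ) ≤ n := Nat.cast_nonneg n
      rw [abs_of_nonpos (by linarith : -(n : ℝ) - 1 ≤ 0)]
      rw [abs_of_nonpos (by linarith : -(n : ℝ) ≤ 0)] at a1
      rw [abs_le] at a1 a2 ⊢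
      constructor <;> linarith [a1.1, a1.2, a2.1, a2.2]
    · by_cases h0 : h z = 0
      · exact ⟨-(n : ℤ) - 1, by omega, by simpa [h0] using hz⟩
      · obtain ⟨j, j1, j2⟩ := h3 z h0
        exact ⟨j, by omega, j2⟩

/-- routing of the edges of direction `y` along L-shaped paths -/
theorem route (a : Pt) (n₁ n₂ ρ : ℕ) (hρ : 1 ≤ ρ) (y : Pt) (h1 : |y.1| ≤ ρ) (h2 : |y.2| ≤ ρ)
    (Φ : Pt → ℝ) {c c' : ℝ} (hc : ∀ x, |Φ x| ≤ c) (hc' : ∀ i x, |df i Φ x| ≤ c') :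
    ∃ H : Fin 2 → Pt → ℝ,
      (∀ z, gt (rc a n₁ n₂) y (z - y) * Φ (z - y) - gt (rc a n₁ n₂) y z * Φ z -
        ∑ i, (gt (rc a n₁ n₂) (ev i) (z - ev i) * (co i y * Φ (z - ev i)) -
          gt (rc a n₁ n₂) (ev i) z * (co i y * Φ z)) = ∑ i, (H i (z - ev i) - H i z)) ∧
      (∀ i z, H i z ≠ 0 → z ∈ rc a n₁ n₂ ∧ z + ev i ∈ rc a n₁ n₂) ∧
      (∀ i z, |H i z| ≤ 2 * ρ * c) ∧
      ∀ i z, bl z (2 * ρ) ⊆ rc a n₁ n₂ → |H i z| ≤ ρ * (2 * ρ * c') := by
  set R := rc a n₁ n₂ with hR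
  have c0 : 0 ≤ c := (abs_nonneg _).trans (hc 0)
  have c0' : 0 ≤ c' := (abs_nonneg _).trans (hc' 0 0)
  obtain ⟨p, p1, p2, p3⟩ := exS (ev 0) (fun x => gt R y x * Φ x) y.1
  obtain ⟨q, q1, q2, q3⟩ :=
    exS (ev 1) (fun x => gt R y (x - y.1 • ev 0) * Φ (x - y.1 • ev 0)) y.2
  have k1 := abs_le.1 h1
  have k2 := abs_le.1 h2
  have hco : ∀ i, |co i y| ≤ ρ := fun i => by
    fin_cases i
    exacts [cast_le h1, cast_le h2]
  have gen : ∀ (i : Fin 2) (z : Pt) (s : ℝ), |s - co i y * 0| ≤ |co i y| * c →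
      |s - gt R (ev i) z * (co i y * Φ z)| ≤ 2 * ρ * c := fun i z s hs => by
    have b1 := abs_gt_mul R (ev i) z (co i y * Φ z)
    rw [abs_mul (co i y)] at b1
    have b2 := mul_le_mul (hco i) (hc z) (abs_nonneg _) (Nat.cast_nonneg ρ)
    have b3 := mul_le_mul_of_nonneg_right (hco i) c0
    rw [mul_zero, sub_zero] at hs
    exact (abs_sub _ _).trans (by linarith)
  have int : ∀ (z w : Pt), bl z (2 * ρ) ⊆ R → |w.1| ≤ ρ → |w.2| ≤ ρ →
      |gt R y (z + w) * Φ (z + w) - Φ z| ≤ 2 * ρ * c' := fun z w hz w1 w2 => by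
    have w1' := abs_le.1 w1
    have w2' := abs_le.1 w2
    rw [gt_one (hz (by simp only [mem_bl, Prod.fst_add, Prod.snd_add]; push_cast; omega))
      (hz (by simp only [mem_bl, Prod.fst_add, Prod.snd_add]; push_cast; omega)), one_mul]
    exact lip hc' z w w1 w2
  have fin : ∀ (i : Fin 2) (z : Pt) (s : ℝ), bl z (2 * ρ) ⊆ R →
      |s - co i y * Φ z| ≤ |co i y| * (2 * ρ * c') →
      |s - gt R (ev i) z * (co i y * Φ z)| ≤ ρ * (2 * ρ * c') := fun i z s hz hs => by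
    rw [gt_one (hz (self_mem_bl _ _)) (hz (by
      fin_cases i <;> simp only [mem_bl, Fin.zero_eta, Fin.mk_one, ev0, ev1, Prod.fst_add,
        Prod.snd_add] <;> push_cast <;> omega)), one_mul]
    exact hs.trans (mul_le_mul_of_nonneg_right (hco i) (by positivity))
  refine ⟨fun i z => ![p, q] i z - gt R (ev i) z * (co i y * Φ z), fun z => ?_, fun i z hz => ?_,
    fun i z => gen i z _ ?_, fun i z hz => fin i z _ hz ?_⟩
  · have a1 := p1 z
    have a2 := q1 z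
    rw [show z - y.2 • ev 1 - y.1 • ev 0 = z - y by ext <;> simp] at a2
    simp only [Fin.sum_univ_two, Matrix.cons_val_zero, Matrix.cons_val_one]
    linarith
  · by_cases h0 : ![p, q] i z = 0
    · exact of_gt (a := co i y * Φ z) (by simpa [h0] using hz)
    · fin_cases i
      · obtain ⟨j, j1, j2⟩ := p3 z h0
        have := of_gt j2
        simp only [hR, mem_rc, Fin.zero_eta, ev0, Prod.fst_add, Prod.snd_add, Prod.fst_sub,
          Prod.snd_sub, Prod.smul_mk, smul_eq_mul] at this ⊢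
        omega
      · obtain ⟨j, j1, j2⟩ := q3 z h0
        have := of_gt j2
        simp only [hR, mem_rc, Fin.mk_one, ev0, ev1, Prod.fst_add, Prod.snd_add, Prod.fst_sub,
          Prod.snd_sub, Prod.smul_mk, smul_eq_mul] at this ⊢
        omega
  · fin_cases i
    · exact p2 z 0 c fun j _ => by rw [sub_zero]; exact (abs_gt_mul _ _ _ _).trans (hc _)
    · exact q2 z 0 c fun j _ => by rw [sub_zero]; exact (abs_gt_mul _ _ _ _).trans (hc _)
  · fin_cases i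
    · refine p2 z _ _ fun j hj => ?_
      have := int z (-j, 0) hz (by simpa using hj.trans h1) (by simp)
      rwa [show z + (-j, 0) = z - j • ev 0 by ext <;> simp [sub_eq_add_neg]] at this
    · refine q2 z _ _ fun j hj => ?_
      have := int z (-y.1, -j) hz (by simpa using h1) (by simpa using hj.trans h2)
      rwa [show z + (-y.1, -j) = z - j • ev 1 - y.1 • ev 0 by ext <;> simp [sub_eq_add_neg]] at this

end Crest.Agent.T145.RJ57
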