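import Crest.Agent.T145.Om_11

/-!
# Row 145: the torus state, second part (helper11)

Symmetries of `St`, `EN`, `Nm`, `In`; the two-point function `K` of `J`; sums over a period; the energy
star `est` and the `τ`-derivative of `om`; differentiation under `om`.
-/

set_option autoImplicit false

namespace Crest.Agent.T145.Om

open Finset Filter Nc

variable {Λ : Lat} {n : ℕ} {F G H : Cfg Pt → ℝ} {S : Finset Pt}

/-! ## symmetries of the local objects -/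

theorem sym_rot (hΛ : Λ.Ok) (z : Pt) : Λ.Sym (rotZ z) := fun x y => by
  have e : rotZ z y - rotZ z x = (-(y - x).2, (y - x).1) := by ext <;> simp [rotZ]
  rw [e]
  refine ⟨fun h => ?_, hΛ.rot⟩
  have := hΛ.neg (hΛ.rot h)
  rwa [show -(-((-(y - x).2, (y - x).1) : Pt).2, ((-(y - x).2, (y - x).1) : Pt).1) = y - x by
    ext <;> simp] at this

theorem sym_swp (hΛ : Λ.Ok) (z : Pt) : Λ.Sym (swpZ z) := fun x y => by
  have e : swpZ z y - swpZ z x = ((y - x).2, (y - x).1) := by ext <;> simp [swpZ]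
  rw [e]
  exact ⟨fun h => hΛ.swap h, hΛ.swap⟩

theorem sym_sub (Λ : Lat) (z : Pt) : Λ.Sym (Equiv.subRight z) := fun x y => by simp

theorem map_bl_rot (z : Pt) (r : ℕ) : (bl z r).map (rotZ z).toEmbedding = bl z r := by
  ext x; rw [mem_map_equiv]; simp only [mem_bl, rotZ, Equiv.coe_fn_symm_mk]; omega

theorem map_bl_swp (z : Pt) (r : ℕ) : (bl z r).map (swpZ z).toEmbedding = bl z r := by
  ext x; rw [mem_map_equiv]; simp only [mem_bl, swpZ, Equiv.coe_fn_symm_mk]; omega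

theorem map_bl_sub (c z : Pt) (r : ℕ) : (bl c r).map (Equiv.subRight z).toEmbedding = bl (c - z) r := by
  ext x; rw [mem_map_equiv]
  simp only [mem_bl, Equiv.subRight_symm_apply, Prod.fst_add, Prod.snd_add, Prod.fst_sub, Prod.snd_sub]
  omega

theorem rotZ_self (z : Pt) : rotZ z z = z := by ext <;> simp [rotZ]

theorem swpZ_self (z : Pt) : swpZ z z = z := by ext <;> simp [swpZ]

section sym
variable {φ : Pt ≃ Pt} {z z' : Pt}

theorem St_map (hΛ : Λ.Ok) (h : Λ.Sym φ) {R : ℕ} (hb : (bl z R).map φ.toEmbedding = bl z' R)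
    (F : Cfg Pt → ℝ) (s : Cfg Pt) :
    St Λ z R (fun t => F (mapH φ t)) s = St Λ z' R F (mapH φ s) := by
  simp only [St, ← hb]; exact (h.ex_D hΛ _ s F).symm

theorem EN_map (hΛ : Λ.Ok) (h : Λ.Sym φ) {R : ℕ} (hb : (bl z R).map φ.toEmbedding = bl z' R)
    (hz : φ z = z') (F : Cfg Pt → ℝ) : EN Λ z R (fun t => F (mapH φ t)) = EN Λ z' R F := by
  subst hz; exact (h.ex_Nr0 hΛ hb z F).symm

theorem Nm_map (hΛ : Λ.Ok) (h : Λ.Sym φ) {R : ℕ} (hb : (bl z R).map φ.toEmbedding = bl z' R)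
    (hz : φ z = z') (F : Cfg Pt → ℝ) : Nm Λ z R (fun t => F (mapH φ t)) = Nm Λ z' R F :=
  EN_map hΛ h hb hz fun s => |F s|

theorem In_map (hΛ : Λ.Ok) (h : Λ.Sym φ) {R : ℕ} (hb : (bl z R).map φ.toEmbedding = bl z' R)
    (hz : φ z = z') (F : Cfg Pt → ℝ) : In Λ z R (fun t => F (mapH φ t)) ↔ In Λ z' R F := by
  subst hz
  have := (h.iso_Nr hΛ (bl z R) z).ig0 (hΛ.ctr_Nr _ _).1 F
  rw [hb] at this
  exact this.symm

end sym

theorem St_trl (hΛ : Λ.Ok) (c z : Pt) (R : ℕ) (F : Cfg Pt → ℝ) :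
    St Λ c R (trl z F) = trl z (St Λ (c - z) R F) :=
  funext fun s => St_map hΛ (sym_sub Λ z) (map_bl_sub c z R) F s

theorem EN_trl (hΛ : Λ.Ok) (c z : Pt) (R : ℕ) (F : Cfg Pt → ℝ) :
    EN Λ c R (trl z F) = EN Λ (c - z) R F :=
  EN_map hΛ (sym_sub Λ z) (map_bl_sub c z R) rfl F

theorem Nm_trl (hΛ : Λ.Ok) (c z : Pt) (R : ℕ) (F : Cfg Pt → ℝ) :
    Nm Λ c R (trl z F) = Nm Λ (c - z) R F :=
  Nm_map hΛ (sym_sub Λ z) (map_bl_sub c z R) rfl F

theorem In_trl (hΛ : Λ.Ok) (c z : Pt) (R : ℕ) (F : Cfg Pt → ℝ) :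
    In Λ c R (trl z F) ↔ In Λ (c - z) R F :=
  In_map hΛ (sym_sub Λ z) (map_bl_sub c z R) rfl F

/-- the flowed norm of a translate -/
theorem Nm_St_trl (hΛ : Λ.Ok) (z : Pt) (c R : ℕ) (F : Cfg Pt → ℝ) :
    Nm Λ z c (St Λ z R (trl z F)) = Nm Λ 0 c (St Λ 0 R F) := by
  rw [St_trl hΛ, Nm_trl hΛ, sub_self]

theorem d4_St (hΛ : Λ.Ok) {z : Pt} (h : D4 z F) (R : ℕ) : D4 z (St Λ z R F) := fun s =>
  ⟨by rw [← St_map hΛ (sym_rot hΛ z) (map_bl_rot z R)]; simp only [(h _).1],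
    by rw [← St_map hΛ (sym_swp hΛ z) (map_bl_swp z R)]; simp only [(h _).2]⟩

theorem W_D_neg (D : Finset Pt) (η s : Cfg Pt) : (Λ.D D).W (-η) (-s) = (Λ.D D).W η s := by
  simp only [Mdl.W, Lat.D, dE_neg, Lat.w, kern_neg, Finsupp.neg_apply, neg_inj]

theorem St_neg (z : Pt) (R : ℕ) (F : Cfg Pt → ℝ) (s : Cfg Pt) :
    St Λ z R F (-s) = St Λ z R (fun t => F (-t)) s := by
  have := Ex_equiv (Equiv.neg (Cfg Pt)) ((Λ.D (bl z R)).W (-s)) F
  simp only [Equiv.neg_apply, W_D_neg] at this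
  exact this.symm

theorem odd_St (h : OddF F) (z : Pt) (R : ℕ) : OddF (St Λ z R F) := fun s => by
  rw [St_neg]; simp only [h _, St, Ex_neg]

theorem even_St (h : EvenF F) (z : Pt) (R : ℕ) : EvenF (St Λ z R F) := fun s => by
  rw [St_neg]; simp only [h _]

theorem depG_trl {β : Type*} {F : Cfg Pt → β} {c : Pt} {r : ℕ} (h : DepG (bl c r) F) (z : Pt) :
    DepG (bl (c + z) r) fun s => F (mapH (Equiv.subRight z) s) :=
  (depG_mapH h _).mono fun x hx => by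
    obtain ⟨y, hy, rfl⟩ := mem_map.1 hx
    simp only [mem_bl, Equiv.coe_toEmbedding, Equiv.subRight_symm_apply, Prod.fst_add,
      Prod.snd_add] at hy ⊢
    omega

theorem ins_trl {c : Pt} {r : ℕ} (h : Ins c r F) (z : Pt) : Ins (c + z) r (trl z F) :=
  ⟨depG_trl h.1 z, h.2.comp _⟩

/-! ## the centred model -/

theorem ex_Tb_trl (hΛ : Λ.Ok) (hn : 2 * Λ.rg < n) {c : Pt} {R : ℕ} (h : 2 * R < n) {z : Pt}
    (hF : DepG (bl c R) F) (hF' : DepG (bl c R) (trl z F)) :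
    Ex ((Tb Λ n c).W 0) (trl z F) = Ex ((Tb Λ n c).W 0) F := by
  rw [← om_Tb hΛ hn h hF, ← om_Tb hΛ hn h hF', om_trl hΛ hn hF]

theorem ex_Tb_rot (hΛ : Λ.Ok) (hn : 2 * Λ.rg < n) {c : Pt} {R : ℕ} (h : 2 * R < n) {z : Pt}
    (hF : DepG (bl c R) F) (hF' : DepG (bl c R) fun s => F (mapH (rotZ z) s)) :
    Ex ((Tb Λ n c).W 0) (fun s => F (mapH (rotZ z) s)) = Ex ((Tb Λ n c).W 0) F := by
  rw [← om_Tb hΛ hn h hF, ← om_Tb hΛ hn h hF', (om_rot hΛ hn hF z).2]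

theorem ex_Tb_swp (hΛ : Λ.Ok) (hn : 2 * Λ.rg < n) {c : Pt} {R : ℕ} (h : 2 * R < n) {z : Pt}
    (hF : DepG (bl c R) F) (hF' : DepG (bl c R) fun s => F (mapH (swpZ z) s)) :
    Ex ((Tb Λ n c).W 0) (fun s => F (mapH (swpZ z) s)) = Ex ((Tb Λ n c).W 0) F := by
  rw [← om_Tb hΛ hn h hF, ← om_Tb hΛ hn h hF', (om_swp hΛ hn hF z).2]

/-! ## the current `J` -/

theorem depG_Jz (z : Pt) : DepG (bl z 1) (Jz z) := fun s s' h hs => by
  simp only [Jz]
  rw [hs z (self_mem_bl _ _), hs (z + (1, 0)) (by simp [mem_bl_abs]), hs (z + (-1, 0)) (by simp [mem_bl_abs]),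
    hs (z + (0, 1)) (by simp [mem_bl_abs]), hs (z + (0, -1)) (by simp [mem_bl_abs])]
  push_cast; ring

theorem tame_Jz (z : Pt) : Tame (Jz z) :=
  (((((Tame.ev z).const_mul 4).sub (Tame.ev _)).sub (Tame.ev _)).sub (Tame.ev _)).sub (Tame.ev _)

theorem ins_Jz (z : Pt) {r : ℕ} (hr : 1 ≤ r) : Ins z r (Jz z) :=
  ⟨(depG_Jz z).mono (bl_mono z hr), tame_Jz z⟩

theorem odd_Jz (z : Pt) : OddF (Jz z) := fun s => by
  simp only [Jz, Finsupp.neg_apply]; push_cast; ring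

theorem trl_Jz (z x : Pt) : trl z (Jz x) = Jz (x + z) := by
  funext s; simp only [trl, Jz, mapH_apply, Equiv.subRight_symm_apply, add_right_comm x _ z]

theorem Jz_rot (z x : Pt) (s : Cfg Pt) : Jz (rotZ z x) (mapH (rotZ z) s) = Jz x s := by
  have a : (rotZ z).symm (rotZ z x + (1, 0)) = x + (0, -1) := by ext <;> simp [rotZ] <;> ring
  have b : (rotZ z).symm (rotZ z x + (-1, 0)) = x + (0, 1) := by ext <;> simp [rotZ] <;> ring
  have c : (rotZ z).symm (rotZ z x + (0, 1)) = x + (1, 0) := by ext <;> simp [rotZ] <;> ring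
  have d : (rotZ z).symm (rotZ z x + (0, -1)) = x + (-1, 0) := by ext <;> simp [rotZ] <;> ring
  simp only [Jz, mapH_apply, Equiv.symm_apply_apply, a, b, c, d]; ring

theorem Jz_swp (z x : Pt) (s : Cfg Pt) : Jz (swpZ z x) (mapH (swpZ z) s) = Jz x s := by
  have a : (swpZ z).symm (swpZ z x + (1, 0)) = x + (0, 1) := by ext <;> simp [swpZ] <;> ring
  have b : (swpZ z).symm (swpZ z x + (-1, 0)) = x + (0, -1) := by ext <;> simp [swpZ] <;> ring
  have c : (swpZ z).symm (swpZ z x + (0, 1)) = x + (1, 0) := by ext <;> simp [swpZ] <;> ring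
  have d : (swpZ z).symm (swpZ z x + (0, -1)) = x + (-1, 0) := by ext <;> simp [swpZ] <;> ring
  simp only [Jz, mapH_apply, Equiv.symm_apply_apply, a, b, c, d]; ring

theorem d4_Jz (z : Pt) : D4 z (Jz z) := fun s =>
  ⟨by simpa only [rotZ_self] using Jz_rot z z s, by simpa only [swpZ_self] using Jz_swp z z s⟩

theorem depG_JJ (z x : Pt) : DepG (bl z 1 ∪ bl x 1) fun s => Jz z s * Jz x s :=
  ((depG_Jz z).mono subset_union_left).mul ((depG_Jz x).mono subset_union_right)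

theorem og_JJ (hΛ : Λ.Ok) (z x : Pt) : Og Λ n fun s => Jz z s * Jz x s :=
  og_tame hΛ (depG_JJ z x) ((tame_Jz z).mul (tame_Jz x))

/-- the two-point function of the current -/
noncomputable def K (Λ : Lat) (n : ℕ) (x : Pt) : ℝ := om Λ n fun s => Jz 0 s * Jz x s

theorem om_JJ (hΛ : Λ.Ok) (hn : 2 * Λ.rg < n) (z x : Pt) :
    om Λ n (fun s => Jz z s * Jz x s) = K Λ n (x - z) := by
  rw [K, ← om_trl hΛ hn (depG_JJ 0 (x - z)) z]
  congr 1
  funext s
  have a := congrFun (trl_Jz z 0) s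
  have b := congrFun (trl_Jz z (x - z)) s
  simp only [trl, zero_add, sub_add_cancel] at a b ⊢
  rw [a, b]

theorem K_neg (hΛ : Λ.Ok) (hn : 2 * Λ.rg < n) (x : Pt) : K Λ n (-x) = K Λ n x := by
  rw [← zero_sub, ← om_JJ hΛ hn, K]; simp only [mul_comm]

theorem K_rot (hΛ : Λ.Ok) (hn : 2 * Λ.rg < n) (x : Pt) : K Λ n (-x.2, x.1) = K Λ n x := by
  rw [K, ← (om_rot hΛ hn (depG_JJ 0 _) 0).2, K]
  have e : ((-x.2, x.1) : Pt) = rotZ 0 x := by ext <;> simp [rotZ]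
  simp only [e, Jz_rot, (d4_Jz 0 _).1]

theorem K_swap (hΛ : Λ.Ok) (hn : 2 * Λ.rg < n) (x : Pt) : K Λ n x.swap = K Λ n x := by
  rw [K, ← (om_swp hΛ hn (depG_JJ 0 _) 0).2, K]
  have e : x.swap = swpZ 0 x := by ext <;> simp [swpZ]
  simp only [e, Jz_swp, (d4_Jz 0 _).2]

theorem K_neg_fst (hΛ : Λ.Ok) (hn : 2 * Λ.rg < n) (x : Pt) : K Λ n (-x.1, x.2) = K Λ n x := by
  rw [← K_swap hΛ hn x]; exact K_rot hΛ hn x.swap

theorem K_neg_snd (hΛ : Λ.Ok) (hn : 2 * Λ.rg < n) (x : Pt) : K Λ n (x.1, -x.2) = K Λ n x := by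
  rw [← K_neg hΛ hn, ← K_neg_fst hΛ hn x]; simp

theorem om_J (hΛ : Λ.Ok) (z : Pt) : om Λ n (Jz z) = 0 := om_odd hΛ (depG_Jz z).dep (odd_Jz z)

/-! ## sums over a period -/

theorem sum_period (hn : 0 < n) (a v : Pt) (f : Pt → ℝ) :
    ∑ x ∈ sq a n, f (md n (x + v)) = ∑ x ∈ sq 0 n, f x := by
  have := map_sq_add 0 a n
  rw [zero_add] at this
  rw [← this, sum_map, ← sum_shift hn (a + v) f]
  simp only [Equiv.coe_toEmbedding, Equiv.coe_addRight, add_assoc]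

theorem sum_J_lf (hn : 0 < n) {a : Pt} (hS : ∀ x ∈ sq a n, bl x 1 ⊆ S) (s : Cfg Pt) :
    ∑ x ∈ sq a n, Jz x (lf n S s) = 0 := by
  have e : ∀ x ∈ sq a n, Jz x (lf n S s) = 4 * (s (md n (x + 0)) : ℝ) - s (md n (x + (1, 0))) -
      s (md n (x + (-1, 0))) - s (md n (x + (0, 1))) - s (md n (x + (0, -1))) := fun x hx => by
    simp only [Jz]
    rw [lf_of_mem n s (hS x hx (self_mem_bl _ _)), lf_of_mem n s (hS x hx (by simp [mem_bl_abs])),
      lf_of_mem n s (hS x hx (by simp [mem_bl_abs])), lf_of_mem n s (hS x hx (by simp [mem_bl_abs])),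
      lf_of_mem n s (hS x hx (by simp [mem_bl_abs])), add_zero]
  rw [sum_congr rfl e]
  simp only [sum_sub_distrib, ← mul_sum, sum_period hn a _ fun x => (s x : ℝ)]
  ring

/-- the total current vanishes -/
theorem sum_om_J (hΛ : Λ.Ok) (hn : 0 < n) (a : Pt) (hH : DepG S H)
    (h : ∀ x ∈ sq a n, Og Λ n fun s => H s * Jz x s) :
    ∑ x ∈ sq a n, om Λ n (fun s => H s * Jz x s) = 0 := by
  rw [← om_sum hΛ _ h]
  have hd : DepG (S ∪ (sq a n).biUnion fun x => bl x 1) fun s => ∑ x ∈ sq a n, H s * Jz x s :=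
    DepG.sum fun x hx => (hH.mono subset_union_left).mul ((depG_Jz x).mono
      ((subset_biUnion_of_mem (fun x => bl x 1) hx).trans subset_union_right))
  rw [om_eq hd.dep]
  simp only [← mul_sum]
  simp only [sum_J_lf hn fun x hx =>
    (subset_biUnion_of_mem (fun x => bl x 1) hx).trans subset_union_right, mul_zero]
  exact (hΛ.cen_T n).wt.ex_const 0

theorem sum_K (hΛ : Λ.Ok) (hn : 0 < n) (a : Pt) : ∑ x ∈ sq a n, K Λ n x = 0 :=
  sum_om_J hΛ hn a (depG_Jz 0) fun x _ => og_JJ hΛ 0 x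

/-- periodicity: a factor may be moved by a period -/
theorem om_period (hH : Dep S H) {S' : Finset Pt} (hG : Dep S' G) (v : Pt) (g : ℝ → ℝ → ℝ) :
    om Λ n (fun s => g (H s) (trl ((n : ℤ) • v) G s)) = om Λ n fun s => g (H s) (G s) := by
  set z := (n : ℤ) • v
  set U := S ∪ S' ∪ S'.image (· + z)
  have a : Dep U H := hH.mono (subset_union_left.trans subset_union_left)
  have b : Dep U G := hG.mono (subset_union_right.trans subset_union_left)
  have c : Dep U (trl z G) := fun s s' h => hG _ _ fun x hx =>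
    h _ (mem_union_right _ (mem_image_of_mem _ hx))
  rw [om_eq (a.comp₂ c g), om_eq (a.comp₂ b g)]
  congr 1
  funext s
  congr 1
  refine hG _ _ fun x hx => ?_
  rw [mapH_apply, Equiv.subRight_symm_apply,
    lf_of_mem n s (mem_union_right _ (mem_image_of_mem _ hx)),
    lf_of_mem n s (mem_union_left _ (mem_union_right _ hx)), md_add_mul]

theorem K_period (x v : Pt) : K Λ n (x + (n : ℤ) • v) = K Λ n x := by
  rw [K, ← trl_Jz]
  exact om_period (depG_Jz 0).dep (depG_Jz x).dep v fun a b => a * b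

/-! ## the energy star and the `τ`-derivative -/

/-- half the energy of the star at `z` -/
noncomputable def est (Λ : Lat) (z : Pt) (s : Cfg Pt) : ℝ :=
  (∑ y ∈ Λ.J, Tau5.eps Λ.xy Λ.τ (s (z + y) - s z)) / 2

theorem depG_est (z : Pt) : DepG (bl z Λ.rg) (est Λ z) :=
  (DepG.sum fun y hy => (DepG.diff (by
    have := Lat.le_rg hy
    simp only [mem_bl_abs, Prod.fst_add, Prod.snd_add, add_sub_cancel_left]; exact this)
    (self_mem_bl _ _)).comp (Tau5.eps Λ.xy Λ.τ)).comp (· / 2)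

theorem tame_est (hΛ : Λ.Ok) (z : Pt) : Tame (est Λ z) :=
  (Tame.sum _ fun y _ => Tau5.tame_eps (Tame.dE (z, z + y)) _ hΛ.pos).div_const 2

theorem ins_est (hΛ : Λ.Ok) (z : Pt) : Ins z Λ.rg (est Λ z) := ⟨depG_est z, tame_est hΛ z⟩

theorem even_est (z : Pt) : EvenF (est Λ z) := fun s => by
  simp only [est, Finsupp.neg_apply]
  congr 1
  refine sum_congr rfl fun y _ => ?_
  rw [← Tau5.eps_neg]; congr 1; ring

theorem est_nonneg (hΛ : Λ.Ok) (z : Pt) (s : Cfg Pt) : 0 ≤ est Λ z s :=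
  div_nonneg (sum_nonneg fun _ _ => Tau5.eps_nonneg _ hΛ.pos _) zero_le_two

theorem trl_est (z x : Pt) : trl z (est Λ x) = est Λ (x + z) := by
  funext s; simp only [trl, est, mapH_apply, Equiv.subRight_symm_apply, add_right_comm x _ z]

theorem est_aff (L : Pt ≃+ Pt) (hL : ∀ y, L y ∈ Λ.J ↔ y ∈ Λ.J) (c : Pt) {φ : Pt ≃ Pt}
    (hφ : ∀ x, φ.symm x = L x + c) (x : Pt) (s : Cfg Pt) :
    est Λ x (mapH φ s) = est Λ (φ.symm x) s := by
  simp only [est, mapH_apply, hφ]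
  congr 1
  refine sum_equiv L.toEquiv (fun y => (hL y).symm) fun y _ => ?_
  rw [map_add L, add_right_comm]; rfl

theorem est_rot (hΛ : Λ.Ok) (z x : Pt) (s : Cfg Pt) :
    est Λ (rotZ z x) (mapH (rotZ z) s) = est Λ x s := by
  rw [est_aff rotL (fun y => ⟨fun h => by simpa [rotL] using hΛ.rot h,
    fun h => by simpa [rotL] using hΛ.neg (hΛ.rot h)⟩) (z.1 - z.2, z.2 + z.1)
    (fun x => by ext <;> simp [rotZ, rotL] <;> ring), Equiv.symm_apply_apply]

theorem est_swp (hΛ : Λ.Ok) (z x : Pt) (s : Cfg Pt) :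
    est Λ (swpZ z x) (mapH (swpZ z) s) = est Λ x s := by
  rw [est_aff AddEquiv.prodComm (fun y => ⟨fun h => hΛ.swap h, fun h => hΛ.swap h⟩)
    (z.1 - z.2, z.2 - z.1) (fun x => by ext <;> simp [swpZ] <;> ring), Equiv.symm_apply_apply]

theorem d4_est (hΛ : Λ.Ok) (z : Pt) : D4 z (est Λ z) := fun s =>
  ⟨by simpa only [rotZ_self] using est_rot hΛ z z s, by simpa only [swpZ_self] using est_swp hΛ z z s⟩

theorem sum_est_lf (hΛ : Λ.Ok) (hn : 2 * Λ.rg < n) {a : Pt} (hS : ∀ x ∈ sq a n, bl x Λ.rg ⊆ S)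
    (s : Cfg Pt) : ∑ x ∈ sq a n, est Λ x (lf n S s) = ∑ e ∈ (Λ.T n).ed, Λ.en 0 e s := by
  have h := sum_T_even hΛ hn (g := Tau5.eps Λ.xy Λ.τ) (Tau5.eps_neg _ _) s
  have e : ∀ x ∈ sq a n, est Λ x (lf n S s) =
      (∑ y ∈ Λ.J, Tau5.eps Λ.xy Λ.τ (s (md n (md n (x + 0) + y)) - s (md n (x + 0)))) / 2 := by
    intro x hx
    simp only [est, add_zero, md_add]
    congr 1
    refine sum_congr rfl fun y hy => ?_
    have := Lat.le_rg hy
    rw [lf_of_mem n s (hS x hx (self_mem_bl _ _)), lf_of_mem n s (hS x hx (by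
      simp only [mem_bl_abs, Prod.fst_add, Prod.snd_add, add_sub_cancel_left]; exact this))]
  rw [sum_congr rfl e, sum_period (by omega) a 0 fun x =>
    (∑ y ∈ Λ.J, Tau5.eps Λ.xy Λ.τ (s (md n (x + y)) - s x)) / 2, ← sum_div, sum_comm, ← h]
  simp only [Tau5.en_eq0 hΛ]; ring

/-- the `τ`-derivative of the torus state: one energy star summed over a period -/
theorem hasDerivAt_om (hΛ : Λ.Ok) (hn : 2 * Λ.rg < n) (a : Pt) (hF : DepG S F) (hT : Tame F) :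
    HasDerivAt (fun t => om (Λ.at' t) n F) (∑ z ∈ sq a n, ocv Λ n F (est Λ z)) Λ.τ := by
  set U := S ∪ (sq a n).biUnion fun x => bl x Λ.rg
  have hU : ∀ x ∈ sq a n, bl x Λ.rg ⊆ U := fun x hx =>
    (subset_biUnion_of_mem (fun x => bl x Λ.rg) hx).trans subset_union_right
  have hF' : DepG U F := hF.mono subset_union_left
  have hc := hΛ.cen_T n
  have tF : Tame fun s => F (lf n U s) := hT.comp _
  have h := Tau5.hasDerivAt_exT hΛ n tF
  simp only [om_eq hF'.dep]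
  refine HasDerivAt.congr_deriv h (Eq.symm ?_)
  have e1 : ∀ z ∈ sq a n, ocv Λ n F (est Λ z) =
      Cv ((Λ.T n).W 0) (fun s => est Λ z (lf n U s)) fun s => F (lf n U s) := fun z hz => by
    have d := (depG_est (Λ := Λ) z).mono (hU z hz)
    rw [ocv, om_eq (hF'.mul d).dep, om_eq hF'.dep, om_eq d.dep, Cv_comm]; rfl
  rw [sum_congr rfl e1, ← Cv_sum_left _ (fun z _ => hc.ig ((tame_est hΛ z).comp _))
    fun z _ => hc.ig (((tame_est hΛ z).comp _).mul tF)]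
  simp only [sum_est_lf hΛ hn hU]
  rw [Cv_sum_left _ (fun e _ => hc.ig (Tau5.tame_len hΛ 0 e))
    fun e _ => hc.ig ((Tau5.tame_len hΛ 0 e).mul tF)]
  exact sum_congr rfl fun e _ => Cv_comm _ _ _

theorem continuousOn_om (hΛ : Λ.Ok) (hn : 2 * Λ.rg < n) (hF : DepG S F) (hT : Tame F) :
    ContinuousOn (fun t => om (Λ.at' t) n F) (Set.Ioi 0) := fun t ht =>
  (hasDerivAt_om (Λ := Λ.at' t) (hΛ.at' ht) hn 0 hF hT).continuousAt.continuousWithinAt

/-! ## differentiation under `om` -/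

theorem hasDerivAt_om_t (hΛ : Λ.Ok) {Φ Φ' : ℝ → Cfg Pt → ℝ} {B : Cfg Pt → ℝ} {t ε : ℝ} (hε : 0 < ε)
    (h1 : ∀ y, Dep S (Φ y)) (h2 : Dep S (Φ' t)) (hB : Og Λ n B) (h0 : Og Λ n (Φ t))
    (hd : ∀ s, ∀ y ∈ Set.Ioo (t - ε) (t + ε), HasDerivAt (fun y => Φ y s) (Φ' y s) y)
    (hb : ∀ s, ∀ y ∈ Set.Ioo (t - ε) (t + ε), |Φ' y s| ≤ B s) :
    HasDerivAt (fun y => om Λ n (Φ y)) (om Λ n (Φ' t)) t := by
  obtain ⟨S', hS', -⟩ := id hB
  have a : ∀ y, Dep (S ∪ S') (Φ y) := fun y => (h1 y).mono subset_union_left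
  have b : Dep (S ∪ S') (Φ' t) := h2.mono subset_union_left
  have c : Dep (S ∪ S') B := hS'.dep.mono subset_union_right
  simp only [fun y => om_eq (Λ := Λ) (n := n) (a y), om_eq b]
  exact hasDerivAt_Ex (Φ := fun y s => Φ y (lf n (S ∪ S') s)) (Φ' := fun y s => Φ' y (lf n (S ∪ S') s))
    (W_nonneg hΛ n) hε (hB.ig c) (h0.ig (a t)) (fun s => hd _) fun s => hb _

/-- `d/dt om (H cos (X + t Y)) = -om (H Y sin (X + t Y))` -/
theorem hasDerivAt_om_cos (hΛ : Λ.Ok) {X Y : Cfg Pt → ℝ} {t : ℝ}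
    (h1 : ∀ y : ℝ, Dep S fun s => H s * Real.cos (X s + y * Y s))
    (h2 : Dep S fun s => H s * Y s * Real.sin (X s + t * Y s))
    (h0 : Og Λ n fun s => H s * Real.cos (X s + t * Y s)) (hB : Og Λ n fun s => H s * Y s) :
    HasDerivAt (fun y : ℝ => om Λ n fun s => H s * Real.cos (X s + y * Y s))
      (-om Λ n fun s => H s * Y s * Real.sin (X s + t * Y s)) t := by
  rw [← om_neg' h2]
  refine hasDerivAt_om_t hΛ (Φ' := fun y s => -(H s * Y s * Real.sin (X s + y * Y s))) one_pos h1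
    (h2.comp (- ·)) (hB.abs hΛ) h0 (fun s y _ => ?_) fun s y _ => ?_
  · exact ((((hasDerivAt_id' y).mul_const (Y s)).const_add (X s)).cos.const_mul (H s)).congr_deriv
      (by ring)
  · rw [abs_neg, abs_mul (H s * Y s)]
    exact mul_le_of_le_one_right (abs_nonneg _) (Real.abs_sin_le_one _)

end Crest.Agent.T145.Om
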