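import Crest.Agent.T145.FlFusA_4
import Crest.Agent.T145.NcLat_37
import Crest.Agent.T145.NcGeo_51
import Crest.Agent.T145.NcMono_93
import Crest.Agent.T145.NcD1_43
import Crest.Agent.T145.NcIo_98
import Crest.Agent.T145.NcHd_10
import Crest.Agent.T145.NcCon_31
import Crest.Agent.T145.NcDec_15
import Crest.Agent.T145.BrB_73
import Crest.Agent.T145.ScB_97

/-!
# Row 145, flow calculus, part B (helper4): FUS, M1, M2, C on the lattice (unconditional)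
-/

set_option autoImplicit false
set_option linter.unusedSectionVars false
set_option linter.unusedVariables false

namespace Crest.Agent.T145.FlF4

open Finset Nc

theorem lgeo : LgeoStmt := lgeoStmt monoCrStmt
theorem ld1 : LD1Stmt :=
  ld1Stmt d1Stmt (d1ioStmt (nbStmt monoCrStmt d1Stmt) (hdStmt d1Stmt)) (hdStmt d1Stmt)
    (nbStmt monoCrStmt d1Stmt) lgeo
theorem gdec : GDecStmt :=
  gdecStmt d1Stmt (nbStmt monoCrStmt d1Stmt) monoCrStmt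
    (ncStmt d1Stmt (d1ioStmt (nbStmt monoCrStmt d1Stmt) (hdStmt d1Stmt)) (hdStmt d1Stmt)
      (nbStmt monoCrStmt d1Stmt) monoCrStmt)
theorem dec : DecStmt := decStmt gdec d1Stmt monoCrStmt lgeo ld1

variable {Λ : Lat} {m : Mdl Pt} {z : Pt} {q r c p R : ℕ} {F G H Z : Cfg Pt → ℝ} {U D B : Finset Pt}

/-! ## ambient models -/

theorem amb_mono {U' : Finset Pt} (h : Amb Λ m U) (hU : U' ⊆ U) : Amb Λ m U' := L37.Amb.mono' h hU

theorem amb_lat (h : Amb Λ m U) : Λ.Amb m U :=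
  ⟨h.ctr, h.anch, fun e he => (h.near.1 e (Or.inl (Lat.mem_edI.1 he).2.1)).2 (Lat.mem_edI.1 he).1,
    fun e he => h.near.2.1 e ((h.near.1 e (Or.inl (Lat.mem_edI.1 he).2.1)).2 (Lat.mem_edI.1 he).1)
      (Or.inl (Lat.mem_edI.1 he).2.1)⟩

theorem lat_empty (hc : m.Ctr) (ha : m.Anch) : Λ.Amb m ∅ :=
  ⟨hc, ha, fun e he => absurd (Lat.mem_edI.1 he).2.1 (notMem_empty _),
    fun e he => absurd (Lat.mem_edI.1 he).2.1 (notMem_empty _)⟩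

/-- the free box rooted at a corner -/
noncomputable def bx (Λ : Lat) (z : Pt) (c : ℕ) : Mdl Pt := Λ.Nr (bl z c) (z.1 + c, z.2 + c)

theorem corner_mem (z : Pt) (c : ℕ) : ((z.1 + c, z.2 + c) : Pt) ∈ bl z c := by
  rw [mem_bl]; dsimp only; omega

theorem bx_ctr (hΛ : Λ.Ok) (z : Pt) (c : ℕ) : (bx Λ z c).Ctr := hΛ.ctr_Nr _ _

theorem bx_anch (hΛ : Λ.Ok) (z : Pt) (c : ℕ) : (bx Λ z c).Anch :=
  hΛ.anch_Nr_rect fun _ hx => rect_bl hx (corner_mem z c)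

theorem amb_bx (hΛ : Λ.Ok) (h : p + Λ.rg ≤ c) : Amb Λ (bx Λ z c) (bl z p) := by
  have h1 := hΛ.one_le_rg
  refine ⟨bx_ctr hΛ z c, bx_anch hΛ z c, fun x hx => mem_erase.2 ⟨?_, bl_mono z (by omega) hx⟩,
    Lat.near_Nr (Lat.edT_subset_edI fun x hx => bl_subset_bl hx (by omega)) _⟩
  rintro rfl
  rw [mem_bl] at hx; dsimp only at hx; omega

theorem lat_bx (hΛ : Λ.Ok) (z : Pt) (c : ℕ) : Λ.Amb (bx Λ z c) (bl z c) :=
  ⟨bx_ctr hΛ z c, bx_anch hΛ z c, subset_rfl, fun _ _ => rfl⟩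

theorem EN_bx (hF : DepG (bl z c) F) : EN Λ z c F = Ex ((bx Λ z c).W 0) F :=
  Lat.ex_Nr_root (self_mem_bl z c) (corner_mem z c) (hF.shift subset_rfl)

theorem Nm_bx (hF : DepG (bl z c) F) : Nm Λ z c F = Ex ((bx Λ z c).W 0) fun s => |F s| :=
  EN_bx (hF.comp fun t => |t|)

theorem In_bx (hF : DepG (bl z c) F) : In Λ z c F ↔ Ig ((bx Λ z c).W 0) F :=
  (Md.root (Λ.N (bl z c)) (self_mem_bl z c) (corner_mem z c) (fun _ he => (Lat.mem_edI.1 he).2)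
    (fun _ _ => rfl) (hF.shift subset_rfl)).2.1

theorem In_tame (hΛ : Λ.Ok) (z : Pt) (c : ℕ) (hF : Tame F) : In Λ z c F :=
  (hΛ.cen_Nr_bl (self_mem_bl z c)).ig hF

theorem one_le_gam (hΛ : Λ.Ok) (h : r + 2 * Λ.rg ≤ c) : 1 ≤ gam Λ r c :=
  ((lgeo Λ hΛ).1 r c r c le_rfl le_rfl h).1

theorem gam_anti (hΛ : Λ.Ok) {r' c' : ℕ} (h1 : r' ≤ r) (h2 : c ≤ c') (h : r + 2 * Λ.rg ≤ c) :
    gam Λ r' c' ≤ gam Λ r c := ((lgeo Λ hΛ).1 r c r' c' h1 h2 h).2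

/-- under `Gd`, every annulus containing one of ratio `W` is good -/
theorem gam_le (hΛ : Λ.Ok) {g : ℝ} {W r₀ L a : ℕ} (hG : Gd Λ g W r₀ L) (h0 : r₀ ≤ a) (hL : a ≤ L)
    (hr : r ≤ a) (hc : W * a ≤ c) : gam Λ r c ≤ 1 + g := by
  have h2 : 2 * a ≤ W * a := Nat.mul_le_mul_right _ hG.1
  exact (gam_anti hΛ hr hc (by have := hG.2.1; omega)).trans (hG.2.2 a h0 hL)

theorem hole_ca (hΛ : Λ.Ok) (hc : Λ.rg ≤ c) (hR : c + Λ.rg ≤ R) (hm : Amb Λ m (bl z (R + Λ.rg))) :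
    (hole m (bl z c)).Ctr ∧ (hole m (bl z c)).Anch :=
  have h := (((lgeo Λ hΛ).2 m z).2 c R hc hR hm).2.2.2.2.2
  ⟨h.ctr, h.anch⟩

theorem amb_hole (hc : (hole m (bl z c)).Ctr) (ha : (hole m (bl z c)).Anch) (h : Amb Λ m U)
    (hd : Disjoint (bl z (c + Λ.rg)) U) : Amb Λ (hole m (bl z c)) U := by
  have hs : bl z c ⊆ bl z (c + Λ.rg) := bl_mono z (by omega)
  refine ⟨hc, ha, fun x hx => mem_sdiff.2 ⟨h.sub hx, fun hx' => disjoint_left.1 hd (hs hx') hx⟩,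
    fun e he => ?_, fun e he he' => h.near.2.1 e (Geo.mem_hole_ed.1 he).1 he', h.near.2.2⟩
  rw [Geo.mem_hole_ed, h.near.1 e he]
  refine ⟨fun k => k.1, fun k => ⟨k, fun k1 => ?_, fun k2 => ?_⟩⟩
  · have := Geo.near_bl k (Or.inl k1)
    exact he.elim (disjoint_left.1 hd this.1) (disjoint_left.1 hd this.2)
  · have := Geo.near_bl k (Or.inr k2)
    exact he.elim (disjoint_left.1 hd this.1) (disjoint_left.1 hd this.2)

theorem lat_hole {N : Finset Pt} (hc : (hole m N).Ctr) (ha : (hole m N).Anch) (h : Λ.Amb m D)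
    (hd : Disjoint N D) : Λ.Amb (hole m N) D :=
  ⟨hc, ha, fun e he => Geo.mem_hole_ed.2 ⟨h.2.2.1 he, disjoint_right.1 hd (Lat.mem_edI.1 he).2.1,
    disjoint_right.1 hd (Lat.mem_edI.1 he).2.2⟩, h.2.2.2⟩

/-! ## the step and the norm -/

theorem St_cE (hΛ : Λ.Ok) (h : Amb Λ m (bl z q)) (F : Cfg Pt → ℝ) : St Λ z q F = m.cE (bl z q) F :=
  L37.St_eq hΛ h.near h.ctr.1 F

theorem out_St (z : Pt) (q : ℕ) (F : Cfg Pt → ℝ) : Out (bl z q) (St Λ z q F) :=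
  Mdl.cE_out (Λ.D (bl z q)) (bl z q) F

theorem depG_St' (hΛ : Λ.Ok) (hF : DepG U F) (hU : bl z (q + Λ.rg) ⊆ U) :
    DepG (U \ bl z q) (St Λ z q F) := by
  refine (Mdl.cE_depG (m := Λ.D (bl z q)) (B := bl z q) (L37.fm_ne (hΛ.ctr_D _).1)
    (fun _ _ _ _ => rfl) hF).mono (union_subset ?_ subset_rfl)
  refine (Geo.bd_subset (B' := U) fun e he h => ?_)
  have := Geo.near_bl (Lat.mem_edT.1 he).1 h
  exact ⟨hU this.1, hU this.2⟩

theorem depG_St (hΛ : Λ.Ok) (hF : DepG (bl z p) F) (h : q + Λ.rg ≤ p) :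
    DepG (bl z p) (St Λ z q F) := (depG_St' hΛ hF (bl_mono z h)).mono sdiff_subset

theorem In_St (hΛ : Λ.Ok) (hF : DepG (bl z c) F) (h : q + Λ.rg ≤ c) (hI : In Λ z c F) :
    In Λ z c (St Λ z q F) := by
  have hm := amb_bx (z := z) hΛ h
  rw [In_bx (depG_St hΛ hF h), St_cE hΛ hm]
  exact ig_cE hm.ctr hm.anch hm.sub ((In_bx hF).1 hI)

/-- the norm of an insertion: condition off `bl z q`, `L¹` in the free box `bl z c` -/
noncomputable def nu (Λ : Lat) (z : Pt) (q c : ℕ) (F : Cfg Pt → ℝ) : ℝ := Nm Λ z c (St Λ z q F)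

theorem nu_nonneg (hΛ : Λ.Ok) (z : Pt) (q c : ℕ) (F : Cfg Pt → ℝ) : 0 ≤ nu Λ z q c F :=
  L37.Nm_nonneg hΛ _ _ _

theorem nu_eq (hΛ : Λ.Ok) (hF : DepG (bl z c) F) (h : q + Λ.rg ≤ c) :
    nu Λ z q c F = nc (bx Λ z c) (bl z q) F := by
  rw [nu, Nm_bx (depG_St hΛ hF h), St_cE hΛ (amb_bx hΛ h)]; rfl

theorem St_smul (z : Pt) (q : ℕ) (a : ℝ) (F : Cfg Pt → ℝ) :
    St Λ z q (fun s => a * F s) = fun s => a * St Λ z q F s := funext fun _ => Ex_const_mul _ _ _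

theorem St_const (hΛ : Λ.Ok) (z : Pt) (q : ℕ) (a : ℝ) : St Λ z q (fun _ => a) = fun _ => a :=
  funext fun s => (hΛ.wt_D _ s).ex_const a

theorem St_add (hΛ : Λ.Ok) (hF : Tame F) (hG : Tame G) :
    St Λ z q (fun s => F s + G s) = fun s => St Λ z q F s + St Λ z q G s :=
  funext fun s => Ex_add ((hΛ.se_D _ s).ig hF) ((hΛ.se_D _ s).ig hG)

theorem St_sub (hΛ : Λ.Ok) (hF : Tame F) (hG : Tame G) :
    St Λ z q (fun s => F s - G s) = fun s => St Λ z q F s - St Λ z q G s :=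
  funext fun s => Ex_sub ((hΛ.se_D _ s).ig hF) ((hΛ.se_D _ s).ig hG)

theorem St_out_mul (hG : Out (bl z q) G) (F : Cfg Pt → ℝ) :
    St Λ z q (fun s => G s * F s) = fun s => G s * St Λ z q F s :=
  funext fun s => Mdl.cE_out_mul (m := Λ.D (bl z q)) hG F s

theorem St_of_out (hΛ : Λ.Ok) (hG : Out (bl z q) G) : St Λ z q G = G :=
  funext fun s => Mdl.cE_of_out (m := Λ.D (bl z q)) hG (hΛ.wt_D _ s)

theorem nu_smul (z : Pt) (q c : ℕ) (a : ℝ) (F : Cfg Pt → ℝ) :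
    nu Λ z q c (fun s => a * F s) = |a| * nu Λ z q c F := by
  simp only [nu, St_smul, Nm, EN, abs_mul]; exact Ex_const_mul _ _ _

theorem nu_neg (z : Pt) (q c : ℕ) (F : Cfg Pt → ℝ) : nu Λ z q c (fun s => -F s) = nu Λ z q c F := by
  simpa using nu_smul (Λ := Λ) z q c (-1) F

theorem nu_sub_comm (z : Pt) (q c : ℕ) (F G : Cfg Pt → ℝ) :
    nu Λ z q c (fun s => F s - G s) = nu Λ z q c fun s => G s - F s := by
  rw [← nu_neg]; simp only [neg_sub]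

theorem nu_const (hΛ : Λ.Ok) (z : Pt) (q c : ℕ) (a : ℝ) : nu Λ z q c (fun _ => a) = |a| := by
  rw [nu, St_const hΛ]; exact (hΛ.cen_Nr_bl (self_mem_bl z c)).wt.ex_const _

theorem nu_le_of_bdd (hΛ : Λ.Ok) (z : Pt) (q c : ℕ) {K : ℝ} (h : ∀ s, |F s| ≤ K) :
    nu Λ z q c F ≤ K :=
  have hW := (hΛ.cen_Nr_bl (self_mem_bl z c)).wt
  have hb : ∀ s, |St Λ z q F s| ≤ K := fun s => (hΛ.wt_D _ s).abs_ex_le fun t _ => h t
  hW.ex_le (hW.ig_bdd (C := K) fun s => by rw [abs_abs]; exact hb s) fun s _ => hb s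

theorem nu_of_out (hΛ : Λ.Ok) (hG : Out (bl z q) G) : nu Λ z q c G = Nm Λ z c G := by
  rw [nu, St_of_out hΛ hG]

section semi
variable (hΛ : Λ.Ok) (h : q + Λ.rg ≤ c)
include hΛ h

theorem nu_add_le (hF : DepG (bl z c) F) (hG : DepG (bl z c) G) (hI : In Λ z c F) (hJ : In Λ z c G) :
    nu Λ z q c (fun s => F s + G s) ≤ nu Λ z q c F + nu Λ z q c G := by
  have hm := amb_bx (z := z) hΛ h
  rw [nu_eq hΛ hF h, nu_eq hΛ hG h, nu_eq hΛ (hF.add hG) h]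
  exact nc_add_le hm.ctr hm.anch hm.sub ((In_bx hF).1 hI) ((In_bx hG).1 hJ)

theorem nu_sub_le (hF : DepG (bl z c) F) (hG : DepG (bl z c) G) (hI : In Λ z c F) (hJ : In Λ z c G) :
    nu Λ z q c (fun s => F s - G s) ≤ nu Λ z q c F + nu Λ z q c G := by
  have hm := amb_bx (z := z) hΛ h
  rw [nu_eq hΛ hF h, nu_eq hΛ hG h, nu_eq hΛ (hF.sub hG) h]
  exact nc_sub_le hm.ctr hm.anch hm.sub ((In_bx hF).1 hI) ((In_bx hG).1 hJ)

theorem nu_sum_le {ι : Type*} (T : Finset ι) {F : ι → Cfg Pt → ℝ}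
    (hF : ∀ i ∈ T, DepG (bl z c) (F i) ∧ In Λ z c (F i)) :
    nu Λ z q c (fun s => ∑ i ∈ T, F i s) ≤ ∑ i ∈ T, nu Λ z q c (F i) := by
  have hm := amb_bx (z := z) hΛ h
  rw [nu_eq hΛ (DepG.sum fun i hi => (hF i hi).1) h,
    sum_congr rfl fun i hi => nu_eq hΛ (hF i hi).1 h]
  exact nc_sum_le hm.ctr hm.anch hm.sub T fun i hi => (In_bx (hF i hi).1).1 (hF i hi).2

theorem nu_le_Nm (hF : DepG (bl z c) F) (hI : In Λ z c F) : nu Λ z q c F ≤ Nm Λ z c F := by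
  have hm := amb_bx (z := z) hΛ h
  rw [nu_eq hΛ hF h, Nm_bx hF]
  exact nc_le_ex_abs hm.ctr hm.anch hm.sub ((In_bx hF).1 hI)

theorem abs_EN_le (hF : DepG (bl z c) F) (hI : In Λ z c F) : |EN Λ z c F| ≤ nu Λ z q c F := by
  have hm := amb_bx (z := z) hΛ h
  rw [nu_eq hΛ hF h, EN_bx hF]
  exact abs_ex_le_nc hm.ctr hm.anch hm.sub ((In_bx hF).1 hI)

/-- a larger conditioning ball, the same box -/
theorem nu_anti {q' : ℕ} (hq : q' ≤ q) (hF : DepG (bl z c) F) (hI : In Λ z c F) :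
    nu Λ z q c F ≤ nu Λ z q' c F := by
  have hm := amb_bx (z := z) hΛ h
  rw [nu_eq hΛ hF h, nu_eq hΛ hF (by omega : q' + Λ.rg ≤ c)]
  exact nc_anti hm.ctr hm.anch hm.sub (bl_mono z hq) ((In_bx hF).1 hI)

theorem nu_St {q' : ℕ} (hq : q' ≤ q) (hF : DepG (bl z c) F) (hI : In Λ z c F) :
    nu Λ z q c (St Λ z q' F) = nu Λ z q c F := by
  have hm := amb_bx (z := z) hΛ h
  rw [nu_eq hΛ hF h, nu_eq hΛ (depG_St hΛ hF (by omega)) h,
    St_cE hΛ (amb_mono hm (bl_mono z hq))]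
  exact nc_cE hm.ctr hm.anch hm.sub (bl_mono z hq) ((In_bx hF).1 hI)

/-- a bounded multiplier read off the conditioning ball -/
theorem nu_mul_le (hF : DepG (bl z c) F) (hI : In Λ z c F) (hZ : DepG (bl z c) Z)
    (hO : Out (bl z q) Z) {K : ℝ} (hK : ∀ s, |Z s| ≤ K) :
    nu Λ z q c (fun s => Z s * F s) ≤ K * nu Λ z q c F := by
  have hm := amb_bx (z := z) hΛ h
  rw [nu_eq hΛ hF h, nu_eq hΛ (hZ.mul hF) h]
  exact nc_out_mul_le hm.ctr hm.anch hm.sub hO hK ((In_bx hF).1 hI)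

end semi

/-- a larger box -/
theorem nu_box (hΛ : Λ.Ok) {c' : ℕ} (hq : q ≤ r) (hr : r + 2 * Λ.rg ≤ c) (hc : c ≤ c')
    (hF : DepG (bl z (r + Λ.rg)) F) (hI : In Λ z c F) :
    In Λ z c' F ∧ nu Λ z q c' F ≤ gam Λ r c * nu Λ z q c F :=
  ⟨(Dc15.nm_le d1Stmt lgeo hΛ hr hc hF hI).1, (Dc15.nm_le d1Stmt lgeo hΛ hr hc
    (depG_St hΛ hF (by omega)) (In_St hΛ (hF.mono (bl_mono z (by omega))) (by omega) hI)).2⟩

/-- (a): going up in scale -/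
theorem nu_up (hΛ : Λ.Ok) {q' c' : ℕ} (hq : q ≤ r) (hr : r + 2 * Λ.rg ≤ c) (hc : c ≤ c') (hq' : q ≤ q')
    (h' : q' + Λ.rg ≤ c') (hF : DepG (bl z (r + Λ.rg)) F) (hI : In Λ z c F) :
    nu Λ z q' c' F ≤ gam Λ r c * nu Λ z q c F :=
  have h := nu_box hΛ hq hr hc hF hI
  (nu_anti hΛ h' hq' (hF.mono (bl_mono z (by omega))) h.1).trans h.2

/-! ## bare bounds -/

/-- `E G ≤ g` in every centred model that contains the edges inside `D` -/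
def Bd (Λ : Lat) (D : Finset Pt) (G : Cfg Pt → ℝ) (g : ℝ) : Prop :=
  ∀ m : Mdl Pt, Λ.Amb m D → Ig (m.W 0) G ∧ Ex (m.W 0) G ≤ g

namespace Bd
variable {g g' : ℝ} {G' : Cfg Pt → ℝ}

theorem const (Λ : Lat) (D : Finset Pt) (a : ℝ) : Bd Λ D (fun _ => a) a := fun _ hm =>
  ⟨hm.cen.wt.ig_const a, (hm.cen.wt.ex_const a).le⟩

theorem mono {D' : Finset Pt} (h : Bd Λ D G g) (hD : D ⊆ D') : Bd Λ D' G g := fun m hm =>
  h m (hm.mono hD)

theorem le (h : Bd Λ D G g) (hg : g ≤ g') : Bd Λ D G g' := fun m hm =>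
  ⟨(h m hm).1, (h m hm).2.trans hg⟩

theorem add (h : Bd Λ D G g) (h' : Bd Λ D G' g') : Bd Λ D (fun s => G s + G' s) (g + g') :=
  fun m hm => ⟨(h m hm).1.add (h' m hm).1, by
    rw [Ex_add (h m hm).1 (h' m hm).1]; exact add_le_add (h m hm).2 (h' m hm).2⟩

theorem smul (h : Bd Λ D G g) {a : ℝ} (ha : 0 ≤ a) : Bd Λ D (fun s => a * G s) (a * g) :=
  fun m hm => ⟨(h m hm).1.const_mul a, by
    rw [Ex_const_mul]; exact mul_le_mul_of_nonneg_left (h m hm).2 ha⟩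

theorem sum {ι : Type*} (T : Finset ι) {G : ι → Cfg Pt → ℝ} {g : ι → ℝ}
    (h : ∀ i ∈ T, Bd Λ D (G i) (g i)) : Bd Λ D (fun s => ∑ i ∈ T, G i s) (∑ i ∈ T, g i) :=
  fun m hm => ⟨Ig.sum T fun i hi => (h i hi m hm).1, by
    rw [Ex_sum T fun i hi => (h i hi m hm).1]; exact sum_le_sum fun i hi => (h i hi m hm).2⟩

theorem of_abs_le (h : Bd Λ D G g) (hle : ∀ s, |G' s| ≤ G s) : Bd Λ D G' g := fun m hm =>
  have h1 : Ig (m.W 0) G' := Ig.of_abs_le hm.cen.nonneg (h m hm).1 fun s _ => hle s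
  ⟨h1, (Ex_mono hm.cen.nonneg h1 (h m hm).1 fun s => (le_abs_self _).trans (hle s)).trans (h m hm).2⟩

theorem of_le (h : Bd Λ D G g) (h0 : ∀ s, 0 ≤ G' s) (hle : ∀ s, G' s ≤ G s) : Bd Λ D G' g :=
  h.of_abs_le fun s => by rw [abs_of_nonneg (h0 s)]; exact hle s

theorem congr (h : Bd Λ D G g) (e : ∀ s, G s = G' s) : Bd Λ D G' g := by
  rwa [← funext e]

theorem nonneg (hΛ : Λ.Ok) (h : Bd Λ D G g) (h0 : ∀ s, 0 ≤ G s) : 0 ≤ g :=
  have hm : Λ.Amb (Λ.D D) D := amb_lat (L37.amb_D hΛ D)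
  (Ex_nonneg hm.cen.nonneg fun s _ => h0 s).trans (h _ hm).2

/-- Cauchy–Schwarz -/
theorem cs (h : Bd Λ D (fun s => G s ^ 2) g) (h' : Bd Λ D (fun s => G' s ^ 2) g') :
    Bd Λ D (fun s => |G s * G' s|) (Real.sqrt g * Real.sqrt g') := fun m hm => by
  have h0 := hm.cen.nonneg
  have a1 : Ig (m.W 0) fun s => |G s| ^ 2 := by simpa only [sq_abs] using (h m hm).1
  have a2 : Ig (m.W 0) fun s => |G' s| ^ 2 := by simpa only [sq_abs] using (h' m hm).1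
  simp only [abs_mul]
  refine ⟨Ig.mul_of_sq h0 a1 a2, (le_abs_self _).trans ((abs_Ex_mul_le h0 a1 a2).trans ?_)⟩
  simp only [sq_abs]
  exact mul_le_mul (Real.sqrt_le_sqrt (h m hm).2) (Real.sqrt_le_sqrt (h' m hm).2)
    (Real.sqrt_nonneg _) (Real.sqrt_nonneg _)

end Bd

theorem depG_flow {f : Pt → ℝ} {n : ℝ} (h : F2 (Λ.edI D) f n) : DepG D fun s => pr f s := by
  obtain ⟨φ, rfl, -⟩ := h
  simp only [pr_dv]
  exact DepG.sum fun e he => ((DepG.dE (Lat.mem_edI.1 he).2.1 (Lat.mem_edI.1 he).2.2).comp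
    fun k : ℤ => φ e * (k : ℝ))

theorem bd_cosh (hΛ : Λ.Ok) {f : Pt → ℝ} {n : ℝ} (h : F2 (Λ.edI D) f n) {t : ℝ} (ht : t ^ 2 * n ≤ 1) :
    Bd Λ D (fun s => Real.cosh (t * pr f s)) (Real.exp Λ.τ) := fun m hm => by
  refine ⟨hm.cen.ig (Tame.cosh (t • pr f)), ?_⟩
  have h1 := hm.cen.ex_cosh (t • pr f)
  have h2 := hm.M_smul_le' hΛ h ht
  refine (le_of_eq h1).trans (Real.exp_le_exp.2 (h2.trans ?_))
  exact mul_le_of_le_one_right hΛ.pos.le ht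

/-- the constant of the bare moment bound -/
noncomputable def cB (τ : ℝ) (k : ℕ) : ℝ := 2 * (k + 1).factorial * Real.exp τ

theorem cB_pos (τ : ℝ) (k : ℕ) : 0 < cB τ k := by unfold cB; positivity

theorem cB_mono {τ τ' : ℝ} {k k' : ℕ} (h : τ ≤ τ') (hk : k ≤ k') : cB τ k ≤ cB τ' k' := by
  unfold cB
  have : ((k + 1).factorial : ℝ) ≤ (k' + 1).factorial := by
    exact_mod_cast Nat.factorial_le (by omega)
  gcongr

theorem one_le_cB {τ : ℝ} (h : 0 ≤ τ) (k : ℕ) : 1 ≤ cB τ k := by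
  unfold cB
  have h1 : (1 : ℝ) ≤ (k + 1).factorial := by exact_mod_cast Nat.factorial_pos _
  have h2 := Real.one_le_exp h
  nlinarith

theorem abs_pow_le_cosh (x : ℝ) (k : ℕ) : |x| ^ k ≤ 2 * k.factorial * Real.cosh x := by
  have h1 := Real.pow_div_factorial_le_exp |x| (abs_nonneg x) k
  have h2 := exp_abs_le x
  rw [div_le_iff₀ (by positivity)] at h1
  rw [Real.cosh_eq]
  have h3 : (0 : ℝ) ≤ k.factorial := by positivity
  nlinarith [mul_le_mul_of_nonneg_right h2 h3]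

theorem prod_le_sum_pow {ι : Type*} (T : Finset ι) (hT : T.Nonempty) (a : ι → ℝ) (h : ∀ i ∈ T, 0 ≤ a i) :
    ∏ i ∈ T, a i ≤ ∑ i ∈ T, a i ^ T.card := by
  obtain ⟨j, hj, hmax⟩ := exists_max_image T a hT
  calc ∏ i ∈ T, a i ≤ ∏ _i ∈ T, a j := prod_le_prod h hmax
    _ = a j ^ T.card := prod_const _
    _ ≤ _ := single_le_sum (f := fun i => a i ^ T.card) (fun i hi => pow_nonneg (h i hi) _) hj

theorem pr_zero_of_flow {f : Pt → ℝ} (h : F2 (Λ.edI D) f 0) (s : Cfg Pt) : pr f s = 0 := by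
  obtain ⟨φ, rfl, h2⟩ := h
  rw [pr_dv]
  refine sum_eq_zero fun e he => ?_
  have := (sum_eq_zero_iff_of_nonneg fun e _ => sq_nonneg (φ e)).1
    (le_antisymm h2 (sum_nonneg fun e _ => sq_nonneg _)) e he
  rw [pow_eq_zero_iff two_ne_zero] at this
  rw [this, zero_mul]

/-- BARE: products of linear functionals with flows inside `D` -/
theorem bd_prod (hΛ : Λ.Ok) {ι : Type*} (T : Finset ι) {f : ι → Pt → ℝ} {a : ι → ℝ}
    (h : ∀ i ∈ T, 0 ≤ a i ∧ F2 (Λ.edI D) (f i) (a i ^ 2)) :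
    Bd Λ D (fun s => ∏ i ∈ T, |pr (f i) s|) (cB Λ.τ T.card * ∏ i ∈ T, a i) := by
  rcases T.eq_empty_or_nonempty with rfl | hT
  · simpa using (Bd.const Λ D 1).le (one_le_cB hΛ.pos.le 0)
  by_cases h0 : ∃ i ∈ T, a i = 0
  · obtain ⟨i, hi, e⟩ := h0
    have h1 := (h i hi).2
    rw [e, zero_pow two_ne_zero] at h1
    rw [prod_eq_zero hi e, mul_zero]
    exact (Bd.const Λ D 0).congr fun s =>
      (prod_eq_zero hi (by rw [pr_zero_of_flow h1, abs_zero])).symm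
  push Not at h0
  have hp : ∀ i ∈ T, 0 < a i := fun i hi => lt_of_le_of_ne (h i hi).1 (h0 i hi).symm
  have hP : 0 < ∏ i ∈ T, a i := prod_pos hp
  have h1 := ((Bd.sum T fun i hi => bd_cosh hΛ (h i hi).2 (t := (a i)⁻¹) (by
    rw [inv_pow, inv_mul_cancel₀ (pow_pos (hp i hi) 2).ne'])).smul
      (a := 2 * T.card.factorial) (by positivity)).smul hP.le
  refine (h1.of_le (fun s => prod_nonneg fun _ _ => abs_nonneg _) fun s => ?_).le ?_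
  · have e : ∏ i ∈ T, |pr (f i) s| = (∏ i ∈ T, a i) * ∏ i ∈ T, |(a i)⁻¹ * pr (f i) s| := by
      rw [← prod_mul_distrib]
      exact prod_congr rfl fun i hi => by
        rw [abs_mul, abs_of_pos (inv_pos.2 (hp i hi)), mul_inv_cancel_left₀ (hp i hi).ne']
    rw [e]
    refine mul_le_mul_of_nonneg_left ((prod_le_sum_pow T hT _ fun _ _ => abs_nonneg _).trans ?_) hP.le
    rw [mul_sum]
    exact sum_le_sum fun i _ => abs_pow_le_cosh _ _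
  · rw [sum_const, nsmul_eq_mul, mul_comm, cB, Nat.factorial_succ]
    refine mul_le_mul_of_nonneg_right ?_ hP.le
    push_cast
    have : (0 : ℝ) ≤ T.card.factorial * Real.exp Λ.τ := by positivity
    nlinarith

theorem bd_pow (hΛ : Λ.Ok) {f : Pt → ℝ} {a : ℝ} (ha : 0 ≤ a) (h : F2 (Λ.edI D) f (a ^ 2)) (k : ℕ) :
    Bd Λ D (fun s => |pr f s| ^ k) (cB Λ.τ k * a ^ k) := by
  simpa using bd_prod hΛ (range k) (f := fun _ => f) (a := fun _ => a) fun _ _ => ⟨ha, h⟩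

theorem bd_one (hΛ : Λ.Ok) {f : Pt → ℝ} {a : ℝ} (ha : 0 ≤ a) (h : F2 (Λ.edI D) f (a ^ 2)) :
    Bd Λ D (fun s => |pr f s|) (cB Λ.τ 1 * a) := by simpa using bd_pow hΛ ha h 1

theorem bd_pow₂ (hΛ : Λ.Ok) {f f' : Pt → ℝ} {a a' : ℝ} (ha : 0 ≤ a) (h : F2 (Λ.edI D) f (a ^ 2))
    (ha' : 0 ≤ a') (h' : F2 (Λ.edI D) f' (a' ^ 2)) (k k' : ℕ) :
    Bd Λ D (fun s => |pr f s| ^ k * |pr f' s| ^ k') (cB Λ.τ (k + k') * (a ^ k * a' ^ k')) := by
  have := bd_prod hΛ (D := D) (univ : Finset (Fin k ⊕ Fin k')) (f := Sum.elim (fun _ => f) fun _ => f')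
    (a := Sum.elim (fun _ => a) fun _ => a') fun i _ => by
      rcases i with i | i
      exacts [⟨ha, h⟩, ⟨ha', h'⟩]
  simpa using this

/-- (M2) -/
theorem m2 {g : ℝ} (hm : Λ.Amb m D) (hB : B ⊆ m.A) (hG : Bd Λ D G g) (hZ : ∀ s, |Z s| ≤ G s) :
    Ig (m.W 0) Z ∧ nc m B Z ≤ g :=
  have h := nc_le_ex hm.1 hm.2.1 hB (hG m hm).1 fun s _ => hZ s
  ⟨h.1, h.2.trans (hG m hm).2⟩

theorem m2_ex {g : ℝ} (hm : Λ.Amb m D) (hG : Bd Λ D G g) (hZ : ∀ s, |Z s| ≤ G s) :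
    |Ex (m.W 0) Z| ≤ g := by
  rw [← nc_self hm.1 hm.2.1]; exact (m2 hm subset_rfl hG hZ).2

theorem m2_nu (hΛ : Λ.Ok) {g : ℝ} (h : q + Λ.rg ≤ c) (hD : D ⊆ bl z c) (hd : DepG (bl z c) Z)
    (hG : Bd Λ D G g) (hZ : ∀ s, |Z s| ≤ G s) : In Λ z c Z ∧ nu Λ z q c Z ≤ g := by
  have := m2 ((lat_bx hΛ z c).mono hD) (amb_bx hΛ h).sub hG hZ
  rw [nu_eq hΛ hd h, In_bx hd]
  exact this

/-! ## fusion -/

section fus
variable {ι : Type} (I : Finset ι) {z : ι → Pt} {q r c R : ι → ℕ} {F : ι → Cfg Pt → ℝ}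

/-- an insertion with its radii: read on `bl z (r + rg)`, conditioned off `bl z q`, normed in `bl z c` -/
structure Ir (Λ : Lat) (z : Pt) (q r c : ℕ) (F : Cfg Pt → ℝ) : Prop where
  qr : q ≤ r
  rc : r + 2 * Λ.rg ≤ c
  dep : DepG (bl z (r + Λ.rg)) F
  ig : In Λ z c F

theorem Ir.St (hΛ : Λ.Ok) {z : Pt} {q r c : ℕ} {F : Cfg Pt → ℝ} (h : Ir Λ z q r c F) :
    Ir Λ z q r c (St Λ z q F) :=
  have h1 := h.qr
  have h2 := h.rc
  ⟨h1, h2, depG_St hΛ h.dep (by omega), In_St hΛ (h.dep.mono (bl_mono z (by omega))) (by omega) h.ig⟩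

theorem repl_St (hΛ : Λ.Ok) (hc : m.Ctr) (ha : m.Anch) (hB : B ⊆ m.A)
    (hd : ∀ i ∈ I, ∀ j ∈ I, i ≠ j → Disjoint (bl (z i) (c i)) (bl (z j) (c j)))
    (h : ∀ i ∈ I, Ir Λ (z i) (q i) (r i) (c i) (F i) ∧ Amb Λ m (bl (z i) (q i)) ∧
      bl (z i) (q i) ⊆ B ∧ Out (bl (z i) (q i)) Z)
    (hI : Ig (m.W 0) fun s => Z s * ∏ i ∈ I, F i s) :
    Ig (m.W 0) (fun s => Z s * ∏ i ∈ I, St Λ (z i) (q i) (F i) s) ∧
      nc m B (fun s => Z s * ∏ i ∈ I, F i s) =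
        nc m B fun s => Z s * ∏ i ∈ I, St Λ (z i) (q i) (F i) s := by
  have e : ∀ i ∈ I, St Λ (z i) (q i) (F i) = m.cE (bl (z i) (q i)) (F i) := fun i hi =>
    St_cE hΛ (h i hi).2.1 _
  have e' : ∀ s, ∏ i ∈ I, St Λ (z i) (q i) (F i) s = ∏ i ∈ I, m.cE (bl (z i) (q i)) (F i) s :=
    fun s => prod_congr rfl fun i hi => by rw [e i hi]
  simp only [e']
  refine nc_repl hc ha hB I (fun i hi => (h i hi).2.2.1) (fun i hi j hj hij => ?_)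
    (fun i hi => (h i hi).2.2.2) hI
  have h1 := (h i hi).1
  have h2 := (h j hj).1
  have hD : Disjoint (bl (z i) (r i + Λ.rg)) (bl (z j) (q j)) :=
    (hd i hi j hj hij).mono (bl_mono _ (by have := h1.rc; omega))
      (bl_mono _ (by have := h2.rc; have := h2.qr; omega))
  exact ⟨h1.dep.dep.out hD, by rw [← e i hi]; exact (h1.St hΛ).dep.dep.out hD⟩

/-- **FUS**: insertions in disjoint boxes times a bounded multiplier -/
theorem fus (hΛ : Λ.Ok) (hc : m.Ctr) (ha : m.Anch) (hB : B ⊆ m.A)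
    (hd : ∀ i ∈ I, ∀ j ∈ I, i ≠ j → Disjoint (bl (z i) (c i)) (bl (z j) (c j)))
    (h : ∀ i ∈ I, Ir Λ (z i) (q i) (r i) (c i) (F i) ∧ Amb Λ m (bl (z i) (c i)) ∧
      bl (z i) (q i) ⊆ B ∧ Out (bl (z i) (q i)) Z) {K : ℝ} (hK : ∀ s, |Z s| ≤ K) :
    Ig (m.W 0) (fun s => Z s * ∏ i ∈ I, F i s) ∧ nc m B (fun s => Z s * ∏ i ∈ I, F i s) ≤
      K * ∏ i ∈ I, gam Λ (r i) (c i) * nu Λ (z i) (q i) (c i) (F i) := by
  have hW := hc.wt ha 0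
  have h1 := (ld1 Λ hΛ).1 ι m I z r c F hd hc ha fun i hi =>
    ⟨(h i hi).2.1, (h i hi).1.rc, (h i hi).1.dep, (h i hi).1.ig⟩
  have h2 := (ld1 Λ hΛ).1 ι m I z r c (fun i => St Λ (z i) (q i) (F i)) hd hc ha fun i hi =>
    ⟨(h i hi).2.1, (h i hi).1.rc, ((h i hi).1.St hΛ).dep, ((h i hi).1.St hΛ).ig⟩
  have hI := h1.1.bdd_mul hW.nonneg hK
  have h3 := repl_St I hΛ hc ha hB hd (fun i hi => ⟨(h i hi).1, amb_mono (h i hi).2.1
    (bl_mono _ (by have := (h i hi).1.rc; have := (h i hi).1.qr; omega)), (h i hi).2.2⟩) hI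
  refine ⟨hI, h3.2.trans_le ?_⟩
  have h0 : 0 ≤ K := (abs_nonneg _).trans (hK 0)
  refine (nc_le_ex hc ha hB ((h2.1.abs hW.nonneg).const_mul K) fun s _ => ?_).2.trans ?_
  · rw [abs_mul]; exact mul_le_mul_of_nonneg_right (hK s) (abs_nonneg _)
  · rw [Ex_const_mul]; exact mul_le_mul_of_nonneg_left h2.2 h0

/-- several holes -/
theorem holes (hΛ : Λ.Ok) {g : ℝ} (hG : Bd Λ D G g) (h0 : ∀ s, 0 ≤ G s) (hm : Λ.Amb m D)
    (hd : ∀ i ∈ I, ∀ j ∈ I, i ≠ j → Disjoint (bl (z i) (c i + Λ.rg)) (bl (z j) (R j + Λ.rg)))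
    (h : ∀ i ∈ I, Ir Λ (z i) (q i) (r i) (c i) (F i) ∧ c i + 2 * Λ.rg ≤ R i ∧
      Amb Λ m (bl (z i) (R i + Λ.rg)) ∧ Out (bl (z i) (R i)) G ∧ Disjoint (bl (z i) (c i)) D) :
    Ig (m.W 0) (fun s => (∏ i ∈ I, F i s) * G s) ∧
      Ex (m.W 0) (fun s => |(∏ i ∈ I, F i s) * G s|) ≤
        (∏ i ∈ I, gam Λ (r i) (c i) * gam Λ (c i) (R i) * Nm Λ (z i) (c i) (F i)) * g := by
  classical
  induction I using Finset.induction_on generalizing m with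
  | empty =>
    simp only [prod_empty, one_mul, abs_of_nonneg (h0 _)]
    exact hG m hm
  | insert i I hi ih =>
    have hne : ∀ j ∈ I, i ≠ j := fun j hj e => hi (e ▸ hj)
    obtain ⟨h1, h2, h3, h4, h5⟩ := h i (mem_insert_self _ _)
    have h6 := h1.rc
    obtain ⟨hc', ha'⟩ := hole_ca hΛ (by omega : Λ.rg ≤ c i) (by omega) h3
    have h7 := ih (lat_hole hc' ha' hm h5)
      (fun j hj k hk => hd j (mem_insert_of_mem hj) k (mem_insert_of_mem hk)) fun j hj => by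
        obtain ⟨k1, k2, k3, k4, k5⟩ := h j (mem_insert_of_mem hj)
        exact ⟨k1, k2, amb_hole hc' ha' k3
          (hd i (mem_insert_self _ _) j (mem_insert_of_mem hj) (hne j hj)), k4, k5⟩
    have hO : Out (bl (z i) (R i)) fun s => (∏ j ∈ I, F j s) * G s :=
      (Out.prod fun j hj => (h j (mem_insert_of_mem hj)).1.dep.dep.out
        ((hd j (mem_insert_of_mem hj) i (mem_insert_self _ _) (hne j hj).symm).mono
          (bl_mono _ (by have := (h j (mem_insert_of_mem hj)).1.rc; omega))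
          (bl_mono _ (by omega)))).mul h4
    have h8 := ((ld1 Λ hΛ).2 (z i) (r i) (c i) (R i) (F i) h6 h2 h1.dep h1.ig).2.2.2.2 m _ h3 hO h7.1
    simp only [prod_insert hi, mul_assoc (F i _)]
    refine ⟨h8.1, h8.2.2.2.trans ?_⟩
    rw [mul_assoc (_ * _ * _)]
    refine mul_le_mul_of_nonneg_left h7.2 (mul_nonneg (mul_nonneg ?_ ?_) (L37.Nm_nonneg hΛ _ _ _))
    · linarith [one_le_gam hΛ h6]
    · linarith [one_le_gam hΛ h2]

/-- **FUSM** = (M1) for a family: insertions times a multiplier dominated by a bare observable `G` read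
off the balls `bl (z i) (R i)` -/
theorem fusM (hΛ : Λ.Ok) {g : ℝ} (hG : Bd Λ D G g) (hm : Λ.Amb m D) (hB : B ⊆ m.A)
    (hd : ∀ i ∈ I, ∀ j ∈ I, i ≠ j → Disjoint (bl (z i) (c i + Λ.rg)) (bl (z j) (R j + Λ.rg)))
    (h : ∀ i ∈ I, Ir Λ (z i) (q i) (r i) (c i) (F i) ∧ c i + 2 * Λ.rg ≤ R i ∧
      Amb Λ m (bl (z i) (R i + Λ.rg)) ∧ Out (bl (z i) (R i)) G ∧ Disjoint (bl (z i) (c i)) D ∧
      bl (z i) (q i) ⊆ B ∧ Out (bl (z i) (q i)) Z) (hZ : ∀ s, |Z s| ≤ G s) :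
    Ig (m.W 0) (fun s => Z s * ∏ i ∈ I, F i s) ∧ nc m B (fun s => Z s * ∏ i ∈ I, F i s) ≤
      (∏ i ∈ I, gam Λ (r i) (c i) * gam Λ (c i) (R i) * nu Λ (z i) (q i) (c i) (F i)) * g := by
  have hW := hm.cen.wt
  have h0 : ∀ s, 0 ≤ G s := fun s => (abs_nonneg _).trans (hZ s)
  have key : ∀ (P : ℝ) (s : Cfg Pt), |Z s * P| ≤ |P * G s| := fun P s => by
    rw [abs_mul, abs_mul, mul_comm, abs_of_nonneg (h0 s)]
    exact mul_le_mul_of_nonneg_left (hZ s) (abs_nonneg _)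
  have h1 := holes I hΛ hG h0 hm hd fun i hi =>
    ⟨(h i hi).1, (h i hi).2.1, (h i hi).2.2.1, (h i hi).2.2.2.1, (h i hi).2.2.2.2.1⟩
  have h2 := holes I (F := fun i => St Λ (z i) (q i) (F i)) hΛ hG h0 hm hd fun i hi =>
    ⟨(h i hi).1.St hΛ, (h i hi).2.1, (h i hi).2.2.1, (h i hi).2.2.2.1, (h i hi).2.2.2.2.1⟩
  have hI : Ig (m.W 0) fun s => Z s * ∏ i ∈ I, F i s :=
    Ig.of_abs_le hW.nonneg (h1.1.abs hW.nonneg) fun s _ => key _ s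
  have h3 := repl_St I hΛ hm.1 hm.2.1 hB (c := c) (fun i hi j hj hij => (hd i hi j hj hij).mono
    (bl_mono _ (by omega)) (bl_mono _ (by have := (h j hj).2.1; omega))) (fun i hi => ⟨(h i hi).1,
      amb_mono (h i hi).2.2.1 (bl_mono _ (by
        have := (h i hi).1.rc; have := (h i hi).1.qr; have := (h i hi).2.1; omega)),
      (h i hi).2.2.2.2.2⟩) hI
  exact ⟨hI, h3.2.trans_le ((nc_le_ex hm.1 hm.2.1 hB (h2.1.abs hW.nonneg)
    fun s _ => key _ s).2.trans h2.2)⟩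

/-- FUS for an expectation -/
theorem fus_ex (hΛ : Λ.Ok) (hc : m.Ctr) (ha : m.Anch)
    (hd : ∀ i ∈ I, ∀ j ∈ I, i ≠ j → Disjoint (bl (z i) (c i)) (bl (z j) (c j)))
    (h : ∀ i ∈ I, Ir Λ (z i) (q i) (r i) (c i) (F i) ∧ Amb Λ m (bl (z i) (c i)) ∧
      Out (bl (z i) (q i)) Z) {K : ℝ} (hK : ∀ s, |Z s| ≤ K) :
    |Ex (m.W 0) fun s => Z s * ∏ i ∈ I, F i s| ≤
      K * ∏ i ∈ I, gam Λ (r i) (c i) * nu Λ (z i) (q i) (c i) (F i) := by
  rw [← nc_self hc ha]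
  exact (fus I hΛ hc ha subset_rfl hd (fun i hi => ⟨(h i hi).1, (h i hi).2.1, (bl_mono _ (by
    have := (h i hi).1.rc; have := (h i hi).1.qr; omega)).trans (h i hi).2.1.sub, (h i hi).2.2⟩) hK).2

/-- FUS into the norm of a larger ball -/
theorem fus_nu (hΛ : Λ.Ok) {y : Pt} {Q P C : ℕ} (hQ : Q + Λ.rg ≤ C) (hP : P + Λ.rg ≤ C)
    (hZd : DepG (bl y C) Z)
    (hd : ∀ i ∈ I, ∀ j ∈ I, i ≠ j → Disjoint (bl (z i) (c i)) (bl (z j) (c j)))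
    (h : ∀ i ∈ I, Ir Λ (z i) (q i) (r i) (c i) (F i) ∧ bl (z i) (c i) ⊆ bl y P ∧
      bl (z i) (q i) ⊆ bl y Q ∧ Out (bl (z i) (q i)) Z) {K : ℝ} (hK : ∀ s, |Z s| ≤ K) :
    In Λ y C (fun s => Z s * ∏ i ∈ I, F i s) ∧ nu Λ y Q C (fun s => Z s * ∏ i ∈ I, F i s) ≤
      K * ∏ i ∈ I, gam Λ (r i) (c i) * nu Λ (z i) (q i) (c i) (F i) := by
  have hD : DepG (bl y C) fun s => Z s * ∏ i ∈ I, F i s := hZd.mul (DepG.prod fun i hi =>
    (h i hi).1.dep.mono ((bl_mono _ (by have := (h i hi).1.rc; omega)).trans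
      ((h i hi).2.1.trans (bl_mono _ (by omega)))))
  rw [nu_eq hΛ hD hQ, In_bx hD]
  exact fus I hΛ (bx_ctr hΛ y C) (bx_anch hΛ y C) (amb_bx hΛ hQ).sub hd (fun i hi =>
    ⟨(h i hi).1, amb_mono (amb_bx hΛ hP) (h i hi).2.1, (h i hi).2.2⟩) hK

/-- FUSM for an expectation -/
theorem fusM_ex (hΛ : Λ.Ok) {g : ℝ} (hG : Bd Λ D G g) (hm : Λ.Amb m D)
    (hd : ∀ i ∈ I, ∀ j ∈ I, i ≠ j → Disjoint (bl (z i) (c i + Λ.rg)) (bl (z j) (R j + Λ.rg)))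
    (h : ∀ i ∈ I, Ir Λ (z i) (q i) (r i) (c i) (F i) ∧ c i + 2 * Λ.rg ≤ R i ∧
      Amb Λ m (bl (z i) (R i + Λ.rg)) ∧ Out (bl (z i) (R i)) G ∧ Disjoint (bl (z i) (c i)) D ∧
      Out (bl (z i) (q i)) Z) (hZ : ∀ s, |Z s| ≤ G s) :
    |Ex (m.W 0) fun s => Z s * ∏ i ∈ I, F i s| ≤
      (∏ i ∈ I, gam Λ (r i) (c i) * gam Λ (c i) (R i) * nu Λ (z i) (q i) (c i) (F i)) * g := by
  rw [← nc_self hm.1 hm.2.1]
  exact (fusM I hΛ hG hm subset_rfl hd (fun i hi => ⟨(h i hi).1, (h i hi).2.1, (h i hi).2.2.1,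
    (h i hi).2.2.2.1, (h i hi).2.2.2.2.1, (bl_mono _ (by
      have := (h i hi).1.rc; have := (h i hi).1.qr; have := (h i hi).2.1; omega)).trans
        (h i hi).2.2.1.sub, (h i hi).2.2.2.2.2⟩) hZ).2

/-- FUSM into the norm of a larger ball -/
theorem fusM_nu (hΛ : Λ.Ok) {y : Pt} {Q P C : ℕ} (hQ : Q + Λ.rg ≤ C) (hP : P + Λ.rg ≤ C)
    (hZd : DepG (bl y C) Z) {g : ℝ} (hG : Bd Λ D G g) (hD : D ⊆ bl y C)
    (hd : ∀ i ∈ I, ∀ j ∈ I, i ≠ j → Disjoint (bl (z i) (c i + Λ.rg)) (bl (z j) (R j + Λ.rg)))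
    (h : ∀ i ∈ I, Ir Λ (z i) (q i) (r i) (c i) (F i) ∧ c i + 2 * Λ.rg ≤ R i ∧
      bl (z i) (R i + Λ.rg) ⊆ bl y P ∧ Out (bl (z i) (R i)) G ∧ Disjoint (bl (z i) (c i)) D ∧
      bl (z i) (q i) ⊆ bl y Q ∧ Out (bl (z i) (q i)) Z) (hZ : ∀ s, |Z s| ≤ G s) :
    In Λ y C (fun s => Z s * ∏ i ∈ I, F i s) ∧ nu Λ y Q C (fun s => Z s * ∏ i ∈ I, F i s) ≤
      (∏ i ∈ I, gam Λ (r i) (c i) * gam Λ (c i) (R i) * nu Λ (z i) (q i) (c i) (F i)) * g := by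
  have hDp : DepG (bl y C) fun s => Z s * ∏ i ∈ I, F i s := hZd.mul (DepG.prod fun i hi =>
    (h i hi).1.dep.mono ((bl_mono _ (by have := (h i hi).1.rc; have := (h i hi).2.1; omega)).trans
      ((h i hi).2.2.1.trans (bl_mono _ (by omega)))))
  rw [nu_eq hΛ hDp hQ, In_bx hDp]
  exact fusM I hΛ hG ((lat_bx hΛ y C).mono hD) (amb_bx hΛ hQ).sub hd (fun i hi =>
    ⟨(h i hi).1, (h i hi).2.1, amb_mono (amb_bx hΛ hP) (h i hi).2.2.1, (h i hi).2.2.2⟩) hZ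

end fus

/-! ## one and two insertions -/

theorem fus1 (hΛ : Λ.Ok) (hB : B ⊆ m.A) (h : Ir Λ z q r c F) (hm : Amb Λ m (bl z c))
    (hq : bl z q ⊆ B) (hO : Out (bl z q) Z) {K : ℝ} (hK : ∀ s, |Z s| ≤ K) :
    Ig (m.W 0) (fun s => Z s * F s) ∧
      nc m B (fun s => Z s * F s) ≤ K * (gam Λ r c * nu Λ z q c F) := by
  simpa using fus ({()} : Finset Unit) (z := fun _ => z) (q := fun _ => q) (r := fun _ => r)
    (c := fun _ => c) (F := fun _ => F) hΛ hm.ctr hm.anch hB (fun _ _ _ _ h => absurd rfl h)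
    (fun _ _ => ⟨h, hm, hq, hO⟩) hK

theorem fus0 (hΛ : Λ.Ok) (hB : B ⊆ m.A) (h : Ir Λ z q r c F) (hm : Amb Λ m (bl z c))
    (hq : bl z q ⊆ B) : Ig (m.W 0) F ∧ nc m B F ≤ gam Λ r c * nu Λ z q c F := by
  simpa using fus1 hΛ hB h hm hq (Out.const _ (1 : ℝ)) (K := 1) fun _ => by simp

theorem fus2 (hΛ : Λ.Ok) (hB : B ⊆ m.A) {z' : Pt} {q' r' c' : ℕ} {F' : Cfg Pt → ℝ}
    (h : Ir Λ z q r c F) (hm : Amb Λ m (bl z c)) (hq : bl z q ⊆ B) (hO : Out (bl z q) Z)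
    (h' : Ir Λ z' q' r' c' F') (hm' : Amb Λ m (bl z' c')) (hq' : bl z' q' ⊆ B) (hO' : Out (bl z' q') Z)
    (hd : Disjoint (bl z c) (bl z' c')) {K : ℝ} (hK : ∀ s, |Z s| ≤ K) :
    Ig (m.W 0) (fun s => Z s * (F s * F' s)) ∧ nc m B (fun s => Z s * (F s * F' s)) ≤
      K * (gam Λ r c * nu Λ z q c F * (gam Λ r' c' * nu Λ z' q' c' F')) := by
  have := fus (univ : Finset Bool) (z := fun b => cond b z z') (q := fun b => cond b q q')
    (r := fun b => cond b r r') (c := fun b => cond b c c') (F := fun b => cond b F F') hΛ hm.ctr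
    hm.anch hB (fun i _ j _ hij => by
      cases i <;> cases j
      exacts [absurd rfl hij, hd.symm, hd, absurd rfl hij])
    (fun i _ => by
      cases i
      exacts [⟨h', hm', hq', hO'⟩, ⟨h, hm, hq, hO⟩]) hK
  simpa using this

/-- (M1) -/
theorem m1 (hΛ : Λ.Ok) {g : ℝ} (hG : Bd Λ D G g) (hD : Λ.Amb m D) (hB : B ⊆ m.A)
    (h : Ir Λ z q r c F) (hR : c + 2 * Λ.rg ≤ R) (hm : Amb Λ m (bl z (R + Λ.rg)))
    (hO : Out (bl z R) G) (hd : Disjoint (bl z c) D) (hq : bl z q ⊆ B) (hOZ : Out (bl z q) Z)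
    (hZ : ∀ s, |Z s| ≤ G s) : Ig (m.W 0) (fun s => Z s * F s) ∧
      nc m B (fun s => Z s * F s) ≤ gam Λ r c * gam Λ c R * nu Λ z q c F * g := by
  simpa using fusM ({()} : Finset Unit) (z := fun _ => z) (q := fun _ => q) (r := fun _ => r)
    (c := fun _ => c) (R := fun _ => R) (F := fun _ => F) hΛ hG hD hB (fun _ _ _ _ h => absurd rfl h)
    (fun _ _ => ⟨h, hR, hm, hO, hd, hq, hOZ⟩) hZ

/-! ## contraction -/

section dec
variable (hΛ : Λ.Ok) {g : ℝ} {W r₀ L n a : ℕ} (hg : 0 ≤ g) (hg1 : g ≤ 1) (hG : Gd Λ g W r₀ L)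
  (h0 : r₀ ≤ a) (hR : (4 * W ^ 4) ^ (n + 1) * a ≤ R) (hL : (4 * W ^ 4) ^ (n + 1) * a ≤ L)
  (h : Ir Λ z q r c F) (hr : r + Λ.rg ≤ a) (hc : c ≤ W * a) (hm : Amb Λ m (bl z (R + Λ.rg)))
include hΛ hg hg1 hG h0 hR hL h hr hc hm

theorem dec_aux : W * a ≤ R ∧ DepG (bl z a) (St Λ z q F) ∧ In Λ z (W * a) (St Λ z q F) ∧
    Nm Λ z (W * a) (St Λ z q F) ≤ gam Λ r c * nu Λ z q c F ∧ Ig (m.W 0) F ∧
    Ex (m.W 0) (St Λ z q F) = Ex (m.W 0) F := by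
  have hW := hG.1
  have h1 : W * a ≤ R := by
    refine le_trans (Nat.mul_le_mul_right _ ?_) hR
    calc W ≤ W ^ 4 := Nat.le_self_pow (by norm_num) W
      _ ≤ 4 * W ^ 4 := by omega
      _ ≤ _ := Nat.le_self_pow (by omega) _
  have h2 := h.St hΛ
  have h3 := Dc15.nm_le d1Stmt lgeo hΛ h2.rc hc h2.dep h2.ig
  have h4 := h.qr
  have h5 := h.rc
  have hmq : Amb Λ m (bl z q) := amb_mono hm (bl_mono z (by omega))
  have h6 := (fus0 hΛ hmq.sub h (amb_mono hm (bl_mono z (by omega))) subset_rfl).1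
  exact ⟨h1, h2.dep.mono (bl_mono z hr), h3.1, h3.2, h6, by
    rw [St_cE hΛ hmq]; exact ex_cE hm.ctr hm.anch hmq.sub h6⟩

/-- **(C)** in the ambient model -/
theorem dec_nc (hB : B ⊆ m.A) (hRB : bl z R ⊆ B) :
    nc m B (fun s => F s - Ex (m.W 0) F) ≤ 20 * (200 * g) ^ n * (gam Λ r c * nu Λ z q c F) := by
  obtain ⟨h1, h2, h3, h4, h5, h6⟩ := dec_aux hΛ hg hg1 hG h0 hR hL h hr hc hm
  have h7 := (dec Λ hΛ g W r₀ L hg hg1 hG z a n R _ h0 hR hL h2 h3 m hm).1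
  have hW := hm.ctr.wt hm.anch 0
  have h8 := h.qr
  have h9 := h.rc
  have hmR : Amb Λ m (bl z R) := amb_mono hm (bl_mono z (by omega))
  have hqR : bl z q ⊆ bl z R := bl_mono z (by omega)
  refine (nc_anti hm.ctr hm.anch hB hRB (h5.sub (hW.ig_const _))).trans (le_trans (le_of_eq ?_)
    (h7.trans (mul_le_mul_of_nonneg_left h4 (by positivity))))
  refine Ex_congr fun s hs => ?_
  rw [h6, St_cE hΛ hmR, St_cE hΛ (amb_mono hmR hqR), cE_cE_supp hm.ctr hm.anch hmR.sub hqR h5 hs,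
    Mdl.cE_def, (wt_fibre hm.ctr hm.anch hmR.sub s).ex_sub_const (Mdl.ig_fib' hmR.sub hs h5)]
  rfl

/-- the mean hardly depends on the ambient model -/
theorem dec_amb {m' : Mdl Pt} (hm' : Amb Λ m' (bl z (R + Λ.rg))) :
    |Ex (m.W 0) F - Ex (m'.W 0) F| ≤ 20 * (200 * g) ^ n * (gam Λ r c * nu Λ z q c F) := by
  obtain ⟨h1, h2, h3, h4, h5, h6⟩ := dec_aux hΛ hg hg1 hG h0 hR hL h hr hc hm
  rw [← h6, ← (dec_aux hΛ hg hg1 hG h0 hR hL h hr hc hm').2.2.2.2.2]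
  exact ((dec Λ hΛ g W r₀ L hg hg1 hG z a n R _ h0 hR hL h2 h3 m hm).2.1 m' hm').trans
    (mul_le_mul_of_nonneg_left h4 (by positivity))

/-- **(C)** in the norm -/
theorem dec_nu {Q C : ℕ} (hQ : R ≤ Q) (hC : Q + Λ.rg ≤ C) :
    nu Λ z Q C (fun s => F s - Ex (m.W 0) F) ≤ 40 * (200 * g) ^ n * (gam Λ r c * nu Λ z q c F) := by
  obtain ⟨h1, h2, h3, h4, h5, h6⟩ := dec_aux hΛ hg hg1 hG h0 hR hL h hr hc hm
  have h7 := ((dec Λ hΛ g W r₀ L hg hg1 hG z a n R _ h0 hR hL h2 h3 m hm).2.2.1 C (by omega)).2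
  have h8 := h.qr
  have h9 := h.rc
  have hF : DepG (bl z C) F := h.dep.mono (bl_mono z (by omega))
  have hI : In Λ z C F := (nu_box hΛ h8 h9 (by omega) h.dep h.ig).1
  have hb := amb_bx (z := z) hΛ (by omega : R + Λ.rg ≤ C)
  have hW := hb.ctr.wt hb.anch 0
  have hd : DepG (bl z C) fun s => F s - Ex (m.W 0) F := hF.sub (DepG.const _ _)
  have hIb := (In_bx hF).1 hI
  have hqR : bl z q ⊆ bl z R := bl_mono z (by omega)
  refine (nu_anti hΛ hC hQ hd ((In_bx hd).2 (hIb.sub (hW.ig_const _)))).trans (le_trans (le_of_eq ?_)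
    (h7.trans (mul_le_mul_of_nonneg_left h4 (by positivity))))
  rw [nu_eq hΛ hd (by omega), Nm_bx ((depG_St hΛ (depG_St hΛ hF (by omega)) (by omega)).sub
    (DepG.const _ _))]
  refine Ex_congr fun s hs => ?_
  rw [h6, St_cE hΛ hb, St_cE hΛ (amb_mono hb hqR), cE_cE_supp hb.ctr hb.anch hb.sub hqR hIb hs,
    Mdl.cE_def, (wt_fibre hb.ctr hb.anch hb.sub s).ex_sub_const (Mdl.ig_fib' hb.sub hs hIb)]
  rfl

end dec

end Crest.Agent.T145.FlF4
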