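import Crest.Agent.T145.VxDef_35
import Crest.Agent.T145.ScB_97
import Crest.Agent.T145.MdlC_73

/-!
# Row 145, twisted module: the norms of `J_z` and a core insertion against `J_z` (helper93)
-/

set_option autoImplicit false

namespace Crest.Agent.T145.Vx

open Finset
open Nc (an Amb Nm St)

namespace J93

theorem b_pos {P : Par} (h : P.Ok) : 0 < P.b := h.crit.1.2

theorem mem_ds {z x : Pt} {r : ℕ} : x ∈ bl z r ↔ ds x z ≤ r := by
  rw [mem_bl, ds]; omega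

theorem ds_tri (x y z : Pt) : ds x z ≤ ds x y + ds y z := by unfold ds; omega

theorem ds_comm (x y : Pt) : ds x y = ds y x := by unfold ds; omega

theorem ds_pq (V : Vp) : ds V.p V.q = V.r := by
  obtain ⟨a, r, sd⟩ := V
  cases sd <;> simp [ds, Vp.p, Vp.q, Vp.sw]

theorem bl_sub {z p : Pt} {a c : ℕ} (h : ds z p + a ≤ c) : bl z a ⊆ bl p c := fun x hx => by
  rw [mem_ds] at hx ⊢
  have := ds_tri x z p
  omega

theorem ins_mono {z p : Pt} {a c : ℕ} {F : Cfg Pt → ℝ} (hF : Ins z a F) (h : ds z p + a ≤ c) : Ins p c F :=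
  ⟨hF.1.mono (bl_sub h), hF.2⟩

theorem amb_mono {Λ : Lat} {m : Mdl Pt} {X U : Finset Pt} (h : Amb Λ m X) (hU : U ⊆ X) : Amb Λ m U :=
  ⟨h.ctr, h.anch, hU.trans h.sub, h.near.mono hU⟩

theorem ds_self (z : Pt) : ds z z = 0 := by simp [ds]

theorem out_of {z p : Pt} {a c : ℕ} {F : Cfg Pt → ℝ} (hF : DepG (bl p c) F) (h : c + a < ds z p) :
    Out (bl z a) F := fun s s' e => hF s s' 0 fun x hx => by
  rw [add_zero]
  refine (e x fun hz => ?_).symm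
  rw [mem_ds] at hx hz
  have := ds_tri z x p
  have := ds_comm z x
  omega

variable {b : ℝ}

theorem wtN (hb : 0 < b) (σ : Pt × Pt → ℤ) (z : Pt) (c : ℕ) : Wt (((xyL b).Nr (bl z c) z).Ws 0 σ) :=
  Md.ctr_wts ((xyL_ok hb).ctr_Nr _ _) ((xyL_ok hb).anch_Nr_bl (mem_ds.2 (by simp [ds_self]))) 0 σ

theorem seN (hb : 0 < b) (σ : Pt × Pt → ℤ) (z : Pt) (c : ℕ) : SE (((xyL b).Nr (bl z c) z).Ws 0 σ) :=
  Md.se_Ws' ((xyL_ok hb).ctr_Nr _ _).1 ((xyL_ok hb).anch_Nr_bl (mem_ds.2 (by simp [ds_self])))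
    (Md.ctr_tm ((xyL_ok hb).ctr_Nr _ _)) 0 σ

theorem nrm_nonneg (hb : 0 < b) (σ : Pt × Pt → ℤ) (z : Pt) (c : ℕ) (F : Cfg Pt → ℝ) :
    0 ≤ (xyL b).nrm σ z c F := Ex_nonneg (wtN hb σ z c).nonneg fun _ _ => abs_nonneg _

theorem nrm_one (hb : 0 < b) (σ : Pt × Pt → ℤ) (z : Pt) (c : ℕ) : (xyL b).nrm σ z c (fun _ => 1) = 1 := by
  simp only [Lat.nrm, Lat.exN, abs_one]
  exact (wtN hb σ z c).ex_const 1

theorem nu_nonneg {P : Par} (h : P.Ok) (V : Vp) (ρ : ℕ) (F : Cfg Pt → ℝ) : 0 ≤ P.ν V ρ F :=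
  nrm_nonneg (b_pos h) _ _ _ _

theorem N_nonneg {P : Par} (h : P.Ok) (V : Vp) (z : Pt) (ρ : ℕ) (F : Cfg Pt → ℝ) : 0 ≤ P.N V z ρ F :=
  nrm_nonneg (b_pos h) _ _ _ _

theorem ins_tr (hT : TrStmt) (hb : 0 < b) (σ : Pt × Pt → ℤ) {z : Pt} {a : ℕ} {F : Cfg Pt → ℝ}
    (hF : Ins z (a + 1) F) : Ins z (a + 1) ((xyL b).tr σ z a F) :=
  ⟨(hT b σ z a F hb hF).2.1.mono sdiff_subset, (hT b σ z a F hb hF).1⟩

theorem nu_le (hT : TrStmt) {P : Par} (h : P.Ok) (V : Vp) {ρ : ℕ} (hρ : 1 ≤ ρ) {F : Cfg Pt → ℝ}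
    (hF : Ins V.p (ρ + 1) F) : P.ν V ρ F ≤ 2 * P.N V V.p ρ F := by
  have hb := b_pos h
  have w := wtN hb V.σ V.p (P.W₀ * ρ)
  have se := seN hb V.σ V.p (P.W₀ * ρ)
  obtain ⟨t1, -, t3, -⟩ := hT P.b V.σ V.p ρ F hb hF
  have h3 := t3 V.p (P.W₀ * ρ) (bl_mono _ (by nlinarith [h.W2]))
  have h4 : |(xyL P.b).exN V.σ V.p (P.W₀ * ρ) F| ≤ (xyL P.b).nrm V.σ V.p (P.W₀ * ρ) F :=
    abs_Ex_le w.nonneg (se.ig hF.2)
  have h5 : P.ν V ρ F ≤ (xyL P.b).nrm V.σ V.p (P.W₀ * ρ) ((xyL P.b).tr V.σ V.p ρ F) +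
      |(xyL P.b).exN V.σ V.p (P.W₀ * ρ) F| := by
    refine le_trans (Ex_mono w.nonneg (se.ig (t1.sub (Tame.const _)).abs)
      (se.ig (t1.abs.add (Tame.const _))) fun s => abs_sub _ _) (le_of_eq ?_)
    exact w.ex_add_const (se.ig t1.abs) _
  change _ ≤ 2 * (xyL P.b).nrm V.σ V.p (P.W₀ * ρ) F
  linarith

theorem insJ (hY : YStmt) (σ : Pt × Pt → ℤ) (z : Pt) : Ins z 1 (Jv σ z) ∧ Jv 0 z = Jz z :=
  (hY σ ∅ 0 fun _ _ => rfl).2.2.2.2 z

theorem Jv_gauge (hY : YStmt) {σ : Pt × Pt → ℤ} {z : Pt} {c : ℕ} (hc : 1 ≤ c) {g : Cfg Pt}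
    (hg : ∀ e ∈ (xyL b).edI (bl z c), σ e = dE e g) : Jv σ z = fun s => Jz z (s + g) := by
  funext s
  rw [← (insJ hY 0 z).2, Jv, Jv]
  refine sum_congr rfl fun i _ => ?_
  have hJ : ev i ∈ (xyL b).Jp := Vd.mem_Jp.2 (by fin_cases i <;> simp [ev])
  have h1 := hg (z - ev i, z) (Lat.mem_edI.2 ⟨by simpa using hJ, by
    fin_cases i <;> simp [mem_bl, ev] <;> omega, by simp [mem_bl]⟩)
  have h2 := hg (z, z + ev i) (Lat.mem_edI.2 ⟨by simpa using hJ, by simp [mem_bl], by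
    fin_cases i <;> simp [mem_bl, ev] <;> omega⟩)
  simp only [nE, h1, h2, dE, Finsupp.add_apply, Pi.zero_apply]
  push_cast
  ring

/-- a free cell -/
theorem cell (hT : TrStmt) (hG : GgStmt) (hY : YStmt) {P : Par} (h : P.Ok) (V : Vp) (z : Pt) {ρ : ℕ}
    (h0 : P.r₀ ≤ ρ) (hd : P.W₀ * ρ < V.d z) :
    P.N V z ρ (P.L.tr V.σ z ρ (Jv V.σ z)) ≤ P.K / ((ρ : ℝ) ^ 2 * Real.log ρ) := by
  have hb := b_pos h
  have hc : ρ + 1 ≤ P.W₀ * ρ := by nlinarith [h.W2, h.r2]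
  obtain ⟨g, hg, -, H⟩ := hG P.b V z _ hb hd
  have iJ : Ins z (ρ + 1) (Jz z) := by
    rw [← (insJ hY 0 z).2]; exact ins_mono (insJ hY 0 z).1 (by rw [ds_self]; omega)
  have iS := ins_tr hT hb 0 iJ
  rw [Lat.tr_zero] at iS
  have e1 := (H _ le_rfl (Jz z)).2 ρ hc iJ
  have e2 := (H _ le_rfl fun s => |St (xyL P.b) z ρ (Jz z) s|).1
    ⟨(iS.1.mono (bl_mono _ hc)).comp _, iS.2.abs⟩
  rw [Jv_gauge hY (by omega) hg]
  change (xyL P.b).exN V.σ z (P.W₀ * ρ) (fun s => |(xyL P.b).tr V.σ z ρ (fun s => Jz z (s + g)) s|) ≤ _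
  rw [e1, e2]
  exact h.f1 ρ h0 z _ le_rfl

theorem one_le_log {a : ℕ} (ha : 16 ≤ a) : 1 ≤ Real.log a := by
  rw [Real.le_log_iff_exp_le (by positivity)]
  have : (16 : ℝ) ≤ a := by exact_mod_cast ha
  linarith [Real.exp_one_lt_d9]

theorem log_le_mul {x a M : ℝ} (hx : 0 < x) (hM : 1 ≤ M) (ha : 1 ≤ Real.log a) (ha0 : 0 < a)
    (h : x ≤ M * a) : Real.log x ≤ (M + 1) * Real.log a := by
  have h1 := Real.log_le_log hx h
  rw [Real.log_mul (by positivity) ha0.ne'] at h1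
  have h2 := Real.log_le_sub_one_of_pos (show 0 < M by positivity)
  nlinarith

theorem num {x ρ : ℝ} (hx : 1 ≤ x) (h : x ≤ ρ) (hρ : 1 < ρ) : (x / ρ) ^ (1 - 1 / 40 : ℝ) ≤
    (Real.log x + 40) * x ^ (19 / 20 : ℝ) * ρ ^ (-(19 / 20 : ℝ)) / Real.log ρ := by
  have x0 : 0 < x := by positivity
  have r0 : 0 < ρ := by positivity
  have q0 : 0 < x / ρ := by positivity
  have l0 := Real.log_pos hρ
  have lx := Real.log_nonneg hx
  have e : (x / ρ) ^ (1 - 1 / 40 : ℝ) = (x / ρ) ^ (1 / 40 : ℝ) * (x ^ (19 / 20 : ℝ) * ρ ^ (-(19 / 20 : ℝ))) := by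
    rw [Real.rpow_neg r0.le, ← div_eq_mul_inv, ← Real.div_rpow x0.le r0.le, ← Real.rpow_add q0]
    norm_num
  have h1 : (x / ρ) ^ (1 / 40 : ℝ) ≤ 1 := Real.rpow_le_one q0.le ((div_le_one r0).2 h) (by norm_num)
  have h2 : Real.log (ρ / x) ≤ (ρ / x) ^ (1 / 40 : ℝ) / (1 / 40) :=
    Real.log_le_rpow_div (by positivity) (by norm_num)
  have h3 : (x / ρ) ^ (1 / 40 : ℝ) * (ρ / x) ^ (1 / 40 : ℝ) = 1 := by
    rw [← Real.mul_rpow q0.le (by positivity), show x / ρ * (ρ / x) = 1 by field_simp, Real.one_rpow]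
  have p : 0 ≤ (x / ρ) ^ (1 / 40 : ℝ) := by positivity
  rw [Real.log_div r0.ne' x0.ne'] at h2
  have h4 : (x / ρ) ^ (1 / 40 : ℝ) * Real.log ρ ≤ Real.log x + 40 := by
    nlinarith [mul_le_mul_of_nonneg_left h2 p, mul_le_mul_of_nonneg_right h1 lx]
  rw [le_div_iff₀ l0, e]
  have : 0 ≤ x ^ (19 / 20 : ℝ) * ρ ^ (-(19 / 20 : ℝ)) := by positivity
  nlinarith [mul_le_mul_of_nonneg_right h4 this]

theorem rp_le {x y M : ℝ} (hx : 0 < x) (hy : 0 < y) (hM : 1 ≤ M) (h : x ≤ M * y) :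
    y ^ (-(19 / 20 : ℝ)) ≤ M * x ^ (-(19 / 20 : ℝ)) := by
  have h1 : (M * y) ^ (-(19 / 20 : ℝ)) ≤ x ^ (-(19 / 20 : ℝ)) :=
    Real.rpow_le_rpow_of_nonpos hx h (by norm_num)
  rw [Real.mul_rpow (by positivity) hy.le] at h1
  have h2 : 1 ≤ M * M ^ (-(19 / 20 : ℝ)) := by
    rw [← Real.rpow_one_add' (by positivity) (by norm_num)]
    exact Real.one_le_rpow hM (by norm_num)
  have p : 0 ≤ y ^ (-(19 / 20 : ℝ)) := by positivity
  nlinarith [mul_le_mul_of_nonneg_left h1 (show 0 ≤ M by positivity), mul_le_mul_of_nonneg_right h2 p]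

theorem sq_split {x : ℝ} (hx : 0 < x) : 1 / x ^ 2 = x ^ (-(21 / 20 : ℝ)) * x ^ (-(19 / 20 : ℝ)) := by
  rw [← Real.rpow_add hx, one_div, ← Real.rpow_natCast, ← Real.rpow_neg hx.le]; norm_num

/-- the cell of `z` at distance `d` -/
theorem geo {W r₀ d : ℕ} (hW : 4 ≤ W) (hr : 16 ≤ r₀) (hd : 4 * W * r₀ ≤ d) :
    r₀ ≤ d / (4 * W) ∧ 4 * (W * (d / (4 * W))) ≤ d ∧ d + 1 ≤ 8 * W * (d / (4 * W)) := by
  have h0 : 0 < 4 * W := by omega
  have h1 : r₀ ≤ d / (4 * W) := (Nat.le_div_iff_mul_le h0).2 (by rw [mul_comm]; exact hd)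
  have h2 := Nat.mul_div_le d (4 * W)
  have h3 := Nat.lt_mul_div_succ d h0
  refine ⟨h1, by rw [← mul_assoc]; exact h2, ?_⟩
  nlinarith

/-- fusion of the cell of `z` with the core -/
theorem fuse (hT : TrStmt) (hG : GgStmt) (hY : YStmt) (hD : Dom1Stmt) {P : Par} (h : P.Ok) : ∃ C : ℝ, 0 ≤ C ∧
    ∀ (V : Vp) (z : Pt), 4 * P.W₀ * P.r₀ ≤ ds z V.p → 2 * (P.W₀ * (2 * ds z V.p)) ≤ V.r →
      P.ν V (2 * ds z V.p) (Jv V.σ z) ≤
        C / ((1 + (ds z V.p : ℝ)) ^ 2 * (Real.log (2 * ds z V.p : ℕ) + 40)) := by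
  obtain ⟨C, hC⟩ := hD P h (8 * P.W₀)
  have hb := b_pos h
  have K0 : 0 ≤ P.K := zero_le_one.trans h.K1
  refine ⟨2 * |C| * P.K * (8 * P.W₀) ^ 2 * (16 * P.W₀ + 41), by positivity, fun V z h1 h2 => ?_⟩
  have hW := h.W2
  have hr := h.r2
  obtain ⟨g1, g2, g3⟩ := geo hW hr h1
  set d := ds z V.p with hd
  set a := d / (4 * P.W₀)
  have aW : a ≤ P.W₀ * a := Nat.le_mul_of_pos_left _ (by omega)
  have dW : 4 * (2 * d) ≤ P.W₀ * (2 * d) := Nat.mul_le_mul_right _ hW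
  have iJ : Ins z (a + 1) (Jv V.σ z) := ins_mono (insJ hY _ z).1 (by rw [ds_self]; omega)
  have iG := ins_tr hT hb V.σ iJ
  obtain ⟨t1, t2, -⟩ := (hT P.b V.σ z a _ hb iJ).2.2.2 (fun _ => 1) (fun _ _ _ => rfl) (Tame.const 1)
  have e1 := t1 V.p (2 * d) (bl_sub (by omega))
  have e2 := t2 V.p (P.W₀ * (2 * d)) (bl_sub (by omega)) (DepG.const _ _)
  simp only [mul_one] at e1 e2
  have e : P.ν V (2 * d) (Jv V.σ z) = P.ν V (2 * d) ((xyL P.b).tr V.σ z a (Jv V.σ z)) := by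
    unfold Par.ν Par.L
    rw [e1, e2]
  have n1 := nu_le hT h V (ρ := 2 * d) (by omega) (ins_mono iG (by omega))
  have n2 := (hC V a (P.W₀ * (2 * d)) (fun _ => 1) g1 (by omega) h2 ⟨DepG.const _ _, Tame.const 1⟩).2 z a _
    g1 g2 (by omega) (by omega) (by omega) iG
  have hq : P.W₀ * a < V.d z := by
    have := ds_tri V.p z V.q
    have := ds_comm V.p z
    have := ds_pq V
    rw [Vp.d]; omega
  have n3 := cell hT hG hY h V z g1 hq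
  have n4 : P.N V V.p a (fun _ => 1) = 1 := nrm_one hb _ _ _
  simp only [one_mul, n4, mul_one] at n2
  have a0 : (0 : ℝ) < a := by exact_mod_cast (show 0 < a by omega)
  have la := one_le_log (hr.trans g1)
  have W1 : (4 : ℝ) ≤ P.W₀ := by exact_mod_cast hW
  have g3' : 1 + (d : ℝ) ≤ 8 * P.W₀ * a := by exact_mod_cast (show 1 + d ≤ 8 * P.W₀ * a by omega)
  have d0 : (0 : ℝ) < (2 * d : ℕ) := by exact_mod_cast (show 0 < 2 * d by omega)
  have l1 := log_le_mul (M := 16 * P.W₀) d0 (by linarith) la a0 (by push_cast; linarith)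
  have l2 : 0 ≤ Real.log (2 * d : ℕ) := Real.log_natCast_nonneg _
  have n5 : P.N V V.p (2 * d) ((xyL P.b).tr V.σ z a (Jv V.σ z)) ≤ |C| * (P.K / ((a : ℝ) ^ 2 * Real.log a)) :=
    n2.trans ((mul_le_mul_of_nonneg_right (le_abs_self C) (N_nonneg h _ _ _ _)).trans
      (mul_le_mul_of_nonneg_left n3 (abs_nonneg C)))
  rw [e]
  refine (n1.trans (mul_le_mul_of_nonneg_left n5 zero_le_two)).trans ?_
  rw [← mul_assoc, ← mul_div_assoc, div_le_div_iff₀ (by positivity) (by positivity)]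
  have s1 : (1 + (d : ℝ)) ^ 2 ≤ (8 * P.W₀ * a) ^ 2 := by gcongr
  have s2 : Real.log (2 * d : ℕ) + 40 ≤ (16 * P.W₀ + 41) * Real.log a := by linarith
  calc _ ≤ 2 * |C| * P.K * ((8 * P.W₀ * a) ^ 2 * ((16 * P.W₀ + 41) * Real.log a)) := by gcongr
    _ = _ := by ring

end J93

open J93

theorem jnStmt (hT : TrStmt) (hG : GgStmt) (hY : YStmt) (hD : Dom1Stmt) (hN : NuStmt) (hM : MicStmt) :
    JnStmt := fun P h => by
  obtain ⟨C₁, C0, h1⟩ := fuse hT hG hY hD h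
  obtain ⟨C₂, h2⟩ := hN P h (1 / 40) (by norm_num)
  choose C₃ h3 using (hM P h).1
  have hW := h.W2
  have hr := h.r2
  set d₀ := 4 * P.W₀ * P.r₀ with hd₀
  have d1 : P.r₀ ≤ d₀ := Nat.le_mul_of_pos_left _ (by omega)
  set M := ∑ c ∈ range (P.W₀ * (2 * d₀) + 1), |C₃ c|
  have M0 : 0 ≤ M := sum_nonneg fun _ _ => abs_nonneg _
  set A : ℝ := |C₂| * (2 * C₁) + |C₂| * (2 * M * ((2 * d₀ + 40) * (2 * d₀)) * (1 + d₀) ^ (21 / 20 : ℝ))
  have p1 : 0 ≤ |C₂| * (2 * C₁) := by positivity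
  have p2 : 0 ≤ |C₂| * (2 * M * ((2 * d₀ + 40) * (2 * d₀)) * (1 + d₀ : ℝ) ^ (21 / 20 : ℝ)) := by positivity
  have K0 : 0 ≤ P.K := zero_le_one.trans h.K1
  refine ⟨P.K + A, fun V z ρ h0 => ⟨fun hd => (cell hT hG hY h V z h0 hd).trans ?_, fun hV hz => ?_⟩⟩
  · have := Real.log_natCast_nonneg ρ
    gcongr
    linarith
  set d := ds z V.p with hd
  have r1 : (1 : ℝ) < ρ := by exact_mod_cast (show 1 < ρ by omega)
  have l0 := Real.log_pos r1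
  have key : ∀ (x : ℕ) (B : ℝ), P.r₀ ≤ x → x ≤ ρ → 2 * d ≤ x →
      P.ν V x (Jv V.σ z) * ((Real.log x + 40) * (x : ℝ) ^ (19 / 20 : ℝ)) ≤
        B * (1 + (d : ℝ)) ^ (-(21 / 20 : ℝ)) → |C₂| * B ≤ P.K + A → P.ν V ρ (Jv V.σ z) ≤
      (P.K + A) * (1 + (d : ℝ)) ^ (-(21 / 20 : ℝ)) * (ρ : ℝ) ^ (-(19 / 20 : ℝ)) / Real.log ρ := by
    intro x B x0 x1 x2 hB hA
    have n1 := h2 V x ρ _ x0 x1 hV (ins_mono (insJ hY V.σ z).1 (by omega))
    have n2 := num (x := x) (by exact_mod_cast (show 1 ≤ x by omega)) (by exact_mod_cast x1) r1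
    have n0 := nu_nonneg h V x (Jv V.σ z)
    have q : 0 ≤ ((x : ℝ) / ρ) ^ (1 - 1 / 40 : ℝ) := by positivity
    calc _ ≤ |C₂| * ((x : ℝ) / ρ) ^ (1 - 1 / 40 : ℝ) * P.ν V x (Jv V.σ z) :=
          n1.trans (by gcongr; exact le_abs_self _)
      _ ≤ |C₂| * ((Real.log x + 40) * (x : ℝ) ^ (19 / 20 : ℝ) * (ρ : ℝ) ^ (-(19 / 20 : ℝ)) / Real.log ρ) *
            P.ν V x (Jv V.σ z) := by gcongr
      _ = |C₂| * (P.ν V x (Jv V.σ z) * ((Real.log x + 40) * (x : ℝ) ^ (19 / 20 : ℝ))) *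
            (ρ : ℝ) ^ (-(19 / 20 : ℝ)) / Real.log ρ := by ring
      _ ≤ |C₂| * (B * (1 + (d : ℝ)) ^ (-(21 / 20 : ℝ))) * (ρ : ℝ) ^ (-(19 / 20 : ℝ)) / Real.log ρ := by
          gcongr
      _ ≤ _ := by rw [← mul_assoc]; gcongr
  rcases le_or_gt d₀ d with hl | hl
  · have := Nat.mul_le_mul_left P.W₀ hz
    have n := h1 V z hl (by rw [← hd]; omega)
    refine key (2 * d) (2 * C₁) (by omega) hz le_rfl ?_ (by linarith)
    have l2 : 0 ≤ Real.log (2 * d : ℕ) := Real.log_natCast_nonneg _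
    have x0 : (0 : ℝ) < 1 + d := by positivity
    have s1 : ((2 * d : ℕ) : ℝ) ^ (19 / 20 : ℝ) ≤ 2 * (1 + (d : ℝ)) ^ (19 / 20 : ℝ) := by
      calc _ ≤ (2 * (1 + (d : ℝ))) ^ (19 / 20 : ℝ) := by
            gcongr; push_cast; linarith
        _ ≤ _ := by
            rw [Real.mul_rpow zero_le_two x0.le]
            gcongr
            exact (Real.rpow_le_rpow_of_exponent_le one_le_two (by norm_num)).trans (Real.rpow_one 2).le
    have s2 : (1 + (d : ℝ)) ^ (19 / 20 : ℝ) / (1 + (d : ℝ)) ^ 2 = (1 + (d : ℝ)) ^ (-(21 / 20 : ℝ)) := by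
      rw [← Real.rpow_natCast, ← Real.rpow_sub x0]; norm_num
    calc _ ≤ C₁ / ((1 + (d : ℝ)) ^ 2 * (Real.log (2 * d : ℕ) + 40)) *
            ((Real.log (2 * d : ℕ) + 40) * (2 * (1 + (d : ℝ)) ^ (19 / 20 : ℝ))) := by gcongr
      _ = _ := by rw [← s2]; field_simp
  · set x := min ρ (2 * d₀)
    have x0 : P.r₀ ≤ x := le_min h0 (by omega)
    have x1 : x ≤ ρ := min_le_left _ _
    have x2 : 2 * d ≤ x := le_min hz (by omega)
    have x3 : x ≤ 2 * d₀ := min_le_right _ _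
    have w1 := Nat.mul_le_mul_left P.W₀ x1
    have w2 := Nat.mul_le_mul_left P.W₀ x3
    have w3 := Nat.mul_le_mul_right x hW
    have n1 := (h3 (P.W₀ * x) V z z (by omega) (by omega) (by omega) (by omega)).2.1
    have n2 : |C₃ (P.W₀ * x)| ≤ M :=
      single_le_sum (f := fun c => |C₃ c|) (fun _ _ => abs_nonneg _) (mem_range.2 (by omega))
    have n3 := nu_le hT h V (ρ := x) (by omega) (ins_mono (insJ hY V.σ z).1 (by omega))
    have n4 : P.ν V x (Jv V.σ z) ≤ 2 * M := by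
      have : P.N V V.p x (Jv V.σ z) ≤ M := (n1.trans (le_abs_self _)).trans n2
      linarith
    refine key x (2 * M * ((2 * d₀ + 40) * (2 * d₀)) * (1 + d₀) ^ (21 / 20 : ℝ)) x0 x1 x2 ?_ (by linarith)
    have y1 : (1 : ℝ) ≤ x := by exact_mod_cast (show 1 ≤ x by omega)
    have y3 : (x : ℝ) ≤ 2 * d₀ := by exact_mod_cast x3
    have s1 : Real.log x ≤ 2 * d₀ := by linarith [Real.log_le_sub_one_of_pos (show (0 : ℝ) < x by positivity)]
    have s2 : (x : ℝ) ^ (19 / 20 : ℝ) ≤ 2 * d₀ :=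
      ((Real.rpow_le_rpow_of_exponent_le y1 (by norm_num)).trans (Real.rpow_one _).le).trans y3
    have s3 : 1 ≤ (1 + (d₀ : ℝ)) ^ (21 / 20 : ℝ) * (1 + (d : ℝ)) ^ (-(21 / 20 : ℝ)) := by
      rw [Real.rpow_neg (by positivity), ← div_eq_mul_inv, one_le_div (by positivity)]
      gcongr
    have l2 := Real.log_natCast_nonneg x
    calc _ ≤ 2 * M * ((2 * d₀ + 40) * (2 * d₀)) * 1 := by rw [mul_one]; gcongr
      _ ≤ _ := by rw [mul_assoc _ ((1 + (d₀ : ℝ)) ^ (21 / 20 : ℝ))]; gcongr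

theorem fjStmt (hT : TrStmt) (hY : YStmt) (hC : CovStmt) (hJ : JnStmt) : FjStmt := fun P h Λc => by
  obtain ⟨C₁, h1⟩ := hC P h Λc
  obtain ⟨C₂, h2⟩ := hJ P h
  have hW := h.W2
  have hr := h.r2
  have hb := b_pos h
  have W1 : (4 : ℝ) ≤ P.W₀ := by exact_mod_cast hW
  set A : ℝ := |C₁| * |C₂| * (8 * P.W₀) ^ 2 * (16 * P.W₀ + 1)
  have A0 : 0 ≤ A := by positivity
  refine ⟨A * (16 * P.W₀), 8 * P.W₀ * P.r₀, fun V m ρ F z h0 hV hF a1 a2 hz hΛ => ?_⟩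
  have r0 : P.r₀ ≤ ρ := le_trans (Nat.le_mul_of_pos_left _ (by omega)) h0
  have a4 : Amb P.L m (bl V.p (4 * V.r)) := amb_mono a1 (bl_mono _ (by omega))
  have n0 := nu_nonneg h V ρ F
  have r1 : (1 : ℝ) < ρ := by exact_mod_cast (show 1 < ρ by omega)
  have l0 := Real.log_pos r1
  have w0 := Nat.mul_le_mul_right ρ hW
  have dp : V.d z ≤ ds z V.p := min_le_left _ _
  have free : ρ ≤ 2 * V.d z →
      |Cv (m.Ws 0 V.σ) F (Jv V.σ z)| ≤ A * P.ν V ρ F * (1 / (1 + (V.d z : ℝ)) ^ 2) / Real.log ρ := by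
    intro hd
    obtain ⟨g1, g2, g3⟩ := geo (d := V.d z) hW hr (by rw [mul_assoc] at h0 ⊢; omega)
    set a := V.d z / (4 * P.W₀)
    have aW : 4 * a ≤ P.W₀ * a := Nat.mul_le_mul_right _ hW
    have iJ : Ins z (a + 1) (Jv V.σ z) := ins_mono (insJ hY _ z).1 (by rw [ds_self]; omega)
    have iG := ins_tr hT hb V.σ iJ
    have am : Amb (xyL P.b) m (bl z a) := amb_mono a2 (bl_mono _ (by omega))
    have e1 := ((hT P.b V.σ z a _ hb iJ).2.2.2 F (out_of hF.1 (by omega)) hF.2).2.2 m am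
    have e2 := ((hT P.b V.σ z a _ hb iJ).2.2.2 (fun _ => 1) (fun _ _ _ => rfl) (Tame.const 1)).2.2 m am
    simp only [mul_one] at e2
    have e : Cv (m.Ws 0 V.σ) F (Jv V.σ z) = Cv (m.Ws 0 V.σ) F ((xyL P.b).tr V.σ z a (Jv V.σ z)) := by
      rw [Cv_comm, Cv, e1, e2, Cv_comm _ F]; rfl
    have n1 := ((h1 V m ρ ρ F (fun _ => 1) r0 hV r0 hV a4 hF ⟨DepG.const _ _, Tame.const 1⟩).2.2 z a _ g1 g2
      (amb_mono a2 (bl_mono _ (by omega))) iG).2.1 hz hΛ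
    have n2 := (h2 V z a g1).1 (by omega)
    change _ ≤ C₁ * _ * P.N V z a (P.L.tr V.σ z a (Jv V.σ z)) at n1
    have a0 : (0 : ℝ) < a := by exact_mod_cast (show 0 < a by omega)
    have la := one_le_log (hr.trans g1)
    have g3' : 1 + (V.d z : ℝ) ≤ 8 * P.W₀ * a := by exact_mod_cast (show 1 + V.d z ≤ 8 * P.W₀ * a by omega)
    have hd' : (ρ : ℝ) ≤ 2 * V.d z := by exact_mod_cast hd
    have l1 := log_le_mul (x := ρ) (M := 16 * P.W₀) (by positivity) (by linarith) la a0 (by linarith)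
    have N0 := N_nonneg h V z a (P.L.tr V.σ z a (Jv V.σ z))
    have s : 1 / ((a : ℝ) ^ 2 * Real.log a) ≤
        (8 * P.W₀) ^ 2 * (16 * P.W₀ + 1) * (1 / (1 + (V.d z : ℝ)) ^ 2) / Real.log ρ := by
      rw [mul_one_div, div_div, div_le_div_iff₀ (by positivity) (by positivity), one_mul]
      calc _ ≤ (8 * P.W₀ * a : ℝ) ^ 2 * ((16 * P.W₀ + 1) * Real.log a) := by gcongr
        _ = _ := by ring
    rw [e]
    calc _ ≤ |C₁| * P.ν V ρ F * P.N V z a (P.L.tr V.σ z a (Jv V.σ z)) :=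
          n1.trans (by gcongr; exact le_abs_self _)
      _ ≤ |C₁| * P.ν V ρ F * (|C₂| * (1 / ((a : ℝ) ^ 2 * Real.log a))) := by
          gcongr
          refine n2.trans ?_
          rw [mul_one_div]
          gcongr
          exact le_abs_self _
      _ ≤ |C₁| * P.ν V ρ F * (|C₂| *
            ((8 * P.W₀) ^ 2 * (16 * P.W₀ + 1) * (1 / (1 + (V.d z : ℝ)) ^ 2) / Real.log ρ)) := by gcongr
      _ = _ := by ring
  unfold nb
  split_ifs with hc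
  · rw [min_eq_left dp]
    refine (free (by omega)).trans ?_
    gcongr
    exact le_mul_of_one_le_right A0 (by linarith)
  have hq : V.d z = ds z V.q := by rw [Vp.d] at hc ⊢; omega
  have k0 : 0 < 4 * P.W₀ := by omega
  have k1 : ρ ≤ V.r / (4 * P.W₀) := (Nat.le_div_iff_mul_le k0).2 (by rw [mul_comm, mul_assoc]; exact hV)
  have k2 := Nat.mul_div_le V.r (4 * P.W₀)
  have k3 := Nat.lt_mul_div_succ V.r k0
  set ρq := V.r / (4 * P.W₀)
  have k4 : V.r ≤ 8 * P.W₀ * ρq := by nlinarith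
  have m0 : (0 : ℝ) < (min (ds z V.p) V.r : ℕ) := by exact_mod_cast (show 0 < min (ds z V.p) V.r by omega)
  have m1 : ((min (ds z V.p) V.r : ℕ) : ℝ) ≤ 8 * P.W₀ * ρq := by exact_mod_cast (min_le_right _ _).trans k4
  rcases le_or_gt (2 * ds z V.q) ρq with hs | hs
  · rw [mul_assoc] at k2
    have n1 := (h1 V m ρ ρq F (Jv V.σ z) r0 hV (r0.trans k1) k2 a4 hF
      (ins_mono (insJ hY V.σ z).1 (by omega))).2.1
    have n2 := (h2 V.sw z ρq (r0.trans k1)).2 (by change _ ≤ V.r; omega) hs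
    change P.ν V.sw ρq (Jv V.σ z) ≤ C₂ * (1 + (ds z V.q : ℝ)) ^ (-(21 / 20 : ℝ)) * _ / _ at n2
    have q0 : (0 : ℝ) < ρq := by exact_mod_cast (show 0 < ρq by omega)
    have s1 := rp_le (M := 16 * P.W₀) m0 q0 (by linarith) (by nlinarith)
    have s2 : Real.log ρ ≤ Real.log ρq := Real.log_le_log (by positivity) (by exact_mod_cast k1)
    have N0 := nu_nonneg h V.sw ρq (Jv V.σ z)
    have s3 : |C₁| * |C₂| ≤ A := by
      have : (1 : ℝ) ≤ (8 * P.W₀) ^ 2 * (16 * P.W₀ + 1) := by nlinarith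
      calc _ ≤ |C₁| * |C₂| * ((8 * P.W₀) ^ 2 * (16 * P.W₀ + 1)) := le_mul_of_one_le_right (by positivity) this
        _ = _ := by ring
    rw [hq]
    calc _ ≤ |C₁| * P.ν V ρ F * P.ν V.sw ρq (Jv V.σ z) := n1.trans (by gcongr; exact le_abs_self _)
      _ ≤ |C₁| * P.ν V ρ F * (|C₂| * (1 + (ds z V.q : ℝ)) ^ (-(21 / 20 : ℝ)) *
            (16 * P.W₀ * ((min (ds z V.p) V.r : ℕ) : ℝ) ^ (-(19 / 20 : ℝ))) / Real.log ρ) := by
          gcongr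
          refine n2.trans ?_
          have : 0 < Real.log ρq := l0.trans_le s2
          gcongr
          exact le_abs_self _
      _ = |C₁| * |C₂| * (16 * P.W₀) * P.ν V ρ F * ((1 + (ds z V.q : ℝ)) ^ (-(21 / 20 : ℝ)) *
            ((min (ds z V.p) V.r : ℕ) : ℝ) ^ (-(19 / 20 : ℝ))) / Real.log ρ := by ring
      _ ≤ _ := by gcongr
  · refine (free (by omega)).trans ?_
    have x0 : (0 : ℝ) < 1 + V.d z := by positivity
    have hs' : (ρq : ℝ) ≤ 2 * V.d z := by exact_mod_cast (show ρq ≤ 2 * V.d z by omega)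
    have s1 := rp_le (M := 16 * P.W₀) m0 x0 (by linarith) (by nlinarith)
    rw [sq_split x0]
    calc _ ≤ A * P.ν V ρ F * ((1 + (V.d z : ℝ)) ^ (-(21 / 20 : ℝ)) *
            (16 * P.W₀ * ((min (ds z V.p) V.r : ℕ) : ℝ) ^ (-(19 / 20 : ℝ)))) / Real.log ρ := by gcongr
      _ = _ := by ring

end Crest.Agent.T145.Vx
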