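import Crest.Agent.T145.VxDom_89
import Crest.Agent.T145.VxJn_93
import Crest.Agent.T145.FlFus_4
import Crest.Agent.T145.FlBare_80
import Crest.Agent.T145.FlBas_4

/-!
# Row 145, twisted module: `FarStmt` (helper30)

The seam is a bounded region observable `tw`; the covariance clause of `Nc.DecStmt` applies to `F * tw`.
-/

set_option autoImplicit false

namespace Crest.Agent.T145.Vx

open Finset Nc B30
open Nc.Geo (inL_near cnL_bl)
open Ks68 (zr zx)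
open Pot (cut)

namespace Far30

variable {Λ : Lat} {m : Mdl Pt} {U : Finset Pt} {σ : Pt × Pt → ℤ} {F G : Cfg Pt → ℝ}

/-- the seam as an observable -/
noncomputable def tw (Λ : Lat) (σ : Pt × Pt → ℤ) (U : Finset Pt) (s : Cfg Pt) : ℝ :=
  ∏ e ∈ Λ.edI U, Λ.w (dE e s + σ e) / Λ.w (dE e s)

theorem depG_tw (Λ : Lat) (σ : Pt × Pt → ℤ) (U : Finset Pt) : DepG U (tw Λ σ U) :=
  DepG.prod fun e he => (DepG.dE (Lat.mem_edI.1 he).2.1 (Lat.mem_edI.1 he).2.2).comp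
    fun k => Λ.w (k + σ e) / Λ.w k

theorem Ws_tw (hm : Λ.Amb m U) (hσ : ∀ e, σ e ≠ 0 → e ∈ Λ.edI U) (s : Cfg Pt) :
    m.Ws 0 σ s = m.W 0 s * tw Λ σ U s := by
  have e : ∏ e ∈ m.ed, m.w e (dE e s + σ e) = (∏ e ∈ m.ed, m.w e (dE e s)) * tw Λ σ U s := by
    rw [← prod_sdiff hm.2.2.1, ← prod_sdiff hm.2.2.1, mul_assoc, tw, ← prod_mul_distrib]
    congr 1
    · refine prod_congr rfl fun e he => ?_
      rw [by_contra fun h : ¬ σ e = 0 => (mem_sdiff.1 he).2 (hσ e h), add_zero]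
    · refine prod_congr rfl fun e he => ?_
      have h := ((hm.1.1 e (hm.2.2.1 he)).pos (dE e s)).ne'
      rw [hm.2.2.2 e he] at h ⊢
      rw [mul_div_cancel₀ _ h]
  rw [Mdl.Ws, Mdl.W, e]; ring

theorem tw_nonneg (hm : Λ.Amb m U) (σ : Pt × Pt → ℤ) (s : Cfg Pt) : 0 ≤ tw Λ σ U s :=
  prod_nonneg fun e he => by
    have h := (hm.1.1 e (hm.2.2.1 he)).pos
    rw [hm.2.2.2 e he] at h
    exact (div_pos (h _) (h _)).le

theorem ig_tw (hm : Λ.Amb m U) (hσ : ∀ e, σ e ≠ 0 → e ∈ Λ.edI U) (hF : Tame F) :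
    Ig (m.W 0) fun s => F s * tw Λ σ U s := by
  have h := (Md.ctr_ses hm.1 hm.2.1 0 σ).ig hF
  unfold Ig at h ⊢
  exact h.congr fun s => by rw [Ws_tw hm hσ]; ring

theorem ex_tw (hm : Λ.Amb m U) (hσ : ∀ e, σ e ≠ 0 → e ∈ Λ.edI U) (F : Cfg Pt → ℝ) :
    Ex (m.W 0) (fun s => F s * tw Λ σ U s) = zr m σ * Ex (m.Ws 0 σ) F := by
  rw [← Ks68.zx_eq (Md.ctr_wts hm.1 hm.2.1 0 σ), zx, Ex]
  congr 1
  exact tsum_congr fun s => by rw [Ws_tw hm hσ]; ring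

theorem lat_mono {U' : Finset Pt} (h : Λ.Amb m U) (hU : U' ⊆ U) : Λ.Amb m U' :=
  ⟨h.1, h.2.1, (Lat.edI_mono hU).trans h.2.2.1, fun e he => h.2.2.2 e (Lat.edI_mono hU he)⟩

theorem cv_tw (hm : Λ.Amb m U) (hσ : ∀ e, σ e ≠ 0 → e ∈ Λ.edI U) (hF : Tame F) (hG : Tame G) :
    Cv (m.W 0) (fun s => (F s - Ex (m.Ws 0 σ) F) * tw Λ σ U s) G = zr m σ * Cv (m.Ws 0 σ) F G := by
  have hw := Md.ctr_wts hm.1 hm.2.1 0 σ
  have hs := Md.ctr_ses hm.1 hm.2.1 0 σ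
  rw [← cv_sub_const hw hs hF hG (Ex (m.Ws 0 σ) F) 0, Cv, Cv, ex_tw hm hσ,
    hw.ex_sub_const (hs.ig hF), sub_self, mul_zero, zero_mul, zero_mul, sub_zero, sub_zero,
    ← ex_tw hm hσ]
  simp only [sub_zero, mul_right_comm]

theorem seam_mem (hΛ : Λ.Ok) (V : Vp) {c : ℕ} (hc : V.r + 1 ≤ c) (e : Pt × Pt) (he : V.σ e ≠ 0) :
    e ∈ Λ.edI (bl V.p c) := by
  obtain ⟨a, r, sd⟩ := V
  obtain ⟨⟨x, y⟩, ⟨x', y'⟩⟩ := e
  simp only [Vp.σ, sm, Vd.ray] at he hc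
  have h : y = -1 ∧ y' = 0 ∧ x = x' ∧ a ≤ x ∧ x < a + r := by split_ifs at he <;> omega
  obtain ⟨rfl, rfl, rfl, h1, h2⟩ := h
  refine Lat.mem_edI.2 ⟨by simpa using hΛ.e2, ?_, ?_⟩ <;>
    cases sd <;> simp only [Vp.p, mem_bl] <;> simp <;> omega

variable {P : Par}

/-- cutting out the two core balls -/
theorem zr_le (hP : P.Ok) (V : Vp) (hr : 1 ≤ V.r) (hm : Amb P.L m (bl V.p (2 * V.r))) :
    zr m V.σ ≤ uu P.b V (V.r / 4) * uu P.b V.sw (V.r / 4) := by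
  have hL := lok hP
  have one : ∀ {z : Pt} {c : ℕ}, Amb P.L m (bl z c) → D89.Fam m V.σ (bl z c) (fun _ => 1)
      (zr (Ks68.fr (P.L.N (bl z c)) (bl z c)) V.σ) := fun {z c} h => by
    rw [← D89.zr_inL (inL_near h.near)]
    exact D89.Fam.blk hm.ctr.1 ((inL_near h.near).cn (cnL_bl hL z c)) ⟨z, self_mem_bl _ _⟩
  have k := ((one (amb_mono hm (bl_mono _ (show V.r / 4 ≤ _ by omega)))).mul
    (one (amb_mono hm (bl_sub (z := V.q) (r := V.r / 4) (by rw [ds_qp]; omega)))) hm.ctr.1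
    (bl_disj (by rw [ds_pq]; omega))).le hm.ctr hm.anch
  simp only [mul_one, Ks68.zx_one] at k
  exact k.2

/-- the far observable is a neutral charge of bounded energy on the shell -/
theorem bare (hΛ : Λ.Ok) : ∃ E : ℝ, 0 ≤ E ∧ ∀ (m : Mdl Pt) (p : Pt) (c S : ℕ), c < S →
    Λ.Amb m (an p c (2 * S + 1)) →
    Ex (m.W 0) (fun s => |pr (A0 (cut p S (2 * S))) s|) ≤ E := by
  obtain ⟨C, C0, hC⟩ := Pot.sm_cut 1
  have τ0 := hΛ.pos
  refine ⟨1 + Λ.τ * (150 * C ^ 2), by positivity, fun m p c S hc hm => ?_⟩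
  have S1 : (1 : ℝ) ≤ S := by exact_mod_cast (show 1 ≤ S by omega)
  have ab : (S : ℝ) < 2 * S := by linarith
  have su : Pot.Sup (bl p (2 * S)) (cut p S (2 * S)) := Pot.sup_cut p ab (by push_cast; linarith)
  have gb : Fl.B80.Gb (an p c (2 * S + 1)) (cut p S (2 * S)) := fun i x hx => by
    have h1 := Fl.B80.gb_bl su i x hx
    have h2 : ¬ (x ∈ bl p S ∧ x + ev i ∈ bl p S) := fun h =>
      hx (by rw [df, Pot.cut_one ab le_rfl h.1, Pot.cut_one ab le_rfl h.2, sub_self])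
    refine ⟨mem_sdiff.2 ⟨h1.1, fun hc => h2 ?_⟩, mem_sdiff.2 ⟨h1.2, fun hc => h2 ?_⟩⟩ <;>
      fin_cases i <;> simp only [mem_bl, ev, Prod.fst_add, Prod.snd_add] at hc ⊢ <;>
      simp at hc ⊢ <;> omega
  have mo := Fl.B80.mo_of hΛ hm.1 hm.2.1 hm.2.2.1 hm.2.2.2
    (Fl.B80.up hΛ subset_rfl (Fl.B80.f2_gb su gb) _)
  have e0 := Fl.B80.E0_le su (k := C / S) fun e he x _ => by
    have := (hC p S (2 * S) ab).one le_rfl he (Set.mem_univ x)
    rwa [show (2 * S - S : ℝ) = S by ring] at this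
  have e1 : Fl.E0 (bl p (2 * S)) (cut p S (2 * S)) ≤ 150 * C ^ 2 := by
    refine e0.trans ?_
    rw [card_bl, div_pow, ← mul_div_assoc, div_mul_eq_mul_div, div_le_iff₀ (by positivity)]
    push_cast
    have : (2 * (2 * S) + 1 : ℝ) ^ 2 ≤ 25 * S ^ 2 := by nlinarith
    nlinarith [mul_le_mul_of_nonneg_left this (sq_nonneg C)]
  have hw := mo.cen.wt
  have t := Fl.tame_pr (A0 (cut p S (2 * S)))
  have h1 : Ex (m.W 0) (fun s => |pr (A0 (cut p S (2 * S))) s|) ≤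
      Ex (m.W 0) fun s => pr (A0 (cut p S (2 * S))) s ^ 2 + 1 :=
    Ex_mono hw.nonneg (mo.cen.ig t.abs) (mo.cen.ig ((t.pow 2).add (Tame.const 1))) fun s => by
      nlinarith [sq_nonneg (|pr (A0 (cut p S (2 * S))) s| - 1), sq_abs (pr (A0 (cut p S (2 * S))) s)]
  rw [hw.ex_add_const (mo.cen.ig (t.pow 2))] at h1
  have h2 := mo.two.trans (mul_le_mul_of_nonneg_left e1 τ0.le)
  linarith

theorem out_A0 (p : Pt) {c S : ℕ} (hc : c < S) : Out (bl p c) fun s => pr (A0 (cut p S (2 * S))) s := by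
  have S1 : (1 : ℝ) ≤ S := by exact_mod_cast (show 1 ≤ S by omega)
  have ab : (S : ℝ) < 2 * S := by linarith
  refine Fl.out_pr fun y hy => ?_
  have h : ∀ v : Pt, ds v 0 ≤ 1 → cut p S (2 * S) (y + v) = 1 := fun v hv =>
    Pot.cut_one ab le_rfl (by
      have := ds_tri (y + v) y p
      rw [ds_add] at this
      rw [mem_bl_ds] at hy ⊢; omega)
  have h0 := h 0 (by decide)
  rw [add_zero] at h0
  rw [A0, h0, h _ (by decide), h _ (by decide), h _ (by decide), h _ (by decide)]; norm_num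

theorem cv_Y (hY : YStmt) (hm : Amb Λ m U) (hF : Tame F) (σ : Pt × Pt → ℤ) (p : Pt) {S : ℕ}
    (hS : 1 ≤ S) : Cv (m.Ws 0 σ) F (Yv σ (cut p S (2 * S))) =
      Cv (m.Ws 0 σ) F fun s => pr (A0 (cut p S (2 * S))) s := by
  have S1 : (1 : ℝ) ≤ S := by exact_mod_cast hS
  have h := hY σ (bl p (2 * S)) _ (Pot.sup_cut p (a := S) (b := 2 * S) (by linarith)
    (by push_cast; linarith))
  rw [← cv_sub_const (amb_wt hm σ) (amb_se hm σ) hF h.2.2.2.1 0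
    (∑ᶠ z, ∑ i, df i (cut p S (2 * S)) z * σ (z, z + ev i))]
  simp only [sub_zero, h.2.1, add_sub_cancel_right]

theorem num {M S S' : ℕ} (hM : 2 ≤ M) (hS : 0 < S) (h : 4 * M * S ≤ S') :
    ∃ n : ℕ, 2 * (M ^ (n + 1) * (2 * S)) ≤ S' ∧
      (1 / 2 : ℝ) ^ n ≤ 16 * ((S : ℝ) / S') ^ (Real.log 2 / Real.log M) := by
  have h1 : M ≤ S' / (4 * S) := (Nat.le_div_iff_mul_le (by omega)).2 (by linarith)
  have h2 := Nat.pow_log_le_self M (show S' / (4 * S) ≠ 0 by omega)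
  have h3 := Nat.lt_pow_succ_log_self (b := M) (by omega) (S' / (4 * S))
  have h4 := Nat.log_pos (b := M) (by omega) h1
  obtain ⟨n, hn⟩ : ∃ n, Nat.log M (S' / (4 * S)) = n + 1 := ⟨_, (Nat.succ_pred_eq_of_pos h4).symm⟩
  rw [hn] at h2 h3
  rw [Nat.le_div_iff_mul_le (by omega)] at h2
  rw [Nat.div_lt_iff_lt_mul (by omega)] at h3
  refine ⟨n, by linarith, ?_⟩
  have M2 : (2 : ℝ) ≤ M := by exact_mod_cast hM
  have l2 := Real.log_pos (show (1 : ℝ) < 2 by norm_num)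
  have lM := Real.log_le_log (by norm_num) M2
  have c0 : 0 ≤ Real.log 2 / Real.log M := div_nonneg l2.le (by linarith)
  have c1 : Real.log 2 / Real.log M ≤ 1 := (div_le_one (by linarith)).2 lM
  have S0 : (0 : ℝ) < S := by exact_mod_cast hS
  have S1 : (0 : ℝ) < S' := by
    have : 0 < M ^ (n + 1) * (4 * S) := by positivity
    exact_mod_cast (show 0 < S' by omega)
  have e : (M : ℝ) ^ (Real.log 2 / Real.log M) = 2 := by
    rw [Real.rpow_def_of_pos (by linarith), mul_div_cancel₀ _ (by linarith), Real.exp_log two_pos]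
  have k1 : (1 / 4 : ℝ) * (1 / M) ^ (n + 2) ≤ (S : ℝ) / S' := by
    have : (S' : ℝ) ≤ M ^ (n + 2) * (4 * S) := by exact_mod_cast h3.le
    rw [le_div_iff₀ S1, one_div_pow, one_div_mul_one_div, one_div, inv_mul_le_iff₀ (by positivity)]
    linarith
  have k2 := Real.rpow_le_rpow (by positivity) k1 c0
  rw [Real.mul_rpow (by norm_num) (by positivity), ← Real.rpow_pow_comm (by positivity),
    Real.div_rpow zero_le_one (by positivity), Real.div_rpow zero_le_one (by positivity), e,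
    Real.one_rpow] at k2
  have k3 : (4 : ℝ) ^ (Real.log 2 / Real.log M) ≤ 4 := Real.rpow_le_self_of_one_le (by norm_num) c1
  have k4 : (1 / 4 : ℝ) ≤ 1 / 4 ^ (Real.log 2 / Real.log M) :=
    one_div_le_one_div_of_le (by positivity) k3
  have k5 := mul_le_mul_of_nonneg_right k4 (show (0 : ℝ) ≤ (1 / 2) ^ (n + 2) by positivity)
  rw [pow_add] at k5 k2
  linarith

/-- the contraction for any insertion of the ball of radius `2 S` -/
theorem gen (hP : P.Ok) : ∃ (C c : ℝ) (Λ₀ : ℕ), 0 ≤ C ∧ 0 < c ∧ c ≤ 1 ∧ 4 ≤ Λ₀ ∧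
    ∀ (V : Vp) (m : Mdl Pt) (S S' : ℕ) (F : Cfg Pt → ℝ) (β : ℝ), 8 * P.r₀ ≤ V.r → 4 * V.r ≤ S →
      Λ₀ * S ≤ S' → Amb P.L m (bl V.p (8 * S')) → Ins V.p (2 * S) F →
      (∀ m', Amb P.L m' (bl V.p (4 * S)) → Ex (m'.Ws 0 V.σ) (fun s => |F s|) ≤ β) →
      |Cv (m.Ws 0 V.σ) F fun s => pr (A0 (cut V.p S' (2 * S'))) s| ≤ C * ((S : ℝ) / S') ^ c * β := by
  have hL := lok hP
  obtain ⟨E, E0, hE⟩ := bare hL
  have hW := hP.W2
  have hr := hP.r2
  have K0 : 0 ≤ P.K := zero_le_one.trans hP.K1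
  have rg := L_rg P
  obtain ⟨M, hM⟩ : ∃ M, M = 4 * P.W₀ ^ 4 := ⟨_, rfl⟩
  have W2 : P.W₀ * P.W₀ ≤ M := by
    rw [hM, ← pow_two]
    have := Nat.pow_le_pow_right (show 0 < P.W₀ by omega) (show 2 ≤ 4 by norm_num)
    omega
  have W4 : 4 * 4 ≤ P.W₀ * P.W₀ := Nat.mul_le_mul hW hW
  have M2 : (2 : ℝ) ≤ M := by exact_mod_cast (show 2 ≤ M by omega)
  have l2 := Real.log_pos (show (1 : ℝ) < 2 by norm_num)
  have lM := Real.log_le_log (by norm_num) M2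
  refine ⟨6400 * P.K * E, Real.log 2 / Real.log M, 4 * M, by positivity, div_pos l2 (by linarith),
    (div_le_one (by linarith)).2 lM, by omega, fun V m S S' F β h0 h1 h2 hm hF hβ => ?_⟩
  obtain ⟨n, n1, n2⟩ := num (M := M) (S := S) (by omega) (by omega) h2
  obtain ⟨a, ha⟩ : ∃ a, a = M ^ n * (2 * S) := ⟨_, rfl⟩
  have a1 : 2 * S ≤ a := ha ▸ Nat.le_mul_of_pos_left _ (pow_pos (by omega) n)
  have a2 : M ^ (n + 1) * (2 * S) = M * a := by rw [ha]; ring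
  have a3 : P.W₀ * (P.W₀ * a) ≤ M * a := by rw [← mul_assoc]; exact Nat.mul_le_mul_right _ W2
  have a4 := four_le hP (ρ := a)
  have a5 := four_le hP (ρ := P.W₀ * a)
  have a6 := four_le hP (ρ := 2 * S)
  rw [a2] at n1
  have hσ := seam_mem hL V (c := 2 * S) (by omega)
  have lm : P.L.Amb m (bl V.p (2 * S)) := FlF4.amb_lat (amb_mono hm (bl_mono _ (by omega)))
  have lb : P.L.Amb (FlF4.bx P.L V.p (P.W₀ * (2 * S))) (bl V.p (2 * S)) :=
    lat_mono (FlF4.lat_bx hL _ _) (bl_mono _ (by omega))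
  have ab : Amb P.L (FlF4.bx P.L V.p (P.W₀ * (2 * S))) (bl V.p (4 * S)) := FlF4.amb_bx hL (by omega)
  obtain ⟨e, he⟩ : ∃ e, e = Ex (m.Ws 0 V.σ) F := ⟨_, rfl⟩
  have tF : Tame fun s => F s - e := hF.2.sub (Tame.const e)
  have dH : DepG (bl V.p (2 * S)) fun s => (F s - e) * tw P.L V.σ (bl V.p (2 * S)) s :=
    (hF.1.sub (DepG.const _ e)).mul (depG_tw _ _ _)
  have dH' := dH.mono (bl_mono V.p (show 2 * S ≤ P.W₀ * (2 * S) by omega))
  have am : Amb P.L m (bl V.p (M * a + P.L.rg)) := amb_mono hm (bl_mono _ (by omega))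
  obtain ⟨hc, hh⟩ := FlF4.hole_ca hL (c := P.W₀ * a) (by omega) (by omega) am
  have tG := Fl.tame_pr (A0 (cut V.p S' (2 * S')))
  have k := (FlF4.dec P.L hL (1 / 400) P.W₀ P.r₀ (M * a) (by norm_num) (by norm_num) (hP.gd _) V.p
    (2 * S) n (M * a) _ (by omega) (by rw [← hM, a2]) (by rw [← hM, a2]) dH
    ((FlF4.In_bx dH').2 (ig_tw lb hσ tF)) m am).2.2.2 (P.W₀ * a) _ (by rw [← hM, ha]) a3 (by omega)
    (out_A0 V.p (S := S') (by omega)) ((hc.cen hh).ig tG)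
  have k1 := hE (hole m (bl V.p (P.W₀ * a))) V.p (P.W₀ * a) S' (by omega)
    (FlF4.lat_hole hc hh (FlF4.amb_lat (amb_mono hm ((an_sub _ _ _).trans (bl_mono _ (by omega)))))
      (an_disj _ _ _).symm)
  have e1 : |e| ≤ β := he ▸ (abs_Ex_le (amb_wt hm _).nonneg (amb_ig hm _ hF.2)).trans
    (hβ m (amb_mono hm (bl_mono _ (by omega))))
  have k2 : Nm P.L V.p (P.W₀ * (2 * S)) (fun s => (F s - e) * tw P.L V.σ (bl V.p (2 * S)) s) ≤
      P.K * zr m V.σ * (2 * β) := by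
    rw [FlF4.Nm_bx dH']
    simp only [abs_mul, abs_of_nonneg (tw_nonneg lm _ _)]
    rw [ex_tw lb hσ]
    have hw := amb_wt ab V.σ
    have h3 : Ex ((FlF4.bx P.L V.p (P.W₀ * (2 * S))).Ws 0 V.σ) (fun s => |F s - e|) ≤
        Ex ((FlF4.bx P.L V.p (P.W₀ * (2 * S))).Ws 0 V.σ) fun s => |F s| + |e| :=
      Ex_mono hw.nonneg (amb_ig ab _ tF.abs) (amb_ig ab _ (hF.2.abs.add (Tame.const _)))
        fun s => abs_sub _ _
    rw [hw.ex_add_const (amb_ig ab _ hF.2.abs)] at h3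
    have h4 := hβ _ ab
    exact mul_le_mul ((zr_le hP V (by omega) (amb_mono ab (bl_mono _ (by omega)))).trans
      (hP.k2 V m h0 (amb_mono hm (bl_mono _ (by omega))))) (by linarith)
      (Ex_nonneg hw.nonneg fun _ _ => abs_nonneg _)
      (mul_nonneg K0 (Ks68.zr_pos hm.ctr hm.anch _).le)
  have z0 := Ks68.zr_pos hm.ctr hm.anch V.σ
  have β0 := (abs_nonneg e).trans e1
  rw [he, cv_tw lm hσ hF.2 tG, abs_mul, abs_of_pos z0, ← he,
    show (200 * (1 / 400) : ℝ) = 1 / 2 by norm_num] at k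
  refine le_of_mul_le_mul_left (k.trans ?_) z0
  calc _ ≤ 200 * (16 * ((S : ℝ) / S') ^ (Real.log 2 / Real.log M)) * (P.K * zr m V.σ * (2 * β)) * E :=
        mul_le_mul (mul_le_mul (mul_le_mul_of_nonneg_left n2 (by norm_num)) k2
          (Lat.nrm_zero P.L _ _ _ ▸ nrm_nonneg hL _ _ _ _) (by positivity)) k1
          (Ex_nonneg (hc.cen hh).wt.nonneg fun _ _ => abs_nonneg _) (by positivity)
    _ = _ := by ring

end Far30

open Far30

theorem farStmt (hT : TrStmt) (hY : YStmt) (hD : DomStmt) (hC : CovStmt) (hJ : JnStmt) : FarStmt := by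
  intro P hP
  obtain ⟨A, c, Λ₀, A0', c0, c1, L4, hA⟩ := gen hP
  obtain ⟨C₁, h1⟩ := hD P hP 0
  obtain ⟨C₂, h2⟩ := hC P hP 0
  obtain ⟨C₃, h3⟩ := hJ P hP
  have hW := hP.W2
  have hr := hP.r2
  have W4 : (4 : ℝ) ≤ P.W₀ := by exact_mod_cast hW
  have r4 := four_le hP (ρ := P.r₀)
  have r5 := four_le hP (ρ := P.W₀ * P.r₀)
  -- an insertion at either core
  have core : ∀ (V V' : Vp) (m : Mdl Pt) (S S' ρ : ℕ) (F : Cfg Pt → ℝ), V'.σ = V.σ → V'.r = V.r →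
      ds V'.p V.p ≤ V.r → 4 * V.r ≤ S → Λ₀ * S ≤ S' → Amb P.L m (bl V.p (8 * S')) → P.r₀ ≤ ρ →
      4 * (P.W₀ * ρ) ≤ V.r → Ins V'.p (ρ + 1) F →
      |Cv (m.Ws 0 V.σ) F (Yv V.σ (cut V.p S' (2 * S')))| ≤
        A * ((S : ℝ) / S') ^ c * (|C₁| * P.ν V' ρ F) := by
    intro V V' m S S' ρ F e1 e2 e3 hS hS' hm p0 p1 hF
    have l1 := four_le hP (ρ := ρ)
    have l2 : 4 * S ≤ Λ₀ * S := Nat.mul_le_mul_right _ L4
    have tt := tame_tr hP hT hF V.σ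
    have tG := Fl.tame_pr (A0 (cut V.p S' (2 * S')))
    have i0 := ins_sub_const (ins_tr hP hT hF V.σ) (P.L.exN V.σ V'.p (P.W₀ * ρ) F)
    rw [cv_Y hY hm hF.2 _ _ (by omega), ← cv_tr hP hT hF V.σ
      ((out_A0 V.p (c := 2 * S) (S := S') (by omega)).mono (bl_sub (by omega))) tG
      (amb_mono hm (bl_sub (by omega))), ← cv_sub_const (amb_wt hm _) (amb_se hm _) tt tG
      (P.L.exN V.σ V'.p (P.W₀ * ρ) F) 0]
    simp only [sub_zero]
    refine hA V m S S' _ _ (by omega) hS hS' hm (ins_mono i0 (by omega)) fun m' hm' => ?_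
    have k := h1 V' m' ρ ρ ∅ 0 0 _ (fun _ => 1) 0 ⟨p0, by omega, p0, by omega, by simp, by simp,
      by simp, by simp⟩ (amb_mono hm' (bl_sub (by omega))) (by simp) i0 (ins_const _ _ 1)
    simp only [prod_empty, mul_one, N_one hP] at k
    rw [← e1] at k ⊢
    exact k.trans (mul_le_mul_of_nonneg_right (le_abs_self _) (ν_nonneg hP V' ρ F))
  obtain ⟨B, hB⟩ : ∃ B : ℝ, B = |C₁| + (|C₁| + |C₂|) * |C₃| * (8 * P.W₀) ^ 3 := ⟨_, rfl⟩
  have W8 : (1 : ℝ) ≤ 8 * P.W₀ := by linarith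
  have B0 : 0 ≤ (|C₁| + |C₂|) * |C₃| * (8 * P.W₀) ^ 3 := by positivity
  refine ⟨A * B, c, 32 * (P.W₀ * (P.W₀ * P.r₀)), Λ₀, c0, c1, by omega,
    fun V m S S' h0 hS hS' hm => ?_⟩
  have q0 : 0 ≤ A * ((S : ℝ) / S') ^ c := by positivity
  have l2 : 4 * S ≤ Λ₀ * S := Nat.mul_le_mul_right _ L4
  have fin : ∀ {x y t : ℝ}, x ≤ A * ((S : ℝ) / S') ^ c * y → y ≤ B * t →
      x ≤ A * B * ((S : ℝ) / S') ^ c * t := fun {x y t} a b =>
    (a.trans (mul_le_mul_of_nonneg_left b q0)).trans_eq (by ring)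
  refine ⟨fun z hz => ?_, fun ρ F p0 p1 hF => fin (core V V m S S' ρ F rfl rfl
    (by rw [ds_self]; omega) hS hS' hm p0 p1 hF) (mul_le_mul_of_nonneg_right (by linarith)
      (ν_nonneg hP V ρ F))⟩
  have iJ := ((hY V.σ ∅ 0 fun _ _ => rfl).2.2.2.2 z).1
  have zp := d_le_p V z
  have x0 : (0 : ℝ) < 1 + V.d z := by positivity
  have r0 : (0 : ℝ) < V.r := by exact_mod_cast (show 0 < V.r by omega)
  obtain ⟨g1, g2, g3⟩ := J93.geo (d := V.r) hW hr (by rw [mul_assoc]; omega)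
  obtain ⟨ρ, hρ⟩ : ∃ ρ, ρ = V.r / (4 * P.W₀) := ⟨_, rfl⟩
  rw [← hρ] at g1 g2 g3
  have l3 := four_le hP (ρ := ρ)
  rcases le_or_gt (2 * V.d z) ρ with hd | hd
  · -- close to a core
    obtain ⟨V', e1, e2, e3, e4⟩ : ∃ V' : Vp, V'.σ = V.σ ∧ V'.r = V.r ∧ ds V'.p V.p ≤ V.r ∧
        ds z V'.p = V.d z := by
      rcases le_total (ds z V.p) (ds z V.q) with h | h
      · exact ⟨V, rfl, rfl, by rw [ds_self]; omega, (min_eq_left h).symm⟩
      · exact ⟨V.sw, rfl, rfl, (ds_qp V).le, (min_eq_right h).symm⟩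
    refine fin (core V V' m S S' ρ _ e1 e2 e3 hS hS' hm g1 g2 (ins_mono iJ (by omega))) ?_
    have k := (h3 V' z ρ g1).2 (by omega) (by omega)
    rw [e1, e4] at k
    rw [nb, min_eq_right (show V.r ≤ S by omega), if_neg (by omega)]
    have lρ := J93.one_le_log (hr.trans g1)
    have ρ0 : (0 : ℝ) < ρ := by exact_mod_cast (show 0 < ρ by omega)
    have k1 := J93.rp_le r0 ρ0 W8 (by exact_mod_cast (show V.r ≤ 8 * P.W₀ * ρ by omega))
    have u0 : 0 ≤ (1 + (V.d z : ℝ)) ^ (-(21 / 20 : ℝ)) := by positivity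
    have v0 : 0 ≤ (V.r : ℝ) ^ (-(19 / 20 : ℝ)) := by positivity
    have w0 : 0 ≤ (ρ : ℝ) ^ (-(19 / 20 : ℝ)) := by positivity
    generalize (1 + (V.d z : ℝ)) ^ (-(21 / 20 : ℝ)) = u at *
    generalize (V.r : ℝ) ^ (-(19 / 20 : ℝ)) = v at *
    generalize (ρ : ℝ) ^ (-(19 / 20 : ℝ)) = w at *
    have k2 : C₃ * u * w / Real.log ρ ≤ |C₃| * u * (8 * P.W₀ * v) :=
      calc _ ≤ |C₃| * u * w / Real.log ρ := div_le_div_of_nonneg_right (mul_le_mul_of_nonneg_right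
            (mul_le_mul_of_nonneg_right (le_abs_self _) u0) w0) (by linarith)
        _ ≤ |C₃| * u * w := div_le_self (by positivity) lρ
        _ ≤ _ := mul_le_mul_of_nonneg_left k1 (by positivity)
    have k3 : |C₁| * |C₃| * (8 * P.W₀) ≤ B := by
      have := mul_le_mul (mul_le_mul_of_nonneg_right (le_add_of_nonneg_right (abs_nonneg C₂) :
        |C₁| ≤ _) (abs_nonneg C₃)) (le_self_pow₀ W8 three_ne_zero) (by linarith) (by positivity)
      linarith [abs_nonneg C₁]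
    calc _ ≤ |C₁| * (|C₃| * u * (8 * P.W₀ * v)) :=
          mul_le_mul_of_nonneg_left (k.trans k2) (abs_nonneg _)
      _ = |C₁| * |C₃| * (8 * P.W₀) * (u * v) := by ring
      _ ≤ _ := mul_le_mul_of_nonneg_right k3 (by positivity)
  -- a free cell
  have d1 : V.r < 8 * P.W₀ * V.d z := by
    rw [hρ, Nat.div_lt_iff_lt_mul (by omega)] at hd; linarith
  have d2 : 4 * P.W₀ * P.r₀ ≤ V.d z := by
    refine Nat.le_of_mul_le_mul_left (c := 8 * P.W₀) ?_ (by omega)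
    calc _ = 32 * (P.W₀ * (P.W₀ * P.r₀)) := by ring
      _ ≤ _ := by omega
  obtain ⟨f1, f2, f3⟩ := J93.geo hW hr d2
  obtain ⟨a, ha⟩ : ∃ a, a = V.d z / (4 * P.W₀) := ⟨_, rfl⟩
  rw [← ha] at f1 f2 f3
  have l4 := four_le hP (ρ := a)
  have iJ' : Ins z (a + 1) (Jv V.σ z) := ins_le iJ (by omega)
  have iG := ins_tr hP hT iJ' V.σ
  rw [cv_Y hY hm iJ.2 _ _ (by omega), ← cv_tr hP hT iJ' V.σ
    ((out_A0 V.p (c := 2 * S) (S := S') (by omega)).mono (bl_sub (by omega))) (Fl.tame_pr _)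
    (amb_mono hm (bl_sub (by omega)))]
  have n0 := N_nonneg hP V z a (P.L.tr V.σ z a (Jv V.σ z))
  refine fin (hA V m S S' _ (|C₂| * P.N V z a (P.L.tr V.σ z a (Jv V.σ z))) (by omega) hS hS' hm
    (ins_mono iG (by omega)) fun m' hm' => ?_) ?_
  · exact ((h2 V m' P.r₀ P.r₀ _ _ le_rfl (by omega) le_rfl (by omega)
      (amb_mono hm' (bl_mono _ (by omega))) (ins_const _ _ 1) (ins_const _ _ 1)).2.2 z a _ f1 f2
      (amb_mono hm' (bl_sub (by omega))) iG).1.trans (mul_le_mul_of_nonneg_right (le_abs_self _) n0)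
  have k := (h3 V z a f1).1 (by omega)
  have la := J93.one_le_log (hr.trans f1)
  have a0 : (0 : ℝ) < a := by exact_mod_cast (show 0 < a by omega)
  have f4 : 1 + (V.d z : ℝ) ≤ 8 * P.W₀ * a := by exact_mod_cast (show 1 + V.d z ≤ 8 * P.W₀ * a by omega)
  have k1 : C₃ / ((a : ℝ) ^ 2 * Real.log a) ≤ |C₃| * (8 * P.W₀) ^ 2 * (1 / (1 + (V.d z : ℝ)) ^ 2) := by
    refine (div_le_div₀ (abs_nonneg _) (le_abs_self _) (show (0 : ℝ) < a ^ 2 by positivity)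
      (le_mul_of_one_le_right (by positivity) la)).trans ?_
    rw [mul_one_div, div_le_div_iff₀ (by positivity) (by positivity), mul_assoc, ← mul_pow]
    exact mul_le_mul_of_nonneg_left (pow_le_pow_left₀ x0.le f4 2) (abs_nonneg _)
  have k2 : 1 / (1 + (V.d z : ℝ)) ^ 2 ≤ 8 * P.W₀ * nb V z S := by
    rw [nb, min_eq_right (show V.r ≤ S by omega), min_eq_left (zp.trans hz)]
    split_ifs
    · exact le_mul_of_one_le_left (by positivity) W8
    · rw [J93.sq_split x0, mul_left_comm]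
      refine mul_le_mul_of_nonneg_left (J93.rp_le r0 x0 W8 ?_) (by positivity)
      have : (V.r : ℝ) ≤ 8 * P.W₀ * V.d z := by exact_mod_cast d1.le
      linarith
  have nb0 : 0 ≤ nb V z S := by rw [nb]; split_ifs <;> positivity
  have k3 : |C₂| * |C₃| * (8 * P.W₀) ^ 3 ≤ B := by
    have := mul_le_mul_of_nonneg_right (mul_le_mul_of_nonneg_right
      (le_add_of_nonneg_left (abs_nonneg C₁) : |C₂| ≤ _) (abs_nonneg C₃))
      (show (0 : ℝ) ≤ (8 * P.W₀) ^ 3 by positivity)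
    linarith [abs_nonneg C₁]
  calc _ ≤ |C₂| * (|C₃| * (8 * P.W₀) ^ 2 * (8 * P.W₀ * nb V z S)) :=
        mul_le_mul_of_nonneg_left ((k.trans k1).trans (mul_le_mul_of_nonneg_left k2 (by positivity)))
          (abs_nonneg _)
    _ = |C₂| * |C₃| * (8 * P.W₀) ^ 3 * nb V z S := by ring
    _ ≤ _ := mul_le_mul_of_nonneg_right k3 nb0

end Crest.Agent.T145.Vx
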