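import Crest.Agent.T145.VxBc_27
import Crest.Agent.T145.VxDef_35

/-!
# Row 145, twisted module: isotropy of the two-point function of `J` (helper27)
-/

set_option autoImplicit false

namespace Crest.Agent.T145.Vx

open Finset Vb27 Nc FlF4

theorem Iso27.mom {Λ : Lat} (h : Λ.Ok) (R l : ℕ) (i j : Fin 2) :
    -(1 / 2) * ∑ x ∈ bl 0 l, kk Λ R x * (co i x * co j x) =
      if i = j then gJ ((Λ.D (bl 0 R)).W 0) 0 l else 0 := by
  obtain ⟨m1, m2, m3⟩ := moments (kk Λ R) l (kk_swap h R) (kk_neg h R)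
  rw [gJ_kk]
  fin_cases i <;> fin_cases j <;> simp [co, ← pow_two, mul_comm (Prod.snd _ : ℤ).cast, m1, m2, m3] <;> ring

theorem isoStmt : IsoStmt := by
  intro P hP
  refine ⟨P.K + 1, fun ρ hρ => ?_⟩
  have ok : P.L.Ok := hP.crit.1
  have r16 := hP.r2
  have w4 := hP.W2
  obtain ⟨R₂, h2⟩ := hP.f2 ρ hρ
  have η0 : 0 < Real.log ρ ^ (-1 - 2 * P.δ) :=
    Real.rpow_pos_of_pos (zero_lt_one.trans_le (one_le_log (by omega))) _
  set η := Real.log ρ ^ (-1 - 2 * P.δ)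
  have hb := cB_pos P.L.τ 2
  have ρ0 : (0 : ℝ) < ρ := by exact_mod_cast (by omega : 0 < ρ)
  set B := cB P.L.τ 2 * 25
  obtain ⟨n, hn⟩ := exists_pow_lt_of_lt_one (x := η / (20 * B * ((2 * ρ + 1) ^ 2 * (ρ : ℝ) ^ 2)))
    (y := 200 * (1 / 400)) (by positivity) (by norm_num)
  set R' := (4 * P.W₀ ^ 4) ^ (n + 1) * (ρ + 1)
  refine ⟨R' + P.L.rg + R₂, fun m z hm i j => ?_⟩
  set R := R' + P.L.rg + R₂
  have e1 : ∀ x ∈ bl 0 ρ, |Ex (m.W 0) (fun s => Jz z s * Jz (z + x) s) - kk P.L R x| ≤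
      20 * (200 * (1 / 400)) ^ n * B := fun x hx => by
    have q : 1 * (ρ + 1) ≤ P.W₀ * (ρ + 1) := Nat.mul_le_mul_right _ (by omega)
    have s1 : bl z 1 ⊆ bl z (ρ + 1) := bl_mono z (by omega)
    have s2 : bl (z + x) 1 ⊆ bl z (ρ + 1) := bl_sub (by
      have := mem_bl_sn.1 hx; rw [sub_zero] at this; rw [add_sub_cancel_left]; omega)
    have s3 : bl z (ρ + 1) ⊆ bl z (P.W₀ * (ρ + 1)) := bl_mono z (by omega)
    have dp := (Om.depG_JJ z (z + x)).mono (union_subset s1 s2)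
    have a := (dec P.L ok (1 / 400) P.W₀ P.r₀ R' (by norm_num) (by norm_num) (hP.gd R') z (ρ + 1) n R' _
      (by omega) le_rfl le_rfl dp (In_tame ok _ _ ((Om.tame_Jz _).mul (Om.tame_Jz _))) m
      (amb_mono hm (bl_mono z (by omega)))).2.1 _ (amb_mono (L37.amb_D ok (bl z R)) (bl_mono z (by omega)))
    rw [kk_trl ok, Nm_bx (dp.mono s3)] at a
    exact a.trans (mul_le_mul_of_nonneg_left (bd_JJ ok (s1.trans s3) (s2.trans s3) _ (lat_bx ok _ _)).2
      (by positivity))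
  have e2 : |∑ x ∈ bl 0 ρ, Ex (m.W 0) (fun s => Jz z s * Jz (z + x) s) * (co i x * co j x) -
      ∑ x ∈ bl 0 ρ, kk P.L R x * (co i x * co j x)| ≤ η := by
    rw [← sum_sub_distrib]
    refine (abs_sum_le_sum_abs _ _).trans ((sum_le_card_nsmul _ _
      (20 * (200 * (1 / 400)) ^ n * B * (ρ * ρ)) fun x hx => ?_).trans ?_)
    · have c : ∀ i, |co i x| ≤ ρ := fun i => by
        rw [mem_bl] at hx
        fin_cases i <;> simp [co] <;> rw [← Int.cast_abs] <;> exact_mod_cast (by simp at hx; rw [abs_le]; omega)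
      rw [← sub_mul, abs_mul, abs_mul]
      exact mul_le_mul (e1 x hx) (mul_le_mul (c i) (c j) (abs_nonneg _) ρ0.le) (by positivity)
        (by positivity)
    · rw [card_bl, nsmul_eq_mul]
      rw [lt_div_iff₀ (by positivity)] at hn
      push_cast
      linarith
  have e3 := h2 _ 0 (amb_mono (L37.amb_D ok (bl 0 R)) (bl_mono 0 (by omega)))
  have e4 := Iso27.mom ok R ρ i j
  have k1 := hP.K1
  have k0 : 0 ≤ P.K * η := by positivity
  obtain ⟨a1, a2⟩ := abs_le.1 e2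
  obtain ⟨b1, b2⟩ := abs_le.1 e3
  rw [abs_le]
  split_ifs at e4 ⊢ <;> constructor <;> linarith

end Crest.Agent.T145.Vx
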