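import Crest.Agent.T145.DfDef_70
import Crest.Agent.T145.FlFus_4

/-!
# Row 145, module Df (helper51): the calculus of `nu` — SEMI, FUS, IO (unconditional)
-/

set_option autoImplicit false

namespace Crest.Agent.T145.Df

open Finset Nc

namespace S51

variable {Λ : Lat} {W r₀ L a : ℕ} {x : Pt} {F : Cfg Pt → ℝ}

theorem nu_eq (Λ : Lat) (W : ℕ) (z : Pt) (r : ℕ) (F : Cfg Pt → ℝ) :
    nu Λ W z r F = FlF4.nu Λ z r (W * r) F := rfl

theorem two_le (hW : 2 ≤ W) (a : ℕ) : 2 * a ≤ W * a := Nat.mul_le_mul_right _ hW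

/-- an insertion at a good scale, with its radii -/
theorem ir (hΛ : Λ.Ok) (hG : Gd Λ (1 / 400) W r₀ L) (h0 : r₀ ≤ a) (hF : Ins x a F) :
    FlF4.Ir Λ x a a (W * a) F :=
  have h1 := two_le hG.1 a
  have h2 := hG.2.1
  ⟨le_rfl, by omega, hF.1.mono (bl_mono x (by omega)), FlF4.In_tame hΛ _ _ hF.2⟩

theorem gam_le (hΛ : Λ.Ok) (hG : Gd Λ (1 / 400) W r₀ L) (h0 : r₀ ≤ a) (hL : a ≤ L) :
    0 ≤ gam Λ a (W * a) ∧ gam Λ a (W * a) ≤ 2 :=
  have h1 := two_le hG.1 a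
  have h2 := hG.2.1
  ⟨zero_le_one.trans (FlF4.one_le_gam hΛ (by omega)), (hG.2.2 a h0 hL).trans (by norm_num)⟩

theorem gn_le (hΛ : Λ.Ok) (hG : Gd Λ (1 / 400) W r₀ L) (h0 : r₀ ≤ a) (hL : a ≤ L) (x : Pt)
    (F : Cfg Pt → ℝ) : 0 ≤ gam Λ a (W * a) * FlF4.nu Λ x a (W * a) F ∧
      gam Λ a (W * a) * FlF4.nu Λ x a (W * a) F ≤ 2 * nu Λ W x a F :=
  have h := gam_le hΛ hG h0 hL
  have h' := FlF4.nu_nonneg hΛ x a (W * a) F
  ⟨mul_nonneg h.1 h', mul_le_mul_of_nonneg_right h.2 h'⟩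

/-- a ball inside a ball is smaller -/
theorem le_of_bl {z : Pt} {c R : ℕ} (h : bl x c ⊆ bl z R) : c ≤ R := by
  have h1 := mem_bl.1 (h (show ((x.1 + c, x.2) : Pt) ∈ bl x c by rw [mem_bl]; dsimp only; omega))
  have h2 := mem_bl.1 (h (show ((x.1 - c, x.2) : Pt) ∈ bl x c by rw [mem_bl]; dsimp only; omega))
  dsimp only at h1 h2
  omega

end S51

open S51

theorem semiStmt : SemiStmt := by
  intro Λ hΛ W z r hW hr
  have h1 := two_le hW r
  have h : r + Λ.rg ≤ W * r := by omega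
  have hd : ∀ F, Ins z r F → DepG (bl z (W * r)) F ∧ In Λ z (W * r) F := fun F hF =>
    ⟨hF.1.mono (bl_mono z (by omega)), FlF4.In_tame hΛ _ _ hF.2⟩
  refine ⟨fun F hF => ⟨FlF4.nu_nonneg hΛ _ _ _ _, FlF4.nu_le_Nm hΛ h (hd F hF).1 (hd F hF).2,
    fun c => ?_, fun c => FlF4.nu_smul _ _ _ _ _⟩, fun ι I F hF =>
    FlF4.nu_sum_le hΛ h I fun i hi => hd _ (hF i hi)⟩
  have := FlF4.nu_sub_le hΛ h (hd F hF).1 (DepG.const _ c) (hd F hF).2
    (FlF4.In_tame hΛ _ _ (Tame.const c))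
  rwa [FlF4.nu_const hΛ] at this

theorem fusStmt : FusStmt := by
  intro Λ hΛ W r₀ L hG x y a b F G ha haL hb hbL hF hG' hd
  have iF := ir hΛ hG ha hF
  have iG := ir hΛ hG hb hG'
  have gF := gn_le hΛ hG ha haL x F
  have gG := gn_le hΛ hG hb hbL y G
  have two : gam Λ a (W * a) * FlF4.nu Λ x a (W * a) F * (gam Λ b (W * b) * FlF4.nu Λ y b (W * b) G) ≤
      4 * nu Λ W x a F * nu Λ W y b G :=
    (mul_le_mul gF.2 gG.2 gG.1 (gF.1.trans gF.2)).trans_eq (by ring)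
  have sa : bl x a ⊆ bl x (W * a) := bl_mono x (by have := two_le hG.1 a; omega)
  have sb : bl y b ⊆ bl y (W * b) := bl_mono y (by have := two_le hG.1 b; omega)
  refine ⟨fun m hx hy => ⟨?_, fun v c H hc hcL hH hv hxv hyv => ?_⟩, fun z R hx hy => ?_⟩
  · have := (FlF4.fus2 (Z := fun _ => 1) (K := 1) hΛ subset_rfl iF hx (sa.trans hx.sub) (Out.const _ _)
      iG hy (sb.trans hy.sub) (Out.const _ _) hd fun _ => by simp).2
    rw [FlF4.nc_self hx.ctr hx.anch] at this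
    simp only [one_mul] at this
    exact this.trans two
  · have iH := ir hΛ hG hc hH
    have gH := gn_le hΛ hG hc hcL v H
    have := FlF4.fus_ex (univ : Finset (Fin 3)) (Z := fun _ => 1) (K := 1) (z := ![x, y, v])
      (q := ![a, b, c]) (r := ![a, b, c]) (c := ![W * a, W * b, W * c]) (F := ![F, G, H]) hΛ hx.ctr hx.anch
      (fun i _ j _ hij => by
        fin_cases i <;> fin_cases j
        exacts [absurd rfl hij, hd, hxv, hd.symm, absurd rfl hij, hyv, hxv.symm, hyv.symm,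
          absurd rfl hij])
      (fun i _ => by
        fin_cases i
        exacts [⟨iF, hx, Out.const _ _⟩, ⟨iG, hy, Out.const _ _⟩, ⟨iH, hv, Out.const _ _⟩])
      fun _ => by simp
    simp only [one_mul, Fin.prod_univ_three, Matrix.cons_val_zero, Matrix.cons_val_one,
      Matrix.cons_val] at this
    refine this.trans ((mul_le_mul two gH.2 gH.1 ((mul_nonneg gF.1 gG.1).trans two)).trans_eq ?_)
    ring
  · have h1 := le_of_bl hx
    have h2 := two_le hG.1 R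
    have h3 := iF.rc
    have hR : R + Λ.rg ≤ W * R := by omega
    have hm := FlF4.amb_bx (z := z) hΛ hR
    have hD : DepG (bl z (W * R)) fun s => F s * G s :=
      (hF.1.mono (sa.trans (hx.trans (bl_mono z (by omega))))).mul
        (hG'.1.mono (sb.trans (hy.trans (bl_mono z (by omega)))))
    have := (FlF4.fus2 (Z := fun _ => 1) (K := 1) hΛ hm.sub iF (FlF4.amb_mono hm hx) (sa.trans hx)
      (Out.const _ _) iG (FlF4.amb_mono hm hy) (sb.trans hy) (Out.const _ _) hd fun _ => by simp).2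
    simp only [one_mul] at this
    rw [nu_eq, FlF4.nu_eq hΛ hD hR]
    exact this.trans two

theorem ioStmt : IoStmt := by
  intro Λ hΛ W r₀ L hG z r m h0 hL hm
  have h1 := two_le hG.1 r
  have h2 := two_le hG.1 (W * r)
  have h3 := hG.2.1
  obtain ⟨hc, ha⟩ := FlF4.hole_ca hΛ (by omega : Λ.rg ≤ W * r) (by omega) hm
  refine ⟨hc, ha, fun F G hF hT hO => ?_⟩
  have iF := ir hΛ hG h0 hF
  have iS := iF.St hΛ
  have hI : Ig ((hole m (bl z (W * r))).W 0) G := (hc.cen ha).ig hT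
  have k := ((FlF4.ld1 Λ hΛ).2 z r (W * r) (W * (W * r)) _ iS.rc (by omega) iS.dep iS.ig).2.2.2.2 m G hm hO hI
  have hmr : Amb Λ m (bl z r) := FlF4.amb_mono hm (bl_mono z (by omega))
  have hW := (hm.ctr.cen hm.anch).wt
  have hOr : Out (bl z r) G := hO.mono (bl_mono z (by omega))
  have hFG : Ig (m.W 0) fun s => G s * F s := (hm.ctr.cen hm.anch).ig (hT.mul hF.2)
  have e : Ex (m.W 0) (fun s => F s * G s) = Ex (m.W 0) fun s => St Λ z r F s * G s := by
    have e1 := FlF4.ex_cE hm.ctr hm.anch hmr.sub hFG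
    rw [← FlF4.St_cE hΛ hmr, FlF4.St_out_mul hOr] at e1
    simp only [mul_comm (G _)] at e1
    exact e1.symm
  have g1 := gam_le hΛ hG h0 (by omega)
  have g2 := gam_le hΛ hG (by omega : r₀ ≤ W * r) hL
  have n1 : 0 ≤ nu Λ W z r F := FlF4.nu_nonneg hΛ _ _ _ _
  have n2 : 0 ≤ Ex ((hole m (bl z (W * r))).W 0) fun s => |G s| :=
    Ex_nonneg (hc.cen ha).nonneg fun _ _ => abs_nonneg _
  rw [e]
  refine (abs_Ex_le hW.nonneg k.1).trans (k.2.2.2.trans ?_)
  refine mul_le_mul_of_nonneg_right (mul_le_mul_of_nonneg_right ?_ n1) n2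
  exact (mul_le_mul g1.2 g2.2 g2.1 zero_le_two).trans_eq (by norm_num)

end Crest.Agent.T145.Df
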