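import Crest.Agent.T145.VxDef_35
import Crest.Agent.T145.FlRate_98
import Crest.Agent.T145.DfSemi_51
import Crest.Agent.T145.FlBare_80
import Crest.Agent.T145.FlBas_4

/-!
# Row 145, twisted module: the two-point function of `J` (`JfarStmt`, `JnearStmt`) (helper41)
-/

set_option autoImplicit false

namespace Crest.Agent.T145.Vx

open Finset Filter Topology
open Nc (an Amb Nm St Gd)

namespace J41

/-! ## geometry -/

theorem ds_comm (x y : Pt) : ds x y = ds y x := by simp only [ds]; omega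

theorem ds_tri (x y z : Pt) : ds x z ≤ ds x y + ds y z := by simp only [ds]; omega

theorem ds_pos {x y : Pt} (h : x ≠ y) : 1 ≤ ds x y := by
  by_contra h1
  refine h (Prod.ext ?_ ?_) <;> (simp only [ds] at h1; omega)

theorem bl_sub {x y : Pt} {k n : ℕ} (h : ds x y + k ≤ n) : bl x k ⊆ bl y n := fun v hv => by
  rw [mem_bl] at hv ⊢; simp only [ds] at h; omega

theorem disj {x y : Pt} {a b : ℕ} (h : a + b < ds x y) : Disjoint (bl x a) (bl y b) :=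
  disjoint_left.2 fun v h1 h2 => by rw [mem_bl] at h1 h2; simp only [ds] at h; omega

theorem sw_q (V : Vp) : V.sw.q = V.p := by
  simp [Vp.q, Vp.sw, Vp.p]

theorem sw_d (V : Vp) (z : Pt) : V.sw.d z = V.d z := by
  rw [Vp.d, Vp.d, sw_q, min_comm]; rfl

theorem sw_nb (V : Vp) (z : Pt) (l : ℕ) : nb V.sw z l = nb V z l := by
  rw [nb, nb, sw_d]; rfl

theorem ds_pq (V : Vp) : ds V.p V.q = V.r := by
  obtain ⟨a, r, sd⟩ := V
  cases sd <;> simp [Vp.q, Vp.sw, Vp.p, ds]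

theorem d_lip (V : Vp) (z w : Pt) : V.d z ≤ V.d w + ds z w := by
  have h1 := ds_tri z w V.p
  have h2 := ds_tri z w V.q
  simp only [Vp.d]; omega

theorem amb {Λ : Lat} {m : Mdl Pt} {x y : Pt} {k n : ℕ} (hm : Amb Λ m (bl y n)) (h : ds x y + k ≤ n) :
    Amb Λ m (bl x k) := FlF4.amb_mono hm (bl_sub h)

/-! ## the majorant `nb` -/

theorem nb_pos (V : Vp) (z : Pt) (l : ℕ) : 0 < nb V z l := by
  unfold nb
  split_ifs with h
  · positivity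
  · have : (0 : ℝ) < ((min l V.r : ℕ) : ℝ) := by exact_mod_cast (by omega : 0 < min l V.r)
    positivity

theorem two_pow {a b X : ℝ} (ha : 0 < a) (hb : 0 < b) (h1 : a ≤ X) (h2 : b ≤ X) :
    1 / X ^ 2 ≤ a ^ (-(21 / 20 : ℝ)) * b ^ (-(19 / 20 : ℝ)) := by
  have hX : 0 < X := ha.trans_le h1
  have e : 1 / X ^ 2 = X ^ (-(21 / 20 : ℝ)) * X ^ (-(19 / 20 : ℝ)) := by
    rw [← Real.rpow_add hX, show (-(21 / 20 : ℝ) + -(19 / 20)) = -((2 : ℕ) : ℝ) by norm_num,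
      Real.rpow_neg hX.le, Real.rpow_natCast, one_div]
  rw [e]
  exact mul_le_mul (Real.rpow_le_rpow_of_nonpos ha h1 (by norm_num))
    (Real.rpow_le_rpow_of_nonpos hb h2 (by norm_num)) (by positivity) (by positivity)

theorem two_pow' {a b X : ℝ} (hX : 0 < X) (h1 : X ≤ a) (h2 : X ≤ b) :
    a ^ (-(21 / 20 : ℝ)) * b ^ (-(19 / 20 : ℝ)) ≤ 1 / X ^ 2 := by
  have e : 1 / X ^ 2 = X ^ (-(21 / 20 : ℝ)) * X ^ (-(19 / 20 : ℝ)) := by
    rw [← Real.rpow_add hX, show (-(21 / 20 : ℝ) + -(19 / 20)) = -((2 : ℕ) : ℝ) by norm_num,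
      Real.rpow_neg hX.le, Real.rpow_natCast, one_div]
  have hb : 0 < b := hX.trans_le h2
  rw [e]
  exact mul_le_mul (Real.rpow_le_rpow_of_nonpos hX h1 (by norm_num))
    (Real.rpow_le_rpow_of_nonpos hX h2 (by norm_num)) (by positivity) (by positivity)

theorem nb_ge (V : Vp) (z : Pt) {l X : ℕ} (h1 : 1 + min (V.d z) l ≤ X)
    (h2 : V.d z < min l V.r → min l V.r ≤ X) : 1 / (X : ℝ) ^ 2 ≤ nb V z l := by
  unfold nb
  split_ifs with h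
  · have : (1 + (min (V.d z) l : ℕ) : ℝ) ≤ X := by exact_mod_cast h1
    exact one_div_le_one_div_of_le (by positivity) (pow_le_pow_left₀ (by positivity) this 2)
  · refine two_pow (by positivity) ?_ ?_ ?_
    · exact_mod_cast (by omega : 0 < min l V.r)
    · exact_mod_cast (by omega : 1 + V.d z ≤ X)
    · exact_mod_cast h2 (by omega)

theorem rp_le {a b K : ℝ} (hb : 0 < b) (hK : 1 ≤ K) (h : b ≤ K * a) :
    a ^ (-(19 / 20 : ℝ)) ≤ K * b ^ (-(19 / 20 : ℝ)) := by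
  have hK0 : 0 < K := one_pos.trans_le hK
  have h1 : a ^ (-(19 / 20 : ℝ)) ≤ (b / K) ^ (-(19 / 20 : ℝ)) :=
    Real.rpow_le_rpow_of_nonpos (by positivity) (by rw [div_le_iff₀ hK0]; linarith) (by norm_num)
  refine h1.trans ?_
  rw [Real.div_rpow hb.le hK0.le, Real.rpow_neg hK0.le, div_inv_eq_mul, mul_comm]
  refine mul_le_mul_of_nonneg_right ?_ (by positivity)
  calc K ^ (19 / 20 : ℝ) ≤ K ^ (1 : ℝ) := Real.rpow_le_rpow_of_exponent_le hK (by norm_num)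
    _ = K := Real.rpow_one K

theorem nb_le (V : Vp) (z : Pt) {l₁ l₂ : ℕ} (h : l₂ ≤ 2 * l₁) : nb V z l₁ ≤ 4 * nb V z l₂ := by
  by_cases h1 : min l₁ V.r ≤ V.d z
  · have h2 := nb_ge V z (l := l₂) (X := 2 * (1 + min (V.d z) l₁)) (by omega) (by omega)
    rw [nb, if_pos h1]
    refine le_trans (le_of_eq ?_) (mul_le_mul_of_nonneg_left h2 (by norm_num))
    push_cast
    field_simp
    norm_num
  · rw [nb, if_neg h1]
    by_cases h2 : min l₂ V.r ≤ V.d z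
    · rw [nb, if_pos h2]
      have h3 := two_pow' (a := 1 + (V.d z : ℝ)) (b := ((min l₁ V.r : ℕ) : ℝ))
        (X := 1 + ((min (V.d z) l₂ : ℕ) : ℝ)) (by positivity)
        (by exact_mod_cast (by omega : 1 + min (V.d z) l₂ ≤ 1 + V.d z))
        (by exact_mod_cast (by omega : 1 + min (V.d z) l₂ ≤ min l₁ V.r))
      have h4 : (0 : ℝ) ≤ 1 / (1 + ((min (V.d z) l₂ : ℕ) : ℝ)) ^ 2 := by positivity
      linarith
    · rw [nb, if_neg h2, mul_left_comm]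
      refine mul_le_mul_of_nonneg_left (rp_le ?_ (by norm_num) ?_) (by positivity)
      · exact_mod_cast (by omega : 0 < min l₂ V.r)
      · exact_mod_cast (by omega : min l₂ V.r ≤ 4 * min l₁ V.r)

theorem nb_free (V : Vp) (z : Pt) {l : ℕ} (hl : 1 ≤ l) (h : l ≤ V.d z) : nb V z l ≤ 1 / (l : ℝ) ^ 2 := by
  have hl' : (0 : ℝ) < l := by exact_mod_cast hl
  rw [nb, if_pos (by omega), min_eq_right h]
  exact one_div_le_one_div_of_le (by positivity) (pow_le_pow_left₀ hl'.le (by linarith) 2)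

theorem log_le {l ρ K : ℕ} (h1 : l ≤ K * ρ) (h2 : K + 2 ≤ ρ) :
    Real.log (2 + (l : ℕ)) ≤ 2 * Real.log ρ := by
  have h3 : 2 + l ≤ ρ ^ 2 := by nlinarith
  have h4 : (2 + (l : ℝ)) ≤ (ρ : ℝ) ^ 2 := by exact_mod_cast h3
  refine (Real.log_le_log (by positivity) h4).trans_eq ?_
  rw [Real.log_pow]; norm_num

theorem one_le_log {x : ℝ} (h : 3 ≤ x) : 1 ≤ Real.log x := by
  rw [Real.le_log_iff_exp_le (by linarith)]
  exact (Real.exp_one_lt_d9.le.trans (by norm_num)).trans h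

theorem div_lt (d k : ℕ) (hk : 0 < k) (h : k ≤ d) : 1 + d ≤ 2 * k * (d / k) := by
  have h1 := Nat.div_add_mod d k
  have h2 := Nat.mod_lt d hk
  have h3 : 1 ≤ d / k := (Nat.one_le_div_iff hk).2 h
  have h4 : k ≤ k * (d / k) := Nat.le_mul_of_pos_right _ h3
  have h5 : 2 * k * (d / k) = 2 * (k * (d / k)) := by ring
  omega

/-! ## the centred sector -/

variable {P : Par}

theorem lok (h : P.Ok) : P.L.Ok := h.crit.1

theorem rg1 (P : Par) : P.L.rg = 1 := xyL_rg _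

/-- the family with one member -/
def fam (h : P.Ok) : Fa := ⟨nn, true, P.b, P.b, admissible_nn, h.crit.1.2⟩

theorem mem_fam (h : P.Ok) : (fam h).Mem P.L := ⟨rfl, rfl, le_rfl, le_rfl⟩

theorem gs (h : P.Ok) (L : ℕ) : Fl.Gs ⟨fam h, P.W₀, P.r₀, 1⟩ P.L L := ⟨mem_fam h, h.W2, h.gd L⟩

theorem ex_abs_mul {α : Type*} {W F G : α → ℝ} {C : ℝ} (h0 : ∀ a, 0 ≤ W a)
    (hF : Ig W fun a => F a ^ 2) (hG : Ig W fun a => G a ^ 2) (h1 : Ex W (fun a => F a ^ 2) ≤ C)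
    (h2 : Ex W (fun a => G a ^ 2) ≤ C) : Ex W (fun a => |F a * G a|) ≤ C := by
  have h3 := Ex_mono h0 ((Ig.mul_of_sq h0 hF hG).abs h0) ((hF.add hG).const_mul (1 / 2)) fun a => by
    rw [abs_le]; constructor <;> nlinarith [sq_nonneg (F a + G a), sq_nonneg (F a - G a)]
  rw [Ex_const_mul, Ex_add hF hG] at h3
  linarith

theorem bare (h : P.Ok) : ∃ C : ℝ, 0 ≤ C ∧
    (∀ (m : Mdl Pt) (z : Pt), Amb P.L m (bl z 1) → Ex (m.W 0) (fun s => Jz z s ^ 2) ≤ C) ∧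
    ∀ (z w : Pt) (n c : ℕ), w ∈ bl z n → n + 1 ≤ c → Nc.EN P.L z c (fun s => Jz w s ^ 2) ≤ C := by
  obtain ⟨C, hC, hb⟩ := Fl.bareStmt (fam h)
  have e : ∀ (z w : Pt) (n : ℕ), w ∈ bl z n → Fl.E0 (bl z n) (Pot.dl w) = 4 := fun z w n hw => by
    rw [Fl.E0, show ∑ x ∈ bl z n, Pot.dl w x * A0 (Pot.dl w) x = _ from Pot.ip_dl hw _]
    simp [A0, Prod.ext_iff]
  refine ⟨C * 4, by positivity, fun m z hm => ?_, fun z w n c hw hc => ?_⟩
  · have := ((hb P.L (mem_fam h) z 0 (Pot.dl z) (Pot.sup_dl (self_mem_bl _ _))).2.1 m hm).1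
    simp only [← Xi.Jz_eq_pr] at this
    rwa [e z z 0 (self_mem_bl _ _)] at this
  · have := ((hb P.L (mem_fam h) z n (Pot.dl w) (Pot.sup_dl hw)).2.2 c hc).1
    simp only [← Xi.Jz_eq_pr] at this
    rwa [e z w n hw] at this

theorem mem_ds {x z : Pt} {r : ℕ} (h : ds x z ≤ r) : x ∈ bl z r :=
  bl_sub (k := 0) h (self_mem_bl _ _)

theorem div_log {C : ℝ} (hC : 0 ≤ C) {ρ : ℕ} (h : 16 ≤ ρ) :
    C / ((ρ : ℝ) ^ 2 * Real.log ρ) ≤ C / (ρ : ℝ) ^ 2 := by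
  have h1 : (16 : ℝ) ≤ ρ := by exact_mod_cast h
  have h2 := one_le_log (x := ρ) (by linarith)
  exact div_le_div_of_nonneg_left hC (by positivity) (le_mul_of_one_le_right (by positivity) h2)

/-- the centred two-point function and its norm -/
theorem cpair (h : P.Ok) : ∃ C : ℝ, 0 ≤ C ∧ ∀ z w : Pt, z ≠ w →
    (∀ m : Mdl Pt, Amb P.L m (bl z (ds z w)) → Amb P.L m (bl w (ds z w)) →
      |Ex (m.W 0) (fun s => Jz z s * Jz w s)| ≤ C / (ds z w : ℝ) ^ 4) ∧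
    ∀ a : ℕ, P.r₀ ≤ a → 2 * ds z w ≤ a →
      Fl.nu P.L P.W₀ z a (fun s => Jz z s * Jz w s) ≤ C / (ds z w : ℝ) ^ 4 := by
  obtain ⟨B, hB, b1, b2⟩ := bare h
  have hK := h.K1
  have hW := h.W2
  have hr := h.r2
  have ok := lok h
  obtain ⟨k, hk⟩ : ∃ k, k = 2 * P.W₀ + 1 := ⟨_, rfl⟩
  refine ⟨4 * P.K ^ 2 * (2 * k) ^ 4 + B * (k * P.r₀) ^ 4, by positivity, fun z w hzw => ?_⟩
  have hl := ds_pos hzw
  have hl' : (1 : ℝ) ≤ ds z w := by exact_mod_cast hl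
  by_cases hc : k * P.r₀ ≤ ds z w
  · obtain ⟨ρ, hρ⟩ : ∃ ρ, ρ = ds z w / k := ⟨_, rfl⟩
    have h1 : P.r₀ ≤ ρ := hρ ▸ (Nat.le_div_iff_mul_le (by omega)).2 (by rwa [mul_comm])
    have h2 : k * ρ ≤ ds z w := hρ ▸ Nat.mul_div_le _ _
    have h3 : 1 + ds z w ≤ 2 * k * ρ :=
      hρ ▸ div_lt _ _ (by omega) (le_trans (Nat.le_mul_of_pos_right _ (by omega)) hc)
    have h4 : k * ρ = P.W₀ * ρ + P.W₀ * ρ + ρ := by rw [hk]; ring
    have hf := Df.fusStmt P.L ok P.W₀ P.r₀ ρ (h.gd ρ) z w ρ ρ (Jz z) (Jz w) h1 le_rfl h1 le_rfl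
      (Fl.ins_Jz z (by omega)) (Fl.ins_Jz w (by omega)) (disj (by omega))
    have n1 : ∀ x, Df.nu P.L P.W₀ x ρ (Jz x) ≤ P.K / (ρ : ℝ) ^ 2 := fun x =>
      (h.f1 ρ h1 x _ le_rfl).trans (div_log (by linarith) (by omega))
    have n0 : ∀ x, 0 ≤ Df.nu P.L P.W₀ x ρ (Jz x) := fun x => FlF4.nu_nonneg ok _ _ _ _
    have hρ0 : (0 : ℝ) < ρ := by exact_mod_cast (by omega : 0 < ρ)
    have key : 4 * Df.nu P.L P.W₀ z ρ (Jz z) * Df.nu P.L P.W₀ w ρ (Jz w) ≤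
        (4 * P.K ^ 2 * (2 * k) ^ 4 + B * (k * P.r₀) ^ 4) / (ds z w : ℝ) ^ 4 := by
      have h5 : (ds z w : ℝ) ≤ 2 * k * ρ := by exact_mod_cast (by omega : ds z w ≤ 2 * k * ρ)
      have h6 : (ds z w : ℝ) ^ 4 ≤ (2 * k * ρ) ^ 4 := pow_le_pow_left₀ (by positivity) h5 4
      calc _ ≤ 4 * (P.K / (ρ : ℝ) ^ 2) * (P.K / (ρ : ℝ) ^ 2) := by
            have := n0 z; have := n0 w; have := n1 z; have := n1 w
            gcongr
        _ = 4 * P.K ^ 2 * (2 * k) ^ 4 / (2 * k * ρ) ^ 4 := by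
            have : (k : ℝ) ≠ 0 := by exact_mod_cast (by omega : k ≠ 0)
            field_simp
        _ ≤ 4 * P.K ^ 2 * (2 * k) ^ 4 / (ds z w : ℝ) ^ 4 := by gcongr
        _ ≤ _ := by gcongr; exact le_add_of_nonneg_right (by positivity)
    refine ⟨fun m h5 h6 => ((hf.1 m (FlF4.amb_mono h5 (bl_mono _ (by omega)))
      (FlF4.amb_mono h6 (bl_mono _ (by omega)))).1).trans key, fun a _ ha => le_trans ?_ key⟩
    exact hf.2 z a (bl_mono _ (by omega)) (bl_sub (by rw [ds_comm]; omega))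
  · have key : B ≤ (4 * P.K ^ 2 * (2 * k) ^ 4 + B * (k * P.r₀) ^ 4) / (ds z w : ℝ) ^ 4 := by
      have h5 : (ds z w : ℝ) ≤ k * P.r₀ := by exact_mod_cast (by omega : ds z w ≤ k * P.r₀)
      have h6 : (ds z w : ℝ) ^ 4 ≤ (k * P.r₀) ^ 4 := pow_le_pow_left₀ (by positivity) h5 4
      rw [le_div_iff₀ (by positivity)]
      have := mul_le_mul_of_nonneg_left h6 hB
      have : 0 ≤ 4 * P.K ^ 2 * (2 * k) ^ 4 := by positivity
      linarith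
    refine ⟨fun m h5 h6 => le_trans ?_ key, fun a h0 ha => le_trans ?_ key⟩
    · have hc := h5.ctr.cen h5.anch
      exact (abs_Ex_le hc.nonneg (hc.ig ((Fl.tame_Jz z).mul (Fl.tame_Jz w)))).trans
        (ex_abs_mul hc.nonneg (hc.ig ((Fl.tame_Jz z).pow 2)) (hc.ig ((Fl.tame_Jz w).pow 2))
          (b1 m z (FlF4.amb_mono h5 (bl_mono _ hl))) (b1 m w (FlF4.amb_mono h6 (bl_mono _ hl))))
    · have h4 : 4 * a ≤ P.W₀ * a := Nat.mul_le_mul_right _ hW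
      have hi : Ins z (P.W₀ * a) fun s => Jz z s * Jz w s :=
        (Fl.ins_Jz z (by omega)).mul ((Fl.ins_Jz w le_rfl).of_subset (bl_sub (by rw [ds_comm]; omega)))
      refine (FlF4.nu_le_Nm ok (by rw [rg1]; omega) hi.1 (FlF4.In_tame ok _ _ hi.2)).trans ?_
      have hn := ok.ctr_Nr (bl z (P.W₀ * a)) z
      exact ex_abs_mul (Md.W_nonneg hn.1 (Md.ctr_nn hn) 0) (FlF4.In_tame ok _ _ ((Fl.tame_Jz z).pow 2))
        (FlF4.In_tame ok _ _ ((Fl.tame_Jz w).pow 2)) (b2 z z 0 _ (self_mem_bl _ _) (by omega))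
        (b2 z w (ds z w) _ (mem_ds (ds_comm _ _).le) (by omega))

/-! ## the twisted sector -/

theorem N_nonneg (h : P.Ok) (V : Vp) (z : Pt) (ρ : ℕ) (F : Cfg Pt → ℝ) : 0 ≤ P.N V z ρ F :=
  have hn := (lok h).ctr_Nr (bl z (P.W₀ * ρ)) z
  Ex_nonneg (Md.Ws_nonneg hn.1 (Md.ctr_nn hn) 0 _) fun _ _ => abs_nonneg _

theorem tr_pack (hT : TrStmt) (h : P.Ok) (σ : Pt × Pt → ℤ) {z : Pt} {ρ : ℕ} {F : Cfg Pt → ℝ}
    (hF : Ins z (ρ + 1) F) : Ins z (ρ + 1) (P.L.tr σ z ρ F) ∧ ∀ (G : Cfg Pt → ℝ) (m : Mdl Pt),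
      Out (bl z ρ) G → Tame G → Amb P.L m (bl z ρ) →
      Ex (m.Ws 0 σ) (fun s => F s * G s) = Ex (m.Ws 0 σ) fun s => P.L.tr σ z ρ F s * G s := by
  have := hT P.b σ z ρ F h.crit.1.2 hF
  exact ⟨⟨this.2.1.mono sdiff_subset, this.1⟩, fun G m h1 h2 h3 => (this.2.2.2 G h1 h2).2.2 m h3⟩

theorem tr_mean (hT : TrStmt) (h : P.Ok) (σ : Pt × Pt → ℤ) {z : Pt} {ρ : ℕ} {F : Cfg Pt → ℝ}
    (hF : Ins z (ρ + 1) F) {m : Mdl Pt} (hm : Amb P.L m (bl z ρ)) :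
    Ex (m.Ws 0 σ) F = Ex (m.Ws 0 σ) (P.L.tr σ z ρ F) := by
  simpa using (tr_pack hT h σ hF).2 (fun _ => 1) m (Out.const _ _) (Tame.const _) hm

theorem ins_Jv (hY : YStmt) (σ : Pt × Pt → ℤ) (z : Pt) : Ins z 1 (Jv σ z) :=
  ((hY σ ∅ 0 fun _ _ => rfl).2.2.2.2 z).1

/-- a free cell: the `L¹` norm in the ambient model -/
theorem cell (hC : CovStmt) (h : P.Ok) (Λc : ℕ) : ∃ C : ℝ, 0 ≤ C ∧ ∀ (V : Vp) (m : Mdl Pt),
    4 * (P.W₀ * P.r₀) ≤ V.r → Amb P.L m (bl V.p (4 * V.r)) →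
    ∀ (z : Pt) (ρ : ℕ) (G : Cfg Pt → ℝ), P.r₀ ≤ ρ → 4 * (P.W₀ * ρ) ≤ V.d z →
      Amb P.L m (bl z (P.W₀ * ρ)) → Ins z (ρ + 1) G →
      |Ex (m.Ws 0 V.σ) G| ≤ C * P.N V z ρ G ∧
      ∀ (w : Pt) (ρ' : ℕ) (G' : Cfg Pt → ℝ), P.r₀ ≤ ρ' → 4 * (P.W₀ * ρ') ≤ V.d w →
        Amb P.L m (bl w (P.W₀ * ρ')) → Ins w (ρ' + 1) G' → P.W₀ * ρ + P.W₀ * ρ' < ds z w →
        (∀ c : Pt, c = V.p ∨ c = V.q → min (ds z c) V.r ≤ Λc * min (ds w c) V.r ∧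
          min (ds w c) V.r ≤ Λc * min (ds z c) V.r) →
        |Ex (m.Ws 0 V.σ) fun s => G s * G' s| ≤ C * P.N V z ρ G * P.N V w ρ' G' := by
  obtain ⟨C, hC⟩ := hC P h Λc
  refine ⟨|C|, abs_nonneg _, fun V m hr hm z ρ G h1 h2 h3 h4 => ?_⟩
  have k := (hC V m P.r₀ P.r₀ (fun _ => 0) (fun _ => 0) le_rfl hr le_rfl hr hm (Ins.const _ _ _)
    (Ins.const _ _ _)).2.2 z ρ G h1 h2 h3 h4
  have hw := Md.ctr_wts hm.ctr hm.anch 0 V.σ
  have hs := Md.ctr_ses hm.ctr hm.anch 0 V.σ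
  have n0 := N_nonneg h V z ρ G
  have hC' := le_abs_self C
  refine ⟨(abs_Ex_le hw.nonneg (hs.ig h4.2)).trans (k.1.trans (by gcongr)),
    fun w ρ' G' h5 h6 h7 h8 h9 h10 => ?_⟩
  have n1 := N_nonneg h V w ρ' G'
  exact (abs_Ex_le hw.nonneg (hs.ig (h4.2.mul h8.2))).trans
    ((k.2.2 w ρ' G' h5 h6 h7 h8 h9 h10).trans (by gcongr))

/-- free currents -/
theorem free (hT : TrStmt) (hC : CovStmt) (hJ : JnStmt) (hY : YStmt) (h : P.Ok) (Λc : ℕ) :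
    ∃ C : ℝ, 0 ≤ C ∧ ∀ (V : Vp) (m : Mdl Pt), 4 * (P.W₀ * P.r₀) ≤ V.r → Amb P.L m (bl V.p (4 * V.r)) →
    ∀ (z : Pt) (ρ : ℕ), P.r₀ ≤ ρ → 4 * (P.W₀ * ρ) ≤ V.d z → Amb P.L m (bl z (P.W₀ * ρ)) →
      |Ex (m.Ws 0 V.σ) (Jv V.σ z)| ≤ C * (1 / ((ρ : ℝ) ^ 2 * Real.log ρ)) ∧
      ∀ (w : Pt) (ρ' : ℕ), P.r₀ ≤ ρ' → 4 * (P.W₀ * ρ') ≤ V.d w →
        Amb P.L m (bl w (P.W₀ * ρ')) → P.W₀ * ρ + P.W₀ * ρ' < ds z w →
        (∀ c : Pt, c = V.p ∨ c = V.q → min (ds z c) V.r ≤ Λc * min (ds w c) V.r ∧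
          min (ds w c) V.r ≤ Λc * min (ds z c) V.r) →
        |Ex (m.Ws 0 V.σ) fun s => Jv V.σ z s * Jv V.σ w s| ≤
          C * (1 / ((ρ : ℝ) ^ 2 * Real.log ρ)) * (1 / ((ρ' : ℝ) ^ 2 * Real.log ρ')) := by
  obtain ⟨C, hC0, hC⟩ := cell hC h Λc
  obtain ⟨D, hD⟩ := hJ P h
  have hW := h.W2
  have hr := h.r2
  have pos : ∀ ρ : ℕ, P.r₀ ≤ ρ → 0 < 1 / ((ρ : ℝ) ^ 2 * Real.log ρ) := fun ρ h1 => by
    have h2 : (16 : ℝ) ≤ ρ := by exact_mod_cast hr.trans h1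
    have := one_le_log (x := ρ) (by linarith)
    positivity
  have nJ : ∀ (V : Vp) (z : Pt) (ρ : ℕ), P.r₀ ≤ ρ → 4 * (P.W₀ * ρ) ≤ V.d z →
      P.N V z ρ (P.L.tr V.σ z ρ (Jv V.σ z)) ≤ (|D| + 1) * (1 / ((ρ : ℝ) ^ 2 * Real.log ρ)) := by
    intro V z ρ h1 h2
    have h3 : 4 * ρ ≤ P.W₀ * ρ := Nat.mul_le_mul_right _ hW
    refine ((hD V z ρ h1).1 (by omega)).trans ?_
    rw [div_eq_mul_one_div]
    exact mul_le_mul_of_nonneg_right (by linarith [le_abs_self D]) (pos ρ h1).le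
  have D1 : 1 ≤ |D| + 1 := by linarith [abs_nonneg D]
  refine ⟨C * (|D| + 1) ^ 2, by positivity, fun V m h1 hm z ρ h2 h3 h4 => ?_⟩
  have e3 : 4 * ρ ≤ P.W₀ * ρ := Nat.mul_le_mul_right _ hW
  have iz : Ins z (ρ + 1) (Jv V.σ z) := (ins_Jv hY _ z).mono (by omega)
  have az : Amb P.L m (bl z ρ) := FlF4.amb_mono h4 (bl_mono _ (by omega))
  have tz := tr_pack hT h V.σ iz
  have k := hC V m h1 hm z ρ _ h2 h3 h4 tz.1
  have p1 := pos ρ h2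
  have n1 := nJ V z ρ h2 h3
  refine ⟨?_, fun w ρ' h5 h6 h7 h8 h9 => ?_⟩
  · rw [tr_mean hT h V.σ iz az]
    refine k.1.trans ((mul_le_mul_of_nonneg_left n1 hC0).trans ?_)
    rw [← mul_assoc]
    gcongr
    nlinarith
  · have e4 : 4 * ρ' ≤ P.W₀ * ρ' := Nat.mul_le_mul_right _ hW
    have iw : Ins w (ρ' + 1) (Jv V.σ w) := (ins_Jv hY _ w).mono (by omega)
    have aw : Amb P.L m (bl w ρ') := FlF4.amb_mono h7 (bl_mono _ (by omega))
    have tw := tr_pack hT h V.σ iw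
    have p2 := pos ρ' h5
    have n2 := nJ V w ρ' h5 h6
    have n3 := N_nonneg h V w ρ' (P.L.tr V.σ w ρ' (Jv V.σ w))
    rw [tz.2 _ m ((ins_Jv hY _ w).out (disj (by rw [ds_comm]; omega))) iw.2 az]
    simp only [mul_comm (P.L.tr V.σ z ρ (Jv V.σ z) _)]
    rw [tw.2 _ m (tz.1.out (disj (by omega))) tz.1.2 aw]
    simp only [mul_comm (P.L.tr V.σ w ρ' (Jv V.σ w) _)]
    refine (k.2 w ρ' _ h5 h6 h7 tw.1 h8 h9).trans ?_
    calc _ ≤ C * ((|D| + 1) * (1 / ((ρ : ℝ) ^ 2 * Real.log ρ))) *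
          ((|D| + 1) * (1 / ((ρ' : ℝ) ^ 2 * Real.log ρ'))) := by gcongr
      _ = _ := by ring

/-- the microscopic bound -/
theorem micro (hM : MicStmt) (hY : YStmt) (h : P.Ok) : ∃ (C : ℝ) (r₁ : ℕ), 0 ≤ C ∧
    ∀ (V : Vp) (m : Mdl Pt), r₁ ≤ V.r → Amb P.L m (bl V.p (4 * V.r)) → ∀ z w : Pt,
      Amb P.L m (bl z (P.W₀ * P.r₀)) → Amb P.L m (bl w (P.W₀ * P.r₀)) →
      |Cv (m.Ws 0 V.σ) (Jv V.σ z) (Jv V.σ w)| ≤ C := by
  obtain ⟨c₀, C, r₁, -, hC⟩ := (hM P h).2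
  refine ⟨2 * |C|, r₁, by positivity, fun V m h1 hm z w hz hw => ?_⟩
  have hW := Md.ctr_wts hm.ctr hm.anch 0 V.σ
  have hs := Md.ctr_ses hm.ctr hm.anch 0 V.σ
  have k := (hC V m h1 hm).2.2
  have iz := hs.ig ((ins_Jv hY V.σ z).2.pow 2)
  have iw := hs.ig ((ins_Jv hY V.σ w).2.pow 2)
  have a1 := (abs_Ex_le hW.nonneg (hs.ig ((ins_Jv hY V.σ z).2.mul (ins_Jv hY V.σ w).2))).trans
    (ex_abs_mul hW.nonneg iz iw (k z hz) (k w hw))
  have a2 := (hW.ex_sq_le iz).trans (k z hz)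
  have a3 := (hW.ex_sq_le iw).trans (k w hw)
  have a4 := le_abs_self C
  rw [Cv]
  rw [abs_le] at a1 ⊢
  constructor <;>
    nlinarith [a1.1, a1.2, sq_nonneg (Ex (m.Ws 0 V.σ) (Jv V.σ z) + Ex (m.Ws 0 V.σ) (Jv V.σ w)),
      sq_nonneg (Ex (m.Ws 0 V.σ) (Jv V.σ z) - Ex (m.Ws 0 V.σ) (Jv V.σ w))]

/-- the majorant of the two-point function -/
noncomputable def Bd (V : Vp) (z w : Pt) : ℝ :=
  nb V z (ds z w) * nb V w (ds z w) / Real.log (2 + (min (ds z w) V.r : ℕ)) ^ 2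

theorem Bd_comm (V : Vp) (z w : Pt) : Bd V z w = Bd V w z := by
  rw [Bd, Bd, ds_comm w z, mul_comm]

theorem Bd_sw (V : Vp) (z w : Pt) : Bd V.sw z w = Bd V z w := by
  rw [Bd, Bd, sw_nb, sw_nb]; rfl

theorem Bd_nonneg (V : Vp) (z w : Pt) : 0 ≤ Bd V z w := by
  have := nb_pos V z (ds z w)
  have := nb_pos V w (ds z w)
  rw [Bd]; positivity

theorem lg_ge {l : ℕ} (h : 1 ≤ l) : 1 ≤ Real.log (2 + (l : ℕ)) :=
  one_le_log (by have : (1 : ℝ) ≤ l := by exact_mod_cast h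
                 linarith)

/-- `z` close to the core -/
theorem core (hJ : JnStmt) (hF : FjStmt) (hY : YStmt) (h : P.Ok) : ∃ (C : ℝ) (L₀ : ℕ), 0 ≤ C ∧
    ∀ (V : Vp) (m : Mdl Pt) (z w : Pt), L₀ ≤ min (ds z w) V.r →
      16 * P.W₀ * ds z V.p ≤ min (ds z w) V.r → Amb P.L m (bl V.p (5 * V.r)) →
      Amb P.L m (bl w (ds w V.p)) → |Cv (m.Ws 0 V.σ) (Jv V.σ z) (Jv V.σ w)| ≤ C * Bd V z w := by
  obtain ⟨C, r₁, hC⟩ := hF P h (16 * P.W₀)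
  obtain ⟨D, hD⟩ := hJ P h
  have hW := h.W2
  have hr := h.r2
  refine ⟨|C| * |D| * (8 * P.W₀ : ℕ) * 16, 4 * P.W₀ * (r₁ + P.r₀ + 8 * P.W₀ + 2), by positivity,
    fun V m z w h1 h2 hm hw => ?_⟩
  rw [Bd]
  have t1 := ds_tri z V.p w
  have t2 := ds_tri w z V.p
  have t3 := ds_tri V.p z V.q
  rw [ds_comm V.p w] at t1
  rw [ds_comm w z] at t2
  rw [ds_pq, ds_comm V.p z] at t3
  obtain ⟨ρ, hρ⟩ : ∃ ρ, ρ = min (ds z w) V.r / (4 * P.W₀) := ⟨_, rfl⟩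
  have a1 : r₁ + P.r₀ + 8 * P.W₀ + 2 ≤ ρ :=
    hρ ▸ (Nat.le_div_iff_mul_le (by omega)).2 (by rwa [mul_comm])
  have a2 : 4 * P.W₀ * ρ ≤ min (ds z w) V.r := hρ ▸ Nat.mul_div_le _ _
  have a3 : 1 + min (ds z w) V.r ≤ 2 * (4 * P.W₀) * ρ :=
    hρ ▸ div_lt _ _ (by omega) (le_trans (Nat.le_mul_of_pos_right _ (by omega)) h1)
  have a4 : 64 * ds z V.p ≤ 16 * P.W₀ * ds z V.p := Nat.mul_le_mul_right _ (by omega)
  have a5 : 2 * ds z V.p ≤ ρ := by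
    refine (Nat.lt_of_mul_lt_mul_left (a := 8 * P.W₀) ?_).le
    rw [show 8 * P.W₀ * (2 * ds z V.p) = 16 * P.W₀ * ds z V.p by ring,
      show 8 * P.W₀ * ρ = 2 * (4 * P.W₀) * ρ by ring]
    omega
  rw [show 4 * P.W₀ * ρ = 4 * (P.W₀ * ρ) by ring] at a2
  rw [show 2 * (4 * P.W₀) * ρ = 8 * (P.W₀ * ρ) by ring] at a3
  have k1 := hC V m ρ (Jv V.σ z) w (by omega) (by omega)
    ((ins_Jv hY _ z).of_subset (bl_sub (by omega))) hm hw (by omega)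
    (by rw [show 16 * P.W₀ * ρ = 16 * (P.W₀ * ρ) by ring]; omega)
  have k2 := (hD V z ρ (by omega)).2 (by omega) a5
  have e1 : V.d z = ds z V.p := by rw [Vp.d]; omega
  have e2 : nb V z (ds z w) = (1 + (ds z V.p : ℝ)) ^ (-(21 / 20 : ℝ)) *
      ((min (ds z w) V.r : ℕ) : ℝ) ^ (-(19 / 20 : ℝ)) := by
    rw [nb, if_neg (by omega), e1]
  have k3 := rp_le (a := ρ) (b := ((min (ds z w) V.r : ℕ) : ℝ)) (K := (8 * P.W₀ : ℕ))
    (by exact_mod_cast (by omega : 0 < min (ds z w) V.r)) (by exact_mod_cast (by omega : 1 ≤ 8 * P.W₀))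
    (by exact_mod_cast (by rw [mul_assoc]; omega : min (ds z w) V.r ≤ 8 * P.W₀ * ρ))
  have k4 := nb_le V w (l₁ := ds w V.p) (l₂ := ds z w) (by omega)
  have k5 := log_le (l := min (ds z w) V.r) (ρ := ρ) (K := 8 * P.W₀) (by rw [mul_assoc]; omega) (by omega)
  have k6 := lg_ge (l := min (ds z w) V.r) (by omega)
  have k7 : 0 ≤ P.ν V ρ (Jv V.σ z) := N_nonneg h _ _ _ _
  have k8 := nb_pos V w (ds w V.p)
  have k9 := nb_pos V z (ds z w)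
  have k9' := nb_pos V w (ds z w)
  generalize Real.log (2 + (min (ds z w) V.r : ℕ)) = t at *
  have hl : t / 2 ≤ Real.log ρ := by linarith
  have ht : 0 < t / 2 := by linarith
  have k10 : P.ν V ρ (Jv V.σ z) ≤ |D| * (8 * P.W₀ : ℕ) * nb V z (ds z w) / (t / 2) := by
    refine k2.trans ?_
    rw [e2]
    calc _ ≤ |D| * (1 + (ds z V.p : ℝ)) ^ (-(21 / 20 : ℝ)) * ((8 * P.W₀ : ℕ) *
          ((min (ds z w) V.r : ℕ) : ℝ) ^ (-(19 / 20 : ℝ))) / (t / 2) := by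
          have := le_abs_self D
          gcongr
      _ = _ := by ring
  refine k1.trans ?_
  calc _ ≤ |C| * (|D| * (8 * P.W₀ : ℕ) * nb V z (ds z w) / (t / 2)) * (4 * nb V w (ds z w)) / (t / 2) := by
        have := le_abs_self C
        gcongr
    _ = _ := by field_simp; ring

theorem lam {a b l r Λ : ℕ} (h1 : a ≤ b + l) (h2 : min l r ≤ Λ * b) : min a r ≤ (Λ + 1) * min b r := by
  rcases le_total b r with h | h
  · rw [min_eq_left h, add_mul]; omega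
  · rw [min_eq_right h, add_mul]; omega

theorem u_le (V : Vp) (z : Pt) {l ρ K : ℕ} (h1 : 1 + min (V.d z) l ≤ K * ρ) (h2 : min l V.r ≤ K * ρ)
    (h3 : K + 2 ≤ ρ) (h4 : 1 ≤ min l V.r) : 1 / ((ρ : ℝ) ^ 2 * Real.log ρ) ≤
      2 * (K : ℝ) ^ 2 * nb V z l / Real.log (2 + (min l V.r : ℕ)) := by
  have k1 := nb_ge V z h1 fun _ => h2
  have k2 := log_le h2 h3
  have k3 := lg_ge h4
  have hK : (0 : ℝ) < K := by
    exact_mod_cast Nat.pos_of_ne_zero fun e => by rw [e] at h1; omega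
  have hρ : (0 : ℝ) < ρ := by exact_mod_cast (by omega : 0 < ρ)
  generalize Real.log (2 + (min l V.r : ℕ)) = t at *
  calc _ ≤ 1 / ((ρ : ℝ) ^ 2 * (t / 2)) := by gcongr; linarith
    _ = 2 * (K : ℝ) ^ 2 * (1 / ((K * ρ : ℕ) : ℝ) ^ 2) / t := by push_cast; field_simp
    _ ≤ _ := by gcongr

/-- both points far from the cores -/
theorem both (hT : TrStmt) (hC : CovStmt) (hJ : JnStmt) (hY : YStmt) (h : P.Ok) :
    ∃ (C : ℝ) (L₀ : ℕ), 0 ≤ C ∧ ∀ (V : Vp) (m : Mdl Pt) (z w : Pt), L₀ ≤ min (ds z w) V.r →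
      min (ds z w) V.r ≤ 16 * P.W₀ * V.d z → min (ds z w) V.r ≤ 16 * P.W₀ * V.d w →
      Amb P.L m (bl V.p (4 * V.r)) → Amb P.L m (bl z (V.d z)) → Amb P.L m (bl w (V.d w)) →
      |Cv (m.Ws 0 V.σ) (Jv V.σ z) (Jv V.σ w)| ≤ C * Bd V z w := by
  obtain ⟨C, hC0, hC⟩ := free hT hC hJ hY h (16 * P.W₀ + 1)
  have hW := h.W2
  have hr := h.r2
  obtain ⟨K, hK⟩ : ∃ K, K = 16 * P.W₀ * (2 * (4 * P.W₀)) := ⟨_, rfl⟩
  refine ⟨(C + C ^ 2) * (2 * (K : ℝ) ^ 2) ^ 2, 16 * P.W₀ * (4 * P.W₀ * (P.r₀ + K + 2)), by positivity,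
    fun V m z w h1 h2 h3 hm hz hw => ?_⟩
  have h0 : 1 ≤ min (ds z w) V.r := le_trans (Nat.succ_le_of_lt (by positivity)) h1
  have sc : ∀ x : Pt, min (ds z w) V.r ≤ 16 * P.W₀ * V.d x → ∃ ρ, P.r₀ ≤ ρ ∧
      4 * (P.W₀ * ρ) ≤ min (V.d x) (ds z w) ∧ 1 / ((ρ : ℝ) ^ 2 * Real.log ρ) ≤
        2 * (K : ℝ) ^ 2 * nb V x (ds z w) / Real.log (2 + (min (ds z w) V.r : ℕ)) := by
    intro x hx
    obtain ⟨a, ha⟩ : ∃ a, a = min (V.d x) (ds z w) := ⟨_, rfl⟩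
    have a0 : min (ds z w) V.r ≤ 16 * P.W₀ * a := by
      rw [ha]
      rcases le_total (V.d x) (ds z w) with e | e
      · rwa [min_eq_left e]
      · rw [min_eq_right e]
        exact (min_le_left _ _).trans (Nat.le_mul_of_pos_left _ (by omega))
    have a1 : 4 * P.W₀ * (P.r₀ + K + 2) ≤ a := Nat.le_of_mul_le_mul_left (h1.trans a0) (by omega)
    have a2 : P.r₀ + K + 2 ≤ a / (4 * P.W₀) := (Nat.le_div_iff_mul_le (by omega)).2 (by rwa [mul_comm])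
    have a3 : 1 + a ≤ 2 * (4 * P.W₀) * (a / (4 * P.W₀)) :=
      div_lt _ _ (by omega) (le_trans (Nat.le_mul_of_pos_right _ (by omega)) a1)
    have a4 : 16 * P.W₀ * (1 + a) ≤ K * (a / (4 * P.W₀)) := by
      rw [hK, mul_assoc (16 * P.W₀)]; exact Nat.mul_le_mul_left _ a3
    have a5 : 1 + a ≤ 16 * P.W₀ * (1 + a) := Nat.le_mul_of_pos_left _ (by omega)
    rw [mul_add] at a4 a5
    refine ⟨a / (4 * P.W₀), by omega, ?_, u_le V x (by omega) (by omega) (by omega) h0⟩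
    rw [← ha, ← mul_assoc]; exact Nat.mul_div_le _ _
  obtain ⟨ρ, b1, b2, b3⟩ := sc z h2
  obtain ⟨ρ', c1, c2, c3⟩ := sc w h3
  have hV : 4 * (P.W₀ * P.r₀) ≤ V.r := by
    refine le_trans ?_ (h1.trans (min_le_right _ _))
    rw [← mul_assoc]
    exact (Nat.mul_le_mul_left _ (by omega)).trans (Nat.le_mul_of_pos_left _ (by omega))
  have az : Amb P.L m (bl z (P.W₀ * ρ)) := FlF4.amb_mono hz (bl_mono _ (by omega))
  have aw : Amb P.L m (bl w (P.W₀ * ρ')) := FlF4.amb_mono hw (bl_mono _ (by omega))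
  have k1 := hC V m hV hm z ρ b1 (by omega) az
  have k2 := (hC V m hV hm w ρ' c1 (by omega) aw).1
  have dc : ∀ (x c : Pt), c = V.p ∨ c = V.q → 16 * P.W₀ * V.d x ≤ 16 * P.W₀ * ds x c := by
    rintro x c (rfl | rfl)
    exacts [Nat.mul_le_mul_left _ (min_le_left _ _), Nat.mul_le_mul_left _ (min_le_right _ _)]
  have k3 := k1.2 w ρ' c1 (by omega) aw (by omega) fun c hc =>
    ⟨lam (l := ds z w) (by have := ds_tri z w c; omega) (h3.trans (dc w c hc)),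
      lam (l := ds z w) (by have := ds_tri w z c; rw [ds_comm w z] at this; omega) (h2.trans (dc z c hc))⟩
  have k4 := k1.1
  have k5 := lg_ge h0
  have p1 := nb_pos V z (ds z w)
  have p2 := nb_pos V w (ds z w)
  rw [Cv, Bd]
  generalize Real.log (2 + (min (ds z w) V.r : ℕ)) = t at *
  have q1 : 0 ≤ 1 / ((ρ' : ℝ) ^ 2 * Real.log ρ') := by
    have := Real.log_natCast_nonneg ρ'; positivity
  generalize 1 / ((ρ : ℝ) ^ 2 * Real.log ρ) = u at *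
  generalize 1 / ((ρ' : ℝ) ^ 2 * Real.log ρ') = u' at *
  refine (abs_sub _ _).trans ?_
  rw [abs_mul]
  calc _ ≤ C * (2 * (K : ℝ) ^ 2 * nb V z (ds z w) / t) * (2 * (K : ℝ) ^ 2 * nb V w (ds z w) / t) +
        C * (2 * (K : ℝ) ^ 2 * nb V z (ds z w) / t) * (C * (2 * (K : ℝ) ^ 2 * nb V w (ds z w) / t)) := by
        refine add_le_add (k3.trans (by gcongr)) ?_
        exact mul_le_mul (k4.trans (by gcongr)) (k2.trans (by gcongr)) (abs_nonneg _) (by positivity)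
    _ = _ := by field_simp

/-- all pairs -/
theorem far (hT : TrStmt) (hC : CovStmt) (hM : MicStmt) (hJ : JnStmt) (hF : FjStmt) (hY : YStmt)
    (h : P.Ok) : ∃ (C : ℝ) (r₁ : ℕ), 0 ≤ C ∧ ∀ (V : Vp) (m : Mdl Pt) (R : ℕ) (z w : Pt), r₁ ≤ V.r →
      V.r ≤ R → Amb P.L m (bl V.p (8 * R)) → ds z V.p ≤ 2 * R → ds w V.p ≤ 2 * R → z ≠ w →
      |Cv (m.Ws 0 V.σ) (Jv V.σ z) (Jv V.σ w)| ≤ C * Bd V z w := by
  obtain ⟨C₁, r₁, p1, k1⟩ := micro hM hY h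
  obtain ⟨C₂, L₂, p2, k2⟩ := core hJ hF hY h
  obtain ⟨C₃, L₃, p3, k3⟩ := both hT hC hJ hY h
  obtain ⟨L, hL⟩ : ∃ L, L = L₂ + L₃ + 1 := ⟨_, rfl⟩
  have p4 : 0 ≤ C₁ * (L : ℝ) ^ 4 * Real.log (2 + (L : ℕ)) ^ 2 := by positivity
  refine ⟨C₁ * (L : ℝ) ^ 4 * Real.log (2 + (L : ℕ)) ^ 2 + C₂ + C₃, r₁ + P.W₀ * P.r₀ + L,
    by positivity, fun V m R z w h1 h2 hm hz hw hzw => ?_⟩
  have hl := ds_pos hzw
  have B0 := Bd_nonneg V z w
  have hW := h.W2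
  have hr := h.r2
  have e0 : 4 * P.r₀ ≤ P.W₀ * P.r₀ := Nat.mul_le_mul_right _ hW
  have up : ∀ {x C : ℝ}, x ≤ C * Bd V z w → C ≤ C₁ * (L : ℝ) ^ 4 * Real.log (2 + (L : ℕ)) ^ 2 + C₂ + C₃ →
      x ≤ (C₁ * (L : ℝ) ^ 4 * Real.log (2 + (L : ℕ)) ^ 2 + C₂ + C₃) * Bd V z w :=
    fun a b => a.trans (mul_le_mul_of_nonneg_right b B0)
  have pp : ds V.p V.p = 0 := by simp [ds]
  have m4 : Amb P.L m (bl V.p (4 * V.r)) := amb hm (by omega)
  have dp : ∀ x, V.d x ≤ ds x V.p := fun x => min_le_left _ _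
  by_cases c0 : min (ds z w) V.r < L
  · refine up (C := C₁ * (L : ℝ) ^ 4 * Real.log (2 + (L : ℕ)) ^ 2)
      ((k1 V m (by omega) m4 z w (amb hm (by omega)) (amb hm (by omega))).trans ?_) (by linarith)
    have n1 := nb_ge V z (l := ds z w) (X := L) (by omega) (by omega)
    have n2 := nb_ge V w (l := ds z w) (X := L) (by omega) (by omega)
    have n3 := lg_ge (l := min (ds z w) V.r) (by omega)
    have n4 : Real.log (2 + (min (ds z w) V.r : ℕ)) ≤ Real.log (2 + (L : ℕ)) :=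
      Real.log_le_log (by positivity) (by have : ((min (ds z w) V.r : ℕ) : ℝ) ≤ L := by exact_mod_cast c0.le
                                          linarith)
    have hL0 : (0 : ℝ) < L := by exact_mod_cast (by omega : 0 < L)
    have := nb_pos V z (ds z w)
    have := nb_pos V w (ds z w)
    rw [Bd]
    generalize Real.log (2 + (min (ds z w) V.r : ℕ)) = t at *
    generalize Real.log (2 + (L : ℕ)) = T at *
    have hT : 0 < T := by linarith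
    calc C₁ = C₁ * (L : ℝ) ^ 4 * T ^ 2 * (1 / (L : ℝ) ^ 2 * (1 / (L : ℝ) ^ 2) / T ^ 2) := by field_simp
      _ ≤ _ := by gcongr
  have qp : ds V.q V.p = V.r := by rw [ds_comm, ds_pq]
  have cr : ∀ x y : Pt, ds x y = ds z w → ds y V.p ≤ 2 * R → 16 * P.W₀ * V.d x ≤ min (ds z w) V.r →
      |Cv (m.Ws 0 V.σ) (Jv V.σ x) (Jv V.σ y)| ≤ C₂ * Bd V x y := by
    intro x y e hy hx
    rw [← e] at hx c0
    rcases le_total (ds x V.p) (ds x V.q) with c | c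
    · rw [Vp.d, min_eq_left c] at hx
      exact k2 V m x y (by omega) hx (amb hm (by omega)) (amb hm (by omega))
    · rw [Vp.d, min_eq_right c] at hx
      have t := ds_tri y V.p V.q
      rw [ds_pq] at t
      rw [← Bd_sw]
      exact k2 V.sw m x y (show _ ≤ min _ V.r by omega) hx
        (amb (x := V.q) (k := 5 * V.r) hm (by omega)) (amb (k := ds y V.q) hm (by omega))
  by_cases c1 : 16 * P.W₀ * V.d z ≤ min (ds z w) V.r
  · exact up (cr z w rfl hw c1) (by linarith)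
  by_cases c2 : 16 * P.W₀ * V.d w ≤ min (ds z w) V.r
  · rw [Cv_comm]
    exact up ((cr w z (ds_comm _ _) hz c2).trans_eq (by rw [Bd_comm])) (by linarith)
  exact up (k3 V m z w (by omega) (by omega) (by omega) m4 (amb hm (by have := dp z; omega))
    (amb hm (by have := dp w; omega))) (by linarith)

/-! ## close pairs -/

theorem Jv_gauge (hY : YStmt) {b : ℝ} {σ : Pt × Pt → ℤ} {z x : Pt} {c : ℕ} {g : Cfg Pt}
    (hg : ∀ e ∈ (xyL b).edI (bl z c), σ e = dE e g) (hx : ds x z + 1 ≤ c) (s : Cfg Pt) :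
    Jv σ x s = Jz x (s + g) := by
  rw [← ((hY 0 ∅ 0 fun _ _ => rfl).2.2.2.2 x).2]
  have e : ∀ e ∈ (xyL b).edI (bl z c), nE σ e s = nE 0 e (s + g) := fun e he => by
    simp only [nE, hg e he, dE, Finsupp.add_apply, Pi.zero_apply]; ring
  refine sum_congr rfl fun i _ => ?_
  simp only [ds] at hx
  rw [e, e] <;> rw [Lat.mem_edI, xyL_Jp, mem_bl, mem_bl] <;> fin_cases i <;> simp [ev] <;> omega

theorem ins_St (hT : TrStmt) (h : P.Ok) {z : Pt} {ρ : ℕ} {F : Cfg Pt → ℝ} (hF : Ins z (ρ + 1) F) :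
    Ins z (ρ + 1) (St P.L z ρ F) := by
  have e : P.L.tr 0 z ρ F = St P.L z ρ F := funext fun s => by
    rw [Lat.tr, St, show (P.L.D (bl z ρ)).Ws s 0 = (P.L.D (bl z ρ)).W s from
      funext fun t => by simp [Mdl.Ws, Mdl.W]]
  exact e ▸ (tr_pack hT h 0 hF).1

/-- the product `J_z J_w` far from the cores -/
theorem prod_near (hT : TrStmt) (hG : GgStmt) (hC : CovStmt) (hY : YStmt) (h : P.Ok) :
    ∃ C : ℝ, 0 ≤ C ∧ ∀ (V : Vp) (m : Mdl Pt) (z w : Pt) (a ρ : ℕ), 4 * (P.W₀ * P.r₀) ≤ V.r →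
      Amb P.L m (bl V.p (4 * V.r)) → Amb P.L m (bl z (P.W₀ * ρ)) → z ≠ w → P.r₀ ≤ a → 2 * ds z w ≤ a →
      a ≤ ρ → 4 * (P.W₀ * ρ) ≤ V.d z →
      |Ex (m.Ws 0 V.σ) (fun s => Jv V.σ z s * Jv V.σ w s) - Ex (m.W 0) fun s => Jz z s * Jz w s| ≤
        C * ((a : ℝ) / ρ) ^ Fl.cw P.W₀ / (ds z w : ℝ) ^ 4 := by
  obtain ⟨C₁, p1, k1⟩ := cell hC h 0
  obtain ⟨C₂, p2, k2⟩ := Fl.rateStmt P.W₀
  obtain ⟨C₃, p3, k3⟩ := cpair h
  have hW := h.W2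
  have hr := h.r2
  refine ⟨C₁ * C₂ * C₃, by positivity, fun V m z w a ρ h1 hm hz hzw h2 h3 h4 h5 => ?_⟩
  have hl := ds_pos hzw
  have e0 : 4 * ρ ≤ P.W₀ * ρ := Nat.mul_le_mul_right _ hW
  obtain ⟨g, g1, -, g2⟩ := hG P.b V z (P.W₀ * ρ) h.crit.1.2 (by omega)
  obtain ⟨μ, hμ⟩ : ∃ μ, μ = Ex (m.W 0) fun s => Jz z s * Jz w s := ⟨_, rfl⟩
  have iH : Ins z a fun s => Jz z s * Jz w s :=
    (Fl.ins_Jz z (by omega)).mul ((Fl.ins_Jz w le_rfl).of_subset (bl_sub (by rw [ds_comm]; omega)))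
  have iH' : Ins z (ρ + 1) fun s => Jz z s * Jz w s - μ := (iH.mono (by omega)).sub_const μ
  have iV : Ins z (ρ + 1) fun s => Jv V.σ z s * Jv V.σ w s - μ :=
    (((ins_Jv hY _ z).mono (by omega)).mul ((ins_Jv hY _ w).of_subset
      (bl_sub (by rw [ds_comm]; omega)))).sub_const μ
  have eV : (fun s => Jv V.σ z s * Jv V.σ w s - μ) =
      fun s => (fun s => Jz z s * Jz w s - μ) (s + g) := funext fun s => by
    rw [Jv_gauge hY g1 (x := z) (by simp only [ds]; omega),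
      Jv_gauge hY g1 (x := w) (by rw [ds_comm]; omega)]
  have hw := Md.ctr_wts hm.ctr hm.anch 0 V.σ
  have hs := Md.ctr_ses hm.ctr hm.anch 0 V.σ
  have r1 := k2 ⟨fam h, P.W₀, P.r₀, 1⟩ P.L (P.W₀ * ρ) rfl (gs h _) m z a ρ _ h2 h4 le_rfl hz iH
  have r2 := (k3 z w hzw).2 a h2 h3
  have r3 := (k1 V m h1 hm z ρ _ (by omega) h5 hz (tr_pack hT h V.σ iV).1).1
  have r4 : P.N V z ρ (P.L.tr V.σ z ρ fun s => Jv V.σ z s * Jv V.σ w s - μ) =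
      Fl.nu P.L P.W₀ z ρ fun s => Jz z s * Jz w s - μ := by
    rw [eV, Par.L, (g2 _ le_rfl _).2 ρ (by omega) iH']
    exact (g2 _ le_rfl _).1 ((ins_St hT h iH').abs.mono (by omega))
  rw [← hμ] at r1 ⊢
  rw [← hw.ex_sub_const (hs.ig ((ins_Jv hY V.σ z).2.mul (ins_Jv hY V.σ w).2)),
    tr_mean hT h V.σ iV (FlF4.amb_mono hz (bl_mono _ (by omega)))]
  refine r3.trans ?_
  rw [r4]
  calc _ ≤ C₁ * (C₂ * ((a : ℝ) / ρ) ^ Fl.cw P.W₀ * (C₃ / (ds z w : ℝ) ^ 4)) := by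
        refine mul_le_mul_of_nonneg_left (r1.trans ?_) p1
        gcongr
    _ = _ := by ring

theorem Bd_le (V : Vp) {z w : Pt} (hl : 1 ≤ ds z w) (hr : 1 ≤ V.r) (hd : 2 * ds z w ≤ V.d z) :
    Bd V z w ≤ 1 / (ds z w : ℝ) ^ 4 := by
  have h1 := nb_free V z hl (by omega)
  have h2 := nb_free V w hl (by have := d_lip V z w; omega)
  have h3 := lg_ge (l := min (ds z w) V.r) (by omega)
  have := nb_pos V z (ds z w)
  have := nb_pos V w (ds z w)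
  have hl' : (0 : ℝ) < ds z w := by exact_mod_cast hl
  rw [Bd]
  generalize Real.log (2 + (min (ds z w) V.r : ℕ)) = t at *
  calc _ ≤ 1 / (ds z w : ℝ) ^ 2 * (1 / (ds z w : ℝ) ^ 2) / 1 ^ 2 := by gcongr
    _ = _ := by field_simp

end J41

open J41

theorem jfarStmt (hT : TrStmt) (hC : CovStmt) (hM : MicStmt) (hJ : JnStmt) (hF : FjStmt) (hY : YStmt) :
    JfarStmt := by
  intro P h
  obtain ⟨C₁, r₁, p1, k1⟩ := far hT hC hM hJ hF hY h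
  obtain ⟨C₂, p2, k2⟩ := cpair h
  refine ⟨C₁ + C₂, r₁, fun V m R z w h1 h2 hm hz hw hzw => ⟨?_, ?_⟩⟩
  · refine (k1 V m R z w h1 h2 hm (by omega) (by omega) hzw).trans ?_
    rw [mul_assoc, mul_div_assoc]
    exact mul_le_mul_of_nonneg_right (by linarith) (Bd_nonneg V z w)
  · have t := ds_tri z V.p w
    rw [ds_comm V.p w] at t
    refine ((k2 z w hzw).1 m (amb hm (by omega)) (amb hm (by omega))).trans ?_
    gcongr
    linarith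

theorem jnearStmt (hT : TrStmt) (hG : GgStmt) (hC : CovStmt) (hM : MicStmt) (hJ : JnStmt) (hF : FjStmt)
    (hY : YStmt) : JnearStmt := by
  intro P h
  obtain ⟨C₁, r₁, p1, k1⟩ := far hT hC hM hJ hF hY h
  obtain ⟨C₂, p2, k2⟩ := cpair h
  obtain ⟨C₃, p3, k3⟩ := prod_near hT hG hC hY h
  obtain ⟨C₄, p4, k4⟩ := free hT hC hJ hY h 0
  have hW := h.W2
  have hr := h.r2
  obtain ⟨K, hK⟩ : ∃ K, K = 16 * P.W₀ * P.r₀ := ⟨_, rfl⟩
  have c0 := Fl.cw_pos (w := P.W₀) (by omega)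
  have c1 : Fl.cw P.W₀ ≤ 1 := (Fl.cw_le' hW).trans (by norm_num)
  refine ⟨(C₁ + C₂) * K + (C₃ * K + C₄ ^ 2 * (16 * P.W₀) ^ 4), Fl.cw P.W₀, r₁ + 4 * (P.W₀ * P.r₀), c0, c1,
    fun V m R z w h1 h2 hm hz hzw hd => ?_⟩
  have hl := ds_pos hzw
  have dp : V.d z ≤ ds z V.p := min_le_left _ _
  have t := ds_tri w z V.p
  rw [ds_comm w z] at t
  have e0 : 4 * P.r₀ ≤ P.W₀ * P.r₀ := Nat.mul_le_mul_right _ hW
  have pp : ds V.p V.p = 0 := by simp [ds]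
  have m4 : Amb P.L m (bl V.p (4 * V.r)) := amb hm (by omega)
  have hl' : (0 : ℝ) < ds z w := by exact_mod_cast hl
  have hD : (0 : ℝ) < V.d z := by exact_mod_cast (by omega : 0 < V.d z)
  have hK1 : (1 : ℝ) ≤ K := by
    exact_mod_cast hK ▸ Nat.succ_le_of_lt (by positivity : 0 < 16 * P.W₀ * P.r₀)
  obtain ⟨M, hM⟩ : ∃ M, M = max (ds z w) P.r₀ := ⟨_, rfl⟩
  have hM' : M ≤ P.r₀ * ds z w := by
    have := Nat.le_mul_of_pos_left (ds z w) (show 0 < P.r₀ by omega)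
    have := Nat.le_mul_of_pos_right P.r₀ hl
    omega
  obtain ⟨x, hx⟩ : ∃ x : ℝ, x = (ds z w : ℝ) / V.d z := ⟨_, rfl⟩
  have x0 : 0 < x := by rw [hx]; positivity
  have x1 : x ≤ 1 := by rw [hx, div_le_one hD]; exact_mod_cast (by omega : ds z w ≤ V.d z)
  have x2 : x ≤ x ^ Fl.cw P.W₀ := by
    simpa using Real.rpow_le_rpow_of_exponent_ge x0 x1 c1
  have x3 : 0 < x ^ Fl.cw P.W₀ := by positivity
  rw [← hx]
  by_cases c : V.d z < 16 * P.W₀ * M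
  · have a1 : V.d z ≤ K * ds z w := by
      rw [hK, mul_assoc]; exact c.le.trans (Nat.mul_le_mul_left _ hM')
    have a2 : 1 ≤ K * x := by
      rw [hx, ← mul_div_assoc, le_div_iff₀ hD, one_mul]; exact_mod_cast a1
    have a3 := (k1 V m R z w (by omega) h2 hm (by omega) (by omega) hzw).trans
      (mul_le_mul_of_nonneg_left (Bd_le V hl (by omega) hd) p1)
    have a4 := (k2 z w hzw).1 m (amb hm (by omega)) (amb hm (by omega))
    calc _ ≤ C₁ * (1 / (ds z w : ℝ) ^ 4) + C₂ / (ds z w : ℝ) ^ 4 :=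
          (abs_sub _ _).trans (add_le_add a3 a4)
      _ = (C₁ + C₂) / (ds z w : ℝ) ^ 4 * 1 := by ring
      _ ≤ (C₁ + C₂) / (ds z w : ℝ) ^ 4 * (K * x ^ Fl.cw P.W₀) := by
          gcongr
          exact a2.trans (by gcongr)
      _ = (C₁ + C₂) * K / (ds z w : ℝ) ^ 4 * x ^ Fl.cw P.W₀ := by ring
      _ ≤ _ := by gcongr; exact le_add_of_nonneg_right (by positivity)
  · rw [not_lt] at c
    have c' : 16 * P.W₀ ≤ V.d z := (Nat.le_mul_of_pos_right _ (by omega)).trans c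
    obtain ⟨ρ, hρ⟩ : ∃ ρ, ρ = V.d z / (4 * P.W₀) := ⟨_, rfl⟩
    have a1 : 4 * M ≤ ρ := hρ ▸ (Nat.le_div_iff_mul_le (by omega)).2 (le_of_eq_of_le (by ring) c)
    have a2 : 4 * (P.W₀ * ρ) ≤ V.d z := by rw [hρ, ← mul_assoc]; exact Nat.mul_div_le _ _
    have a3 : 1 + V.d z ≤ 2 * (4 * P.W₀) * ρ := hρ ▸ div_lt _ _ (by omega) (by omega)
    obtain ⟨ρ', hρ'⟩ : ∃ ρ', ρ' = V.d z / (8 * P.W₀) := ⟨_, rfl⟩
    have b1 : 2 * M ≤ ρ' := hρ' ▸ (Nat.le_div_iff_mul_le (by omega)).2 (le_of_eq_of_le (by ring) c)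
    have b2 : 8 * (P.W₀ * ρ') ≤ V.d z := by rw [hρ', ← mul_assoc]; exact Nat.mul_div_le _ _
    have b3 : 1 + V.d z ≤ 2 * (8 * P.W₀) * ρ' := hρ' ▸ div_lt _ _ (by omega) (by omega)
    have dl := d_lip V z w
    have q1 := k3 V m z w (2 * M) ρ (by omega) m4 (amb hm (by omega)) hzw (by omega) (by omega)
      (by omega) a2
    have q2 := (k4 V m (by omega) m4 z ρ' (by omega) (by omega) (amb hm (by omega))).1
    have q3 := (k4 V m (by omega) m4 w ρ' (by omega) (by omega) (amb hm (by omega))).1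
    have q4 := div_log zero_le_one (ρ := ρ') (by omega)
    have hρ0 : (0 : ℝ) < ρ := by exact_mod_cast (by omega : 0 < ρ)
    have hρ1 : (0 : ℝ) < ρ' := by exact_mod_cast (by omega : 0 < ρ')
    have y1 : ((2 * M : ℕ) : ℝ) / ρ ≤ K * x := by
      rw [hx, ← mul_div_assoc, div_le_div_iff₀ hρ0 hD]
      have : 2 * M * V.d z ≤ K * ds z w * ρ :=
        calc _ ≤ 2 * (P.r₀ * ds z w) * (2 * (4 * P.W₀) * ρ) := Nat.mul_le_mul (by omega) (by omega)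
          _ = _ := by rw [hK]; ring
      exact_mod_cast this
    have y2 : (((2 * M : ℕ) : ℝ) / ρ) ^ Fl.cw P.W₀ ≤ K * x ^ Fl.cw P.W₀ := by
      refine (Real.rpow_le_rpow (by positivity) y1 c0.le).trans ?_
      rw [Real.mul_rpow (by positivity) x0.le]
      gcongr
      simpa using Real.rpow_le_rpow_of_exponent_le hK1 c1
    have y3 : 1 / (ρ' : ℝ) ^ 2 * (1 / (ρ' : ℝ) ^ 2) ≤
        (16 * P.W₀) ^ 4 * x ^ Fl.cw P.W₀ / (ds z w : ℝ) ^ 4 := by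
      have y4 : (V.d z : ℝ) ≤ 16 * P.W₀ * ρ' := by
        exact_mod_cast (by rw [show 16 * P.W₀ * ρ' = 2 * (8 * P.W₀) * ρ' by ring]; omega :
          V.d z ≤ 16 * P.W₀ * ρ')
      have y5 : x ^ 4 ≤ x ^ Fl.cw P.W₀ := (pow_le_of_le_one x0.le x1 (by omega)).trans x2
      have hW0 : (0 : ℝ) < P.W₀ := by exact_mod_cast (by omega : 0 < P.W₀)
      calc _ = (16 * (P.W₀ : ℝ)) ^ 4 / (16 * P.W₀ * ρ') ^ 4 := by field_simp
        _ ≤ (16 * (P.W₀ : ℝ)) ^ 4 / (V.d z : ℝ) ^ 4 := by gcongr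
        _ = (16 * (P.W₀ : ℝ)) ^ 4 * x ^ 4 / (ds z w : ℝ) ^ 4 := by rw [hx]; field_simp
        _ ≤ _ := by gcongr
    rw [Cv, sub_right_comm]
    refine (abs_sub _ _).trans ?_
    rw [abs_mul]
    calc _ ≤ C₃ * (K * x ^ Fl.cw P.W₀) / (ds z w : ℝ) ^ 4 +
          C₄ * (1 / (ρ' : ℝ) ^ 2) * (C₄ * (1 / (ρ' : ℝ) ^ 2)) := by
          refine add_le_add (q1.trans (by gcongr)) ?_
          exact mul_le_mul (q2.trans (by gcongr)) (q3.trans (by gcongr)) (abs_nonneg _) (by positivity)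
      _ = C₃ * (K * x ^ Fl.cw P.W₀) / (ds z w : ℝ) ^ 4 +
          C₄ ^ 2 * (1 / (ρ' : ℝ) ^ 2 * (1 / (ρ' : ℝ) ^ 2)) := by ring
      _ ≤ C₃ * (K * x ^ Fl.cw P.W₀) / (ds z w : ℝ) ^ 4 +
          C₄ ^ 2 * ((16 * P.W₀) ^ 4 * x ^ Fl.cw P.W₀ / (ds z w : ℝ) ^ 4) := by gcongr
      _ = (C₃ * K + C₄ ^ 2 * (16 * P.W₀) ^ 4) / (ds z w : ℝ) ^ 4 * x ^ Fl.cw P.W₀ := by ring
      _ ≤ _ := by
          have : 0 ≤ (C₁ + C₂) * K := by positivity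
          exact mul_le_mul_of_nonneg_right (div_le_div_of_nonneg_right (by linarith) (by positivity)) x3.le

end Crest.Agent.T145.Vx
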