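import Crest.Agent.T145.EsK_28
import Crest.Agent.T145.KsT_68
import Crest.Agent.T145.NcT4Def_78
import Crest.Agent.T145.VxDef_35

/-!
# Row 145, module Vx: `KsStmt`, `GdStmt`, `ParStmt` (helper28)
-/

set_option autoImplicit false

namespace Crest.Agent.T145.Vx

open Finset Filter
open Nc (an Amb Gd)

variable {b : ℝ} {c R : ℕ}

/-- near a core the seam is a unit vortex -/
theorem vtx_p (b : ℝ) (V : Vp) (h : 2 * c ≤ V.r) {U : Finset Pt} (hU : U ⊆ bl V.p c) :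
    Ks68.Vtx (xyL b) V.p U V.σ := by
  obtain ⟨a, r, sd⟩ := V
  have k : ∀ e ∈ (xyL b).edI U, e.1 ∈ U ∧ e.2 ∈ U ∧ _ := fun e he =>
    ⟨(Lat.mem_edI.1 he).2.1, (Lat.mem_edI.1 he).2.2, Es28.jp_nn rfl (Lat.mem_edI.1 he).1⟩
  cases sd
  · refine ⟨-1, cst (U.filter fun x => 0 ≤ x.2) 1, .inr rfl, fun e he => ?_⟩
    obtain ⟨h1, h2, h3⟩ := k e he
    have h4 := mem_bl.1 (hU h1)
    have h5 := mem_bl.1 (hU h2)
    simp only [Vp.p, Vp.σ, sm, Vd.ray, dE, cst_apply, mem_filter, h1, h2, true_and,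
      Bool.false_eq_true, if_false] at h h4 h5 ⊢
    split_ifs <;> omega
  · refine ⟨1, 0, .inl rfl, fun e he => ?_⟩
    obtain ⟨h1, h2, h3⟩ := k e he
    have h4 := mem_bl.1 (hU h1)
    have h5 := mem_bl.1 (hU h2)
    simp only [Vp.p, Vp.σ, sm, Vd.ray, dE, if_true, Finsupp.zero_apply] at h h4 h5 ⊢
    split_ifs <;> omega

theorem uu_eq (hΛ : (xyL b).Ok) (V : Vp) (h : 2 * c ≤ V.r) : uu b V c = Ks68.uu (xyL b) c :=
  Ks68.zN_bl hΛ (vtx_p b V h subset_rfl)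

theorem tt_eq (hΛ : (xyL b).Ok) (V : Vp) (h : 2 * R ≤ V.r) : tt b V c R = Ks68.TT (xyL b) c R :=
  Ks68.zN_an hΛ (vtx_p b V h sdiff_subset)

theorem sig_eq (V : Vp) (e : Pt × Pt) : V.σ e = Es28.sm (V.a, 0) V.r e := by
  simp only [Vp.σ, sm, Vd.ray, Es28.sm]
  split_ifs <;> omega

theorem crit_tI {Λ : Lat} (h : Λ.Crit) : 0 < Λ.tI := h.1.gI_pos_iff.1 (by rw [h.2.1]; positivity)

/-- (H) at a stiff point -/
theorem hTT (hH : Es28.HKStmt) (hm : T1mStmt) {Λ : Lat} (h : Λ.Ok) (hJ : Λ.J = nn) (h0 : 0 < Λ.tI) :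
    ∃ ρ₀ n : ℕ, ∀ c R : ℕ, ρ₀ ≤ c → c < R → ((c : ℝ) / R) ^ n ≤ 4 ^ n * Ks68.TT Λ c R := by
  obtain ⟨C, δ, hδ, H⟩ := hH (Λ.fa h) (Λ.tI / 2) (half_pos h0)
  obtain ⟨l, hl⟩ := ((hm.1 Λ h).2.2.2.2.2 h0 δ hδ).exists
  obtain ⟨k, -, H⟩ := H Λ (Lat.mem_fa h) hJ l
  refine ⟨⌈l / δ⌉₊, C, fun c R hc hR => ?_⟩
  obtain ⟨j, hw, hj⟩ := (hl.and (eventually_ge_atTop R)).exists
  have k1 := (H _ hw 0 R (by have := j.lt_two_pow_self; omega)).1 c
    (by rw [← div_le_iff₀' hδ]; exact (Nat.le_ceil _).trans (by exact_mod_cast hc)) hR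
  have r1 : (1 : ℝ) ≤ R := by exact_mod_cast (by omega : 1 ≤ R)
  refine le_trans ?_ (mul_le_mul_of_nonneg_left k1 (by positivity))
  rw [← mul_pow]
  refine pow_le_pow_left₀ (by positivity) ?_ _
  rw [← mul_div_assoc, div_le_div_iff₀ (by positivity) (by positivity)]
  nlinarith [(by positivity : (0 : ℝ) ≤ c)]

theorem ksStmt_of (hQ : Ks68.QmStmt) (hH : Es28.HKStmt) (hm : T1mStmt) : KsStmt := fun b hb => by
  have h := hb.1
  obtain ⟨K, ρ₀, hK, q1, q2⟩ := hQ _ h rfl hb.2.1.ge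
  obtain ⟨ρ₁, n, H⟩ := hTT hH hm h rfl (crit_tI hb)
  refine ⟨max K (4 ^ n), ρ₀ + ρ₁, n, le_max_of_le_left hK,
    fun c => ⟨_, Ks68.uu_pos h c, fun V hV => (uu_eq h V hV).ge⟩, fun V => ⟨fun c R h1 h2 h3 => ?_,
    fun m h1 h2 => ?_⟩⟩
  · rw [uu_eq h V h3, tt_eq h V h3, uu_eq h V (by omega : 2 * c ≤ V.r)]
    exact ⟨(q1 c R (by omega) h2.le).trans
      (mul_le_mul_of_nonneg_right (le_max_left _ _) (Ks68.uu_pos h R).le),
      (H c R (by omega) h2).trans (mul_le_mul_of_nonneg_right (le_max_right _ _) (Ks68.TT_pos h c R).le)⟩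
  · rw [uu_eq h V (by omega), uu_eq h V.sw (by change _ ≤ V.r; omega), ← pow_two]
    refine (q2 V.r (V.a, 0) m V.σ (by omega) ⟨h2.ctr, h2.anch, ?_, h2.near.mono ?_⟩
      fun e _ => sig_eq V e).trans (mul_le_mul_of_nonneg_right (le_max_left _ _)
        (Ks68.zr_pos h2.ctr h2.anch _).le)
    all_goals
      first
      | refine Subset.trans (fun x hx => ?_) h2.sub
      | intro x hx
      simp only [mem_bl, Vp.p] at hx ⊢
      split_ifs <;> push_cast at hx ⊢ <;> omega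

theorem ksStmt (hQ : Ks68.QmStmt) (hG : GffDStmt) (hm : T1mStmt) : KsStmt :=
  ksStmt_of hQ (Es28.hKStmt hG hm) hm

theorem gdStmt (hG : Nc.GdStmt) : GdStmt := fun b hb g hg => by
  have h := hb.1
  obtain ⟨W₁, r₀, _, -, H⟩ := hG ((xyL b).fa h) _ g (crit_tI hb) hg
  have H := (H _ (Lat.mem_fa h)).2 le_rfl
  refine ⟨W₁, fun W hW => ⟨r₀, fun L => ⟨(H 0).1.trans hW, (H 0).2.1, fun r h1 h2 => ?_⟩⟩⟩
  have a := H L
  have : 2 * r ≤ W₁ * r := Nat.mul_le_mul_right _ a.1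
  exact (((Nc.U.lgeo _ h).1 r (W₁ * r) r (W * r) le_rfl (Nat.mul_le_mul_right _ hW)
    (by have := a.2.1; omega)).2).trans (a.2.2 r h1 h2)

theorem up_K {x y K K' : ℝ} (h : x ≤ K * y) (h0 : 0 ≤ x) (h1 : 1 ≤ K) (h2 : K ≤ K') : x ≤ K' * y :=
  h.trans (mul_le_mul_of_nonneg_right h2 (nonneg_of_mul_nonneg_right (h0.trans h) (by linarith)))

theorem parStmt (hG : GdStmt) (hC : CritXy) (hK : KsStmt) : ParStmt := fun b hb => by
  obtain ⟨W₁, hG⟩ := hG b hb (1 / 400) (by norm_num)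
  obtain ⟨W₂, C, δ, hδ, hC⟩ := hC b hb
  obtain ⟨K, ρ₀, n, K1, k0, hK⟩ := hK b hb
  obtain ⟨r₁, hG⟩ := hG (W₁ + W₂ + 4) (by omega)
  obtain ⟨r₂, hC⟩ := eventually_atTop.1 hC
  have l1 : ∀ r : ℕ, 16 ≤ r → 1 ≤ Real.log r := fun r hr => by
    rw [Real.le_log_iff_exp_le (by positivity)]
    have : (16 : ℝ) ≤ r := by exact_mod_cast hr
    linarith [Real.exp_one_lt_d9]
  have e : ∀ (r : ℕ) (x : ℝ), 16 ≤ r → x ≤ δ →
      C * Real.log r ^ (-1 - δ) ≤ max C K * Real.log r ^ (-1 - x) := fun r x hr hx =>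
    (mul_le_mul_of_nonneg_right (le_max_left C K) (by have := l1 r hr; positivity)).trans
      (mul_le_mul_of_nonneg_left (Real.rpow_le_rpow_of_exponent_le (l1 r hr) (by linarith))
        (le_max_of_le_right (by linarith)))
  have d1 : min (δ / 2) (1 / 4) ≤ δ / 2 := min_le_left _ _
  have w : ∀ {r c : ℕ}, (W₁ + W₂ + 4) * r ≤ c → W₂ * r ≤ c := fun h =>
    (Nat.mul_le_mul_right _ (by omega)).trans h
  refine ⟨⟨b, W₁ + W₂ + 4, r₁ + r₂ + ρ₀ + 16, n, max C K, min (δ / 2) (1 / 4)⟩, rfl, hb,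
    by simp, by simp, le_max_of_le_right K1, lt_min (half_pos hδ) (by norm_num), min_le_right _ _,
    fun L => ⟨(hG L).1, (hG L).2.1.trans (by simp only; omega), fun r h1 h2 =>
      (hG L).2.2 r (by simp only at h1; omega) h2⟩, fun r hr z c hc => ?_, fun r hr => ?_,
    fun r hr => ?_, k0, fun V c R h1 h2 h3 => ?_, fun V m h1 h2 => ?_⟩ <;>
    simp only at *
  · exact ((hC r (by omega)).1 z c (w hc)).trans (div_le_div_of_nonneg_right (le_max_left _ _)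
      (by have := l1 r (by omega); positivity))
  · obtain ⟨R, H⟩ := (hC r (by omega)).2.1
    exact ⟨R, fun m z hm => (H m z hm).trans (e r _ (by omega) (by linarith))⟩
  · obtain ⟨a, ξ, R, a1, a2, H⟩ := (hC r (by omega)).2.2
    refine ⟨a, ξ, R, a1, a2, fun z => ⟨fun c hc => ((H z).1 c (w hc)).trans ?_, fun m hm =>
      ((H z).2 m hm).trans ?_⟩⟩ <;>
    exact div_le_div_of_nonneg_right (e r _ (by omega) (by linarith)) (by positivity)
  · obtain ⟨a1, a2⟩ := (hK V).1 c R (by omega) h2 h3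
    obtain ⟨k, kp, hk⟩ := k0 R
    exact ⟨a1.trans (mul_le_mul_of_nonneg_right (le_max_right _ _) (kp.le.trans (hk V h3))),
      up_K a2 (by positivity) K1 (le_max_right _ _)⟩
  · obtain ⟨k, kp, hk⟩ := k0 (V.r / 4)
    exact up_K ((hK V).2 m (by omega) h2) (mul_nonneg (kp.le.trans (hk V (by omega)))
      (kp.le.trans (hk V.sw (by change _ ≤ V.r; omega)))) K1 (le_max_right _ _)

end Crest.Agent.T145.Vx
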