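import Crest.Agent.T145.VxLb_27
import Crest.Agent.T145.VxBas_30

/-!
# Row 145, twisted module: Lemma B (helper27)
-/

set_option autoImplicit false

namespace Crest.Agent.T145.Vx.Lb27

open Finset Filter Vb27 Pot Nc

theorem ev_log (n : ℕ) : ∀ᶠ r : ℕ in atTop,
    2 ≤ Real.log r ∧ 4 * ⌈Real.log r⌉₊ ^ n ≤ r := by
  have h1 := (Real.isLittleO_pow_log_id_atTop (n := n)).bound (c := 1 / (4 * 2 ^ n)) (by positivity)
  have h2 := Real.tendsto_log_atTop.eventually_ge_atTop 2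
  filter_upwards [tendsto_natCast_atTop_atTop.eventually (h1.and h2)] with r hr
  obtain ⟨a, b⟩ := hr
  refine ⟨b, ?_⟩
  have c : (⌈Real.log r⌉₊ : ℝ) ≤ 2 * Real.log r := by
    linarith [Nat.ceil_lt_add_one (by linarith : 0 ≤ Real.log r)]
  have d := pow_le_pow_left₀ (by positivity) c n
  rw [Real.norm_of_nonneg (by positivity), id, Real.norm_of_nonneg (by positivity), one_div_mul_eq_div,
    le_div_iff₀ (by positivity)] at a
  rw [mul_pow] at d
  exact_mod_cast (by linarith : (4 : ℝ) * (⌈Real.log r⌉₊ : ℝ) ^ n ≤ r)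

theorem cv_YY (hY : YStmt) {W : Cfg Pt → ℝ} (hW : SE W) (σ : Pt × Pt → ℤ) {D : Finset Pt} {u : Pt → ℝ}
    (hu : Sup D u) {G : Cfg Pt → ℝ} (hG : Tame G) :
    Cv W (Yv σ u) G = ∑ z ∈ D, u z * Cv W (Jv σ z) G := by
  obtain ⟨h1, -, -, -, h5⟩ := hY σ D u hu
  have t : ∀ z, Tame fun s => u z * Jv σ z s := fun z => (h5 z).1.2.const_mul _
  rw [show Yv σ u = fun s => ∑ z ∈ D, u z * Jv σ z s from funext h1,
    Cv_sum_left D (fun z _ => hW.ig (t z)) fun z _ => hW.ig ((t z).mul hG)]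
  exact sum_congr rfl fun z _ => Cv_const_mul_left _ _ _ _

theorem cv_JY (hY : YStmt) {W : Cfg Pt → ℝ} (hW : SE W) (σ : Pt × Pt → ℤ) {D : Finset Pt} {u : Pt → ℝ}
    (hu : Sup D u) (z : Pt) : Cv W (Jv σ z) (Yv σ u) = ∑ w ∈ D, u w * Cv W (Jv σ z) (Jv σ w) := by
  rw [Cv_comm, cv_YY hY hW σ hu ((hY σ D u hu).2.2.2.2 z).1.2]
  exact sum_congr rfl fun w _ => by rw [Cv_comm]

set_option maxHeartbeats 1000000 in
/-- the error bracket -/
theorem arith {r ρ t τ l l₁ M K T T' K₂ η δ : ℝ} (ht : 2 ≤ t) (hτ : t ≤ τ) (hr : 0 < r) (hρ : r ≤ ρ * t ^ 3)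
    (hK : 0 ≤ K) (hδ : 0 < δ) (hδ' : δ ≤ 1 / 4) (T0 : 0 ≤ T) (hT : T ≤ K₂ * t ^ (δ / 2)) (T0' : 0 ≤ T')
    (hT' : T' ≤ 3 * τ) (hη : η ≤ 4 * K * t ^ (-1 - 2 * δ) + T / t ^ 2) (l0 : 0 ≤ l) (hl : l * τ ^ 48 ≤ r)
    (l1 : 0 ≤ l₁) (hl₁ : l₁ * τ ^ 8 ≤ r) (M0 : 0 ≤ M) (hM : M ≤ 11 * r * τ ^ 8) :
    1 / ρ ^ 2 * (K / τ ^ 40) * (16 * T') +
      ((10 ^ 6 * (4 * K / t ^ 2) * T ^ 2 * (r / ρ) ^ (1 / 10 : ℝ) + 1024 * η * T) / r ^ 2 +
        (1024 * (K / τ ^ 40) * T' * M ^ 2 + (80000 * K * T' ^ 2 + 18432 * K * T') * l₁ ^ 2) / ρ ^ 4 +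
          4096 * K * T' * l * M ^ 2 / ρ ^ 5) ≤
      (10 ^ 7 * K * (1 + K₂ ^ 2) + 1024 * K₂ ^ 2) * t ^ (-1 - δ) / r ^ 2 := by
  have t0 : 0 < t := by linarith
  have τ1 : 1 ≤ τ := by linarith
  have ρ0 : 0 < ρ := by
    by_contra h
    nlinarith [mul_nonneg (neg_nonneg.2 (not_lt.1 h)) (by positivity : 0 ≤ t ^ 3)]
  set x := r / ρ with hx
  have x0 : 0 ≤ x := by positivity
  have x1 : x ≤ t ^ 3 := by rw [hx, div_le_iff₀ ρ0]; linarith
  have x2 : x ≤ τ ^ 3 := x1.trans (pow_le_pow_left₀ t0.le hτ 3)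
  set e := t ^ (-1 - δ) with he
  have e0 : 0 < e := by positivity
  have rp : ∀ a b : ℝ, a ≤ b → t ^ a ≤ t ^ b := fun a b h =>
    Real.rpow_le_rpow_of_exponent_le (by linarith) h
  have t2 : t ^ (-2 : ℝ) = 1 / t ^ 2 := by rw [Real.rpow_neg t0.le, one_div]; norm_num
  have e1 : 1 / τ ^ 2 ≤ e := le_trans (by gcongr) (t2.symm.trans_le (rp (-2) (-1 - δ) (by linarith)))
  have TT : T ^ 2 ≤ K₂ ^ 2 * t ^ δ := by
    refine (pow_le_pow_left₀ T0 hT 2).trans (le_of_eq ?_)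
    rw [mul_pow, ← Real.rpow_natCast (t ^ _), ← Real.rpow_mul t0.le]; norm_num
  have K0 : 0 ≤ K₂ := nonneg_of_mul_nonneg_left (T0.trans hT) (by positivity)
  have a1 : 1 / t ^ 2 * T ^ 2 * x ^ (1 / 10 : ℝ) ≤ K₂ ^ 2 * e := by
    have b : x ^ (1 / 10 : ℝ) ≤ t ^ (3 / 10 : ℝ) := by
      refine (Real.rpow_le_rpow x0 x1 (by norm_num)).trans (le_of_eq ?_)
      rw [← Real.rpow_natCast, ← Real.rpow_mul t0.le]; norm_num
    refine (mul_le_mul (mul_le_mul_of_nonneg_left TT (by positivity)) b (by positivity)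
      (by positivity)).trans ?_
    rw [← t2, mul_left_comm, mul_assoc, ← Real.rpow_add t0, ← Real.rpow_add t0]
    exact mul_le_mul_of_nonneg_left (rp _ _ (by linarith)) (by positivity)
  have a2 : t ^ (-1 - 2 * δ) * T ≤ K₂ * e := by
    refine (mul_le_mul_of_nonneg_left hT (by positivity)).trans ?_
    rw [mul_left_comm, ← Real.rpow_add t0]
    exact mul_le_mul_of_nonneg_left (rp _ _ (by linarith)) K0
  have a3 : 1 / t ^ 2 * T ^ 2 ≤ K₂ ^ 2 * e := by
    refine (mul_le_mul_of_nonneg_left TT (by positivity)).trans ?_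
    rw [← t2, mul_left_comm, ← Real.rpow_add t0]
    exact mul_le_mul_of_nonneg_left (rp _ _ (by linarith)) (by positivity)
  have a4 : η * T ≤ 4 * K * (K₂ * e) + K₂ ^ 2 * e := by
    refine (mul_le_mul_of_nonneg_right hη T0).trans (le_trans (le_of_eq (by ring))
      (add_le_add (mul_le_mul_of_nonneg_left a2 (by positivity)) a3))
  have τ0 : 0 < τ := by linarith
  have pw : ∀ a b : ℕ, a + 2 ≤ b → τ ^ a / τ ^ b ≤ e := fun a b h => by
    refine le_trans ?_ e1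
    rw [div_le_div_iff₀ (by positivity) (by positivity), ← pow_add, one_mul]
    exact pow_le_pow_right₀ τ1 h
  have m1 : M / r ≤ 11 * τ ^ 8 := by rw [div_le_iff₀ hr]; linarith
  have m2 : l₁ / r ≤ 1 / τ ^ 8 := by rw [div_le_div_iff₀ hr (by positivity)]; linarith
  have m3 : l / r ≤ 1 / τ ^ 48 := by rw [div_le_div_iff₀ hr (by positivity)]; linarith
  have b1 : x ^ 2 * T' / τ ^ 40 ≤ 3 * e :=
    le_trans (by gcongr) ((le_of_eq (by ring : (τ ^ 3) ^ 2 * (3 * τ) / τ ^ 40 = 3 * (τ ^ 7 / τ ^ 40))).trans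
      (by linarith [pw 7 40 (by norm_num)]))
  have b2 : x ^ 4 * T' * (M / r) ^ 2 / τ ^ 40 ≤ 363 * e :=
    le_trans (by gcongr) ((le_of_eq (by ring : (τ ^ 3) ^ 4 * (3 * τ) * (11 * τ ^ 8) ^ 2 / τ ^ 40 =
      363 * (τ ^ 29 / τ ^ 40))).trans (by linarith [pw 29 40 (by norm_num)]))
  have b3 : x ^ 4 * T' ^ 2 * (l₁ / r) ^ 2 ≤ 9 * e :=
    le_trans (by gcongr) ((le_of_eq (by ring : (τ ^ 3) ^ 4 * (3 * τ) ^ 2 * (1 / τ ^ 8) ^ 2 =
      9 * (τ ^ 14 / τ ^ 16))).trans (by linarith [pw 14 16 (by norm_num)]))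
  have b4 : x ^ 4 * T' * (l₁ / r) ^ 2 ≤ 3 * e :=
    le_trans (by gcongr) ((le_of_eq (by ring : (τ ^ 3) ^ 4 * (3 * τ) * (1 / τ ^ 8) ^ 2 =
      3 * (τ ^ 13 / τ ^ 16))).trans (by linarith [pw 13 16 (by norm_num)]))
  have b5 : x ^ 5 * T' * (l / r) * (M / r) ^ 2 ≤ 363 * e :=
    le_trans (by gcongr) ((le_of_eq (by ring : (τ ^ 3) ^ 5 * (3 * τ) * (1 / τ ^ 48) * (11 * τ ^ 8) ^ 2 =
      363 * (τ ^ 32 / τ ^ 48))).trans (by linarith [pw 32 48 (by norm_num)]))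
  have fin : 1 / ρ ^ 2 * (K / τ ^ 40) * (16 * T') +
      ((10 ^ 6 * (4 * K / t ^ 2) * T ^ 2 * x ^ (1 / 10 : ℝ) + 1024 * η * T) / r ^ 2 +
        (1024 * (K / τ ^ 40) * T' * M ^ 2 + (80000 * K * T' ^ 2 + 18432 * K * T') * l₁ ^ 2) / ρ ^ 4 +
          4096 * K * T' * l * M ^ 2 / ρ ^ 5) = (K * (16 * (x ^ 2 * T' / τ ^ 40) +
      4 * 10 ^ 6 * (1 / t ^ 2 * T ^ 2 * x ^ (1 / 10 : ℝ)) + 1024 * (x ^ 4 * T' * (M / r) ^ 2 / τ ^ 40) +
        80000 * (x ^ 4 * T' ^ 2 * (l₁ / r) ^ 2) + 18432 * (x ^ 4 * T' * (l₁ / r) ^ 2) +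
          4096 * (x ^ 5 * T' * (l / r) * (M / r) ^ 2)) + 1024 * (η * T)) / r ^ 2 := by
    generalize x ^ (1 / 10 : ℝ) = y
    rw [hx]; field_simp; ring
  rw [fin]
  refine div_le_div_of_nonneg_right ?_ (by positivity)
  have c1 : 0 ≤ (K₂ - 1) ^ 2 * e := by positivity
  have c2 : 0 ≤ K₂ ^ 2 * e := by positivity
  have c3 := mul_le_mul_of_nonneg_left (show 16 * (x ^ 2 * T' / τ ^ 40) +
      4 * 10 ^ 6 * (1 / t ^ 2 * T ^ 2 * x ^ (1 / 10 : ℝ)) + 1024 * (x ^ 4 * T' * (M / r) ^ 2 / τ ^ 40) +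
        80000 * (x ^ 4 * T' ^ 2 * (l₁ / r) ^ 2) + 18432 * (x ^ 4 * T' * (l₁ / r) ^ 2) +
          4096 * (x ^ 5 * T' * (l / r) * (M / r) ^ 2) + 4096 * (K₂ * e) ≤ 10 ^ 7 * (1 + K₂ ^ 2) * e by
    nlinarith) hK
  linarith

theorem gc_sub {l r : ℕ} {t : ℝ} (ht : t = Real.log r) (h2 : 2 ≤ t) (h1 : t / 2 ≤ Real.log l)
    (h3 : Real.log l ≤ t) : |gc l - gc r| ≤ (t - Real.log l) / t ^ 2 := by
  have l0 : 0 < Real.log l := by linarith
  have t0 : 0 < t := by linarith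
  have p := Real.pi_gt_three
  have e : gc l - gc r = (t - Real.log l) / (Real.pi * Real.log l * t) := by
    rw [gc, gc, ← ht]; field_simp; ring
  rw [e, abs_of_nonneg (div_nonneg (by linarith) (by positivity))]
  refine div_le_div_of_nonneg_left (by linarith) (by positivity) ?_
  rw [pow_two]
  exact mul_le_mul_of_nonneg_right (by nlinarith) t0.le

set_option maxHeartbeats 2000000 in
theorem lbStmt (hY : YStmt) (hJf : JfarStmt) (hJn : JnearStmt) (hI : IsoStmt) (hF : FarStmt) :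
    LbStmt := by
  intro P hP
  obtain ⟨C₁, r₁, h1⟩ := hJf P hP
  obtain ⟨C₂, c₂, r₂, c20, -, h2⟩ := hJn P hP
  obtain ⟨C₃, h3⟩ := hI P hP
  obtain ⟨C₄, c₄, r₄, Λ₀, c40, -, Λ1, h4⟩ := hF P hP
  set K := |C₁| + |C₂| + |C₃| + |C₄| with hK
  have k1 : C₁ ≤ K := by linarith [le_abs_self C₁, abs_nonneg C₂, abs_nonneg C₃, abs_nonneg C₄]
  have k2 : C₂ ≤ K := by linarith [le_abs_self C₂, abs_nonneg C₁, abs_nonneg C₃, abs_nonneg C₄]
  have k3 : C₃ ≤ K := by linarith [le_abs_self C₃, abs_nonneg C₁, abs_nonneg C₂, abs_nonneg C₄]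
  have k4 : C₄ ≤ K := by linarith [le_abs_self C₄, abs_nonneg C₁, abs_nonneg C₂, abs_nonneg C₃]
  have K0 : 0 ≤ K := by positivity
  clear_value K
  obtain ⟨p, p1, p2, p4⟩ : ∃ p : ℕ, 40 ≤ p ∧ 40 ≤ p * c₂ ∧ 40 ≤ p * c₄ := by
    refine ⟨40 + ⌈40 / c₂⌉₊ + ⌈40 / c₄⌉₊, by omega, ?_, ?_⟩ <;> rw [← div_le_iff₀ (by assumption)] <;>
      push_cast
    · linarith [Nat.le_ceil (40 / c₂), Nat.cast_nonneg (α := ℝ) ⌈40 / c₄⌉₊]
    · linarith [Nat.le_ceil (40 / c₄), Nat.cast_nonneg (α := ℝ) ⌈40 / c₂⌉₊]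
  obtain ⟨r₅, h5⟩ := eventually_atTop.1 (ev_log (2 * (p + 8)))
  have δ0 := hP.δ0
  have δ1 := hP.δ1
  have Λr : (1 : ℝ) ≤ Λ₀ := by exact_mod_cast Λ1
  set K₂ := 1 + Real.log (36 * Λ₀) + (2 * (p + 8) : ℕ) * (4 / P.δ) with hK₂
  refine ⟨10 ^ 7 * K * (1 + K₂ ^ 2) + 1024 * K₂ ^ 2, r₁ + r₂ + r₄ + r₅ + P.r₀ ^ 2, fun V hV => ?_⟩
  obtain ⟨t2, hτ⟩ := h5 V.r (by omega)
  have ht : V.t = Real.log V.r := rfl
  rw [← ht] at t2 hτ
  set τ := ⌈V.t⌉₊ with hτ'
  have τ1 : V.t ≤ τ := Nat.le_ceil _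
  have τ2 : (τ : ℝ) ≤ 2 * V.t := by linarith [Nat.ceil_lt_add_one (by linarith : 0 ≤ V.t)]
  have τ3 : 2 ≤ τ := by exact_mod_cast t2.trans τ1
  have τ4 : (2 : ℝ) ≤ τ := by exact_mod_cast τ3
  clear_value τ
  have pw : ∀ a b : ℕ, a ≤ b → τ ^ a ≤ τ ^ b := fun a b h => Nat.pow_le_pow_right (by omega) h
  set X := τ ^ (p + 8) with hX
  have X1 : τ ^ (2 * (p + 8)) = X * X := by rw [hX]; ring
  have X2 : X = τ ^ p * τ ^ 8 := pow_add _ _ _
  have y1 : 1 ≤ τ ^ 8 := Nat.one_le_pow _ _ (by omega)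
  have y2 : 2 ≤ τ ^ p := τ3.trans (by simpa using pw 1 p (by omega))
  have X3 : 2 * τ ^ 8 ≤ X := by rw [X2]; exact Nat.mul_le_mul_right _ y2
  rw [X1] at hτ
  set l := V.r / X with hl
  have l1 : X * l ≤ V.r := Nat.mul_div_le _ _
  have l2 : V.r < X * (l + 1) := Nat.lt_mul_div_succ _ (by omega)
  have l3 : 4 * X ≤ l := (Nat.le_div_iff_mul_le (by omega)).2 (by rw [mul_assoc]; exact hτ)
  have l4 : V.r ≤ 2 * (X * l) := by nlinarith
  have l5 : V.r ≤ l * l := by nlinarith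
  have l6 : P.r₀ ≤ l := by
    by_contra h
    have : l * l < P.r₀ ^ 2 := by rw [pow_two]; exact Nat.mul_self_lt_mul_self (by omega)
    omega
  clear_value l
  set l₁ := τ ^ p * l with hl₁
  have l7 : l₁ * τ ^ 8 ≤ V.r := by rw [hl₁, mul_right_comm, ← X2]; exact l1
  have l8 : 2 * l ≤ l₁ := Nat.mul_le_mul_right _ y2
  have l9 : l₁ ≤ V.r := (Nat.le_mul_of_pos_right _ y1).trans l7
  set M := 4 * (V.r * τ ^ 8) with hM
  have M1 : V.r ≤ V.r * τ ^ 8 := Nat.le_mul_of_pos_right _ y1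
  set S' := Λ₀ * (τ ^ p * M) with hS'
  have S1 : 2 * M ≤ τ ^ p * M := Nat.mul_le_mul_right _ y2
  have S2 : τ ^ p * M ≤ S' := Nat.le_mul_of_pos_left _ Λ1
  have S3 : Λ₀ * M ≤ S' := Nat.mul_le_mul_left _ (by omega)
  obtain ⟨R₃, h3⟩ := h3 l l6
  refine ⟨8 * (2 * S') + R₃, fun m ρ S A A' u u' hm hρ hr hS su su' hu hu' => ?_⟩
  have r0 : (0 : ℝ) < V.r := by exact_mod_cast (by omega : 0 < V.r)
  have l0 : (0 : ℝ) < l := by exact_mod_cast (by omega : 0 < l)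
  have t3 : V.t ^ 3 ≤ X := by
    exact_mod_cast (pow_le_pow_left₀ (by linarith) τ1 3).trans (by exact_mod_cast pw 3 _ (by omega))
  have lρ : l ≤ ρ := by
    have a : (X : ℝ) * l ≤ V.r := by exact_mod_cast l1
    have b : (0 : ℝ) < X := by exact_mod_cast (by omega : 0 < X)
    have : (l : ℝ) ≤ ρ := le_of_mul_le_mul_left
      (a.trans (hρ.trans ((mul_le_mul_of_nonneg_left t3 (by positivity)).trans (mul_comm _ _).le))) b
    exact_mod_cast this
  have SM : S ≤ M := by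
    have : (S : ℝ) ≤ V.r * (τ : ℝ) ^ 8 := hS.trans (by gcongr)
    have : S ≤ V.r * τ ^ 8 := by exact_mod_cast this
    omega
  have ρ1 : 1 ≤ ρ := by omega
  have hW := B30.amb_se hm V.σ
  have hm8 := B30.amb_mono hm (bl_mono _ (by omega : 8 * (2 * S') ≤ _))
  have lg1 : V.t / 2 ≤ Real.log l := by
    have : V.t ≤ Real.log (l * l) := Real.log_le_log r0 (by exact_mod_cast l5)
    rw [Real.log_mul l0.ne' l0.ne'] at this; linarith
  have lg2 : Real.log l ≤ V.t := Real.log_le_log l0 (by exact_mod_cast (by omega : l ≤ V.r))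
  have nn : ∀ z w, 0 ≤ nb V z (ds z w) * nb V w (ds z w) := fun z w =>
    mul_nonneg (nb_nonneg _ _ _) (nb_nonneg _ _ _)
  have jf : ∀ z w, ds z V.p ≤ 2 * S' → ds w V.p ≤ 2 * S' → z ≠ w → ∀ y : ℝ, 0 < y →
      y ≤ Real.log (2 + (min (ds z w) V.r : ℕ)) → |Cv (m.Ws 0 V.σ) (Jv V.σ z) (Jv V.σ w)| ≤
        K / y ^ 2 * (nb V z (ds z w) * nb V w (ds z w)) := fun z w a b c y y0 y1 => by
    refine (h1 V m _ z w (by omega) (by omega) hm8 a b c).1.trans ?_
    rw [mul_assoc, div_mul_eq_mul_div]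
    exact div_le_div₀ (mul_nonneg K0 (nn z w)) (mul_le_mul_of_nonneg_right k1 (nn z w)) (by positivity)
      (pow_le_pow_left₀ y0.le y1 2)
  have dx : ∀ z x : Pt, ds z (z + x) = sn x := fun z x => by rw [ds_comm, ds_eq, add_sub_cancel_left]
  have dp : ∀ z ∈ bl V.p (M + l), ∀ x ∈ bl 0 l, ds z V.p ≤ 2 * S' ∧ ds (z + x) V.p ≤ 2 * S' ∧ sn x ≤ l :=
    fun z hz x hx => by
      have a := ds_tri (z + x) z V.p
      have b : ds z V.p ≤ M + l := mem_bl_sn.1 hz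
      have c := mem_bl_sn.1 hx
      rw [sub_zero] at c
      rw [ds_comm (z + x) z, dx] at a
      omega
  have sm : ∀ (x c : ℝ), 0 ≤ x → x ≤ 1 / (τ : ℝ) ^ p → 0 < c → 40 ≤ p * c → x ^ c ≤ 1 / (τ : ℝ) ^ 40 :=
    fun x c a b d e => by
      refine (Real.rpow_le_rpow a b d.le).trans ?_
      rw [Real.div_rpow zero_le_one (by positivity), Real.one_rpow, ← Real.rpow_natCast,
        ← Real.rpow_mul (by positivity), ← Real.rpow_natCast]
      exact one_div_le_one_div_of_le (by positivity)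
        (Real.rpow_le_rpow_of_exponent_le (by linarith) (by exact_mod_cast e))
  have S0 : (0 : ℝ) < S' := by exact_mod_cast (by omega : 0 < S')
  set T := 1 + Real.log (2 * (2 * S' + V.r : ℕ) / l) with hT
  set T' := 1 + Real.log (1 + (M + V.r : ℕ)) with hT'
  have T1 : V.t - Real.log l ≤ T - 1 := by
    rw [ht, ← Real.log_div r0.ne' l0.ne', hT, add_sub_cancel_left]
    refine Real.log_le_log (by positivity) (div_le_div_of_nonneg_right ?_ l0.le)
    exact_mod_cast (by omega : V.r ≤ 2 * (2 * S' + V.r))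
  have key := det2 (V := V) (ρ := ρ) (l := l) (l₁ := l₁) (M := M) (N := 2 * S') (A := A) (A' := A')
    (Y := 4 * K / V.t ^ 2) (T := T) (T' := T') (K := K) (K₁ := K) (ε := K / (τ : ℝ) ^ 40) (g := gc V.r)
    (η := 4 * K * V.t ^ (-1 - 2 * P.δ) + T / V.t ^ 2) (χ := cut V.p S' (2 * S'))
    (c := fun z w => Cv (m.Ws 0 V.σ) (Jv V.σ z) (Jv V.σ w))
    (k := fun z x => Ex (m.W 0) fun s => Jz z s * Jz (z + x) s) (fun _ _ => Cv_comm _ _ _)
    (by omega) lρ (by omega) hr (by omega) (by omega) (by positivity) K0 K0 (by positivity) hu hu'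
    (fun z hz => su z fun h => hz (bl_mono _ SM h)) (fun z hz => su' z fun h => hz (bl_mono _ SM h))
    (abs_cut_le _ _ _) (fun z hz => cut_one (by linarith) (by exact_mod_cast (by omega)) hz) le_rfl
    (add_le_add le_rfl (log_mono (by omega)))
    (fun z hz w hw h => (jf z w (mem_bl_sn.1 hz) (mem_bl_sn.1 hw) (by rintro rfl; simp [ds] at h)
      (V.t / 2) (by linarith) (lg1.trans (Real.log_le_log l0 (by
        exact_mod_cast (by omega : l ≤ 2 + min (ds z w) V.r))))).trans (le_of_eq (by field_simp; ring)))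
    (fun z w a b c => by
      have e1 := ds_tri w z V.p
      have e2 := ds_tri z V.q V.p
      have e3 : ds w z ≤ l := mem_bl_sn.1 b
      have e4 := B30.one_le_ds c.symm
      rw [B30.ds_qp] at e2
      have e5 : ds z V.p ≤ V.r + l₁ := by unfold Vp.d at a; omega
      simpa using jf z w (by omega) (by omega) c.symm 1 one_pos (by
        rw [Real.le_log_iff_exp_le (by positivity)]
        have : (1 : ℝ) ≤ (min (ds z w) V.r : ℕ) := by exact_mod_cast (by omega : 1 ≤ min (ds z w) V.r)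
        linarith [Real.exp_one_lt_d9]))
    (fun z hz x hx x0 => by
      obtain ⟨a, b, -⟩ := dp z hz x hx
      have := (h1 V m _ z (z + x) (by omega) (by omega) hm8 a b (by simpa using x0)).2
      rw [dx] at this
      exact this.trans (div_le_div_of_nonneg_right k1 (by positivity)))
    (fun z hz hd x hx x0 => by
      obtain ⟨a, -, b⟩ := dp z hz x hx
      have := h2 V m _ z (z + x) (by omega) (by omega) hm8 a (by simpa using x0) (by rw [dx]; omega)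
      rw [dx] at this
      have d0 : (0 : ℝ) < V.d z := by exact_mod_cast (by omega : 0 < V.d z)
      have e := sm ((sn x : ℝ) / V.d z) c₂ (by positivity) (by
        rw [div_le_div_iff₀ d0 (by positivity), one_mul, mul_comm]
        exact_mod_cast (Nat.mul_le_mul_left _ b).trans hd.le) c20 p2
      exact this.trans ((mul_le_mul (div_le_div_of_nonneg_right k2 (by positivity)) e (by positivity)
        (by positivity)).trans (le_of_eq (by ring))))
    (fun z hz i j => by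
      have a := h3 m z (B30.amb_mono hm (bl_sub (by have := mem_bl_sn.1 hz; omega))) i j
      have b : C₃ * Real.log l ^ (-1 - 2 * P.δ) ≤ 4 * K * V.t ^ (-1 - 2 * P.δ) := by
        have e : Real.log l ^ (-1 - 2 * P.δ) ≤ 4 * V.t ^ (-1 - 2 * P.δ) := by
          refine (Real.rpow_le_rpow_of_nonpos (by linarith) lg1 (by linarith)).trans ?_
          rw [Real.div_rpow (by linarith) (by norm_num), div_eq_mul_inv, ← Real.rpow_neg (by norm_num),
            mul_comm]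
          refine mul_le_mul_of_nonneg_right ?_ (Real.rpow_nonneg (by linarith) _)
          exact (Real.rpow_le_rpow_of_exponent_le (by norm_num) (by linarith : _ ≤ (2 : ℝ))).trans
            (by norm_num)
        exact (mul_le_mul k3 e (Real.rpow_nonneg (by linarith) _) K0).trans (le_of_eq (by ring))
      have c := (gc_sub ht t2 lg1 lg2).trans (div_le_div_of_nonneg_right (by linarith : _ ≤ T)
        (by positivity))
      have c0 := (abs_nonneg _).trans c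
      obtain ⟨a1, a2⟩ := abs_le.1 a
      obtain ⟨c1, c2⟩ := abs_le.1 c
      rw [abs_le]
      split_ifs at a1 a2 ⊢ <;> constructor <;> linarith)
  have MN : bl V.p S ⊆ bl V.p (2 * S') := bl_mono _ (by omega)
  have su2 : Sup (bl V.p (2 * S')) u := fun z hz => su z fun h => hz (MN h)
  have su2' : Sup (bl V.p (2 * S')) u' := fun z hz => su' z fun h => hz (MN h)
  have sχ : Sup (bl V.p (2 * S')) (cut V.p S' (2 * S')) :=
    sup_cut _ (by linarith) (by push_cast; linarith)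
  have e1 : Cv (m.Ws 0 V.σ) (Yv V.σ u) (Yv V.σ u') = ∑ z ∈ bl V.p (2 * S'), ∑ w ∈ bl V.p (2 * S'),
      u z * u' w * Cv (m.Ws 0 V.σ) (Jv V.σ z) (Jv V.σ w) := by
    rw [cv_YY hY hW _ su2 (hY _ _ _ su2').2.2.2.1]
    exact sum_congr rfl fun z _ => by rw [cv_JY hY hW _ su2', mul_sum]; simp only [mul_assoc]
  have a0 := mul_nonneg (A_nonneg ρ1 hu) (A_nonneg ρ1 hu')
  have T0' : 0 ≤ T' := add_nonneg zero_le_one (Real.log_nonneg (le_add_of_nonneg_right (by positivity)))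
  have e2 : |∑ z ∈ bl V.p (2 * S'), ∑ w ∈ bl V.p (2 * S'), u z * u' z * cut V.p S' (2 * S') w *
      Cv (m.Ws 0 V.σ) (Jv V.σ z) (Jv V.σ w)| ≤
      A * A' * (1 / (ρ : ℝ) ^ 2 * (K / (τ : ℝ) ^ 40) * (16 * T')) := by
    have s := sum_a (V := V) (D := bl V.p M) (ρ := 1) (n := M + V.r) (T := T') le_rfl
      (bl_mono _ (by omega)) (bl_sub (by rw [sn_comm, sn_qp])) (by simp [hT'])
    rw [← sum_subset (bl_mono V.p (by omega : M ≤ 2 * S')) fun z _ hz => by
      simp [su z fun h => hz (bl_mono _ SM h)], ← mul_assoc (A * A')]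
    refine (abs_sum_le_sum_abs _ _).trans (le_trans ?_ (mul_le_mul_of_nonneg_left s (by positivity)))
    rw [mul_sum]
    refine sum_le_sum fun z hz => ?_
    have hz' : ds z V.p ≤ M := mem_bl_sn.1 hz
    have f := (h4 V m M S' (by omega) (by omega) S3 (B30.amb_mono hm (bl_mono _ (by omega)))).1 z hz'
    have e := sm ((M : ℝ) / S') c₄ (by positivity) (by
      rw [div_le_div_iff₀ S0 (by positivity), one_mul, mul_comm]; exact_mod_cast S2) c40 p4
    have g := nb_le V z M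
    rw [min_eq_right ((B30.d_le_p V z).trans hz'), add_comm] at g
    have f2 := f.trans (mul_le_mul (mul_le_mul k4 e (by positivity) K0) g (nb_nonneg _ _ _) (by positivity))
    have b1 := (hu.b0 z).trans (mul_le_mul_of_nonneg_left (al_le ρ1 z) (A_nonneg ρ1 hu))
    have b2 := (hu'.b0 z).trans (mul_le_mul_of_nonneg_left (al_le ρ1 z) (A_nonneg ρ1 hu'))
    simp only [mul_assoc (u z * u' z), ← mul_sum]
    rw [← cv_JY hY hW _ sχ, abs_mul, abs_mul]
    refine (mul_le_mul (mul_le_mul b1 b2 (abs_nonneg _) ((abs_nonneg _).trans b1)) f2 (abs_nonneg _)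
      (mul_nonneg ((abs_nonneg _).trans b1) ((abs_nonneg _).trans b2))).trans (le_of_eq ?_)
    push_cast; ring
  have T2 : T ≤ K₂ * V.t ^ (P.δ / 2) := by
    have o : 1 ≤ V.t ^ (P.δ / 2) := Real.one_le_rpow (by linarith) (by positivity)
    have a : Real.log (2 * (2 * S' + V.r : ℕ) / l) ≤ Real.log (36 * Λ₀ * (τ : ℝ) ^ (2 * (p + 8))) := by
      refine Real.log_le_log (div_pos (by push_cast; positivity) l0) ?_
      rw [div_le_iff₀ l0]
      have b1 : S' = 4 * (Λ₀ * X * V.r) := by rw [hS', hM, X2]; ring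
      have b2 : 1 * V.r ≤ Λ₀ * X * V.r := Nat.mul_le_mul_right _ (Nat.mul_pos Λ1 (by omega))
      have b3 : Λ₀ * X * V.r ≤ Λ₀ * X * (2 * (X * l)) := Nat.mul_le_mul_left _ l4
      have b4 : 36 * Λ₀ * τ ^ (2 * (p + 8)) * l = 18 * (Λ₀ * X * (2 * (X * l))) := by rw [X1]; ring
      exact_mod_cast (by omega : 2 * (2 * S' + V.r) ≤ 36 * Λ₀ * τ ^ (2 * (p + 8)) * l)
    rw [Real.log_mul (by positivity) (by positivity), Real.log_pow] at a
    have b : Real.log τ ≤ 4 / P.δ * V.t ^ (P.δ / 2) := by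
      refine (Real.log_le_log (by linarith) τ2).trans ((Real.log_le_rpow_div (by linarith)
        (by positivity : 0 < P.δ / 2)).trans ?_)
      rw [Real.mul_rpow (by norm_num) (by linarith)]
      have : (2 : ℝ) ^ (P.δ / 2) ≤ 2 := by
        simpa using Real.rpow_le_rpow_of_exponent_le (by norm_num : (1 : ℝ) ≤ 2)
          (by linarith : P.δ / 2 ≤ 1)
      refine (div_le_div_of_nonneg_right (mul_le_mul_of_nonneg_right this (by linarith))
        (by positivity)).trans (le_of_eq (by field_simp; ring))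
    have c := mul_le_mul_of_nonneg_left b (Nat.cast_nonneg (α := ℝ) (2 * (p + 8)))
    have d := mul_le_mul_of_nonneg_left o (add_nonneg zero_le_one
      (Real.log_nonneg (by linarith : (1 : ℝ) ≤ 36 * Λ₀)))
    rw [hK₂, hT]
    linarith
  have T3 : T' ≤ 3 * τ := by
    have a : 1 + (M + V.r) ≤ V.r * V.r := by
      have : 2 * τ ^ 8 * 2 ≤ X * X := Nat.mul_le_mul X3 (by omega)
      have : V.r * (16 * τ ^ 8) ≤ V.r * V.r := Nat.mul_le_mul_left _ (by omega)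
      have : V.r * (16 * τ ^ 8) = 16 * (V.r * τ ^ 8) := by ring
      omega
    have b : Real.log (1 + (M + V.r : ℕ)) ≤ Real.log (V.r * V.r) :=
      Real.log_le_log (by positivity) (by exact_mod_cast a)
    rw [Real.log_mul r0.ne' r0.ne', ← ht] at b
    linarith
  have fin := arith (M := 2 * ((M : ℝ) + l) + 1) t2 τ1 r0 hρ K0 δ0 δ1 (by linarith) T2 T0' T3 le_rfl l0.le
    (by exact_mod_cast (Nat.mul_le_mul_left l (pw 48 _ (by omega))).trans ((mul_comm _ _).le.trans l1))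
    (Nat.cast_nonneg l₁) (by exact_mod_cast l7) (by positivity) (by
      rw [mul_assoc]
      exact_mod_cast (by omega : 2 * (M + l) + 1 ≤ 11 * (V.r * τ ^ 8)))
  rw [e1]
  refine key.trans ((add_le_add e2 le_rfl).trans ?_)
  rw [← mul_add]
  exact (mul_le_mul_of_nonneg_left fin a0).trans (le_of_eq (by ring))

end Crest.Agent.T145.Vx.Lb27
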