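import Crest.Agent.T145.VxRoute_51
import Crest.Agent.T145.FlFus_4

/-!
# Row 145, module Vx (helper51): linear observables on one shell

The flow of the charge is cut into a bounded number of free cells; in a cell the seam is a gauge.
-/

set_option autoImplicit false

namespace Crest.Agent.T145.Vx

open Finset
open Nc (an Amb)

namespace L51

open R51

theorem lok {P : Par} (hP : P.Ok) : P.L.Ok := hP.crit.1

/-- centre of the cell of `x` -/
def ct (p : Pt) (k : ℕ) (x : Pt) : Pt := (p.1 + k * ((x.1 - p.1) / k), p.2 + k * ((x.2 - p.2) / k))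

theorem mem_ct (p : Pt) {k : ℕ} (hk : 1 ≤ k) (x : Pt) : x ∈ bl (ct p k x) k := by
  have k0 : (0 : ℤ) < k := by exact_mod_cast hk
  have a1 := Int.mul_ediv_add_emod (x.1 - p.1) k
  have a2 := Int.emod_nonneg (x.1 - p.1) k0.ne'
  have a3 := Int.emod_lt_of_pos (x.1 - p.1) k0
  have b1 := Int.mul_ediv_add_emod (x.2 - p.2) k
  have b2 := Int.emod_nonneg (x.2 - p.2) k0.ne'
  have b3 := Int.emod_lt_of_pos (x.2 - p.2) k0
  rw [mem_bl]; simp only [ct]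
  generalize (k : ℤ) * ((x.1 - p.1) / k) = u at *
  generalize (k : ℤ) * ((x.2 - p.2) / k) = v at *
  omega

theorem card_ct (p : Pt) {k M R : ℕ} (hk : 1 ≤ k) (h : R ≤ M * k) {α : Type} (E : Finset α) (x : α → Pt)
    (hx : ∀ e ∈ E, x e ∈ bl p R) : (E.image fun e => ct p k (x e)).card ≤ (2 * M + 1) ^ 2 := by
  have k0 : (0 : ℤ) < k := by exact_mod_cast hk
  have h' : (R : ℤ) ≤ M * k := by exact_mod_cast h
  rw [← card_bl 0 M]
  refine (card_le_card (t := (bl 0 M).image fun j : Pt => ((p.1 + k * j.1, p.2 + k * j.2) : Pt))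
    fun z hz => ?_).trans card_image_le
  obtain ⟨e, he, rfl⟩ := mem_image.1 hz
  have := mem_bl.1 (hx e he)
  have key : ∀ t : ℤ, -(R : ℤ) ≤ t → t ≤ R → -(M : ℤ) ≤ t / k ∧ t / k ≤ M := fun t h1 h2 =>
    ⟨Int.le_ediv_of_mul_le k0 (by linarith), Int.ediv_le_of_le_mul k0 (by linarith)⟩
  have k1 := key ((x e).1 - p.1) (by omega) (by omega)
  have k2 := key ((x e).2 - p.2) (by omega) (by omega)
  refine mem_image.2 ⟨(((x e).1 - p.1) / k, ((x e).2 - p.2) / k), ?_, rfl⟩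
  rw [mem_bl]; simp only [Prod.fst_zero, Prod.snd_zero]; omega

theorem ds_pq (V : Vp) : ds V.p V.q = V.r := by
  obtain ⟨a, r, sd⟩ := V
  cases sd <;> simp [Vp.p, Vp.q, Vp.sw, ds]

theorem ds_tri (x y z : Pt) : ds x z ≤ ds x y + ds y z := by simp only [ds]; omega
theorem ds_comm (x y : Pt) : ds x y = ds y x := by simp only [ds]; omega

/-- a gauge invariant linear functional in a free cell -/
theorem cell (hG : GgStmt) {P : Par} (hP : P.Ok) (V : Vp) {z : Pt} {k : ℕ} (hk : 1 ≤ k)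
    (hd : P.W₀ * k < V.d z) {T : Finset (Pt × Pt)} (hT : T ⊆ P.L.edI (bl z (k + 1))) {φ : Pt × Pt → ℝ}
    {a : ℝ} (ha : 0 ≤ a) (hφ : ∑ e ∈ T, φ e ^ 2 ≤ a ^ 2) :
    Ins z (k + 1) (fun s => ∑ e ∈ T, φ e * nE V.σ e s) ∧
      P.N V z k (fun s => ∑ e ∈ T, φ e * nE V.σ e s) ≤ FlF4.cB P.b 2 * a ∧
      P.N V z k (fun s => (∑ e ∈ T, φ e * nE V.σ e s) ^ 2) ≤ (FlF4.cB P.b 2 * a) ^ 2 := by
  have hΛ := lok hP
  have hW : 4 * k ≤ P.W₀ * k := Nat.mul_le_mul_right _ hP.W2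
  obtain ⟨gg, h1, -, h2⟩ := hG P.b V z _ hΛ.pos hd
  have hT' : T ⊆ P.L.edI (bl z (P.W₀ * k)) := hT.trans (Lat.edI_mono (bl_mono z (by omega)))
  have e : ∀ s, ∑ e ∈ T, φ e * (nE V.σ e s : ℝ) = pr (dv T φ) (s + gg) := fun s => by
    rw [pr_dv]
    exact sum_congr rfl fun e he => by
      rw [nE, h1 e (hT' he)]; simp only [dE, Finsupp.add_apply]; push_cast; ring
  have f2 : F2 (P.L.edI (bl z (P.W₀ * k))) (dv T φ) (a ^ 2) := F2.subset ⟨φ, rfl, hφ⟩ hT'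
  have hD := FlF4.depG_flow f2
  have bd : ∀ j : ℕ, P.L.exN V.σ z (P.W₀ * k) (fun s => |pr (dv T φ) (s + gg)| ^ j) ≤
      FlF4.cB P.b j * a ^ j := fun j => by
    have hD' : DepG (bl z (P.W₀ * k)) fun s => |pr (dv T φ) s| ^ j := hD.comp fun t => |t| ^ j
    refine ((h2 _ le_rfl _).1 ⟨hD', (Tame.hom _).abs.pow j⟩).trans_le ?_
    rw [show xyL P.b = P.L from rfl, FlF4.EN_bx hD']
    exact (FlF4.bd_pow hΛ ha f2 j _ (FlF4.lat_bx hΛ z _)).2
  have c1 : 1 ≤ FlF4.cB P.b 2 := FlF4.one_le_cB hΛ.pos.le 2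
  refine ⟨⟨DepG.sum fun e he => (DepG.const _ _).mul ?_, Tame.sum T fun e _ =>
    (((Tame.dE e).add (Tame.const (V.σ e))).congr fun s => by rw [nE]; push_cast; rfl).const_mul _⟩, ?_, ?_⟩
  · have := Lat.mem_edI.1 (hT he)
    exact (DepG.dE this.2.1 this.2.2).comp fun t => ((t + V.σ e : ℤ) : ℝ)
  · have := bd 1
    simp only [pow_one] at this
    simp only [Par.N, Lat.nrm, e]
    exact this.trans (mul_le_mul_of_nonneg_right (FlF4.cB_mono le_rfl one_le_two) ha)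
  · have := bd 2
    simp only [Par.N, Lat.nrm, e, abs_pow]
    refine this.trans ?_
    rw [mul_pow]
    exact mul_le_mul_of_nonneg_right (by nlinarith) (sq_nonneg a)

/-- the decomposition into cells -/
theorem cells (hR : RouteStmt) (hG : GgStmt) {P : Par} (hP : P.Ok) {Λc : ℕ} (hΛc : 2 ≤ Λc) :
    ∃ C n₀ : ℝ, 0 ≤ C ∧ 0 ≤ n₀ ∧ ∀ (V : Vp) (D k : ℕ) (A : ℝ) (g : Pt → ℝ), P.r₀ ≤ k → 16 * (P.W₀ * k) ≤ D →
      D ≤ 32 * (P.W₀ * k) → Chg V.p D Λc A g → 4 * (Λc * D) ≤ V.r ∨ 4 * V.r ≤ D →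
      ∃ (I : Finset Pt) (Y : Pt → Cfg Pt → ℝ) (c : ℝ), (I.card : ℝ) ≤ n₀ ∧
        (∀ s, ∑ z ∈ I, Y z s = pr g s + c) ∧ ∀ z ∈ I, D ≤ ds z V.p + k ∧ ds z V.p ≤ Λc * D + k ∧
          4 * (P.W₀ * k) ≤ V.d z ∧ Ins z (k + 1) (Y z) ∧ P.N V z k (Y z) ≤ C * A * D ∧
          P.N V z k (fun s => Y z s ^ 2) ≤ (C * A * D) ^ 2 := by
  obtain ⟨C, hC⟩ := hR Λc hΛc
  have c1 : 1 ≤ FlF4.cB P.b 2 := FlF4.one_le_cB (lok hP).pos.le 2
  refine ⟨FlF4.cB P.b 2 * (nnL.Jp.card * |C|), ((2 * (Λc * (32 * P.W₀)) + 1) ^ 2 : ℕ), by positivity,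
    by positivity, fun V D k A g hk h1 h2 hg hV => ?_⟩
  have r2 := hP.r2
  have hW : 4 * k ≤ P.W₀ * k := Nat.mul_le_mul_right _ hP.W2
  have hD : 2 * D ≤ Λc * D := Nat.mul_le_mul_right _ hΛc
  have cD : (0 : ℝ) < D := by exact_mod_cast (by omega : 0 < D)
  have hA : 0 ≤ A := by
    have := (abs_nonneg _).trans (hg.2.2 0)
    rwa [le_div_iff₀ cD, zero_mul] at this
  obtain ⟨φ, e1, e2⟩ := hC V.p D A g (by omega) hg
  set E := nnL.edI (an V.p (D - 1) (Λc * D))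
  have hE : ∀ e ∈ E, D ≤ ds e.1 V.p ∧ ds e.1 V.p ≤ Λc * D := fun e he => by
    have := mem_sdiff.1 (Lat.mem_edI.1 he).2.1
    rw [mem_bl_ds, mem_bl_ds] at this; omega
  refine ⟨E.image fun e => ct V.p k e.1,
    fun z s => ∑ e ∈ E.filter fun e => ct V.p k e.1 = z, φ e * nE V.σ e s, ∑ e ∈ E, φ e * V.σ e,
    ?_, fun s => ?_, fun z hz => ?_⟩
  · exact_mod_cast card_ct V.p (by omega) (R := Λc * D) (by
      rw [mul_assoc, mul_assoc]; exact Nat.mul_le_mul_left _ h2) E _ fun e he => mem_bl_ds.2 (hE e he).2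
  · rw [sum_fiberwise_of_maps_to fun e he => mem_image_of_mem _ he, e1, pr_dv, ← sum_add_distrib]
    exact sum_congr rfl fun e _ => by rw [nE]; push_cast; ring
  obtain ⟨e₀, he₀, hz₀⟩ := mem_image.1 hz
  have m0 := mem_ct V.p (by omega : 1 ≤ k) e₀.1
  rw [hz₀, mem_bl_ds] at m0
  have d1 := ds_tri e₀.1 z V.p
  have d2 := ds_tri z e₀.1 V.p
  have d3 := ds_comm z e₀.1
  have d4 := hE e₀ he₀
  have d5 := ds_tri V.p z V.q
  have d6 := ds_tri z V.q V.p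
  have d7 := ds_comm V.p z
  have d8 := ds_comm V.q V.p
  have d9 := ds_pq V
  have hd : 4 * (P.W₀ * k) ≤ V.d z := by rw [Vp.d]; omega
  have hT : (E.filter fun e => ct V.p k e.1 = z) ⊆ P.L.edI (bl z (k + 1)) := fun e he => by
    obtain ⟨a1, a2⟩ := mem_filter.1 he
    have a3 : e.2 - e.1 ∈ P.L.Jp := (Lat.mem_edI.1 a1).1
    have a4 := Nc.Geo.near_bl a3 (Or.inl (a2 ▸ mem_ct V.p (by omega : 1 ≤ k) e.1))
    rw [show P.L.rg = 1 from xyL_rg _] at a4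
    exact Lat.mem_edI.2 ⟨a3, a4⟩
  have hφ : ∑ e ∈ E.filter fun e => ct V.p k e.1 = z, φ e ^ 2 ≤ (nnL.Jp.card * |C| * A * D) ^ 2 := by
    refine (sum_le_card_nsmul _ _ ((|C| * A) ^ 2) fun e he => ?_).trans ?_
    · rw [← sq_abs]
      exact pow_le_pow_left₀ (abs_nonneg _) ((e2 e (mem_filter.1 he).1).trans
        (mul_le_mul_of_nonneg_right (le_abs_self C) hA)) 2
    · have b1 := (card_le_card hT).trans (card_edI_le P.L _)
      rw [card_bl, show P.L.Jp = nnL.Jp from rfl] at b1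
      have b2 : (2 * (k + 1) + 1) ^ 2 * nnL.Jp.card ≤ (nnL.Jp.card * D) ^ 2 := by
        rw [mul_pow, mul_comm]
        exact Nat.mul_le_mul (Nat.le_self_pow two_ne_zero _) (Nat.pow_le_pow_left (by omega) 2)
      have b3 : (((E.filter fun e => ct V.p k e.1 = z).card : ℕ) : ℝ) ≤ (nnL.Jp.card * D) ^ 2 := by
        exact_mod_cast b1.trans b2
      rw [nsmul_eq_mul]
      exact (mul_le_mul_of_nonneg_right b3 (sq_nonneg _)).trans_eq (by ring)
  have := cell hG hP V (by omega) (by omega : P.W₀ * k < V.d z) hT (by positivity) hφ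
  exact ⟨by omega, by omega, hd, this.1, this.2.1.trans_eq (by ring), this.2.2.trans_eq (by ring)⟩

theorem N_nonneg {P : Par} (hP : P.Ok) (V : Vp) (z : Pt) (k : ℕ) (F : Cfg Pt → ℝ) : 0 ≤ P.N V z k F :=
  Ex_nonneg (Md.ctr_wts ((lok hP).ctr_Nr _ _) ((lok hP).anch_Nr_rect fun _ hx =>
    rect_bl hx (self_mem_bl _ _)) 0 _).nonneg fun _ _ => abs_nonneg _

theorem le_abs_mul {x C n B : ℝ} (h : x ≤ C * n) (h0 : 0 ≤ n) (hn : n ≤ B) : x ≤ |C| * B :=
  h.trans (mul_le_mul (le_abs_self C) hn h0 (abs_nonneg C))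

end L51

open L51 R51

theorem linStmt (hR : RouteStmt) (hG : GgStmt) (hT : TrStmt) (hC : CovStmt) (hD : Dom1Stmt) :
    LinStmt := by
  intro P hP Λc hΛc
  have hΛ := lok hP
  obtain ⟨C₀, n₀, c0, n0, h0⟩ := cells hR hG hP hΛc
  obtain ⟨C₁, h1⟩ := hC P hP (2 * Λc * (Λc * (Λc * P.W₀)))
  obtain ⟨C₂, h2⟩ := hD P hP (2 * Λc * (32 * P.W₀))
  refine ⟨n₀ * (1 + |C₁| + 2 * |C₂|) * C₀, 16 * P.W₀ * P.r₀, fun V D A g hD1 hr hg hV => ?_⟩
  have r2 := hP.r2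
  have W2 := hP.W2
  obtain ⟨k, hk⟩ : ∃ k, k = D / (16 * P.W₀) := ⟨_, rfl⟩
  have k0 : P.r₀ ≤ k := hk ▸ (Nat.le_div_iff_mul_le (by omega)).2 (by rwa [mul_comm])
  have k1 : 16 * (P.W₀ * k) ≤ D := by rw [← mul_assoc, hk]; exact Nat.mul_div_le _ _
  have k2 : D ≤ 32 * (P.W₀ * k) := by
    have a1 : D < 16 * P.W₀ * (k + 1) := hk ▸ Nat.lt_mul_div_succ _ (by omega)
    have a2 : 16 * P.W₀ * (k + 1) ≤ 16 * P.W₀ * (2 * k) := Nat.mul_le_mul_left _ (by omega)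
    have a3 : 16 * P.W₀ * (2 * k) = 32 * (P.W₀ * k) := by ring
    omega
  have hW : 4 * k ≤ P.W₀ * k := Nat.mul_le_mul_right _ W2
  have hD2 : 2 * D ≤ Λc * D := Nat.mul_le_mul_right _ hΛc
  have hr' : 4 * (P.W₀ * P.r₀) ≤ V.r := by rw [mul_assoc] at hr; omega
  have cD : (0 : ℝ) < D := by exact_mod_cast (by omega : 0 < D)
  have hA : 0 ≤ A := by
    have := (abs_nonneg _).trans (hg.2.2 0)
    rwa [le_div_iff₀ cD, zero_mul] at this
  obtain ⟨I, Y, c, hI, eY, hY⟩ := h0 V D k A g k0 k1 k2 hg hV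
  obtain ⟨B, hB⟩ : ∃ B, B = C₀ * A * D := ⟨_, rfl⟩
  rw [← hB] at hY
  have B0 : 0 ≤ B := by rw [hB]; positivity
  have eg : (fun s => pr g s) = fun s => ∑ z ∈ I, Y z s - c := funext fun s => by rw [eY]; ring
  have tY : Tame fun s => ∑ z ∈ I, Y z s := Tame.sum I fun z hz => (hY z hz).2.2.2.1.2
  have sm : ∀ {f : Pt → ℝ} {t : ℝ}, 0 ≤ t → (∀ z ∈ I, f z ≤ t) → ∑ z ∈ I, f z ≤ n₀ * t := fun ht h =>
    (sum_le_card_nsmul _ _ _ h).trans (by rw [nsmul_eq_mul]; exact mul_le_mul_of_nonneg_right hI ht)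
  have one : ∀ (x : Pt) (n : ℕ), Ins x n fun _ => (1 : ℝ) := fun _ _ => ⟨DepG.const _ _, Tame.const _⟩
  have a1 := abs_nonneg C₁
  have a2 := abs_nonneg C₂
  refine ⟨fun m hm hm' => ?_, fun ρ hρ1 hρ2 hρ3 => ?_⟩
  · have hw := Md.ctr_wts hm.ctr hm.anch 0 V.σ
    have hs := Md.ctr_ses hm.ctr hm.anch 0 V.σ
    have hz : ∀ z ∈ I, Amb P.L m (bl z (2 * (P.W₀ * k))) := fun z hz =>
      FlF4.amb_mono hm' (bl_subset_bl (mem_bl_ds.2 (hY z hz).2.1) (by omega))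
    have hz' : ∀ z ∈ I, Amb P.L m (bl z (P.W₀ * k)) := fun z h =>
      FlF4.amb_mono (hz z h) (bl_mono z (by omega))
    refine ⟨?_, fun ρ F hρ0 hρ1 hρ2 hρ3 hF => ?_⟩
    · have t1 : Tame fun s => pr g s := Tame.hom _
      rw [Vr, hw.cv_eq (hs.ig t1) (hs.ig t1) (hs.ig (t1.mul t1)) (-c) (-c)]
      simp only [sub_neg_eq_add, ← eY]
      refine (sub_le_self _ (mul_self_nonneg _)).trans ?_
      have tq : ∀ z ∈ I, Tame fun s => Y z s ^ 2 := fun z hz => (hY z hz).2.2.2.1.2.pow 2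
      refine (Ex_mono hw.nonneg (hs.ig (tY.mul tY)) ((hs.ig (Tame.sum I tq)).const_mul n₀) fun s => ?_).trans ?_
      · rw [← pow_two]
        exact sq_sum_le_card_mul_sum_sq.trans
          (mul_le_mul_of_nonneg_right hI (sum_nonneg fun _ _ => sq_nonneg _))
      rw [Ex_const_mul, Ex_sum I fun z hz => hs.ig (tq z hz)]
      have := sm (f := fun z => Ex (m.Ws 0 V.σ) fun s => Y z s ^ 2) (t := |C₁| * B ^ 2) (by positivity)
        fun z hz => by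
          obtain ⟨-, -, b3, b4, -, b6⟩ := hY z hz
          have := ((h1 V m P.r₀ P.r₀ _ _ le_rfl hr' le_rfl hr' hm (one _ _) (one _ _)).2.2 z k
            (fun s => Y z s ^ 2) k0 b3 (by first | exact hz' z hz | exact ‹∀ z ∈ I, _› z hz)
            ⟨b4.1.comp fun t => t ^ 2, tq z hz⟩).1
          simp only [abs_pow, sq_abs] at this
          exact le_abs_mul this (N_nonneg hP _ _ _ _) b6
      refine (mul_le_mul_of_nonneg_left this n0).trans ?_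
      have e : (n₀ * (1 + |C₁| + 2 * |C₂|) * C₀ * A * D) ^ 2 =
          n₀ * (n₀ * ((1 + |C₁| + 2 * |C₂|) ^ 2 * B ^ 2)) := by rw [hB]; ring
      rw [e]
      gcongr
      nlinarith
    · have e : Cv (m.Ws 0 V.σ) F (fun s => pr g s) = ∑ z ∈ I, Cv (m.Ws 0 V.σ) F (Y z) := by
        have t1 : Tame fun s => pr g s := Tame.hom _
        rw [sum_congr rfl fun z _ => Cv_comm _ F (Y z), ← Cv_sum_left I
          (fun z hz => hs.ig (hY z hz).2.2.2.1.2) (fun z hz => hs.ig ((hY z hz).2.2.2.1.2.mul hF.2)),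
          Cv_comm]
        simp only [eY]
        rw [Cv_add_left (hs.ig t1) (hw.ig_const c) (hs.ig (t1.mul hF.2)) (hs.ig (hF.2.const_mul c)),
          hw.cv_const_left, add_zero]
      have ν0 : 0 ≤ P.ν V ρ F := N_nonneg hP _ _ _ _
      change |Cv (m.Ws 0 V.σ) F fun s => pr g s| ≤ _
      rw [e]
      refine (abs_sum_le_sum_abs _ _).trans ((sm (t := |C₁| * P.ν V ρ F * B) (by positivity)
        fun z hz => ?_).trans ?_)
      · obtain ⟨b1, b2, b3, b4, b5, -⟩ := hY z hz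
        have := ((h1 V m ρ P.r₀ F _ hρ0 hρ2 le_rfl hr' hm hF (one _ _)).2.2 z k (Y z) k0 b3
          (by first | exact hz' z hz | exact ‹∀ z ∈ I, _› z hz) b4).2.1 (by omega)
          (hρ3.elim (fun h => Or.inr (by
            have := Nat.mul_le_mul_left (2 * Λc) h
            have e1 : 2 * Λc * (Λc * (Λc * P.W₀)) * ρ = 2 * Λc * (Λc * (Λc * (P.W₀ * ρ))) := by ring
            have e2 : 2 * Λc * D = 2 * (Λc * D) := by ring
            omega)) fun h => Or.inl (by omega))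
        exact this.trans (mul_le_mul (mul_le_mul_of_nonneg_right (le_abs_self _) ν0) b5
          (N_nonneg hP _ _ _ _) (by positivity))
      · have e : n₀ * (1 + |C₁| + 2 * |C₂|) * C₀ * P.ν V ρ F * (A * D) =
            n₀ * ((1 + |C₁| + 2 * |C₂|) * P.ν V ρ F * B) := by rw [hB]; ring
        rw [e]
        gcongr
        linarith
  · have hW' : 4 * ρ ≤ P.W₀ * ρ := Nat.mul_le_mul_right _ W2
    have wN : ∀ n, Wt ((P.L.Nr (bl V.p n) V.p).Ws 0 V.σ) ∧ SE ((P.L.Nr (bl V.p n) V.p).Ws 0 V.σ) :=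
      fun n => have ha := hΛ.anch_Nr_rect (B := bl V.p n) fun _ hx => rect_bl hx (self_mem_bl _ _)
        ⟨Md.ctr_wts (hΛ.ctr_Nr _ _) ha 0 _, Md.ctr_ses (hΛ.ctr_Nr _ _) ha 0 _⟩
    obtain ⟨hw, hs⟩ := wN (P.W₀ * ρ)
    have iY : Ins V.p (ρ + 1) fun s => ∑ z ∈ I, Y z s := by
      refine ⟨?_, tY⟩
      simp only [eY]
      refine ((DepG.pr (fun x hx => ?_) hg.2.1).mono (bl_mono _ (by omega))).add (DepG.const _ _)
      by_contra h
      exact hx (mem_bl_ds.2 (hg.1 x h).2)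
    obtain ⟨t1, -, t3, -⟩ := hT P.b V.σ V.p ρ _ hΛ.pos iY
    have t4 := t3 V.p (P.W₀ * ρ) (bl_mono _ (by omega))
    have e : (fun s => P.L.tr V.σ V.p ρ (pr g) s - P.L.exN V.σ V.p (P.W₀ * ρ) (pr g)) = fun s =>
        P.L.tr V.σ V.p ρ (fun s => ∑ z ∈ I, Y z s) s -
          P.L.exN V.σ V.p (P.W₀ * ρ) fun s => ∑ z ∈ I, Y z s := funext fun s => by
      have t0 : Tame fun s => pr g s := Tame.hom _
      simp only [eY, Lat.tr, Lat.exN]
      rw [hw.ex_add_const (hs.ig t0), (Md.ctr_wts (hΛ.ctr_D _) (hΛ.anch_D _) s _).ex_add_const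
        ((Md.ctr_ses (hΛ.ctr_D _) (hΛ.anch_D _) s _).ig t0)]
      ring
    have n1 : P.L.nrm V.σ V.p (P.W₀ * ρ) (fun s => ∑ z ∈ I, Y z s) ≤ n₀ * (|C₂| * B) := by
      refine (Ex_mono hw.nonneg (hs.ig tY.abs) (hs.ig (Tame.sum I fun z hz => (hY z hz).2.2.2.1.2.abs))
        fun s => abs_sum_le_sum_abs _ _).trans ?_
      rw [Ex_sum I fun z hz => hs.ig (hY z hz).2.2.2.1.2.abs]
      refine sm (by positivity) fun z hz => ?_
      obtain ⟨b1, b2, b3, b4, b5, -⟩ := hY z hz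
      have := (h2 V k (P.W₀ * ρ) _ k0 (Nat.mul_le_mul_left _ (by omega)) hρ3 (one _ _)).2 z k (Y z) k0
        (by omega) (by omega) (by
          have := Nat.mul_le_mul_left (2 * Λc) k2
          have e1 : 2 * Λc * (32 * P.W₀) * k = 2 * Λc * (32 * (P.W₀ * k)) := by ring
          have e2 : 2 * Λc * D = 2 * (Λc * D) := by ring
          omega) (by omega) b4
      have e1 : P.N V V.p k (fun _ => 1) = 1 := by
        simp only [Par.N, Lat.nrm, Lat.exN, abs_one]; exact (wN _).1.ex_const 1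
      simp only [one_mul, e1, mul_one] at this
      exact le_abs_mul this (N_nonneg hP _ _ _ _) b5
    have n2 : |P.L.exN V.σ V.p (P.W₀ * ρ) fun s => ∑ z ∈ I, Y z s| ≤ n₀ * (|C₂| * B) :=
      (abs_Ex_le hw.nonneg (hs.ig tY)).trans n1
    rw [Par.ν, e]
    refine (Ex_mono hw.nonneg (hs.ig (Tame.sub t1 (Tame.const _)).abs)
      (hs.ig ((Tame.abs t1).add (Tame.const _))) fun s => abs_sub _ _).trans ?_
    rw [hw.ex_add_const (hs.ig (Tame.abs t1))]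
    refine (add_le_add (t4.trans n1) n2).trans ?_
    have e : n₀ * (1 + |C₁| + 2 * |C₂|) * C₀ * A * D = n₀ * ((1 + |C₁| + 2 * |C₂|) * B) := by
      rw [hB]; ring
    rw [e, ← mul_add, ← add_mul]
    exact mul_le_mul_of_nonneg_left (mul_le_mul_of_nonneg_right (by linarith [abs_nonneg C₁]) B0) n0

end Crest.Agent.T145.Vx
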