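import Crest.Agent.T145.VxDp_34
import Crest.Agent.T145.VxBas_30

/-!
# Row 145, S0198 (helper34): `LvStmt`, the covariances of the dipoles from Lemma B
-/

set_option autoImplicit false

namespace Crest.Agent.T145.Vx

open Finset Filter D34
open Nc (Amb)

namespace L34

theorem ev_big (B : ℝ) : ∃ r₁ : ℕ, ∀ r : ℕ, r₁ ≤ r → B ≤ Real.log r ∧ B * Real.log r ^ 3 ≤ r := by
  have h1 : Tendsto (fun r : ℕ => Real.log r) atTop atTop :=
    Real.tendsto_log_atTop.comp tendsto_natCast_atTop_atTop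
  have h2 := (tendsto_natCast_atTop_atTop (R := ℝ)).eventually
    ((Real.isLittleO_pow_log_id_atTop (n := 3)).bound (c := 1 / (|B| + 1)) (by positivity))
  obtain ⟨r₁, h⟩ := eventually_atTop.1 ((h1.eventually_ge_atTop B).and h2)
  refine ⟨r₁, fun r hr => ⟨(h r hr).1, ?_⟩⟩
  have h3 := (h r hr).2
  have h4 : 0 ≤ Real.log r ^ 3 := pow_nonneg (Real.log_natCast_nonneg r) 3
  rw [Real.norm_of_nonneg h4, id, Real.norm_of_nonneg (Nat.cast_nonneg r), one_div_mul_eq_div,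
    le_div_iff₀ (by positivity)] at h3
  nlinarith [le_abs_self B]

variable {W : Cfg Pt → ℝ}

theorem abs_vr_le (hW : Wt W) (hS : SE W) {f g : Cfg Pt →+ ℝ} {a b : ℝ} (ha : 0 ≤ a) (hb : 0 ≤ b)
    (h1 : Vr W f f ≤ a ^ 2) (h2 : Vr W g g ≤ b ^ 2) : |Vr W f g| ≤ a * b := by
  refine abs_le_of_sq_le_sq ?_ (mul_nonneg ha hb)
  rw [mul_pow]
  exact (hW.Vr_sq_le hS f g).trans (mul_le_mul h1 h2 (hW.Vr_nonneg hS g) (sq_nonneg _))

theorem cv_Y (hY : YStmt) (hW : Wt W) (hS : SE W) (σ : Pt × Pt → ℤ) {S : Finset Pt} {u : Pt → ℝ}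
    (hu : Sup S u) {F : Cfg Pt → ℝ} (hF : Tame F) : Cv W F (Yv σ u) = Cv W F (pr (A0 u)) := by
  have h := B30.cv_sub_const hW hS hF (Tame.hom (pr (A0 u))) 0
    (-∑ᶠ z, ∑ i, df i u z * σ (z, z + ev i))
  simp only [sub_zero, sub_neg_eq_add, ← (hY σ S u hu).2.1] at h
  exact h

theorem cv_YY (hY : YStmt) (hW : Wt W) (hS : SE W) (σ : Pt × Pt → ℤ) {S T : Finset Pt} {u v : Pt → ℝ}
    (hu : Sup S u) (hv : Sup T v) : Cv W (Yv σ u) (Yv σ v) = Vr W (pr (A0 u)) (pr (A0 v)) := by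
  rw [cv_Y hY hW hS σ hv (hY σ S u hu).2.2.2.1, Cv_comm, cv_Y hY hW hS σ hu (Tame.hom _), Cv_comm]
  rfl

theorem En_comm (u v : Pt → ℝ) : En u v = En v u := by simp only [En, mul_comm]

theorem sq_le_of {C A D a : ℝ} (hA : 0 ≤ A) (hD : 0 ≤ D) (h : |C| * (A * D) ≤ a) :
    (C * A * D) ^ 2 ≤ a ^ 2 := by
  rw [← sq_abs, abs_mul, abs_mul, abs_of_nonneg hA, abs_of_nonneg hD, mul_assoc]
  exact pow_le_pow_left₀ (by positivity) h 2

theorem gc_le {r : ℕ} (h : 1 ≤ Real.log r) : |gc r| ≤ 1 := by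
  have h1 := Real.pi_gt_three
  rw [gc, abs_of_nonneg (by positivity)]
  have h2 : 1 / (Real.pi * Real.log r) ≤ 1 / Real.pi := by gcongr; nlinarith
  have h3 : 2 / Real.pi + 1 / Real.pi ≤ 1 := by rw [← add_div, div_le_one (by linarith)]; linarith
  linarith

/-- the far charge against the potential of the other dipole -/
theorem far_pair {p q : Pt} {ρ S r : ℕ} {C : ℝ} {g u : Pt → ℝ} (hC : 0 ≤ C) (hr : ds p q = r)
    (hS : 2 * r + 2 ≤ S) (hg : Chg q (S - 1) 3 (C / (S : ℝ) ^ 2) g) (hu : Dip p ρ C u) :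
    |∑ z ∈ bl p (2 * S), g z * u z| ≤ 100 * C ^ 2 / (S : ℝ) ^ 2 := by
  have h1 : (2 : ℝ) ≤ S := by exact_mod_cast (by omega : 2 ≤ S)
  have h2 : ∀ z, |g z * u z| ≤ C / (S : ℝ) ^ 2 / (S / 2) * (C * (1 / (S / 2))) := fun z => by
    by_cases hz : g z = 0
    · rw [hz, zero_mul, abs_zero]; positivity
    have h3 := (hg.1 z hz).1
    have h4 := ds_tri z p q
    have h5 : (S : ℝ) ≤ 2 * ds z p := by exact_mod_cast (by omega : S ≤ 2 * ds z p)
    rw [abs_mul]
    refine mul_le_mul ((hg.2.2 z).trans ?_) ((hu.b0 z).trans ?_) (abs_nonneg _) (by positivity)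
    · rw [Nat.cast_sub (by omega), Nat.cast_one]; gcongr; linarith
    · have : (0 : ℝ) ≤ ρ := Nat.cast_nonneg ρ
      rw [al]; gcongr; linarith
  refine (abs_sum_le_sum_abs _ _).trans ((sum_le_sum fun z _ => h2 z).trans ?_)
  rw [sum_const, card_bl, nsmul_eq_mul]
  push_cast
  calc _ ≤ (5 * (S : ℝ)) ^ 2 * (C / (S : ℝ) ^ 2 / (S / 2) * (C * (1 / (S / 2)))) := by gcongr; linarith
    _ = _ := by field_simp; ring

end L34

open L34

set_option maxHeartbeats 1600000 in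
theorem lvStmt (hB : LbStmt) (hL : LinStmt) (hY : YStmt) : LvStmt := by
  intro P hP
  obtain ⟨CB, r1, hB⟩ := hB P hP
  obtain ⟨C3, r3, h3⟩ := hL P hP 3 (by norm_num)
  obtain ⟨C8, r8, h8⟩ := hL P hP 8 (by norm_num)
  obtain ⟨CU, hU⟩ := ucStmt
  obtain ⟨CD, hD⟩ := dipStmt
  have hCU : 0 ≤ CU := (abs_nonneg _).trans (((hU 0 4 0 le_rfl).2.2.2.1 0).2 0).1
  have hCD : 0 ≤ CD := by
    have := (abs_nonneg _).trans ((hD 0 32 128 0 le_rfl le_rfl).1.2.2 0)
    norm_num at this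
    linarith
  obtain ⟨r0, hr0⟩ := ev_big (8 * (r3 + r8 + 5 : ℕ))
  set a := (|C3| + |C8|) * (CD + CU) with ha
  have ha0 : 0 ≤ a := by positivity
  set K := |CB| * (CD + CU) ^ 2 + 3 * a ^ 2 + 100 * CD ^ 2 with hK
  have hK0 : 0 ≤ K := by positivity
  refine ⟨K + CD, max r0 (max r1 (max r3 r8)), fun V hV => ?_⟩
  simp only [max_le_iff] at hV
  obtain ⟨R, hR⟩ := hB V hV.2.1
  obtain ⟨t1, t2⟩ := hr0 V.r hV.1
  change _ ≤ V.t at t1
  change _ * V.t ^ 3 ≤ _ at t2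
  set r := V.r with hr
  set t := V.t with ht
  have t4 : (40 : ℝ) ≤ 8 * (r3 + r8 + 5 : ℕ) := by exact_mod_cast (by omega : 40 ≤ 8 * (r3 + r8 + 5))
  have t3 : (40 : ℝ) ≤ t := t4.trans t1
  have t0 : 0 < t := by linarith
  set S := ⌈(r : ℝ) * t ^ 5⌉₊ with hS
  refine ⟨R + r + 6 * S, fun m ρ hm hρ i j => ?_⟩
  set W := m.Ws 0 V.σ with hW'
  have hW : Wt W := B30.amb_wt hm _
  have hE : SE W := B30.amb_se hm _
  set τ := t ^ (-1 - P.δ) with hτ
  have τ0 : 0 < τ := Real.rpow_pos_of_pos t0 _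
  have τ1 : τ ≤ 1 := Real.rpow_le_one_of_one_le_of_nonpos (by linarith) (by linarith [hP.δ0])
  have τ2 : 1 / t ^ 2 ≤ τ := by
    rw [one_div, ← Real.rpow_natCast, ← Real.rpow_neg t0.le]
    exact Real.rpow_le_rpow_of_exponent_le (by linarith) (by push_cast; linarith [hP.δ1])
  have ρ1 : 8 * (r3 + r8 + 5) ≤ ρ := by
    have := le_of_mul_le_mul_right (t2.trans hρ) (by positivity)
    exact_mod_cast this
  have ρ0 : (0 : ℝ) < ρ := by exact_mod_cast (by omega : 0 < ρ)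
  have r0' : (1 : ℝ) ≤ r := le_trans (by
    have := one_le_pow₀ (n := 3) (show 1 ≤ t by linarith)
    nlinarith) t2
  have s1 : (r : ℝ) * t ^ 5 ≤ S := Nat.le_ceil _
  have s2 : (S : ℝ) ≤ r * t ^ 5 + 1 := (Nat.ceil_lt_add_one (by positivity)).le
  have t5 : (40 : ℝ) ≤ t ^ 5 := t3.trans (le_self_pow₀ (by linarith) (by norm_num))
  have s3 : 40 * r ≤ S := by exact_mod_cast (show (40 : ℝ) * r ≤ S by nlinarith)
  have s0 : (0 : ℝ) < S := by nlinarith
  have s4 : ((2 * S + r : ℕ) : ℝ) ≤ r * t ^ 8 := by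
    have : (4 : ℝ) ≤ t ^ 3 := le_trans (by linarith) (le_self_pow₀ (a := t) (by linarith) (by norm_num))
    have h1 : (r : ℝ) * t ^ 5 * 4 ≤ r * t ^ 5 * t ^ 3 := by gcongr
    push_cast; nlinarith
  have hg : |gc r| ≤ 1 := gc_le (show 1 ≤ t by linarith)
  have hpq := B30.ds_pq V
  have hqp := B30.ds_qp V
  have hm' := B30.amb_mono hm (bl_mono _ (show R ≤ R + r + 6 * S by omega))
  suffices H : 8 * ρ ≤ r → (∀ ρ', ρ < ρ' → 16 * ρ' ≤ r →
      |lf V m ρ' (pr (fd V.p ρ i)) j - if i = j then gc r else 0| ≤ K * τ ∧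
      |lf V m ρ' (pr (fd V.q ρ i)) j| ≤ K * τ) ∧ ∀ i j,
      |(r : ℝ) ^ 2 * Vr W (pr (fd V.p ρ i)) (pr (fd V.q ρ j)) -
        gc r * ((r : ℝ) ^ 2 * ∑ z ∈ bl V.q ρ, fd V.q ρ j z * ud V.p ρ S i z)| ≤ K * τ by
    have e1 : K * τ ≤ (K + CD) * τ := by gcongr; linarith
    refine ⟨fun ρ' b1 b2 => ((H (by omega)).1 ρ' b1 b2).imp (·.trans e1) (·.trans e1), fun b1 => ?_⟩
    have b2 : 8 * ρ ≤ r := by exact_mod_cast (show (8 : ℝ) * ρ ≤ r by nlinarith)
    have b3 := fun i => (hD V.p ρ S i (by omega) (by omega)).2.2.2.2.2.2 V.q r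
      (by rw [B30.p_snd, B30.q_snd]) hpq b2 (by omega)
    have b4 := (b3 i).2.1 j
    have b5 := (b3 i).2.2
    have b6 := (H b2).2
    constructor
    · have b7 : |gc r * ((r : ℝ) ^ 2 * ∑ z ∈ bl V.q ρ, fd V.q ρ j z * ud V.p ρ S i z)| ≤ CD := by
        rw [abs_mul, abs_mul, abs_of_nonneg (sq_nonneg (r : ℝ))]
        calc _ ≤ 1 * ((r : ℝ) ^ 2 * (CD / (r : ℝ) ^ 2)) := by gcongr
          _ = CD := by field_simp
      have := abs_add_le _ _ |>.trans (add_le_add (b6 i j) b7)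
      rw [sub_add_cancel] at this
      nlinarith
    · have b7 : |gc r * ((r : ℝ) ^ 2 * ∑ z ∈ bl V.q ρ, fd V.q ρ 1 z * ud V.p ρ S 1 z -
          1 / (2 * Real.pi))| ≤ CD * τ := by
        rw [abs_mul]
        calc _ ≤ 1 * (CD * ρ / r) := by gcongr
          _ ≤ CD * (1 / t ^ 2) := by
            rw [one_mul, mul_div_assoc]; gcongr CD * ?_
            rw [div_le_div_iff₀ (by linarith) (by positivity)]; linarith
          _ ≤ _ := by gcongr
      have := abs_add_le _ _ |>.trans (add_le_add (b6 1 1) b7)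
      rw [add_mul]
      refine le_trans (le_of_eq ?_) this
      congr 1; ring
  intro ρ8
  have hd := fun (p : Pt) i => hD p ρ S i (by omega) (by omega)
  have aU : ∀ U : Vp, U = V ∨ U = V.sw → ∀ n, n ≤ 6 * S → Amb P.L m (bl U.p n) := by
    rintro U (rfl | rfl) n hn
    · exact B30.amb_mono hm (bl_mono _ (by omega))
    · exact B30.amb_mono hm (B30.bl_sub (by rw [B30.sw_p, hqp]; omega))
  have vf : ∀ U : Vp, U = V ∨ U = V.sw → ∀ i,
      Vr W (pr (fd U.p ρ i)) (pr (fd U.p ρ i)) ≤ (a / ρ) ^ 2 ∧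
      Vr W (pr (A0 (ud U.p ρ S i) - fd U.p ρ i)) (pr (A0 (ud U.p ρ S i) - fd U.p ρ i)) ≤ (a / S) ^ 2 := by
    intro U hU' i
    have u1 : U.r = r := by rcases hU' with rfl | rfl <;> rfl
    have u2 : U.σ = V.σ := by rcases hU' with rfl | rfl <;> rfl
    have c1 := ((h8 U _ _ _ (by omega) (by omega) (hd U.p i).1 (.inl (by omega))).1 m
      (aU U hU' _ (by omega)) (aU U hU' _ (by omega))).1
    have c2 := ((h3 U _ _ _ (by omega) (by omega) (hd U.p i).2.2.2.2.1 (.inr (by omega))).1 m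
      (aU U hU' _ (by omega)) (aU U hU' _ (by omega))).1
    rw [u2] at c1 c2
    refine ⟨c1.trans (sq_le_of (by positivity) (by positivity) ?_),
      c2.trans (sq_le_of (by positivity) (by positivity) ?_)⟩
    · have : ((ρ / 8 : ℕ) : ℝ) ≤ ρ := by exact_mod_cast Nat.div_le_self _ _
      calc _ ≤ (|C3| + |C8|) * ((CD + CU) / (ρ : ℝ) ^ 2 * ρ) := by
            gcongr <;> linarith [abs_nonneg C3]
        _ = _ := by rw [ha]; field_simp
    · have : ((S - 1 : ℕ) : ℝ) ≤ S := by exact_mod_cast Nat.sub_le _ _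
      calc _ ≤ (|C3| + |C8|) * ((CD + CU) / (S : ℝ) ^ 2 * S) := by
            gcongr <;> linarith [abs_nonneg C8]
        _ = _ := by rw [ha]; field_simp
  have vp := vf V (.inl rfl)
  have vq := vf V.sw (.inr rfl)
  rw [B30.sw_p] at vq
  have sp : ∀ i, Sup (bl V.p (2 * S + r)) (ud V.p ρ S i) := fun i z hz =>
    (hd V.p i).2.2.1 z fun h => hz (bl_mono _ (by omega) h)
  have sq' : ∀ i, Sup (bl V.p (2 * S + r)) (ud V.q ρ S i) := fun i z hz =>
    (hd V.q i).2.2.1 z fun h => hz (B30.bl_sub (by omega) h)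
  have dd := fun (p : Pt) i => (hd p i).2.2.2.1 ρ (by omega) le_rfl
  have lb := fun A A' u u' => hR m ρ (2 * S + r) A A' u u' hm' hρ (by omega) s4
  have q1 : (r : ℝ) / S ≤ 1 / t ^ 5 := by rw [div_le_div_iff₀ s0 (by positivity)]; linarith
  have q2 : 1 / t ^ 5 ≤ τ := le_trans (by gcongr <;> linarith) τ2
  have kB : ∀ x y : ℝ, 0 ≤ x → 0 ≤ y → x ≤ CD + CU → y ≤ CD + CU →
      CB * x * y * τ ≤ |CB| * (CD + CU) ^ 2 * τ := fun x y h1 h2 h3 h4 => by
    gcongr ?_ * _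
    rw [pow_two, ← mul_assoc]
    gcongr
    exact le_abs_self _
  refine ⟨fun ρ' b1 b2 => ?_, fun i j => ?_⟩
  · have hu := hU V.p ρ' j (by omega)
    have su : Sup (bl V.p (2 * S + r)) (uc V.p ρ' j) := fun z hz =>
      hu.1 z fun h => hz (bl_mono _ (by omega) h)
    have vu : Vr W (pr (A0 (uc V.p ρ' j))) (pr (A0 (uc V.p ρ' j))) ≤ (a * r) ^ 2 := by
      refine ((h3 V _ _ _ (by omega) (by omega) hu.2.1 (.inl (by omega))).1 m
        (aU V (.inl rfl) _ (by omega)) (aU V (.inl rfl) _ (by omega))).1.trans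
        (sq_le_of hCU (by positivity) ?_)
      have : ((ρ' - 1 : ℕ) : ℝ) ≤ r := by exact_mod_cast (by omega : ρ' - 1 ≤ r)
      rw [ha, mul_assoc]
      gcongr <;> linarith [abs_nonneg C8]
    have e1 : ∀ p : Pt, lf V m ρ' (pr (fd p ρ i)) j =
        Vr W (pr (A0 (ud p ρ S i))) (pr (A0 (uc V.p ρ' j))) -
          Vr W (pr (A0 (ud p ρ S i) - fd p ρ i)) (pr (A0 (uc V.p ρ' j))) := fun p => by
      rw [lf, cv_Y hY hW hE _ su (Tame.hom _), pr_sub, hE.Vr_sub_left, sub_sub_cancel]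
      rfl
    have e2 : a / S * (a * r) ≤ a ^ 2 * τ := by
      calc _ = a ^ 2 * (r / S) := by ring
        _ ≤ _ := by gcongr; exact q1.trans q2
    have e3 : |CB| * (CD + CU) ^ 2 * τ + a ^ 2 * τ ≤ K * τ := by
      rw [← add_mul]; gcongr; nlinarith [sq_nonneg a, sq_nonneg CD]
    constructor
    · have c1 := lb _ _ _ _ (sp i) su (dd V.p i) (hu.2.2.2.2 V.q ρ r (by omega) b1.le (by omega) hpq.le)
      have c2 : En (ud V.p ρ S i) (uc V.p ρ' j) = if i = j then 1 else 0 := by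
        rw [(hY V.σ _ _ (sp i)).2.2.1 _ _ hu.1, ← (hd V.p i).2.2.2.2.2.1 j]
        have c3 : ∑ z ∈ bl V.p ρ, fd V.p ρ i z = 0 := by
          rw [← (hd V.p i).1.2.1]
          exact (sum_subset (bl_mono _ (by omega)) fun z _ hz => by_contra fun h =>
            hz (mem_ds.2 ((hd V.p i).1.1 z h).2)).symm
        calc _ = ∑ z ∈ bl V.p (2 * ρ'), fd V.p ρ i z * uc V.p ρ' j z := sum_congr rfl fun z hz => by
              have c4 : (A0 (ud V.p ρ S i) - fd V.p ρ i) z = 0 := by_contra fun h => by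
                have := ((hd V.p i).2.2.2.2.1.1 z h).1; rw [mem_ds] at hz; omega
              rw [sub_eq_zero.1 c4]
          _ = ∑ z ∈ bl V.p ρ, fd V.p ρ i z * uc V.p ρ' j z :=
              (sum_subset (bl_mono _ (by omega)) fun z _ hz => by rw [(hd V.p i).2.1 z hz, zero_mul]).symm
          _ = ∑ z ∈ bl V.p ρ, (fd V.p ρ i z * co j z + fd V.p ρ i z * (![0, 1 / 2] j - co j V.p)) :=
              sum_congr rfl fun z hz => by
                have c5 := Vx34.co_add j (z - V.p) V.p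
                rw [sub_add_cancel] at c5
                rw [hu.2.2.1 z (by rw [mem_ds] at hz; omega), c5]; ring
          _ = _ := by rw [sum_add_distrib, ← sum_mul, c3, zero_mul, add_zero]
      rw [cv_YY hY hW hE _ (sp i) su, c2, mul_ite, mul_one, mul_zero] at c1
      have c3 := abs_vr_le hW hE (by positivity) (by positivity) (vp i).2 vu
      have c4 : CB * CD * (CU * (r : ℝ) ^ 2) * τ / (r : ℝ) ^ 2 = CB * CD * CU * τ := by field_simp
      rw [e1, sub_right_comm]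
      exact (abs_sub _ _).trans ((add_le_add ((c1.trans_eq c4).trans
        (kB _ _ hCD hCU (by linarith) (by linarith))) (c3.trans e2)).trans e3)
    · have c1 := lb _ _ _ _ su (sq' i)
        (hu.2.2.2.2 V.p ρ r (by omega) b1.le (by omega) (by rw [B30.ds_self]; omega)) (dd V.q i)
      have c2 : En (uc V.p ρ' j) (ud V.q ρ S i) = 0 := by
        rw [En_comm, (hY V.σ _ _ (sq' i)).2.2.1 _ _ hu.1]
        refine sum_eq_zero fun z hz => ?_
        rw [(((hd V.q i).2.2.2.2.2.2 V.p r (by rw [B30.p_snd, B30.q_snd]) hqp ρ8 (by omega)).1 z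
          (by rw [mem_ds] at hz; omega)).1, zero_mul]
      rw [cv_YY hY hW hE _ su (sq' i), c2, mul_zero, sub_zero, Vr_comm] at c1
      have c3 := abs_vr_le hW hE (by positivity) (by positivity) (vq i).2 vu
      have c4 : CB * (CU * (r : ℝ) ^ 2) * CD * τ / (r : ℝ) ^ 2 = CB * CU * CD * τ := by field_simp
      rw [e1]
      exact (abs_sub _ _).trans ((add_le_add ((c1.trans_eq c4).trans
        (kB _ _ hCU hCD (by linarith) (by linarith))) (c3.trans e2)).trans e3)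
  · have c1 := lb _ _ _ _ (sp i) (sq' j) (dd V.p i) (dd V.q j)
    set fp := fd V.p ρ i
    set fq := fd V.q ρ j
    set gp := A0 (ud V.p ρ S i) - fp with hgp
    set gq := A0 (ud V.q ρ S j) - fq with hgq
    have c2 : En (ud V.p ρ S i) (ud V.q ρ S j) = ∑ z ∈ bl V.q ρ, fq z * ud V.p ρ S i z +
        ∑ z ∈ bl V.p (2 * S), gq z * ud V.p ρ S i z := by
      rw [En_comm, (hY V.σ _ _ (sq' j)).2.2.1 _ _ (hd V.p i).2.2.1,
        sum_subset (B30.bl_sub (z := V.q) (r := ρ) (w := V.p) (r' := 2 * S) (by omega)) fun z _ hz =>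
          mul_eq_zero_of_left ((hd V.q j).2.1 z hz) _, ← sum_add_distrib]
      exact sum_congr rfl fun z _ => by rw [hgq, Pi.sub_apply]; ring
    have c3 := far_pair hCD hpq (by omega) (hd V.q j).2.2.2.2.1 (dd V.p i)
    rw [cv_YY hY hW hE _ (sp i) (sq' j), c2, show A0 (ud V.p ρ S i) = fp + gp by rw [hgp]; abel,
      show A0 (ud V.q ρ S j) = fq + gq by rw [hgq]; abel, pr_add, pr_add, hE.Vr_add_left,
      hE.Vr_add_right, hE.Vr_add_right] at c1
    have c4 := abs_vr_le hW hE (by positivity) (by positivity) (vp i).1 (vq j).2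
    have c5 := abs_vr_le hW hE (by positivity) (by positivity) (vp i).2 (vq j).1
    have c6 := abs_vr_le hW hE (by positivity) (by positivity) (vp i).2 (vq j).2
    have c7 : |gc r * ∑ z ∈ bl V.p (2 * S), gq z * ud V.p ρ S i z| ≤ 1 * (100 * CD ^ 2 / (S : ℝ) ^ 2) := by
      rw [abs_mul]; gcongr
    have d1 : (r : ℝ) / ρ * (r / S) ≤ τ := by
      calc _ ≤ t ^ 3 * (1 / t ^ 5) := by
            gcongr; rw [div_le_iff₀ ρ0]; linarith
        _ = 1 / t ^ 2 := by field_simp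
        _ ≤ _ := τ2
    have d2 : (r : ℝ) / S * (r / S) ≤ τ := by
      calc _ ≤ 1 * τ := by
            gcongr
            · exact (q1.trans q2).trans τ1
            · exact q1.trans q2
        _ = _ := one_mul _
    have d3 := kB _ _ hCD hCD (by linarith) (by linarith)
    have r2 : (0 : ℝ) < (r : ℝ) ^ 2 := by positivity
    rw [mul_left_comm, ← mul_sub, abs_mul, abs_of_pos r2, ← le_div_iff₀' r2]
    have d4 : a / ρ * (a / S) ≤ a ^ 2 * τ / (r : ℝ) ^ 2 := by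
      rw [le_div_iff₀ r2]
      calc _ = a ^ 2 * (r / ρ * (r / S)) := by ring
        _ ≤ _ := by gcongr
    have d5 : a / S * (a / S) ≤ a ^ 2 * τ / (r : ℝ) ^ 2 := by
      rw [le_div_iff₀ r2]
      calc _ = a ^ 2 * (r / S * (r / S)) := by ring
        _ ≤ _ := by gcongr
    have d6 : 1 * (100 * CD ^ 2 / (S : ℝ) ^ 2) ≤ 100 * CD ^ 2 * τ / (r : ℝ) ^ 2 := by
      rw [le_div_iff₀ r2]
      calc _ = 100 * CD ^ 2 * (r / S * (r / S)) := by ring
        _ ≤ _ := by gcongr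
    have d7 : CB * CD * CD * τ / (r : ℝ) ^ 2 ≤ |CB| * (CD + CU) ^ 2 * τ / (r : ℝ) ^ 2 := by gcongr
    have d8 : K * τ / (r : ℝ) ^ 2 = |CB| * (CD + CU) ^ 2 * τ / (r : ℝ) ^ 2 +
      3 * (a ^ 2 * τ / (r : ℝ) ^ 2) + 100 * CD ^ 2 * τ / (r : ℝ) ^ 2 := by rw [hK]; ring
    rw [mul_comm (a / S)] at c5
    rw [mul_add] at c1
    rw [d8]
    rw [abs_le] at c1 c4 c5 c6 c7 ⊢
    constructor <;> linarith [c1.1, c1.2, c4.1, c4.2, c5.1, c5.2, c6.1, c6.2, c7.1, c7.2]

end Crest.Agent.T145.Vx
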