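import Crest.Agent.T145.VxCal_48
import Crest.Agent.T145.VdNe_27

/-!
# Row 145, S0198 (helper34): crude moment bounds for linear functionals of the currents in a sector

`ex_exp_Yf` : exponential moments; `ex_Yf_sq` : `E_σ (∑ ψ n)² ≤ 3 (2 + b + log (1 / rat))² ∑ ψ²`.
-/

set_option autoImplicit false

namespace Crest.Agent.T145.Vx34

open Finset Vd Inf48
open Sl46 (fl fl_apply)

variable {b : ℝ} {m : Mdl Pt} {T : Finset (Pt × Pt)}

theorem cosh_sub_le {x : ℝ} (hx : |x| ≤ 1) : Real.cosh x - 1 ≤ x ^ 2 := by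
  have h1 := Real.abs_exp_sub_one_sub_id_le hx
  have h2 := Real.abs_exp_sub_one_sub_id_le (x := -x) (by rwa [abs_neg])
  rw [Real.cosh_eq]
  rw [neg_sq] at h2
  linarith [(abs_le.1 h1).2, (abs_le.1 h2).2]

theorem sq_le_exp {A x : ℝ} (hA : 2 ≤ A) :
    x ^ 2 ≤ A ^ 2 * (1 + Real.exp (x - A) + Real.exp (-x - A)) := by
  have key : ∀ x : ℝ, A ≤ x → x ^ 2 ≤ A ^ 2 * Real.exp (x - A) := by
    intro x hx
    have h1 := Real.add_one_le_exp ((x - A) / 2)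
    have h2 : Real.exp (x - A) = Real.exp ((x - A) / 2) ^ 2 := by
      rw [← Real.exp_nat_mul]; congr 1; push_cast; ring
    rw [h2, ← mul_pow]
    refine pow_le_pow_left₀ (by linarith) ?_ 2
    nlinarith
  have e1 := Real.exp_pos (x - A)
  have e2 := Real.exp_pos (-x - A)
  have hA2 : 0 ≤ A ^ 2 := sq_nonneg A
  rcases le_total A x with h | h
  · nlinarith [key x h]
  · rcases le_total A (-x) with h' | h'
    · have := key (-x) h'
      rw [neg_sq] at this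
      nlinarith
    · have : x ^ 2 ≤ A ^ 2 := by nlinarith
      nlinarith

theorem Yf_eq (T : Finset (Pt × Pt)) (ψ : Pt × Pt → ℝ) (σ : Pt × Pt → ℤ) (s : Cfg Pt) :
    Yf T ψ σ s = fl T ψ s + ∑ e ∈ T, ψ e * σ e := by
  rw [Yf, fl_apply, ← sum_add_distrib]
  exact sum_congr rfl fun e _ => by rw [nE]; push_cast; ring

theorem Yf_mul (T : Finset (Pt × Pt)) (c : ℝ) (ψ : Pt × Pt → ℝ) (σ : Pt × Pt → ℤ) (s : Cfg Pt) :
    Yf T (fun e => c * ψ e) σ s = c * Yf T ψ σ s := by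
  simp only [Yf, mul_sum, mul_assoc]

theorem Yf_ext {T' : Finset (Pt × Pt)} (hT : T ⊆ T') (ψ : Pt × Pt → ℝ) (σ : Pt × Pt → ℤ) (s : Cfg Pt) :
    Yf T' (fun e => if e ∈ T then ψ e else 0) σ s = Yf T ψ σ s := by
  simp only [Yf, ite_mul, zero_mul]
  rw [← sum_filter, filter_mem_eq_inter, inter_eq_right.2 hT]

theorem tame_exp_Yf (T : Finset (Pt × Pt)) (ψ : Pt × Pt → ℝ) (σ : Pt × Pt → ℤ) :
    Tame fun s => Real.exp (Yf T ψ σ s) :=
  ((Tame.exp (fl T ψ)).mul_const (Real.exp (∑ e ∈ T, ψ e * σ e))).congr fun s => by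
    rw [Yf_eq, Real.exp_add]

/-- exponential moments in a sector -/
theorem ex_exp_Yf (hb : 0 < b) (hm : m.Ctr) (hA : m.Anch) (hw : ∀ e ∈ m.ed, m.w e = bes b)
    (hT : T ⊆ m.ed) (σ : Pt × Pt → ℤ) (ψ : Pt × Pt → ℝ) :
    Ex (m.Ws 0 σ) (fun s => Real.exp (Yf T ψ σ s)) ≤
      Real.exp (∑ e ∈ T, b * (Real.cosh (ψ e) - 1)) / rat m σ := by
  have h1 := bareSStmt b m hb hm hA hw σ fun e => if e ∈ T then ψ e else 0
  have h2 : ∑ e ∈ m.ed, b * (Real.cosh (if e ∈ T then ψ e else 0) - 1) =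
      ∑ e ∈ T, b * (Real.cosh (ψ e) - 1) := by
    rw [← sum_subset hT fun e _ he => by simp [he]]
    exact sum_congr rfl fun e he => by rw [if_pos he]
  have h3 := Z0_pos hm hA
  have h4 := (Md.ctr_wts hm hA 0 σ).pos
  rw [le_div_iff₀ (rat_pos hm hA σ), ← h2]
  refine le_trans (le_of_eq ?_) h1
  simp only [← Yf_ext hT ψ σ, Yf_eq, Real.exp_add, Ex_mul_const, Ex_exp_eq, rat, zt]
  field_simp

/-- second moments in a sector -/
theorem ex_Yf_sq (hb : 0 < b) (hm : m.Ctr) (hA : m.Anch) (hw : ∀ e ∈ m.ed, m.w e = bes b)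
    (hT : T ⊆ m.ed) (σ : Pt × Pt → ℤ) (ψ : Pt × Pt → ℝ) :
    Ex (m.Ws 0 σ) (fun s => Yf T ψ σ s ^ 2) ≤
      3 * (2 + b - Real.log (rat m σ)) ^ 2 * ∑ e ∈ T, ψ e ^ 2 := by
  have hW := Md.ctr_wts hm hA 0 σ
  have hS := Md.ctr_ses hm hA 0 σ
  have hr := rat_pos hm hA σ
  have hl : Real.log (rat m σ) ≤ 0 := Real.log_nonpos hr.le (rat_le_one hm hA σ)
  set A := 2 + b - Real.log (rat m σ) with hA'
  set n := ∑ e ∈ T, ψ e ^ 2 with hn
  have hn0 : 0 ≤ n := sum_nonneg fun _ _ => sq_nonneg _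
  rcases hn0.eq_or_lt with h0 | h0
  · have h1 := (sum_eq_zero_iff_of_nonneg fun _ _ => sq_nonneg _).1 h0.symm
    have h2 : ∀ s, Yf T ψ σ s = 0 := fun s =>
      sum_eq_zero fun e he => by rw [pow_eq_zero_iff two_ne_zero |>.1 (h1 e he), zero_mul]
    simp [h2, ← h0]
  have hN := Real.sqrt_pos.2 h0
  have hN2 := Real.sq_sqrt hn0
  set N := √n
  have key : ∀ c : ℝ, c ^ 2 * n = 1 →
      Ex (m.Ws 0 σ) (fun s => Real.exp (c * Yf T ψ σ s - A)) ≤ 1 := by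
    intro c hc
    have h1 := ex_exp_Yf hb hm hA hw hT σ fun e => c * ψ e
    have h2 : ∑ e ∈ T, b * (Real.cosh (c * ψ e) - 1) ≤ b := by
      calc _ ≤ ∑ e ∈ T, b * (c * ψ e) ^ 2 := sum_le_sum fun e he => by
            refine mul_le_mul_of_nonneg_left (cosh_sub_le ?_) hb.le
            rw [← sq_le_one_iff_abs_le_one, mul_pow, ← hc]
            gcongr
            exact single_le_sum (f := fun e => ψ e ^ 2) (fun _ _ => sq_nonneg _) he
        _ = b := by simp only [mul_pow, ← mul_sum]; rw [← hn, hc, mul_one]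
    simp only [Yf_mul] at h1
    simp only [Real.exp_sub, Ex_div_const]
    rw [div_le_one (Real.exp_pos _)]
    refine h1.trans ?_
    rw [hA', Real.exp_sub, Real.exp_log hr]
    gcongr
    linarith
  have i1 : ∀ c : ℝ, Ig (m.Ws 0 σ) fun s => Real.exp (c * Yf T ψ σ s - A) := fun c => by
    simp only [Real.exp_sub, ← Yf_mul]
    exact hS.ig ((tame_exp_Yf _ _ _).div_const _)
  have k1 := key (1 / N) (by rw [← hN2]; field_simp)
  have k2 := key (-(1 / N)) (by rw [← hN2]; field_simp)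
  have h3 := Ex_mono hW.nonneg (hS.ig ((lo_Yf T ψ σ).2.pow 2))
    ((((hW.ig_const 1).add (i1 (1 / N))).add (i1 (-(1 / N)))).const_mul (A ^ 2 * n)) fun s => by
      have h4 := sq_le_exp (A := A) (x := 1 / N * Yf T ψ σ s) (by linarith)
      rw [neg_mul]
      calc _ = (1 / N * Yf T ψ σ s) ^ 2 * n := by rw [← hN2]; field_simp
        _ ≤ _ := mul_le_mul_of_nonneg_right h4 hn0
        _ = _ := by ring
  rw [Ex_const_mul, Ex_add ((hW.ig_const 1).add (i1 _)) (i1 _), Ex_add (hW.ig_const 1) (i1 _),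
    hW.ex_const] at h3
  have h5 : 0 ≤ A ^ 2 * n := by positivity
  nlinarith

/-- covariances of two linear functionals in a sector -/
theorem abs_cv_Yf (hb : 0 < b) (hm : m.Ctr) (hA : m.Anch) (hw : ∀ e ∈ m.ed, m.w e = bes b)
    (hT : T ⊆ m.ed) (σ : Pt × Pt → ℤ) (ψ : Pt × Pt → ℝ) {F : Cfg Pt → ℝ} (hF : Tame F) :
    Cv (m.Ws 0 σ) F (Yf T ψ σ) ^ 2 ≤ Cv (m.Ws 0 σ) F F *
      (3 * (2 + b - Real.log (rat m σ)) ^ 2 * ∑ e ∈ T, ψ e ^ 2) := by
  have hW := Md.ctr_wts hm hA 0 σ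
  have hS := Md.ctr_ses hm hA 0 σ
  have hY := (lo_Yf T ψ σ).2
  refine (hW.cv_sq_le (hS.ig (hF.pow 2)) (hS.ig (hY.pow 2))).trans
    (mul_le_mul_of_nonneg_left ?_ (hW.cv_self_nonneg (hS.ig (hF.pow 2))))
  refine le_trans ?_ (ex_Yf_sq hb hm hA hw hT σ ψ)
  simp only [Cv, ← pow_two]
  linarith [sq_nonneg (Ex (m.Ws 0 σ) (Yf T ψ σ))]

end Crest.Agent.T145.Vx34
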