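import Crest.Agent.T145.VxBas_30
import Crest.Agent.T145.VxVb_34
import Crest.Agent.T145.KsA_68
import Crest.Agent.T145.NcGeo_51

/-!
# Row 145, twisted module (helper22): `Vx.micStmt`, the microscopic bounds
-/

set_option autoImplicit false

namespace Crest.Agent.T145.Vx

open Finset
open Nc (an Amb)
open Vd (rat)
open B30

namespace M22

variable {b k : ℝ} {σ : Pt × Pt → ℤ} {z w : Pt} {c : ℕ} {e : Pt × Pt}

theorem rat_fr (b : ℝ) {U : Finset Pt} {x : Pt} (hx : x ∈ U) (σ : Pt × Pt → ℤ) :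
    rat (fr b U) σ = rat ((xyL b).Nr U x) σ := by
  have h := Nc.Geo.inL_N (Λ := xyL b) (Subset.refl U)
  have e : rat (fr b U) σ = Ks68.zr (Ks68.fr ((xyL b).N U) U) σ := rfl
  rw [e, Ks68.zr_root hx, Ks68.zr, h.pn_W, h.pn_Ws, sdiff_singleton_eq_erase]
  rfl

/-- the constant of the second moment of one current -/
noncomputable def Q (b k : ℝ) : ℝ := 3 * (2 + b - Real.log k) ^ 2

theorem Q_nonneg (b k : ℝ) : 0 ≤ Q b k := by unfold Q; positivity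

theorem tame_n (σ : Pt × Pt → ℤ) (e : Pt × Pt) : Tame fun s => (nE σ e s : ℝ) := Inf48.tame_nE σ e

theorem depG_n (σ : Pt × Pt → ℤ) {B : Finset Pt} (h1 : e.1 ∈ B) (h2 : e.2 ∈ B) {β : Type}
    (g : ℤ → β) : DepG B fun s => g (nE σ e s) := (DepG.dE h1 h2).comp fun j => g (j + σ e)

/-- second moment of one current in a free box -/
theorem ex_sq (hb : 0 < b) (hk : 0 < k) (hr : k ≤ rat (fr b (bl z c)) σ)
    (he : e ∈ (xyL b).edI (bl z c)) :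
    (xyL b).exN σ z c (fun s => (nE σ e s : ℝ) ^ 2) ≤ Q b k := by
  have hΛ := xyL_ok hb
  have hc := hΛ.ctr_Nr (bl z c) z
  have ha := hΛ.anch_Nr_bl (self_mem_bl z c)
  rw [rat_fr b (self_mem_bl z c)] at hr
  have h1 := Vx34.ex_Yf_sq (T := {e}) hb hc ha (fun _ _ => rfl) (singleton_subset_iff.2 he) σ
    fun _ => 1
  simp only [Inf48.Yf, sum_singleton, one_mul, one_pow, mul_one] at h1
  refine h1.trans ?_
  have h2 := Real.log_le_log hk hr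
  have h3 := Real.log_nonpos (Vd.rat_pos hc ha σ).le (Vd.rat_le_one hc ha σ)
  unfold Q
  gcongr
  linarith

theorem Jv_eq (σ : Pt × Pt → ℤ) (z : Pt) (s : Cfg Pt) : Jv σ z s =
    (nE σ (z - ev 0, z) s - nE σ (z, z + ev 0) s) + (nE σ (z - ev 1, z) s - nE σ (z, z + ev 1) s) := by
  rw [Jv, Fin.sum_univ_two]

theorem tame_Jv (σ : Pt × Pt → ℤ) (z : Pt) : Tame (Jv σ z) :=
  Tame.sum univ fun _ _ => (tame_n σ _).sub (tame_n σ _)

theorem mem_sub (h : ds w z < c) (i : Fin 2) : w - ev i ∈ bl z c ∧ w ∈ bl z c ∧ w + ev i ∈ bl z c := by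
  simp only [ds, max_lt_iff] at h
  fin_cases i <;> simp [mem_bl, ev] <;> omega

theorem ins_Jv (σ : Pt × Pt → ℤ) (h : ds w z < c) : Ins z c (Jv σ w) :=
  ⟨DepG.sum fun i _ => (depG_n σ (mem_sub h i).1 (mem_sub h i).2.1 fun j => (j : ℝ)).sub
    (depG_n σ (mem_sub h i).2.1 (mem_sub h i).2.2 fun j => (j : ℝ)), tame_Jv σ w⟩

theorem ev_mem (b : ℝ) (i : Fin 2) : ev i ∈ (xyL b).Jp := by
  have : (xyL b).Jp = Pot.nL.Jp := rfl
  rw [this, Vd.mem_Jp]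
  fin_cases i <;> simp [ev]

theorem ex_J (hb : 0 < b) (hk : 0 < k) (hr : k ≤ rat (fr b (bl z c)) σ) (h : ds w z < c) :
    (xyL b).exN σ z c (fun s => Jv σ w s ^ 2) ≤ 16 * Q b k := by
  have hΛ := xyL_ok hb
  have a : ∀ i, (xyL b).exN σ z c (fun s => (nE σ (w - ev i, w) s : ℝ) ^ 2) ≤ Q b k := fun i =>
    ex_sq hb hk hr (Lat.mem_edI.2 ⟨by simpa using ev_mem b i, (mem_sub h i).1, (mem_sub h i).2.1⟩)
  have a' : ∀ i, (xyL b).exN σ z c (fun s => (nE σ (w, w + ev i) s : ℝ) ^ 2) ≤ Q b k := fun i =>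
    ex_sq hb hk hr (Lat.mem_edI.2 ⟨by simpa using ev_mem b i, (mem_sub h i).2.1, (mem_sub h i).2.2⟩)
  have t : ∀ e, Tame fun s => (nE σ e s : ℝ) ^ 2 := fun e => (tame_n σ e).pow 2
  have h1 := exN_mono (σ := σ) (z := z) (R := c) hΛ ((tame_Jv σ w).pow 2)
    ((((t (w - ev 0, w)).add (t (w, w + ev 0))).add ((t (w - ev 1, w)).add (t (w, w + ev 1)))).const_mul 4)
    fun s => by
      rw [Jv_eq]
      generalize (nE σ (w - ev 0, w) s : ℝ) = x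
      generalize (nE σ (w, w + ev 0) s : ℝ) = y
      generalize (nE σ (w - ev 1, w) s : ℝ) = u
      generalize (nE σ (w, w + ev 1) s : ℝ) = v
      nlinarith [sq_nonneg (x + y), sq_nonneg (x - u), sq_nonneg (x + v), sq_nonneg (y + u),
        sq_nonneg (y - v), sq_nonneg (u + v)]
  rw [exN_smul, exN_add hΛ ((t _).add (t _)) ((t _).add (t _)), exN_add hΛ (t _) (t _),
    exN_add hΛ (t _) (t _)] at h1
  linarith [a 0, a 1, a' 0, a' 1]

/-- the inverse of the micro move -/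
noncomputable def Di (b : ℝ) (V : Vp) (s : Cfg Pt) : ℝ :=
  bes b (nE V.σ V.e s) / bes b (nE V.σ V.e s + 1)

theorem bes_pos (hb : 0 < b) (j : ℤ) : 0 < bes b j := (xyL_ok hb).fam.pos j

theorem Dv_pos (hb : 0 < b) (V : Vp) (s : Cfg Pt) : 0 < Dv b V s := div_pos (bes_pos hb _) (bes_pos hb _)

theorem Di_pos (hb : 0 < b) (V : Vp) (s : Cfg Pt) : 0 < Di b V s := div_pos (bes_pos hb _) (bes_pos hb _)

theorem Dv_mul_Di (hb : 0 < b) (V : Vp) (s : Cfg Pt) : Dv b V s * Di b V s = 1 := by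
  have h1 := bes_pos hb (nE V.σ V.e s)
  have h2 := bes_pos hb (nE V.σ V.e s + 1)
  rw [Dv, Di]
  field_simp

theorem abs_le_sq (x : ℝ) : |x| ≤ 1 + x ^ 2 ∧ |x + 1| ≤ 2 + x ^ 2 := by
  constructor <;> rw [abs_le] <;> constructor <;> nlinarith [sq_nonneg (x - 1), sq_nonneg (x + 1)]

theorem Dv_le (hb : 0 < b) (V : Vp) (s : Cfg Pt) :
    |Dv b V s| ≤ (1 + 4 / b) + 2 / b * (nE V.σ V.e s : ℝ) ^ 2 := by
  rw [abs_of_pos (Dv_pos hb V s)]
  have h1 := Inf48.bes_succ_le hb (nE V.σ V.e s)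
  have h2 := mul_le_mul_of_nonneg_left (abs_le_sq (nE V.σ V.e s : ℝ)).1 (by positivity : 0 ≤ 2 / b)
  have h3 : 0 ≤ 2 / b := by positivity
  have h4 : 4 / b = 2 * (2 / b) := by ring
  rw [Dv]
  linarith

theorem Di_le (hb : 0 < b) (V : Vp) (s : Cfg Pt) :
    |Di b V s| ≤ (1 + 4 / b) + 2 / b * (nE V.σ V.e s : ℝ) ^ 2 := by
  rw [abs_of_pos (Di_pos hb V s)]
  have h1 := Inf48.bes_succ_le hb (-(nE V.σ V.e s + 1))
  have e1 : bes b (-(nE V.σ V.e s + 1) + 1) = bes b (nE V.σ V.e s) := by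
    rw [show -(nE V.σ V.e s + 1) + 1 = -nE V.σ V.e s by ring]
    exact Xy48.besI_neg _ _
  have e2 : bes b (-(nE V.σ V.e s + 1)) = bes b (nE V.σ V.e s + 1) := Xy48.besI_neg _ _
  rw [e1, e2] at h1
  push_cast at h1
  rw [abs_neg] at h1
  have h2 := mul_le_mul_of_nonneg_left (abs_le_sq (nE V.σ V.e s : ℝ)).2 (by positivity : 0 ≤ 2 / b)
  have h4 : 4 / b = 2 * (2 / b) := by ring
  rw [Di]
  linarith

theorem tame_maj (b : ℝ) (V : Vp) :
    Tame fun s => (1 + 4 / b) + 2 / b * (nE V.σ V.e s : ℝ) ^ 2 :=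
  (Tame.const _).add (((tame_n _ _).pow 2).const_mul _)

theorem e_mem (b : ℝ) (V : Vp) (hc : 1 ≤ c) : V.e ∈ (xyL b).edI (bl V.p c) := by
  have : (xyL b).Jp = Pot.nL.Jp := rfl
  rw [Lat.mem_edI, this, Vd.mem_Jp]
  obtain ⟨a, r, sd⟩ := V
  cases sd <;> simp [Vp.e, Vp.p, mem_bl] <;> omega

theorem ins_Dv (hb : 0 < b) (V : Vp) (hc : 1 ≤ c) : Ins V.p c (Dv b V) :=
  ⟨depG_n V.σ (Lat.mem_edI.1 (e_mem b V hc)).2.1 (Lat.mem_edI.1 (e_mem b V hc)).2.2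
    fun j => bes b (j + 1) / bes b j, (tame_maj b V).of_le (Dv_le hb V)⟩

theorem ins_Di (hb : 0 < b) (V : Vp) (hc : 1 ≤ c) : Ins V.p c (Di b V) :=
  ⟨depG_n V.σ (Lat.mem_edI.1 (e_mem b V hc)).2.1 (Lat.mem_edI.1 (e_mem b V hc)).2.2
    fun j => bes b j / bes b (j + 1), (tame_maj b V).of_le (Di_le hb V)⟩

theorem nrm_maj (hb : 0 < b) (hk : 0 < k) {V : Vp} (hr : k ≤ uu b V c) (hc : 1 ≤ c) {F : Cfg Pt → ℝ}
    (hF : ∀ s, |F s| ≤ (1 + 4 / b) + 2 / b * (nE V.σ V.e s : ℝ) ^ 2) :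
    (xyL b).nrm V.σ V.p c F ≤ (1 + 4 / b) + 2 / b * Q b k := by
  have hΛ := xyL_ok hb
  refine (nrm_le_exN hΛ (tame_maj b V) hF).trans ?_
  rw [exN_add hΛ (Tame.const _) (((tame_n _ _).pow 2).const_mul _), exN_const hΛ, exN_smul]
  have := ex_sq hb hk hr (e_mem b V hc)
  gcongr

theorem nrm_JJ (hb : 0 < b) (hk : 0 < k) {x : Pt} (hr : k ≤ rat (fr b (bl x c)) σ) (hz : ds z x < c)
    (hw : ds w x < c) : (xyL b).nrm σ x c (fun s => Jv σ z s * Jv σ w s) ≤ 16 * Q b k := by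
  refine (nrm_mul_le (xyL_ok hb) (tame_Jv σ z) (tame_Jv σ w)).trans ?_
  have h0 : 0 ≤ 16 * Q b k := by have := Q_nonneg b k; positivity
  refine (mul_le_mul (Real.sqrt_le_sqrt (ex_J hb hk hr hz)) (Real.sqrt_le_sqrt (ex_J hb hk hr hw))
    (Real.sqrt_nonneg _) (Real.sqrt_nonneg _)).trans_eq (Real.mul_self_sqrt h0)

theorem nrm_J (hb : 0 < b) (hk : 0 < k) {x : Pt} (hr : k ≤ rat (fr b (bl x c)) σ) (hz : ds z x < c) :
    (xyL b).nrm σ x c (Jv σ z) ≤ 1 + 16 * Q b k := by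
  have hΛ := xyL_ok hb
  refine (nrm_le_exN hΛ ((Tame.const 1).add ((tame_Jv σ z).pow 2)) fun s => (abs_le_sq _).1).trans ?_
  rw [exN_add hΛ (Tame.const _) ((tame_Jv σ z).pow 2), exN_const hΛ]
  linarith [ex_J hb hk hr hz]

theorem nrm_J2 (hb : 0 < b) (hk : 0 < k) {x : Pt} (hr : k ≤ rat (fr b (bl x c)) σ) (hz : ds z x < c) :
    (xyL b).nrm σ x c (fun s => Jv σ z s ^ 2) ≤ 16 * Q b k := by
  simpa only [pow_two] using nrm_JJ hb hk hr hz hz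

/-- the scale of the cell of a core, seen from a point at the distance `D` -/
theorem exists_scale {W r₀ r D : ℕ} (hW : 1 ≤ W) (h0 : 1 ≤ r₀) (hr : 4 * (W * r₀) ≤ r)
    (hD : 2 * (W * r₀) ≤ D) :
    ∃ ρ, r₀ ≤ ρ ∧ 4 * (W * ρ) ≤ r ∧ 2 * (W * ρ) ≤ D ∧ (r ≤ 2 * D ∨ D ≤ 4 * W * ρ) := by
  rcases le_or_gt r (2 * D) with h | h
  · exact ⟨r₀, le_rfl, hr, hD, .inl h⟩
  have h1 : r₀ ≤ D / (2 * W) := (Nat.le_div_iff_mul_le (by omega)).2 (by nlinarith)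
  have h2 := Nat.div_mul_le_self D (2 * W)
  have h3 := Nat.lt_div_mul_add (a := D) (show 0 < 2 * W by omega)
  refine ⟨D / (2 * W), h1, by nlinarith, by nlinarith, .inr (by nlinarith)⟩

variable {P : Par}

/-- domination of one insertion at the core `p` -/
theorem dom_p (hD : DomStmt) (hP : P.Ok) : ∃ C : ℝ, 0 ≤ C ∧ ∀ (V : Vp) (m : Mdl Pt) (ρ : ℕ)
    (F : Cfg Pt → ℝ), P.r₀ ≤ ρ → 4 * (P.W₀ * ρ) ≤ V.r → Amb P.L m (bl V.p (4 * V.r)) →
      (Ins V.p (ρ + 1) F → Ex (m.Ws 0 V.σ) (fun s => |F s|) ≤ C * P.N V V.p ρ F) ∧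
      (Ins V.q (ρ + 1) F → Ex (m.Ws 0 V.σ) (fun s => |F s|) ≤ C * P.N V V.q ρ F) := by
  obtain ⟨C, H⟩ := hD P hP 0
  refine ⟨max C 0, le_max_right _ _, fun V m ρ F h0 h1 hm => ?_⟩
  have ha : Adm P 0 V ρ ρ ∅ (fun _ => 0) fun _ => 0 :=
    ⟨h0, h1, h0, h1, by simp, by simp, by simp, by simp⟩
  refine ⟨fun hF => ?_, fun hF => ?_⟩
  · have := H V m ρ ρ ∅ _ _ F (fun _ => 1) (fun _ _ => 1) ha hm (by simp) hF (ins_const _ _ _)
    simp only [prod_empty, mul_one, N_one hP] at this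
    exact this.trans (mul_le_mul_of_nonneg_right (le_max_left _ _) (N_nonneg hP _ _ _ _))
  · have := H V m ρ ρ ∅ _ _ (fun _ => 1) F (fun _ _ => 1) ha hm (by simp) (ins_const _ _ _) hF
    simp only [prod_empty, mul_one, one_mul, N_one hP] at this
    exact this.trans (mul_le_mul_of_nonneg_right (le_max_left _ _) (N_nonneg hP _ _ _ _))

/-- domination of one insertion in a free cell of the smallest scale -/
theorem dom_f (hD : DomStmt) (hP : P.Ok) : ∃ C : ℝ, 0 ≤ C ∧ ∀ (V : Vp) (m : Mdl Pt) (z : Pt)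
    (G : Cfg Pt → ℝ), 4 * (P.W₀ * P.r₀) ≤ V.r → 4 * (P.W₀ * P.r₀) ≤ V.d z →
      Amb P.L m (bl V.p (4 * V.r)) → Amb P.L m (bl z (P.W₀ * P.r₀)) → Ins z (P.r₀ + 1) G →
      Ex (m.Ws 0 V.σ) (fun s => |G s|) ≤ C * P.N V z P.r₀ G := by
  obtain ⟨C, H⟩ := hD P hP (4 * P.W₀)
  refine ⟨max C 0, le_max_right _ _, fun V m z G h1 hz hm hm' hG => ?_⟩
  have hW := hP.W2
  have hr := hP.r2
  have dp := d_le_p V z
  have dq := d_le_q V z
  obtain ⟨ρp, p0, p1, p2, p3⟩ := exists_scale (W := P.W₀) (r₀ := P.r₀) (D := ds z V.p) (by omega)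
    (by omega) h1 (by omega)
  obtain ⟨ρq, q0, q1, q2, q3⟩ := exists_scale (W := P.W₀) (r₀ := P.r₀) (D := ds z V.q) (by omega)
    (by omega) h1 (by omega)
  have ha : Adm P (4 * P.W₀) V ρp ρq {0} (fun _ => z) fun _ => P.r₀ :=
    ⟨p0, p1, q0, q1, fun _ _ => ⟨le_rfl, hz⟩, fun _ _ => ⟨p2, p3⟩, fun _ _ => ⟨q2, q3⟩,
      fun i hi j hj hij => absurd ((mem_singleton.1 hi).trans (mem_singleton.1 hj).symm) hij⟩
  have := H V m ρp ρq {0} _ _ (fun _ => 1) (fun _ => 1) (fun _ => G) ha hm (fun _ _ => ⟨hm', hG⟩)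
    (ins_const _ _ _) (ins_const _ _ _)
  simp only [prod_singleton, mul_one, one_mul, N_one hP] at this
  exact this.trans (mul_le_mul_of_nonneg_right (le_max_left _ _) (N_nonneg hP _ _ _ _))

end M22

open M22

theorem micStmt (hD : DomStmt) (hG : GgStmt) : MicStmt := fun P hP => by
  have hb := b_pos hP
  have hW := hP.W2
  have hr := hP.r2
  refine ⟨fun c => ?_, ?_⟩
  · obtain ⟨k, hk, H⟩ := hP.k0 c
    have q := Q_nonneg P.b k
    have q' : 0 ≤ (1 + 4 / P.b) + 2 / P.b * Q P.b k := by positivity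
    refine ⟨1 + 16 * Q P.b k + ((1 + 4 / P.b) + 2 / P.b * Q P.b k), fun V z w hc hz hw h2 => ?_⟩
    have h1 := nrm_JJ hb hk (H V hc) hz hw
    have h3 := nrm_J hb hk (H V hc) hz
    have h4 := nrm_maj hb hk (H V hc) (by omega) (Dv_le hb V)
    exact ⟨le_trans h1 (by linarith), le_trans h3 (by linarith), le_trans h4 (by linarith)⟩
  obtain ⟨C₁, c1, H1⟩ := dom_p hD hP
  obtain ⟨C₂, c2, H2⟩ := dom_f hD hP
  set ρ := 4 * (P.W₀ * P.r₀) with hρ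
  have ρ0 : P.r₀ ≤ ρ := by nlinarith
  have ρ1 : ρ ≤ P.W₀ * ρ := by nlinarith
  obtain ⟨k, hk, H⟩ := hP.k0 (P.W₀ * ρ)
  have q := Q_nonneg P.b k
  have q1 := Q_nonneg P.b 1
  set A := C₁ * ((1 + 4 / P.b) + 2 / P.b * Q P.b k) + 1 with hA
  have A0 : 0 < A := by positivity
  refine ⟨1 / A, A + C₁ * (16 * Q P.b k) + C₂ * (16 * Q P.b 1), 4 * (P.W₀ * ρ), by positivity,
    fun V m hV hm => ?_⟩
  have hWt := amb_wt hm V.σ
  have a1 : 0 ≤ C₁ * (16 * Q P.b k) := by positivity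
  have a2 : 0 ≤ C₂ * (16 * Q P.b 1) := by positivity
  have iD := ins_Dv (c := ρ + 1) hb V (by omega)
  have iI := ins_Di (c := ρ + 1) hb V (by omega)
  have hD1 := ((H1 V m ρ _ ρ0 hV hm).1 iD).trans (mul_le_mul_of_nonneg_left
    (nrm_maj hb hk (H V (by omega)) (by omega) (Dv_le hb V)) c1)
  have hD2 := ((H1 V m ρ _ ρ0 hV hm).1 iI).trans (mul_le_mul_of_nonneg_left
    (nrm_maj hb hk (H V (by omega)) (by omega) (Di_le hb V)) c1)
  simp only [abs_of_pos (Dv_pos hb V _)] at hD1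
  simp only [abs_of_pos (Di_pos hb V _)] at hD2
  refine ⟨?_, by linarith, fun z hz => ?_⟩
  · have h1 := Ex_mono hWt.nonneg (hWt.ig_const 2)
      (((amb_ig hm V.σ iD.2).const_mul A).add ((amb_ig hm V.σ iI.2).const_mul (1 / A))) fun s => by
        have h2 := Dv_mul_Di hb V s
        have h3 := Dv_pos hb V s
        have h4 : 1 / A * Di P.b V s = 1 / (A * Dv P.b V s) := by
          field_simp
          linarith
        have h5 : 0 < A * Dv P.b V s := by positivity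
        rw [h4, ← sub_le_iff_le_add', le_div_iff₀ h5]
        nlinarith [sq_nonneg (A * Dv P.b V s - 1)]
    rw [hWt.ex_const, Ex_add ((amb_ig hm V.σ iD.2).const_mul A) ((amb_ig hm V.σ iI.2).const_mul _),
      Ex_const_mul, Ex_const_mul] at h1
    have h2 : 1 / A * Ex (m.Ws 0 V.σ) (Di P.b V) ≤ 1 := by
      rw [one_div, inv_mul_le_iff₀ A0]
      linarith
    rw [div_le_iff₀ A0]
    linarith
  have e : (fun s => Jv V.σ z s ^ 2) = fun s => |Jv V.σ z s ^ 2| :=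
    funext fun s => (abs_of_nonneg (sq_nonneg _)).symm
  have iJ : ∀ (x : Pt) (c : ℕ), ds z x < c → Ins x c fun s => Jv V.σ z s ^ 2 := fun x c h =>
    ⟨(ins_Jv V.σ h).1.comp (· ^ 2), (tame_Jv _ _).pow 2⟩
  rw [e]
  rcases le_or_gt ρ (V.d z) with h | h
  · obtain ⟨g, -, h1, -⟩ := hG P.b V z (P.W₀ * P.r₀) hb (by nlinarith)
    have h2 := (H2 V m z _ (by omega) h hm hz (iJ z _ (by rw [ds_self]; omega))).trans
      (mul_le_mul_of_nonneg_left (nrm_J2 hb one_pos h1.ge (by rw [ds_self]; nlinarith)) c2)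
    linarith
  rcases min_lt_iff.1 h with h | h
  · have h2 := ((H1 V m ρ _ ρ0 hV hm).1 (iJ _ _ (by omega))).trans
      (mul_le_mul_of_nonneg_left (nrm_J2 hb hk (H V (by omega)) (by omega)) c1)
    linarith
  · have h2 := ((H1 V m ρ _ ρ0 hV hm).2 (iJ _ _ (by omega))).trans
      (mul_le_mul_of_nonneg_left (nrm_J2 hb hk (H V.sw (by rw [sw_r]; omega)) (by omega)) c1)
    linarith

end Crest.Agent.T145.Vx
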