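import Crest.Agent.T145.VxDef_35
import Crest.Agent.T145.FlBas_4
import Crest.Agent.T145.NcLat_37

/-!
# Row 145, twisted module: transport of the left functionals and purification (helper3)

`tpStmt : FjStmt → YStmt → UcStmt → TpStmt`, `purStmt : TpStmt → PurStmt`.
-/

set_option autoImplicit false

namespace Crest.Agent.T145.Vx

open Finset Filter Topology
open Nc (Amb)

namespace Pur3

theorem mem_bl_ds {z p : Pt} {n : ℕ} : z ∈ bl p n ↔ ds z p ≤ n := by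
  rw [mem_bl, ds]; omega

theorem ds_far (V : Vp) (z : Pt) : V.r ≤ ds z V.p + ds z V.q := by
  obtain ⟨a, r, sd⟩ := V
  cases sd <;> simp only [ds, Vp.p, Vp.q, Vp.sw] <;> simp <;> omega

theorem nb_near (V : Vp) {z : Pt} (h : 2 * ds z V.p ≤ V.r) :
    nb V z (ds z V.p) = 1 / (1 + (ds z V.p : ℝ)) ^ 2 := by
  have h1 := ds_far V z
  have hd : V.d z = ds z V.p := by rw [Vp.d]; omega
  rw [nb, hd, if_pos (min_le_left _ _), min_self]

theorem nu_nonneg {P : Par} (hP : P.Ok) (V : Vp) (ρ : ℕ) (F : Cfg Pt → ℝ) : 0 ≤ P.ν V ρ F :=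
  Ex_nonneg (Md.ctr_wts (hP.crit.1.ctr_Nr _ _) (hP.crit.1.anch_Nr_bl (self_mem_bl _ _)) 0 _).nonneg
    fun _ _ => abs_nonneg _

theorem cv_Y (hY : YStmt) {m : Mdl Pt} (hc : m.Ctr) (ha : m.Anch) (σ : Pt × Pt → ℤ)
    {F : Cfg Pt → ℝ} (hF : Tame F) {S : Finset Pt} {u : Pt → ℝ} (hu : Sup S u) :
    Cv (m.Ws 0 σ) F (Yv σ u) = ∑ z ∈ S, u z * Cv (m.Ws 0 σ) F (Jv σ z) := by
  obtain ⟨h1, -, -, -, h5⟩ := hY σ S u hu
  have hs := Md.ctr_ses hc ha 0 σ
  rw [funext h1, Cv_comm, Cv_sum_left S (fun z _ => hs.ig ((h5 z).1.2.const_mul _))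
    fun z _ => hs.ig (((h5 z).1.2.const_mul _).mul hF)]
  exact sum_congr rfl fun z _ => by rw [Cv_const_mul_left, Cv_comm]

/-- the closed recursion: Lasota-Yorke upwards, transport downwards -/
theorem rec (n : ℕ) (x l : ℕ → ℝ) {C θ η τ : ℝ} (hx : ∀ k, 0 ≤ x k) (hl : l n = 0) (hC : 0 ≤ C)
    (hη : 0 ≤ η) (θ0 : 0 ≤ θ) (θ1 : θ ≤ 1 / 2) (τ1 : τ ≤ 1) (hτ : 4 * (C * η * n) ≤ τ)
    (up : ∀ k < n, x (k + 1) ≤ C * l (k + 1) + θ * x k)
    (dn : ∀ k < n, l k ≤ l (k + 1) + η * x k) : ∀ k ≤ n, x k ≤ x 0 * (τ + θ ^ k) := by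
  obtain ⟨k₀, hk₀, hM⟩ := exists_max_image (range (n + 1)) x ⟨0, by simp⟩
  set M := x k₀
  have M0 : 0 ≤ M := hx _
  have hM' : ∀ k ≤ n, x k ≤ M := fun k hk => hM k (by simp; omega)
  have h1 : ∀ j k : ℕ, k + j = n → l k ≤ η * M * j := by
    intro j
    induction j with
    | zero => intro k hk; obtain rfl : k = n := hk; simp [hl]
    | succ j ih =>
      intro k hk
      have a := ih (k + 1) (by omega)
      have b := dn k (by omega)
      have c := mul_le_mul_of_nonneg_left (hM' k (by omega)) hη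
      push_cast; linarith
  have h2 : ∀ k ≤ n, C * l k ≤ C * η * n * M := fun k hk => by
    have a := h1 (n - k) k (by omega)
    have b : ((n - k : ℕ) : ℝ) ≤ n := by exact_mod_cast Nat.sub_le n k
    have c := mul_le_mul_of_nonneg_left (a.trans (mul_le_mul_of_nonneg_left b (mul_nonneg hη M0))) hC
    linarith
  have E0 : 0 ≤ C * η * n * M := by positivity
  have h3 : ∀ k ≤ n, x k ≤ θ ^ k * x 0 + 2 * (C * η * n * M) := by
    intro k
    induction k with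
    | zero => intro _; simp only [pow_zero]; linarith
    | succ k ih =>
      intro hk
      have a := mul_le_mul_of_nonneg_left (ih (by omega)) θ0
      have b := up k (by omega)
      have c := h2 (k + 1) hk
      have d := mul_le_mul_of_nonneg_right θ1 E0
      rw [pow_succ]; nlinarith
  have t1 : 4 * (C * η * n * M) ≤ τ * M := by
    have := mul_le_mul_of_nonneg_right hτ M0; linarith
  have τ0 : 0 ≤ τ := le_trans (by positivity) hτ
  have h4 : M ≤ 2 * x 0 := by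
    have a := h3 k₀ (by simp at hk₀; omega)
    have b := mul_le_mul_of_nonneg_right (pow_le_one₀ (n := k₀) θ0 (θ1.trans (by norm_num))) (hx 0)
    have c := mul_le_mul_of_nonneg_right τ1 M0
    linarith
  intro k hk
  have a := h3 k hk
  have b := mul_le_mul_of_nonneg_left h4 τ0
  linarith

theorem th_le {W : ℕ} (hW : 16 ≤ W) : (W : ℝ) ^ (-(3 / 4 : ℝ)) ≤ 1 / 2 := by
  have h16 : (16 : ℝ) ≤ W := by exact_mod_cast hW
  calc (W : ℝ) ^ (-(3 / 4 : ℝ)) ≤ (16 : ℝ) ^ (-(3 / 4 : ℝ)) :=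
        Real.rpow_le_rpow_of_nonpos (by norm_num) h16 (by norm_num)
    _ ≤ (16 : ℝ) ^ (-(1 / 4 : ℝ)) := Real.rpow_le_rpow_of_exponent_le (by norm_num) (by norm_num)
    _ = 1 / 2 := by
        rw [show (16 : ℝ) = 2 ^ (4 : ℝ) by norm_num, ← Real.rpow_mul (by norm_num)]; norm_num

/-- numerics of the window `r / t ^ 3 ≤ ρ ≤ W ^ n ρ ≤ r` -/
theorem win (B : ℝ) : ∃ r₁ : ℕ, ∀ r : ℕ, r₁ ≤ r → ∀ W ρ n : ℕ, 16 ≤ W →
    (r : ℝ) ≤ ρ * Real.log r ^ 3 → W ^ n * ρ ≤ r →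
      1 ≤ Real.log r ∧ B ≤ ρ ∧ Real.log r / 2 ≤ Real.log ρ ∧
        B * n / Real.log r ≤ Real.log r ^ (-(3 / 4 : ℝ)) := by
  have hT : Tendsto (fun r : ℕ => Real.log r ^ (1 / 8 : ℝ)) atTop atTop :=
    (tendsto_rpow_atTop (by norm_num)).comp (Real.tendsto_log_atTop.comp tendsto_natCast_atTop_atTop)
  obtain ⟨r₁, hr₁⟩ := eventually_atTop.1 ((hT.eventually_ge_atTop (2 + 24 * |B|)).and
    (eventually_ge_atTop 1))
  refine ⟨r₁, fun r hr W ρ n hW h1 h2 => ?_⟩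
  obtain ⟨hs, r1⟩ := hr₁ r hr
  have r0 : (0 : ℝ) < r := by exact_mod_cast r1
  have t0 : 0 ≤ Real.log r := Real.log_natCast_nonneg r
  set t := Real.log r with ht
  set s := t ^ (1 / 8 : ℝ) with hsd
  have B0 := abs_nonneg B
  have B1 := le_abs_self B
  have s2 : 2 ≤ s := by linarith
  have ts : t = s ^ 8 := by
    rw [hsd, ← Real.rpow_natCast, ← Real.rpow_mul t0]; norm_num
  have s7 : 128 ≤ s ^ 7 := le_trans (by norm_num) (pow_le_pow_left₀ (by norm_num) s2 7)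
  have t8 : 128 * s ≤ t := by rw [ts, pow_succ]; nlinarith
  have tp : 0 < t := by linarith
  have lt : Real.log t ≤ 8 * s := by
    have := Real.log_le_rpow_div t0 (show (0 : ℝ) < 1 / 8 by norm_num); linarith
  have ρ0 : (0 : ℝ) < ρ := by
    rcases Nat.eq_zero_or_pos ρ with h | h
    · rw [h] at h1; simp at h1; linarith
    · exact_mod_cast h
  have lρ : t / 2 ≤ Real.log ρ := by
    have := Real.log_le_log r0 h1
    rw [Real.log_mul ρ0.ne' (by positivity), Real.log_pow] at this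
    push_cast at this; linarith
  have hn : (n : ℝ) ≤ 24 * s := by
    have W0 : (16 : ℝ) ≤ W := by exact_mod_cast hW
    have a : (W : ℝ) ^ n ≤ t ^ 3 := by
      have b : (W : ℝ) ^ n * ρ ≤ r := by exact_mod_cast h2
      exact le_of_mul_le_mul_right (by linarith) ρ0
    have b := Real.log_le_log (by positivity) a
    rw [Real.log_pow, Real.log_pow] at b
    have c : 1 ≤ Real.log W := by
      rw [Real.le_log_iff_exp_le (by linarith)]; linarith [Real.exp_one_lt_three]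
    have d := mul_le_mul_of_nonneg_left c (Nat.cast_nonneg (α := ℝ) n)
    push_cast at b; linarith
  refine ⟨by linarith, ?_, lρ, ?_⟩
  · have := Real.log_le_sub_one_of_pos ρ0; linarith
  · have e : t ^ (-(3 / 4 : ℝ)) = s ^ 2 / t := by
      rw [hsd, ← Real.rpow_natCast, ← Real.rpow_mul t0, ← Real.rpow_sub_one tp.ne']; norm_num
    rw [e]
    refine div_le_div_of_nonneg_right ?_ t0
    have a : B * n ≤ |B| * (24 * s) := mul_le_mul B1 hn (Nat.cast_nonneg _) B0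
    nlinarith

end Pur3

open Pur3

theorem tpStmt (hJ : FjStmt) (hY : YStmt) (hU : UcStmt) : TpStmt := by
  intro P hP W hW
  obtain ⟨C₁, hU⟩ := hU
  obtain ⟨C₂, r₁, hJ⟩ := hJ P hP (16 * (P.W₀ * W))
  refine ⟨50 * (8 * (P.W₀ * W) : ℕ) ^ 3 * |C₁| * |C₂|, max r₁ 2, fun V m ρ F hρ hr hm hF i => ?_⟩
  have W4 := hP.W2
  have ρ2 : 2 ≤ ρ := le_of_max_le_right hρ
  have e0 : ρ ≤ P.W₀ * ρ := Nat.le_mul_of_pos_left _ (by omega)
  have e1 : P.W₀ * ρ ≤ P.W₀ * (W * ρ) := Nat.mul_le_mul_left _ (Nat.le_mul_of_pos_left _ hW)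
  have e2 : 16 * (P.W₀ * W) * ρ = 16 * (P.W₀ * (W * ρ)) := by ring
  have e3 : 8 * (P.W₀ * (W * ρ)) = 8 * (P.W₀ * W) * ρ := by ring
  have a1 : 1 ≤ 8 * (P.W₀ * W) := by have := Nat.mul_pos (show 0 < P.W₀ by omega) hW; omega
  obtain ⟨s1, -, v1, b1, -⟩ := hU V.p (8 * (P.W₀ * (W * ρ))) i (by omega)
  obtain ⟨s2, -, v2, b2, -⟩ := hU V.p (8 * (P.W₀ * ρ)) i (by omega)
  have s2' : Sup (bl V.p (2 * (8 * (P.W₀ * (W * ρ))))) (uc V.p (8 * (P.W₀ * ρ)) i) :=
    fun x hx => s2 x fun h => hx (bl_mono _ (by omega) h)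
  have ν0 := nu_nonneg hP V ρ F
  have ρr : (2 : ℝ) ≤ ρ := by exact_mod_cast ρ2
  have l0 : 0 < Real.log ρ := Real.log_pos (by linarith)
  rw [lf, lf, cv_Y hY hm.ctr hm.anch _ hF.2 s1, cv_Y hY hm.ctr hm.anch _ hF.2 s2', ← sum_sub_distrib]
  have key : ∀ z ∈ bl V.p (2 * (8 * (P.W₀ * (W * ρ)))),
      |uc V.p (8 * (P.W₀ * (W * ρ))) i z * Cv (m.Ws 0 V.σ) F (Jv V.σ z) -
        uc V.p (8 * (P.W₀ * ρ)) i z * Cv (m.Ws 0 V.σ) F (Jv V.σ z)| ≤
      2 * |C₁| * ((8 * (P.W₀ * W) : ℕ) * ρ) * (|C₂| * P.ν V ρ F * (1 / (ρ : ℝ) ^ 2) / Real.log ρ) := by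
    intro z hz
    rw [mem_bl_ds] at hz
    rcases lt_or_ge (ds z V.p) (8 * (P.W₀ * ρ)) with h | h
    · rw [v1 z (by omega), v2 z h, sub_self, abs_zero]; positivity
    have j := hJ V m ρ F z (le_of_max_le_left hρ) (by omega) hF hm
      (Nc.L37.Amb.mono' hm (bl_subset_bl (mem_bl_ds.2 le_rfl) (by omega))) (by omega)
      (Or.inr (by omega))
    rw [nb_near V (by omega)] at j
    rw [← sub_mul, abs_mul]
    refine mul_le_mul ?_ (j.trans ?_) (abs_nonneg _) (by positivity)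
    · have c1 := (b1 z).1
      have c2 := (b2 z).1
      have d1 : ((8 * (P.W₀ * (W * ρ)) : ℕ) : ℝ) = (8 * (P.W₀ * W) : ℕ) * ρ := by
        rw [e3, Nat.cast_mul]
      have d2 : ((8 * (P.W₀ * ρ) : ℕ) : ℝ) ≤ (8 * (P.W₀ * W) : ℕ) * ρ := by
        rw [← d1]; exact_mod_cast (by omega)
      rw [d1] at c1
      have f1 := mul_le_mul_of_nonneg_right (le_abs_self C₁)
        (show (0 : ℝ) ≤ (8 * (P.W₀ * W) : ℕ) * ρ by positivity)
      have f2 := mul_le_mul (le_abs_self C₁) d2 (Nat.cast_nonneg _) (abs_nonneg _)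
      have := abs_sub (uc V.p (8 * (P.W₀ * (W * ρ))) i z) (uc V.p (8 * (P.W₀ * ρ)) i z)
      linarith
    · have g : (ρ : ℝ) ≤ 1 + (ds z V.p : ℝ) := by exact_mod_cast (by omega)
      refine div_le_div_of_nonneg_right (mul_le_mul (mul_le_mul_of_nonneg_right (le_abs_self _) ν0)
        (one_div_le_one_div_of_le (by positivity) (pow_le_pow_left₀ (by positivity) g 2))
        (by positivity) (by positivity)) l0.le
  refine (abs_sum_le_sum_abs _ _).trans ((sum_le_card_nsmul _ _ _ key).trans ?_)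
  rw [card_bl, nsmul_eq_mul, e3]
  set a : ℕ := 8 * (P.W₀ * W)
  have hc : (((2 * (2 * (a * ρ)) + 1) ^ 2 : ℕ) : ℝ) ≤ (5 * (a * ρ)) ^ 2 := by
    have : 1 ≤ a * ρ := Nat.mul_pos a1 (by omega)
    exact_mod_cast Nat.pow_le_pow_left (by omega) 2
  refine (mul_le_mul_of_nonneg_right hc (by positivity)).trans (le_of_eq ?_)
  field_simp
  ring

theorem purStmt (hT : TpStmt) : PurStmt := by
  intro P hP W hW hL
  obtain ⟨C, r₁, hL⟩ := hL
  obtain ⟨D, r₂, hT⟩ := hT P hP W (by omega)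
  obtain ⟨r₃, hw⟩ := win (16 * (|C| * |D|) + r₂ + 2)
  refine ⟨max r₁ r₃, fun V hV => ?_⟩
  obtain ⟨R, hL⟩ := hL V (le_of_max_le_left hV)
  refine ⟨max R (5 * V.r), fun m ρ n F hm h1 h2 hF h0 => ?_⟩
  have W4 := hP.W2
  have e0 : W ^ n * ρ ≤ P.W₀ * (W ^ n * ρ) := Nat.le_mul_of_pos_left _ (by omega)
  obtain ⟨t1, hρ, lρ, hn⟩ := hw V.r (le_of_max_le_right hV) W ρ n hW h1 (by omega)
  change 1 ≤ V.t at t1
  change V.t / 2 ≤ _ at lρ
  change _ / V.t ≤ V.t ^ _ at hn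
  have CD : 0 ≤ |C| * |D| := by positivity
  have ρ2 : (r₂ : ℝ) + 2 ≤ ρ := by linarith
  have ρ2' : r₂ + 2 ≤ ρ := by exact_mod_cast ρ2
  have up1 : ∀ k, ρ ≤ W ^ k * ρ := fun k => Nat.le_mul_of_pos_left _ (by positivity)
  have es : ∀ k, W * (W ^ k * ρ) = W ^ (k + 1) * ρ := fun k => by ring
  have top : ∀ k < n, 128 * (P.W₀ * (W * (W ^ k * ρ))) ≤ V.r := fun k hk => by
    rw [es]
    exact le_trans (Nat.mul_le_mul_left _ (Nat.mul_le_mul_left _ (Nat.mul_le_mul_right _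
      (Nat.pow_le_pow_right (by omega) hk)))) h2
  have hFk : ∀ k, Ins V.p (W ^ k * ρ + 1) F := fun k => hF.mono (by have := up1 k; omega)
  have x0 : ∀ k, (0 : ℝ) ≤ (W ^ k * ρ : ℕ) * P.ν V (W ^ k * ρ) F := fun k =>
    mul_nonneg (Nat.cast_nonneg _) (nu_nonneg hP _ _ _)
  have W0 : (0 : ℝ) ≤ W := Nat.cast_nonneg _
  have main := rec n (fun k => (W ^ k * ρ : ℕ) * P.ν V (W ^ k * ρ) F)
    (fun k => ∑ i, |lf V m (8 * (P.W₀ * (W ^ k * ρ))) F i|) (C := |C|) (θ := (W : ℝ) ^ (-(3 / 4 : ℝ)))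
    (η := 4 * |D| / V.t) (τ := V.t ^ (-(3 / 4 : ℝ))) x0 (by simp [h0]) (abs_nonneg _) (by positivity)
    (Real.rpow_nonneg W0 _) (th_le hW) (Real.rpow_le_one_of_one_le_of_nonpos t1 (by norm_num))
    (le_trans (by
      rw [show 4 * (|C| * (4 * |D| / V.t) * n) = 16 * (|C| * |D|) * n / V.t by ring]
      exact div_le_div_of_nonneg_right (mul_le_mul_of_nonneg_right
        (by linarith [Nat.cast_nonneg (α := ℝ) r₂]) (Nat.cast_nonneg _)) (by linarith)) hn)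
    (fun k hk => by
      have a := hL m (W ^ k * ρ) F (Nc.L37.Amb.mono' hm (bl_mono _ (le_max_left _ _)))
        (h1.trans (mul_le_mul_of_nonneg_right (by exact_mod_cast up1 k) (by positivity))) (top k hk)
        (hFk k)
      rw [es] at a
      exact a.trans (add_le_add (mul_le_mul_of_nonneg_right (le_abs_self C)
        (sum_nonneg fun _ _ => abs_nonneg _)) le_rfl))
    (fun k hk => by
      have a := hT V m (W ^ k * ρ) F (by have := up1 k; omega) (top k hk)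
        (Nc.L37.Amb.mono' hm (bl_mono _ (le_max_right _ _))) (hFk k)
      rw [es] at a
      have lk : V.t / 2 ≤ Real.log (W ^ k * ρ : ℕ) :=
        lρ.trans (Real.log_le_log (by linarith [Nat.cast_nonneg (α := ℝ) r₂]) (by exact_mod_cast up1 k))
      have b : D * ((W ^ k * ρ : ℕ) * P.ν V (W ^ k * ρ) F) / Real.log (W ^ k * ρ : ℕ) ≤
          |D| * ((W ^ k * ρ : ℕ) * P.ν V (W ^ k * ρ) F) / (V.t / 2) :=
        div_le_div₀ (mul_nonneg (abs_nonneg _) (x0 k))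
          (mul_le_mul_of_nonneg_right (le_abs_self D) (x0 k)) (by linarith) lk
      have c : ∀ i, |lf V m (8 * (P.W₀ * (W ^ k * ρ))) F i| ≤
          |lf V m (8 * (P.W₀ * (W ^ (k + 1) * ρ))) F i| +
            |D| * ((W ^ k * ρ : ℕ) * P.ν V (W ^ k * ρ) F) / (V.t / 2) := fun i => by
        have := abs_sub_abs_le_abs_sub (lf V m (8 * (P.W₀ * (W ^ k * ρ))) F i)
          (lf V m (8 * (P.W₀ * (W ^ (k + 1) * ρ))) F i)
        rw [abs_sub_comm] at this
        linarith [a i]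
      have d : 4 * |D| / V.t * ((W ^ k * ρ : ℕ) * P.ν V (W ^ k * ρ) F) =
          2 * (|D| * ((W ^ k * ρ : ℕ) * P.ν V (W ^ k * ρ) F) / (V.t / 2)) := by ring
      simp only [Fin.sum_univ_two]
      linarith [c 0, c 1])
  intro k hk
  have := main k hk
  rw [Real.rpow_pow_comm W0, pow_zero, one_mul] at this
  exact this

end Crest.Agent.T145.Vx
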