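import Crest.Agent.T145.VxDef_35
import Crest.Agent.T145.Route_51

/-!
# Row 145, module Vx (helper51): routing a neutral charge inside a square shell
-/

set_option autoImplicit false

namespace Crest.Agent.T145.Vx

open Finset
open Nc (an)

namespace R51

theorem nn_ok : nnL.Ok := ⟨admissible_nn, one_pos⟩

theorem mem_bl_ds {z p : Pt} {n : ℕ} : z ∈ bl p n ↔ ds z p ≤ n := by
  rw [mem_bl, ds]; omega

/-- a bounded neutral charge in a rectangle -/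
theorem rect {a : Pt} {n₁ n₂ N : ℕ} (h0 : 1 ≤ n₁) (h1 : n₁ ≤ N) (h2 : n₂ ≤ N) {f : Pt → ℝ} {M : ℝ}
    (hs : Sup (rc a n₁ n₂) f) (hf : ∑ x ∈ rc a n₁ n₂, f x = 0) (hM : ∀ x, |f x| ≤ M) :
    Fs (nnL.edI (rc a n₁ n₂)) f (3 * N * M) := by
  have hM0 : 0 ≤ M := (abs_nonneg _).trans (hM 0)
  have c1 : (1 : ℝ) ≤ n₁ := by exact_mod_cast h0
  have c2 : (n₁ : ℝ) ≤ N := by exact_mod_cast h1
  have c3 : (n₂ : ℝ) ≤ N := by exact_mod_cast h2
  refine (nn_ok.r1_rows hs hf (c := n₁ * M) fun t => ?_).mono ?_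
  · refine (sum_le_card_nsmul _ _ M fun x _ => hM x).trans ?_
    rw [nsmul_eq_mul]
    exact mul_le_mul_of_nonneg_right (by exact_mod_cast card_row_le a n₁ n₂ t) hM0
  · have e : (n₁ : ℝ) * M * (2 + (n₂ : ℝ) / n₁) = (2 * n₁ + n₂) * M := by field_simp
    rw [e]; exact mul_le_mul_of_nonneg_right (by linarith) hM0

/-- the uniform density on a square -/
noncomputable def un (a : Pt) (n : ℕ) (x : Pt) : ℝ := if x ∈ rc a n n then 1 / (n : ℝ) ^ 2 else 0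

theorem abs_un (a : Pt) (n : ℕ) (x : Pt) : |un a n x| ≤ 1 / (n : ℝ) ^ 2 := by
  unfold un; split_ifs
  · exact (abs_of_nonneg (by positivity)).le
  · rw [abs_zero]; positivity

theorem sup_un {a : Pt} {n : ℕ} {B : Finset Pt} (h : rc a n n ⊆ B) : Sup B (un a n) :=
  fun _ hx => if_neg fun hx' => hx (h hx')

theorem sum_un {a : Pt} {n : ℕ} (hn : 1 ≤ n) {B : Finset Pt} (h : rc a n n ⊆ B) : ∑ x ∈ B, un a n x = 1 := by
  have c : (n : ℝ) ≠ 0 := by positivity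
  rw [← sum_subset h fun x _ hx => sup_un subset_rfl x hx, 
    sum_congr rfl fun x hx => show un a n x = 1 / (n : ℝ) ^ 2 from if_pos hx, sum_const, card_rc, nsmul_eq_mul]
  push_cast; field_simp

/-- one link of the chain: the part of `g` in `S`, an incoming and an outgoing density -/
theorem link {a c c' : Pt} {n₁ n₂ N n : ℕ} (h0 : 1 ≤ n₁) (h1 : n₁ ≤ N) (h2 : n₂ ≤ N) (hn : 1 ≤ n)
    (hc : rc c n n ⊆ rc a n₁ n₂) (hc' : rc c' n n ⊆ rc a n₁ n₂) {f : Pt → ℝ} {M K μ μ' : ℝ}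
    (hs : Sup (rc a n₁ n₂) f) (hf : ∑ x ∈ rc a n₁ n₂, f x + μ = μ') (hM : ∀ x, |f x| ≤ M)
    (hμ : |μ| ≤ K * (n : ℝ) ^ 2) (hμ' : |μ'| ≤ K * (n : ℝ) ^ 2) :
    Fs (nnL.edI (rc a n₁ n₂)) (f + μ • un c n - μ' • un c' n) (3 * N * (M + 2 * K)) := by
  have c0 : (0 : ℝ) < n := by exact_mod_cast hn
  have key : ∀ {t : ℝ} (d x : Pt), |t| ≤ K * (n : ℝ) ^ 2 → |t * un d n x| ≤ K := fun d x ht => by
    rw [abs_mul]
    refine (mul_le_mul ht (abs_un d n x) (abs_nonneg _) ((abs_nonneg _).trans ht)).trans_eq ?_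
    field_simp
  refine rect h0 h1 h2 (fun x hx => ?_) ?_ fun x => ?_
  · simp [hs x hx, sup_un hc x hx, sup_un hc' x hx]
  · simp only [Pi.sub_apply, Pi.add_apply, Pi.smul_apply, smul_eq_mul, sum_sub_distrib, sum_add_distrib,
      ← mul_sum, sum_un hn hc, sum_un hn hc']
    linarith
  · simp only [Pi.sub_apply, Pi.add_apply, Pi.smul_apply, smul_eq_mul]
    have := abs_sub (f x + μ * un c n x) (μ' * un c' n x)
    have := abs_add_le (f x) (μ * un c n x)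
    linarith [hM x, key c x hμ, key c' x hμ']

/-- the part of `g` where `P` holds -/
noncomputable def pt (P : Pt → Prop) [DecidablePred P] (g : Pt → ℝ) (x : Pt) : ℝ := if P x then g x else 0

end R51

open R51

theorem routeStmt : RouteStmt := by
  intro Λc hΛ
  refine ⟨4 * (3 * (3 * Λc) * (1 + 2 * (27 * (Λc : ℝ) ^ 2))), fun p D A g hD h => ?_⟩
  obtain ⟨hs, h0, hb⟩ := h
  have cD : (2 : ℝ) ≤ D := by exact_mod_cast hD
  have cΛ : (2 : ℝ) ≤ Λc := by exact_mod_cast hΛ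
  have hA : 0 ≤ A / D := (abs_nonneg _).trans (hb 0)
  obtain ⟨R, hR⟩ : ∃ R, R = Λc * D := ⟨_, rfl⟩
  have hR2 : 2 * D ≤ R := hR ▸ Nat.mul_le_mul_right _ hΛ
  have cR : (R : ℝ) = Λc * D := by rw [hR]; push_cast; rfl
  rw [← hR] at hs h0 ⊢
  -- the four strips
  obtain ⟨w, hw⟩ : ∃ w, w + D = R + 1 := ⟨R + 1 - D, by omega⟩
  set a : Pt := (p.1 - R, p.2 - R)
  set aR : Pt := (p.1 + D, p.2 - R)
  set aT : Pt := (p.1 - R, p.2 + D)
  set cTR : Pt := (p.1 + D, p.2 + D)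
  let gT := pt (fun x => p.2 + D ≤ x.2) g
  let gB := pt (fun x => x.2 + D ≤ p.2) g
  let gR := pt (fun x => ¬ p.2 + D ≤ x.2 ∧ ¬ x.2 + D ≤ p.2 ∧ p.1 ≤ x.1) g
  let gL := pt (fun x => ¬ p.2 + D ≤ x.2 ∧ ¬ x.2 + D ≤ p.2 ∧ ¬ p.1 ≤ x.1) g
  have eg : ∀ x, g x = gR x + gT x + gL x + gB x := fun x => by
    simp only [gT, gB, gR, gL, pt]
    split_ifs <;> first | (exfalso; omega) | simp
  have bd : ∀ (P : Pt → Prop) [DecidablePred P] (x : Pt), |pt P g x| ≤ A / D := fun P _ x => by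
    unfold pt; split_ifs
    exacts [hb x, by rwa [abs_zero]]
  have sp : ∀ (P : Pt → Prop) [DecidablePred P] (B : Finset Pt),
      (∀ x, P x → D ≤ ds x p → ds x p ≤ R → x ∈ B) → Sup B (pt P g) := fun P _ B hB x hx => by
    unfold pt; split_ifs with h1
    · by_contra h2; exact hx (hB x h1 (hs x h2).1 (hs x h2).2)
    · rfl
  have sR : Sup (rc aR w (2 * R + 1)) gR := sp _ _ fun x h1 h2 h3 => by
    rw [ds] at h2 h3; rw [mem_rc]; simp only [aR]; omega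
  have sT : Sup (rc aT (2 * R + 1) w) gT := sp _ _ fun x h1 h2 h3 => by
    rw [ds] at h2 h3; rw [mem_rc]; simp only [aT]; omega
  have sL : Sup (rc a w (2 * R + 1)) gL := sp _ _ fun x h1 h2 h3 => by
    rw [ds] at h2 h3; rw [mem_rc]; simp only [a]; omega
  have sB : Sup (rc a (2 * R + 1) w) gB := sp _ _ fun x h1 h2 h3 => by
    rw [ds] at h2 h3; rw [mem_rc]; simp only [a]; omega
  have an_of : ∀ x : Pt, D ≤ ds x p → ds x p ≤ R → x ∈ an p (D - 1) R := fun x h1 h2 =>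
    mem_sdiff.2 ⟨mem_bl_ds.2 h2, fun h3 => by have := mem_bl_ds.1 h3; omega⟩
  have iR : rc aR w (2 * R + 1) ⊆ an p (D - 1) R := fun x hx => by
    rw [mem_rc] at hx; simp only [aR] at hx; refine an_of x ?_ ?_ <;> rw [ds] <;> omega
  have iT : rc aT (2 * R + 1) w ⊆ an p (D - 1) R := fun x hx => by
    rw [mem_rc] at hx; simp only [aT] at hx; refine an_of x ?_ ?_ <;> rw [ds] <;> omega
  have iL : rc a w (2 * R + 1) ⊆ an p (D - 1) R := fun x hx => by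
    rw [mem_rc] at hx; simp only [a] at hx; refine an_of x ?_ ?_ <;> rw [ds] <;> omega
  have iB : rc a (2 * R + 1) w ⊆ an p (D - 1) R := fun x hx => by
    rw [mem_rc] at hx; simp only [a] at hx; refine an_of x ?_ ?_ <;> rw [ds] <;> omega
  -- masses
  have ms : ∀ {f : Pt → ℝ} {B : Finset Pt}, Sup B f → B ⊆ an p (D - 1) R →
      ∑ x ∈ B, f x = ∑ x ∈ bl p R, f x := fun hf hB =>
    sum_subset (hB.trans sdiff_subset) fun x _ hx => hf x hx
  have mb : ∀ (P : Pt → Prop) [DecidablePred P],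
      |∑ x ∈ bl p R, pt P g x| ≤ 9 * (Λc : ℝ) ^ 2 * (A / D) * (D : ℝ) ^ 2 := fun P _ => by
    refine (abs_sum_le_sum_abs _ _).trans ((sum_le_card_nsmul _ _ _ fun x _ => bd P x).trans ?_)
    rw [nsmul_eq_mul, card_bl]
    push_cast
    rw [cR, mul_right_comm]
    refine mul_le_mul_of_nonneg_right ?_ hA
    have : 2 * ((Λc : ℝ) * D) + 1 ≤ 3 * (Λc * D) := by nlinarith
    calc (2 * ((Λc : ℝ) * D) + 1) ^ 2 ≤ (3 * (Λc * D)) ^ 2 := by gcongr
      _ = _ := by ring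
  set mR := ∑ x ∈ bl p R, gR x
  set mT := ∑ x ∈ bl p R, gT x
  set mL := ∑ x ∈ bl p R, gL x
  set mB := ∑ x ∈ bl p R, gB x
  have tot : mR + mT + mL + mB = 0 := by
    rw [← h0, sum_congr rfl fun x _ => eg x]; simp only [sum_add_distrib]; rfl
  set K : ℝ := 27 * (Λc : ℝ) ^ 2 * (A / D)
  have hK : 0 ≤ 9 * (Λc : ℝ) ^ 2 * (A / D) * (D : ℝ) ^ 2 := by positivity
  have eK : K * (D : ℝ) ^ 2 = 3 * (9 * (Λc : ℝ) ^ 2 * (A / D) * (D : ℝ) ^ 2) := by ring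
  have b0 : |(0 : ℝ)| ≤ K * (D : ℝ) ^ 2 := by rw [abs_zero, eK]; linarith
  have bR : |mR| ≤ _ := mb _
  have bT : |mT| ≤ _ := mb _
  have bL : |mL| ≤ _ := mb _
  have b1 : |mR| ≤ K * (D : ℝ) ^ 2 := by rw [eK]; linarith
  have b2 : |mR + mT| ≤ K * (D : ℝ) ^ 2 := by rw [eK]; linarith [abs_add_le mR mT]
  have b3 : |mR + mT + mL| ≤ K * (D : ℝ) ^ 2 := by
    rw [eK]; linarith [abs_add_le mR mT, abs_add_le (mR + mT) mL]
  have sub : ∀ {c b : Pt} {n₁ n₂ : ℕ}, b.1 ≤ c.1 → c.1 + D ≤ b.1 + n₁ → b.2 ≤ c.2 → c.2 + D ≤ b.2 + n₂ →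
      rc c D D ⊆ rc b n₁ n₂ := fun h1 h2 h3 h4 x hx => by rw [mem_rc] at hx ⊢; omega
  have q1 : rc cTR D D ⊆ rc aR w (2 * R + 1) := by
    refine sub ?_ ?_ ?_ ?_ <;> simp only [cTR, aR] <;> omega
  have q2 : rc cTR D D ⊆ rc aT (2 * R + 1) w := by
    refine sub ?_ ?_ ?_ ?_ <;> simp only [cTR, aT] <;> omega
  have q3 : rc aT D D ⊆ rc aT (2 * R + 1) w := by refine sub ?_ ?_ ?_ ?_ <;> omega
  have q4 : rc aT D D ⊆ rc a w (2 * R + 1) := by
    refine sub ?_ ?_ ?_ ?_ <;> simp only [a, aT] <;> omega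
  have q5 : rc a D D ⊆ rc a w (2 * R + 1) := by refine sub ?_ ?_ ?_ ?_ <;> omega
  have q6 : rc a D D ⊆ rc a (2 * R + 1) w := by refine sub ?_ ?_ ?_ ?_ <;> omega
  have w0 : 1 ≤ w := by omega
  have w1 : w ≤ 2 * R + 1 := by omega
  have D1 : 1 ≤ D := by omega
  have f1 := link w0 w1 le_rfl D1 q1 q1 sR (μ := 0) (μ' := mR) (by rw [ms sR iR, add_zero]) (bd _) b0 b1
  have f2 := link (by omega) le_rfl w1 D1 q2 q3 sT (μ := mR) (μ' := mR + mT)
    (by rw [ms sT iT, add_comm]) (bd _) b1 b2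
  have f3 := link w0 w1 le_rfl D1 q4 q5 sL (μ := mR + mT) (μ' := mR + mT + mL)
    (by rw [ms sL iL, add_comm]) (bd _) b2 b3
  have f4 := link (by omega) le_rfl w1 D1 q6 q6 sB (μ := mR + mT + mL) (μ' := 0)
    (by rw [ms sB iB, add_comm, tot]) (bd _) b3 b0
  have hc : 0 ≤ 3 * ((2 * R + 1 : ℕ) : ℝ) * (A / D + 2 * K) := by positivity
  refine (((((f1.subset (Lat.edI_mono iR) hc).add (f2.subset (Lat.edI_mono iT) hc)).add
    (f3.subset (Lat.edI_mono iL) hc)).add (f4.subset (Lat.edI_mono iB) hc)).congr ?_).mono ?_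
  · funext x
    simp only [Pi.sub_apply, Pi.add_apply, Pi.smul_apply, smul_eq_mul]
    rw [eg x]; ring
  · have e : A = A / D * D := by field_simp
    have h1 : ((2 * R + 1 : ℕ) : ℝ) ≤ 3 * Λc * D := by push_cast; rw [cR]; nlinarith
    have h2 : 0 ≤ A / D + 2 * K := by positivity
    have h3 := mul_le_mul_of_nonneg_right h1 h2
    rw [e]
    simp only [K] at h3 ⊢
    rw [← e]
    generalize A / D = t at *
    subst e
    nlinarith

end Crest.Agent.T145.Vx
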