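import Crest.Agent.T145.VxRwA_55
import Crest.Agent.T145.VxBas_30

/-!
# Row 145, module Vx: `Vx.rwStmt` (helper55)
-/

set_option autoImplicit false

namespace Crest.Agent.T145.Vx

open Finset
open Nc (an Amb)
open Pot (cut)

namespace Rw55

theorem cvY (hY : YStmt) {W F : Cfg Pt → ℝ} (hS : SE W) (hF : Tame F) (σ : Pt × Pt → ℤ) {B : Finset Pt}
    {u : Pt → ℝ} (hu : Sup B u) : Cv W F (Yv σ u) = ∑ z ∈ B, u z * Cv W F (Jv σ z) := by
  obtain ⟨h1, -, -, -, h5⟩ := hY σ B u hu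
  rw [funext h1, B30.cv_sum_right hS B (fun z _ => (h5 z).1.2.const_mul _) hF]
  simp only [Cv_const_mul_right]

theorem cvP (hY : YStmt) {W F : Cfg Pt → ℝ} (hW : Wt W) (hS : SE W) (hF : Tame F) (σ : Pt × Pt → ℤ)
    {B : Finset Pt} {u : Pt → ℝ} (hu : Sup B u) : Cv W F (Yv σ u) = Cv W F (pr (A0 u)) := by
  have h0 : ∀ c : ℝ, Cv W F (fun _ => c) = 0 := fun c => (Cv_comm _ _ _).trans (hW.cv_const_left c F)
  rw [funext (hY σ B u hu).2.1, B30.cv_add_right hS (Tame.hom _) (Tame.const _) hF, h0, add_zero]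

theorem pick (c W ρ n : ℕ) {d : ℕ} (h : c * ρ ≤ d) :
    ∃ k ≤ n, c * (W ^ k * ρ) ≤ d ∧ (k = n ∨ d < c * (W ^ (k + 1) * ρ)) := by
  classical
  refine ⟨Nat.findGreatest (fun k => c * (W ^ k * ρ) ≤ d) n, Nat.findGreatest_le n,
    Nat.findGreatest_spec (P := fun k => c * (W ^ k * ρ) ≤ d) n.zero_le (by simpa using h), ?_⟩
  rcases (Nat.findGreatest_le (P := fun k => c * (W ^ k * ρ) ≤ d) n).eq_or_lt with e | e
  · exact .inl e
  · exact .inr (not_le.1 (Nat.findGreatest_is_greatest (P := fun k => c * (W ^ k * ρ) ≤ d)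
      (Nat.lt_succ_self _) e))

/-- the decomposition of `u` -/
theorem asm (V : Vp) {ρ D e b N : ℕ} {A τ G₁ G₂ E₁ E₂ O Cu : ℝ} {γ u χ : Pt → ℝ} (hρ : 1 ≤ ρ)
    (hD : 1 ≤ D) (hDe : 2 * D ≤ e) (her : 16 * e ≤ V.r) (heb : e ≤ b) (hτ : 0 ≤ τ) (hG₁ : 0 ≤ G₁)
    (hG₂ : 0 ≤ G₂) (hCu : 0 ≤ Cu) (hd : Dip V.q ρ A u) (hf : Flat V.p V.r A u) (hχ : ∀ z, |χ z| ≤ 1)
    (hχ1 : ∀ z, ds z V.p < e → χ z = 1)
    (u1 : ∀ i z, ds z V.p < e → uc V.p e i z = co i (z - V.p) + ![0, 1 / 2] i)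
    (u2 : ∀ i z, |uc V.p e i z| ≤ Cu * e)
    (s0 : ∀ i, ∑ z ∈ bl V.p b, uc V.p e i z * γ z = 0) (s1 : |∑ z ∈ bl V.p b, χ z * γ z| ≤ E₁)
    (s2 : |∑ z ∈ bl V.p b, rem u V.p z * cut V.p D (2 * D) z * γ z| ≤ E₂)
    (g1 : ∀ z, D < ds z V.p → ds z V.p < e →
      |γ z| ≤ G₁ * (2 * τ + if ds z V.p ≤ N then 1 else 0) / (ds z V.p : ℝ) ^ 3)
    (g2 : ∀ z ∈ an V.p (e - 1) b, |γ z| ≤ G₂ * nb V z (ds z V.p))
    (hO : ∑ z ∈ an V.p (e - 1) b, (al V.q ρ z + 1 / V.r) * nb V z (ds z V.p) ≤ O) :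
    |∑ z ∈ bl V.p b, u z * γ z| ≤ 2 * A / V.r * E₁ + E₂ +
      4 * (A / (V.r : ℝ) ^ 3) * G₁ * (16 * τ * V.r + 8 * N) + (2 + Cu) * A * G₂ * O := by
  have r0 : (0 : ℝ) < V.r := by exact_mod_cast (by omega : 0 < V.r)
  have r1 : (1 : ℝ) ≤ V.r := by exact_mod_cast (by omega : 1 ≤ V.r)
  have D0 : (0 : ℝ) < D := by exact_mod_cast hD
  have hab : (D : ℝ) < 2 * D := by linarith
  have al0 : ∀ z, 0 < al V.q ρ z := fun z => by
    have : (0 : ℝ) < ρ := by exact_mod_cast hρ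
    unfold al; positivity
  have A0' : 0 ≤ A := nonneg_of_mul_nonneg_left ((abs_nonneg _).trans (hd.b0 0)) (al0 0)
  have alr : ∀ z, ds z V.p ≤ 1 → al V.q ρ z ≤ 1 / V.r := fun z hz => by
    have := ds_tri V.p z V.q
    rw [ds_pq, ds_comm V.p] at this
    exact one_div_le_one_div_of_le r0 (by exact_mod_cast (by omega : V.r ≤ ρ + ds z V.q))
  have ci : ∀ i, |df i u V.p| ≤ A / (V.r : ℝ) ^ 2 := fun i => by
    have := hd.b1 (V.p + ev i) V.p
    rw [ds_ev, Nat.cast_one, mul_one, mul_assoc] at this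
    refine this.trans ((mul_le_mul_of_nonneg_left (mul_le_mul (alr _ (ds_ev _ _).le)
      (alr _ (by simp [ds_self])) (al0 _).le (by positivity)) A0').trans_eq (by ring))
  have rr : A / (V.r : ℝ) ^ 2 ≤ A / V.r := div_le_div_of_nonneg_left A0' r0 (by nlinarith)
  set c₀ := u V.p - df 1 u V.p / 2 with hc₀
  have c0 : |c₀| ≤ 2 * A / V.r := by
    have h1 := (hd.b0 V.p).trans (mul_le_mul_of_nonneg_left (alr _ (by simp [ds_self])) A0')
    have h2 := (ci 1).trans rr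
    rw [mul_one_div] at h1
    rw [mul_div_assoc, abs_le] at *
    constructor <;> linarith [h1.1, h1.2, h2.1, h2.2]
  set v : Pt → ℝ := fun z => u z - c₀ * χ z - ∑ i, df i u V.p * uc V.p e i z -
    rem u V.p z * cut V.p D (2 * D) z with hv
  have v1 : ∀ z, ds z V.p < e → v z = rem u V.p z * (1 - cut V.p D (2 * D) z) := fun z hz => by
    simp only [hv, hχ1 z hz, u1 _ z hz, hc₀, rem, Fin.sum_univ_two, Matrix.cons_val_zero,
      Matrix.cons_val_one]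
    ring
  have v3 : ∀ z, e ≤ ds z V.p → |v z| ≤ (2 + Cu) * A * (al V.q ρ z + 1 / V.r) := fun z hz => by
    have z0 : cut V.p D (2 * D) z = 0 :=
      Pot.cut_zero hab (R := 2 * D - 1) (by rw [Nat.cast_sub (by omega)]; push_cast; linarith)
        (by rw [mem_ds]; omega)
    have k : ∀ i, |df i u V.p * uc V.p e i z| ≤ Cu * A * (1 / V.r) / 2 := fun i => by
      have he : (16 : ℝ) * e ≤ V.r := by exact_mod_cast her
      rw [abs_mul]
      refine (mul_le_mul (ci i) (u2 i z) (abs_nonneg _) (by positivity)).trans ?_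
      rw [show A / (V.r : ℝ) ^ 2 * (Cu * e) = Cu * A * (1 / V.r) * (e / V.r) by ring, div_eq_mul_one_div _ 2]
      exact mul_le_mul_of_nonneg_left (by rw [div_le_iff₀ r0]; linarith) (by positivity)
    have k0 : |c₀ * χ z| ≤ 2 * A / V.r := by
      rw [abs_mul]; exact (mul_le_of_le_one_right (abs_nonneg _) (hχ z)).trans c0
    have h1 := hd.b0 z
    have h2 := mul_nonneg (mul_nonneg (by linarith : 0 ≤ 1 + Cu) A0') (al0 z).le
    have k1 := k 0
    have k2 := k 1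
    simp only [hv, z0, mul_zero, sub_zero, Fin.sum_univ_two]
    rw [show 2 * A / V.r = 2 * A * (1 / V.r) by ring] at k0
    rw [abs_le] at *
    constructor <;> linarith [h1.1, h1.2, k0.1, k0.2, k1.1, k1.2, k2.1, k2.2]
  have e1 : ∑ z ∈ bl V.p b, u z * γ z = c₀ * ∑ z ∈ bl V.p b, χ z * γ z +
      ∑ z ∈ bl V.p b, rem u V.p z * cut V.p D (2 * D) z * γ z + ∑ z ∈ bl V.p b, v z * γ z := by
    have h0 := congrArg (df 0 u V.p * ·) (s0 0)
    have h1 := congrArg (df 1 u V.p * ·) (s0 1)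
    simp only [mul_sum, mul_zero] at h0 h1
    rw [← add_zero (_ + _ + _), ← h0, ← add_zero (_ + _ + _ + _), ← h1]
    simp only [mul_sum, ← sum_add_distrib, hv, Fin.sum_univ_two]
    exact sum_congr rfl fun z _ => by ring
  have e2 : ∑ z ∈ bl V.p b, v z * γ z =
      ∑ z ∈ an V.p D (e - 1), v z * γ z + ∑ z ∈ an V.p (e - 1) b, v z * γ z := by
    rw [← sum_sdiff (bl_mono V.p (by omega : e - 1 ≤ b)), add_comm,
      ← sum_sdiff (bl_mono V.p (by omega : D ≤ e - 1)), sum_eq_zero (s := bl V.p D) fun z hz => by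
        rw [v1 z (by rw [mem_ds] at hz; omega), Pot.cut_one hab le_rfl hz, sub_self, mul_zero, zero_mul],
      add_zero]
    rfl
  have H0 : 0 ≤ 4 * (A / (V.r : ℝ) ^ 3) * G₁ := by positivity
  have i1 : |∑ z ∈ an V.p D (e - 1), v z * γ z| ≤
      4 * (A / (V.r : ℝ) ^ 3) * G₁ * (16 * τ * V.r + 8 * N) := by
    have k : ∀ z ∈ an V.p D (e - 1), |v z * γ z| ≤ 4 * (A / (V.r : ℝ) ^ 3) * G₁ *
        (2 * τ * (1 / (ds z V.p : ℝ)) + if ds z V.p ≤ N then 1 / (ds z V.p : ℝ) else 0) := fun z hz => by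
      obtain ⟨z1, z2⟩ := mem_an.1 hz
      have d0 : (0 : ℝ) < ds z V.p := by exact_mod_cast (by omega : 0 < ds z V.p)
      have h1 := (rem_le (R := V.r / 4) (fun y hy => (hf y hy).2) (z := z) (by omega)).2
      rw [abs_mul, v1 z (by omega), abs_mul]
      refine (mul_le_mul ((mul_le_of_le_one_right (abs_nonneg _) (Pot.abs_one_sub_cut_le _ _ _ _)).trans h1)
        (g1 z z1 (by omega)) (abs_nonneg _) (by positivity)).trans_eq ?_
      split_ifs <;> (field_simp; try ring)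
    refine (abs_sum_le_sum_abs _ _).trans ((sum_le_sum k).trans ?_)
    rw [← mul_sum, sum_add_distrib, ← mul_sum, ← sum_filter]
    refine mul_le_mul_of_nonneg_left (add_le_add ?_ ?_) H0
    · have h1 := sum_inv V.p D (e - 1)
      have h2 : ((e - 1 : ℕ) : ℝ) ≤ V.r := by exact_mod_cast (by omega)
      nlinarith
    · refine le_trans (sum_le_sum_of_subset_of_nonneg (fun z hz => ?_) fun _ _ _ => by positivity)
        (sum_inv V.p 0 N)
      obtain ⟨h1, h2⟩ := mem_filter.1 hz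
      exact mem_an.2 ⟨by have := mem_an.1 h1; omega, h2⟩
  have i2 : |∑ z ∈ an V.p (e - 1) b, v z * γ z| ≤ (2 + Cu) * A * G₂ * O := by
    refine (abs_sum_le_sum_abs _ _).trans (le_trans (sum_le_sum fun z hz => ?_)
      ((mul_sum _ _ _).symm.trans_le (mul_le_mul_of_nonneg_left hO (by positivity))))
    rw [abs_mul]
    have := al0 z
    exact (mul_le_mul (v3 z (by have := mem_an.1 hz; omega)) (g2 z hz) (abs_nonneg _)
      (by positivity)).trans_eq (by ring)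
  have i0 : |c₀ * ∑ z ∈ bl V.p b, χ z * γ z| ≤ 2 * A / V.r * E₁ := by
    rw [abs_mul]; exact mul_le_mul c0 s1 (abs_nonneg _) (by positivity)
  rw [e1, e2, abs_le] at *
  constructor <;> linarith [i0.1, i0.2, i1.1, i1.2, i2.1, i2.2, s2.1, s2.2]

theorem le_abs_mul {x C y : ℝ} (h : x ≤ C * y) (hy : 0 ≤ y) : x ≤ |C| * y :=
  h.trans (mul_le_mul_of_nonneg_right (le_abs_self C) hy)

/-- numerics of the scales -/
theorem scales {r ρ T : ℕ} {t : ℝ} (ht : t = Real.log r) (hr : ⌈Real.exp (144 + 2 * T)⌉₊ ≤ r)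
    (h : (r : ℝ) ≤ ρ * t ^ 3) : 144 + 2 * (T : ℝ) ≤ t ∧ t / 2 ≤ Real.log ρ ∧ T + 1 ≤ ρ ∧ T ≤ r := by
  have h1 : Real.exp (144 + 2 * T) ≤ r := Nat.ceil_le.1 hr
  have r0 : (0 : ℝ) < r := (Real.exp_pos _).trans_le h1
  have T0 : (0 : ℝ) ≤ T := T.cast_nonneg
  have h2 : 144 + 2 * (T : ℝ) ≤ t := ht ▸ (Real.le_log_iff_exp_le r0).2 h1
  have t0 : 0 < t := by linarith
  have ρ0 : (0 : ℝ) < ρ := by
    by_contra hn
    have : (ρ : ℝ) = 0 := le_antisymm (not_lt.1 hn) ρ.cast_nonneg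
    rw [this, zero_mul] at h
    linarith
  have h3 := Real.log_le_log r0 h
  rw [Real.log_mul ρ0.ne' (by positivity), Real.log_pow, ← ht] at h3
  have h4 : Real.log t ≤ 2 * √t := by
    have := Real.log_le_sub_one_of_pos (Real.sqrt_pos.2 t0)
    rw [Real.log_sqrt t0.le] at this
    linarith
  have h5 : 12 ≤ √t := Real.le_sqrt_of_sq_le (by linarith)
  have h6 := Real.mul_self_sqrt t0.le
  have h7 : t / 2 ≤ Real.log ρ := by push_cast at h3; nlinarith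
  have h8 := Real.log_le_sub_one_of_pos ρ0
  have h9 := Real.add_one_le_exp (144 + 2 * (T : ℝ))
  exact ⟨h2, h7, by exact_mod_cast (by linarith : (T : ℝ) + 1 ≤ ρ), by exact_mod_cast (by linarith : (T : ℝ) ≤ r)⟩

theorem pows {t : ℝ} (ht : 1 ≤ t) : ∃ s : ℝ, 1 ≤ s ∧ t = s ^ 4 ∧ t ^ (1 / 4 : ℝ) = s ∧
    t ^ (-(3 / 4 : ℝ)) = 1 / s ^ 3 ∧ t ^ (-(3 / 2 : ℝ)) = 1 / s ^ 6 ∧ Real.log t ≤ 4 * s := by
  have t0 : 0 < t := by linarith
  have k : ∀ n : ℕ, (t ^ (1 / 4 : ℝ)) ^ n = t ^ ((n : ℝ) / 4) := fun n => by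
    rw [← Real.rpow_natCast, ← Real.rpow_mul t0.le]; congr 1; ring
  refine ⟨t ^ (1 / 4 : ℝ), Real.one_le_rpow ht (by norm_num), by rw [k]; norm_num, rfl, ?_, ?_, ?_⟩
  · rw [k, Real.rpow_neg t0.le, one_div]; norm_num
  · rw [k, Real.rpow_neg t0.le, one_div]; norm_num
  · have := Real.log_le_sub_one_of_pos (Real.rpow_pos_of_pos t0 (1 / 4))
    rw [Real.log_rpow t0] at this
    linarith

theorem far_pow {t c : ℝ} {Λ₀ r : ℕ} (ht : 1 ≤ t) (hc : 0 < c) (hΛ : 1 ≤ Λ₀) (hr : 1 ≤ r) :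
    (((4 * r : ℕ) : ℝ) / (Λ₀ * ⌈t⌉₊ ^ ⌈1 / c⌉₊ * (4 * r) : ℕ)) ^ c ≤ 1 / t := by
  have t0 : 0 < t := by linarith
  have r0 : (0 : ℝ) < r := by exact_mod_cast hr
  have Λ1 : (1 : ℝ) ≤ Λ₀ := by exact_mod_cast hΛ
  have h1 : t ^ (1 / c) ≤ Λ₀ * (⌈t⌉₊ : ℝ) ^ ⌈1 / c⌉₊ := by
    refine (Real.rpow_le_rpow_of_exponent_le ht (Nat.le_ceil _)).trans ?_
    rw [Real.rpow_natCast]
    exact (pow_le_pow_left₀ t0.le (Nat.le_ceil t) _).trans (le_mul_of_one_le_left (by positivity) Λ1)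
  have h0 := Real.rpow_pos_of_pos t0 (1 / c)
  refine (Real.rpow_le_rpow (by positivity) (z := c) (y := (t ^ (1 / c))⁻¹) ?_ hc.le).trans_eq ?_
  · push_cast
    rw [mul_comm _ (4 * (r : ℝ)), ← div_div, div_self (by positivity), one_div]
    exact inv_anti₀ h0 h1
  · rw [Real.inv_rpow h0.le, ← Real.rpow_mul t0.le, one_div_mul_cancel hc.ne', Real.rpow_one, one_div]

theorem log_b {t s M : ℝ} {Λ₀ K r S a : ℕ} (ht : 1 ≤ t) (hs : 1 ≤ s) (hl : Real.log t ≤ 4 * s) (hM : 1 ≤ M)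
    (ha : 1 ≤ a) (hr : 1 ≤ r) (hΛ : 1 ≤ Λ₀) (har : (r : ℝ) ≤ M * a) (hS : (S : ℝ) ≤ r * t ^ 8) :
    Real.log (((S + 2 * (Λ₀ * ⌈t⌉₊ ^ K * (4 * r)) : ℕ) : ℝ) / a) ≤
      (M * (1 + 8 * Λ₀ * 2 ^ K) + 4 * (8 + K)) * s := by
  have t0 : 0 < t := by linarith
  have a0 : (0 : ℝ) < a := by exact_mod_cast ha
  have r0 : (0 : ℝ) < r := by exact_mod_cast hr
  have Λ0 : (0 : ℝ) < Λ₀ := by exact_mod_cast hΛ
  have c0 : (0 : ℝ) < ⌈t⌉₊ := t0.trans_le (Nat.le_ceil t)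
  have c1 : (⌈t⌉₊ : ℝ) ^ K ≤ 2 ^ K * t ^ (8 + K) := by
    refine (pow_le_pow_left₀ c0.le (by linarith [Nat.ceil_lt_add_one t0.le] : (⌈t⌉₊ : ℝ) ≤ 2 * t) K).trans ?_
    rw [mul_pow]
    exact mul_le_mul_of_nonneg_left (pow_le_pow_right₀ ht (by omega)) (by positivity)
  have c2 : t ^ 8 ≤ t ^ (8 + K) := pow_le_pow_right₀ ht (by omega)
  set Q := M * (1 + 8 * Λ₀ * 2 ^ K) with hQ
  have Q0 : 0 < Q := by positivity
  have h1 : ((S + 2 * (Λ₀ * ⌈t⌉₊ ^ K * (4 * r)) : ℕ) : ℝ) / a ≤ Q * t ^ (8 + K) := by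
    rw [div_le_iff₀ a0]
    push_cast
    have h2 := mul_le_mul_of_nonneg_left c1 (by positivity : (0 : ℝ) ≤ 8 * Λ₀ * r)
    have h3 := mul_le_mul_of_nonneg_left c2 r0.le
    have h4 := mul_le_mul_of_nonneg_right har
      (by positivity : (0 : ℝ) ≤ (1 + 8 * Λ₀ * 2 ^ K) * t ^ (8 + K))
    rw [hQ]
    linarith
  refine (Real.log_le_log (by push_cast; positivity) h1).trans ?_
  rw [Real.log_mul Q0.ne' (by positivity), Real.log_pow]
  have h5 := Real.log_le_sub_one_of_pos Q0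
  have h6 := mul_le_mul_of_nonneg_left hl (by positivity : (0 : ℝ) ≤ ((8 + K : ℕ) : ℝ))
  push_cast at h6 ⊢
  nlinarith

end Rw55

open Rw55

set_option maxHeartbeats 1000000 in
/-- RW -/
theorem rwStmt (hY : YStmt) (hU : UcStmt) (hL : LinStmt) (hJ : FjStmt) (hF : FarStmt) : RwStmt := by
  intro P hP W hW
  obtain ⟨K, hK, chg⟩ := chg_rem
  obtain ⟨Cu, hU⟩ := hU
  obtain ⟨CL, rL, hL⟩ := hL P hP 3 (by norm_num)
  set Λ := 64 * (P.W₀ * W) with hΛ
  obtain ⟨CJ, rJ, hJ⟩ := hJ P hP Λ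
  obtain ⟨CF, c, rF, Λ₀, c0, -, Λ1, hF⟩ := hF P hP
  have W4 := hP.W2
  set M : ℝ := 32 * W with hM
  set CO : ℝ := 64 * M * (M * (1 + 8 * Λ₀ * 2 ^ ⌈1 / c⌉₊) + 4 * (8 + ⌈1 / c⌉₊)) + 723 * M with hCO
  refine ⟨8 * |CF| * Λ + 32 * |CL| * K * P.W₀ ^ 2 + 8 * |CJ| * Λ * (16 + 8 * Λ) +
    8 * (2 + |Cu|) * |CJ| * Λ * CO, ⌈Real.exp (144 + 2 * ((Λ + rL + rJ + rF + P.r₀ : ℕ) : ℝ))⌉₊,
    fun V hr => ?_⟩
  set S' := Λ₀ * ⌈V.t⌉₊ ^ ⌈1 / c⌉₊ * (4 * V.r) with hS'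
  refine ⟨8 * S' + 2 * (⌈V.r * V.t ^ 8⌉₊ + 2 * S') + 5 * V.r,
    fun m ρ n S A μ F u hm h1 h2 h3 h4 hI h0 hν hS hu hd hf => ?_⟩
  obtain ⟨t1, t2, t3, t4⟩ := scales (t := V.t) rfl hr h1
  have tΛ : 2 * (Λ : ℝ) ≤ V.t := by push_cast at t1 ⊢; linarith [(by positivity : (0 : ℝ) ≤ rL + rJ + rF + P.r₀)]
  have t1' : 1 ≤ V.t := by linarith [(by positivity : (0 : ℝ) ≤ ((Λ + rL + rJ + rF + P.r₀ : ℕ) : ℝ))]
  obtain ⟨s, s1, es, e1, e3, e6, hl⟩ := pows t1'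
  have s0 : 0 < s := by linarith
  have t0 : 0 < V.t := by linarith
  have up : ∀ k, ρ ≤ W ^ k * ρ := fun k => Nat.le_mul_of_pos_left _ (by positivity)
  have le_n : ∀ k ≤ n, P.W₀ * (W ^ k * ρ) ≤ P.W₀ * (W ^ n * ρ) := fun k hk =>
    Nat.mul_le_mul_left _ (Nat.mul_le_mul_right _ (Nat.pow_le_pow_right (by omega) hk))
  set T := W ^ n * ρ with hT
  have hT' : P.W₀ * (W ^ (n + 1) * ρ) = P.W₀ * W * T := by rw [hT]; ring
  have hρT := le_n 0 n.zero_le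
  rw [pow_zero, one_mul] at hρT
  have ρW := B30.four_le hP (ρ := ρ)
  have hrT : V.r ≤ 2 * (Λ * T) := by rw [hT'] at h4; rw [hΛ]; linarith
  have r0 : (0 : ℝ) < V.r := by exact_mod_cast (by omega : 0 < V.r)
  have ρ0 : (0 : ℝ) < ρ := by exact_mod_cast (by omega : 0 < ρ)
  have T0 : (0 : ℝ) < T := ρ0.trans_le (by exact_mod_cast up n)
  have hS1 : 4 * V.r ≤ S' := Nat.le_mul_of_pos_left _
    (Nat.mul_pos Λ1 (Nat.pow_pos (Nat.ceil_pos.2 t0)))
  have hS2 : S ≤ ⌈V.r * V.t ^ 8⌉₊ := by exact_mod_cast hS.trans (Nat.le_ceil _)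
  have am : ∀ z a, ds z V.p + a ≤ 8 * S' + 2 * (⌈V.r * V.t ^ 8⌉₊ + 2 * S') + 5 * V.r →
      Amb P.L m (bl z a) := fun z a h => B30.amb_mono hm (B30.bl_sub h)
  have p0 := ds_self V.p
  have wt := B30.amb_wt hm V.σ
  have se := B30.amb_se hm V.σ
  have n0 := fun k => B30.ν_nonneg hP V k F
  have A0' : 0 ≤ A := nonneg_of_mul_nonneg_left ((abs_nonneg _).trans (hd.b0 0)) (by unfold al; positivity)
  have hν0 := hν 0 n.zero_le
  rw [pow_zero, one_mul, pow_zero, Real.one_rpow, e3] at hν0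
  have μ0 : 0 ≤ μ := nonneg_of_mul_nonneg_left ((mul_nonneg ρ0.le (n0 ρ)).trans hν0) (by positivity)
  have τ1 : 1 / s ^ 3 ≤ 1 := by rw [div_le_one (by positivity)]; exact one_le_pow₀ s1
  have big : ∀ k, V.t ≤ (W : ℝ) ^ k → ((W : ℝ) ^ k) ^ (-(3 / 4 : ℝ)) ≤ 1 / s ^ 3 := fun k hk =>
    e3 ▸ Real.rpow_le_rpow_of_nonpos t0 hk (by norm_num)
  -- the top norm
  have νT : P.ν V T F ≤ 4 * Λ * μ / (s ^ 3 * V.r) := by
    have a1 : (V.r : ℝ) ≤ 2 * (Λ * T) := by exact_mod_cast hrT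
    have a2 : V.t ≤ (W : ℝ) ^ n := by
      have a3 : (T : ℝ) = (W : ℝ) ^ n * ρ := by rw [hT]; push_cast; ring
      refine le_of_mul_le_mul_left (a := ρ * V.t) ?_ (by positivity)
      have := mul_le_mul_of_nonneg_right tΛ T0.le
      rw [a3] at this a1
      linarith
    have a4 := (hν n le_rfl).trans (mul_le_mul_of_nonneg_left (add_le_add e3.le (big n a2)) μ0)
    rw [le_div_iff₀ (by positivity)]
    have a5 := mul_le_mul_of_nonneg_left a4 (by positivity : (0 : ℝ) ≤ 2 * Λ * s ^ 3)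
    have a6 := mul_le_mul_of_nonneg_left a1 (mul_nonneg (n0 T) (by positivity : (0 : ℝ) ≤ s ^ 3))
    have a7 : 2 * Λ * s ^ 3 * (μ * (1 / s ^ 3 + 1 / s ^ 3)) = 4 * Λ * μ := by field_simp; ring
    linarith
  have nb0 : ∀ z l, 0 ≤ nb V z l := fun z l => by unfold nb; split_ifs <;> positivity
  have fj : ∀ k ≤ n, ∀ z, ds z V.p ≤ S + 2 * S' → 2 * (P.W₀ * (W ^ k * ρ)) ≤ ds z V.p →
      V.r ≤ 2 * ds z V.p ∨ ds z V.p ≤ Λ * (W ^ k * ρ) → |Cv (m.Ws 0 V.σ) F (Jv V.σ z)| ≤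
        2 * |CJ| / s ^ 4 * P.ν V (W ^ k * ρ) F * nb V z (ds z V.p) := fun k hk z z1 z2 z3 => by
    have a1 := up k
    have a2 := le_n k hk
    have a3 := hJ V m _ F z (by omega) (by omega) (B30.ins_le hI (by omega)) (am _ _ (by omega))
      (am _ _ (by omega)) z2 z3
    have a4 : V.t / 2 ≤ Real.log (W ^ k * ρ : ℕ) := t2.trans (Real.log_le_log ρ0 (by exact_mod_cast a1))
    rw [mul_assoc, mul_div_assoc] at a3
    refine (le_abs_mul a3 (div_nonneg (mul_nonneg (n0 _) (nb0 _ _)) (by linarith))).trans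
      ((mul_le_mul_of_nonneg_left (div_le_div_of_nonneg_left (mul_nonneg (n0 _) (nb0 _ _))
        (by linarith) a4) (abs_nonneg _)).trans_eq ?_)
    rw [es]
    field_simp
  have U := fun i => hU V.p (8 * (P.W₀ * T)) i (by omega)
  have tI := hI.2
  have D0 : (0 : ℝ) < (4 * (P.W₀ * ρ) : ℕ) := by exact_mod_cast (by omega : 0 < 4 * (P.W₀ * ρ))
  have S0 : (0 : ℝ) < S' := by exact_mod_cast (by omega : 0 < S')
  have hM1 : 1 ≤ M := by
    have : (16 : ℝ) ≤ W := by exact_mod_cast hW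
    linarith
  have har : (V.r : ℝ) ≤ M * (8 * (P.W₀ * T) - 1 : ℕ) := by
    have a1 : V.r ≤ 32 * W * (8 * (P.W₀ * T) - 1) := by
      have a2 : 4 * (P.W₀ * T) ≤ 8 * (P.W₀ * T) - 1 := by omega
      have a3 := Nat.mul_le_mul_left (32 * W) a2
      rw [hT'] at h4
      linarith
    rw [hM]
    exact_mod_cast a1
  have main := asm V (ρ := ρ) (D := 4 * (P.W₀ * ρ)) (e := 8 * (P.W₀ * T)) (b := S + 2 * S')
    (N := ⌊Λ * V.r / s ^ 4⌋₊) (τ := 1 / s ^ 3) (G₁ := 2 * |CJ| / s ^ 4 * (μ * Λ))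
    (G₂ := 2 * |CJ| / s ^ 4 * (4 * Λ * μ / (s ^ 3 * V.r))) (Cu := |Cu|)
    (E₁ := |CF| * (1 / s ^ 4 * (4 * Λ * μ / (s ^ 3 * V.r))))
    (E₂ := 32 * |CL| * K * P.W₀ ^ 2 * A * μ / (s ^ 6 * V.r ^ 2)) (O := CO * s / V.r)
    (γ := fun z => Cv (m.Ws 0 V.σ) F (Jv V.σ z)) (χ := cut V.p S' (2 * S')) (by omega) (by omega)
    (by omega) (by omega) (by omega) (by positivity) (by positivity) (by positivity) (abs_nonneg _) hd hf
    (Pot.abs_cut_le _ _ _)
    (fun z hz => Pot.cut_one (by linarith) le_rfl (mem_ds.2 (by omega)))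
    (fun i => (U i).2.2.1) (fun i z => le_abs_mul ((U i).2.2.2.1 z).1 (by positivity))
    (fun i => by
      rw [← cvY hY se tI V.σ fun z hz => (U i).1 z fun h => hz (bl_mono _ (by omega) h)]
      exact h0 i)
    (by
      rw [← cvY hY se tI V.σ fun z hz => Pot.sup_cut V.p (R := 2 * S') (by linarith)
        (by push_cast; linarith) z fun h => hz (bl_mono _ (by omega) h)]
      have a1 := (hF V m (4 * V.r) S' (by omega) le_rfl (Nat.mul_le_mul_right _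
        (Nat.le_mul_of_pos_right _ (Nat.pow_pos (Nat.ceil_pos.2 t0)))) (am _ _ (by omega))).2 T F
        ((by omega : P.r₀ ≤ ρ).trans (up n)) (by omega) (B30.ins_le hI (by have := up n; omega))
      rw [mul_assoc] at a1
      refine (le_abs_mul a1 (mul_nonneg (by positivity) (n0 T))).trans
        (mul_le_mul_of_nonneg_left (mul_le_mul ?_ νT (n0 T) (by positivity)) (abs_nonneg _))
      rw [← es]
      exact far_pow t1' c0 Λ1 (by omega))
    (by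
      have sp : Sup (bl V.p (S + 2 * S')) fun z =>
          rem u V.p z * cut V.p (4 * (P.W₀ * ρ) : ℕ) (2 * (4 * (P.W₀ * ρ) : ℕ)) z := fun z hz =>
        mul_eq_zero_of_right _ (Pot.cut_zero (R := 2 * (4 * (P.W₀ * ρ))) (by linarith)
          (by push_cast; linarith) fun h => hz (bl_mono _ (by omega) h))
      rw [← cvY hY se tI V.σ sp, cvP hY wt se tI V.σ sp]
      have a1 := ((hL V _ _ _ (by omega) (by omega) (chg u V.p (V.r / 4) (4 * (P.W₀ * ρ)) _ (by omega)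
        (by omega) hf) (.inl (by omega))).1 m (am _ _ (by omega)) (am _ _ (by omega))).2 ρ F (by omega)
        le_rfl (by omega) (.inl (by omega)) hI
      rw [mul_assoc] at a1
      refine (le_abs_mul a1 (mul_nonneg (n0 ρ) (by positivity))).trans ?_
      have a2 : ρ * P.ν V ρ F ≤ 2 * μ := hν0.trans (by nlinarith)
      have a3 : ρ * s ^ 6 ≤ V.r := by
        refine le_trans (mul_le_mul_of_nonneg_left ?_ ρ0.le) h2
        rw [es, ← pow_mul]
        exact pow_le_pow_right₀ s1 (by norm_num)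
      have a4 := mul_le_mul a2 a3 (by positivity) (by positivity)
      rw [le_div_iff₀ (by positivity)]
      refine le_of_eq_of_le ?_ ((mul_le_mul_of_nonneg_left a4
        (by positivity : 0 ≤ 16 * |CL| * K * P.W₀ ^ 2 * A / V.r)).trans_eq ?_)
      · push_cast
        field_simp
        ring
      · field_simp
        ring)
    (fun z z1 z2 => by
      obtain ⟨k, hk, k1, k2⟩ := pick (2 * P.W₀) W ρ n (d := ds z V.p) (by rw [mul_assoc]; omega)
      rw [mul_assoc] at k1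
      have k3 : ds z V.p ≤ Λ * (W ^ k * ρ) := by
        have : Λ * (W ^ k * ρ) = 64 * (P.W₀ * (W ^ (k + 1) * ρ)) := by rw [hΛ]; ring
        rcases k2 with rfl | k2
        · have := Nat.mul_le_mul_left P.W₀ (Nat.mul_le_mul_right ρ
            (Nat.pow_le_pow_right (by omega : 0 < W) k.le_succ))
          omega
        · rw [mul_assoc] at k2
          omega
      have d0 : (0 : ℝ) < ds z V.p := by exact_mod_cast (by omega : 0 < ds z V.p)
      have k4 : (ds z V.p : ℝ) ≤ Λ * (W ^ k * ρ : ℕ) := by exact_mod_cast k3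
      have k5 : nb V z (ds z V.p) ≤ 1 / (ds z V.p : ℝ) ^ 2 := by
        rw [nb, B30.d_eq_p V (by omega), if_pos (min_le_left _ _), min_self]
        exact one_div_le_one_div_of_le (by positivity) (pow_le_pow_left₀ d0.le (by linarith) 2)
      have k6 : ((W : ℝ) ^ k) ^ (-(3 / 4 : ℝ)) ≤
          1 / s ^ 3 + if ds z V.p ≤ ⌊Λ * V.r / s ^ 4⌋₊ then 1 else 0 := by
        split_ifs with hz
        · exact le_add_of_nonneg_of_le (by positivity) (Real.rpow_le_one_of_one_le_of_nonpos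
            (one_le_pow₀ (by exact_mod_cast (by omega : 1 ≤ W))) (by norm_num))
        · rw [add_zero]
          refine big k (le_of_not_gt fun hk' => hz (Nat.le_floor ?_))
          rw [← es, le_div_iff₀ t0]
          push_cast at k4
          have b1 := mul_le_mul_of_nonneg_right hk'.le (by positivity : (0 : ℝ) ≤ Λ * ρ * V.t)
          have b2 := mul_le_mul_of_nonneg_left h2 (by positivity : (0 : ℝ) ≤ Λ)
          have b3 := mul_le_mul_of_nonneg_right k4 t0.le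
          linarith
      have k7 : P.ν V (W ^ k * ρ) F ≤
          μ * Λ * (2 * (1 / s ^ 3) + if ds z V.p ≤ ⌊Λ * V.r / s ^ 4⌋₊ then 1 else 0) / ds z V.p := by
        have b1 := (hν k hk).trans (mul_le_mul_of_nonneg_left (add_le_add e3.le k6) μ0)
        have b2 := mul_le_mul_of_nonneg_left b1 (by positivity : (0 : ℝ) ≤ Λ)
        have b3 := mul_le_mul_of_nonneg_left k4 (n0 (W ^ k * ρ))
        rw [le_div_iff₀ d0]
        linarith
      refine (fj k hk z (by omega) k1 (.inr k3)).trans ((mul_le_mul (mul_le_mul_of_nonneg_left k7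
        (by positivity)) k5 (nb0 _ _) (by positivity)).trans_eq ?_)
      field_simp)
    (fun z hz => by
      obtain ⟨z1, z2⟩ := mem_an.1 hz
      exact (fj n le_rfl z z2 (by rw [← hT]; omega) (by rw [← hT]; omega)).trans (mul_le_mul_of_nonneg_right
        (mul_le_mul_of_nonneg_left νT (by positivity)) (nb0 _ _)))
    (by
      refine (outer V (by omega) (by omega) (by omega) (by omega) hM1 har t0 h1).trans
        (div_le_div_of_nonneg_right ?_ r0.le)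
      have := mul_le_mul_of_nonneg_left (log_b (K := ⌈1 / c⌉₊) t1' s1 hl hM1 (by omega) (by omega) Λ1 har hS)
        (by positivity : 0 ≤ 64 * M)
      rw [e1, hCO]
      linarith)
  rw [cvY hY se tI V.σ fun z hz => hu z fun h => hz (bl_mono _ (by omega : S ≤ S + 2 * S') h), e6]
  refine main.trans ?_
  have hN : (⌊Λ * V.r / s ^ 4⌋₊ : ℝ) ≤ Λ * (1 / s ^ 3) * V.r := by
    refine (Nat.floor_le (by positivity)).trans ?_
    rw [div_le_iff₀ (by positivity), show Λ * (1 / s ^ 3) * V.r * s ^ 4 = Λ * V.r * s by field_simp]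
    exact le_mul_of_one_le_right (by positivity) s1
  set Q := A * μ / (s ^ 6 * V.r ^ 2) with hQ
  have Q0 : 0 ≤ Q := by positivity
  have Q1 : Q / s ≤ Q := div_le_self Q0 s1
  have b1 := mul_le_mul_of_nonneg_left Q1 (by positivity : 0 ≤ 8 * |CF| * Λ)
  have b2 := mul_le_mul_of_nonneg_left Q1 (by positivity : 0 ≤ 8 * |CJ| * Λ * (16 + 8 * Λ))
  have b3 := mul_le_mul_of_nonneg_left hN
    (by positivity : 0 ≤ 4 * (A / (V.r : ℝ) ^ 3) * (2 * |CJ| / s ^ 4 * (μ * Λ)) * 8)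
  have c1 : 2 * A / V.r * (|CF| * (1 / s ^ 4 * (4 * Λ * μ / (s ^ 3 * V.r)))) = 8 * |CF| * Λ * (Q / s) := by
    rw [hQ]; field_simp; ring
  have c2 : 4 * (A / (V.r : ℝ) ^ 3) * (2 * |CJ| / s ^ 4 * (μ * Λ)) *
      (16 * (1 / s ^ 3) * V.r + 8 * (Λ * (1 / s ^ 3) * V.r)) = 8 * |CJ| * Λ * (16 + 8 * Λ) * (Q / s) := by
    rw [hQ]; field_simp; ring
  have c3 : (2 + |Cu|) * A * (2 * |CJ| / s ^ 4 * (4 * Λ * μ / (s ^ 3 * V.r))) * (CO * s / V.r) =
      8 * (2 + |Cu|) * |CJ| * Λ * CO * Q := by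
    rw [hQ]; field_simp; ring
  have c4 : ∀ C : ℝ, C * A * μ * (1 / s ^ 6) / V.r ^ 2 = C * Q := fun C => by rw [hQ]; field_simp
  have c5 : ∀ C : ℝ, C * A * μ / (s ^ 6 * V.r ^ 2) = C * Q := fun C => by rw [hQ]; ring
  rw [c1, c3, c4, c5]
  linarith

end Crest.Agent.T145.Vx
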