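import Crest.Agent.T145.VxDef_35
import Crest.Agent.T145.TwTop_63

/-!
# Row 145, twisted module (helper35): `XStmt` gives `Tw.MicroStmt`
-/

set_option autoImplicit false

namespace Crest.Agent.T145.Vx

open Finset Filter Topology

namespace Top35

theorem sig_eq (r : ℕ) : (Vp.mk 0 r true).σ = seam r := by
  funext e
  obtain ⟨⟨a, b⟩, ⟨c, d⟩⟩ := e
  simp only [Vp.σ, sm, Vd.ray, seam]
  split_ifs <;> omega

theorem dv_left (b : ℝ) (r : ℕ) : Dv b ⟨0, r, true⟩ = Tw.Dm (xyL b) (seam r) Tw.eL := by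
  funext s
  simp only [Dv, sig_eq, Tw.Dm, Vp.e, Tw.eL, if_true]
  rfl

theorem dv_right (b : ℝ) (r : ℕ) :
    Dv b (Vp.sw ⟨0, r, true⟩) = Tw.Dm (xyL b) (seam r) (Tw.eR r) := by
  funext s
  have h : (Vp.sw ⟨0, r, true⟩).σ = seam r := sig_eq r
  have h' : (Vp.sw ⟨0, r, true⟩).e = Tw.eR r := by simp [Vp.sw, Vp.e, Tw.eR]
  simp only [Dv, h, h', Tw.Dm]
  rfl

theorem num {t : ℝ} (ht : 1 ≤ t) :
    |1 / (2 * Real.pi * (2 / Real.pi + 1 / (Real.pi * t))) - (1 / 4 - 1 / (8 * t))| ≤ t ^ (-2 : ℝ) := by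
  have hp := Real.pi_pos
  have t0 : 0 < t := by linarith
  have e1 : 2 * Real.pi * (2 / Real.pi + 1 / (Real.pi * t)) = (4 * t + 2) / t := by
    field_simp; ring
  have e2 : 1 / ((4 * t + 2) / t) - (1 / 4 - 1 / (8 * t)) = 1 / (8 * t * (2 * t + 1)) := by
    field_simp; ring
  rw [e1, e2, abs_of_pos (by positivity), Real.rpow_neg t0.le, Real.rpow_two, one_div]
  exact inv_anti₀ (by positivity) (by nlinarith)

end Top35

open Top35 in
theorem microStmt (hP : ParStmt) (hX : XStmt) : Tw.MicroStmt := by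
  intro b hb
  obtain ⟨P, rfl, hok⟩ := hP b hb
  obtain ⟨C, r₁, h⟩ := hX P hok
  refine ⟨C + 1, P.δ, hok.δ0, ?_⟩
  filter_upwards [eventually_ge_atTop r₁, eventually_ge_atTop 3] with r hr h3
  have ht : 1 ≤ Real.log r := by
    rw [Real.le_log_iff_exp_le (by positivity)]
    exact Real.exp_one_lt_three.le.trans (by exact_mod_cast h3)
  refine Inf48.tendsto_faces.frequently (((h ⟨0, r, true⟩ hr).mono fun R hR => ?_).frequently)
  rw [dv_left, dv_right, sig_eq] at hR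
  have h1 := num ht
  have h2 : Real.log r ^ (-2 : ℝ) ≤ Real.log r ^ (-(1 + P.δ)) :=
    Real.rpow_le_rpow_of_exponent_le ht (by linarith [hok.δ1])
  have e : (-1 - P.δ) = -(1 + P.δ) := by ring
  simp only [Vp.t, e, gc] at hR
  have := abs_add_le _ _ |>.trans (add_le_add hR (h1.trans h2))
  rw [sub_add_sub_cancel] at this
  rw [add_mul, one_mul]
  exact this

end Crest.Agent.T145.Vx
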