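import Crest.Agent.T145.VxDef_35
import Crest.Agent.T145.KsA_68
import Crest.Agent.T145.Fkg_86
import Crest.Agent.T145.NcGeo_51

/-!
# Row 145, module Vx: `trStmt`, `ggStmt`, `yStmt` (unconditional; helper12)
-/

set_option autoImplicit false

namespace Crest.Agent.T145.Vx

open Finset
open Nc (an Amb Nm St pn rs)
open Vd (rat ray)
open Ks68 (tw tw_ne tw_pos)

namespace Tr12

section gen
variable {V : Type} [DecidableEq V] {m : Mdl V} {B S : Finset V} {F : Cfg V → ℝ}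

/-- a tame function of finitely many heights is dominated by one-site exponentials -/
theorem dom_exp (hF : Tame F) (hD : Dep S F) (hS : S.Nonempty) : ∃ C a : ℝ, 0 ≤ C ∧ 0 ≤ a ∧
    ∀ t, |F t| ≤ C * ∑ x ∈ S, (Real.exp (a * t x) + Real.exp (-a * t x)) := by
  obtain ⟨C, T, hC, h⟩ := hF.exists_nonneg
  refine ⟨C * T.card, ∑ f ∈ T, ∑ x ∈ S, |f (Finsupp.single x 1)|, by positivity,
    sum_nonneg fun _ _ => sum_nonneg fun _ _ => abs_nonneg _, fun t => ?_⟩
  set a : ℝ := ∑ f ∈ T, ∑ x ∈ S, |f (Finsupp.single x 1)| with ha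
  obtain ⟨y, hy, hm⟩ := exists_max_image S (fun x => |(t x : ℝ)|) hS
  rw [hD t (∑ x ∈ S, t x • Finsupp.single x 1) fun x hx => by
    simp [Finsupp.finsetSum_apply, Finsupp.single_apply, hx]]
  refine (h _).trans ?_
  rw [mul_assoc, ← nsmul_eq_mul]
  refine mul_le_mul_of_nonneg_left (sum_le_card_nsmul _ _ _ fun f hf => ?_) hC
  have h1 : f (∑ x ∈ S, t x • Finsupp.single x 1) ≤ a * |(t y : ℝ)| := by
    rw [map_sum]
    calc _ ≤ ∑ x ∈ S, |f (Finsupp.single x 1)| * |(t y : ℝ)| := sum_le_sum fun x hx => by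
          rw [map_zsmul, zsmul_eq_mul, mul_comm]
          refine (le_abs_self _).trans ?_
          rw [abs_mul]
          exact mul_le_mul_of_nonneg_left (hm x hx) (abs_nonneg _)
      _ ≤ _ := by
          rw [← sum_mul]
          exact mul_le_mul_of_nonneg_right (single_le_sum
            (f := fun f : Cfg V →+ ℝ => ∑ x ∈ S, |f (Finsupp.single x 1)|)
            (fun _ _ => sum_nonneg fun _ _ => abs_nonneg _) hf) (abs_nonneg _)
  refine (Real.exp_le_exp.2 h1).trans (le_trans ?_ (single_le_sum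
    (f := fun x => Real.exp (a * t x) + Real.exp (-a * t x)) (fun _ _ => by positivity) hy))
  rcases abs_cases (t y : ℝ) with e | e <;> rw [e.1]
  · exact le_add_of_nonneg_right (Real.exp_pos _).le
  · rw [mul_neg, neg_mul]; exact le_add_of_nonneg_left (Real.exp_pos _).le

/-- a monotone covariant function is tame -/
theorem tame_cov {Φ : Cfg V → ℝ} {a : ℝ} (hS : S.Nonempty) (h0 : ∀ s, 0 ≤ Φ s) (hD : Dep S Φ)
    (hm : Monotone Φ ∨ Antitone Φ) (hc : ∀ h : ℤ, Φ (cst S h) = Real.exp (a * h) * Φ 0) : Tame Φ := by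
  refine (((Tame.sum S fun y _ => Tame.exp (a • evH y))).mul_const (Φ 0)).of_le fun s => ?_
  have key : ∃ y ∈ S, Φ s ≤ Φ (cst S (s y)) := by
    rw [hD s (pw S s 0) fun x hx => (pw_of_mem _ _ hx).symm]
    rcases hm with hm | hm
    · obtain ⟨y, hy, h⟩ := exists_max_image S (fun x => s x) hS
      refine ⟨y, hy, hm fun x => ?_⟩
      by_cases hx : x ∈ S
      · rw [pw_of_mem _ _ hx, cst_of_mem _ hx]; exact h x hx
      · rw [pw_of_notMem _ _ hx, cst_of_notMem _ hx]; exact le_rfl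
    · obtain ⟨y, hy, h⟩ := exists_min_image S (fun x => s x) hS
      refine ⟨y, hy, hm fun x => ?_⟩
      by_cases hx : x ∈ S
      · rw [pw_of_mem _ _ hx, cst_of_mem _ hx]; exact h x hx
      · rw [pw_of_notMem _ _ hx, cst_of_notMem _ hx]; exact le_rfl
  obtain ⟨y, hy, h⟩ := key
  rw [abs_of_nonneg (h0 s)]
  refine h.trans ((hc _).trans_le (mul_le_mul_of_nonneg_right ?_ (h0 0)))
  exact single_le_sum (f := fun y => Real.exp ((a • evH y : Cfg V →+ ℝ) s))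
    (fun _ _ => (Real.exp_pos _).le) hy

/-- conditional expectations of tame functions are tame (log-concave kernels, no site weights) -/
theorem tame_cE (lc : ∀ e ∈ m.ed, LC (m.w e)) (h1 : ∀ x ∈ B, ∀ k, m.site x k = 1)
    (hW : ∀ s, Wt ((m.free B).W s)) (hE : ∀ s, SE ((m.free B).W s)) (hS : S.Nonempty) (hB : B ⊆ S)
    (hb : m.bd B ⊆ S) (hF : Tame F) (hD : Dep S F) : Tame (m.cE B F) := by
  have hw : ∀ e ∈ m.ed, ∀ k, m.w e k ≠ 0 := fun e he k => ((lc e he).1 k).ne'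
  have tm : ∀ (a : ℝ) (x : V), Tame fun t : Cfg V => Real.exp (a * t x) := fun a x =>
    Tame.exp (a • evH x)
  have one : ∀ (a : ℝ), ∀ x ∈ S, Tame (m.cE B fun t => Real.exp (a * t x)) := by
    intro a x hx
    have hd : ∀ {s s' : Cfg V}, s ≤ s' → Dom ((m.free B).W s) ((m.free B).W s') := fun h =>
      Mdl.dom_bc (m := m.free B) lc (fun y hy k => by rw [Mdl.free_site, h1 y hy]; exact zero_le_one)
        fun y _ => h y
    refine tame_cov (a := a) hS (fun s => Mdl.cE_nonneg (hW s).nonneg fun _ => (Real.exp_pos _).le)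
      ((Mdl.cE_dep hw ((Dep.ev hx).comp fun k : ℤ => Real.exp (a * k))).mono
        (union_subset hb sdiff_subset)) ?_ fun h => ?_
    · rcases le_total 0 a with ha | ha
      · exact Or.inl fun s s' h => (hd h).ex_le (hW _) (hW _) (fun t t' ht => Real.exp_le_exp.2
          (mul_le_mul_of_nonneg_left (by exact_mod_cast ht x) ha)) ((hE _).ig (tm a x))
          ((hE _).ig (tm a x))
      · exact Or.inr fun s s' h => (hd h).ex_ge (hW _) (hW _) (fun t t' ht => Real.exp_le_exp.2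
          (mul_le_mul_of_nonpos_left (by exact_mod_cast ht x) ha)) ((hE _).ig (tm a x))
          ((hE _).ig (tm a x))
    · have := Mdl.cE_shift (B := B) hw (δ := cst S h) (fun y hy k => by rw [h1 y hy, h1 y hy])
        (fun e he => by
          rw [cst_of_mem h ((Mdl.ends_of_edM he).1.elim (@hB _) (@hb _)),
            cst_of_mem h ((Mdl.ends_of_edM he).2.elim (@hB _) (@hb _))])
        (fun t => Real.exp (a * t x)) 0
      rw [zero_add] at this
      rw [this, Mdl.cE_def, Mdl.cE_def, ← Ex_const_mul]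
      refine Ex_congr fun t _ => ?_
      rw [Finsupp.add_apply, cst_of_mem h hx, ← Real.exp_add]
      push_cast; ring_nf
  obtain ⟨C, a, hC, -, h⟩ := dom_exp hF hD hS
  refine ((Tame.sum S fun x hx => (one a x hx).add (one (-a) x hx)).const_mul C).of_le fun s => ?_
  have i1 : ∀ x ∈ S, Ig ((m.free B).W s) fun t => Real.exp (a * t x) + Real.exp (-a * t x) :=
    fun x _ => (hE s).ig ((tm a x).add (tm (-a) x))
  refine (Mdl.abs_cE_le (hW s).nonneg ((hE s).ig hF)).trans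
    ((Ex_mono (hW s).nonneg ((hE s).ig hF.abs) ((Ig.sum S i1).const_mul C) h).trans_eq ?_)
  rw [Ex_const_mul, Ex_sum S i1]
  congr 1
  exact sum_congr rfl fun x _ => Ex_add ((hE s).ig (tm a x)) ((hE s).ig (tm (-a) x))

omit [DecidableEq V] in
theorem lc_tw (h : m.Fm) (σ : V × V → ℤ) : ∀ e ∈ (tw m σ).ed, LC ((tw m σ).w e) := fun e he =>
  ⟨fun k => (h.lc e he).1 _, fun k => by
    have := (h.lc e he).2 (k + σ e)
    rwa [show k + σ e - 1 = k - 1 + σ e by ring, show k + σ e + 1 = k + 1 + σ e by ring] at this⟩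

/-- a pure gauge seam is a shift of the heights -/
theorem Ws_pure {σ : V × V → ℤ} {u : Cfg V} (h1 : ∀ x ∈ m.A, ∀ k, m.site x k = 1)
    (hσ : ∀ e ∈ m.ed, σ e = dE e u) (η t : Cfg V) : m.Ws η σ t = m.W (η + u) (t + u) := by
  rw [Md.W_eq_Ws, Md.Ws_gauge m η u t 0 fun x hx k => by rw [h1 x hx, h1 x hx],
    Sl46.Ws_congr m η (σ := σ) (σ' := fun e => (0 : V × V → ℤ) e + dE e u) fun e he => by
      rw [hσ e he, Pi.zero_apply, zero_add]]

theorem ex_pure {σ : V × V → ℤ} {u : Cfg V} (h1 : ∀ x ∈ m.A, ∀ k, m.site x k = 1)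
    (hσ : ∀ e ∈ m.ed, σ e = dE e u) (η : Cfg V) (G : Cfg V → ℝ) :
    Ex (m.Ws η σ) (fun t => G (t + u)) = Ex (m.W (η + u)) G := by
  rw [← Md.ex_equiv (Equiv.addRight u) (m.W (η + u))]
  simp only [Equiv.coe_addRight, ← Ws_pure h1 hσ]

theorem zs_pure {σ : V × V → ℤ} {u : Cfg V} (h1 : ∀ x ∈ m.A, ∀ k, m.site x k = 1)
    (hσ : ∀ e ∈ m.ed, σ e = dE e u) (η : Cfg V) : Zs (m.Ws η σ) = Zs (m.W (η + u)) := by
  rw [← Md.zs_equiv (Equiv.addRight u) (m.W (η + u))]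
  simp only [Equiv.coe_addRight, ← Ws_pure h1 hσ]

/-- the gauge function that vanishes at the root `r` and off `B` -/
noncomputable def gr (B : Finset V) (r : V) (g : Cfg V) : Cfg V := pw B (g + cst B (-g r)) 0

theorem gr_mem {r x : V} (g : Cfg V) (hx : x ∈ B) : gr B r g x = g x + -g r := by
  rw [gr, pw_of_mem _ _ hx, Finsupp.add_apply, cst_of_mem _ hx]

theorem gr_off {r x : V} (g : Cfg V) (hx : x ∉ B.erase r) : gr B r g x = 0 := by
  by_cases h : x ∈ B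
  · obtain rfl : x = r := by_contra fun h' => hx (mem_erase.2 ⟨h', h⟩)
    rw [gr_mem g h, add_neg_cancel]
  · rw [gr, pw_of_notMem _ _ h]; rfl

theorem dE_gr {r : V} (g : Cfg V) {e : V × V} (h1 : e.1 ∈ B) (h2 : e.2 ∈ B) :
    dE e (gr B r g) = dE e g := by
  rw [dE, dE, gr_mem g h1, gr_mem g h2]; ring

end gen

section lat
variable {Λ : Lat} {σ : Pt × Pt → ℤ} {z z' : Pt} {R c : ℕ} {F G : Cfg Pt → ℝ} {m : Mdl Pt}

theorem tr_cE (Λ : Lat) (σ : Pt × Pt → ℤ) (z : Pt) (R : ℕ) (F : Cfg Pt → ℝ) :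
    Λ.tr σ z R F = (tw (Λ.D (bl z R)) σ).cE (bl z R) F := rfl

theorem wt_D (h : Λ.Ok) (B : Finset Pt) (σ : Pt × Pt → ℤ) (s : Cfg Pt) : Wt ((Λ.D B).Ws s σ) :=
  Md.ctr_wts (h.ctr_D B) (h.anch_D B) s σ

theorem se_D (h : Λ.Ok) (B : Finset Pt) (σ : Pt × Pt → ℤ) (s : Cfg Pt) : SE ((Λ.D B).Ws s σ) :=
  Md.ctr_ses (h.ctr_D B) (h.anch_D B) s σ

theorem wt_Nr (h : Λ.Ok) {r : Pt} (hr : r ∈ bl z c) (σ : Pt × Pt → ℤ) : Wt ((Λ.Nr (bl z c) r).Ws 0 σ) :=
  Md.ctr_wts (h.ctr_Nr _ r) (h.anch_Nr_bl hr) 0 σ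

theorem se_Nr (h : Λ.Ok) {r : Pt} (hr : r ∈ bl z c) (σ : Pt × Pt → ℤ) : SE ((Λ.Nr (bl z c) r).Ws 0 σ) :=
  Md.ctr_ses (h.ctr_Nr _ r) (h.anch_Nr_bl hr) 0 σ

theorem bd_D (σ : Pt × Pt → ℤ) : (tw (Λ.D (bl z R)) σ).bd (bl z R) ⊆ an z R (R + Λ.rg) :=
  Nc.Geo.bd_subset fun _ he h => Nc.Geo.near_bl (Lat.mem_edT.1 he).1 h

theorem out_tr (F : Cfg Pt → ℝ) : Out (bl z R) (Λ.tr σ z R F) :=
  Mdl.cE_out (tw (Λ.D (bl z R)) σ) (bl z R) F

theorem tame_D (h : Λ.Ok) {B S : Finset Pt} (hS : S.Nonempty) (hB : B ⊆ S)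
    (hb : (tw (Λ.D B) σ).bd B ⊆ S) (hF : Tame F) (hD : Dep S F) : Tame ((tw (Λ.D B) σ).cE B F) := by
  have e : ∀ s, ((tw (Λ.D B) σ).free B).W s = (Λ.D B).Ws s σ := fun _ => rfl
  have e1 : ∀ x ∈ B, ∀ k, (tw (Λ.D B) σ).site x k = 1 := fun _ _ _ => rfl
  have e2 : ∀ s, Wt (((tw (Λ.D B) σ).free B).W s) := fun s => by rw [e]; exact wt_D h B σ s
  have e3 : ∀ s, SE (((tw (Λ.D B) σ).free B).W s) := fun s => by rw [e]; exact se_D h B σ s
  have e4 := lc_tw (h.ctr_D B).1 σ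
  exact tame_cE e4 e1 e2 e3 hS hB hb hF hD

theorem tame_tr (h : Λ.Ok) (hF : Ins z (R + Λ.rg) F) : Tame (Λ.tr σ z R F) :=
  tame_D h ⟨z, self_mem_bl z _⟩ (bl_mono z (Nat.le_add_right _ _))
    ((bd_D σ).trans (Nc.Geo.an_subset_bl z _ _)) hF.2 hF.1.dep

theorem depG_tr (h : Λ.Ok) (hF : DepG (bl z (R + Λ.rg)) F) : DepG (an z R (R + Λ.rg)) (Λ.tr σ z R F) :=
  (Mdl.cE_depG (m := tw (Λ.D (bl z R)) σ) (tw_ne (h.ctr_D _).1 σ) (fun _ _ _ _ => rfl) hF).mono
    (union_subset (bd_D σ) Subset.rfl)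

theorem ins_tr (h : Λ.Ok) (hF : Ins z (R + Λ.rg) F) : Ins z (R + Λ.rg) (Λ.tr σ z R F) :=
  ⟨(depG_tr h hF.1).mono sdiff_subset, tame_tr h hF⟩

theorem abs_tr_le (h : Λ.Ok) (hF : Tame F) (s : Cfg Pt) :
    |Λ.tr σ z R F s| ≤ Λ.tr σ z R (fun t => |F t|) s :=
  abs_Ex_le (wt_D h _ σ s).nonneg ((se_D h _ σ s).ig hF)

/-- DLR with a seam, any boundary condition -/
theorem dlr (h : Λ.Ok) (hc : m.Ctr) (ha : m.Anch) (hn : Λ.Near m (bl z R)) (hA : bl z R ⊆ m.A)
    (η : Cfg Pt) (hF : Tame F) (hO : Out (bl z R) G) (hG : Tame G) :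
    Ex (m.Ws η σ) (fun s => F s * G s) = Ex (m.Ws η σ) fun s => Λ.tr σ z R F s * G s := by
  have := (Md.dlr_mul (tw m σ) η hA (Md.ctr_wts hc ha η σ) hO (F := F)
    ((Md.ctr_ses hc ha η σ).ig (hG.mul hF))).2
  simp only [mul_comm (G _)] at this
  refine this.trans (Ex_congr fun s _ => ?_)
  exact congrArg (· * G s) ((hn.pps h hc.1 s σ).ex F)

/-- the root of the free box is irrelevant -/
theorem exN_root {r : Pt} (hr : r ∈ bl z c) (hF : DepG (bl z c) F) :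
    Λ.exN σ z c F = Ex ((Λ.Nr (bl z c) r).Ws 0 σ) F :=
  ex_root (tw (Λ.N (bl z c)) σ) (self_mem_bl z c) hr (fun _ he => (Lat.mem_edI.1 he).2)
    (fun _ _ => rfl) (hF.shift Subset.rfl)

theorem exN_tr (h : Λ.Ok) (hF : Ins z (R + Λ.rg) F) (hc : bl z (R + Λ.rg) ⊆ bl z' c)
    (hO : Out (bl z R) G) (hG : Tame G) (hD : DepG (bl z' c) G) :
    Λ.exN σ z' c (fun s => F s * G s) = Λ.exN σ z' c fun s => Λ.tr σ z R F s * G s := by
  have h1 := h.one_le_rg
  have hr : ((z.1 + R + 1, z.2) : Pt) ∈ bl z' c := hc (by rw [mem_bl]; dsimp only; omega)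
  rw [exN_root hr ((hF.1.mono hc).mul hD), exN_root hr (((ins_tr h hF).1.mono hc).mul hD)]
  refine dlr h (h.ctr_Nr _ _) (h.anch_Nr_bl hr)
    (Lat.near_Nr (Lat.edT_subset_edI fun x hx => (bl_subset_bl hx (by omega)).trans hc) _)
    (fun x hx => mem_erase.2 ⟨?_, hc (bl_mono z (by omega) hx)⟩) 0 hF.2 hO hG
  rintro rfl
  rw [mem_bl] at hx; dsimp only at hx; omega

theorem exN_tr1 (h : Λ.Ok) (hF : Ins z (R + Λ.rg) F) (hc : bl z (R + Λ.rg) ⊆ bl z' c) :
    Λ.exN σ z' c (Λ.tr σ z R F) = Λ.exN σ z' c F := by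
  simpa only [mul_one] using
    (exN_tr (σ := σ) h hF hc (Out.const _ 1) (Tame.const 1) (DepG.const _ 1)).symm

theorem nrm_tr (h : Λ.Ok) (hF : Ins z (R + Λ.rg) F) (hc : bl z (R + Λ.rg) ⊆ bl z' c) :
    Λ.nrm σ z' c (Λ.tr σ z R F) ≤ Λ.nrm σ z' c F := by
  have hA : Ins z (R + Λ.rg) fun t => |F t| := ⟨hF.1.comp _, hF.2.abs⟩
  have hs := se_Nr h (self_mem_bl z' c) σ
  exact (Ex_mono (wt_Nr h (self_mem_bl z' c) σ).nonneg (hs.ig (tame_tr h hF).abs)
    (hs.ig (tame_tr h hA)) (abs_tr_le h hF.2)).trans_eq (exN_tr1 h hA hc)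

end lat

/-! ## summation by parts -/

theorem hfs {u : Pt → ℝ} {S : Finset Pt} (h : Sup S u) : Function.HasFiniteSupport u :=
  S.finite_toSet.subset fun x hx => by_contra fun h' => hx (h x h')

theorem hfs_df {u : Pt → ℝ} (h : Function.HasFiniteSupport u) (i : Fin 2) :
    Function.HasFiniteSupport (df i u) :=
  Function.HasFiniteSupport.sub (h.comp_of_injective (add_left_injective (ev i))) h

theorem hfs_mul {u : Pt → ℝ} (h : Function.HasFiniteSupport u) (φ : Pt → ℝ) :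
    Function.HasFiniteSupport fun z => u z * φ z :=
  Set.Finite.subset h fun _ hx => left_ne_zero_of_mul hx

theorem hfs_sum {u : Pt → ℝ} (h : Function.HasFiniteSupport u) (φ : Fin 2 → Pt → ℝ) :
    Function.HasFiniteSupport fun z => ∑ i, df i u z * φ i z := by
  simp only [Fin.sum_univ_two]
  exact Function.HasFiniteSupport.add (hfs_mul (hfs_df h 0) _) (hfs_mul (hfs_df h 1) _)

theorem sbp {v : Pt → ℝ} (h : Function.HasFiniteSupport v) (φ : Fin 2 → Pt → ℝ) :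
    ∑ᶠ z, v z * ∑ i, (φ i (z - ev i) - φ i z) = ∑ᶠ z, ∑ i, df i v z * φ i z := by
  simp only [mul_sum]
  rw [finsum_sum_comm _ _ fun i _ => hfs_mul h _, finsum_sum_comm _ _ fun i _ => hfs_mul (hfs_df h i) _]
  refine sum_congr rfl fun i _ => ?_
  simp only [mul_sub, df, sub_mul]
  rw [finsum_sub_distrib (hfs_mul h _) (hfs_mul h _), finsum_sub_distrib (hfs_mul
    (u := fun z => v (z + ev i)) (h.comp_of_injective (add_left_injective (ev i))) _) (hfs_mul h _),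
    ← finsum_comp_equiv (Equiv.addRight (ev i)) (f := fun z => v z * φ i (z - ev i))]
  simp only [Equiv.coe_addRight, add_sub_cancel_right]

theorem A0_eq (u : Pt → ℝ) (z : Pt) : A0 u z = ∑ i, (df i u (z - ev i) - df i u z) := by
  simp only [Fin.sum_univ_two, df, A0, ev, Matrix.cons_val_zero, Matrix.cons_val_one,
    sub_eq_add_neg z, Prod.neg_mk, neg_zero]
  simp only [add_assoc, Prod.mk_add_mk, neg_add_cancel, add_zero, Prod.mk_zero_zero]
  ring

theorem fin_eq {u : Pt → ℝ} {S : Finset Pt} (h : Sup S u) (φ : Pt → ℝ) :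
    ∑ᶠ z, u z * φ z = ∑ z ∈ S, u z * φ z :=
  finsum_eq_sum_of_support_subset _ fun x hx => by_contra fun h' => hx (by simp only [h x h', zero_mul])

theorem Jv_zero (z : Pt) : Jv 0 z = Jz z := by
  funext s
  simp only [Jv, Jz, nE, dE, Fin.sum_univ_two, ev, Matrix.cons_val_zero, Matrix.cons_val_one,
    Pi.zero_apply, sub_eq_add_neg z, Prod.neg_mk, neg_zero]
  push_cast; ring

theorem ins_Jv (σ : Pt × Pt → ℤ) (z : Pt) : Ins z 1 (Jv σ z) := by
  have h0 := self_mem_bl z 1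
  have h1 : ∀ i, z - ev i ∈ bl z 1 ∧ z + ev i ∈ bl z 1 := fun i => by
    fin_cases i <;> simp [mem_bl, ev] <;> omega
  refine ⟨DepG.sum fun i _ => DepG.sub ?_ ?_, Tame.sum _ fun i _ => Tame.sub ?_ ?_⟩
  · exact (DepG.dE (e := (z - ev i, z)) (h1 i).1 h0).comp fun k => ((k + σ (z - ev i, z) : ℤ) : ℝ)
  · exact (DepG.dE (e := (z, z + ev i)) h0 (h1 i).2).comp fun k => ((k + σ (z, z + ev i) : ℤ) : ℝ)
  · exact ((Tame.dE (z - ev i, z)).add (Tame.const (σ (z - ev i, z) : ℝ))).congr fun s => by simp [nE]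
  · exact ((Tame.dE (z, z + ev i)).add (Tame.const (σ (z, z + ev i) : ℝ))).congr fun s => by simp [nE]

end Tr12

open Tr12

theorem trStmt : TrStmt := fun b σ z R F hb hF => by
  have h := xyL_ok hb
  rw [← xyL_rg b] at hF ⊢
  exact ⟨tame_tr h hF, depG_tr h hF.1, fun _ _ hc => nrm_tr h hF hc, fun _ hO hG =>
    ⟨fun _ _ hc => funext fun s => dlr h (h.ctr_D _) (h.anch_D _) (Lat.near_D hc) hc s hF.2 hO hG,
      fun _ _ hc hD => exN_tr h hF hc hO hG hD,
      fun _ hm => dlr h hm.ctr hm.anch hm.near hm.sub 0 hF.2 hO hG⟩⟩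

theorem ggStmt : GgStmt := by
  intro b V z c hb hc
  have hJ : ∀ {e : Pt × Pt}, e.2 - e.1 ∈ (xyL b).Jp → e.2 - e.1 = (1, 0) ∨ e.2 - e.1 = (0, 1) :=
    fun h => Vd.mem_Jp.1 h
  obtain ⟨g, hg⟩ : ∃ g : Cfg Pt, ∀ e ∈ (xyL b).edI (bl z c), V.σ e = dE e g := by
    refine ⟨if V.a ≤ z.1 ∧ z.1 < V.a + V.r then cst ((bl z c).filter fun x => 0 ≤ x.2) 1 else 0,
      fun e he => ?_⟩
    obtain ⟨h1, h2, h3⟩ := Lat.mem_edI.1 he
    have h4 := hJ h1
    have h5 : c < ds z (V.a, 0) ∧ c < ds z (V.a + V.r, 0) := by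
      obtain ⟨a, r, sd⟩ := V
      cases sd <;> simp only [Vp.d, Vp.p, Vp.q, Vp.sw, lt_min_iff] at hc <;> simpa using by tauto
    have h2' := mem_bl.1 h2
    have h3' := mem_bl.1 h3
    simp only [Prod.ext_iff, Prod.fst_sub, Prod.snd_sub] at h4
    simp only [ds, lt_max_iff] at h5
    simp only [Vp.σ, sm, ray, dE]
    by_cases h6 : V.a ≤ z.1 ∧ z.1 < V.a + V.r
    · simp only [if_pos h6, cst_apply, mem_filter, h2, h3, true_and]
      split_ifs <;> omega
    · simp only [if_neg h6, Finsupp.coe_zero, Pi.zero_apply]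
      split_ifs <;> omega
  refine ⟨g, hg, ?_, fun c' hc' G => ⟨fun hG => ?_, fun ρ hρ _ => funext fun s => ?_⟩⟩
  · obtain ⟨r, hr, e⟩ := Nc.rs_spec ⟨z, self_mem_bl z c⟩
    have hW := Md.ctr_wt (Ks68.fr_ctr ((xyL_ok hb).ctr_N (bl z c)).1 (bl z c)) (Ks68.fr_anch
      ((Nc.Geo.inL_N Subset.rfl).cn (Nc.Geo.cnL_bl (xyL_ok hb) z c)) ⟨z, self_mem_bl z c⟩) 0
    rw [rat, zs_pure (u := gr (bl z c) r g) (fun _ _ _ => rfl) fun e he => by
        have h := mem_filter.1 he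
        rw [hg e h.1, dE_gr g h.2.1 h.2.2],
      Mdl.W_congr _ (η' := 0) fun x hx => by
        rw [zero_add, gr_off g (by rwa [← sdiff_singleton_eq_erase, ← e])]; rfl]
    exact div_self hW.pos.ne'
  · have h := ex_pure (m := (xyL b).Nr (bl z c') z) (σ := V.σ) (u := gr (bl z c') z g)
      (fun _ _ _ => rfl) (fun e he => by
        obtain ⟨h1, h2, h3⟩ := Lat.mem_edI.1 he
        rw [hg e (Lat.mem_edI.2 ⟨h1, bl_mono z hc' h2, bl_mono z hc' h3⟩), dE_gr g h2 h3]) 0 G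
    rw [Mdl.W_congr _ (η' := 0) fun x hx => by rw [zero_add, gr_off g hx]; rfl] at h
    refine Eq.trans (Ex_congr fun s _ => hG.1 _ _ (-g z) fun x hx => ?_) h
    rw [Finsupp.add_apply, Finsupp.add_apply, gr_mem g hx, add_assoc]
  · exact ex_pure (m := (xyL b).D (bl z ρ)) (fun _ _ _ => rfl) (fun e he => hg e
      (Lat.edT_subset_edI (fun x hx => bl_subset_bl hx (by rw [xyL_rg]; omega)) he)) s G

theorem yStmt : YStmt := by
  intro σ S u hu
  have h1 : ∀ s, Yv σ u s = ∑ z ∈ S, u z * Jv σ z s := fun s => fin_eq hu _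
  refine ⟨h1, fun s => ?_, fun T v hv => ?_, ?_, fun z => ⟨ins_Jv σ z, Jv_zero z⟩⟩
  · have e1 := sbp (hfs hu) fun i z => (nE σ (z, z + ev i) s : ℝ)
    simp only [sub_add_cancel] at e1
    have hs : Sup s.support fun x => (s x : ℝ) := fun x hx => by
      simp [Finsupp.notMem_support_iff.1 hx]
    have e2 := sbp (hfs hs) fun i z => df i u z
    simp only [← A0_eq] at e2
    rw [fin_eq hs] at e2
    rw [Yv, pr_eq_sum]
    simp only [mul_comm (A0 u _)]
    rw [e2]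
    refine e1.trans ?_
    rw [← finsum_add_distrib (hfs_sum (hfs hs) _) (hfs_sum (hfs hu) _)]
    refine finsum_congr fun z => ?_
    rw [← sum_add_distrib]
    refine sum_congr rfl fun i _ => ?_
    simp only [nE, dE, df]
    push_cast; ring
  · have e := sbp (hfs hv) fun i z => df i u z
    simp only [← A0_eq] at e
    rw [fin_eq hv] at e
    simp only [mul_comm (A0 u _)]
    rw [e, En]
    simp only [mul_comm (df _ u _)]
  · exact (Tame.sum S fun z _ => (ins_Jv σ z).2.const_mul (u z)).congr fun s => (h1 s).symm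

end Crest.Agent.T145.Vx
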