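import Crest.Agent.T145.KsA_68

/-!
# Row 145 (helper68): twisted (D1), (D1io), hole density, (N)(b), any seam
-/

set_option autoImplicit false

namespace Crest.Agent.T145.Ks68

open Finset Nc

variable {V : Type} [DecidableEq V] {m : Mdl V} {N S U K T C : Finset V}

theorem pr_fl_pos (hF : m.Fm) (hU : Cn m U) (hn : U.Nonempty) (C : Finset V) :
    0 < Pr (rW m U) (Fl C) :=
  have h := rW_cen hF hU hn
  h.wt.ex_pos (h.wt.ig_ind _) (fun _ => ind_nonneg _) h.pos0 (by rw [ind_pos (fl_zero C)]; exact one_pos)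

theorem cr_nonneg (hF : m.Fm) (U K S : Finset V) : 0 ≤ cr m U K S :=
  div_nonneg (Pr_nonneg (Md.W_nonneg (pn_fm hF _ _) (pn_ctr hF _ _).nn _) _)
    (Pr_nonneg (Md.W_nonneg (pn_fm hF _ _) (pn_ctr hF _ _).nn _) _)

theorem cr_empty (hF : m.Fm) (h : Box m N S) : cr m N ∅ S = 1 := by
  obtain ⟨r, hr⟩ := h.ne
  rw [cr, (pn_wt hF h.cn (h.sub hr) hr 0).pr_of_forall fun _ _ _ hx => absurd hx (notMem_empty _),
    (rW_cen hF h.cn ⟨r, h.sub hr⟩).wt.pr_of_forall fun _ _ _ hx => absurd hx (notMem_empty _), div_one]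

/-- **twisted (D1)**, product form, with the weight of the rest -/
theorem td1 {ι : Type} {I : Finset ι} {N C S : ι → Finset V} (hc : m.Ctr) (ha : m.Anch)
    (hB : ∀ i ∈ I, ∀ j ∈ I, i ≠ j → Disjoint (N i) (N j))
    (hN : ∀ i ∈ I, Box m (N i) (S i) ∧ Cl m (N i) ∧ C i ⊆ N i) (hh : (hole m (I.biUnion N)).Anch)
    (σ : V × V → ℤ) {F : ι → Cfg V → ℝ}
    (hF : ∀ i ∈ I, DepG (C i) (F i) ∧ (∀ s, 0 ≤ F i s) ∧ Ig (rWs m (N i) σ) (F i)) :
    Ig (m.Ws 0 σ) (fun s => ∏ i ∈ I, F i s) ∧ zx m σ (fun s => ∏ i ∈ I, F i s) ≤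
      (∏ i ∈ I, cr m (N i) (C i) (S i) * zx (fr m (N i)) σ (F i)) * zr (hole m (I.biUnion N)) σ := by
  have ne : ∀ i ∈ I, (N i).Nonempty := fun i hi => (hN i hi).1.ne.mono (hN i hi).1.sub
  have ch := hole_ctr hc (I.biUnion N)
  obtain ⟨k1, k2⟩ := raw hc ha hB (fun i hi => ⟨(hN i hi).1.cn, ne i hi, (hN i hi).2⟩) hh
    (0 : Cfg V →+ ℤ) (Out.const _ _) σ hF (G := fun _ => 1) (fun _ => zero_le_one) (fun _ _ _ => rfl)
    ((Md.ctr_wts ch hh 0 σ).ig_const 1)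
  simp only [mul_one, AddMonoidHom.zero_apply, ind_pos trivial, zx_one,
    (Md.ctr_wt ch hh 0).pr_of_forall fun _ _ => trivial] at k1 k2
  refine ⟨k1, ?_⟩
  have d := (d1Stmt V ι m I N C S (fun i s => ind (Fl (C i) s)) hc ha hB fun i hi =>
    ⟨(hN i hi).1, (hN i hi).2.2, depG_fl _, fun _ => ind_nonneg _,
      (rW_cen hc.1 (hN i hi).1.cn (ne i hi)).wt.ig_ind _⟩).2
  have p0 : 0 < ∏ i ∈ I, Pr (rW m (N i)) (Fl (C i)) :=
    prod_pos fun i hi => pr_fl_pos hc.1 (hN i hi).1.cn (ne i hi) _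
  refine le_of_mul_le_mul_right (k2.trans ((mul_le_mul_of_nonneg_left d (mul_nonneg
    (prod_nonneg fun i hi => zx_nonneg (fr_ctr hc.1 _) σ (hF i hi).2.1)
    (zr_pos ch hh σ).le)).trans_eq ?_)) p0
  simp only [prod_mul_distrib, nE, Pr]
  ring

/-- one box -/
theorem td1_one (hc : m.Ctr) (ha : m.Anch) (hN : Box m N S) (hl : Cl m N) (hC : C ⊆ N)
    (hh : (hole m N).Anch) (σ : V × V → ℤ) {F : Cfg V → ℝ} (dF : DepG C F) (F0 : ∀ s, 0 ≤ F s)
    (iF : Ig (rWs m N σ) F) :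
    Ig (m.Ws 0 σ) F ∧ zx m σ F ≤ cr m N C S * zx (fr m N) σ F * zr (hole m N) σ := by
  simpa only [prod_singleton, singleton_biUnion] using td1 (I := ({()} : Finset Unit))
    (N := fun _ => N) (C := fun _ => C) (S := fun _ => S) hc ha (fun _ _ _ _ h => absurd rfl h)
    (fun _ _ => ⟨hN, hl, hC⟩) (by rwa [singleton_biUnion]) σ (F := fun _ => F) fun _ _ => ⟨dF, F0, iF⟩

/-- cutting raises the ratio -/
theorem zr_cut (hc : m.Ctr) (ha : m.Anch) (hN : Box m N S) (hl : Cl m N) (hh : (hole m N).Anch)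
    (σ : V × V → ℤ) : zr m σ ≤ zr (fr m N) σ * zr (hole m N) σ := by
  have := (td1_one hc ha hN hl (empty_subset _) hh σ (DepG.const _ (1 : ℝ)) (fun _ => zero_le_one)
    ((wt_rWs hc.1 hN.cn (hN.ne.mono hN.sub) σ).ig_const 1)).2
  rwa [cr_empty hc.1 hN, one_mul, zx_one, zx_one] at this

theorem zr_le_one (hc : m.Ctr) (ha : m.Anch) (σ : V × V → ℤ) : zr m σ ≤ 1 := by
  let m' : Mdl V := ⟨∅, ∅, m.w, fun _ _ => 1⟩
  have a' : m'.Anch := fun _ h => absurd h (notMem_empty _)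
  have c' : m'.Ctr := ⟨fun _ h => absurd h (notMem_empty _), fun _ h => absurd h (notMem_empty _)⟩
  have h := Sl46.cut_proj (m' := m') hc ha a' 0 (empty_subset _) (fun _ _ => rfl) (fun _ _ _ => rfl)
    (fun _ _ => ⟨fun _ _ => rfl, fun _ h => absurd h (notMem_empty _)⟩) σ 0
  rw [Sl46.Ws_eq_W m' 0 fun _ h => absurd h (notMem_empty _)] at h
  simp only [Zs, tilt, AddMonoidHom.zero_comp, AddMonoidHom.zero_apply, Real.exp_zero, mul_one] at h
  rw [mul_comm] at h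
  exact (div_le_one (Md.ctr_wt hc ha 0).pos).2 (le_of_mul_le_mul_left h (Md.ctr_wt c' a' 0).pos)

/-- **twisted (D1io)** -/
theorem td1io (hc : m.Ctr) (ha : m.Anch) (h : Cut m N S U K T) (hC : C ⊆ N) (σ : V × V → ℤ)
    {F G : Cfg V → ℝ} (dF : DepG C F) (F0 : ∀ s, 0 ≤ F s) (iF : Ig (rWs m N σ) F)
    (oG : Out (N ∪ U \ T) G) (G0 : ∀ s, 0 ≤ G s) (iG : Ig ((hole m N).Ws 0 σ) G) :
    Ig (m.Ws 0 σ) (fun s => F s * G s) ∧ zx m σ (fun s => F s * G s) ≤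
      cr m N C S * cr m U K T * zx (fr m N) σ F * zx (hole m N) σ G := by
  have ne : N.Nonempty := h.ne.mono h.sub
  have ch := hole_ctr hc N
  have hh := h.hole_anch ha
  let ψ : Cfg V →+ Cfg V := Finsupp.filterAddHom (· ∉ N ∪ U \ T)
  have hψ : ∀ s t, ψ s = ψ t ↔ ∀ x, x ∉ N ∪ U \ T → s x = t x := Md.filter_not_eq_iff _
  have oψ : Out (N ∪ U \ T) ψ := fun s t k => (hψ s t).2 k
  have k := raw (I := ({()} : Finset Unit)) (N := fun _ => N) (C := fun _ => C) hc ha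
    (fun _ _ _ _ h => absurd rfl h) (fun _ _ => ⟨h.cn, ne, h.clN, hC⟩) (by rwa [singleton_biUnion]) ψ
    (by rw [singleton_biUnion]; exact oψ.mono subset_union_left) σ (F := fun _ => F)
    (fun _ _ => ⟨dF, F0, iF⟩) G0 (fun s t k => oG s t ((hψ s t).1 k)) (by rwa [singleton_biUnion])
  simp only [prod_singleton, singleton_biUnion] at k
  refine ⟨k.1, ?_⟩
  have wh := ch.cen hh
  have d := (d1ioStmt (nbStmt monoCrStmt d1Stmt) (hdStmt d1Stmt) V m N S U K T C (fun s => ind (Fl C s))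
    (fun s => ind (ψ s = 0)) hc ha h hC (depG_fl _) (fun _ => ind_nonneg _)
    ((rW_cen hc.1 h.cn ne).wt.ig_ind _) (oψ.comp fun a => ind (a = 0)) (fun _ => ind_nonneg _)
    (wh.wt.ig_ind _)).2
  have p0 : 0 < Pr (rW m N) (Fl C) * Pr ((hole m N).W 0) fun s => ψ s = 0 :=
    mul_pos (pr_fl_pos hc.1 h.cn ne _) (wh.wt.ex_pos (wh.wt.ig_ind _) (fun _ => ind_nonneg _) wh.pos0
      (by rw [ind_pos (map_zero ψ)]; exact one_pos))
  refine le_of_mul_le_mul_right (k.2.trans ((mul_le_mul_of_nonneg_left d (mul_nonneg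
    (zx_nonneg (fr_ctr hc.1 _) σ F0) (zx_nonneg ch σ G0))).trans_eq ?_)) p0
  simp only [nE, Pr]
  ring

omit [DecidableEq V] in
theorem cl_tw (h : Cl m U) (σ : V × V → ℤ) : Cl (tw m σ) U := h

theorem cut_tw (h : Cut m N S U K T) (σ : V × V → ℤ) : Cut (tw m σ) N S U K T :=
  ⟨⟨h.cn, h.sub, h.ne, h.cl, h.bd⟩, h.clN, h.disj, h.cnU, h.clU, h.ksub, h.kne, h.kbd, h.bne, h.tsub,
    h.tne, h.tbd⟩

/-- the twisted hole density (normalised by the centred gluing weight) -/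
noncomputable def hdt (m : Mdl V) (σ : V × V → ℤ) (N U T : Finset V) (s : Cfg V) : ℝ :=
  nE m U (gl m N) * Zs (((hole m N).loc (U \ T)).Ws s σ) / Zs ((m.loc (N ∪ U \ T)).Ws s σ)

theorem loc_wts (hF : m.Fm) (h : Cut m N S U K T) (s : Cfg V) (σ : V × V → ℤ) :
    Wt ((m.loc (N ∪ U \ T)).Ws s σ) ∧ Wt (((hole m N).loc (U \ T)).Ws s σ) := by
  obtain ⟨t, ht⟩ := h.tne
  have tB : t ∉ N ∪ U \ T := disjoint_right.1 h.disjT ht
  have aB : (m.loc (N ∪ U \ T)).Anch := Hd10.loc_anch fun x hx => ⟨t, tB,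
    Md.conn_mono (filter_subset _ _) (h.cn_union x (h.subB hx) t (mem_union_right _ (h.tsub ht)))⟩
  have aH : ((hole m N).loc (U \ T)).Anch := Hd10.loc_anch fun x hx =>
    ⟨t, fun k => (mem_sdiff.1 k).2 ht, Hd10.conn_hole h.disj h.cnU (mem_sdiff.1 hx).1 (h.tsub ht)⟩
  exact ⟨Md.ctr_wts (Hd10.loc_ctr hF h.clB) aB s σ,
    Md.ctr_wts (Hd10.loc_ctr (hole_fm hF N) h.hole_box.cl) aH s σ⟩

theorem gl0_pos (hF : m.Fm) (h : Cut m N S U K T) : 0 < nE m U (gl m N) :=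
  (hdStmt d1Stmt V m N S U K T hF h).2.2.1

theorem hdt_pos (hF : m.Fm) (h : Cut m N S U K T) (σ : V × V → ℤ) (s : Cfg V) : 0 < hdt m σ N U T s :=
  div_pos (mul_pos (gl0_pos hF h) (loc_wts hF h s σ).2.pos) (loc_wts hF h s σ).1.pos

theorem hdt_depG (h : Cut m N S U K T) (σ : V × V → ℤ) : DepG T (hdt m σ N U T) :=
  ((Hd10.gl_depG (m := hole (tw m σ) N) h.hole_box.cl).mono h.bd_hole).comp₂
    ((Hd10.gl_depG (m := tw m σ) h.clB).mono h.tbd) fun a b => nE m U (gl m N) * a / b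

/-- the transfer identity -/
theorem hdt_sum (hF : m.Fm) (h : Cut m N S U K T) (η : Cfg V) (σ : V × V → ℤ) {Φ : Cfg V → ℝ}
    (hΦ : Out (N ∪ U \ T) Φ) (hI : Ig ((hole m N).Ws η σ) Φ) :
    HasSum (fun s => m.Ws η σ s * (Φ s * hdt m σ N U T s))
      (nE m U (gl m N) * ∑' s, (hole m N).Ws η σ s * Φ s) := by
  have k := (Hd10.hole_transfer (m := tw m σ) h.clN.1 h.clU.1 (h.disj.mono_right sdiff_subset)
    (fun s => by rw [loc_tw, tw_W]; exact (loc_wts hF h s σ).1)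
    (fun s => by rw [hole_tw, loc_tw, tw_W]; exact (loc_wts hF h s σ).2.nonneg) η (σ := 0)
    (fun _ _ => rfl) hΦ (by rw [← Mdl.W_eq_Ws, hole_tw, tw_W]; exact hI)).mul_left (nE m U (gl m N))
  simp only [← Mdl.W_eq_Ws, hole_tw, tw_W, gl, loc_tw] at k
  refine k.congr_fun fun s => ?_
  simp only [hdt]; ring

/-- the constant of the transfer identity -/
noncomputable def kap (m : Mdl V) (N U : Finset V) : ℝ :=
  nE m U (gl m N) * Zs ((hole m N).W 0) / Zs (m.W 0)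

theorem kap_bd (hc : m.Ctr) (ha : m.Anch) (h : Cut m N S U K T) :
    1 / cr m U K T ≤ kap m N U ∧ kap m N U ≤ 1 := by
  obtain ⟨-, -, -, h1, h2⟩ := hdStmt d1Stmt V m N S U K T hc.1 h
  obtain ⟨κ, k1, k2, k3⟩ := h2 hc ha
  have wh := Md.ctr_wt (hole_ctr hc N) (h.hole_anch ha) 0
  have e1 := (k3 (fun _ => 1) (Out.const _ _) (wh.ig_const 1)).2
  have e2 := (h1 0 0 (fun _ => 1) (fun _ _ => rfl) (Out.const _ _)
    (by rw [← Mdl.W_eq_Ws]; exact wh.ig_const 1)).tsum_eq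
  simp only [← Mdl.W_eq_Ws, mul_one] at e2
  rw [wh.ex_const, mul_one, Ex_def, e2] at e1
  rw [show kap m N U = κ from e1]
  exact ⟨k1, k2⟩

theorem hdt_zx (hc : m.Ctr) (ha : m.Anch) (h : Cut m N S U K T) (σ : V × V → ℤ) {Φ : Cfg V → ℝ}
    (hΦ : Out (N ∪ U \ T) Φ) (hI : Ig ((hole m N).Ws 0 σ) Φ) :
    Ig (m.Ws 0 σ) (fun s => Φ s * hdt m σ N U T s) ∧
      zx m σ (fun s => Φ s * hdt m σ N U T s) = kap m N U * zx (hole m N) σ Φ := by
  have k := hdt_sum hc.1 h 0 σ hΦ hI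
  refine ⟨k.summable, ?_⟩
  have := (Md.ctr_wt (hole_ctr hc N) (h.hole_anch ha) 0).ne
  rw [zx, k.tsum_eq, kap, zx]
  field_simp

/-- **twisted (N)(b)**, pointwise -/
theorem tnb (hF : m.Fm) (h : Cut m N S U K T) (hC : C ⊆ N) (σ : V × V → ℤ) {F : Cfg V → ℝ}
    (dF : DepG C F) (iF : Ig (rWs m N σ) F) (s : Cfg V) :
    Ig ((m.free (N ∪ U \ T)).Ws s σ) F ∧ Ex ((m.free (N ∪ U \ T)).Ws s σ) (fun t => |F t|) ≤
      cr m N C S * cr m U K T * zx (fr m N) σ (fun t => |F t|) * hdt m σ N U T s := by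
  obtain ⟨r, hr⟩ := h.tne
  have hrU : r ∈ U := h.tsub hr
  have hne := tw_ne hF σ
  have h' := cut_tw h σ
  have wN := wt_rWs hF h.cn (h.ne.mono h.sub) σ
  have hR : Disjoint (N ∪ U \ T) {r} := disjoint_singleton_right.2 (disjoint_right.1 h.disjT hr)
  have c1 := pn_ctr hF (N ∪ U) {r}
  have a1 := pn_anch h.cn_union (mem_union_right N hrU) (mem_singleton_self r)
  have c2 := pn_ctr hF U {r}
  have a2 := pn_anch h.cnU hrU (mem_singleton_self r)
  have dG : DepG T fun t : Cfg V => ind (∀ x ∈ T, t x - t r = s x - s r) := fun t t' k e =>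
    ind_congr (forall₂_congr fun x hx => by rw [e x hx, e r hr, add_sub_add_right_eq_sub])
  have dA : DepG C fun t => |F t| := dF.comp _
  have ag := agr_pn (m := m) (subset_union_left (s₁ := N) (s₂ := U)) {r}
  have eN : rWs (pn m (N ∪ U) {r}) N σ = rWs m N σ := by rw [rWs, rWs, fr, fr, ag.pnWs]
  obtain ⟨i1, b1⟩ := td1io c1 a1 (h.pn Subset.rfl hR) hC σ dA (fun _ => abs_nonneg _)
    (eN ▸ iF.abs wN.nonneg) (dG.dep.out h.disjT.symm) (fun _ => ind_nonneg _)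
    (by rw [hole_pn h.disj]; exact (Md.ctr_wts c2 a2 0 σ).ig_ind _)
  rw [hole_pn h.disj, ag.cr, (agr_pn (subset_union_right (s₁ := N)) {r}).cr,
    show zx (fr (pn m (N ∪ U) {r}) N) σ (fun t => |F t|) = zx (fr m N) σ fun t => |F t| by
      rw [zx, zx, fr_W, fr_W, ag.rW, fr, fr, ag.pnWs]] at b1
  have eB : (N ∪ U) \ T = N ∪ U \ T := by
    rw [union_sdiff_distrib, sdiff_eq_self_of_disjoint (h.disj.mono_right h.tsub)]
  have hζ : ∀ x ∈ T, s x = pw T (s - cst T (s r)) 0 x + s r := fun x hx => by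
    rw [pw_of_mem _ _ hx, Finsupp.sub_apply, cst_of_mem _ hx, sub_add_cancel]
  set ζ := pw T (s - cst T (s r)) 0 with hζd
  set a := ∏ e ∈ inn T (tw m σ).ed, (tw m σ).w e (dE e s) with had
  have ha : 0 < a := prod_pos fun e he => tw_pos hF σ e (Md.inn_subset _ _ he) _
  have e1 : ∀ t, (pn m (N ∪ U) {r}).Ws 0 σ t * (|F t| * ind (∀ x ∈ T, t x - t r = s x - s r)) =
      a * (((tw m σ).loc (N ∪ U \ T)).W ζ t * |F t|) := fun t => by
    rw [← tw_W, ← pn_tw, mul_comm |F t|, ← mul_assoc,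
      Io98.pn_datum (h.tsub.trans subset_union_right) hr, eB,
      Io98.loc_pn _ (Io98.site_B h') (union_subset_union le_rfl sdiff_subset)
        ((h'.tbd.trans h.tsub).trans subset_union_right), mul_assoc]
  have e2 : ∀ t, (pn m U {r}).Ws 0 σ t * ind (∀ x ∈ T, t x - t r = s x - s r) =
      a * ((hole (tw m σ) N).loc (U \ T)).W ζ t := fun t => by
    rw [← tw_W, ← pn_tw, Io98.pn_datum h.tsub hr, Io98.loc_hole h']
  have sh := Io98.sum_shift (Io98.site_B h') (fun x hx => hζ x (h'.tbd hx)) dA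
    (hC.trans subset_union_left)
  have z2 : Zs (((hole (tw m σ) N).loc (U \ T)).W ζ) = Zs (((hole (tw m σ) N).loc (U \ T)).W s) :=
    Io98.zloc_depG (m := hole (tw m σ) N) h.clU.2 ζ s (s r) fun x hx => hζ x (Io98.bd_hole h' hx)
  have l0 := (loc_wts hF h s σ).1
  rw [← tw_W, ← loc_tw] at l0
  have i2 : Ig (((tw m σ).loc (N ∪ U \ T)).W s) fun t => |F t| := by
    rw [sh.1]
    rw [Ig, funext e1] at i1
    exact (summable_mul_left_iff ha.ne').1 i1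
  rw [← tw_W, ← free_tw]
  refine ⟨(Mdl.ig_loc hne _ _ _).2 (Ig.of_abs l0.nonneg i2), ?_⟩
  have zu := Io98.zs_union hF h hrU
  have g0 := gl0_pos hF h
  have w2 := Md.ctr_wt c2 a2 0
  rw [zx, zx.eq_def (pn m U {r}), funext e1, funext e2, tsum_mul_left, tsum_mul_left, zu, ← sh.2,
    show ∑' t, ((hole (tw m σ) N).loc (U \ T)).W ζ t = _ from z2,
    div_le_iff₀ (mul_pos w2.pos g0)] at b1
  rw [← Mdl.cE_def, Mdl.cE_loc hne, Ex_def, hdt, ← mul_div_assoc, ← tw_W (m.loc _), ← loc_tw]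
  refine div_le_div_of_nonneg_right (le_of_mul_le_mul_left (b1.trans (le_of_eq ?_)) ha) l0.pos.le
  have := w2.ne
  rw [hole_tw, loc_tw, tw_W]
  field_simp

end Crest.Agent.T145.Ks68
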