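import Crest.Agent.T145.VxBas_30
import Crest.Agent.T145.KsB_68
import Crest.Agent.T145.NcGeo_51

/-!
# Row 145, twisted module: the transfer step at a core and the contraction (helper40)
-/

set_option autoImplicit false

namespace Crest.Agent.T145.Vx

open Finset
open Nc (an Amb pn rs hole Cut cr gam Cn)
open Ks68 (tw zx zr rWs hdt kap)

namespace Ts40

section gen
variable {V : Type} [DecidableEq V] {m : Mdl V} {N S U K T C : Finset V} {σ : V × V → ℤ}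
  {F G : Cfg V → ℝ}

theorem ex_root {r : V} (hr : r ∈ U) (hF : DepG U F) :
    Ex (rWs m U σ) F = Ex ((pn m U {r}).Ws 0 σ) F := by
  have h1 := (Ks68.root_tw (m := m) (σ := σ) hr (DepG.const U (1 : ℝ))).2
  simp only [mul_one] at h1
  rw [Ex, Ex, h1, (Ks68.root_tw hr hF).2]

/-- the insertion seen from the model with the hole -/
noncomputable def ps (m : Mdl V) (σ : V × V → ℤ) (N U T : Finset V) (F : Cfg V → ℝ) (s : Cfg V) : ℝ :=
  (tw m σ).cE (N ∪ U \ T) F s / hdt m σ N U T s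

theorem ps_depG (hF : m.Fm) (h : Cut m N S U K T) (dF : DepG N F) : DepG T (ps m σ N U T F) :=
  ((Mdl.cE_depG' (m := tw m σ) (Ks68.tw_ne hF σ)
    (fun x hx k l => by rw [show (tw m σ).site = m.site from rfl, h.clB.2 x hx, h.clB.2 x hx])
    (dF.mono (subset_union_left.trans subset_union_left))).mono h.tbd).comp₂
      (Ks68.hdt_depG h σ) (· / ·)

theorem ps_le (hF : m.Fm) (h : Cut m N S U K T) (hC : C ⊆ N) (dF : DepG C F)
    (iF : Ig (rWs m N σ) F) (s : Cfg V) :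
    |ps m σ N U T F s| ≤ cr m N C S * cr m U K T * zx (Ks68.fr m N) σ fun t => |F t| := by
  have h0 := Ks68.hdt_pos hF h σ s
  obtain ⟨k1, k2⟩ := Ks68.tnb hF h hC σ dF iF s
  rw [ps, abs_div, abs_of_pos h0, div_le_iff₀ h0]
  refine le_trans (abs_Ex_le (fun t => ?_) k1) k2
  exact Mdl.free_nonneg (m := (tw m σ).free (N ∪ U \ T)) (fun e he k => (Ks68.tw_pos hF σ e he k).le)
    (fun x hx k => by rw [show ((tw m σ).free (N ∪ U \ T)).site = m.site from rfl, h.clB.2 x hx]; norm_num)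
    Subset.rfl s t

theorem ps_lin (hF : m.Fm) (h : Cut m N S U K T) (dF : DepG N F) (iF : Ig (rWs m N σ) F)
    (dG : DepG N G) (iG : Ig (rWs m N σ) G) (x y : ℝ) :
    ps m σ N U T (fun s => x * F s + y * G s) =
      fun s => x * ps m σ N U T F s + y * ps m σ N U T G s := funext fun s => by
  have k1 := (Ks68.tnb hF h Subset.rfl σ dF iF s).1
  have k2 := (Ks68.tnb hF h Subset.rfl σ dG iG s).1
  simp only [ps, Mdl.cE_def]
  rw [show ((tw m σ).free (N ∪ U \ T)).W s = (m.free (N ∪ U \ T)).Ws s σ from rfl,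
    Ex_add (k1.const_mul x) (k2.const_mul y), Ex_const_mul, Ex_const_mul]
  ring

theorem ps_zx (hc : m.Ctr) (ha : m.Anch) (h : Cut m N S U K T) (dF : DepG N F)
    (iF : Ig (rWs m N σ) F) (iF' : Ig (m.Ws 0 σ) F) (oG : Out (N ∪ U \ T) G) (bG : ∀ s, |G s| ≤ 1) :
    zr m σ * Ex (m.Ws 0 σ) (fun s => G s * F s) = kap m N U * zr (hole m N) σ *
      Ex ((hole m N).Ws 0 σ) fun s => G s * ps m σ N U T F s := by
  have w1 := Md.ctr_wts hc ha 0 σ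
  have w2 := Md.ctr_wts (Nc.hole_ctr hc N) (h.hole_anch ha) 0 σ
  have k := (Ks68.hdt_zx hc ha h σ (Φ := fun s => G s * ps m σ N U T F s)
    (oG.mul ((ps_depG hc.1 h dF).dep.out h.disjT.symm))
    ((w2.ig_bdd (ps_le hc.1 h Subset.rfl dF iF)).bdd_mul w2.nonneg bG)).2
  rw [Ks68.zx_eq w1, Ks68.zx_eq w2] at k
  rw [mul_assoc, ← k]
  congr 1
  rw [← Ks68.tw_W, (Mdl.tower_cE_mul (m := tw m σ) h.clB.1 oG w1 (iF'.bdd_mul w1.nonneg bG)).2]
  refine congrArg _ (funext fun s => ?_)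
  have h0 := (Ks68.hdt_pos hc.1 h σ s).ne'
  rw [ps]; field_simp

end gen

section lat
variable {Λ : Lat} {σ : Pt × Pt → ℤ} {z : Pt} {F : Cfg Pt → ℝ}

open Nc.Geo

/-- `Z (σ) / Z (0)` of the free model -/
noncomputable def zN (Λ : Lat) (U : Finset Pt) (σ : Pt × Pt → ℤ) : ℝ := zr (Ks68.fr (Λ.N U) U) σ

theorem exN_eq {R : ℕ} (hF : DepG (bl z R) F) :
    Λ.exN σ z R F = Ex (rWs (Λ.N (bl z R)) (bl z R) σ) F := by
  rw [ex_root (self_mem_bl z R) hF, (inL_N Subset.rfl).pn_Ws, sdiff_singleton_eq_erase]; rfl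

theorem rWs_inL {m : Mdl Pt} {U : Finset Pt} (h : InL Λ m U) : rWs m U σ = rWs (Λ.N U) U σ := by
  rw [rWs, rWs, Ks68.fr, Ks68.fr, h.pn_Ws, (inL_N Subset.rfl).pn_Ws]

theorem zr_inL {m : Mdl Pt} {U : Finset Pt} (h : InL Λ m U) (S : Finset Pt) :
    zr (pn m U S) σ = zr (pn (Λ.N U) U S) σ := by
  rw [zr, zr, h.pn_Ws, h.pn_W, (inL_N Subset.rfl).pn_Ws, (inL_N Subset.rfl).pn_W]

theorem zN_pos (hΛ : Λ.Ok) {U : Finset Pt} (hU : CnL Λ U) (hn : U.Nonempty) : 0 < zN Λ U σ :=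
  Ks68.zr_pos (Ks68.fr_ctr (hΛ.ctr_N U).1 U) (Ks68.fr_anch ((inL_N Subset.rfl).cn hU) hn) σ

/-- the hole representation of the free box -/
theorem core (hΛ : Λ.Ok) (σ : Pt × Pt → ℤ) (z : Pt) {ρ c R₁ R' : ℕ} (h1 : ρ + 2 * Λ.rg ≤ c)
    (h2 : c ≤ R₁) (h3 : R₁ + Λ.rg ≤ R') : ∃ (Ψ : (Cfg Pt → ℝ) → Cfg Pt → ℝ) (κ : ℝ), 0 < κ ∧ κ ≤ 1 ∧
      (∀ (F G : Cfg Pt → ℝ) (x y : ℝ), Ins z c F → Ins z c G →
        Ψ (fun s => x * F s + y * G s) = fun s => x * Ψ F s + y * Ψ G s) ∧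
      ∀ F, Ins z (ρ + Λ.rg) F → DepG (an z R₁ (R₁ + Λ.rg)) (Ψ F) ∧
        (∀ s, |Ψ F s| ≤ gam Λ ρ c * gam Λ c (R₁ + Λ.rg) * (zN Λ (bl z c) σ * Λ.nrm σ z c F)) ∧
        ∀ G, DepG (an z R₁ R') G → (∀ s, |G s| ≤ 1) →
          zN Λ (bl z R') σ * Λ.exN σ z R' (fun s => G s * F s) = κ * zN Λ (an z c R') σ *
            Ex (rWs (Λ.N (an z c R')) (an z c R') σ) fun s => G s * Ψ F s := by
  have hrg := hΛ.one_le_rg
  set r : Pt := (z.1 + R', z.2) with hr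
  have r1 : r ∈ bl z R' := by simp only [hr, mem_bl]; omega
  have r2 : r ∉ bl z R₁ := by simp only [hr, mem_bl]; omega
  have r3 : r ∈ an z c R' := mem_an.2 ⟨r1, fun h => r2 (bl_mono z h2 h)⟩
  set m := pn (Λ.N (bl z R')) (bl z R') {r} with hm
  have fm := (hΛ.ctr_N (bl z R')).1
  have hc : m.Ctr := Nc.pn_ctr fm _ _
  have ha : m.Anch := Nc.pn_anch ((inL_N Subset.rfl).cn (cnL_bl hΛ z R')) r1 (mem_singleton_self r)
  have lh : Lh Λ m ∅ z R₁ := lh_pn h3 (disjoint_singleton_left.2 r2)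
  have cut := lh.cut0 hΛ (c := c) (by omega) h2
  have eB : bl z c ∪ an z c (R₁ + Λ.rg) \ an z R₁ (R₁ + Λ.rg) = bl z R₁ := by
    rw [an_sdiff_an z c (by omega), bl_union_an z h2]
  have il : InL Λ m (bl z c) := lh.inL_bl (by omega)
  have se : SE (rWs m (bl z c) σ) := Md.ctr_ses (Ks68.fr_ctr hc.1 _)
    (Ks68.fr_anch cut.cn ⟨z, self_mem_bl z c⟩) 0 σ
  have wt : Wt (rWs m (bl z c) σ) := Ks68.wt_rWs hc.1 cut.cn ⟨z, self_mem_bl z c⟩ σ
  have eH : hole m (bl z c) = pn (Λ.N (bl z R')) (an z c R') {r} := by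
    rw [← Nc.hole_pn (disjoint_bl_an z R' le_rfl), bl_union_an z (by omega)]
  have ia : InL Λ (Λ.N (bl z R')) (an z c R') := inL_N (an_subset_bl _ _ _)
  have kb := Ks68.kap_bd hc ha cut
  rw [lh.cr_cut hΛ (empty_subset _) h2] at kb
  have g1 : 1 ≤ gam Λ c (R₁ + Λ.rg) := one_le_gam Nc.monoCrStmt hΛ (by omega)
  refine ⟨ps m σ (bl z c) (an z c (R₁ + Λ.rg)) (an z R₁ (R₁ + Λ.rg)), kap m (bl z c) (an z c (R₁ + Λ.rg)),
    lt_of_lt_of_le (by positivity) kb.1, kb.2,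
    fun F G x y hF hG => ps_lin hc.1 cut hF.1 (se.ig hF.2) hG.1 (se.ig hG.2) x y, fun F hF => ?_⟩
  have hF' : Ins z c F := B30.ins_le hF (by omega)
  refine ⟨ps_depG hc.1 cut hF'.1, fun s => ?_, fun G dG bG => ?_⟩
  · refine (ps_le hc.1 cut (bl_mono z (by omega)) hF.1 (se.ig hF.2) s).trans ?_
    rw [lh.cr_cut hΛ (empty_subset _) h2, Ks68.zx_eq wt, Lat.nrm, exN_eq (hF'.1.comp (|·|)),
      ← rWs_inL il, zN, Ks68.fr, Ks68.fr, zr_inL il]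
    refine mul_le_mul_of_nonneg_right (mul_le_mul_of_nonneg_right
      (il.cr_bl Nc.monoCrStmt hΛ hc.1 h1) (by linarith)) (mul_nonneg ?_ ?_)
    · exact (zN_pos hΛ (cnL_bl hΛ z c) ⟨z, self_mem_bl z c⟩).le
    · exact Ex_nonneg wt.nonneg fun _ _ => abs_nonneg _
  · have k := ps_zx hc ha cut hF'.1 (se.ig hF.2) ((Md.ctr_ses hc ha 0 σ).ig hF.2) (G := G)
      (by rw [eB]; exact dG.dep.out (disjoint_bl_an z R' le_rfl).symm) bG
    rw [exN_eq ((dG.mono (an_subset_bl _ _ _)).mul (hF'.1.mono (bl_mono z (by omega)))),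
      ex_root r1 ((dG.mono (an_subset_bl _ _ _)).mul (hF'.1.mono (bl_mono z (by omega)))), zN,
      Ks68.zr_root r1, k, eH, zN, Ks68.zr_root r3, zr_inL ia, ex_root r3
        ((dG.mono (an_mono z h2 le_rfl)).mul ((ps_depG hc.1 cut hF'.1).mono (an_mono z h2 h3))),
      ia.pn_Ws, (inL_N Subset.rfl).pn_Ws]

/-- conditional expectation in the free annulus -/
theorem ann (hΛ : Λ.Ok) (σ : Pt × Pt → ℤ) (z : Pt) {c R R' : ℕ} (h2 : c ≤ R) (h3 : R + Λ.rg ≤ R')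
    {Φ G : Cfg Pt → ℝ} {M : ℝ} (dΦ : DepG (an z c (R + Λ.rg)) Φ) (bΦ : ∀ s, |Φ s| ≤ M)
    (dG : DepG (an z R R') G) (bG : ∀ s, |G s| ≤ 1) :
    Ex (rWs (Λ.N (an z c R')) (an z c R') σ) (fun s => G s * Φ s) ≤
      Ex (rWs (Λ.N (an z c R')) (an z c R') σ)
        fun s => |Ex (((Λ.N (an z c (R + Λ.rg))).free (an z c R)).Ws s σ) Φ| := by
  have hrg := hΛ.one_le_rg
  set r : Pt := (z.1 + R', z.2) with hr
  have r1 : r ∈ bl z R' := by simp only [hr, mem_bl]; omega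
  have r2 : r ∉ bl z R := by simp only [hr, mem_bl]; omega
  have r3 : r ∈ an z c R' := mem_an.2 ⟨r1, fun h => r2 (bl_mono z h2 h)⟩
  have lN : ∀ R'', R + Λ.rg ≤ R'' → Lh Λ (Λ.N (an z c R'')) (bl z c) z R := fun R'' h =>
    ⟨fun e he _ => ⟨(Lat.mem_edI.1 he).1, (mem_an.1 (Lat.mem_edI.1 he).2.1).2,
      (mem_an.1 (Lat.mem_edI.1 he).2.2).2⟩, inL_N (an_mono z le_rfl h),
      an_mono z le_rfl (by omega), fun _ _ _ => rfl⟩
  set m := pn (Λ.N (an z c R')) (an z c R') {r} with hm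
  have fm := (hΛ.ctr_N (an z c R')).1
  have hc : m.Ctr := Nc.pn_ctr fm _ _
  have ha : m.Anch := Nc.pn_anch ((inL_N Subset.rfl).cn (cnL_an hΛ z (by omega))) r3
    (mem_singleton_self r)
  have lm : Lh Λ m (bl z c) z R := (lN R' h3).pn (an_mono z le_rfl h3)
    (disjoint_singleton_left.2 fun h => r2 (mem_sdiff.1 h).1)
  have l1 := lN _ le_rfl
  have f1 := (hΛ.ctr_N (an z c (R + Λ.rg))).1
  have hE : m.edM (an z c R) = (Λ.N (an z c (R + Λ.rg))).edM (an z c R) := Finset.ext fun e => by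
    rw [lm.mem_edM (an_subset_bl _ _ _), l1.mem_edM (an_subset_bl _ _ _)]
  have e1 : (tw m σ).cE (an z c R) = (tw (Λ.N (an z c (R + Λ.rg))) σ).cE (an z c R) :=
    Mdl.cE_congr_mdl (Ks68.tw_ne hc.1 σ) (Ks68.tw_ne f1 σ) hE (fun _ _ => rfl) fun _ _ => rfl
  have e2 : ∀ s, Ex (((Λ.N (an z c (R + Λ.rg))).free (an z c R)).Ws s σ) Φ =
      (tw m σ).cE (an z c R) Φ s := fun s => by rw [e1]; rfl
  have dE : DepG (an z c R') ((tw m σ).cE (an z c R) Φ) :=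
    (Mdl.cE_depG (m := tw m σ) (Ks68.tw_ne hc.1 σ) (fun _ _ _ _ => rfl) dΦ).mono
      (union_subset ((lm.bd le_rfl).trans (sdiff_subset.trans (an_mono z h2 h3)))
        (sdiff_subset.trans (an_mono z le_rfl h3)))
  have w1 := Md.ctr_wts hc ha 0 σ
  simp only [e2]
  rw [ex_root r3 ((dG.mono (an_mono z h2 le_rfl)).mul (dΦ.mono (an_mono z le_rfl h3))),
    ex_root r3 (dE.comp (|·|))]
  obtain ⟨k1, k2⟩ := Mdl.tower_cE_mul (m := tw m σ) (B := an z c R) (F := Φ) lm.cl.1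
    (dG.dep.out ((disjoint_bl_an z R' le_rfl).symm.mono_right (an_subset_bl _ _ _))) w1
    ((w1.ig_bdd bΦ).bdd_mul w1.nonneg bG)
  have k3 := (Mdl.tower_cE (m := tw m σ) (B := an z c R) (F := Φ) lm.cl.1 w1 (w1.ig_bdd bΦ)).1
  refine k2.trans_le (Ex_mono w1.nonneg k1 (k3.abs w1.nonneg) fun s => (le_abs_self _).trans ?_)
  rw [abs_mul]
  exact mul_le_of_le_one_left (abs_nonneg _) (bG s)

end lat

theorem ev_rpow (c a : ℝ) (ha : 0 < a) : ∃ W₁ : ℕ, ∀ W : ℕ, W₁ ≤ W → c ≤ (W : ℝ) ^ a :=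
  Filter.eventually_atTop.1 (((tendsto_rpow_atTop ha).comp tendsto_natCast_atTop_atTop).eventually_ge_atTop c)

theorem sign_mul (x : ℝ) : (SignType.sign x : ℝ) * x = |x| := sign_mul_self x
theorem abs_sign (x : ℝ) : |(SignType.sign x : ℝ)| ≤ 1 := by
  rcases lt_trichotomy x 0 with h | h | h <;> simp [h]

end Ts40

open Ts40 B30

set_option maxHeartbeats 1000000 in
theorem tsStmt (hK : KvStmt) (hT : TrStmt) : TsStmt := fun P hP κ hκ => by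
  have hΛ := lok hP
  have hW2 := hP.W2
  have hK1 := hP.K1
  obtain ⟨W₁, h1⟩ := hK P.b hP.crit P.W₀ (κ / 2) (by omega) (by linarith)
  obtain ⟨W₂, h2⟩ := ev_rpow (2 * P.K * (1 + 2 * P.K)) (κ / 2) (by linarith)
  refine ⟨max (max W₁ W₂) (P.W₀ * P.W₀), fun W hW => ?_⟩
  simp only [max_le_iff] at hW
  obtain ⟨r₁, h3⟩ := h1 W hW.1.1
  refine ⟨max r₁ P.r₀, fun V ρ hρ hr => ?_⟩
  simp only [max_le_iff] at hρ
  obtain ⟨a, la, ba⟩ := h3 V ρ hρ.1 hr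
  have r2 := hP.r2
  have c1 : 4 * ρ ≤ P.W₀ * ρ := four_le hP
  have c2 : 4 * (P.W₀ * ρ) ≤ P.W₀ * (P.W₀ * ρ) := four_le hP
  have c3 : P.W₀ * (P.W₀ * ρ) ≤ W * ρ := by
    rw [← mul_assoc]; exact Nat.mul_le_mul_right _ hW.2
  have c4 : 4 * (W * ρ) ≤ P.W₀ * (W * ρ) := four_le hP
  set c := P.W₀ * ρ with hc
  set R := W * ρ with hR
  set R' := P.W₀ * R with hR'
  obtain ⟨Ψ, k, k0, k1, lΨ, bΨ⟩ := core hΛ V.σ V.p (ρ := ρ) (c := c) (R₁ := P.W₀ * c) (R' := R')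
    (by rw [L_rg]; omega) (by omega) (by rw [L_rg]; omega)
  simp only [L_rg] at bΨ
  have u1 : 0 < zN P.L (bl V.p c) V.σ := zN_pos hΛ (Nc.Geo.cnL_bl hΛ _ _) ⟨_, self_mem_bl _ _⟩
  have u2 : 0 < zN P.L (bl V.p R') V.σ := zN_pos hΛ (Nc.Geo.cnL_bl hΛ _ _) ⟨_, self_mem_bl _ _⟩
  have u3 : 0 < zN P.L (an V.p c R') V.σ :=
    zN_pos hΛ (Nc.Geo.cnL_an hΛ _ (by omega)) (Nc.Geo.an_nonempty _ (by omega))
  have u4 : zN P.L (bl V.p c) V.σ * zN P.L (an V.p c R') V.σ ≤ P.K * zN P.L (bl V.p R') V.σ :=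
    (hP.k1 V c R' (by omega) (by omega) hr).1
  have wA : Wt (rWs (P.L.N (an V.p c R')) (an V.p c R') V.σ) := Ks68.wt_rWs (hΛ.ctr_N _).1
    ((Nc.Geo.inL_N Subset.rfl).cn (Nc.Geo.cnL_an hΛ _ (by omega))) (Nc.Geo.an_nonempty _ (by omega)) _
  set u := zN P.L (bl V.p c) V.σ
  set l := k * zN P.L (an V.p c R') V.σ / zN P.L (bl V.p R') V.σ with hl
  have l0 : 0 < l := by positivity
  have l1 : l * u ≤ P.K := by
    rw [hl, div_mul_eq_mul_div, div_le_iff₀ u2]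
    nlinarith [mul_pos u1 u3]
  have g1 : gam P.L ρ c ≤ 1 + 1 / 400 := (hP.gd ρ).2.2 ρ hρ.2 le_rfl
  have g2 : gam P.L c (P.W₀ * c + 1) ≤ 1 + 1 / 400 :=
    (Nc.Geo.gam_anti Nc.monoCrStmt hΛ le_rfl (Nat.le_succ _) (by rw [L_rg]; omega)).trans
      ((hP.gd c).2.2 c (by omega) le_rfl)
  have g3 : 1 ≤ gam P.L c (P.W₀ * c + 1) := Nc.Geo.one_le_gam Nc.monoCrStmt hΛ (by rw [L_rg]; omega)
  have bd : ∀ F, Ins V.p (ρ + 1) F → ∀ s, |Ψ F s| ≤ 2 * (u * P.N V V.p ρ F) := fun F hF s =>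
    ((bΨ F hF).2.1 s).trans (mul_le_mul_of_nonneg_right (by nlinarith)
      (mul_nonneg u1.le (N_nonneg hP _ _ _ _)))
  have tf : ∀ F, Ins V.p (ρ + 1) F → ∀ G, DepG (an V.p R R') G → (∀ s, |G s| ≤ 1) →
      P.L.exN V.σ V.p R' (fun s => G s * F s) =
        l * Ex (rWs (P.L.N (an V.p c R')) (an V.p c R') V.σ) fun s => G s * Ψ F s :=
    fun F hF G dG bG => by
      have := (bΨ F hF).2.2 G (dG.mono (Nc.Geo.an_mono _ c3 le_rfl)) bG
      rw [hl, div_mul_eq_mul_div, eq_div_iff u2.ne', mul_comm, this]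
  let T : (Cfg Pt → ℝ) → Cfg Pt → ℝ := fun F s => P.L.tr V.σ V.p ρ F s - P.L.exN V.σ V.p R' F
  have iT : ∀ F, Ins V.p (ρ + 1) F → Ins V.p (ρ + 1) (T F) := fun F hF =>
    ins_sub_const (ins_tr hP hT hF _) _
  have eT : ∀ F, Ins V.p (ρ + 1) F → ∀ d : ℝ, P.L.exN V.σ V.p R' (fun s => P.L.tr V.σ V.p ρ F s - d) =
      P.L.exN V.σ V.p R' F - d := fun F hF d => by
    rw [exN_sub hΛ (tame_tr hP hT hF _) (Tame.const d), exN_const hΛ,
      exN_tr hP hT hF _ (by rw [ds_self]; omega)]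
  have nT : ∀ F, Ins V.p (ρ + 1) F → P.N V V.p ρ (T F) ≤ (1 + 2 * P.K) * P.ν V ρ F := fun F hF => by
    have i0 := ins_sub_const (ins_tr hP hT hF V.σ) (P.L.exN V.σ V.p c F)
    have a1 := tf _ i0 (fun _ => 1) (DepG.const _ _) (fun _ => by norm_num)
    simp only [one_mul] at a1
    rw [eT F hF] at a1
    have a2 : |P.L.exN V.σ V.p R' F - P.L.exN V.σ V.p c F| ≤ 2 * P.K * P.ν V ρ F := by
      rw [a1, abs_mul, abs_of_pos l0]
      refine (mul_le_mul_of_nonneg_left (wA.abs_ex_le fun s _ => bd _ i0 s) l0.le).trans ?_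
      rw [← ν_eq]
      nlinarith [mul_le_mul_of_nonneg_right l1 (ν_nonneg hP V ρ F)]
    have a3 := nrm_sub_le (σ := V.σ) (z := V.p) (R := c) hΛ i0.2
      (Tame.const (P.L.exN V.σ V.p R' F - P.L.exN V.σ V.p c F))
    rw [nrm_const hΛ] at a3
    simp only [sub_sub, add_sub_cancel] at a3
    have a4 : P.ν V ρ F = P.L.nrm V.σ V.p c fun s => P.L.tr V.σ V.p ρ F s - P.L.exN V.σ V.p c F := rfl
    have a5 : P.N V V.p ρ (T F) =
      P.L.nrm V.σ V.p c fun s => P.L.tr V.σ V.p ρ F s - P.L.exN V.σ V.p R' F := rfl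
    linarith
  have W0 : (0 : ℝ) < W := by
    have : 0 < W := by nlinarith
    exact_mod_cast this
  have pw : ∀ (j ν : ℝ), 0 ≤ ν → l * ((W : ℝ) ^ (κ / 2 - j) * (2 * (u * ((1 + 2 * P.K) * ν)))) ≤
      (W : ℝ) ^ (κ - j) * ν := fun j ν hν => by
    rw [show κ - j = κ / 2 - j + κ / 2 by ring, Real.rpow_add W0]
    have p0 := Real.rpow_pos_of_pos W0 (κ / 2 - j)
    have p1 := h2 W hW.1.2
    have p2 : l * u * (2 * (1 + 2 * P.K)) ≤ (W : ℝ) ^ (κ / 2) := by nlinarith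
    nlinarith [mul_le_mul_of_nonneg_right p2 (mul_nonneg p0.le hν)]
  have bT : ∀ F, Ins V.p (ρ + 1) F → ∀ s, |Ψ (T F) s| ≤ 2 * (u * ((1 + 2 * P.K) * P.ν V ρ F)) :=
    fun F hF s => (bd _ (iT F hF) s).trans (by gcongr; exact nT F hF)
  refine ⟨fun F => l • a (Ψ (T F)), fun F G x y hF hG => ?_, fun F hF => ?_⟩
  · have e : T (fun s => x * F s + y * G s) = fun s => x * T F s + y * T G s := by
      simp only [T]
      rw [tr_add hΛ (ins_smul hF x).2 (ins_smul hG y).2, exN_add hΛ (ins_smul hF x).2 (ins_smul hG y).2,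
        tr_smul, tr_smul, exN_smul, exN_smul]
      funext s; ring
    simp only [e]
    rw [lΨ _ _ x y (ins_le (iT F hF) (by omega)) (ins_le (iT G hG) (by omega)),
      la _ _ x y _ (fun s => (bT F hF s).trans (le_max_left _ _))
        fun s => (bT G hG s).trans (le_max_right _ _), smul_add, smul_comm l x, smul_comm l y]
  have dΨ := (bΨ _ (iT F hF)).1
  obtain ⟨b1, b2⟩ := ba _ _ (dΨ.mono (Nc.Geo.an_mono _ (by omega) le_rfl)) (bT F hF)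
  have ea : ∀ i, |(l • a (Ψ (T F))) i| = l * |a (Ψ (T F)) i| := fun i => by
    rw [Pi.smul_apply, smul_eq_mul, abs_mul, abs_of_pos l0]
  simp only [ea]
  refine ⟨fun i => (mul_le_mul_of_nonneg_left (b1 i) l0.le).trans (pw 1 _ (ν_nonneg hP _ _ _)), ?_⟩
  have z0 : Ex ((fr P.b (an V.p c R')).Ws 0 V.σ) (Ψ (T F)) = 0 := by
    have a1 := tf _ (iT F hF) (fun _ => 1) (DepG.const _ _) (fun _ => by norm_num)
    simp only [one_mul, T] at a1
    rw [eT F hF, sub_self] at a1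
    exact (mul_eq_zero.1 a1.symm).resolve_left l0.ne'
  rw [z0] at b2
  simp only [sub_zero] at b2
  have iR : Ins V.p (R + 1) (T F) := ins_le (iT F hF) (by omega)
  have eH : (fun s => P.L.tr V.σ V.p R F s - P.L.exN V.σ V.p R' F) = P.L.tr V.σ V.p R (T F) := by
    simp only [T]
    rw [tr_sub_const hΛ (tame_tr hP hT hF _), tr_tr hP hT hF _ (by rw [ds_self]; omega)]
  set H := P.L.tr V.σ V.p R (T F) with hH
  have dG : DepG (an V.p R (R + 1)) fun s => (SignType.sign (H s) : ℝ) :=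
    (depG_tr hP hT iR V.σ).comp fun x => (SignType.sign x : ℝ)
  have dG' := dG.mono (Nc.Geo.an_mono V.p le_rfl (show R + 1 ≤ R' by omega))
  have e1 : P.ν V R F = P.L.exN V.σ V.p R' fun s => (SignType.sign (H s) : ℝ) * T F s := by
    rw [ν_eq, eH, Par.N, Lat.nrm]
    have := exN_tr_mul hP hT iR V.σ (dG.dep.out (an_disj _ _ _)) (z' := V.p) (c := R')
      ⟨dG'.mono (an_sub _ _ _), Tame.bdd fun s => abs_sign _⟩ (by rw [ds_self]; omega)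
    simp only [mul_comm (T F _), ← hH, mul_comm (H _), sign_mul] at this
    exact this.symm
  have e2 := ann hΛ V.σ V.p (c := c) (R := R) (R' := R') (by omega) (by rw [L_rg]; omega)
    (dΨ.mono (Nc.Geo.an_mono _ (by omega) (by rw [L_rg]; omega))) (bT F hF) dG' fun s => abs_sign _
  rw [e1, tf _ (iT F hF) _ dG' fun s => abs_sign _, ← mul_sum]
  have e3 := mul_le_mul_of_nonneg_left (e2.trans b2) l0.le
  have e4 := pw 2 _ (ν_nonneg hP V ρ F)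
  linarith

theorem Ts40.ν_mono (hT : TrStmt) (hD : Dom1Stmt) {P : Par} (hP : P.Ok) : ∃ C : ℝ, 1 ≤ C ∧ ∀ (V : Vp) (ρ ρ' : ℕ)
    (F : Cfg Pt → ℝ), P.r₀ ≤ ρ → ρ ≤ ρ' → 2 * (P.W₀ * ρ') ≤ V.r → Ins V.p (ρ + 1) F →
      P.ν V ρ' F ≤ C * P.ν V ρ F := by
  obtain ⟨C, hC⟩ := hD P hP 0
  refine ⟨max (2 * C) 1, le_max_right _ _, fun V ρ ρ' F h1 h2 h3 hF => ?_⟩
  have r2 := hP.r2
  have i0 := ins_sub_const (ins_tr hP hT hF V.σ) (P.L.exN V.σ V.p (P.W₀ * ρ) F)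
  have a1 := (hC V ρ (P.W₀ * ρ') _ h1 (Nat.mul_le_mul_left _ h2) h3 i0).1
  have a2 := ν_le_N hP hT (ins_le (ins_tr hP hT hF V.σ) (show ρ + 1 ≤ ρ' + 1 by omega)) (by omega)
    (P.L.exN V.σ V.p (P.W₀ * ρ) F)
  rw [ν_tr hP hT hF (by rw [ds_self]; omega) (by omega)] at a2
  rw [← ν_eq] at a1
  refine a2.trans (le_trans ?_ (mul_le_mul_of_nonneg_right (le_max_left _ _) (ν_nonneg hP _ _ _)))
  rw [mul_assoc]
  exact mul_le_mul_of_nonneg_left a1 zero_le_two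

theorem nuStmt (hS : TsStmt) (hT : TrStmt) (hD : Dom1Stmt) : NuStmt := fun P hP κ hκ => by
  obtain ⟨C, C1, hC⟩ := ν_mono hT hD hP
  set k := min κ 1 with hk
  have k0 : 0 < k := lt_min hκ one_pos
  have k1 : k ≤ 1 := min_le_right _ _
  obtain ⟨W₁, h1⟩ := hS P hP (k / 2) (by linarith)
  obtain ⟨W₂, h2⟩ := ev_rpow 3 (k / 2) (by linarith)
  set W := max (max W₁ W₂) 2 with hW
  have W2 : 2 ≤ W := le_max_right _ _
  obtain ⟨r, h3⟩ := h1 W ((le_max_left _ _).trans (le_max_left _ _))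
  have p3 := h2 W ((le_max_right _ _).trans (le_max_left _ _))
  have W1 : (1 : ℝ) ≤ W := by exact_mod_cast (show 1 ≤ W by omega)
  have W0 : (0 : ℝ) < W := by linarith
  have r2 := hP.r2
  set r₁ := max r P.r₀ with hr₁
  have r3 : P.r₀ ≤ r₁ := le_max_right _ _
  have step : ∀ (V : Vp) (ρ : ℕ) (F : Cfg Pt → ℝ), r₁ ≤ ρ → 2 * (P.W₀ * (W * ρ)) ≤ V.r →
      Ins V.p (ρ + 1) F → (W : ℝ) ^ (1 - k) * P.ν V (W * ρ) F ≤ P.ν V ρ F := fun V ρ F a1 a2 hF => by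
    obtain ⟨a, -, ba⟩ := h3 V ρ ((le_max_left _ _).trans a1) a2
    obtain ⟨b1, b2⟩ := ba F hF
    have n0 := ν_nonneg hP V ρ F
    have b3 : (W : ℝ) ^ (k / 2 - 2) ≤ (W : ℝ) ^ (k / 2 - 1) :=
      Real.rpow_le_rpow_of_exponent_le W1 (by linarith)
    have b4 : P.ν V (W * ρ) F ≤ 3 * ((W : ℝ) ^ (k / 2 - 1) * P.ν V ρ F) := by
      rw [Fin.sum_univ_two] at b2
      nlinarith [b1 0, b1 1, mul_le_mul_of_nonneg_right b3 n0]
    have b5 : (W : ℝ) ^ (1 - k) * ((W : ℝ) ^ (k / 2) * (W : ℝ) ^ (k / 2 - 1)) = 1 := by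
      rw [← Real.rpow_add W0, ← Real.rpow_add W0, show 1 - k + (k / 2 + (k / 2 - 1)) = 0 by ring,
        Real.rpow_zero]
    have p1 := Real.rpow_pos_of_pos W0 (1 - k)
    have p2 := Real.rpow_pos_of_pos W0 (k / 2 - 1)
    calc _ ≤ (W : ℝ) ^ (1 - k) * ((W : ℝ) ^ (k / 2) * ((W : ℝ) ^ (k / 2 - 1) * P.ν V ρ F)) := by
          gcongr; exact b4.trans (by gcongr)
      _ = _ := by rw [← mul_assoc ((W : ℝ) ^ (k / 2)), ← mul_assoc, b5, one_mul]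
  have near : ∀ (A ρ ρ' : ℕ), 1 ≤ ρ' → ρ' ≤ A * ρ → 1 ≤ (A : ℝ) ^ (1 - k) * ((ρ : ℝ) / ρ') ^ (1 - k) :=
    fun A ρ ρ' a1 a2 => by
      have : (0 : ℝ) < ρ' := by exact_mod_cast a1
      rw [← Real.mul_rpow (by positivity) (by positivity)]
      refine Real.one_le_rpow ?_ (by linarith)
      rw [← mul_div_assoc, one_le_div this]; exact_mod_cast a2
  have main : ∀ (n : ℕ) (V : Vp) (ρ ρ' : ℕ) (F : Cfg Pt → ℝ), ρ' ≤ ρ + n → r₁ ≤ ρ → ρ ≤ ρ' →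
      2 * (P.W₀ * ρ') ≤ V.r → Ins V.p (ρ + 1) F →
      P.ν V ρ' F ≤ C * ((W : ℝ) ^ (1 - k) * ((ρ : ℝ) / ρ') ^ (1 - k)) * P.ν V ρ F := by
    have base : ∀ (V : Vp) (ρ ρ' : ℕ) (F : Cfg Pt → ℝ), ρ' ≤ W * ρ → r₁ ≤ ρ → ρ ≤ ρ' →
        2 * (P.W₀ * ρ') ≤ V.r → Ins V.p (ρ + 1) F →
        P.ν V ρ' F ≤ C * ((W : ℝ) ^ (1 - k) * ((ρ : ℝ) / ρ') ^ (1 - k)) * P.ν V ρ F :=
      fun V ρ ρ' F a0 a1 a2 a3 hF => (hC V ρ ρ' F (by omega) a2 a3 hF).trans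
        (mul_le_mul_of_nonneg_right (le_mul_of_one_le_right (by linarith) (near W ρ ρ' (by omega) a0))
          (ν_nonneg hP _ _ _))
    intro n
    induction n with
    | zero => exact fun V ρ ρ' F a0 => base V ρ ρ' F (by nlinarith)
    | succ n ih =>
      intro V ρ ρ' F a0 a1 a2 a3 hF
      rcases le_total ρ' (W * ρ) with h | h
      · exact base V ρ ρ' F h a1 a2 a3 hF
      have c1 : 2 * ρ ≤ W * ρ := Nat.mul_le_mul_right _ W2
      have b1 := ih V (W * ρ) ρ' F (by omega) (by omega) h a3 (ins_le hF (by omega))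
      have b2 := step V ρ F a1 ((Nat.mul_le_mul_left _ (Nat.mul_le_mul_left _ h)).trans a3) hF
      rw [Nat.cast_mul, mul_div_assoc, Real.mul_rpow (by positivity) (by positivity)] at b1
      refine b1.trans (le_of_eq_of_le (b := C * ((W : ℝ) ^ (1 - k) * ((ρ : ℝ) / ρ') ^ (1 - k)) *
        ((W : ℝ) ^ (1 - k) * P.ν V (W * ρ) F)) (by ring) ?_)
      gcongr
  refine ⟨C * (W : ℝ) ^ (1 - k) * (C * (r₁ : ℝ) ^ (1 - k)), fun V ρ ρ' F a1 a2 a3 hF => ?_⟩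
  have n0 := ν_nonneg hP V ρ F
  have ρ0 : (0 : ℝ) < ρ := by exact_mod_cast (show 0 < ρ by omega)
  have ρ1 : (0 : ℝ) < ρ' := by exact_mod_cast (show 0 < ρ' by omega)
  have q1 : ((ρ : ℝ) / ρ') ^ (1 - k) ≤ ((ρ : ℝ) / ρ') ^ (1 - κ) :=
    Real.rpow_le_rpow_of_exponent_ge (by positivity) ((div_le_one ρ1).2 (by exact_mod_cast a2))
      (by linarith [min_le_left κ 1])
  have w1 : 1 ≤ (W : ℝ) ^ (1 - k) := Real.one_le_rpow W1 (by linarith)
  have w2 : 1 ≤ (r₁ : ℝ) ^ (1 - k) :=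
    Real.one_le_rpow (by exact_mod_cast (show 1 ≤ r₁ by omega)) (by linarith)
  have q0 : 0 ≤ ((ρ : ℝ) / ρ') ^ (1 - k) := by positivity
  refine le_trans ?_ (mul_le_mul_of_nonneg_right (mul_le_mul_of_nonneg_left q1 (by positivity)) n0)
  rcases le_total r₁ ρ with h | h
  · refine (main ρ' V ρ ρ' F (by omega) h a2 a3 hF).trans (mul_le_mul_of_nonneg_right ?_ n0)
    rw [← mul_assoc]
    exact mul_le_mul_of_nonneg_right (le_mul_of_one_le_right (by positivity) (one_le_mul_of_one_le_of_one_le C1 w2)) q0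
  rcases le_total ρ' r₁ with h' | h'
  · refine (hC V ρ ρ' F a1 a2 a3 hF).trans (mul_le_mul_of_nonneg_right ?_ n0)
    have := near r₁ ρ ρ' (by omega) (by nlinarith)
    calc C ≤ 1 * (C * ((r₁ : ℝ) ^ (1 - k) * ((ρ : ℝ) / ρ') ^ (1 - k))) := by nlinarith
      _ ≤ C * (W : ℝ) ^ (1 - k) * (C * ((r₁ : ℝ) ^ (1 - k) * ((ρ : ℝ) / ρ') ^ (1 - k))) := by
        gcongr; exact one_le_mul_of_one_le_of_one_le C1 w1
      _ = _ := by ring
  · have b1 := main ρ' V r₁ ρ' F (by omega) le_rfl h' a3 (ins_le hF (by omega))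
    have b2 := hC V ρ r₁ F a1 h ((Nat.mul_le_mul_left _ (Nat.mul_le_mul_left _ h')).trans a3) hF
    have b3 : ((r₁ : ℝ) / ρ') ^ (1 - k) ≤ (r₁ : ℝ) ^ (1 - k) * ((ρ : ℝ) / ρ') ^ (1 - k) := by
      rw [← Real.mul_rpow (by positivity) (by positivity), ← mul_div_assoc]
      refine Real.rpow_le_rpow (by positivity) (div_le_div_of_nonneg_right ?_ ρ1.le) (by linarith)
      exact le_mul_of_one_le_right (by positivity) (by exact_mod_cast (show 1 ≤ ρ by omega))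
    calc _ ≤ _ := b1
      _ ≤ C * ((W : ℝ) ^ (1 - k) * ((r₁ : ℝ) ^ (1 - k) * ((ρ : ℝ) / ρ') ^ (1 - k))) * (C * P.ν V ρ F) := by
        gcongr
        exact ν_nonneg hP _ _ _
      _ = _ := by ring

end Crest.Agent.T145.Vx
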