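import Crest.Agent.T145.VxXB_87

/-!
# Row 145, twisted module, X (helper87): the micro cross ratio in a large box
-/

set_option autoImplicit false

namespace Crest.Agent.T145.Vx

open Finset Filter Topology Asymptotics Real B30
open Nc (Amb)

namespace X87

theorem sw_sw' (x : Vp × ℕ) : sw (sw x) = x := Prod.ext (sw_sw _) rfl

theorem osw {P : Par} {f : Vp × ℕ → ℝ} (h : f =O[FF] tau P) : (fun x => f (sw x)) =O[FF] tau P :=
  h.comp_tendsto tend_sw

theorem osw1 {f : Vp × ℕ → ℝ} (h : f =O[FF] fun _ => (1 : ℝ)) :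
    (fun x => f (sw x)) =O[FF] fun _ => (1 : ℝ) := h.comp_tendsto tend_sw

theorem omul {α : Type*} {l : Filter α} {f g k : α → ℝ} (h : f =O[l] fun _ => (1 : ℝ)) (h' : g =O[l] k) :
    (fun x => f x * g x) =O[l] k := (h.mul h').congr_right fun _ => one_mul _

theorem omul' {α : Type*} {l : Filter α} {f g k : α → ℝ} (h' : g =O[l] k) (h : f =O[l] fun _ => (1 : ℝ)) :
    (fun x => g x * f x) =O[l] k := (h'.mul h).congr_right fun _ => mul_one _

namespace Hy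
variable {P : Par} {W : ℕ} (h : Hy P W)
include h

theorem g_one : (fun x : Vp × ℕ => gc x.1.r) =O[FF] fun _ => (1 : ℝ) :=
  ofb 1 (h.sc.mono fun x s => by
    rw [abs_of_nonneg (by linarith [(gc_bd s.t4).1]), mul_one]; exact (gc_bd s.t4).2)

theorem g_inv : (fun x : Vp × ℕ => (gc x.1.r)⁻¹) =O[FF] fun _ => (1 : ℝ) :=
  ofb (1 / 2)⁻¹ (h.sc.mono fun x s => by
    rw [abs_of_nonneg (inv_nonneg.2 (by linarith [(gc_bd s.t4).1])), mul_one]
    exact inv_anti₀ (by norm_num) (gc_bd s.t4).1)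

/-- the move at one core against the calibration at the other core -/
theorem far_lf : (fun x => lf x.1.sw (md P x) (r3 P.W₀ W x.1.r) (Dv P.b x.1) 1) =O[FF] tau P := by
  obtain ⟨A, hU⟩ := h.uc
  obtain ⟨C, H⟩ := h.rw'
  obtain ⟨C', H'⟩ := h.lv'
  have hf : ∀ i, (fun x => Cv (wt P x) (ff x i) (Yv x.1.σ (Vx.uc x.1.q (r3 P.W₀ W x.1.r) 1))) =O[FF] tau P :=
    fun i => ofb C' ((tend_sw.eventually H').mono fun x hx => by
      have := (hx i 1).2.1
      rwa [sw_sw'] at this)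
  have hs : ∀ᶠ x in FF, Sup (bl x.1.q (2 * r3 P.W₀ W x.1.r)) (Vx.uc x.1.q (r3 P.W₀ W x.1.r) 1) ∧
      |Cv (wt P x) (RR P W x) (Yv x.1.σ (Vx.uc x.1.q (r3 P.W₀ W x.1.r) 1))| ≤
        C * A * (mu P W x * x.1.t ^ (-(3 / 2 : ℝ))) := by
    filter_upwards [h.sc, H, evr (ev_rho 1)] with x s H h1
    have w := four_le h.ok (ρ := r2 P.W₀ W x.1.r)
    have s3 := s.h3
    have s7 := s.h7
    have e3 : r3 P.W₀ W x.1.r = 8 * (P.W₀ * r2 P.W₀ W x.1.r) := rfl
    obtain ⟨u1, -, -, u4, u5⟩ := hU x.1.q (r3 P.W₀ W x.1.r) 1 (by omega)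
    have hA : 0 ≤ A := (abs_nonneg _).trans ((u4 0).2 0).1
    have r0 : (0 : ℝ) < x.1.r := by exact_mod_cast (by omega : 0 < x.1.r)
    refine ⟨u1, (H (2 * x.1.r) (A * (x.1.r : ℝ) ^ 2) _
      (le_trans (by exact_mod_cast (by have := s.s3; omega : 2 * x.1.r ≤ 2 * SS x.1.r + x.1.r)) s.s2)
      (fun z hz => u1 z fun hz' => hz (bl_sub (by rw [ds_qp]; omega) hz'))
      (u5 _ _ _ h1 (by omega) (by omega) (by rw [ds_self]; omega))
      (flat_of_sup u1 (ds_pq _) (by omega) (by omega) (by positivity))).trans_eq ?_⟩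
    field_simp
  refine (((ofb (C * A) (hs.mono fun _ hx => hx.2)).trans h.mu_tau).add
    ((omul (h.a_one 0) (hf 0)).add (omul (h.a_one 1) (hf 1)))).congr' ?_ EventuallyEq.rfl
  filter_upwards [hs] with x hx
  rw [h.lf_R x _ hx.1, sub_add_cancel]; rfl

theorem cal' : (∀ᶠ x in FF, bb P W x 0 = 0) ∧ (fun x => bb P W x 1 + EE P x) =O[FF] tau P := by
  obtain ⟨C, r₁, H⟩ := h.cal P h.ok
  have hc : ∀ᶠ x in FF, bb P W x 0 = 0 ∧ |bb P W x 1 / EE P x + 1 -
      lf x.1 (md P x) (r3 P.W₀ W x.1.r) (Dv P.b x.1.sw) 1 / EE P (sw x)| ≤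
        C * log (r3 P.W₀ W x.1.r) ^ (-1 - P.δ) := by
    refine evF (Q := fun V R => bb P W (V, R) 0 = 0 ∧ |bb P W (V, R) 1 / EE P (V, R) + 1 -
      lf V (md P (V, R)) (r3 P.W₀ W V.r) (Dv P.b V.sw) 1 / EE P (sw (V, R))| ≤
        C * log (r3 P.W₀ W V.r) ^ (-1 - P.δ)) ?_
    filter_upwards [evG (ev_sc (a := P.W₀) (W := W) (by have := h.ok.W2; omega) (by have := h.w16; omega)),
      evG (ev_rho r₁)] with V s h1
    have w := four_le h.ok (ρ := r2 P.W₀ W V.r)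
    have s3 := s.h3
    have s7 := s.h7
    have e3 : r3 P.W₀ W V.r = 8 * (P.W₀ * r2 P.W₀ W V.r) := rfl
    exact H V (r3 P.W₀ W V.r) (by omega) (by omega)
  have hl : (fun x : Vp × ℕ => log (r3 P.W₀ W x.1.r) ^ (-1 - P.δ)) =O[FF] tau P := by
    refine ofb ((1 / 2) ^ (-1 - P.δ)) ?_
    filter_upwards [h.sc, evr (ev_rho 1)] with x s h1
    have w := four_le h.ok (ρ := r2 P.W₀ W x.1.r)
    have s7 := s.h7
    have t0 : 0 < log (x.1.r : ℝ) := by linarith [s.t4]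
    have : log x.1.r / 2 ≤ log (r3 P.W₀ W x.1.r) := s.h5.trans
      (log_le_log (by exact_mod_cast h1) (by exact_mod_cast (by rw [r3]; omega)))
    rw [abs_of_nonneg (rpow_nonneg (by linarith) _), tau, Vp.t, ← mul_rpow (by norm_num) t0.le]
    exact rpow_le_rpow_of_nonpos (by linarith) (by linarith) (by linarith [h.ok.δ0])
  have hf := omul' (osw h.far_lf) (osw1 h.E_inv)
  obtain ⟨c, hc0, hE, hE1⟩ := h.E_bd
  refine ⟨hc.mono fun _ h => h.1, (omul' (((ofb C (hc.mono fun _ h => h.2)).trans hl).add hf) hE1).congr'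
    ?_ EventuallyEq.rfl⟩
  filter_upwards [hE] with x hx
  have : (sw x).1.sw = x.1 := sw_sw _
  have e : EE P x ≠ 0 := (hc0.trans_le hx).ne'
  rw [this, div_eq_mul_inv (lf _ _ _ _ _)]
  exact (congrArg (· * EE P x) (sub_add_cancel _ _)).trans (by field_simp)

theorem a_val : (fun x => aa P W x 0) =O[FF] tau P ∧
    (fun x => gc x.1.r * aa P W x 1 + EE P x) =O[FF] tau P := by
  obtain ⟨C, H⟩ := h.lv'
  have hM := fun i j => omul (h.a_one i) (ofb C (H.mono fun _ hx => (hx i j).1))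
  constructor
  · refine (omul h.g_inv ((hM 0 0).add (hM 1 0)).neg_left).congr' ?_ EventuallyEq.rfl
    filter_upwards [h.a_bd, h.cal'.1, h.sc] with x h1 h2 s
    have e : gc x.1.r ≠ 0 := by linarith [(gc_bd s.t4).1]
    have := h1.1 0
    simp only [if_true, one_ne_zero, if_false]
    field_simp
    linarith
  · refine (h.cal'.2.sub ((hM 0 1).add (hM 1 1))).congr' ?_ EventuallyEq.rfl
    filter_upwards [h.a_bd] with x h1
    have := h1.1 1
    simp only [if_true, zero_ne_one, if_false]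
    linarith

/-- the purified move against the dipole at the other core -/
theorem R_f (j : Fin 2) :
    (fun x => (x.1.r : ℝ) ^ 2 * Cv (wt P x) (RR P W x) (ff (sw x) j)) =O[FF] tau P := by
  obtain ⟨A, hD⟩ := h.dip
  obtain ⟨C, H⟩ := h.rw'
  obtain ⟨C', r₁, H'⟩ := h.lin P h.ok 4 (by norm_num)
  have h2 : (fun x => (x.1.r : ℝ) * P.ν x.1 (r2 P.W₀ W x.1.r) (RR P W x) * x.1.t ^ (-(2 : ℝ))) =O[FF]
      tau P := by
    refine (h.nu_R.mul (isBigO_refl _ _)).trans ((le_tau (c := -(3 / 4) + -2)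
      (by linarith [h.ok.δ1])).congr' ?_ EventuallyEq.rfl)
    filter_upwards [tend_t.eventually_gt_atTop 0] with x hx using rpow_add hx _ _
  refine (ofb 1 ?_).trans ((h.mu_tau.const_mul_left (C * A)).add (h2.const_mul_left (|C'| * A)))
  filter_upwards [h.sc, H, evr (ev_rho (32 + P.r₀)), evr (eventually_ge_atTop r₁), h.ins_R,
    h.amb Vp.p fun V => 4 * V.r, h.amb Vp.p fun V => 2 * (4 * (SS V.r - 1 - V.r))] with x s H h1 h3 h4 h5 h6
  have w := four_le h.ok (ρ := r2 P.W₀ W x.1.r)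
  have s3 := s.h3
  have s7 := s.h7
  have s8 := s.s3
  obtain ⟨-, -, u1, u2, u3, -, u4⟩ := hD x.1.q (rho x.1.r) (SS x.1.r) j (by omega) (by omega)
  have u5 := u2 _ (by omega) le_rfl
  have hA : 0 ≤ A := nonneg_of_mul_nonneg_left ((abs_nonneg _).trans (u5.b0 x.1.q)) (by
    rw [al, ds_self]; exact one_div_pos.2 (by exact_mod_cast (by omega : 0 < rho x.1.r + 0)))
  have r0 : (0 : ℝ) < x.1.r := by exact_mod_cast (by omega : 0 < x.1.r)
  have S0 : (0 : ℝ) < SS x.1.r := by exact_mod_cast (by omega : 0 < SS x.1.r)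
  have t0 : 0 < log (x.1.r : ℝ) := by linarith [s.t4]
  have a1 := H _ A _ s.s2 (fun z hz => u1 z fun hz' => hz (bl_sub (by rw [ds_qp]; omega) hz')) u5
    (u4 x.1.p _ (by rw [p_snd, q_snd]) (ds_qp _) (by omega) (by omega)).1
  have a2 := ((H' x.1 _ _ _ (by omega) h3 (Chg.move u3 (ds_qp _) (by omega) (by positivity))
    (Or.inr (by omega))).1 _ h5 h6).2 (r2 P.W₀ W x.1.r) _ (by omega) (by omega) (by omega)
    (Or.inr (by omega)) (ins_le h4 (by omega))
  have e : Cv (wt P x) (RR P W x) (ff (sw x) j) =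
      Cv (wt P x) (RR P W x) (Yv x.1.σ (ud x.1.q (rho x.1.r) (SS x.1.r) j)) -
      Cv (wt P x) (RR P W x) (pr (A0 (ud x.1.q (rho x.1.r) (SS x.1.r) j) - fd x.1.q (rho x.1.r) j)) := by
    rw [cv_Y h.y (h.wt' x) (h.se x) (h.tame_R x) _ u1,
      ← cv_sub_right (h.se x) (Tame.hom _) (Tame.hom _) (h.tame_R x)]
    simp only [pr_sub, AddMonoidHom.sub_apply, sub_sub_cancel]
    rfl
  have hν := ν_nonneg h.ok x.1 (r2 P.W₀ W x.1.r) (RR P W x)
  have hD : ((SS x.1.r - 1 - x.1.r : ℕ) : ℝ) ≤ SS x.1.r := by exact_mod_cast (by omega)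
  rw [e, abs_mul, abs_of_pos (pow_pos r0 2), one_mul]
  refine (mul_le_mul_of_nonneg_left ((abs_sub _ _).trans (add_le_add a1 (a2.trans (le_abs_self _))))
    (pow_pos r0 2).le).trans ?_
  rw [mul_add, abs_mul, abs_mul, abs_of_nonneg hν, abs_of_nonneg (a := A / _ * _) (by positivity)]
  refine add_le_add (le_of_eq (by field_simp)) ?_
  calc _ ≤ (x.1.r : ℝ) ^ 2 * (|C'| * P.ν x.1 (r2 P.W₀ W x.1.r) (RR P W x) *
        (A / (SS x.1.r : ℝ) ^ 2 * SS x.1.r)) := by gcongr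
    _ = |C'| * A * (x.1.r * P.ν x.1 (r2 P.W₀ W x.1.r) (RR P W x) * (x.1.r / SS x.1.r)) := by field_simp
    _ ≤ _ := by
      gcongr
      rw [Vp.t, rpow_neg t0.le, rpow_two, div_le_iff₀ S0, le_inv_mul_iff₀ (pow_pos t0 2), mul_comm]
      exact s.s1

theorem R_R : (fun x => (x.1.r : ℝ) ^ 2 * Cv (wt P x) (RR P W x) (RR P W (sw x))) =O[FF] tau P := by
  obtain ⟨C, H⟩ := h.cov P h.ok 1
  have h2 := (h.nu_R.mul (h.nu_R.comp_tendsto tend_sw)).trans ((le_tau (P := P) (c := -(3 / 4) + -(3 / 4))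
    (by linarith [h.ok.δ1])).congr' ((tend_t.eventually_gt_atTop 0).mono fun x hx => rpow_add hx _ _)
      EventuallyEq.rfl)
  refine (ofb C ?_).trans h2
  filter_upwards [h.sc, evr (ev_rho P.r₀), h.ins_R, tend_sw.eventually h.ins_R,
    h.amb Vp.p fun V => 4 * V.r] with x s h1 h2 h3 h4
  have s3 := s.h3
  have s7 := s.h7
  have := (H x.1 _ (r2 P.W₀ W x.1.r) (r2 P.W₀ W x.1.r) _ _ (by omega) (by omega) (by omega) (by omega) h4
    (ins_le h2 (by omega)) (ins_le h3 (Nat.succ_le_succ s7))).2.1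
  rw [abs_mul, abs_of_nonneg (sq_nonneg _)]
  exact (mul_le_mul_of_nonneg_left this (sq_nonneg _)).trans_eq
    (by simp only [Function.comp, sw, sw_r]; ring)

theorem split (x : Vp × ℕ) : Cv (wt P x) (Dv P.b x.1) (Dv P.b x.1.sw) =
    Cv (wt P x) (RR P W x) (RR P W (sw x)) +
      ∑ j, aa P W (sw x) j * Cv (wt P x) (RR P W x) (ff (sw x) j) +
      ∑ i, aa P W x i * (Cv (wt P x) (RR P W (sw x)) (ff x i) +
        ∑ j, aa P W (sw x) j * Cv (wt P x) (ff x i) (ff (sw x) j)) := by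
  have e : ∀ y : Vp × ℕ, Dv P.b y.1 = fun s => RR P W y s + (aa P W y 0 * ff y 0 s + aa P W y 1 * ff y 1 s) :=
    fun y => funext fun s => (sub_add_cancel _ _).symm
  have k : ∀ (y : Vp × ℕ) {G}, Tame G → Cv (wt P x) G (Dv P.b y.1) =
      Cv (wt P x) G (RR P W y) + ∑ j, aa P W y j * Cv (wt P x) G (ff y j) := fun y G hG => by
    rw [e y, cv_add_right (h.se x) (h.tame_R y) (((tame_ff y 0).const_mul _).add
      ((tame_ff y 1).const_mul _)) hG, cv_add_right (h.se x) ((tame_ff y 0).const_mul _)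
      ((tame_ff y 1).const_mul _) hG, Cv_const_mul_right, Cv_const_mul_right, Fin.sum_univ_two]
  show Cv (wt P x) (Dv P.b x.1) (Dv P.b (sw x).1) = _
  rw [Cv_comm, k x (h.tame_D _), Cv_comm, k (sw x) (h.tame_R x)]
  congr 1
  refine sum_congr rfl fun i _ => ?_
  rw [Cv_comm, k (sw x) (tame_ff x i), Cv_comm]

theorem main : (fun x => (x.1.r : ℝ) ^ 2 * (Cv (wt P x) (Dv P.b x.1) (Dv P.b x.1.sw) /
    (EE P x * EE P (sw x))) - 1 / (2 * π * gc x.1.r)) =O[FF] tau P := by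
  obtain ⟨C, H⟩ := h.lv'
  obtain ⟨c, hc0, hE, hE1⟩ := h.E_bd
  obtain ⟨a0, a1⟩ := h.a_val
  have v := fun i j => ofb C (H.mono fun _ hx => (hx i j).2.2.1)
  have v1 := ofb C (H.mono fun _ hx => (hx 0 0).2.2.2)
  have f := fun i => ((osw (h.R_f i)).congr_left fun x => by rw [sw_sw'])
  have b := fun i => osw1 (h.a_one i)
  have t1 := ((h.R_R.add (omul (b 0) (h.R_f 0))).add (omul (b 1) (h.R_f 1))).add
    ((omul (h.a_one 0) (f 0)).add (omul (h.a_one 1) (f 1)))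
  have t2 := ((omul' a0 (omul (b 0) (v 0 0))).add (omul' a0 (omul (b 1) (v 0 1)))).add
    ((omul' (osw a0) (omul (h.a_one 1) (v 1 0))).add (omul (h.a_one 1) (omul (b 1) v1)))
  have t3 := (omul h.g_inv ((omul' a1 (omul h.g_one (b 1))).sub (omul hE1 (osw a1)))).const_mul_left
    (2 * π)⁻¹
  refine (omul h.E_inv (omul (osw1 h.E_inv) ((t1.add t2).add t3))).congr' ?_ EventuallyEq.rfl
  filter_upwards [hE, tend_sw.eventually hE, h.sc] with x h1 h2 s
  have e1 : EE P x ≠ 0 := (hc0.trans_le h1).ne'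
  have e2 : EE P (sw x) ≠ 0 := (hc0.trans_le h2).ne'
  have e3 : gc x.1.r ≠ 0 := by linarith [(gc_bd s.t4).1]
  have e4 : wt P (sw x) = wt P x := rfl
  have e5 : (sw x).1.r = x.1.r := rfl
  rw [h.split x]
  simp only [Fin.sum_univ_two, e4, e5]
  field_simp
  ring

end Hy

end X87

/-- X -/
theorem xStmt (hT : TrStmt) (hCov : CovStmt) (hMic : MicStmt) (hLin : LinStmt) (hY : YStmt) (hU : UcStmt)
    (hD : DipStmt) (hLv : LvStmt) (hLy : LyStmt) (hPur : PurStmt) (hRw : RwStmt) (hCal : CalStmt)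
    (hA : AprStmt) : XStmt := fun P hP => by
  obtain ⟨W, hW, hL⟩ := hLy P hP
  obtain ⟨C, H⟩ := (X87.Hy.main ⟨hP, hW, hL, hT, hCov, hMic, hLin, hY, hU, hD, hLv, hPur, hRw, hCal, hA⟩).bound
  refine ⟨C, X87.out ?_⟩
  filter_upwards [H, X87.tend_t.eventually_ge_atTop 0] with x hx h0
  rwa [norm_eq_abs, X87.tau, norm_of_nonneg (rpow_nonneg h0 _)] at hx

end Crest.Agent.T145.Vx
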