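import Crest.Agent.T145.Fin_76
import Crest.Agent.T145.UvG_49
import Crest.Agent.T145.KvAlg_91
import Crest.Agent.T145.KvBar_61
import Crest.Agent.T145.KvBr_68
import Crest.Agent.T145.KvDl_68
import Crest.Agent.T145.KvDual_19
import Crest.Agent.T145.KvExt_46
import Crest.Agent.T145.KvFs_9
import Crest.Agent.T145.KvGeo_32
import Crest.Agent.T145.KvGff_16
import Crest.Agent.T145.KvK0_16
import Crest.Agent.T145.KvK2_17
import Crest.Agent.T145.KvK3_85
import Crest.Agent.T145.KvKsh_77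
import Crest.Agent.T145.KvM3_89
import Crest.Agent.T145.KvMom_3
import Crest.Agent.T145.KvP0b_75
import Crest.Agent.T145.KvR_49
import Crest.Agent.T145.KvRmv_78
import Crest.Agent.T145.KvSec_74
import Crest.Agent.T145.KvSect_51
import Crest.Agent.T145.KvT1_60
import Crest.Agent.T145.KvTop_77
import Crest.Agent.T145.KvUv_49
import Crest.Agent.T145.KvVec_90
import Crest.Agent.T145.KvZk_62
import Crest.Agent.T145.KsE_68
import Crest.Agent.T145.VxApr_15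
import Crest.Agent.T145.VxCalS_48
import Crest.Agent.T145.VxCm_48
import Crest.Agent.T145.VxCov_30
import Crest.Agent.T145.VxDom_89
import Crest.Agent.T145.VxDp_34
import Crest.Agent.T145.VxFar_30
import Crest.Agent.T145.VxIso_27
import Crest.Agent.T145.VxJf_41
import Crest.Agent.T145.VxJn_93
import Crest.Agent.T145.VxKs_28
import Crest.Agent.T145.VxLc_27
import Crest.Agent.T145.VxLin_51
import Crest.Agent.T145.VxLv_34
import Crest.Agent.T145.VxLy_62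
import Crest.Agent.T145.VxMic_22
import Crest.Agent.T145.VxPur_3
import Crest.Agent.T145.VxRoute_51
import Crest.Agent.T145.VxRw_55
import Crest.Agent.T145.VxTop_35
import Crest.Agent.T145.VxTr_12
import Crest.Agent.T145.VxTs_40
import Crest.Agent.T145.VxX_87
import Crest.Agent.T145.TwTop_63

/-!
# Row 145: the vortex kernel and the twisted module without hypotheses (helper76)
-/

set_option autoImplicit false

namespace Crest.Agent.T145.Fin

namespace K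

theorem alg : Kv.AlgStmt := Kv.algStmt Kv.geoStmt
theorem ext : Kv.ExtStmt := Kv.extStmt Kv.geoStmt
theorem cap : Kv.CapStmt := Kv.K17.capS alg Kr.U.alg
theorem k2 : Kv.K2Stmt := Kv.k2Stmt Kv.geoStmt alg
theorem m3 : Kv.M3Stmt := Kv.m3Stmt Kv.geoStmt alg Kv.dualStmt cap
theorem mom : Kv.MomStmt := Kv.momStmt ext
theorem bar : Kv.BarStmt := Kv.barStmt Kv.geoStmt alg ext
theorem t1 : Kv.T1Stmt := Kv.t1Stmt All.t1g All.brg Kv.geoStmt ext All.t1a
theorem dl : Kv.DlStmt := Kv.dlStmt t1 All.dlg All.dlGen Kv.geoStmt ext All.t1m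
theorem gff : Kv.GffStmt :=
  Kv.gffStmt (Kv.p0Stmt Kv.geoStmt) t1 dl All.brg All.afac All.t1a Kv.geoStmt alg ext
theorem uv : Kv.UvStmt :=
  Kv.uvStmt (Mx.uvGStmt All.r1 Nc.U.ld1 Nc.U.sub) All.mxGd All.r1 Kv.geoStmt ext
theorem r : Kv.RStmt := Kv.rStmt gff uv (Kv.K17.trS Kv.geoStmt) Kv.geoStmt alg ext All.t1a All.t1m
theorem k0 : Kv.K0Stmt := Kv.k0Stmt r (Kv.fStmt All.mix0 Kv.geoStmt All.t1m)
  (Kv.lamStmt Kv.geoStmt alg ext m3) k2 bar alg All.t1a All.t1m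
theorem ksh : Kv.KshStmt :=
  Kv.kshStmt Kr.U.ks k0 k2 (Kv.typStmt Kv.geoStmt alg ext m3) bar cap alg All.t1a All.t1m
theorem sect : Kv.SectStmt := Kv.sectStmt ksh Kv.secStmt (Kv.k3Stmt Kv.geoStmt alg Kv.dualStmt) mom
  (Kv.zkStmt Kv.geoStmt Kv.dualStmt mom ext) bar ext cap Kv.geoStmt
theorem kv : Kv.KvStmt := Kv.kvStmt sect (Kv.rmvStmt All.rate Kv.geoStmt)

end K

namespace V

theorem ks : Vx.KsStmt :=
  Vx.ksStmt (Ks68.qmStmt (Ks68.mixStmt K.kv All.gffD All.t1m) All.gd All.gffD All.t1m) All.gffD All.t1m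
theorem kv : Vx.KvStmt := Vx.kvStmt (Ks68.vecStmt K.kv All.gffD All.t1m) All.t1m
theorem par : Vx.ParStmt := Vx.parStmt (Vx.gdStmt All.gd) critXy ks
theorem cov : Vx.CovStmt := Vx.covStmt Vx.trStmt Vx.domStmt
theorem mic : Vx.MicStmt := Vx.micStmt Vx.domStmt Vx.ggStmt
theorem lin : Vx.LinStmt := Vx.linStmt Vx.routeStmt Vx.ggStmt Vx.trStmt cov Vx.dom1Stmt
theorem ts : Vx.TsStmt := Vx.tsStmt kv Vx.trStmt
theorem nu : Vx.NuStmt := Vx.nuStmt ts Vx.trStmt Vx.dom1Stmt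
theorem jn : Vx.JnStmt := Vx.jnStmt Vx.trStmt Vx.ggStmt Vx.yStmt Vx.dom1Stmt nu mic
theorem fj : Vx.FjStmt := Vx.fjStmt Vx.trStmt Vx.yStmt cov jn
theorem far : Vx.FarStmt := Vx.farStmt Vx.trStmt Vx.yStmt Vx.domStmt cov jn
theorem lb : Vx.LbStmt := Vx.Lb27.lbStmt Vx.yStmt (Vx.jfarStmt Vx.trStmt cov mic jn fj Vx.yStmt)
  (Vx.jnearStmt Vx.trStmt Vx.ggStmt cov mic jn fj Vx.yStmt) Vx.isoStmt far
theorem lv : Vx.LvStmt := Vx.lvStmt lb lin Vx.yStmt
theorem ly : Vx.LyStmt := Vx.lyStmt Vx.trStmt Vx.yStmt Vx.ucStmt Vx.dipStmt lin lv ts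
theorem cal : Vx.CalStmt := Vx.calStmt (Vx.cmStmt Vx.trStmt Vx.ggStmt cov) Vx.ucStmt
theorem x : Vx.XStmt := Vx.xStmt Vx.trStmt cov mic lin Vx.yStmt Vx.ucStmt Vx.dipStmt lv ly
  (Vx.purStmt (Vx.tpStmt fj Vx.yStmt Vx.ucStmt)) (Vx.rwStmt Vx.yStmt Vx.ucStmt lin fj far) cal
  (Vx.aprStmt ly cal mic nu cov lin Vx.ucStmt Vx.yStmt Vx.trStmt)

end V

theorem crit : Top.CritStmt := Tw.critStmt (Vx.microStmt V.par V.x)

end Crest.Agent.T145.Fin
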