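import Crest.Agent.T145.FlDef_82
import Crest.Agent.T145.OmB_11
import Crest.Agent.T145.CorB_59
import Crest.Agent.T145.Soft_23

/-!
# Row 145, task FL ENV (helper30)

The torus state is an `Env`; algebra of insertions and integer charges (`E30`); linearity, order,
oddness and differentiation in the charge for represented states (`Rep.*`, `Env.*`).
-/

set_option autoImplicit false

namespace Crest.Agent.T145.Fl

open Finset Pot Xi Real

/-- ENV: the torus state is an invariant state -/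
theorem env_om {p : Par} {Λ : Lat} {L N n : ℕ} (hG : Gs p Λ L) (h1 : 100 * p.w * p.r₀ ≤ L) (h2 : L ≤ N)
    (h3 : N ≤ p.K * L) (h4 : 2 * (N + Λ.rg) < n) (h5 : n ≤ 2 * (N + N / 4) + 1) :
    Env p Λ (Om.om Λ n) L N := by
  have hΛ := hG.mem.ok
  have hn : 2 * Λ.rg < n := by omega
  refine ⟨hG, h1, h2, h3, fun c => ⟨Om.Tb Λ n c, Om.amb_Tb hΛ c h4, fun F hF =>
    Om.om_Tb hΛ hn (by omega) hF⟩, fun c z F hF => Om.om_trl hΛ hn hF z,
    fun F hF => ⟨(Om.om_rot hΛ hn hF 0).2, (Om.om_swp hΛ hn hF 0).2⟩,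
    sq (0 - (((n / 2 : ℕ) : ℤ), ((n / 2 : ℕ) : ℤ))) n, Om.bl_subset_sq 0 (by omega), fun x hx => ?_,
    fun F hF => Om.sum_om_J hΛ (by omega) _ hF.1 fun x _ => Om.og_tame hΛ
      ((hF.1.mono subset_union_left).mul ((Om.depG_Jz x).mono subset_union_right))
      (hF.2.mul (Om.tame_Jz x))⟩
  simp only [mem_bl, mem_sq, Prod.fst_sub, Prod.snd_sub, Prod.fst_zero, Prod.snd_zero] at hx ⊢
  omega

theorem env_om' {p : Par} {Λ : Lat} {L N n : ℕ} (hG : Gs p Λ L) (h1 : 100 * p.w * p.r₀ ≤ L)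
    (h2 : L ≤ N) (h3 : N ≤ p.K * L) (h4 : 2 * (N + Λ.rg) < n) (h5 : n ≤ 2 * N + N / 4) :
    Env p Λ (Om.om Λ n) L N := env_om hG h1 h2 h3 h4 (by omega)

namespace E30

/-! ## insertions -/

section ins
variable {z : Pt} {r : ℕ} {F G : Cfg Pt → ℝ}

theorem ins_mono {z' : Pt} {r' : ℕ} (h : Ins z r F) (hs : bl z r ⊆ bl z' r') : Ins z' r' F :=
  ⟨h.1.mono hs, h.2⟩
theorem ins_le {r' : ℕ} (h : Ins z r F) (hr : r ≤ r') : Ins z r' F := ins_mono h (bl_mono z hr)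
theorem ins_const (z : Pt) (r : ℕ) (c : ℝ) : Ins z r fun _ => c := ⟨DepG.const _ c, Tame.const c⟩
theorem ins_add (h : Ins z r F) (h' : Ins z r G) : Ins z r fun s => F s + G s :=
  ⟨h.1.add h'.1, h.2.add h'.2⟩
theorem ins_sub (h : Ins z r F) (h' : Ins z r G) : Ins z r fun s => F s - G s :=
  ⟨h.1.sub h'.1, h.2.sub h'.2⟩
theorem ins_mul (h : Ins z r F) (h' : Ins z r G) : Ins z r fun s => F s * G s :=
  ⟨h.1.mul h'.1, h.2.mul h'.2⟩
theorem ins_neg (h : Ins z r F) : Ins z r fun s => -F s := ⟨h.1.comp (- ·), h.2.neg⟩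
theorem ins_abs (h : Ins z r F) : Ins z r fun s => |F s| := ⟨h.1.comp (|·|), h.2.abs⟩
theorem ins_pow (h : Ins z r F) (k : ℕ) : Ins z r fun s => F s ^ k := ⟨h.1.comp (· ^ k), h.2.pow k⟩
theorem ins_smul (h : Ins z r F) (c : ℝ) : Ins z r fun s => c * F s := ins_mul (ins_const z r c) h
theorem ins_sum {ι : Type*} (T : Finset ι) {H : ι → Cfg Pt → ℝ} (h : ∀ i ∈ T, Ins z r (H i)) :
    Ins z r fun s => ∑ i ∈ T, H i s := ⟨DepG.sum fun i hi => (h i hi).1, Tame.sum T fun i hi => (h i hi).2⟩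
theorem ins_prod {ι : Type*} (T : Finset ι) {H : ι → Cfg Pt → ℝ} (h : ∀ i ∈ T, Ins z r (H i)) :
    Ins z r fun s => ∏ i ∈ T, H i s :=
  ⟨DepG.prod fun i hi => (h i hi).1, Tame.prod T fun i hi => (h i hi).2⟩
theorem ins_bdd (h : DepG (bl z r) F) {B : ℝ} (hB : ∀ s, |F s| ≤ B) : Ins z r F := ⟨h, Tame.bdd hB⟩
theorem ins_J {x : Pt} (h : bl x 1 ⊆ bl z r) : Ins z r (Jz x) := ins_mono (Om.ins_Jz x le_rfl) h
theorem ins_J' {x : Pt} {n : ℕ} (hx : x ∈ bl z n) (h : n + 1 ≤ r) : Ins z r (Jz x) :=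
  ins_J (bl_one_sub h x hx)
theorem ins_trl (h : Ins 0 r F) (z : Pt) : Ins z r (trl z F) := by
  simpa only [zero_add] using Om.ins_trl h z

/-- the product of a far family is an insertion in every ball containing `U` -/
theorem ins_far {p : Par} {L : ℕ} {ι : Type} {I : Finset ι} {x : ι → Pt} {rr : ι → ℕ}
    {H : ι → Cfg Pt → ℝ} (hw : 1 ≤ p.w) (h : Far p L (bl z r) I x rr H) :
    Ins z r fun s => ∏ i ∈ I, H i s :=
  ins_prod I fun i hi => ins_mono (h.ins i hi)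
    ((bl_mono _ (Nat.le_mul_of_pos_left _ hw)).trans (h.sub i hi))

theorem odd_mul_even (h : OddF F) (h' : EvenF G) : OddF fun s => F s * G s := fun s => by
  simp only [h s, h' s, neg_mul]
theorem even_mul_odd (h : EvenF F) (h' : OddF G) : OddF fun s => F s * G s := fun s => by
  simp only [h s, h' s, mul_neg]
theorem odd_mul_odd (h : OddF F) (h' : OddF G) : EvenF fun s => F s * G s := fun s => by
  simp only [h s, h' s, neg_mul_neg]
theorem even_mul_even (h : EvenF F) (h' : EvenF G) : EvenF fun s => F s * G s := fun s => by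
  simp only [h s, h' s]
theorem odd_add (h : OddF F) (h' : OddF G) : OddF fun s => F s + G s := fun s => by
  simp only [h s, h' s, neg_add]
theorem odd_sub (h : OddF F) (h' : OddF G) : OddF fun s => F s - G s := fun s => by
  simp only [h s, h' s]; ring
theorem odd_smul (h : OddF F) (c : ℝ) : OddF fun s => c * F s := fun s => by
  simp only [h s, mul_neg]
theorem odd_trl (h : OddF F) (z : Pt) : OddF (trl z F) := fun s => by
  simp only [trl, map_neg, h _]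
theorem even_trl (h : EvenF F) (z : Pt) : EvenF (trl z F) := fun s => by
  simp only [trl, map_neg, h _]
theorem odd_pr (f : Pt → ℝ) : OddF fun s => pr f s := fun s => map_neg _ s
theorem d4_sub (h : D4 z F) (h' : D4 z G) : D4 z fun s => F s - G s := fun s => by
  simp only [(h s).1, (h s).2, (h' s).1, (h' s).2, and_self]
theorem d4_add (h : D4 z F) (h' : D4 z G) : D4 z fun s => F s + G s := fun s => by
  simp only [(h s).1, (h s).2, (h' s).1, (h' s).2, and_self]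
theorem d4_mul (h : D4 z F) (h' : D4 z G) : D4 z fun s => F s * G s := fun s => by
  simp only [(h s).1, (h s).2, (h' s).1, (h' s).2, and_self]
theorem d4_smul (h : D4 z F) (c : ℝ) : D4 z fun s => c * F s := fun s => by
  simp only [(h s).1, (h s).2, and_self]

theorem trl_mul (z : Pt) (F G : Cfg Pt → ℝ) :
    trl z (fun s => F s * G s) = fun s => trl z F s * trl z G s := rfl
theorem trl_zero (F : Cfg Pt → ℝ) : trl 0 F = F := by
  funext s; simp only [trl]; congr 1; ext x; simp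
theorem trl_trl (z z' : Pt) (F : Cfg Pt → ℝ) : trl z (trl z' F) = trl (z' + z) F := by
  funext s; simp only [trl]; congr 1; ext x; simp [add_assoc]
theorem trl_pr (z : Pt) (f : Pt → ℝ) (g : ℝ → ℝ) :
    trl z (fun s => g (pr f s)) = fun s => g (pr (fun y => f (y - z)) s) := by
  funext s; simp only [trl, pr_mapH, Equiv.subRight_apply]

end ins

/-! ## integer charges -/

section chq
variable {U U' : Finset Pt} {ξ η : Pt → ℝ} {q q' : ℤ}

theorem chq_mono (h : Chq U ξ q) (hU : U ⊆ U') : Chq U' ξ q :=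
  ⟨h.1.mono hU, by rw [← h.2]; exact (sum_subset hU fun x _ hx => h.1 x hx).symm⟩
theorem chq_zero (U : Finset Pt) : Chq U 0 0 := ⟨fun _ _ => rfl, by simp⟩
theorem chq_add (h : Chq U ξ q) (h' : Chq U η q') : Chq U (ξ + η) (q + q') :=
  ⟨fun x hx => by simp [h.1 x hx, h'.1 x hx], by simp [sum_add_distrib, h.2, h'.2]⟩
theorem chq_sub (h : Chq U ξ q) (h' : Chq U η q') : Chq U (ξ - η) (q - q') :=
  ⟨fun x hx => by simp [h.1 x hx, h'.1 x hx], by simp [sum_sub_distrib, h.2, h'.2]⟩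
theorem chq_neg (h : Chq U ξ q) : Chq U (-ξ) (-q) :=
  ⟨fun x hx => by simp [h.1 x hx], by simp [h.2]⟩
theorem chq_zsmul (h : Chq U ξ q) (k : ℤ) : Chq U ((k : ℝ) • ξ) (k * q) :=
  ⟨fun x hx => by simp [h.1 x hx], by simp [← mul_sum, h.2]⟩
theorem chq_smul0 (h : Chq U ξ 0) (t : ℝ) : Chq U (t • ξ) 0 :=
  ⟨fun x hx => by simp [h.1 x hx], by simp [← mul_sum, h.2]⟩
theorem chq_add0 (h : Chq U ξ q) (h' : Chq U η 0) : Chq U (ξ + η) q := by
  simpa only [add_zero] using chq_add h h'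
theorem chq_sub0 (h : Chq U ξ q) (h' : Chq U η 0) : Chq U (ξ - η) q := by
  simpa only [sub_zero] using chq_sub h h'
theorem chq_line (h : Chq U ξ q) (h' : Chq U η 0) (t : ℝ) : Chq U (ξ + t • η) q :=
  chq_add0 h (chq_smul0 h' t)
theorem chq_A0 {c : Pt} {n N : ℕ} {v : Pt → ℝ} (hv : Pot.Sup (bl c n) v) (h : n + 1 ≤ N) :
    Chq (bl c N) (A0 v) 0 :=
  ⟨(sup_A0 hv).mono (bl_mono c h), by rw [sum_A0 h hv]; simp⟩
/-- `A₀ v` is neutral in any `U` containing the unit neighbourhood of a ball carrying `v` -/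
theorem chq_A0' {c : Pt} {n : ℕ} {v : Pt → ℝ} (hv : Pot.Sup (bl c n) v) (h : bl c (n + 1) ⊆ U) :
    Chq U (A0 v) 0 := chq_mono (chq_A0 hv le_rfl) h
theorem chq_xi {ρ : ℝ} {n : ℕ} (hρ : 0 < ρ) (h : 2 * ρ ≤ n) : Chq (bl 0 n) (xi ρ) 1 :=
  ⟨sup_xi hρ h, by rw [sum_xi hρ h]; simp⟩
theorem chq_shift {c : Pt} {n : ℕ} (h : Chq (bl c n) ξ q) (z : Pt) :
    Chq (bl (c + z) n) (fun y => ξ (y - z)) q := by
  have e : ∀ y, y ∈ bl (c + z) n ↔ y - z ∈ bl c n := fun y => by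
    simp only [mem_bl, Prod.fst_add, Prod.snd_add, Prod.fst_sub, Prod.snd_sub]; omega
  refine ⟨fun y hy => h.1 _ fun h' => hy ((e y).2 h'), ?_⟩
  rw [← h.2]
  exact sum_equiv (Equiv.subRight z) (fun y => e y) fun _ _ => rfl
theorem chq_xi_shift {ρ : ℝ} {n : ℕ} (hρ : 0 < ρ) (h : 2 * ρ ≤ n) (z : Pt) :
    Chq (bl z n) (fun y => xi ρ (y - z)) 1 := by
  simpa only [zero_add] using chq_shift (chq_xi hρ h) z

theorem depG_pr (h : Chq U ξ 0) : DepG U fun s => pr ξ s := DepG.pr h.1 (by rw [h.2]; simp)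
theorem ins_pr {z : Pt} {r : ℕ} (h : Chq (bl z r) ξ 0) : Ins z r fun s => pr ξ s :=
  ⟨depG_pr h, Tame.hom _⟩
theorem ins_prA0 {z : Pt} {n r : ℕ} {v : Pt → ℝ} (hv : Pot.Sup (bl z n) v) (h : n + 1 ≤ r) :
    Ins z r fun s => pr (A0 v) s := ins_pr (chq_A0 hv h)

theorem pr_shift (h : Chq U ξ q) {s s' : Cfg Pt} {k : ℤ} (e : ∀ x ∈ U, s' x = s x + k) :
    pr ξ s' = pr ξ s + q * k := by
  simp only [pr_of_fsupp ξ _ h.1]
  rw [← h.2, sum_mul, ← sum_add_distrib]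
  exact sum_congr rfl fun x hx => by rw [e x hx]; push_cast; ring

theorem depG_cp (h : Chq U ξ q) (φ : ℝ) : DepG U (cp ξ φ) := fun s s' k e => by
  simp only [cp, pr_shift h e]
  rw [← cos_add_int_mul_two_pi _ (q * k)]
  congr 1; push_cast; ring

theorem abs_cp_le (ξ : Pt → ℝ) (φ : ℝ) (s : Cfg Pt) : |cp ξ φ s| ≤ 1 := abs_cos_le_one _
theorem tame_cp (ξ : Pt → ℝ) (φ : ℝ) : Tame (cp ξ φ) := Tame.bdd (abs_cp_le ξ φ)
theorem ins_cp {z : Pt} {r : ℕ} (h : Chq (bl z r) ξ q) (φ : ℝ) : Ins z r (cp ξ φ) :=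
  ⟨depG_cp h φ, tame_cp ξ φ⟩

theorem out_pr {B : Finset Pt} (h : ∀ y ∈ B, ξ y = 0) : Out B fun s => pr ξ s := fun s s' e => by
  have : pr ξ (s - s') = 0 := by
    rw [pr_eq_sum]
    refine sum_eq_zero fun x _ => ?_
    by_cases hx : x ∈ B
    · rw [h x hx, zero_mul]
    · rw [Finsupp.sub_apply, e x hx, sub_self]; simp
  rw [map_sub] at this
  exact sub_eq_zero.1 this
theorem out_cp {B : Finset Pt} (h : ∀ y ∈ B, ξ y = 0) (φ : ℝ) : Out B (cp ξ φ) :=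
  (out_pr h).comp fun x => cos (2 * π * x + φ)

theorem cp_zero (φ : ℝ) : cp 0 φ = fun _ => cos φ := by funext s; simp [cp]
theorem cp_neg_cfg (ξ : Pt → ℝ) (φ : ℝ) (s : Cfg Pt) : cp ξ φ (-s) = cp ξ (-φ) s := by
  simp only [cp, map_neg]; rw [← cos_neg]; congr 1; ring
theorem cp_neg (ξ : Pt → ℝ) (φ : ℝ) : cp (-ξ) φ = cp ξ (-φ) := by
  funext s; simp only [cp, pr_neg, AddMonoidHom.neg_apply]; rw [← cos_neg]; congr 1; ring
theorem even_cp (ξ : Pt → ℝ) : EvenF (cp ξ 0) := fun s => by rw [cp_neg_cfg, neg_zero]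
theorem cp_half (ξ : Pt → ℝ) (φ : ℝ) (s : Cfg Pt) :
    cp ξ (φ + π / 2) s = -sin (2 * π * pr ξ s + φ) := by
  rw [cp, ← add_assoc, cos_add_pi_div_two]
theorem cp_sub_half (ξ : Pt → ℝ) (φ : ℝ) (s : Cfg Pt) :
    cp ξ (φ - π / 2) s = sin (2 * π * pr ξ s + φ) := by
  rw [cp, ← add_sub_assoc, cos_sub_pi_div_two]
theorem cp_add_pi (ξ : Pt → ℝ) (φ : ℝ) (s : Cfg Pt) : cp ξ (φ + π) s = -cp ξ φ s := by
  rw [cp, ← add_assoc, cos_add_pi, cp]
theorem cp_pi_half (ξ : Pt → ℝ) (s : Cfg Pt) : cp ξ (π / 2) s = -sin (2 * π * pr ξ s) := by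
  rw [cp, cos_add_pi_div_two]
theorem odd_cp (ξ : Pt → ℝ) : OddF (cp ξ (π / 2)) := fun s => by
  simp only [cp_pi_half, map_neg, mul_neg, sin_neg]
/-- the phase splits -/
theorem cp_phase (ξ : Pt → ℝ) (φ : ℝ) (s : Cfg Pt) :
    cp ξ φ s = cos φ * cp ξ 0 s + sin φ * cp ξ (π / 2) s := by
  rw [cp_pi_half, cp, cp, add_zero, cos_add]; ring
/-- product of two charges -/
theorem cp_mul (ξ η : Pt → ℝ) (φ ψ : ℝ) (s : Cfg Pt) :
    cp ξ φ s * cp η ψ s = (cp (ξ + η) (φ + ψ) s + cp (ξ - η) (φ - ψ) s) / 2 := by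
  simp only [cp, pr_add, pr_sub, AddMonoidHom.add_apply, AddMonoidHom.sub_apply]
  rw [show 2 * π * (pr ξ s + pr η s) + (φ + ψ) = (2 * π * pr ξ s + φ) + (2 * π * pr η s + ψ) by ring,
    show 2 * π * (pr ξ s - pr η s) + (φ - ψ) = (2 * π * pr ξ s + φ) - (2 * π * pr η s + ψ) by ring,
    cos_add (2 * π * pr ξ s + φ), cos_sub (2 * π * pr ξ s + φ)]
  ring
/-- addition of charges -/
theorem cp_add (ξ η : Pt → ℝ) (φ : ℝ) (s : Cfg Pt) :
    cp (ξ + η) φ s = cp ξ φ s * cp η 0 s - cp ξ (φ + π / 2) s * cp η (π / 2) s := by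
  rw [cp_half, cp_pi_half]
  simp only [cp, pr_add, AddMonoidHom.add_apply, add_zero]
  rw [show 2 * π * (pr ξ s + pr η s) + φ = (2 * π * pr ξ s + φ) + 2 * π * pr η s by ring, cos_add]
  ring
theorem abs_cp_sub_le (ξ η : Pt → ℝ) (φ : ℝ) (s : Cfg Pt) :
    |cp ξ φ s - cp η φ s| ≤ 2 * π * |pr (ξ - η) s| := by
  refine (abs_cos_sub_cos_le _ _).trans_eq ?_
  rw [pr_sub, AddMonoidHom.sub_apply, ← abs_of_pos (show 0 < 2 * π by positivity), ← abs_mul,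
    abs_of_pos (show 0 < 2 * π by positivity)]
  congr 1; ring
theorem trl_cp (z : Pt) (ξ : Pt → ℝ) (φ : ℝ) : trl z (cp ξ φ) = cp (fun y => ξ (y - z)) φ :=
  trl_pr z ξ fun x => cos (2 * π * x + φ)
theorem cp_eq_cos (ξ : Pt → ℝ) (s : Cfg Pt) : cp ξ 0 s = cos (((2 * π) • pr ξ) s) := by
  simp [cp]
theorem d4_cp {u : Pt → ℝ} (h1 : ∀ x, u x.swap = u x) (h2 : ∀ x : Pt, u (-x.1, x.2) = u x) (φ : ℝ) :
    D4 0 (cp u φ) := by
  have := d4_pr h1 h2 0 fun x => cos (2 * π * x + φ)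
  simp only [sub_zero] at this
  exact this
theorem hasDerivAt_cp (ξ η : Pt → ℝ) (φ t : ℝ) (s : Cfg Pt) :
    HasDerivAt (fun t : ℝ => cp (ξ + t • η) φ s) (2 * π * (pr η s * cp (ξ + t • η) (φ + π / 2) s)) t := by
  simp only [cp_half]
  simp only [cp, pr_add, pr_smul, AddMonoidHom.add_apply, AddMonoidHom.smul_apply, smul_eq_mul]
  exact ((((((hasDerivAt_id' t).mul_const (pr η s)).const_add (pr ξ s)).const_mul (2 * π)).add_const
    φ).cos).congr_deriv (by ring)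

theorem Sn_eq (ρ : ℝ) : Sn ρ = cp (xi ρ) (-(π / 2)) := by
  funext s; rw [← zero_sub, cp_sub_half, add_zero, Sn]
theorem Sn_eq' (ρ : ℝ) (s : Cfg Pt) : Sn ρ s = -cp (xi ρ) (π / 2) s := by
  rw [cp_pi_half, neg_neg, Sn]
theorem abs_Sn_le (ρ : ℝ) (s : Cfg Pt) : |Sn ρ s| ≤ 1 := abs_sin_le_one _
theorem odd_Sn (ρ : ℝ) : OddF (Sn ρ) := fun s => by simp only [Sn, map_neg, mul_neg, sin_neg]
theorem d4_Sn (ρ : ℝ) : D4 0 (Sn ρ) := by rw [Sn_eq]; exact d4_cp (xi_swap ρ) (xi_neg_fst ρ) _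
theorem ins_Sn {ρ : ℝ} {n : ℕ} (hρ : 0 < ρ) (h : 2 * ρ ≤ n) : Ins 0 n (Sn ρ) := by
  rw [Sn_eq]; exact ins_cp (chq_xi hρ h) _
theorem out_Sn {ρ : ℝ} {n : ℕ} (hρ : 0 < ρ) (h : (n : ℝ) + 1 ≤ ρ) : Out (bl 0 n) (Sn ρ) := by
  rw [Sn_eq]; exact out_cp (fun _ hy => xi_in hρ h hy) _
theorem trl_Sn (z : Pt) (ρ : ℝ) : trl z (Sn ρ) = cp (fun y => xi ρ (y - z)) (-(π / 2)) := by
  rw [Sn_eq, trl_cp]

end chq

end E30

open E30

/-! ## represented states -/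

namespace Rep
variable {Λ : Lat} {ω : (Cfg Pt → ℝ) → ℝ} {m : Mdl Pt} {c : Pt} {N : ℕ} {F G H : Cfg Pt → ℝ}
  {ξ η : Pt → ℝ} {q : ℤ} (h : Rep Λ ω m c N)
include h

theorem cen : Cen (m.W 0) := h.1.ctr.cen h.1.anch
theorem amb_sub {U : Finset Pt} (hU : U ⊆ bl c N) : Nc.Amb Λ m U :=
  ⟨h.1.ctr, h.1.anch, hU.trans h.1.sub, h.1.near.mono hU⟩
theorem sub_ball {c' : Pt} {N' : ℕ} (hU : bl c' N' ⊆ bl c N) : Rep Λ ω m c' N' :=
  ⟨h.amb_sub hU, fun F hF => h.2 F (hF.mono hU)⟩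
theorem ex_eq (hF : Ins c N F) : ω F = Ex (m.W 0) F := h.2 F hF.1
theorem ex_add (hF : Ins c N F) (hG : Ins c N G) : ω (fun s => F s + G s) = ω F + ω G := by
  rw [h.ex_eq (ins_add hF hG), h.ex_eq hF, h.ex_eq hG, Ex_add (h.cen.ig hF.2) (h.cen.ig hG.2)]
theorem ex_sub (hF : Ins c N F) (hG : Ins c N G) : ω (fun s => F s - G s) = ω F - ω G := by
  rw [h.ex_eq (ins_sub hF hG), h.ex_eq hF, h.ex_eq hG, Ex_sub (h.cen.ig hF.2) (h.cen.ig hG.2)]
theorem ex_smul (hF : DepG (bl c N) F) (a : ℝ) : ω (fun s => a * F s) = a * ω F := by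
  rw [h.2 _ (hF.comp (a * ·)), h.2 _ hF, Ex_const_mul]
theorem ex_neg (hF : DepG (bl c N) F) : ω (fun s => -F s) = -ω F := by
  rw [h.2 _ (hF.comp (- ·)), h.2 _ hF, Ex_neg]
theorem ex_const (a : ℝ) : ω (fun _ => a) = a := by
  rw [h.2 _ (DepG.const _ a), h.cen.wt.ex_const]
theorem ex_sum {ι : Type*} (T : Finset ι) {F : ι → Cfg Pt → ℝ} (hF : ∀ i ∈ T, Ins c N (F i)) :
    ω (fun s => ∑ i ∈ T, F i s) = ∑ i ∈ T, ω (F i) := by
  rw [h.ex_eq (ins_sum T hF), Ex_sum T fun i hi => h.cen.ig (hF i hi).2]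
  exact sum_congr rfl fun i hi => (h.ex_eq (hF i hi)).symm
theorem ex_sum_smul {ι : Type*} (T : Finset ι) (a : ι → ℝ) {F : ι → Cfg Pt → ℝ}
    (hF : ∀ i ∈ T, Ins c N (F i)) : ω (fun s => ∑ i ∈ T, a i * F i s) = ∑ i ∈ T, a i * ω (F i) := by
  rw [h.ex_sum T fun i hi => ins_smul (hF i hi) (a i)]
  exact sum_congr rfl fun i hi => h.ex_smul (hF i hi).1 _
theorem ex_flip (hF : DepG (bl c N) F) : ω (fun s => F (-s)) = ω F := by
  have : DepG (bl c N) fun s => F (-s) := fun s s' k e => hF _ _ (-k) fun x hx => by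
    simp only [Finsupp.neg_apply, e x hx, neg_add]
  rw [h.2 _ this, h.2 _ hF, Ex_even h.cen.even]
theorem ex_odd (hF : DepG (bl c N) F) (ho : OddF F) : ω F = 0 := by
  rw [h.2 _ hF, h.cen.ex_odd ho]
theorem ex_mono (hF : Ins c N F) (hG : Ins c N G) (hle : ∀ s, F s ≤ G s) : ω F ≤ ω G := by
  rw [h.ex_eq hF, h.ex_eq hG]; exact Ex_mono h.cen.nonneg (h.cen.ig hF.2) (h.cen.ig hG.2) hle
theorem ex_nonneg (hF : DepG (bl c N) F) (h0 : ∀ s, 0 ≤ F s) : 0 ≤ ω F := by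
  rw [h.2 _ hF]; exact Ex_nonneg h.cen.nonneg fun s _ => h0 s
theorem abs_ex_le (hF : DepG (bl c N) F) {B : ℝ} (hB : ∀ s, |F s| ≤ B) : |ω F| ≤ B := by
  rw [h.2 _ hF]; exact h.cen.wt.abs_ex_le fun s _ => hB s
theorem abs_ex_le_abs (hF : Ins c N F) : |ω F| ≤ ω fun s => |F s| := by
  rw [h.ex_eq hF, h.ex_eq (ins_abs hF)]; exact abs_Ex_le h.cen.nonneg (h.cen.ig hF.2)
theorem abs_ex_le_ex (hF : DepG (bl c N) F) (hG : Ins c N G) (hle : ∀ s, |F s| ≤ G s) :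
    |ω F| ≤ ω G :=
  have hF' : Ins c N F := ⟨hF, hG.2.of_le hle⟩
  (h.abs_ex_le_abs hF').trans (h.ex_mono (ins_abs hF') hG hle)
/-- Cauchy–Schwarz -/
theorem abs_ex_mul_le (hF : Ins c N F) (hG : Ins c N G) :
    |ω fun s => F s * G s| ≤ √(ω fun s => F s ^ 2) * √(ω fun s => G s ^ 2) := by
  rw [h.ex_eq (ins_mul hF hG), h.ex_eq (ins_pow hF 2), h.ex_eq (ins_pow hG 2)]
  exact abs_Ex_mul_le h.cen.nonneg (h.cen.ig (hF.2.pow 2)) (h.cen.ig (hG.2.pow 2))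
theorem ex_abs_le (hF : Ins c N F) : ω (fun s => |F s|) ≤ √(ω fun s => F s ^ 2) := by
  have := h.abs_ex_mul_le (ins_abs hF) (ins_const c N 1)
  simp only [mul_one, sq_abs, one_pow, h.ex_const, sqrt_one] at this
  exact (le_abs_self _).trans this

/-- the phase against an even insertion -/
theorem ex_even_cp (hH : Ins c N H) (he : EvenF H) (hξ : Chq (bl c N) ξ q) (φ : ℝ) :
    ω (fun s => H s * cp ξ φ s) = cos φ * ω fun s => H s * cp ξ 0 s := by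
  have a := ins_mul hH (ins_cp hξ 0)
  have b := ins_mul hH (ins_cp hξ (π / 2))
  have e : (fun s => H s * cp ξ φ s) =
      fun s => cos φ * (H s * cp ξ 0 s) + sin φ * (H s * cp ξ (π / 2) s) := by
    funext s; rw [cp_phase]; ring
  rw [e, h.ex_add (ins_smul a _) (ins_smul b _), h.ex_smul a.1, h.ex_smul b.1,
    h.ex_odd b.1 (even_mul_odd he (odd_cp ξ)), mul_zero, add_zero]
/-- the phase against an odd insertion -/
theorem ex_odd_cp (hH : Ins c N H) (ho : OddF H) (hξ : Chq (bl c N) ξ q) (φ : ℝ) :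
    ω (fun s => H s * cp ξ φ s) = sin φ * ω fun s => H s * cp ξ (π / 2) s := by
  have a := ins_mul hH (ins_cp hξ 0)
  have b := ins_mul hH (ins_cp hξ (π / 2))
  have e : (fun s => H s * cp ξ φ s) =
      fun s => cos φ * (H s * cp ξ 0 s) + sin φ * (H s * cp ξ (π / 2) s) := by
    funext s; rw [cp_phase]; ring
  rw [e, h.ex_add (ins_smul a _) (ins_smul b _), h.ex_smul a.1, h.ex_smul b.1,
    h.ex_odd a.1 (odd_mul_even ho (even_cp ξ)), mul_zero, zero_add]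
theorem ex_cp (hξ : Chq (bl c N) ξ q) (φ : ℝ) : ω (cp ξ φ) = cos φ * ω (cp ξ 0) := by
  simpa only [one_mul] using h.ex_even_cp (ins_const c N 1) (fun _ => rfl) hξ φ
theorem ex_cp_Ph (hξ : Chq (bl c N) ξ q) : ω (cp ξ 0) = Ph (m.W 0) ((2 * π) • pr ξ) := by
  rw [h.2 _ (depG_cp hξ 0), Ph]; exact congrArg _ (funext (cp_eq_cos ξ))
theorem ex_cp_pos (hξ : Chq (bl c N) ξ q) : 0 < ω (cp ξ 0) := by
  rw [h.ex_cp_Ph hξ]; exact h.cen.ph_pos _
theorem abs_ex_cp_le (hξ : Chq (bl c N) ξ q) (φ : ℝ) : |ω (cp ξ φ)| ≤ ω (cp ξ 0) := by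
  rw [h.ex_cp hξ, abs_mul, abs_of_pos (h.ex_cp_pos hξ)]
  exact mul_le_of_le_one_left (h.ex_cp_pos hξ).le (abs_cos_le_one _)
theorem ex_cp_le_one (hξ : Chq (bl c N) ξ q) (φ : ℝ) : |ω (cp ξ φ)| ≤ 1 :=
  h.abs_ex_le (depG_cp hξ φ) (abs_cp_le ξ φ)
/-- the parallelogram inequality for charges -/
theorem ex_cp_par {q' : ℤ} (hξ : Chq (bl c N) ξ q) (hη : Chq (bl c N) η q') :
    ω (cp ξ 0) ^ 2 * ω (cp η 0) ^ 2 ≤ ω (cp (ξ + η) 0) * ω (cp (ξ - η) 0) := by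
  rw [h.ex_cp_Ph hξ, h.ex_cp_Ph hη, h.ex_cp_Ph (chq_add hξ hη), h.ex_cp_Ph (chq_sub hξ hη), pr_add,
    pr_sub, smul_add, smul_sub]
  exact h.cen.ph_par _ _
/-- Jensen for a neutral charge -/
theorem ex_cp_ge (hξ : Chq (bl c N) ξ 0) :
    exp (-2 * π ^ 2 * ω fun s => pr ξ s ^ 2) ≤ ω (cp ξ 0) := by
  rw [h.ex_cp_Ph hξ, h.ex_eq (ins_pow (ins_pr hξ) 2)]
  refine le_of_eq_of_le ?_ (h.cen.ph_ge _)
  rw [Vr_smul_left, Vr_smul_right, h.cen.Vr_eq]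
  simp only [pow_two]
  congr 1; ring

/-- `(A₀ v, s)` is a sum of currents -/
theorem ex_prA0 {n : ℕ} {v : Pt → ℝ} (hv : Pot.Sup (bl c n) v) (hn : n + 1 ≤ N) {D : Finset Pt}
    (hD : Pot.Sup D v) (hF : Ins c N F) (hG : Ins c N G) :
    ω (fun s => F s * pr (A0 v) s * G s) = ∑ x ∈ D, v x * ω fun s => F s * Jz x s * G s := by
  have hv' : Pot.Sup (D ∩ bl c n) v := fun x hx => by
    by_cases h1 : x ∈ D
    · exact hv x fun h2 => hx (mem_inter.2 ⟨h1, h2⟩)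
    · exact hD x h1
  rw [← sum_subset (inter_subset_left (s₂ := bl c n)) fun x _ hx => by rw [hv' x hx, zero_mul],
    ← h.ex_sum_smul _ v fun x hx => ins_mul (ins_mul hF (ins_J' (mem_inter.1 hx).2 hn)) hG]
  congr 1
  funext s
  rw [pr_A0 hv', mul_sum, sum_mul]
  exact sum_congr rfl fun x _ => by ring

/-- differentiation in the charge -/
theorem hasDerivAt_cp (hH : Ins c N H) (hξ : Chq (bl c N) ξ q) (hη : Chq (bl c N) η 0) (φ t : ℝ) :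
    HasDerivAt (fun t : ℝ => ω fun s => H s * cp (ξ + t • η) φ s)
      (2 * π * ω fun s => H s * pr η s * cp (ξ + t • η) (φ + π / 2) s) t := by
  have a : ∀ t : ℝ, Ins c N fun s => H s * cp (ξ + t • η) φ s := fun t =>
    ins_mul hH (ins_cp (chq_line hξ hη t) φ)
  have b := ins_mul (ins_mul hH (ins_pr hη)) (ins_cp (chq_line hξ hη t) (φ + π / 2))
  simp only [fun t => h.ex_eq (a t)]
  rw [h.ex_eq b, ← Ex_const_mul]
  refine hasDerivAt_Ex (Φ := fun t s => H s * cp (ξ + t • η) φ s)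
    (Φ' := fun t s => 2 * π * (H s * pr η s * cp (ξ + t • η) (φ + π / 2) s))
    (B := fun s => 2 * π * |H s * pr η s|) h.cen.nonneg one_pos
    (h.cen.ig ((hH.2.mul (Tame.hom _)).abs.const_mul _)) (h.cen.ig (a t).2)
    (fun s y _ => ((E30.hasDerivAt_cp ξ η φ y s).const_mul (H s)).congr_deriv (by ring))
    fun s y _ => ?_
  rw [abs_mul, abs_of_pos (show 0 < 2 * π by positivity), abs_mul (H s * pr η s)]
  exact mul_le_mul_of_nonneg_left (mul_le_of_le_one_right (abs_nonneg _) (abs_cp_le _ _ _))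
    (by positivity)

theorem hasDerivAt_A0 (hH : Ins c N H) (hξ : Chq (bl c N) ξ q) {n : ℕ} {v : Pt → ℝ}
    (hv : Pot.Sup (bl c n) v) (hn : n + 1 ≤ N) (φ t : ℝ) :
    HasDerivAt (fun t : ℝ => ω fun s => H s * cp (ξ + t • A0 v) φ s)
      (2 * π * ω fun s => H s * pr (A0 v) s * cp (ξ + t • A0 v) (φ + π / 2) s) t :=
  h.hasDerivAt_cp hH hξ (chq_A0 hv hn) φ t

/-- the derivative as a sum over the positions of the current -/
theorem hasDerivAt_J (hH : Ins c N H) (hξ : Chq (bl c N) ξ q) {n : ℕ} {v : Pt → ℝ}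
    (hv : Pot.Sup (bl c n) v) (hn : n + 1 ≤ N) {D : Finset Pt} (hD : Pot.Sup D v) (φ t : ℝ) :
    HasDerivAt (fun t : ℝ => ω fun s => H s * cp (ξ + t • A0 v) φ s)
      (2 * π * ∑ x ∈ D, v x * ω fun s => H s * Jz x s * cp (ξ + t • A0 v) (φ + π / 2) s) t := by
  rw [← h.ex_prA0 hv hn hD hH (ins_cp (chq_line hξ (chq_A0 hv hn) t) _)]
  exact h.hasDerivAt_A0 hH hξ hv hn φ t

theorem hasDerivAt_cp1 (hξ : Chq (bl c N) ξ q) (hη : Chq (bl c N) η 0) (φ t : ℝ) :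
    HasDerivAt (fun t : ℝ => ω (cp (ξ + t • η) φ))
      (2 * π * ω fun s => pr η s * cp (ξ + t • η) (φ + π / 2) s) t := by
  simpa only [one_mul] using h.hasDerivAt_cp (ins_const c N 1) hξ hη φ t

theorem hasDerivAt_J1 (hξ : Chq (bl c N) ξ q) {n : ℕ} {v : Pt → ℝ}
    (hv : Pot.Sup (bl c n) v) (hn : n + 1 ≤ N) {D : Finset Pt} (hD : Pot.Sup D v) (φ t : ℝ) :
    HasDerivAt (fun t : ℝ => ω (cp (ξ + t • A0 v) φ))
      (2 * π * ∑ x ∈ D, v x * ω fun s => Jz x s * cp (ξ + t • A0 v) (φ + π / 2) s) t := by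
  simpa only [one_mul] using h.hasDerivAt_J (ins_const c N 1) hξ hv hn hD φ t

/-- moving a charge by a neutral one -/
theorem abs_cp_sub (hH : Ins c N H) (hξ : Chq (bl c N) ξ q) (hη : Chq (bl c N) η q) (φ : ℝ) :
    |ω (fun s => H s * cp ξ φ s) - ω fun s => H s * cp η φ s| ≤
      2 * π * ω fun s => |H s * pr (ξ - η) s| := by
  have h0 : Chq (bl c N) (ξ - η) 0 := by simpa only [sub_self] using chq_sub hξ hη
  have a := ins_mul hH (ins_cp hξ φ)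
  have b := ins_mul hH (ins_cp hη φ)
  have d := ins_abs (ins_mul hH (ins_pr h0))
  rw [← h.ex_sub a b, ← h.ex_smul d.1]
  refine h.abs_ex_le_ex (ins_sub a b).1 (ins_smul d _) fun s => ?_
  rw [← mul_sub, abs_mul, abs_mul, mul_left_comm]
  exact mul_le_mul_of_nonneg_left (abs_cp_sub_le ξ η φ s) (abs_nonneg _)

end Rep

/-! ## invariant states -/

namespace Env
variable {p : Par} {Λ : Lat} {ω : (Cfg Pt → ℝ) → ℝ} {L N : ℕ} {c : Pt} {F G H : Cfg Pt → ℝ}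
  {ξ η : Pt → ℝ} {q : ℤ} (h : Env p Λ ω L N)
include h

theorem ok : Λ.Ok := h.mem.ok
theorem ex_add (hF : Ins c N F) (hG : Ins c N G) : ω (fun s => F s + G s) = ω F + ω G :=
  (h.amb c).elim fun _ hm => hm.ex_add hF hG
theorem ex_sub (hF : Ins c N F) (hG : Ins c N G) : ω (fun s => F s - G s) = ω F - ω G :=
  (h.amb c).elim fun _ hm => hm.ex_sub hF hG
theorem ex_smul (hF : DepG (bl c N) F) (a : ℝ) : ω (fun s => a * F s) = a * ω F :=
  (h.amb c).elim fun _ hm => hm.ex_smul hF a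
theorem ex_neg (hF : DepG (bl c N) F) : ω (fun s => -F s) = -ω F :=
  (h.amb c).elim fun _ hm => hm.ex_neg hF
theorem ex_const (a : ℝ) : ω (fun _ => a) = a := (h.amb 0).elim fun _ hm => hm.ex_const a
theorem ex_sum {ι : Type*} (T : Finset ι) {F : ι → Cfg Pt → ℝ} (hF : ∀ i ∈ T, Ins c N (F i)) :
    ω (fun s => ∑ i ∈ T, F i s) = ∑ i ∈ T, ω (F i) := (h.amb c).elim fun _ hm => hm.ex_sum T hF
theorem ex_sum_smul {ι : Type*} (T : Finset ι) (a : ι → ℝ) {F : ι → Cfg Pt → ℝ}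
    (hF : ∀ i ∈ T, Ins c N (F i)) : ω (fun s => ∑ i ∈ T, a i * F i s) = ∑ i ∈ T, a i * ω (F i) :=
  (h.amb c).elim fun _ hm => hm.ex_sum_smul T a hF
theorem ex_flip (hF : DepG (bl c N) F) : ω (fun s => F (-s)) = ω F :=
  (h.amb c).elim fun _ hm => hm.ex_flip hF
theorem ex_odd (hF : DepG (bl c N) F) (ho : OddF F) : ω F = 0 :=
  (h.amb c).elim fun _ hm => hm.ex_odd hF ho
theorem ex_mono (hF : Ins c N F) (hG : Ins c N G) (hle : ∀ s, F s ≤ G s) : ω F ≤ ω G :=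
  (h.amb c).elim fun _ hm => hm.ex_mono hF hG hle
theorem ex_nonneg (hF : DepG (bl c N) F) (h0 : ∀ s, 0 ≤ F s) : 0 ≤ ω F :=
  (h.amb c).elim fun _ hm => hm.ex_nonneg hF h0
theorem abs_ex_le (hF : DepG (bl c N) F) {B : ℝ} (hB : ∀ s, |F s| ≤ B) : |ω F| ≤ B :=
  (h.amb c).elim fun _ hm => hm.abs_ex_le hF hB
theorem abs_ex_le_abs (hF : Ins c N F) : |ω F| ≤ ω fun s => |F s| :=
  (h.amb c).elim fun _ hm => hm.abs_ex_le_abs hF
theorem abs_ex_le_ex (hF : DepG (bl c N) F) (hG : Ins c N G) (hle : ∀ s, |F s| ≤ G s) :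
    |ω F| ≤ ω G := (h.amb c).elim fun _ hm => hm.abs_ex_le_ex hF hG hle
theorem abs_ex_mul_le (hF : Ins c N F) (hG : Ins c N G) :
    |ω fun s => F s * G s| ≤ √(ω fun s => F s ^ 2) * √(ω fun s => G s ^ 2) :=
  (h.amb c).elim fun _ hm => hm.abs_ex_mul_le hF hG
theorem ex_abs_le (hF : Ins c N F) : ω (fun s => |F s|) ≤ √(ω fun s => F s ^ 2) :=
  (h.amb c).elim fun _ hm => hm.ex_abs_le hF
theorem ex_even_cp (hH : Ins c N H) (he : EvenF H) (hξ : Chq (bl c N) ξ q) (φ : ℝ) :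
    ω (fun s => H s * cp ξ φ s) = cos φ * ω fun s => H s * cp ξ 0 s :=
  (h.amb c).elim fun _ hm => hm.ex_even_cp hH he hξ φ
theorem ex_odd_cp (hH : Ins c N H) (ho : OddF H) (hξ : Chq (bl c N) ξ q) (φ : ℝ) :
    ω (fun s => H s * cp ξ φ s) = sin φ * ω fun s => H s * cp ξ (π / 2) s :=
  (h.amb c).elim fun _ hm => hm.ex_odd_cp hH ho hξ φ
theorem ex_cp (hξ : Chq (bl c N) ξ q) (φ : ℝ) : ω (cp ξ φ) = cos φ * ω (cp ξ 0) :=
  (h.amb c).elim fun _ hm => hm.ex_cp hξ φ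
theorem ex_cp_pos (hξ : Chq (bl c N) ξ q) : 0 < ω (cp ξ 0) :=
  (h.amb c).elim fun _ hm => hm.ex_cp_pos hξ
theorem abs_ex_cp_le (hξ : Chq (bl c N) ξ q) (φ : ℝ) : |ω (cp ξ φ)| ≤ ω (cp ξ 0) :=
  (h.amb c).elim fun _ hm => hm.abs_ex_cp_le hξ φ
theorem ex_cp_le_one (hξ : Chq (bl c N) ξ q) (φ : ℝ) : |ω (cp ξ φ)| ≤ 1 :=
  (h.amb c).elim fun _ hm => hm.ex_cp_le_one hξ φ
theorem ex_cp_par {q' : ℤ} (hξ : Chq (bl c N) ξ q) (hη : Chq (bl c N) η q') :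
    ω (cp ξ 0) ^ 2 * ω (cp η 0) ^ 2 ≤ ω (cp (ξ + η) 0) * ω (cp (ξ - η) 0) :=
  (h.amb c).elim fun _ hm => hm.ex_cp_par hξ hη
theorem ex_cp_ge (hξ : Chq (bl c N) ξ 0) :
    exp (-2 * π ^ 2 * ω fun s => pr ξ s ^ 2) ≤ ω (cp ξ 0) :=
  (h.amb c).elim fun _ hm => hm.ex_cp_ge hξ
theorem ex_prA0 {n : ℕ} {v : Pt → ℝ} (hv : Pot.Sup (bl c n) v) (hn : n + 1 ≤ N) {D : Finset Pt}
    (hD : Pot.Sup D v) (hF : Ins c N F) (hG : Ins c N G) :
    ω (fun s => F s * pr (A0 v) s * G s) = ∑ x ∈ D, v x * ω fun s => F s * Jz x s * G s :=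
  (h.amb c).elim fun _ hm => hm.ex_prA0 hv hn hD hF hG
theorem hasDerivAt_cp (hH : Ins c N H) (hξ : Chq (bl c N) ξ q) (hη : Chq (bl c N) η 0) (φ t : ℝ) :
    HasDerivAt (fun t : ℝ => ω fun s => H s * cp (ξ + t • η) φ s)
      (2 * π * ω fun s => H s * pr η s * cp (ξ + t • η) (φ + π / 2) s) t :=
  (h.amb c).elim fun _ hm => hm.hasDerivAt_cp hH hξ hη φ t
theorem hasDerivAt_A0 (hH : Ins c N H) (hξ : Chq (bl c N) ξ q) {n : ℕ} {v : Pt → ℝ}
    (hv : Pot.Sup (bl c n) v) (hn : n + 1 ≤ N) (φ t : ℝ) :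
    HasDerivAt (fun t : ℝ => ω fun s => H s * cp (ξ + t • A0 v) φ s)
      (2 * π * ω fun s => H s * pr (A0 v) s * cp (ξ + t • A0 v) (φ + π / 2) s) t :=
  (h.amb c).elim fun _ hm => hm.hasDerivAt_A0 hH hξ hv hn φ t
theorem hasDerivAt_J (hH : Ins c N H) (hξ : Chq (bl c N) ξ q) {n : ℕ} {v : Pt → ℝ}
    (hv : Pot.Sup (bl c n) v) (hn : n + 1 ≤ N) {D : Finset Pt} (hD : Pot.Sup D v) (φ t : ℝ) :
    HasDerivAt (fun t : ℝ => ω fun s => H s * cp (ξ + t • A0 v) φ s)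
      (2 * π * ∑ x ∈ D, v x * ω fun s => H s * Jz x s * cp (ξ + t • A0 v) (φ + π / 2) s) t :=
  (h.amb c).elim fun _ hm => hm.hasDerivAt_J hH hξ hv hn hD φ t
theorem hasDerivAt_cp1 (hξ : Chq (bl c N) ξ q) (hη : Chq (bl c N) η 0) (φ t : ℝ) :
    HasDerivAt (fun t : ℝ => ω (cp (ξ + t • η) φ))
      (2 * π * ω fun s => pr η s * cp (ξ + t • η) (φ + π / 2) s) t :=
  (h.amb c).elim fun _ hm => hm.hasDerivAt_cp1 hξ hη φ t
theorem hasDerivAt_J1 (hξ : Chq (bl c N) ξ q) {n : ℕ} {v : Pt → ℝ}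
    (hv : Pot.Sup (bl c n) v) (hn : n + 1 ≤ N) {D : Finset Pt} (hD : Pot.Sup D v) (φ t : ℝ) :
    HasDerivAt (fun t : ℝ => ω (cp (ξ + t • A0 v) φ))
      (2 * π * ∑ x ∈ D, v x * ω fun s => Jz x s * cp (ξ + t • A0 v) (φ + π / 2) s) t :=
  (h.amb c).elim fun _ hm => hm.hasDerivAt_J1 hξ hv hn hD φ t
theorem abs_cp_sub (hH : Ins c N H) (hξ : Chq (bl c N) ξ q) (hη : Chq (bl c N) η q) (φ : ℝ) :
    |ω (fun s => H s * cp ξ φ s) - ω fun s => H s * cp η φ s| ≤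
      2 * π * ω fun s => |H s * pr (ξ - η) s| :=
  (h.amb c).elim fun _ hm => hm.abs_cp_sub hH hξ hη φ

/-- translation of a charge -/
theorem ex_cp_trl (hξ : Chq (bl c N) ξ q) (z : Pt) (φ : ℝ) :
    ω (cp (fun y => ξ (y - z)) φ) = ω (cp ξ φ) := by
  rw [← trl_cp, h.trl c z _ (depG_cp hξ φ)]

/-- the two-point function of the current -/
theorem ex_JJ {z x : Pt} (hx : x - z ∈ bl 0 (N - 1)) (hN : 1 ≤ N) :
    ω (fun s => Jz z s * Jz x s) = KK ω (x - z) := by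
  have a : Ins 0 N fun s => Jz 0 s * Jz (x - z) s :=
    ins_mul (ins_J (bl_mono 0 hN)) (ins_J' hx (by omega))
  have b := h.trl 0 z _ a.1
  rw [trl_mul, Om.trl_Jz, Om.trl_Jz, zero_add, sub_add_cancel] at b
  exact b

theorem KK_swap {x : Pt} (hx : x ∈ bl 0 (N - 1)) (hN : 1 ≤ N) : KK ω x.swap = KK ω x := by
  have hx' : x.swap ∈ bl 0 (N - 1) := by
    simp only [mem_bl, Prod.fst_swap, Prod.snd_swap, Prod.fst_zero, Prod.snd_zero] at hx ⊢; omega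
  rw [KK, ← (h.d4 _ (ins_mul (ins_J (bl_mono 0 hN)) (ins_J' hx' (by omega))).1).2, KK]
  have e : x.swap = swpZ 0 x := by ext <;> simp [swpZ]
  simp only [e, Om.Jz_swp, (Om.d4_Jz 0 _).2]

theorem KK_rot {x : Pt} (hx : x ∈ bl 0 (N - 1)) (hN : 1 ≤ N) : KK ω (-x.2, x.1) = KK ω x := by
  have hx' : ((-x.2, x.1) : Pt) ∈ bl 0 (N - 1) := by
    simp only [mem_bl, Prod.fst_zero, Prod.snd_zero] at hx ⊢; omega
  rw [KK, ← (h.d4 _ (ins_mul (ins_J (bl_mono 0 hN)) (ins_J' hx' (by omega))).1).1, KK]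
  have e : ((-x.2, x.1) : Pt) = rotZ 0 x := by ext <;> simp [rotZ]
  simp only [e, Om.Jz_rot, (Om.d4_Jz 0 _).1]

theorem KK_neg_fst {x : Pt} (hx : x ∈ bl 0 (N - 1)) (hN : 1 ≤ N) : KK ω (-x.1, x.2) = KK ω x := by
  have hx' : x.swap ∈ bl 0 (N - 1) := by
    simp only [mem_bl, Prod.fst_swap, Prod.snd_swap, Prod.fst_zero, Prod.snd_zero] at hx ⊢; omega
  have := h.KK_rot hx' hN
  rw [Prod.snd_swap, Prod.fst_swap] at this
  rw [this, h.KK_swap hx hN]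

theorem KK_neg {x : Pt} (hx : x ∈ bl 0 (N - 1)) (hN : 1 ≤ N) : KK ω (-x) = KK ω x := by
  have hx' : ((-x.2, x.1) : Pt) ∈ bl 0 (N - 1) := by
    simp only [mem_bl, Prod.fst_zero, Prod.snd_zero] at hx ⊢; omega
  have := h.KK_rot hx' hN
  rw [h.KK_rot hx hN] at this
  exact this

theorem ell_sub {R : ℝ} (hR : 0 < R) (hN : 2 * R ≤ N) (hF : Ins 0 N F) (hG : Ins 0 N G) (a : ℝ) :
    ell ω R (fun s => F s - a * G s) = ell ω R F - a * ell ω R G := by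
  have b := ins_mul hF (ins_Sn hR hN)
  have d := ins_mul hG (ins_Sn hR hN)
  simp only [ell, sub_mul, mul_assoc]
  rw [h.ex_sub b (ins_smul d a), h.ex_smul d.1]

theorem ell_add {R : ℝ} (hR : 0 < R) (hN : 2 * R ≤ N) (hF : Ins 0 N F) (hG : Ins 0 N G) :
    ell ω R (fun s => F s + G s) = ell ω R F + ell ω R G := by
  simp only [ell, add_mul]
  rw [h.ex_add (ins_mul hF (ins_Sn hR hN)) (ins_mul hG (ins_Sn hR hN))]

theorem ell_smul {R : ℝ} (hR : 0 < R) (hN : 2 * R ≤ N) (hF : Ins 0 N F) (a : ℝ) :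
    ell ω R (fun s => a * F s) = a * ell ω R F := by
  simp only [ell, mul_assoc]
  rw [h.ex_smul (ins_mul hF (ins_Sn hR hN)).1]

omit h in
theorem ell_eq (ω : (Cfg Pt → ℝ) → ℝ) (R : ℝ) (F : Cfg Pt → ℝ) :
    ell ω R F = ω fun s => F s * cp (xi R) (-(π / 2)) s := by rw [← Sn_eq, ell]

/-- an odd insertion against the charge `ξ_R` with any phase -/
theorem ex_odd_xi {R : ℝ} (hR : 0 < R) (hN : 2 * R ≤ N) (hF : Ins 0 N F) (ho : OddF F) (φ : ℝ) :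
    ω (fun s => F s * cp (xi R) φ s) = -sin φ * ell ω R F := by
  rw [ell_eq, h.ex_odd_cp hF ho (chq_xi hR hN) φ, h.ex_odd_cp hF ho (chq_xi hR hN) (-(π / 2)), sin_neg,
    sin_pi_div_two]
  ring

theorem ex_J (hN : 1 ≤ N) (z : Pt) : ω (Jz z) = 0 :=
  h.ex_odd (c := z) (ins_J (bl_mono z hN)).1 (Om.odd_Jz z)

end Env

end Crest.Agent.T145.Fl
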