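import Crest.Agent.T145.FlLj_36
import Crest.Agent.T145.FlEnv_30

/-!
# Row 145, even sector: the local expansion for an even insertion (helper60)
-/

set_option autoImplicit false

namespace Crest.Agent.T145.Ev

open Finset Pot Xi Real Fl

/-- LE: sweeping the charge off an even insertion (no contact term); sharp and crude form -/
def LeStmt : Prop := ∀ p : Par, ∃ C : ℝ, 0 ≤ C ∧ ∀ Λ ω L N, Env p Λ ω L N →
  ∀ (E : Cfg Pt → ℝ) (a₀ : ℕ) (R A P₀ M : ℝ), p.r₀ ≤ a₀ → Ins 0 a₀ E → EvenF E → 0 < R → 0 ≤ A →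
    Prof Λ p.w a₀ L 0 E R A → 0 ≤ P₀ → (∀ c, a₀ ≤ c → Nc.Nm Λ 0 c (fun s => E s ^ 2) ≤ P₀ ^ 2) → 1 ≤ M →
  ∀ (c : Pt) (ι : Type) (I : Finset ι) (x : ι → Pt) (rr : ι → ℕ) (H : ι → Cfg Pt → ℝ) (z : Pt) (r : ℕ)
    (σ φ : ℝ) (ξ u : Pt → ℝ) (q : ℤ), Far p L (bl c N) I x rr H →
    (∀ i ∈ I, ∀ y ∈ bl (x i) (rr i), ξ y = 0) → Chq (bl c N) ξ q → p.w * r ≤ L →
    bl z (p.w * r) ⊆ bl c N → (∀ i ∈ I, Disjoint (bl (x i) (p.w * rr i)) (bl z (p.w * r))) →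
    Lr ξ u z r σ → R / M ≤ r → (r : ℝ) ≤ M * R →
    (∀ ρ : ℝ, 8 * (p.w : ℝ) ^ 2 * a₀ ≤ ρ → 600 * ρ ≤ r →
      |ω (fun s => (∏ i ∈ I, H i s) * trl z E s * cp ξ φ s) -
        ω (fun s => (∏ i ∈ I, H i s) * trl z E s * cp (ξ - A0 (sw u z ρ)) φ s)| ≤
        C * (∏ i ∈ I, nu Λ p.w (x i) (rr i) (H i)) * (σ * (1 + σ)) *
          (A * M ^ ew p.w * (ρ / r) ^ (cw p.w / 4) / (r : ℝ) ^ 2 +
            P₀ * ((a₀ : ℝ) / r) ^ (2 + cw p.w / 2))) ∧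
    (4800 * (p.w : ℝ) ^ 2 * a₀ ≤ r →
      |ω fun s => (∏ i ∈ I, H i s) * trl z E s * cp ξ φ s| ≤
        C * (∏ i ∈ I, nu Λ p.w (x i) (rr i) (H i)) * (1 + σ) ^ 2 *
          (A * M ^ ew p.w / (r : ℝ) ^ 2 + P₀ * ((a₀ : ℝ) / r) ^ (2 + cw p.w / 2)))

namespace Le60
open Lj36

/-- change of the reference scale of a profile -/
theorem prof_rescale {Λ : Lat} {w a₀ L : ℕ} {z : Pt} {E : Cfg Pt → ℝ} {R A M r : ℝ} (hw : 4 ≤ w)
    (h : Prof Λ w a₀ L z E R A) (hR : 0 < R) (hA : 0 ≤ A) (hM : 1 ≤ M) (h1 : R / M ≤ r) (h2 : r ≤ M * R) :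
    Prof Λ w a₀ L z E r (A * M ^ ew w) := fun a ha hL => by
  have he := ew_pos hw
  have hM0 : 0 < M := by linarith
  have hr0 : 0 < r := (div_pos hR hM0).trans_le h1
  refine (h a ha hL).trans ?_
  have ha0 : (0 : ℝ) ≤ a := Nat.cast_nonneg a
  have h3 : max ((a : ℝ) / R) (R / a) ≤ M * max ((a : ℝ) / r) (r / a) := by
    refine max_le ?_ ?_
    · refine le_trans ?_ (mul_le_mul_of_nonneg_left (le_max_left _ _) hM0.le)
      rw [← mul_div_assoc, div_le_div_iff₀ hR hr0]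
      nlinarith
    · refine le_trans ?_ (mul_le_mul_of_nonneg_left (le_max_right _ _) hM0.le)
      rw [← mul_div_assoc]
      rw [div_le_iff₀ hM0] at h1
      gcongr
      linarith
  have h4 : (0 : ℝ) ≤ max ((a : ℝ) / r) (r / a) := le_max_of_le_left (by positivity)
  calc A * max ((a : ℝ) / R) (R / a) ^ ew w ≤ A * (M * max ((a : ℝ) / r) (r / a)) ^ ew w := by
        gcongr
    _ = _ := by rw [mul_rpow hM0.le h4, mul_assoc]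

variable {p : Par} {Λ : Lat} {L : ℕ}

theorem nu_trl (hS : SemiStmt) (h : Gs p Λ L) {E : Cfg Pt → ℝ} {a₀ a : ℕ} (h0 : p.r₀ ≤ a₀)
    (hE : Ins 0 a₀ E) (ha : a₀ ≤ a) (z : Pt) : nu Λ p.w z a (trl z E) = nu Λ p.w 0 a E :=
  ((hS Λ p.w a z h.mem.ok (gs_le h (h0.trans ha))).2 E (E30.ins_le hE ha)).2.1

theorem prof_trl (hS : SemiStmt) (h : Gs p Λ L) {E : Cfg Pt → ℝ} {a₀ : ℕ} {R A : ℝ} (h0 : p.r₀ ≤ a₀)
    (hE : Ins 0 a₀ E) (hP : Prof Λ p.w a₀ L 0 E R A) (z : Pt) : Prof Λ p.w a₀ L z (trl z E) R A :=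
  fun a ha hL => by rw [nu_trl hS h h0 hE ha]; exact hP a ha hL

/-- the swept charge -/
theorem swept (hW : SwStmt) {U : Finset Pt} {ξ u : Pt → ℝ} {z : Pt} {r : ℕ} {σ ρ : ℝ} {q : ℤ}
    (hq : Chq U ξ q) (hU : bl z r ⊆ U) (hL : Lr ξ u z r σ) (h1 : 1 ≤ ρ) (h2 : 4 * ρ ≤ r) :
    Chq U (ξ - A0 (sw u z ρ)) q ∧ Chq (bl z r) (A0 (sw u z ρ)) 0 ∧
      ∀ k : ℕ, (k : ℝ) + 1 ≤ ρ → ∀ y ∈ bl z k, (ξ - A0 (sw u z ρ)) y = 0 := by
  obtain ⟨C, -, hW⟩ := hW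
  have hn2 : ⌈2 * ρ⌉₊ + 1 ≤ r := by
    have := Nat.ceil_lt_add_one (show 0 ≤ 2 * ρ by linarith)
    exact_mod_cast (show ((⌈2 * ρ⌉₊ : ℝ) + 1) ≤ r by linarith)
  obtain ⟨h3, -, h4⟩ := (hW ξ u z r σ hL (by omega)).2.2 ρ _ h1 (Nat.le_ceil _) hn2
  exact ⟨chq_sub hq h3 ((bl_mono z hn2).trans hU), E30.chq_A0 h3 hn2, h4⟩

end Le60
open Le60 Lj36

set_option maxHeartbeats 800000 in
theorem leStmt (hS : SemiStmt) (hP : ProdStmt) (hL : LocStmt) (hW : SwStmt) : LeStmt := by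
  intro p
  obtain ⟨CL, hCL, hL⟩ := hL p
  obtain ⟨CS, hCS, hW'⟩ := id hW
  obtain ⟨D, hD0, hD⟩ : ∃ D : ℝ, 0 ≤ D ∧ D = 32 * (1200 ^ 2 * 1200 ^ ew p.w) := ⟨_, by positivity, rfl⟩
  obtain ⟨C, hC0, hC⟩ : ∃ C : ℝ, 0 ≤ C ∧ C = CL * (CS * (1 + CS)) := ⟨_, by positivity, rfl⟩
  refine ⟨C + D, by positivity, ?_⟩
  intro Λ ω L N hE E a₀ R A P₀ M h0 hI hev hR hA hPr hP₀ hN hM c ι I x rr H z r σ φ ξ u q hF hξ hq hrL hz
    hd hLr hr1 hr2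
  have hG : Gs p Λ L := hE.toGs
  have hw := hG.w4
  have he := ew_pos hw
  have hc := cw_pos hw
  have hw' : (4 : ℝ) ≤ p.w := by exact_mod_cast hw
  have h2' : (2 : ℝ) ≤ a₀ := by exact_mod_cast (gs_two hG).trans h0
  have h16 : 16 * (a₀ : ℝ) ≤ (p.w : ℝ) ^ 2 * a₀ := by gcongr; nlinarith
  have hσ : 0 ≤ σ := hLr.1
  have hPz := prof_trl hS hG h0 hI (prof_rescale hw hPr hR hA hM hr1 hr2) z
  have hY : 0 ≤ A * M ^ ew p.w := by positivity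
  generalize A * M ^ ew p.w = Y at *
  obtain ⟨m, hm⟩ := hE.amb c
  have hrw : bl z r ⊆ bl z (p.w * r) := bl_mono z (le_wmul hG r)
  have hH := depG_prod hG hF
  have hPi := prod_nonneg hS hG hF
  have hIz := E30.ins_trl hI z
  have sharp : ∀ ρ : ℝ, 8 * (p.w : ℝ) ^ 2 * a₀ ≤ ρ → 600 * ρ ≤ r →
      |ω (fun s => (∏ i ∈ I, H i s) * trl z E s * cp ξ φ s) -
        ω (fun s => (∏ i ∈ I, H i s) * trl z E s * cp (ξ - A0 (sw u z ρ)) φ s)| ≤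
        C * (∏ i ∈ I, nu Λ p.w (x i) (rr i) (H i)) * (σ * (1 + σ)) *
          (Y * (ρ / r) ^ (cw p.w / 4) / (r : ℝ) ^ 2 + P₀ * ((a₀ : ℝ) / r) ^ (2 + cw p.w / 2)) := by
    intro ρ hρ hρr
    have har : a₀ ≤ r := by exact_mod_cast (show (a₀ : ℝ) ≤ r by linarith)
    obtain ⟨hQ, hξu, -⟩ := hW' ξ u z r σ hLr (by exact_mod_cast (show (1 : ℝ) ≤ r by linarith))
    obtain ⟨hq', hq0, -⟩ := swept hW hq (hrw.trans hz) hLr (ρ := ρ) (by linarith) (by linarith)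
    have hJ : DepG (bl c N) (trl z E) := hIz.1.mono ((bl_mono z har).trans (hrw.trans hz))
    have hX : DepG (bl c N) fun s => trl z E s * pr (A0 (sw u z ρ)) s :=
      hJ.mul ((E30.depG_pr hq0).mono (hrw.trans hz))
    have hloc := hL Λ L hG m (bl c N) ι I x rr H z r a₀ ρ (CS * σ) Y P₀ φ (trl z E) ξ
      (fun y => u y - aff u z y) hm.1 hF hξ hrL hz hd h0 hIz hY hPz hP₀ (Or.inl fun c' hc' =>
        (((hS Λ p.w a₀ z hG.mem.ok (gs_le hG h0)).2 _ (E30.ins_pow hI 2)).2.2 c' hc').trans_le (hN c' hc'))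
      (by positivity) hQ (fun y hy => (hξu y (bl_mono z (by omega) hy)).1) hρ hρr
    change |_ - Ex (m.W 0) (fun s => (∏ i ∈ I, H i s) * trl z E s * cp (ξ - A0 (sw u z ρ)) φ s) -
      2 * π * Ex (m.W 0) (fun s => trl z E s * pr (A0 (sw u z ρ)) s) * _| ≤ _ at hloc
    rw [← hm.2 _ hX, hm.ex_odd hX (E30.even_mul_odd (E30.even_trl hev z) (E30.odd_pr _)), mul_zero,
      zero_mul, sub_zero] at hloc
    rw [hm.2 _ ((hH.mul hJ).mul (depG_cp hq φ)), hm.2 _ ((hH.mul hJ).mul (depG_cp hq' φ))]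
    refine hloc.trans (mul_le_mul_of_nonneg_right ?_ (by
      have : 0 ≤ ρ := by linarith
      positivity))
    have : 1 + CS * σ ≤ (1 + CS) * (1 + σ) := by nlinarith [mul_nonneg hCS hσ]
    calc _ ≤ CL * (∏ i ∈ I, nu Λ p.w (x i) (rr i) (H i)) * (CS * σ * ((1 + CS) * (1 + σ))) := by gcongr
      _ = _ := by rw [hC]; ring
  refine ⟨fun ρ hρ hρr => (sharp ρ hρ hρr).trans (by
    have : 0 ≤ ρ := by linarith
    gcongr; linarith), fun hr => ?_⟩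
  have hr0 : (0 : ℝ) < r := by linarith
  have h := sharp (r / 600) (by linarith) (by linarith)
  obtain ⟨hq', hq0, hzero⟩ := swept hW hq (hrw.trans hz) hLr (ρ := r / 600) (by linarith) (by linarith)
  obtain ⟨k, hk1, hk2⟩ : ∃ k : ℕ, (k : ℝ) ≤ r / 600 - 1 ∧ (r : ℝ) / 600 - 1 < k + 1 :=
    ⟨_, Nat.floor_le (by linarith), Nat.lt_floor_add_one _⟩
  have hk3 : (r : ℝ) ≤ 1200 * k := by linarith
  have hk0 : (0 : ℝ) < k := by linarith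
  have hkr : k ≤ r := by exact_mod_cast (show (k : ℝ) ≤ r by linarith)
  have hk4 : a₀ ≤ k := by exact_mod_cast (show (a₀ : ℝ) ≤ k by linarith)
  have hk' : bl z (p.w * k) ⊆ bl z (p.w * r) := bl_mono z (Nat.mul_le_mul_left _ hkr)
  have hkL := (Nat.mul_le_mul_left p.w hkr).trans hrL
  have h3 := ((hP p Λ L hG m (bl c N) ι I x rr H (cp (ξ - A0 (sw u z (r / 600))) φ) hm.1 hF
    (fun i hi => out_cp (fun y hy => by
      rw [Pi.sub_apply, hξ i hi y hy, hq0.1 y fun h' =>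
        disjoint_left.1 (hd i hi) (bl_mono _ (le_wmul hG _) hy) (hrw h'), sub_zero]) _)
    (abs_cp_le _ _)).2 z k (h0.trans hk4) hkL (hk'.trans hz) fun i hi => (hd i hi).mono_right hk').2.1
    (trl z E) (E30.ins_le hIz hk4) (out_cp (hzero k (by linarith)) _)
  rw [← hm.2 _ ((hH.mul (hIz.1.mono ((bl_mono z (hk4.trans hkr)).trans (hrw.trans hz)))).mul
    (depG_cp hq' φ))] at h3
  have h5 : nu Λ p.w z k (trl z E) ≤ 1200 ^ 2 * 1200 ^ ew p.w * (Y / (r : ℝ) ^ 2) := by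
    have h6 : max ((k : ℝ) / r) (r / k) ≤ 1200 :=
      max_le (by rw [div_le_iff₀ hr0]; linarith) (by rw [div_le_iff₀ hk0]; linarith)
    have h7 : (k : ℝ) ^ 2 * nu Λ p.w z k (trl z E) ≤ Y * 1200 ^ ew p.w :=
      (hPz k hk4 hkL).trans (by gcongr)
    rw [← le_div_iff₀' (by positivity)] at h7
    refine h7.trans ?_
    rw [← mul_div_assoc, div_le_div_iff₀ (by positivity) (by positivity)]
    calc Y * 1200 ^ ew p.w * (r : ℝ) ^ 2 ≤ Y * 1200 ^ ew p.w * (1200 * k) ^ 2 := by gcongr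
      _ = _ := by ring
  generalize ∏ i ∈ I, nu Λ p.w (x i) (rr i) (H i) = PP at *
  have ht : ((r : ℝ) / 600 / r) ^ (cw p.w / 4) ≤ 1 :=
    rpow_le_one (by positivity) (by rw [div_le_one hr0]; linarith) (by positivity)
  have hB : 0 ≤ P₀ * ((a₀ : ℝ) / r) ^ (2 + cw p.w / 2) := by positivity
  generalize P₀ * ((a₀ : ℝ) / r) ^ (2 + cw p.w / 2) = B at *
  have hs1 : σ * (1 + σ) ≤ (1 + σ) ^ 2 := by nlinarith
  have hs2 : 1 ≤ (1 + σ) ^ 2 := by nlinarith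
  have h8 : Y * ((r : ℝ) / 600 / r) ^ (cw p.w / 4) / (r : ℝ) ^ 2 ≤ Y / (r : ℝ) ^ 2 := by
    gcongr; exact mul_le_of_le_one_right hY ht
  have h9 : 0 ≤ Y / (r : ℝ) ^ 2 := by positivity
  generalize Y / (r : ℝ) ^ 2 = Z at *
  have h10 := h.trans (show _ ≤ C * PP * (1 + σ) ^ 2 * (Z + B) by gcongr)
  have h11 := h3.trans (show _ ≤ D * PP * (1 + σ) ^ 2 * (Z + B) from
    calc _ ≤ 32 * PP * (1200 ^ 2 * 1200 ^ ew p.w * Z) := by gcongr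
      _ = D * PP * 1 * Z := by rw [hD]; ring
      _ ≤ _ := by gcongr; exact le_add_of_nonneg_right hB)
  linarith only [h10, h11, abs_sub_abs_le_abs_sub (ω fun s => (∏ i ∈ I, H i s) * trl z E s * cp ξ φ s)
    (ω fun s => (∏ i ∈ I, H i s) * trl z E s * cp (ξ - A0 (sw u z (r / 600))) φ s)]

end Crest.Agent.T145.Ev
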