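import Crest.Agent.T145.EvDef_2

/-!
# Row 145, even sector: numerics of `cw`, `ew`, `nr` and of the small parameter `t` (helper3)
-/

set_option autoImplicit false

namespace Crest.Agent.T145.Ev.N3

open Real Fl

variable {w : ℕ}

theorem log_ge (hw : 4 ≤ w) : 10 * log 2 ≤ log (4 * (w : ℝ) ^ 4) := by
  have h : (4 : ℝ) ≤ w := by exact_mod_cast hw
  have h2 : (4 : ℝ) ^ 4 ≤ (w : ℝ) ^ 4 := pow_le_pow_left₀ (by norm_num) h 4
  rw [show (10 : ℝ) * log 2 = log (2 ^ 10) by rw [log_pow]; norm_num]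
  exact log_le_log (by norm_num) (by linarith)

theorem cw_pos (hw : 4 ≤ w) : 0 < cw w :=
  div_pos (log_pos one_lt_two) (by linarith [log_ge hw, log_pos one_lt_two])

theorem cw_le (hw : 4 ≤ w) : cw w ≤ 1 / 10 := by
  rw [cw, div_le_iff₀ (by linarith [log_ge hw, log_pos one_lt_two])]; linarith [log_ge hw]

theorem ew_pos (hw : 4 ≤ w) : 0 < ew w := div_pos (cw_pos hw) (by norm_num)

theorem ew_le (hw : 4 ≤ w) : ew w ≤ 1 / 1000 := by rw [ew]; linarith [cw_le hw]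

theorem nr_cw (hw : 4 ≤ w) : 104 ≤ ((nr w : ℝ) - 2) * cw w := by
  have h := Nat.le_ceil (104 / cw w)
  rw [div_le_iff₀ (cw_pos hw)] at h
  rw [nr]; push_cast; linarith

/-- `(nr w - 1) cw w / 4 ≥ 26` -/
theorem nr_cw' (hw : 4 ≤ w) : 26 ≤ ((nr w : ℝ) - 1) * cw w / 4 := by
  nlinarith [nr_cw hw, cw_pos hw]

theorem nr_ge' (hw : 4 ≤ w) : (1042 : ℝ) ≤ nr w := by nlinarith [nr_cw hw, cw_pos hw, cw_le hw]

theorem nr_ge (hw : 4 ≤ w) : 1042 ≤ nr w := by exact_mod_cast nr_ge' hw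

theorem nr_cw_le (hw : 4 ≤ w) : (nr w : ℝ) * cw w ≤ 105 := by
  have h := (Nat.ceil_lt_add_one (div_pos (show (0 : ℝ) < 104 by norm_num) (cw_pos hw)).le).le
  have h2 := mul_le_mul_of_nonneg_right h (cw_pos hw).le
  rw [add_mul, div_mul_cancel₀ _ (cw_pos hw).ne'] at h2
  rw [nr]; push_cast; linarith [cw_le hw]

theorem nr_ew_le (hw : 4 ≤ w) : (nr w : ℝ) * ew w ≤ 21 / 20 := by
  rw [ew]; linarith [nr_cw_le hw]

section t
variable {C t : ℝ}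

theorem t_le_one (hC : 1 ≤ C) (ht : 0 < t) (h : C * t ≤ 1) : t ≤ 1 := by nlinarith

/-- `A t ^ k ≤ 1` for `A ≤ C`, `k ≠ 0` -/
theorem mul_pow_le (hC : 1 ≤ C) (ht : 0 < t) (h : C * t ≤ 1) {A : ℝ} (hA : A ≤ C) {k : ℕ}
    (hk : k ≠ 0) : A * t ^ k ≤ 1 :=
  (mul_le_mul_of_nonneg_right hA (by positivity)).trans ((mul_le_mul_of_nonneg_left
    (pow_le_of_le_one ht.le (t_le_one hC ht h) hk) (by linarith)).trans h)

theorem pow_anti (ht : 0 < t) (h1 : t ≤ 1) {k l : ℕ} (h : k ≤ l) : t ^ l ≤ t ^ k :=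
  pow_le_pow_of_le_one ht.le h1 h

/-- `(t⁻¹ ^ k) ^ n * t ^ (k n + j) = t ^ j` -/
theorem inv_pow_mul (ht : 0 < t) (k n j : ℕ) : (t⁻¹ ^ k) ^ n * t ^ (k * n + j) = t ^ j := by
  rw [← pow_mul, pow_add, ← mul_assoc, ← mul_pow, inv_mul_cancel₀ ht.ne', one_pow, one_mul]

variable {p : Par} {Λ : Lat} {L n : ℕ} {R Y : ℝ}

/-- the scale is large: `R ≥ t ^ (-1000 n)` -/
theorem one_le_R (hw : 4 ≤ p.w) (hM : Maj p Λ L R Y) (ht : 0 < t) (h1 : t ≤ 1) (hY : Y ≤ t ^ n)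
    {k : ℕ} (hk : k ≤ 1000 * n) : 1 ≤ R * t ^ k := by
  have R0 : 0 < R := by linarith [hM.1]
  have a : R ^ (-(1 / 1000 : ℝ)) ≤ t ^ n :=
    (rpow_le_rpow_of_exponent_le hM.1 (by linarith [ew_le hw])).trans (hM.2.1.trans hY)
  have b := pow_le_pow_left₀ (by positivity) a 1000
  rw [← rpow_natCast, ← rpow_mul R0.le, ← pow_mul] at b
  norm_num at b
  rw [rpow_neg_one, inv_le_iff_one_le_mul₀' R0] at b
  exact b.trans (mul_le_mul_of_nonneg_left (pow_anti ht h1 (by omega)) R0.le)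

/-- `r₁ ≤ R t ^ k` -/
theorem r1_le (hw : 4 ≤ p.w) (hM : Maj p Λ L R Y) (ht : 0 < t) (h1 : t ≤ 1) (hY : Y ≤ t ^ n)
    {r : ℝ} (hr : r ^ 100 ≤ R) {k : ℕ} (hk : k ≤ 500 * n) : r ≤ R * t ^ k := by
  have R0 : 0 < R := by linarith [hM.1]
  have a := one_le_pow₀ (n := 50) (one_le_R hw hM ht h1 hY (k := 2 * k) (by omega))
  have b := one_le_pow₀ (n := 49) hM.1
  refine le_of_pow_le_pow_left₀ (n := 100) (by norm_num) (by positivity) (hr.trans ?_)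
  calc R = R * (1 * 1) := by ring
    _ ≤ R * ((R * t ^ (2 * k)) ^ 50 * R ^ 49) := by gcongr
    _ = _ := by ring

end t

/-- the largest `m` with `W ^ m * a ≤ X` -/
theorem exists_pow {W a : ℕ} (hW : 2 ≤ W) (ha : 1 ≤ a) {X : ℝ} (h : (a : ℝ) ≤ X) :
    ∃ m : ℕ, ((W ^ m * a : ℕ) : ℝ) ≤ X ∧ X < (W ^ (m + 1) * a : ℕ) := by
  have a0 : (0 : ℝ) < a := by exact_mod_cast ha
  obtain ⟨m, h1, h2⟩ := exists_nat_pow_near (x := X / a) (y := (W : ℝ)) ((one_le_div a0).2 h)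
    (by exact_mod_cast hW)
  refine ⟨m, ?_, ?_⟩ <;> push_cast
  · exact (le_div_iff₀ a0).1 h1
  · exact (div_lt_iff₀ a0).1 h2

end Crest.Agent.T145.Ev.N3
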