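import Crest.Agent.T145.EvS2_48
import Crest.Agent.T145.EvS1A_55
import Crest.Agent.T145.EvOut_9

/-!
# Row 145, even sector: `Ev.S1Stmt` (helper48, on the terms of helper55 and the outer sum of helper9)
-/

set_option autoImplicit false

namespace Crest.Agent.T145.Ev

open Finset Pot Xi Real Fl Lj36 S48

namespace S48

set_option maxHeartbeats 1600000 in
/-- one active site -/
theorem site (hS : SemiStmt) (hN : LocNStmt) (hH : HfStmt) (hW : SwStmt) (h1 : X1Stmt) (h2 : X2Stmt)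
    (hD : DetStmt) (hB : BasStmt) (hT : TgStmt) (p : Par) : ∃ (C : ℝ) (n : ℕ), 2 ≤ C ∧
    ∀ (E : Dt) (W : ℕ) (D₀ R Y P t : ℝ), E.Bs p W D₀ R Y P → 0 < t → C * t ≤ 1 → Y ≤ t ^ n →
    R ≤ t ^ n * E.L → ∀ a₁ a₂ α₁ α₂, E.Dc p R P t a₁ a₂ α₁ α₂ → ∀ u u', Sv R t⁻¹ u → Sv R t⁻¹ u' →
    ∀ z ∈ bl 0 (3 * p.w * (⌊t⁻¹ * R⌋₊ + 1)), (∀ y ∈ bl z ⌈R * t⌉₊, A0 u' y = 0) →
      |E.ω (fun s => X u s * X u' s * E.e z s) + E.bb R a₁ α₁ * gr u u' z| ≤ P * t ^ 14 / R ^ 2 := by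
  obtain ⟨C₁, n₁, c1, h1⟩ := xp_t h1 p (k := 50 * nr p.w) (by simp [nr])
  obtain ⟨C₂, n₂, c2, h2⟩ := xp_t h2 p (k := 50 * nr p.w) (by simp [nr])
  obtain ⟨CA, cA, tA⟩ := S55.termA hN hH hW p
  obtain ⟨CB, cB, tB⟩ := S55.termB hH p
  obtain ⟨K, k1, swp⟩ := swp hD hW
  obtain ⟨P₀, p0, hB⟩ := hB p
  obtain ⟨_, -, d1, -⟩ := hD
  obtain ⟨_, _, -, -, hT⟩ := hT
  have w0 : (0 : ℝ) ≤ p.w := Nat.cast_nonneg _
  have w1 : (0 : ℝ) ≤ 8 * (p.w : ℝ) ^ 2 * p.r₀ := by positivity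
  have w2 : (0 : ℝ) ≤ CA * (1 + P₀) := by positivity
  obtain ⟨C, hC1, hC2, hC3, hC4, hC5, hC6⟩ : ∃ C : ℝ, 16 * (p.w : ℝ) ^ 2 ≤ C ∧ K ≤ C ∧ 100 * (p.w : ℝ) ≤ C ∧
      8 * (p.w : ℝ) ^ 2 * p.r₀ ≤ C ∧ 600 ≤ C ∧ CA * (1 + P₀) + CB + 3 * C₁ + C₂ ≤ C :=
    ⟨16 * (p.w : ℝ) ^ 2 + K + 100 * p.w + 8 * (p.w : ℝ) ^ 2 * p.r₀ + 600 +
      (CA * (1 + P₀) + CB + 3 * C₁ + C₂), by linarith, by linarith [sq_nonneg (p.w : ℝ)],
      by linarith [sq_nonneg (p.w : ℝ)], by linarith [sq_nonneg (p.w : ℝ)], by linarith [sq_nonneg (p.w : ℝ)],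
      by linarith [sq_nonneg (p.w : ℝ)]⟩
  refine ⟨C, n₁ + n₂ + (nr p.w + 3), by linarith, ?_⟩
  intro E W D₀ R Y P t hb ht hC hY hR a₁ a₂ α₁ α₂ hd u u' hu hu' z hz hA
  have hE := hb.ed.toEnv
  have hGs := hE.toGs
  have hw := hE.w4
  have w4 : (4 : ℝ) ≤ p.w := by exact_mod_cast hw
  have t1 : t ≤ 1 := by nlinarith
  have R1 := hb.maj.1
  have R0 : 0 < R := by linarith
  have P1 := hb.P1
  have L0 : (0 : ℝ) ≤ E.L := Nat.cast_nonneg _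
  have ct : ∀ c, c ≤ C → c * t ≤ 1 := fun c h => (mul_le_mul_of_nonneg_right h ht.le).trans hC
  have x1 : 1 ≤ t⁻¹ := (one_le_inv₀ ht).2 t1
  have xC : C ≤ t⁻¹ := by rwa [← one_div, le_div_iff₀ ht]
  obtain ⟨C₁', ε₁, b1, b2, y1⟩ := h1 _ _ _ _ hE R Y t hb.maj hb.crit ht (ct _ (by linarith))
    (hY.trans (N3.pow_anti ht t1 (by omega)))
    (hR.trans (mul_le_mul_of_nonneg_right (N3.pow_anti ht t1 (by omega)) L0))
  obtain ⟨_, ε₂, -, b3, y2⟩ := h2 _ _ _ _ hE R Y t hb.maj hb.crit ht (ct _ (by linarith))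
    (hY.trans (N3.pow_anti ht t1 (by omega)))
    (hR.trans (mul_le_mul_of_nonneg_right (N3.pow_anti ht t1 (by omega)) L0))
  clear h1 h2
  have hα := alpha hw ht t1 R0 (by linarith) hd
  have hα' := O9.al_le hw R0 (by linarith) ht t1 hd
  have ha₁ : 1 ≤ a₁ := by linarith [hb.r8, hd.r1]
  obtain ⟨⟨t1i, -⟩, ⟨t2i, -⟩, -⟩ := hT a₁ ha₁
  have hρ := N3.one_le_R hw hb.maj ht t1 hY (k := nr p.w + 1) (by omega)
  have rp := fun x e => rp hw ht t1 (x := x) (e := e)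
  have up := hd.up
  have lo := hd.lo
  have hi := hd.hi
  have hnu := hd.nu
  have h8 := hd.le
  have hr0 := hb.r0.trans hd.r1
  have hν := N3.nr_ge hw
  have E0u := X81.E0_le hu R1 x1
  have E0u' := X81.E0_le hu' R1 x1
  obtain ⟨μ, hμ⟩ : ∃ μ, nr p.w = μ + 2 := ⟨nr p.w - 2, by omega⟩
  rw [hμ] at y1 y2 b2 b3 hρ up hR hν lo hi hnu hα'
  simp only [hμ, Nat.add_sub_cancel] at rp
  obtain ⟨M, hM⟩ : ∃ M, M = t⁻¹ ^ (50 * (μ + 2)) := ⟨_, rfl⟩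
  obtain ⟨ρ, hρe⟩ : ∃ ρ, ρ = R * t ^ (μ + 2) := ⟨_, rfl⟩
  rw [← hM] at y1 y2
  rw [pow_succ, ← mul_assoc, ← hρe] at hρ up
  have pm : ∀ j, j ≤ 50 * (μ + 2) → t⁻¹ ^ j ≤ M := fun j hj => hM ▸ pow_le_pow_right₀ x1 hj
  have ρC : C ≤ ρ := xC.trans (by rwa [← one_div, div_le_iff₀ ht])
  have M0 : 0 < M := by rw [hM]; positivity
  have ρ0 : 0 < ρ := by linarith
  have ρR : ρ ≤ R * t ^ 2 := by rw [hρe]; gcongr _ * ?_; exact N3.pow_anti ht t1 (by omega)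
  have r1 : (⌊2 * (R * t ^ 2)⌋₊ : ℝ) ≤ 2 * (R * t ^ 2) := Nat.floor_le (by positivity)
  have r2 : R * t ^ 2 ≤ ⌊2 * (R * t ^ 2)⌋₊ := by linarith [Nat.lt_floor_add_one (2 * (R * t ^ 2))]
  have a1 : (⌊t⁻¹ * R⌋₊ : ℝ) ≤ t⁻¹ * R := Nat.floor_le (by positivity)
  have xR : R ≤ t⁻¹ * R := le_mul_of_one_le_left R0.le x1
  have tR : R * t ≤ R := mul_le_of_le_one_right R0.le t1
  have a2 : R * t ≤ ⌊t⁻¹ * R⌋₊ + 1 := by linarith [Nat.lt_floor_add_one (t⁻¹ * R)]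
  have c1' := Nat.le_ceil (R * t)
  have F3 : 16 * ((p.w : ℝ) * (⌊t⁻¹ * R⌋₊ + 1)) ≤ t⁻¹ ^ 2 * R := calc
    _ ≤ 16 * (p.w * (2 * (t⁻¹ * R))) := by gcongr; linarith
    _ = 32 * p.w * (t⁻¹ * R) := by ring
    _ ≤ t⁻¹ * (t⁻¹ * R) := by gcongr; linarith
    _ = _ := by ring
  have F4 : 16 * (p.w * (⌊t⁻¹ * R⌋₊ + 1)) ≤ ⌊M * R⌋₊ := Nat.le_floor (by
    push_cast; exact F3.trans (by gcongr; exact pm 2 (by omega)))
  have hsv' : Sv R M u' := X81.sv_mono hu' R0 (by positivity) (by simpa using pm 1 (by omega))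
  have hs := hu.1
  have hm := hu.2
  have hs' := hu'.1
  have hm' := hu'.2
  replace y1 := fun v k₁ k₂ h1 h2 h3 (h5 : Pot.Sup (bl 0 ⌊M * R⌋₊) v) h6 h7 h8 =>
    (y1 a₁ z v u' k₁ k₂ h1 h2 h3 ⟨h5, h6⟩ hsv' h7 h8).2
  replace y2 := fun v h1 h2 h3 (h5 : Pot.Sup (bl 0 ⌊M * R⌋₊) v) h6 =>
    (y2 a₁ z v u' h1 h2 h3 ⟨h5, h6⟩ hsv').2.1
  clear hu hu' hsv'
  rw [mul_assoc] at hz
  generalize ⌊2 * (R * t ^ 2)⌋₊ = r at *
  generalize ⌊t⁻¹ * R⌋₊ = a at *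
  generalize ⌊M * R⌋₊ = T at *
  generalize ⌈R * t⌉₊ = c at *
  have F6 := le_wmul hGs (a + 1)
  obtain ⟨m, hme⟩ : ∃ m, m = p.w * (a + 1) := ⟨_, rfl⟩
  have hmr : (m : ℝ) = p.w * (a + 1) := by rw [hme]; push_cast; rfl
  rw [← hme] at hz F4 F6
  rw [← hmr] at F3
  have F1 : p.w * (7 * m + 1) ≤ E.L := by
    have m1 : (1 : ℝ) ≤ m := by exact_mod_cast (show 1 ≤ m by omega)
    have : (p.w : ℝ) * (7 * m + 1) ≤ E.L := calc
      _ ≤ C * (t⁻¹ ^ 2 * (t ^ (2 + 1) * E.L)) :=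
          mul_le_mul (by linarith) (le_trans (by linarith) (F3.trans (mul_le_mul_of_nonneg_left (hR.trans
            (mul_le_mul_of_nonneg_right (N3.pow_anti ht t1 (by omega)) L0)) (by positivity))))
            (by positivity) (by linarith)
      _ = C * t * E.L := by rw [← mul_assoc (t⁻¹ ^ 2), imp ht, pow_one, mul_assoc]
      _ ≤ 1 * E.L := by gcongr
      _ = _ := one_mul _
    exact_mod_cast this
  have hN := hE.le
  have F7 := le_wmul hGs (7 * m + 1)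
  have r0 : (0 : ℝ) < r := lt_of_lt_of_le (by positivity) r2
  have g1 : 4 * ((p.w : ℝ) * (p.w * r)) ≤ R * t := calc
    _ ≤ 4 * ((p.w : ℝ) * (p.w * (2 * (R * t ^ 2)))) := by gcongr
    _ = 8 * (p.w : ℝ) ^ 2 * t * (R * t) := by ring
    _ ≤ 1 * (R * t) := by gcongr; exact ct _ (by linarith [sq_nonneg (p.w : ℝ)])
    _ = _ := one_mul _
  have g2 : (r : ℝ) ≤ p.w * (p.w * r) := by exact_mod_cast (le_wmul hGs r).trans (le_wmul hGs _)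
  have g3 : 4 * (p.w * (p.w * r)) ≤ c := by exact_mod_cast g1.trans c1'
  have g4 : 4 * (p.w * (p.w * r)) ≤ a + 1 := by exact_mod_cast g1.trans a2
  have g5 : r ≤ p.w * (p.w * r) := (le_wmul hGs r).trans (le_wmul hGs _)
  have q1 : ρ / r ≤ t ^ μ := by
    rw [div_le_iff₀ r0]
    calc ρ = t ^ μ * (R * t ^ 2) := by rw [hρe]; ring
      _ ≤ _ := by gcongr
  have q2 : 600 * ρ ≤ r := by
    have := (div_le_iff₀ r0).1 (q1.trans (pow_le_of_le_one ht.le t1 (by omega)))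
    linarith [mul_le_mul_of_nonneg_right (ct 600 hC5) r0.le]
  have a3 : 4 * ((p.w : ℝ) * (p.w * a₂)) + 2 ≤ ρ := by
    have : 4 * ((p.w : ℝ) * (p.w * a₂)) ≤ 4 * ((p.w : ℝ) * (p.w * (ρ * t))) := by gcongr
    linarith [mul_le_mul_of_nonneg_left (ct _ hC1) ρ0.le]
  have a4 : a₂ ≤ p.w * (p.w * a₂) := (le_wmul hGs a₂).trans (le_wmul hGs _)
  have a5 : 4 * (p.w * (p.w * a₂)) + 2 ≤ r := by
    exact_mod_cast (show 4 * ((p.w : ℝ) * (p.w * a₂)) + 2 ≤ r by linarith)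
  have eℓ : R / t⁻¹ = R * t := div_inv_eq_mul R t
  have hrg := gs_rg hGs
  obtain ⟨-, -, i1, i2, -, -, i3⟩ := hB _ _ _ _ hE 0
  obtain ⟨-, j0, j1, j2, -, -, j3⟩ := hB _ _ _ _ hE z
  obtain ⟨s1, s2, -, s4, s5⟩ := swp u z _ _ ρ r a (4 * m) hm hs (by linarith) (by linarith) (by linarith)
    (by omega) (bl_subset_bl hz (by omega))
  have s3 := ((d1 u z _ _ ρ hm (by linarith) (by linarith)).2.1 u').1
  have hz' := mem_bl_comm.1 hz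
  have su : Pot.Sup (bl z (7 * m)) u := hs.mono (bl_subset_bl hz' (by omega))
  have su' : Pot.Sup (bl z (7 * m)) u' := hs'.mono (bl_subset_bl hz' (by omega))
  have sv : Pot.Sup (bl z (7 * m)) (u - sw u z ρ) := s1.mono (bl_subset_bl hz' (by omega))
  have e55 : 55 * t⁻¹ ^ 6 ≤ (t⁻¹ ^ 4) ^ 2 := calc
    _ ≤ t⁻¹ * t⁻¹ ^ 6 := by gcongr; linarith
    _ ≤ t⁻¹ ^ 8 := by rw [← pow_succ']; exact pow_le_pow_right₀ x1 (by norm_num)
    _ = _ := by ring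
  have x6 := one_le_pow₀ (n := 6) x1
  have eu' : E0 (bl z (7 * m)) u' ≤ (t⁻¹ ^ 4) ^ 2 := by rw [B80.E0_congr su' hs']; linarith
  have ev : E0 (bl z (7 * m)) (u - sw u z ρ) ≤ (t⁻¹ ^ 4) ^ 2 := by
    have : K * t⁻¹ ^ 2 * (ρ / r) ^ 2 ≤ 1 := calc
      _ ≤ K * (t⁻¹ ^ 2 * t ^ (2 + 1)) := by
          rw [mul_assoc]
          gcongr K * (_ * ?_)
          exact (pow_le_pow_left₀ (by positivity) q1 2).trans (by
            rw [← pow_mul]; exact N3.pow_anti ht t1 (by omega))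
      _ ≤ 1 := by rw [imp ht, pow_one]; exact ct _ hC2
    rw [B80.E0_congr sv s1]; linarith [(abs_le.1 s5).2]
  have k0 : t⁻¹ / (R / t⁻¹) ≤ t⁻¹ ^ 3 / R := by
    rw [div_div_eq_mul_div, ← pow_two]; gcongr; norm_num
  have k1' : K * t⁻¹ / (R / t⁻¹) ≤ t⁻¹ ^ 3 / R := by
    rw [div_div_eq_mul_div, pow_succ, pow_two]; gcongr; linarith
  have du' : ∀ y, ∀ d ∈ nn, |dif d u' y| ≤ t⁻¹ ^ 3 / R := fun y d hd =>
    (hm'.one (by norm_num) hd trivial).trans k0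
  have ke : ∀ j : ℕ, (j : ℝ) ≤ R → j * (t⁻¹ ^ 3 / R) ≤ t⁻¹ ^ 4 := fun j hj => calc
    _ ≤ R * (t⁻¹ ^ 3 / R) := by gcongr
    _ = t⁻¹ ^ 3 := by field_simp
    _ ≤ _ := pow_le_pow_right₀ x1 (by norm_num)
  have hPr := Le60.prof_trl hS hGs le_rfl (i1.mono (by omega)) (Le60.prof_rescale (r := r) hw hb.prof R0
    (by linarith) (one_le_pow₀ (n := 2) x1) (by rwa [inv_pow, div_inv_eq_mul])
    (le_trans (by linarith) (le_mul_of_one_le_left R0.le (one_le_pow₀ x1)))) z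
  rw [j0] at hPr
  have eA := tA _ _ _ _ hE z r (7 * m) ρ t⁻¹ _ P₀ _ _ _ u u' (j1.mono (by omega)) j2 (by positivity) hPr
    (by linarith) (fun c hc => (j3 z c (bl_mono z (by omega))).1) (Lr.of_univ (hm.scale r0 (by linarith)) z)
    (by linarith) q2 (by omega) F1 su' (fun y hy => hA y (bl_mono z g3 hy)) du' (by positivity) eu'
    (ke _ (by push_cast; linarith))
  replace eA := eA.trans (show _ ≤ CA * (1 + P₀) * (P * t ^ 15 / R ^ 2) from calc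
    _ ≤ CA * t⁻¹ * ((P * t⁻¹ ^ 2 + P₀ * (P * t⁻¹ ^ 2)) * t ^ 26 / (R * t ^ 2) ^ 2) * t⁻¹ ^ 4 := by
        gcongr
        · simpa using rpow_le_rpow_of_exponent_le (one_le_pow₀ (n := 2) x1) (Le60.ew_le_one (by omega))
        · exact le_mul_of_one_le_right (by linarith) (one_le_mul_of_one_le_of_one_le P1 (one_le_pow₀ x1))
        · exact rp _ _ (by positivity) q1 le_rfl
    _ = _ := by field_simp)
  have hI : Ins 0 a₂ fun s => E.e 0 s - Tc E.ω a₁ α₁ α₂ s := (i1.mono (by omega)).sub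
    ((((t1i.mono (by omega)).sub_const _).smul _).add (((t2i.mono (by omega)).sub_const _).smul _))
  have s6 := s4 (4 * (p.w * (p.w * a₂))) (by push_cast; exact a3)
  have eB := tB _ _ _ _ hE z a₂ (7 * m) _ _ _ _ u' (by omega) (hI.trl z) (by omega) F1 sv su'
    (fun y hy => ⟨s6.2 y hy, hA y (bl_mono z (by omega) hy)⟩)
    (fun y hy d hd => ⟨(s6.1 y hy d hd).1.trans k1', du' y d hd⟩) (by positivity) ev eu'
    (ke _ (by push_cast; linarith))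
  rw [Le60.nu_trl hS hGs (by omega : p.r₀ ≤ a₂) hI le_rfl] at eB
  replace eB := eB.trans (show _ ≤ CB * (P * t ^ 15 / R ^ 2) from calc
    _ ≤ CB * (P * t ^ (8 + 15) / R ^ 2) * (t⁻¹ ^ 4) ^ 2 := by
        gcongr CB * ?_ * _
        exact hnu.trans (by gcongr _ * ?_ / _; exact N3.pow_anti ht t1 (by omega))
    _ = _ := by field_simp)
  have iu : Ins z E.N (X u) := S55.ins_X su (by omega)
  have iu' : Ins z E.N (X u') := S55.ins_X su' (by omega)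
  have iv : Ins z E.N (X (u - sw u z ρ)) := S55.ins_X sv (by omega)
  have ie : Ins z E.N (E.e z) := j1.mono (by omega)
  have iF : Ins z E.N (trl z fun s => E.e 0 s - Tc E.ω a₁ α₁ α₂ s) := (hI.trl z).mono (by omega)
  have iT : Ins z E.N (trl z (Tc E.ω a₁ α₁ α₂)) := (ie.sub iF).congr fun s => by
    rw [trl_sub, j0]; ring
  have iw : Ins z E.N (X (sw u z ρ)) := (iu.sub iv).congr fun s => by rw [S55.X_sub]; ring
  have eC := S55.termC hE z α₁ α₂ (t1i.mono (by omega)) (t2i.mono (by omega)) (iv.mul iu')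
  have dec : E.ω (fun s => X u s * X u' s * E.e z s) = E.ω (fun s => E.e z s * X (sw u z ρ) s * X u' s) +
      (E.ω (fun s => trl z (fun s => E.e 0 s - Tc E.ω a₁ α₁ α₂ s) s * (X (u - sw u z ρ) s * X u' s)) +
        E.ω fun s => trl z (Tc E.ω a₁ α₁ α₂) s * (X (u - sw u z ρ) s * X u' s)) := by
    rw [← hE.ex_add (iF.mul (iv.mul iu')) (iT.mul (iv.mul iu')), ← hE.ex_add ((ie.mul iw).mul iu')
      ((iF.mul (iv.mul iu')).add (iT.mul (iv.mul iu')))]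
    refine congrArg _ (funext fun s => ?_)
    rw [trl_sub, j0, S55.X_sub]; ring
  have v1 : R / M ≤ a₁ := by
    rw [hM, inv_pow, div_inv_eq_mul]
    exact (mul_le_mul_of_nonneg_left (N3.pow_anti ht t1 (by omega)) R0.le).trans lo
  have M1 := pm 0 (by omega)
  rw [pow_zero] at M1
  have v2 : (a₁ : ℝ) ≤ M * R := (hi.trans (mul_le_of_le_one_right R0.le (pow_le_one₀ ht.le t1))).trans
    (le_mul_of_one_le_left R0.le M1)
  have v3 : eu z ≤ M * R := by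
    have h := eu_le_of_bl hz
    rw [sub_zero] at h
    push_cast at h
    have : t⁻¹ ^ 2 * R ≤ M * R := by gcongr; exact pm 2 (by omega)
    linarith [m.cast_nonneg (α := ℝ)]
  have v4 := s1.mono (bl_mono 0 (show 4 * m ≤ T by omega))
  have v5 : Sm 3 Set.univ M (R / M) (u - sw u z ρ) := (s2.mono le_rfl Set.Subset.rfl
    (le_trans (by rw [pow_two]; gcongr; linarith) (pm 2 (by omega))) ρ0).scale (by positivity) (by
      rw [hM, inv_pow, div_inv_eq_mul, hρe]; gcongr _ * ?_; exact N3.pow_anti ht t1 (by omega))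
  replace y1 := y1 _ (t⁻¹ ^ 3 / R) (t⁻¹ ^ 3 / R ^ 2) v1 v2 v3 v4 v5
    (fun y hy e he => ⟨(s6.1 y (bl_mono z (by omega) hy) e he).1.trans k1', fun e' he' =>
      ((s6.1 y (bl_mono z (by omega) hy) e he).2 e' he').trans (by positivity)⟩)
    fun y _ e he => ⟨du' y e he, fun e' he' => (hm'.two (by norm_num) he he' trivial).trans_eq (by
      field_simp)⟩
  replace y2 := y2 _ v1 v2 v3 v4 v5
  rw [s3] at y1
  have A1 := le_max_left |α₁| |α₂|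
  have A2 := le_max_right |α₁| |α₂|
  have A3 : 0 ≤ max |α₁| |α₂| := (abs_nonneg _).trans A1
  generalize max |α₁| |α₂| = A at *
  have n1 : A * t ^ (50 * (μ + 2)) ≤ P * t ^ 15 / R ^ 2 := calc
    _ ≤ A * t ^ (48 * (μ + 2) + 76 + 15) := by gcongr _ * ?_; exact N3.pow_anti ht t1 (by omega)
    _ = A * t ^ (48 * (μ + 2) + 76) * t ^ 15 := by ring
    _ ≤ P / R ^ 2 * t ^ 15 := by gcongr
    _ = _ := by ring
  have n2 : A * ((a₁ : ℝ) ^ 2 * (t⁻¹ ^ 3 / R ^ 2) * (a₁ * (t⁻¹ ^ 3 / R) + (a₁ : ℝ) ^ 2 * (t⁻¹ ^ 3 / R ^ 2))) ≤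
      2 * (P * t ^ 15 / R ^ 2) := by
    have h : (a₁ : ℝ) ≤ R * t ^ 97 := hi.trans (by gcongr _ * ?_; exact N3.pow_anti ht t1 (by omega))
    have h' : (a₁ : ℝ) ^ 2 ≤ R * (R * t ^ 97) := by
      rw [pow_two]; gcongr; exact h.trans (mul_le_of_le_one_right R0.le (pow_le_one₀ ht.le t1))
    calc _ = A * (a₁ : ℝ) ^ 2 * (t⁻¹ ^ 3 / R ^ 2 * (a₁ * (t⁻¹ ^ 3 / R) + (a₁ : ℝ) ^ 2 * (t⁻¹ ^ 3 / R ^ 2))) := by
          ring
      _ ≤ P * t⁻¹ ^ 76 * (t⁻¹ ^ 3 / R ^ 2 *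
          (R * t ^ 97 * (t⁻¹ ^ 3 / R) + R * (R * t ^ 97) * (t⁻¹ ^ 3 / R ^ 2))) := by gcongr
      _ = _ := by field_simp; ring
  have n4 : (CA * (1 + P₀) + CB + 3 * C₁ + C₂) * (P * t ^ 15 / R ^ 2) ≤ P * t ^ 14 / R ^ 2 := calc
    _ = (CA * (1 + P₀) + CB + 3 * C₁ + C₂) * t * (P * t ^ 14 / R ^ 2) := by ring
    _ ≤ 1 * _ := by gcongr; exact ct _ hC6
    _ = _ := one_mul _
  have m1 := mul_le_mul A1 (y1.trans (add_le_add b2 (mul_le_mul_of_nonneg_right b1 (by positivity))))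
    (abs_nonneg _) A3
  have m2 := mul_le_mul A2 (y2.trans b3) (abs_nonneg _) A3
  rw [← abs_mul] at m1 m2
  have m3 := mul_le_mul_of_nonneg_left n1 (show 0 ≤ C₁ by linarith)
  have m4 := mul_le_mul_of_nonneg_left n2 (show 0 ≤ C₁ by linarith)
  have m5 := mul_le_mul_of_nonneg_left n1 (show 0 ≤ C₂ by linarith)
  rw [dec, eC, show E.bb R a₁ α₁ * gr u u' z = α₁ * (kp (gk E.ω R) a₁ * gr u u' z / (2 * π ^ 2)) by
    rw [Dt.bb]; ring, abs_le]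
  rw [abs_le] at eA eB m1 m2
  constructor <;> linarith [eA.1, eA.2, eB.1, eB.2, m1.1, m1.2, m2.1, m2.2]

end S48

set_option maxHeartbeats 800000 in
theorem s1Stmt48 (hS : SemiStmt) (hP : ProdStmt) (hN : LocNStmt) (hH : HfStmt) (hW : SwStmt) (h1 : X1Stmt)
    (h2 : X2Stmt) (hF : FarEStmt) (hD : DetStmt) (hB : BasStmt) (hT : TgStmt) : S1Stmt :=
  fun _ => ⟨0, fun p W D₀ _ _ => by
  obtain ⟨C₀, n₀, c0, site⟩ := site hS hN hH hW h1 h2 hD hB hT p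
  obtain ⟨C₁, n₁, c1, h1⟩ := xp_t h1 p (k := 51 * nr p.w + 1) (by omega)
  obtain ⟨C₂, n₂, c2, h2⟩ := xp_t h2 p (k := 51 * nr p.w + 1) (by omega)
  obtain ⟨C₃, c3, out⟩ := O9.outer hS hP hB hT hF p
  obtain ⟨C₄, c4, nx⟩ := S55.nu_XX p.F
  obtain ⟨_, -, -, -, d3⟩ := hD
  have w0 : (0 : ℝ) ≤ (p.w : ℝ) ^ 2 := by positivity
  obtain ⟨C, hC0, hC1, hC2, hC3, hC4, hC5⟩ : ∃ C : ℝ, C₀ ≤ C ∧ C₁ ≤ C ∧ C₂ ≤ C ∧ C₃ ≤ C ∧ C₄ * 54 ≤ C ∧
      169 * (p.w : ℝ) ^ 2 + 1 ≤ C := ⟨C₀ + C₁ + C₂ + C₃ + C₄ * 54 + (169 * (p.w : ℝ) ^ 2 + 1), by linarith,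
    by linarith, by linarith, by linarith, by linarith, by linarith⟩
  refine ⟨C, n₀ + n₁ + n₂ + (nr p.w + 3), by linarith, ?_⟩
  intro E R Y P t hb ht hC hY hR a₁ a₂ α₁ α₂ hd u u' hu hu' hsep
  have hE := hb.ed.toEnv
  have hGs := hE.toGs
  have hw := hE.w4
  have w4 : (4 : ℝ) ≤ p.w := by exact_mod_cast hw
  have t1 : t ≤ 1 := by nlinarith
  have R1 := hb.maj.1
  have R0 : 0 < R := by linarith
  have P1 := hb.P1
  have L0 : (0 : ℝ) ≤ E.L := Nat.cast_nonneg _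
  have ct : ∀ c, c ≤ C → c * t ≤ 1 := fun c h => (mul_le_mul_of_nonneg_right h ht.le).trans hC
  have x1 : 1 ≤ t⁻¹ := (one_le_inv₀ ht).2 t1
  have xC : C ≤ t⁻¹ := by rwa [← one_div, le_div_iff₀ ht]
  have hY' : ∀ k, k ≤ n₀ + n₁ + n₂ + (nr p.w + 3) → Y ≤ t ^ k := fun k h => hY.trans (N3.pow_anti ht t1 h)
  have hR' : ∀ k, k ≤ n₀ + n₁ + n₂ + (nr p.w + 3) → R ≤ t ^ k * E.L := fun k h =>
    hR.trans (mul_le_mul_of_nonneg_right (N3.pow_anti ht t1 h) L0)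
  replace site := site E W D₀ R Y P t hb ht (ct _ hC0) (hY' _ (by omega)) (hR' _ (by omega)) a₁ a₂ α₁ α₂ hd
  obtain ⟨_, ε₁, -, b2, y1⟩ := h1 _ _ _ _ hE R Y t hb.maj hb.crit ht (ct _ hC1) (hY' _ (by omega))
    (hR' _ (by omega))
  obtain ⟨_, ε₂, -, b3, y2⟩ := h2 _ _ _ _ hE R Y t hb.maj hb.crit ht (ct _ hC2) (hY' _ (by omega))
    (hR' _ (by omega))
  clear h1 h2
  have a1 : (⌊t⁻¹ * R⌋₊ : ℝ) ≤ t⁻¹ * R := Nat.floor_le (by positivity)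
  have a2 := (Nat.lt_floor_add_one (t⁻¹ * R)).le
  have xR : R ≤ t⁻¹ * R := le_mul_of_one_le_left R0.le x1
  have h8 := hd.le
  have hr0 := hb.r0.trans hd.r1
  have a3 : a₂ ≤ ⌊t⁻¹ * R⌋₊ := Nat.le_floor
    ((hd.up.trans (mul_le_of_le_one_right R0.le (pow_le_one₀ ht.le t1))).trans xR)
  have F6 := le_wmul hGs (⌊t⁻¹ * R⌋₊ + 1)
  have m1 : (p.w : ℝ) * (⌊t⁻¹ * R⌋₊ + 1) ≤ p.w * (2 * (t⁻¹ * R)) := by gcongr; linarith
  have F1 : 4 * (p.w * (⌊t⁻¹ * R⌋₊ + 1)) ≤ E.L := by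
    have : 4 * ((p.w : ℝ) * (⌊t⁻¹ * R⌋₊ + 1)) ≤ E.L := calc
      _ ≤ 8 * p.w * (t⁻¹ * R) := by linarith
      _ ≤ C * (t⁻¹ ^ 1 * (t ^ (1 + 1) * E.L)) := by
          rw [pow_one]
          exact mul_le_mul (by nlinarith) (mul_le_mul_of_nonneg_left (hR' _ (by omega)) (by positivity))
            (by positivity) (by linarith)
      _ = C * t * E.L := by rw [← mul_assoc (t⁻¹ ^ 1), imp ht, pow_one, mul_assoc]
      _ ≤ 1 * E.L := by gcongr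
      _ = _ := one_mul _
    exact_mod_cast this
  have hN := hE.le
  have hI : Ins 0 (⌊t⁻¹ * R⌋₊ + 1) fun s => X u s * X u' s :=
    (S55.ins_X hu.1 le_rfl).mul (S55.ins_X hu'.1 le_rfl)
  have ee : ∀ C' ε : ℝ, C' ≤ C → ε ≤ C' * t ^ (51 * nr p.w + 1) → ε ≤ t ^ (51 * nr p.w) := fun C' ε h h' =>
    h'.trans (by rw [pow_succ', ← mul_assoc]; exact mul_le_of_le_one_left (by positivity) (ct _ h))
  have pm : ∀ j, j ≤ 51 * nr p.w + 1 → t⁻¹ ^ j ≤ t⁻¹ ^ (51 * nr p.w + 1) := fun j => pow_le_pow_right₀ x1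
  have o := out W E D₀ R Y P t α₁ α₂ a₁ a₂ hb ht (ct _ hC3) (hR' _ (by omega)) hd _ _ _
    (by push_cast; linarith) (by push_cast; linarith) hI
    ((nx p _ _ rfl hGs _ u u' _ (by omega) hu.1 hu'.1 (X81.E0_le hu R1 x1) (X81.E0_le hu' R1 x1)).trans (calc
      _ ≤ t⁻¹ * t⁻¹ ^ 6 := by rw [← mul_assoc]; gcongr; linarith
      _ ≤ _ := by rw [← pow_succ']; exact pow_le_pow_right₀ x1 (by norm_num))) le_rfl fun z h h' => by
    have v1 : R / t⁻¹ ^ (51 * nr p.w + 1) ≤ a₁ := by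
      rw [inv_pow, div_inv_eq_mul]
      exact (mul_le_mul_of_nonneg_left (N3.pow_anti ht t1 (by omega)) R0.le).trans hd.lo
    have v2 : (a₁ : ℝ) ≤ t⁻¹ ^ (51 * nr p.w + 1) * R :=
      (hd.hi.trans (mul_le_of_le_one_right R0.le (pow_le_one₀ ht.le t1))).trans
        (le_mul_of_one_le_left R0.le (one_le_pow₀ x1))
    have v3 := h.trans (mul_le_mul_of_nonneg_right (pm _ (by omega)) R0.le)
    have v4 := fun v (hv : Sv R t⁻¹ v) => X81.sv_mono hv R0 (by positivity)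
      ((pow_one _).symm.trans_le (pm 1 (by omega)))
    have v5 : ∀ v, Sv R t⁻¹ v → ∀ y ∈ bl z (6 * a₁ + 2), v y = 0 := fun v hv y hy => hv.1 y fun h =>
      h' (bl_subset_bl h (by rw [mul_assoc]; omega) (mem_bl_comm.1 hy))
    have h3 := (y1 a₁ z u u' 0 0 v1 v2 v3 (v4 u hu) (v4 u' hu') (lk_zero (v5 u hu) le_rfl)
      (lk_zero (v5 u' hu') le_rfl)).2
    rw [show gr u u' z = 0 from sum_eq_zero fun i _ => by
      rw [dif, v5 u hu z (self_mem_bl _ _), v5 u hu _ (bl_mono z (by omega) (add_nn_mem_bl (Xi.ev_nn i) z)),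
        sub_zero, zero_mul]] at h3
    simp only [mul_zero, zero_div, add_zero] at h3
    exact ⟨h3.trans (ee _ _ hC1 b2), (y2 a₁ z u u' v1 v2 v3 (v4 u hu) (v4 u' hu')).2.1.trans (ee _ _ hC2 b3)⟩
  have hA : bl 0 (3 * p.w * (⌊t⁻¹ * R⌋₊ + 1)) ⊆ E.D := (bl_mono 0 (by rw [mul_assoc]; omega)).trans hb.ed.lo
  have act : ∑ z ∈ bl 0 (3 * p.w * (⌊t⁻¹ * R⌋₊ + 1)), |E.ω (fun s => X u s * X u' s * E.e z s) +
      E.bb R a₁ α₁ * gr u u' z| ≤ 169 * (p.w : ℝ) ^ 2 * (P * t ^ 7) := by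
    refine (sum_le_card_nsmul _ _ (P * t ^ 14 / R ^ 2) fun z hz => ?_).trans ?_
    · rcases hsep z with h | h
      · simpa only [mul_comm (X u' _), S48.gr_comm u'] using site u' u hu' hu z hz h
      · exact site u u' hu hu' z hz h
    · rw [card_bl, nsmul_eq_mul]
      push_cast
      calc _ ≤ (13 * (p.w * (t⁻¹ * R))) ^ 2 * (P * t ^ 14 / R ^ 2) := by
            gcongr; nlinarith
        _ = 169 * (p.w : ℝ) ^ 2 * (P * t ^ 12) := by field_simp; ring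
        _ ≤ _ := by gcongr _ * (_ * ?_); exact N3.pow_anti ht t1 (by norm_num)
  have k3 : (169 * (p.w : ℝ) ^ 2 + 1) * (P * t ^ 7) ≤ P * t ^ 6 := calc
    _ = (169 * (p.w : ℝ) ^ 2 + 1) * t * (P * t ^ 6) := by ring
    _ ≤ 1 * _ := by gcongr; exact ct _ hC5
    _ = _ := one_mul _
  rw [hb.ed.der _ (hI.mono (by omega)), ← d3 u u' 0 _ _ hu.1 (bl_mono 0 (show _ ≤ 3 * p.w * (⌊t⁻¹ * R⌋₊ + 1) by
    rw [mul_assoc]; omega)), ← sum_sdiff hA, add_assoc, mul_sum, ← sum_add_distrib]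
  refine (abs_add_le _ _).trans ?_
  linarith [(abs_sum_le_sum_abs _ _).trans o, (abs_sum_le_sum_abs _ _).trans act]⟩

end Crest.Agent.T145.Ev
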