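import Crest.Agent.T145.FlBas_4
import Crest.Agent.T145.FlFus_4
import Crest.Agent.T145.Soft_23

/-!
# Row 145, module FLOW (helper44): STEP-x, part a: numerics and the calculus in the invariant state
-/

set_option autoImplicit false

namespace Crest.Agent.T145.Fl.SX44

open Finset Pot Xi Real

theorem ew_nonneg (w : ℕ) : 0 ≤ ew w := by
  unfold ew cw
  rcases w.eq_zero_or_pos with rfl | h
  · simp
  · have : (1 : ℝ) ≤ w := by exact_mod_cast h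
    have h1 : 0 ≤ log (4 * (w : ℝ) ^ 4) := log_nonneg (by nlinarith [one_le_pow₀ (n := 4) this])
    have := log_nonneg (one_le_two (α := ℝ))
    positivity

theorem ew_le (w : ℕ) : ew w ≤ 1 / 10 := by
  unfold ew cw
  rcases w.eq_zero_or_pos with rfl | h
  · simp
  · have : (1 : ℝ) ≤ w := by exact_mod_cast h
    have h2 : log 2 ≤ log (4 * (w : ℝ) ^ 4) :=
      log_le_log two_pos (by nlinarith [one_le_pow₀ (n := 4) this])
    have h3 := (div_le_one ((log_pos one_lt_two).trans_le h2)).2 h2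
    linarith

theorem abs_exp_sub {a b B : ℝ} (ha : a ≤ B) (hb : b ≤ B) : |exp a - exp b| ≤ exp B * |a - b| := by
  wlog h : b ≤ a generalizing a b
  · rw [abs_sub_comm, abs_sub_comm a]; exact this hb ha (le_of_not_ge h)
  rw [abs_of_nonneg (sub_nonneg.2 (exp_le_exp.2 h)), abs_of_nonneg (sub_nonneg.2 h)]
  have h1 : exp b = exp a * exp (b - a) := by rw [← exp_add]; congr 1; ring
  have h2 := add_one_le_exp (b - a)
  have h3 := exp_pos a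
  calc _ ≤ exp a * (a - b) := by rw [h1]; nlinarith
    _ ≤ _ := mul_le_mul_of_nonneg_right (exp_le_exp.2 ha) (sub_nonneg.2 h)

/-- the final comparison -/
theorem fin {K l α SS SR E₁ E₂ X A y u : ℝ} (hA : 1 ≤ A) (hy : 0 ≤ y) (hu : 1 ≤ u)
    (hE : E₂ ^ 2 * X = E₁) (h1 : |K - α ^ 2 * SS| ≤ A * y ^ 2 / u) (h2 : |l - α * SR| ≤ A * y / u)
    (h3 : |l| ≤ A * y) (h4 : |α| ≤ A * y * u ^ 40) (h5 : |SS - E₁ / 2| ≤ A / u ^ 81)
    (h6 : |SR - E₂ / 2| ≤ A / u ^ 81) (h7 : |X| ≤ A) :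
    |K - 2 * l ^ 2 * X| ≤ 18 * A ^ 5 * y ^ 2 / u := by
  have hu0 : 0 < u := by linarith
  set v := 1 / u with hv
  have hv0 : 0 < v := by positivity
  have hv1 : v ≤ 1 := (div_le_one hu0).2 hu
  set d := l - α * E₂ / 2 with hd
  have e1 : |α * (SR - E₂ / 2)| ≤ A ^ 2 * y * v := by
    rw [abs_mul]
    refine (mul_le_mul h4 h6 (abs_nonneg _) (by positivity)).trans ?_
    rw [show A * y * u ^ 40 * (A / u ^ 81) = A ^ 2 * y * (1 / u ^ 41) by field_simp]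
    exact mul_le_mul_of_nonneg_left (one_div_le_one_div_of_le hu0 (le_self_pow₀ hu (by norm_num)))
      (by positivity)
  have hA2 : A ≤ A ^ 2 := le_self_pow₀ hA (by norm_num)
  have hyv : 0 ≤ y * v := by positivity
  have e2 : |d| ≤ 2 * A ^ 2 * y * v := by
    rw [show d = (l - α * SR) + α * (SR - E₂ / 2) by rw [hd]; ring]
    refine (abs_add_le _ _).trans ?_
    rw [show A * y / u = A * (y * v) by rw [hv]; ring] at h2
    nlinarith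
  have e3 : |2 * l - d| ≤ 4 * A ^ 2 * y := by
    refine (abs_sub _ _).trans ?_
    rw [abs_mul, abs_two]
    have : 2 * A ^ 2 * y * v ≤ 2 * A ^ 2 * y := mul_le_of_le_one_right (by positivity) hv1
    nlinarith
  have e4 : |α ^ 2 * (SS - E₁ / 2)| ≤ A ^ 3 * y ^ 2 * v := by
    rw [abs_mul, abs_pow]
    refine (mul_le_mul (pow_le_pow_left₀ (abs_nonneg _) h4 2) h5 (abs_nonneg _)
      (by positivity)).trans (le_of_eq ?_)
    rw [hv]; field_simp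
  have e5 : |2 * X * (d * (2 * l - d))| ≤ 16 * A ^ 5 * y ^ 2 * v := by
    rw [abs_mul, abs_mul, abs_mul, abs_two]
    refine (mul_le_mul (mul_le_mul_of_nonneg_left h7 zero_le_two)
      (mul_le_mul e2 e3 (abs_nonneg _) (by positivity)) (by positivity) (by positivity)).trans
      (le_of_eq (by ring))
  have e : K - 2 * l ^ 2 * X =
      (K - α ^ 2 * SS) + α ^ 2 * (SS - E₁ / 2) - 2 * X * (d * (2 * l - d)) := by
    rw [← hE, hd]; ring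
  rw [e, show 18 * A ^ 5 * y ^ 2 / u = 18 * A ^ 5 * (y ^ 2 * v) by rw [hv]; ring]
  rw [show A * y ^ 2 / u = A * (y ^ 2 * v) by rw [hv]; ring] at h1
  have h8 : A ≤ A ^ 5 := le_self_pow₀ hA (by norm_num)
  have h9 : A ^ 3 ≤ A ^ 5 := pow_le_pow_right₀ hA (by norm_num)
  have h10 : 0 ≤ y ^ 2 * v := by positivity
  have := (abs_sub _ (2 * X * (d * (2 * l - d)))).trans (add_le_add ((abs_add_le _ _).trans
    (add_le_add h1 e4)) e5)
  nlinarith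

theorem exists_u {j : ℕ} (hj : 0 < j) {Y R L : ℝ} (hY : 0 < Y) (hY1 : Y ≤ 1) (hR : 0 < R)
    (hL : R ≤ L) : ∃ u : ℝ, 1 ≤ u ∧ u ^ j * Y ≤ 1 ∧ u ^ j * R ≤ L ∧
      1 / u ≤ Y ^ (1 / j : ℝ) + (R / L) ^ (1 / j : ℝ) := by
  have hL0 : 0 < L := hR.trans_le hL
  set η := max Y (R / L) with hη
  have h0 : 0 < η := hY.trans_le (le_max_left _ _)
  have h1 : η ≤ 1 := max_le hY1 ((div_le_one hL0).2 hL)
  have hj' : (0 : ℝ) < j := by exact_mod_cast hj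
  have h2 : (η ^ (-(1 / j) : ℝ)) ^ j = η⁻¹ := by
    rw [← rpow_natCast, ← rpow_mul h0.le, ← rpow_neg_one]; congr 1; field_simp
  refine ⟨η ^ (-(1 / j) : ℝ), one_le_rpow_of_pos_of_le_one_of_nonpos h0 h1 (by
    have : (0 : ℝ) ≤ 1 / j := by positivity
    linarith), ?_, ?_, ?_⟩
  · rw [h2, inv_mul_le_iff₀ h0, mul_one]; exact le_max_left _ _
  · rw [h2, inv_mul_le_iff₀ h0, ← div_le_iff₀ hL0]; exact le_max_right _ _
  · rw [rpow_neg h0.le, one_div, inv_inv]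
    have h3 : 0 ≤ Y ^ (1 / j : ℝ) := by positivity
    have h4 : 0 ≤ (R / L) ^ (1 / j : ℝ) := by positivity
    rcases max_choice Y (R / L) with h | h <;> rw [hη, h] <;> linarith

theorem decay {l u W e : ℝ} (hl : 1 ≤ l) (hu : 1 ≤ u) (hW : 1 ≤ W) (h : u ^ 10 ≤ W * l)
    (he : e ≤ 1 / 10) : l ^ (-(11 / 5) : ℝ) * (l ^ 2 * l ^ e) ≤ W / u := by
  have h0 : 0 < l := by linarith
  rw [← rpow_natCast, ← rpow_add h0, ← rpow_add h0]
  refine (rpow_le_rpow_of_exponent_le hl (show _ ≤ (-(1 / 10) : ℝ) by push_cast; linarith)).trans ?_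
  refine le_of_pow_le_pow_left₀ (n := 10) (by norm_num) (by positivity) ?_
  rw [← rpow_natCast, ← rpow_mul h0.le, show (-(1 / 10) : ℝ) * ((10 : ℕ) : ℝ) = -1 by norm_num,
    rpow_neg_one, div_pow, le_div_iff₀ (by positivity), inv_mul_le_iff₀ h0]
  calc _ ≤ W * l := h
    _ ≤ W ^ 10 * l := mul_le_mul_of_nonneg_right (le_self_pow₀ hW (by norm_num)) h0.le
    _ = _ := mul_comm _ _

theorem scales {W w : ℕ} (hW : 2 ≤ W) (hw : 1 ≤ w) {R M : ℝ} (hM : 1 ≤ M) (h : 16 * w * M ≤ R) :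
    ∃ m a : ℕ, (W : ℝ) ^ m ≤ M ∧ M ≤ W * (W : ℝ) ^ m ∧ 16 * w * ((W : ℝ) ^ m * a) ≤ R ∧
      R ≤ 32 * w * ((W : ℝ) ^ m * a) := by
  have hW' : (1 : ℝ) < W := by exact_mod_cast hW
  have hw' : (1 : ℝ) ≤ w := by exact_mod_cast hw
  obtain ⟨m, h1, h2⟩ := exists_nat_pow_near hM hW'
  have h0 : (0 : ℝ) < 16 * w * (W : ℝ) ^ m := by positivity
  set t := R / (16 * w * (W : ℝ) ^ m) with ht
  have h3 : 1 ≤ t := (one_le_div h0).2 (le_trans (by gcongr) h)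
  have h4 : R = 16 * w * (W : ℝ) ^ m * t := by rw [ht]; field_simp
  refine ⟨m, ⌊t⌋₊, h1, by rw [← pow_succ']; exact h2.le, ?_, ?_⟩
  · rw [h4, ← mul_assoc]
    exact mul_le_mul_of_nonneg_left (Nat.floor_le (by linarith)) h0.le
  · have h5 : (1 : ℝ) ≤ ⌊t⌋₊ := by exact_mod_cast (Nat.one_le_floor_iff t).2 h3
    have h6 := Nat.lt_floor_add_one t
    rw [h4, show (32 : ℝ) * w * ((W : ℝ) ^ m * ⌊t⌋₊) = 16 * w * (W : ℝ) ^ m * (2 * ⌊t⌋₊) by ring]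
    exact mul_le_mul_of_nonneg_left (by linarith) h0.le

theorem Y_pos {p : Par} {Λ : Lat} {L : ℕ} {R Y : ℝ} (h : Maj p Λ L R Y) : 0 < Y :=
  (rpow_pos_of_pos (by linarith [h.1]) _).trans_le h.2.1

theorem R_ge {p : Par} {Λ : Lat} {L : ℕ} {R Y : ℝ} (h : Maj p Λ L R Y) : (1 / Y) ^ 4 ≤ R := by
  have h0 : 0 < R := by linarith [h.1]
  have h1 : R ^ (-(1 / 4) : ℝ) ≤ Y :=
    (rpow_le_rpow_of_exponent_le h.1 (by linarith [ew_le p.w])).trans h.2.1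
  have h2 := pow_le_pow_left₀ (by positivity) h1 4
  rw [← rpow_natCast, ← rpow_mul h0.le, show (-(1 / 4) : ℝ) * ((4 : ℕ) : ℝ) = -1 by norm_num,
    rpow_neg_one] at h2
  have hY := Y_pos h
  rw [div_pow, one_pow, div_le_iff₀ (by positivity)]
  rw [inv_le_iff_one_le_mul₀' h0] at h2
  exact h2

theorem prof_le {p : Par} {Λ : Lat} {L : ℕ} {R Y t : ℝ} (h : Maj p Λ L R Y) {a : ℕ} (h1 : p.r₀ ≤ a)
    (h2 : p.w * a ≤ L) (h3 : (a : ℝ) ≤ R) (h4 : R ≤ t * a) (h0 : 0 ≤ nu Λ p.w 0 a (Jz 0)) :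
    nu Λ p.w 0 a (Jz 0) ≤ Y / R ^ 2 * (t ^ 2 * t ^ ew p.w) := by
  have hR : 0 < R := by linarith [h.1]
  have ha : (0 : ℝ) < a := by
    rcases (Nat.cast_nonneg a : (0 : ℝ) ≤ a).eq_or_lt with h5 | h5
    · rw [← h5] at h4; linarith
    · exact h5
  have ht : 1 ≤ t := by nlinarith
  have hY := Y_pos h
  have h5 := h.2.2 a h1 h2
  have h6 : max (a / R) (R / a) ≤ t :=
    max_le (((div_le_one hR).2 h3).trans ht) ((div_le_iff₀ ha).2 h4)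
  have h7 := h5.trans (mul_le_mul_of_nonneg_left
    (rpow_le_rpow (le_max_of_le_left (by positivity)) h6 (ew_nonneg _)) hY.le)
  rw [div_mul_eq_mul_div, le_div_iff₀ (by positivity)]
  calc _ ≤ nu Λ p.w 0 a (Jz 0) * (t * a) ^ 2 := by gcongr
    _ = t ^ 2 * ((a : ℝ) ^ 2 * nu Λ p.w 0 a (Jz 0)) := by ring
    _ ≤ t ^ 2 * (Y * t ^ ew p.w) := by gcongr
    _ = _ := by ring

section state
variable {p : Par} {Λ : Lat} {L N : ℕ} {ω : (Cfg Pt → ℝ) → ℝ} {m : Mdl Pt}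

theorem rg_le (h : Gs p Λ L) {r : ℕ} (hr : p.r₀ ≤ r) : r + 2 * Λ.rg ≤ p.w * r := by
  have h1 := h.gd.2.1
  have h2 := Nat.mul_le_mul_right r h.w4
  omega

theorem prod1 (hP : ProdStmt) (h : Gs p Λ L) (hm : Nc.Amb Λ m (bl 0 N)) {r : ℕ} (h1 : p.r₀ ≤ r)
    (h2 : p.w * r ≤ L) (h3 : p.w * r ≤ N) {F B : Cfg Pt → ℝ} (hF : Ins 0 r F) (hB : Out (bl 0 r) B)
    (hB1 : ∀ s, |B s| ≤ 1) : |Ex (m.W 0) fun s => F s * B s| ≤ 32 * nu Λ p.w 0 r F := by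
  have := ((hP p Λ L h m _ Unit ∅ (fun _ => 0) (fun _ => r) (fun _ => F) B hm
    ⟨by simp, by simp, by simp, by simp, by simp⟩ (by simp) hB1).2 0 r h1 h2 (bl_mono _ h3)
    (by simp)).2.1 F hF hB
  simpa using this

theorem prod2 (hS : SemiStmt) (hP : ProdStmt) (h : Gs p Λ L) (hm : Nc.Amb Λ m (bl 0 N)) {r : ℕ}
    (h1 : p.r₀ ≤ r) (h2 : p.w * r ≤ L) (h3 : p.w * r ≤ N) {x : Pt} (h4 : bl x (p.w * r) ⊆ bl 0 N)
    (h5 : Disjoint (bl 0 (p.w * r)) (bl x (p.w * r))) {F G : Cfg Pt → ℝ} (hF : Ins 0 r F)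
    (hG : Ins 0 r G) :
    |Ex (m.W 0) fun s => F s * trl x G s| ≤ 32 * nu Λ p.w 0 r F * nu Λ p.w 0 r G := by
  have := ((hP p Λ L h m _ Unit univ (fun _ => 0) (fun _ => r) (fun _ => F) (fun _ => 1) hm
    ⟨by simp, fun _ _ => hF, fun _ _ => ⟨h1, h2⟩, fun _ _ => bl_mono _ h3, by simp⟩
    (fun _ _ => Out.const _ _) (by simp)).2 x r h1 h2 h4 fun _ _ => h5).2.1 _ (hG.trl x)
    (Out.const _ _)
  rw [((hS Λ p.w r x h.mem.ok (rg_le h h1)).2 G hG).2.1] at this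
  simpa using this

theorem sinsin (hm : Rep Λ ω m 0 N) {ξ ζ : Pt → ℝ} {q q' : ℤ} (h1 : Chq (bl 0 N) ξ q)
    (h2 : Chq (bl 0 N) ζ q') :
    Ex (m.W 0) (fun s => cp ξ (-(π / 2)) s * cp ζ (-(π / 2)) s) =
      (ω (cp (ξ + ζ) (-(π / 2) + -(π / 2))) + ω (cp (ξ - ζ) 0)) / 2 := by
  have hc := hm.1.ctr.cen hm.1.anch
  rw [hm.2 _ (depG_cp (h1.add h2) _), hm.2 _ (depG_cp (h1.sub h2) _),
    ← Ex_add (hc.ig (tame_cp _ _)) (hc.ig (tame_cp _ _)), ← Ex_div_const]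
  simp only [cp_mul, sub_self]

theorem lip (hΛ : p.F.Mem Λ) (hm : Rep Λ ω m 0 N) {ξ ζ : Pt → ℝ} {q : ℤ} (h1 : Chq (bl 0 N) ξ q)
    {n : ℕ} (hn : n ≤ N) {a : ℝ} (ha : 0 ≤ a) (hf : F2 (nnL.edI (bl 0 n)) (ξ - ζ) (a ^ 2)) :
    |ω (cp ξ 0) - ω (cp ζ 0)| ≤ 2 * π * (FlF4.cB p.F.τ₂ 1 * a) := by
  have hc := hm.1.ctr.cen hm.1.anch
  have hf' : F2 (Λ.edI (bl 0 N)) (ξ - ζ) (a ^ 2) := hf.subset fun e he => by
    rw [Lat.mem_edI] at he ⊢
    exact ⟨nn_subset hΛ.ok he.1, bl_mono _ hn he.2.1, bl_mono _ hn he.2.2⟩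
  have h2 : Chq (bl 0 N) ζ (q - 0) := by simpa using h1.sub (chq_flow hf')
  rw [hm.2 _ (depG_cp h1 _), hm.2 _ (depG_cp h2 _),
    ← Ex_sub (hc.ig (tame_cp _ _)) (hc.ig (tame_cp _ _))]
  refine (FlF4.m2_ex (FlF4.amb_lat hm.1) ((FlF4.bd_one hΛ.ok ha hf').smul
    (a := 2 * π) (by positivity)) fun s => abs_cp_sub_le _ _ _ s).trans ?_
  have := FlF4.cB_mono hΛ.tau_le (le_refl 1)
  gcongr

end state

end Crest.Agent.T145.Fl.SX44
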