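import Crest.Agent.T145.EvDef_2
import Crest.Agent.T145.FlSXa_44
import Crest.Agent.T145.XiB_22

/-!
# Row 145, even sector: the coefficient of `T1` (`B1Stmt`)
-/

set_option autoImplicit false

namespace Crest.Agent.T145.Ev

open Finset Pot Xi Real Fl

namespace B65

theorem A0_chi_in {r : ℝ} (hr : 0 < r) {n : ℕ} (hn : (n : ℝ) + 1 ≤ r) {x : Pt} (hx : x ∈ bl 0 n) :
    A0 (Xi.chi r) x = 0 := by
  rw [A0_congr (v := fun _ => 1) fun w hw =>
    chi_one hr (n := n + 1) (by push_cast; exact hn) (bl_one_sub le_rfl x hx hw), A0_const]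
  rfl

/-- the second test function -/
noncomputable def up (R κ : ℝ) : Pt → ℝ := Phi (R / 4) - Phi (4 * R) - κ • Xi.chi (8 * R)

theorem A0_up {R : ℝ} (hR : 0 < R) (κ : ℝ) {n : ℕ} (hn : (n : ℝ) + 1 ≤ 4 * R) {x : Pt} (hx : x ∈ bl 0 n) :
    A0 (up R κ) x = xi (R / 4) x := by
  rw [up, A0_sub, A0_smul, ← xi_sub]
  simp only [Pi.sub_apply, Pi.smul_apply, smul_eq_mul]
  rw [xi_in (by positivity) hn hx, A0_chi_in (by positivity) (by linarith) hx]
  ring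

theorem sup_up {R : ℝ} (hR : 0 < R) (κ : ℝ) {n : ℕ} (hn : 16 * R ≤ n + 1) : Pot.Sup (bl 0 n) (up R κ) :=
  fun x hx => by
    simp only [up, Pi.sub_apply, Pi.smul_apply, smul_eq_mul]
    rw [sup_Phi (by positivity) (by linarith) x hx, sup_Phi (by positivity) (by linarith) x hx,
      sup_chi (by positivity) (by linarith) x hx]
    ring

theorem E1_eq {R : ℝ} (hR : 2 ≤ R) (κ : ℝ) {n : ℕ} (hn : R / 2 ≤ n) :
    E1 (bl 0 n) (Xi.chi R) (up R κ) = 1 := by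
  have h0 : 0 < R := by linarith
  have h1 := (Nat.ceil_lt_add_one (show 0 ≤ 2 * R by linarith)).le
  have h2 := (Nat.ceil_lt_add_one (show 0 ≤ R / 2 by linarith)).le
  have h3 : 2 * (R / 4) ≤ (⌈R / 2⌉₊ : ℝ) := by linarith [Nat.le_ceil (R / 2)]
  rw [E1, ← sum_xi (r := R / 4) (by positivity) (n := n) (by linarith)]
  refine sum_congr rfl fun x _ => ?_
  by_cases hx : x ∈ bl 0 ⌈2 * R⌉₊
  · rw [A0_up h0 κ (by linarith) hx]
    by_cases hx' : x ∈ bl 0 ⌈R / 2⌉₊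
    · rw [chi_one h0 (by linarith) hx', one_mul]
    · rw [sup_xi (by positivity) h3 x hx', mul_zero]
  · rw [sup_chi h0 (by linarith [Nat.le_ceil (2 * R)]) x hx, zero_mul,
      sup_xi (by positivity) (by linarith [Nat.le_ceil (2 * R)]) x hx]

theorem sep {R : ℝ} (hR : 16 ≤ R) (κ : ℝ) {m : ℕ} (hm : (m : ℝ) ≤ R / 16 + 1) (z : Pt) :
    (∀ y ∈ bl z m, A0 (Xi.chi R) y = 0) ∨ ∀ y ∈ bl z m, A0 (up R κ) y = 0 := by
  have h0 : 0 < R := by linarith
  have h1 := (Nat.ceil_lt_add_one (show 0 ≤ 2 * R by linarith)).le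
  have h2 := (Nat.ceil_lt_add_one (show 0 ≤ R / 2 by linarith)).le
  have h3 : 2 * (R / 4) ≤ (⌈R / 2⌉₊ : ℝ) := by linarith [Nat.le_ceil (R / 2)]
  have hin : ∀ y ∈ bl z m, y ∈ bl 0 (rad z + m) := fun y hy =>
    bl_subset_bl (mem_bl_rad z) (Nat.add_comm _ _).le hy
  have hout : ∀ y ∈ bl z m, ∀ k, y ∈ bl 0 k → rad z ≤ k + m := fun y hy k hk =>
    rad_le.2 (bl_subset_bl hk (Nat.add_comm _ _).le (mem_bl_comm.1 hy))
  by_cases ha : ((rad z + m : ℕ) : ℝ) + 1 ≤ R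
  · exact Or.inl fun y hy => A0_chi_in h0 ha (hin y hy)
  by_cases hb : ⌈2 * R⌉₊ + 1 + m < rad z
  · exact Or.inl fun y hy => sup_A0 (sup_chi h0 (n := ⌈2 * R⌉₊) (by linarith [Nat.le_ceil (2 * R)])) y
      fun h => absurd (hout y hy _ h) (by omega)
  · refine Or.inr fun y hy => ?_
    have hb' : (rad z : ℝ) ≤ ⌈2 * R⌉₊ + 1 + m := by exact_mod_cast not_lt.1 hb
    push_cast at ha
    rw [A0_up h0 κ (by push_cast; linarith) (hin y hy)]
    refine sup_xi (by positivity) h3 y fun h => ha ?_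
    have : (rad z : ℝ) ≤ ⌈R / 2⌉₊ + m := by exact_mod_cast hout y hy _ h
    linarith

theorem pair : ∃ σ : ℝ, 0 ≤ σ ∧ ∀ R : ℝ, 1600 ≤ R → ∃ κ : ℝ, Sm 3 Set.univ σ R (Xi.chi R) ∧
    Sm 3 Set.univ σ R (up R κ) ∧ ∑ x ∈ bl 0 ⌈2 * R⌉₊, Xi.chi R x * up R κ x = 0 := by
  obtain ⟨C1, h1, hC1⟩ := sm_chi 3
  obtain ⟨C2, h2, hC2⟩ := sm_wt 3 (M := 16) (by norm_num)
  set c : ℝ := |log 16 / (2 * π)| with hc
  have hc0 : 0 ≤ c := abs_nonneg _
  set σ : ℝ := (c + C2) * 4 ^ 3 with hσ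
  have hσ0 : 0 ≤ σ := by positivity
  refine ⟨C1 + (σ + σ * C1), by positivity, fun R hR => ?_⟩
  have h0 : 0 < R := by linarith
  have hV : Sm 3 Set.univ σ R (Phi (R / 4) - Phi (4 * R)) := by
    have a := ((Sm.const 3 Set.univ (show 0 < R / 4 by positivity) (log 16 / (2 * π))).sub
      (hC2 (R / 4) (4 * R) (by push_cast; linarith) (by linarith) (by linarith))).scale'
      (m := 4) (by positivity) (by norm_num)
    rw [show 4 * (R / 4) = R by ring] at a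
    convert a using 1
    funext x
    simp only [Pi.sub_apply, wt]
    rw [cr_sub (by positivity) (by positivity), show 4 * R / (R / 4) = 16 by field_simp; norm_num]
    ring
  set S : ℝ := ∑ x ∈ bl 0 ⌈2 * R⌉₊, Xi.chi R x with hS
  have hS1 : 0 < S := by
    have := single_le_sum (f := Xi.chi R) (s := bl 0 ⌈2 * R⌉₊) (fun x _ => chi_nonneg R x)
      (self_mem_bl 0 _)
    rw [chi_one h0 (n := 0) (by simpa using h0.le) (self_mem_bl 0 _)] at this
    linarith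
  set T : ℝ := ∑ x ∈ bl 0 ⌈2 * R⌉₊, Xi.chi R x * (Phi (R / 4) - Phi (4 * R)) x with hT
  have hκ : |T / S| ≤ σ := by
    rw [abs_div, abs_of_pos hS1, div_le_iff₀ hS1, hS, mul_sum]
    refine (abs_sum_le_sum_abs _ _).trans (sum_le_sum fun x _ => ?_)
    rw [abs_mul, abs_of_nonneg (chi_nonneg R x), mul_comm]
    exact mul_le_mul_of_nonneg_right (hV.zero trivial) (chi_nonneg R x)
  refine ⟨T / S, (hC1 R h0).mono le_rfl subset_rfl (by nlinarith [mul_nonneg hσ0 h1]) h0,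
    (hV.sub (((hC1 (8 * R) (by positivity)).scale h0 (by linarith)).smul (T / S))).mono le_rfl subset_rfl
      (by nlinarith [mul_le_mul_of_nonneg_right hκ h1]) h0, ?_⟩
  have h3 := (Nat.ceil_lt_add_one (show 0 ≤ 2 * R by linarith)).le
  have : ∀ x ∈ bl (0 : Pt) ⌈2 * R⌉₊, Xi.chi R x * up R (T / S) x =
      Xi.chi R x * (Phi (R / 4) - Phi (4 * R)) x - T / S * Xi.chi R x := fun x hx => by
    simp only [up, Pi.sub_apply, Pi.smul_apply, smul_eq_mul]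
    rw [chi_one (r := 8 * R) (by positivity) (by linarith) hx]
    ring
  rw [sum_congr rfl this, sum_sub_distrib, ← mul_sum, ← hT, ← hS, div_mul_cancel₀ _ hS1.ne', sub_self]

end B65

open B65

theorem b1Stmt (hS : S1Stmt) (hV : VlStmt) : B1Stmt := by
  intro w
  obtain ⟨σ, hσ, hp⟩ := pair
  obtain ⟨W₀, hS⟩ := hS w
  refine ⟨max W₀ 2, fun p W D₀ hw hW => ?_⟩
  obtain ⟨C₁, n, h1, hS⟩ := hS p W D₀ hw (le_trans (le_max_left _ _) hW)
  obtain ⟨C₂, h2, hV⟩ := hV p W D₀ (le_trans (le_max_right _ _) hW)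
  have hq : 0 ≤ C₂ * σ ^ 2 := by positivity
  refine ⟨C₁ + C₂ + σ + 1600 + C₂ * σ ^ 2, n + 1, by linarith, ?_⟩
  intro E R Y P t hB ht hC hY hR a₁ a₂ α₁ α₂ hD P' hK
  have hM := hB.maj
  have hY0 := SX44.Y_pos hM
  have hR0 : 0 < R := by linarith [hM.1]
  have hL : (0 : ℝ) ≤ E.L := Nat.cast_nonneg _
  have hle : ∀ c : ℝ, c ≤ C₁ + C₂ + σ + 1600 + C₂ * σ ^ 2 → c * t ≤ 1 := fun c hc =>
    (mul_le_mul_of_nonneg_right hc ht.le).trans hC
  have ht1 : 1600 * t ≤ 1 := hle _ (by linarith)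
  have ht2 : t ≤ 1 := by linarith
  have p1 : t ^ (n + 1) ≤ t ^ n := pow_le_pow_of_le_one ht.le ht2 (by omega)
  have p2 : t ^ (n + 1) ≤ t := by simpa using pow_le_pow_of_le_one ht.le ht2 (show 1 ≤ n + 1 by omega)
  have hYt : Y ≤ t := hY.trans p2
  have hRL : R ≤ t * E.L := hR.trans (mul_le_mul_of_nonneg_right p2 hL)
  have hinv : ∀ c : ℝ, c * t ≤ 1 → c ≤ t⁻¹ := fun c hc => by
    rw [inv_eq_one_div, le_div_iff₀ ht]; exact hc
  have hR1 : 1600 ≤ R := by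
    have a : (1600 : ℝ) ≤ 1 / Y := by rw [le_div_iff₀ hY0]; linarith
    have b := SX44.R_ge hM
    have c : 1 / Y ≤ (1 / Y) ^ 4 := le_self_pow₀ (by linarith) (by norm_num)
    linarith
  obtain ⟨κ, s1, s2, h0⟩ := hp R hR1
  have hfl : 16 * R ≤ (⌊t⁻¹ * R⌋₊ : ℝ) + 1 :=
    (mul_le_mul_of_nonneg_right (hinv 16 (by linarith)) hR0.le).trans (Nat.lt_floor_add_one _).le
  have hsv : ∀ v, Sm 3 Set.univ σ R v → Sm 3 Set.univ t⁻¹ (R / t⁻¹) v := fun v hv => by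
    have a : 0 < R / t⁻¹ := by positivity
    exact (hv.scale a (div_le_self hR0.le (hinv 1 (by linarith)))).mono le_rfl subset_rfl
      (hinv σ (hle _ (by linarith))) a
  have hm : (⌈R * t⌉₊ : ℝ) ≤ R / 16 + 1 := by
    have := (Nat.ceil_lt_add_one (show 0 ≤ R * t by positivity)).le
    nlinarith
  have a1 := hS E R Y P t hB ht (hle _ (by linarith)) (hY.trans p1)
    (hR.trans (mul_le_mul_of_nonneg_right p1 hL)) a₁ a₂ α₁ α₂ hD (Xi.chi R) (up R κ)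
    ⟨sup_chi hR0 (by linarith), hsv _ s1⟩ ⟨sup_up hR0 κ hfl, hsv _ s2⟩ (sep (by linarith) κ hm)
  have c2 : C₂ * t ≤ 1 := hle _ (by linarith)
  have a2 := hV E R Y P hB ((mul_le_mul_of_nonneg_left hYt (by linarith)).trans c2)
    (by nlinarith) P' σ (Xi.chi R) (up R κ) hK (sup_chi hR0 (by linarith [Nat.le_ceil (2 * R)]))
    (sup_up hR0 κ (by linarith [Nat.le_ceil (32 * R)])) s1 s2 h0
  rw [E1_eq (by linarith) κ (by linarith), mul_one] at a1
  rw [E1_eq (by linarith) κ (by linarith [Nat.le_ceil (2 * R)]), mul_one] at a2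
  have a3 : C₂ * σ ^ 2 * Y * P' ≤ (C₁ + C₂ + σ + 1600 + C₂ * σ ^ 2) * Y * P' := by
    have := hK.1
    gcongr
    linarith
  rw [abs_le] at a1 a2 ⊢
  constructor <;> linarith [a1.1, a1.2, a2.1, a2.2]

end Crest.Agent.T145.Ev
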