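import Crest.Agent.T145.DfDef_70
import Crest.Agent.T145.Soft_23
import Crest.Agent.T145.CE_56

/-!
# Row 145, module Df: bare moments (`Df.momStmt`) and profiles (`Df.proStmt`) (helper23)
-/

set_option autoImplicit false

namespace Crest.Agent.T145.Df

open Finset Nc

namespace M23

variable {Λ : Lat} {m : Mdl Pt}

theorem tame_d (x y : Pt) : Tame fun s : Cfg Pt => ((s y - s x : ℤ) : ℝ) := Tame.dE (x, y)

theorem tame_JL (J : Finset Pt) (x : Pt) : Tame (JL J x) :=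
  Tame.sum J fun y _ => (Tame.ev x).sub (Tame.ev (x + y))

theorem tame_es (hΛ : Λ.Ok) (x : Pt) : Tame (es Λ x) :=
  (Tame.sum Λ.J fun y _ => Tau5.tame_eps (tame_d x (x + y)) Λ.xy hΛ.2).div_const 2

/-- the fourth moment of one lattice gradient -/
theorem edge4 (hB : BrStmt) (hΛ : Λ.Ok) (hc : m.Ctr) (ha : m.Anch) {e : Pt × Pt}
    (he : (e ∈ m.ed ∧ m.w e = Λ.w) ∨ (e.1 ∉ m.A ∧ e.2 ∉ m.A)) :
    Ex (m.W 0) (fun s => (dE e s : ℝ) ^ 4) ≤ 24 * Real.exp Λ.τ := by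
  rcases he with ⟨h1, h2⟩ | ⟨h1, h2⟩
  · have := (hB.2.1 Λ m (dv {e} fun _ => 1) 1 hΛ hc ha {e} (singleton_subset_iff.2 h1)
      (fun e' he' => by rw [mem_singleton.1 he', h2]) ⟨fun _ => 1, fun _ _ => rfl, by simp⟩).2.2
    simpa only [hB.1, sum_singleton, one_mul, one_pow, mul_one] using this
  · rw [Ex_congr (G := fun _ => 0) fun s hs => by
      simp [dE, Md.W_off hs _ h1, Md.W_off hs _ h2], Ex_zero]
    positivity

/-- the sum of the fourth powers of the gradients at `x` -/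
noncomputable def Q (J : Finset Pt) (x : Pt) (s : Cfg Pt) : ℝ := ∑ y ∈ J, ((s (x + y) - s x : ℤ) : ℝ) ^ 4

theorem tame_Q (J : Finset Pt) (x : Pt) : Tame (Q J x) :=
  Tame.sum J fun y _ => (tame_d x (x + y)).pow 4

theorem Q_nonneg (J : Finset Pt) (x : Pt) (s : Cfg Pt) : 0 ≤ Q J x s :=
  sum_nonneg fun _ _ => by positivity

theorem ex_Q (hB : BrStmt) (hΛ : Λ.Ok) (hc : m.Ctr) (ha : m.Anch) {x : Pt} (hx : Sees Λ m x) :
    Ex (m.W 0) (Q Λ.J x) ≤ Λ.J.card * (24 * Real.exp Λ.τ) := by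
  have hC := hc.cen ha
  unfold Q
  rw [Ex_sum _ fun y _ => hC.ig ((tame_d x (x + y)).pow 4), ← nsmul_eq_mul]
  refine sum_le_card_nsmul _ _ _ fun y hy => ?_
  rcases hΛ.mem_or.1 hy with h | h
  · have := edge4 hB hΛ hc ha (hx (x, x + y) (by simpa using h) (Or.inl rfl))
    simpa only [dE] using this
  · have := edge4 hB hΛ hc ha (hx (x + y, x) (by simpa using h) (Or.inr rfl))
    simp only [dE] at this
    refine le_of_eq_of_le (Ex_congr fun s _ => ?_) this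
    push_cast
    ring

theorem JL_pow (J : Finset Pt) (x : Pt) (s : Cfg Pt) : JL J x s ^ 4 ≤ (J.card : ℝ) ^ 3 * Q J x s := by
  have h1 : |JL J x s| ≤ ∑ y ∈ J, |((s (x + y) - s x : ℤ) : ℝ)| :=
    (abs_sum_le_sum_abs _ _).trans (sum_le_sum fun y _ => by
      rw [abs_sub_comm]; push_cast; exact le_rfl)
  have h2 := pow_sum_le_card_mul_sum_pow (s := J) (f := fun y => |((s (x + y) - s x : ℤ) : ℝ)|)
    (fun _ _ => abs_nonneg _) 3
  have h3 : JL J x s ^ 4 = |JL J x s| ^ 4 := ((by decide : Even 4).pow_abs _).symm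
  rw [h3]
  refine (pow_le_pow_left₀ (abs_nonneg _) h1 4).trans (h2.trans_eq ?_)
  congr 1
  exact sum_congr rfl fun y _ => (by decide : Even 4).pow_abs _

theorem es_sq {t : ℝ} (ht : 0 < t) (h : t ≤ Λ.τ) (x : Pt) (s : Cfg Pt) :
    es Λ x s ^ 2 ≤ 2 * (Λ.J.card : ℝ) * (Λ.J.card + Q Λ.J x s / t ^ 4) := by
  have h1 := pow_sum_le_card_mul_sum_pow (s := Λ.J)
    (f := fun y => Tau5.eps Λ.xy Λ.τ (s (x + y) - s x))
    (fun _ _ => Tau5.eps_nonneg _ (ht.trans_le h) _) 1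
  have h2 : ∑ y ∈ Λ.J, Tau5.eps Λ.xy Λ.τ (s (x + y) - s x) ^ (1 + 1) ≤
      ∑ y ∈ Λ.J, 8 * (1 + ((s (x + y) - s x : ℤ) : ℝ) ^ 4 / t ^ 4) := sum_le_sum fun y _ => by
    have a := Tau5.eps_le' Λ.xy ht h (s (x + y) - s x)
    set k : ℝ := ((s (x + y) - s x : ℤ) : ℝ)
    have b : k ^ 4 / t ^ 4 = (|k| / t) ^ 4 := by rw [div_pow, (by decide : Even 4).pow_abs]
    have c : 0 ≤ |k| / t := by positivity
    rw [b, ← sq_abs]
    generalize |k| / t = u at a c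
    refine (pow_le_pow_left₀ (abs_nonneg _) a 2).trans ?_
    nlinarith [sq_nonneg (u - 1), sq_nonneg (u ^ 2 - 1), sq_nonneg (u ^ 2 - u), mul_nonneg c c,
      mul_nonneg c (sq_nonneg (u - 1)), mul_nonneg (mul_nonneg c c) (sq_nonneg (u - 1))]
  rw [← mul_sum, sum_add_distrib, ← sum_div, sum_const, nsmul_eq_mul, mul_one] at h2
  have h3 := h1.trans (mul_le_mul_of_nonneg_left h2 (by positivity))
  rw [es, div_pow]
  unfold Q
  linarith

theorem sees_near {U : Finset Pt} {x : Pt} (h : Λ.Near m U) (hx : x ∈ U) : Sees Λ m x :=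
  fun e he k => by
    have k' : e.1 ∈ U ∨ e.2 ∈ U := by
      rcases k with k | k
      exacts [Or.inl (k ▸ hx), Or.inr (k ▸ hx)]
    exact Or.inl ⟨(h.1 e k').2 he, h.2.1 e ((h.1 e k').2 he) k'⟩

theorem ends {e : Pt × Pt} {x : Pt} (he : e.2 - e.1 ∈ Λ.Jp) (k : e.1 = x ∨ e.2 = x) :
    e.1 ∈ bl x Λ.rg ∧ e.2 ∈ bl x Λ.rg := by
  rcases k with rfl | rfl
  exacts [⟨self_mem_bl _ _, Lat.edge_near he⟩, ⟨Lat.edge_near' he, self_mem_bl _ _⟩]

end M23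

open M23

/-- MOM -/
theorem momStmt (hB : BrStmt) : MomStmt := by
  refine ⟨fun F => ?_, fun Λ _ x => ⟨fun m U h hx => sees_near h hx, fun B e he _ => ?_,
    fun B z hx e he k => ?_, fun m H h hd e he k => ?_⟩⟩
  · obtain ⟨n, hn0⟩ : ∃ n : ℝ, n = (F.J.card : ℝ) := ⟨_, rfl⟩
    obtain ⟨q, hq0⟩ : ∃ q : ℝ, q = n * (24 * Real.exp F.τ₂) := ⟨_, rfl⟩
    have ht := F.pos
    have n0 : 0 ≤ n := hn0 ▸ Nat.cast_nonneg _
    have q0 : 0 ≤ q := by rw [hq0]; positivity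
    refine ⟨n ^ 3 * q + n ^ 3 * q + 2 * n * (n + q / F.τ₁ ^ 4) + 1, le_add_of_nonneg_left
      (by positivity), fun Λ hΛ m x y v hc ha hx hy hv => ?_⟩
    have hC := hc.cen ha
    have ok := hΛ.ok
    have hn : (Λ.J.card : ℝ) = n := by rw [hΛ.1, hn0]
    have hq : ∀ {z}, Sees Λ m z → Ex (m.W 0) (Q Λ.J z) ≤ q := fun hz =>
      (ex_Q hB ok hc ha hz).trans (by rw [hn, hq0]; have := hΛ.tau_le; gcongr)
    have tx := (tame_Q Λ.J x).const_mul (n ^ 3)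
    have ty := (tame_Q Λ.J y).const_mul (n ^ 3)
    have tv := ((Tame.const n).add ((tame_Q Λ.J v).div_const (F.τ₁ ^ 4))).const_mul (2 * n)
    have key : ∀ G : Cfg Pt → ℝ, Tame G → (∀ s, |G s| ≤
        JL Λ.J x s ^ 4 + JL Λ.J y s ^ 4 + es Λ v s ^ 2 + 1) → Ex (m.W 0) (fun s => |G s|) ≤
          n ^ 3 * q + n ^ 3 * q + 2 * n * (n + q / F.τ₁ ^ 4) + 1 := fun G hG h => by
      refine (Ex_mono hC.nonneg (hC.ig hG.abs) (hC.ig (((tx.add ty).add tv).add (Tame.const 1)))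
        fun s => (h s).trans ?_).trans ?_
      · have a := JL_pow Λ.J x s
        have b := JL_pow Λ.J y s
        have c := es_sq ht hΛ.le_tau v s
        rw [hn] at a b c
        linarith
      · rw [hC.wt.ex_add_const (hC.ig ((tx.add ty).add tv)), Ex_add (hC.ig (tx.add ty)) (hC.ig tv),
          Ex_add (hC.ig tx) (hC.ig ty), Ex_const_mul, Ex_const_mul, Ex_const_mul,
          Ex_add (hC.wt.ig_const n) (hC.ig ((tame_Q Λ.J v).div_const _)), hC.wt.ex_const]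
        simp only [div_eq_inv_mul]
        rw [Ex_const_mul]
        have a := hq hx
        have b := hq hy
        have c := hq hv
        gcongr
    have a := tame_JL Λ.J x
    have b := tame_JL Λ.J y
    have c := tame_es ok v
    refine ⟨key _ a fun s => ?_, key _ c fun s => ?_, key _ (a.mul b) fun s => ?_,
      key _ (a.mul c) fun s => ?_, key _ ((a.mul b).mul c) fun s => ?_⟩
    all_goals
      try simp only [abs_mul]
      rw [← (by decide : Even 4).pow_abs (JL Λ.J x s), ← (by decide : Even 4).pow_abs (JL Λ.J y s),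
        ← sq_abs (es Λ v s)]
      generalize |JL Λ.J x s| = a, |JL Λ.J y s| = b, |es Λ v s| = c
      nlinarith [sq_nonneg (a ^ 2 - b ^ 2), sq_nonneg (a * b - c), sq_nonneg (a ^ 2 - 1 / 2),
        sq_nonneg (b ^ 2 - 1 / 2), sq_nonneg (a - 1), sq_nonneg (c - 1), sq_nonneg (a - c),
        sq_nonneg (a - b), sq_nonneg (b ^ 2), sq_nonneg (a ^ 2), sq_nonneg c, sq_nonneg (a * b)]
  · by_cases h : e.1 ∈ B ∨ e.2 ∈ B
    exacts [Or.inl ⟨Lat.mem_edT.2 ⟨he, h⟩, rfl⟩, Or.inr (not_or.1 h)]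
  · exact Or.inl ⟨Lat.mem_edI.2 ⟨he, hx (ends he k).1, hx (ends he k).2⟩, rfl⟩
  · exact (h e he k).imp (fun h' => ⟨mem_filter.2 ⟨h'.1, disjoint_left.1 hd (ends he k).1,
      disjoint_left.1 hd (ends he k).2⟩, h'.2⟩)
      fun h' => ⟨fun a => h'.1 (mem_sdiff.1 a).1, fun a => h'.2 (mem_sdiff.1 a).1⟩

/-- PRO -/
theorem proStmt (hA : AlgStmt) (hM : MomStmt) (hS : SemiStmt) : ProStmt := fun F P => by
  obtain ⟨C, C1, hC⟩ := hM.1 F
  have P1 := P.hC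
  have r1 : (0 : ℝ) ≤ (P.r₀ : ℝ) ^ P.α := by positivity
  have r2 : (0 : ℝ) ≤ (P.r₀ : ℝ) ^ P.β := by positivity
  refine ⟨P.C * (2 * C) * (1 + (P.r₀ : ℝ) ^ P.α + (P.r₀ : ℝ) ^ P.β), ?_,
    fun Λ hΛ L hR z R h1 h2 => ?_⟩
  · have : 1 ≤ P.C * (2 * C) := by nlinarith
    nlinarith
  have ok := hΛ.ok
  obtain ⟨W2, hr, -⟩ := hR.gd
  have hr' : Λ.rg ≤ P.r₀ := by omega
  obtain ⟨iJ, oJ, dJ, iE, eE, dE', -⟩ := hA.2.2 Λ ok z
  have sub : bl z Λ.rg ⊆ bl z P.r₀ := bl_mono z hr'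
  have iJ' : Ins z P.r₀ (JL Λ.J z) := ⟨iJ.1.mono sub, iJ.2⟩
  have iE' : Ins z P.r₀ (es Λ z) := ⟨iE.1.mono sub, iE.2⟩
  have S := (hS Λ ok P.W z P.r₀ W2 hr').1
  have sN : Sees Λ (Λ.Nr (bl z (P.W * P.r₀)) z) z :=
    (hM.2 Λ ok z).2.2.1 _ z (bl_mono z (by nlinarith))
  have mN := hC Λ hΛ _ z z z (ok.ctr_Nr _ _) (ok.anch_Nr_bl (self_mem_bl _ _)) sN sN sN
  have R0 : (0 : ℝ) ≤ R := Nat.cast_nonneg _
  have e : ∀ a : ℝ, ((P.r₀ : ℝ) / R) ^ a = (P.r₀ : ℝ) ^ a * (R : ℝ) ^ (-a) := fun a => by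
    rw [Real.div_rpow (Nat.cast_nonneg _) R0, Real.rpow_neg R0, div_eq_mul_inv]
  have fin : ∀ a x : ℝ, x ≤ 2 * C → (P.r₀ : ℝ) ^ a ≤ 1 + (P.r₀ : ℝ) ^ P.α + (P.r₀ : ℝ) ^ P.β →
      P.C * ((P.r₀ : ℝ) / R) ^ a * x ≤
        P.C * (2 * C) * (1 + (P.r₀ : ℝ) ^ P.α + (P.r₀ : ℝ) ^ P.β) * (R : ℝ) ^ (-a) := fun a x hx ha => by
    rw [e]
    calc _ ≤ P.C * ((1 + (P.r₀ : ℝ) ^ P.α + (P.r₀ : ℝ) ^ P.β) * (R : ℝ) ^ (-a)) * (2 * C) := by
          refine (mul_le_mul_of_nonneg_left hx (by positivity)).trans ?_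
          gcongr
      _ = _ := by ring
  refine ⟨(hR.odd z _ R _ le_rfl h1 h2 iJ' oJ dJ).trans
    (fin _ _ (((S _ iJ').2.1.trans mN.1).trans (by linarith)) (by linarith)), fun m hm => ?_⟩
  have hc := hm.ctr.cen hm.anch
  have sm : Sees Λ m z := (hM.2 Λ ok z).1 m _ hm.near (self_mem_bl _ _)
  have c := (abs_Ex_le hc.nonneg (hc.ig iE.2)).trans (hC Λ hΛ m z z z hm.ctr hm.anch sm sm sm).2.1
  refine (hR.even z _ R (ec Λ m z) m le_rfl h1 h2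
    ⟨iE'.1.sub (DepG.const _ _), iE'.2.sub (Tame.const _)⟩ (fun s => by simp only [ec, eE s])
    (fun s => by simp only [ec, (dE' s).1, (dE' s).2, and_self]) hm ?_).trans
    (fin _ _ (((S _ iE').2.2.1 _).trans ?_) (by linarith))
  · unfold ec
    rw [Ex_sub (hc.ig iE.2) (hc.wt.ig_const _), hc.wt.ex_const, sub_self]
  · have := (S _ iE').2.1.trans mN.2.1
    linarith

end Crest.Agent.T145.Df
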