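import Crest.Agent.T145.EvDef_2
import Crest.Agent.T145.FlBas_4
import Crest.Agent.T145.DfMom_23
import Crest.Agent.T145.Br_73

/-!
# Row 145, even sector: the energy star, bare bounds (`Ev.basStmt`) and a priori growth (`Ev.apStmt`) (helper9)
-/

set_option autoImplicit false

namespace Crest.Agent.T145.Ev

open Finset Real Fl Om

namespace B9

variable {p : Par} {W : ℕ} {Λ : Lat} {ω : Sta} {r₁ L N : ℕ} {F : Cfg Pt → ℝ}

/-- the flowed norm is almost monotone -/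
theorem nu_le (hF : FusStmt) (h : Gs p Λ L) {z : Pt} {a R : ℕ} (h0 : p.r₀ ≤ a) (ha : a ≤ R)
    (hR : p.w * R ≤ L) (hI : Ins z a F) : nu Λ p.w z R F ≤ 2 * nu Λ p.w z a F := by
  simpa using (hF p Λ L h z R hR).1 a F (fun _ => 1) h0 ha hI (DepG.const _ _) (Out.const _ _)
    fun _ => by simp

theorem ins_et (hΛ : Λ.Ok) (z : Pt) {r : ℕ} (hr : Λ.rg ≤ r) : Ins z r (et Λ ω z) :=
  ((ins_est hΛ z).mono hr).sub_const _

theorem even_et (z : Pt) : EvenF (et Λ ω z) := (even_est z).sub (EvenF.const _)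

theorem d4_et (hΛ : Λ.Ok) (z : Pt) : D4 z (et Λ ω z) := (d4_est hΛ z).sub (D4.const _ _)

theorem rg_le (h : Env p Λ ω L N) : Λ.rg ≤ N := by
  have := h.gd.2.1; have := h.big; have := h.le; have := h.w4; nlinarith

theorem om_est (h : Env p Λ ω L N) (z : Pt) : ω (est Λ z) = ω (est Λ 0) := by
  rw [← h.trl 0 z _ ((ins_est h.mem.ok 0).mono (rg_le h)).1, trl_est, zero_add]

theorem trl_et (h : Env p Λ ω L N) (z x : Pt) : trl z (et Λ ω x) = et Λ ω (x + z) := by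
  rw [← show (fun s => trl z (est Λ x) s - ω (est Λ x)) = trl z (et Λ ω x) from rfl, trl_est,
    om_est h x, ← om_est h (x + z)]
  rfl

/-- second moment of the energy star -/
theorem mom (F : Fa) : ∃ C : ℝ, 1 ≤ C ∧ ∀ Λ, F.Mem Λ → ∀ (m : Mdl Pt) (z : Pt), m.Ctr →
    m.Anch → Df.Sees Λ m z → Ex (m.W 0) (fun s => est Λ z s ^ 2) ≤ C ^ 2 ∧ |Ex (m.W 0) (est Λ z)| ≤ C := by
  have ht := F.pos
  set A := 2 * (F.J.card : ℝ) * (F.J.card + F.J.card * (24 * exp F.τ₂) / F.τ₁ ^ 4) with hA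
  have A0 : 0 ≤ A := by positivity
  refine ⟨A + 1, by linarith, fun Λ hΛ m z hc ha hz => ?_⟩
  have hC := hc.cen ha
  have ok := hΛ.ok
  have tE := tame_est ok z
  have h1 : Ex (m.W 0) (fun s => est Λ z s ^ 2) ≤ A := by
    have tQ := Df.M23.tame_Q Λ.J z
    refine (Ex_mono hC.nonneg (hC.ig (tE.pow 2)) (hC.ig (((Tame.const (Λ.J.card : ℝ)).add
      (tQ.div_const (F.τ₁ ^ 4))).const_mul (2 * (Λ.J.card : ℝ))))
      fun s => Df.M23.es_sq ht hΛ.le_tau z s).trans ?_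
    rw [Ex_const_mul, Ex_add (hC.wt.ig_const _) (hC.ig (tQ.div_const _)), hC.wt.ex_const, Ex_div_const,
      hA, ← hΛ.1]
    have := (Df.M23.ex_Q brStmt ok hc ha hz).trans
      (show _ ≤ (Λ.J.card : ℝ) * (24 * exp F.τ₂) by have := hΛ.tau_le; gcongr)
    gcongr
  refine ⟨h1.trans (by nlinarith), (abs_Ex_le hC.nonneg (hC.ig tE)).trans ?_⟩
  refine (Ex_mono hC.nonneg (hC.ig tE.abs) (hC.ig ((tE.pow 2).add (Tame.const 1))) fun s => ?_).trans ?_
  · nlinarith [sq_nonneg (|est Λ z s| - 1), sq_abs (est Λ z s), abs_nonneg (est Λ z s)]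
  · rw [Ex_add (hC.ig (tE.pow 2)) (hC.wt.ig_const _), hC.wt.ex_const]; linarith

theorem ex_sq {m : Mdl Pt} (hC : Cen (m.W 0)) (hT : Tame F) {C c : ℝ}
    (h : Ex (m.W 0) (fun s => F s ^ 2) ≤ C ^ 2) (hc : |c| ≤ C) :
    Ex (m.W 0) (fun s => (F s - c) ^ 2) ≤ (2 * C) ^ 2 := by
  refine (Ex_mono hC.nonneg (hC.ig ((hT.sub (Tame.const c)).pow 2))
    (hC.ig (((hT.pow 2).const_mul 2).add (Tame.const (2 * C ^ 2)))) fun s => ?_).trans ?_
  · nlinarith [sq_nonneg (F s + c), sq_abs c, abs_nonneg c]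
  · rw [Ex_add (hC.ig ((hT.pow 2).const_mul 2)) (hC.wt.ig_const _), hC.wt.ex_const, Ex_const_mul]
    linarith

/-- the norm is bounded by the second moment -/
theorem nm_le (hΛ : Λ.Ok) {z : Pt} {c : ℕ} (hT : Tame F) {P : ℝ}
    (h : Nc.Nm Λ z c (fun s => F s ^ 2) ≤ P ^ 2) : Nc.Nm Λ z c F ≤ P ^ 2 + 1 := by
  have cN := (hΛ.ctr_Nr (bl z c) z).cen (hΛ.anch_Nr_bl (self_mem_bl _ _))
  refine (Ex_mono cN.nonneg (cN.ig hT.abs) (cN.ig ((hT.pow 2).abs.add (Tame.const 1))) fun s => ?_).trans ?_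
  · rw [abs_of_nonneg (sq_nonneg (F s))]
    nlinarith [sq_nonneg (|F s| - 1), sq_abs (F s), abs_nonneg (F s)]
  · rw [Ex_add (cN.ig (hT.pow 2).abs) (cN.wt.ig_const _), cN.wt.ex_const]
    exact add_le_add_left h _

end B9

open B9

/-- BAS -/
theorem basStmt : BasStmt := fun p => by
  obtain ⟨C, C1, hC⟩ := mom p.F
  refine ⟨2 * C, by linarith, fun Λ ω L N h z => ?_⟩
  have hΛ := h.mem
  have ok := hΛ.ok
  obtain ⟨m, hm, hω⟩ := h.amb z
  have hN := rg_le h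
  have cm := hm.ctr.cen hm.anch
  have tE := tame_est ok z
  have e0 := hω _ ((ins_est ok z).mono hN).1
  have h0 := hC Λ hΛ m z hm.ctr hm.anch (Df.M23.sees_near hm.near (self_mem_bl _ _))
  have h1 : |ω (est Λ z)| ≤ C := e0 ▸ h0.2
  refine ⟨?_, by rw [trl_et h, zero_add], ins_et ok z le_rfl, even_et z, d4_et ok z, ?_, fun c n hc => ?_⟩
  · rw [hω _ (ins_et ok z hN).1]
    unfold et
    rw [Ex_sub (cm.ig tE) (cm.wt.ig_const _), cm.wt.ex_const, e0, sub_self]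
  · rw [hω _ ((ins_et ok z hN).pow 2).1]
    exact ex_sq cm tE h0.1 h1
  have c1 := ok.ctr_Nr (bl c n) c
  have a1 : (Λ.Nr (bl c n) c).Anch := ok.anch_Nr_bl (self_mem_bl _ _)
  have h2 := (hC Λ hΛ _ z c1 a1 (((Df.momStmt brStmt).2 Λ ok z).2.2.1 _ c hc)).1
  simp only [Nc.Nm, Nc.EN, abs_pow, sq_abs]
  exact ⟨ex_sq (c1.cen a1) tE h2 h1, h2.trans (by nlinarith)⟩

/-- AP -/
theorem apStmt (hS : SemiStmt) (hF : FusStmt) : ApStmt := fun p W hW => by
  obtain ⟨P, P1, hP⟩ := basStmt p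
  have W1 : (1 : ℝ) ≤ W := by exact_mod_cast (show 1 ≤ W by omega)
  have C0 : (1 : ℝ) ≤ 34 * (W : ℝ) ^ 2 := by nlinarith
  have P0 : (1 : ℝ) ≤ P ^ 2 + 1 := by nlinarith
  refine ⟨34 * (W : ℝ) ^ 2 * (2 * (P ^ 2 + 1)), by nlinarith, fun E hE => ?_⟩
  have h := hE.ed.toEnv
  have ok := h.mem.ok
  have hw := h.w4
  have hr := h.gd.2.1
  have B := hP _ _ _ _ h 0
  have r0 := hE.r0
  have r8 := hE.r8
  have he : 0 ≤ ew p.w := div_nonneg (div_nonneg (log_nonneg one_le_two) (log_nonneg (by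
    have : (1 : ℝ) ≤ (p.w : ℝ) ^ 4 := one_le_pow₀ (by exact_mod_cast (show 1 ≤ p.w by omega))
    linarith))) (by norm_num)
  have I : ∀ a, p.r₀ ≤ a → Ins 0 a (E.e 0) := fun a ha => ins_et ok 0 (by omega)
  have S := fun a (ha : p.r₀ ≤ a) => (hS E.Λ p.w a 0 ok (by nlinarith)).1 _ (I a ha)
  have h1 : ∀ a, p.r₀ ≤ a → nu E.Λ p.w 0 a (E.e 0) ≤ P ^ 2 + 1 := fun a ha =>
    (S a ha).2.1.trans (nm_le ok (I a ha).2 (B.2.2.2.2.2.2 0 _ (bl_mono 0 (by nlinarith))).1)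
  have h2 : ∀ r a : ℕ, E.r₁ ≤ r → r ≤ a → p.w * a ≤ E.L → (a : ℝ) ^ 2 * nu E.Λ p.w 0 a (E.e 0) ≤
      34 * (W : ℝ) ^ 2 * ((a : ℝ) / r) ^ (ew p.w / 10) * ((r : ℝ) ^ 2 * nu E.Λ p.w 0 r (E.e 0)) := by
    intro b a hb hab ha
    have b1 : 1 ≤ b := by omega
    set m := Nat.log W (a / b) with hm
    have h2 : W ^ m * b ≤ a := (Nat.le_div_iff_mul_le b1).1
      (Nat.pow_log_le_self W (Nat.div_pos hab b1).ne')
    have h3 : a < W ^ (m + 1) * b := (Nat.div_lt_iff_lt_mul b1).1 (Nat.lt_pow_succ_log_self hW _)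
    have h4 : b ≤ W ^ m * b := Nat.le_mul_of_pos_left b (by positivity)
    have h5 := (hE.epur b m (E.e 0) hb ((Nat.mul_le_mul_left _ h2).trans ha) (I b (by omega))
      (even_et 0) (d4_et ok 0)).1
    simp only [show E.ω (E.e 0) = 0 from B.1, sub_zero] at h5
    have h6 := nu_le hF h.toGs (show p.r₀ ≤ W ^ m * b by omega) h2 ha (I _ (by omega))
    have hν := (S b (by omega)).1
    have b0 : (0 : ℝ) < b := by exact_mod_cast b1
    have h7 : ((W : ℝ) ^ m) ^ (ew p.w / 10) ≤ ((a : ℝ) / b) ^ (ew p.w / 10) :=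
      rpow_le_rpow (by positivity) ((le_div_iff₀ b0).2 (by exact_mod_cast h2)) (by positivity)
    have h8 : (a : ℝ) ≤ W ^ (m + 1) * b := by exact_mod_cast h3.le
    have h9 : (W : ℝ) ^ ((-2 + ew p.w / 10) * m) =
        ((W : ℝ) ^ m) ^ (ew p.w / 10) / ((W : ℝ) ^ m) ^ 2 := by
      rw [mul_comm, rpow_mul (by positivity), rpow_natCast, rpow_add (by positivity),
        rpow_neg (by positivity), rpow_two]; ring
    calc _ ≤ ((W : ℝ) ^ (m + 1) * b) ^ 2 *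
          (2 * (17 * (W : ℝ) ^ ((-2 + ew p.w / 10) * m) * nu E.Λ p.w 0 b (E.e 0))) :=
          mul_le_mul (by gcongr) (h6.trans (by gcongr)) (S a (by omega)).1 (by positivity)
      _ = 34 * (W : ℝ) ^ 2 * ((W : ℝ) ^ m) ^ (ew p.w / 10) * ((b : ℝ) ^ 2 * nu E.Λ p.w 0 b (E.e 0)) := by
          rw [h9]; field_simp; ring
      _ ≤ _ := by gcongr
  refine ⟨fun a ha => (h1 a ha).trans (by nlinarith), fun r a hr hra ha => (h2 r a hr hra ha).trans ?_,
    fun R hR a ha hL => ?_⟩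
  · have := (S r (by omega)).1
    exact mul_le_mul_of_nonneg_right (mul_le_mul_of_nonneg_right (by nlinarith) (by positivity))
      (by positivity)
  have r1 : (8 : ℝ) ≤ E.r₁ := by exact_mod_cast r8
  have R0 : 0 < R := by linarith
  rcases Nat.eq_zero_or_pos a with rfl | a0
  · rw [Nat.cast_zero, zero_pow two_ne_zero, zero_mul]; positivity
  rcases le_total (a : ℝ) R with haR | haR
  · have h3 : 1 ≤ max (a / R) (R / a) ^ ew p.w :=
      one_le_rpow (le_max_of_le_right ((one_le_div (by exact_mod_cast a0)).2 haR)) he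
    refine le_trans ?_ (le_mul_of_one_le_right (by positivity) h3)
    calc _ ≤ R ^ 2 * (P ^ 2 + 1) := mul_le_mul (by gcongr) (h1 a ha) (S a ha).1 (by positivity)
      _ = (P ^ 2 + 1) * R ^ 2 := by ring
      _ ≤ _ := mul_le_mul_of_nonneg_right (by nlinarith) (by positivity)
  · have h3 : E.r₁ ≤ ⌈R⌉₊ := by exact_mod_cast hR.trans (Nat.le_ceil R)
    have h4 : (⌈R⌉₊ : ℝ) ^ 2 ≤ 2 * R ^ 2 := by
      have := (Nat.ceil_lt_add_one R0.le).le
      have : (0 : ℝ) ≤ ⌈R⌉₊ := by positivity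
      nlinarith
    have h5 : ((a : ℝ) / ⌈R⌉₊) ^ (ew p.w / 10) ≤ max (a / R) (R / a) ^ ew p.w :=
      (rpow_le_rpow (by positivity) ((div_le_div_of_nonneg_left (by positivity) R0 (Nat.le_ceil R)).trans
        (le_max_left _ (R / a))) (by positivity)).trans (rpow_le_rpow_of_exponent_le
          (le_max_of_le_left ((one_le_div R0).2 haR)) (by linarith))
    refine (h2 _ a h3 (Nat.ceil_le.2 haR) hL).trans ?_
    have h6 := h1 ⌈R⌉₊ (by omega)
    have h7 := (S ⌈R⌉₊ (by omega)).1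
    calc _ ≤ 34 * (W : ℝ) ^ 2 * max (a / R) (R / a) ^ ew p.w * (2 * R ^ 2 * (P ^ 2 + 1)) := by gcongr
      _ = _ := by ring

end Crest.Agent.T145.Ev
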