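import Crest.Agent.T145.EvDef_2
import Crest.Agent.T145.FlBare_80
import Crest.Agent.T145.FlSXa_44
import Crest.Agent.T145.Route_51

/-!
# Row 145, the even sector: CG (helper51)
-/

set_option autoImplicit false

namespace Crest.Agent.T145.Ev

open Finset Real Fl Xi

namespace Cg51

theorem abs_sub_sin (x : ℝ) : |x - sin x| ≤ x ^ 2 := by
  rw [← sq_abs]
  by_cases h : |x| ≤ 6
  · refine (abs_sub_sin_le x).trans ?_
    nlinarith [mul_le_mul_of_nonneg_right h (sq_nonneg |x|)]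
  · have := abs_sub x (sin x)
    have := abs_sin_le_one x
    nlinarith

theorem sn_near {a : ℝ} (ha : 0 < a) (x : ℝ) : |x - sin (a * x) / a| ≤ a * x ^ 2 ∧ |sin (a * x) / a| ≤ |x| := by
  constructor
  · rw [show x - sin (a * x) / a = (a * x - sin (a * x)) / a by field_simp, abs_div, abs_of_pos ha,
      div_le_iff₀ ha]
    exact (abs_sub_sin _).trans_eq (by ring)
  · rw [abs_div, abs_of_pos ha, div_le_iff₀' ha]
    exact abs_sin_le_abs.trans_eq (by rw [abs_mul, abs_of_pos ha])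

/-- linear factors from small shifts of the phase -/
theorem core {α : Type} {W A A' θ : α → ℝ} {a δ B : ℝ} (hW : Wt W) (ha : 0 < a)
    (i2 : Ig W fun s => A s ^ 2) (i4 : Ig W fun s => A s ^ 4) (j2 : Ig W fun s => A' s ^ 2)
    (j4 : Ig W fun s => A' s ^ 4) (b2 : Ex W (fun s => A s ^ 2) ≤ B) (b4 : Ex W (fun s => A s ^ 4) ≤ B)
    (c2 : Ex W (fun s => A' s ^ 2) ≤ B) (c4 : Ex W (fun s => A' s ^ 4) ≤ B)
    (h : ∀ σ σ' ψ : ℝ, |σ| ≤ a → |σ'| ≤ a → |Ex W fun s => cos (θ s + σ * A s + σ' * A' s + ψ)| ≤ δ) :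
    |Ex W fun s => A s * cos (θ s)| ≤ δ / a + a * B ∧
      |Ex W fun s => A s * A' s * cos (θ s)| ≤ δ / a ^ 2 + 2 * (a * B) := by
  have ic : ∀ σ σ' ψ : ℝ, Ig W fun s => cos (θ s + σ * A s + σ' * A' s + ψ) := fun _ _ _ =>
    hW.ig_bdd fun _ => abs_cos_le_one _
  have p : |a| ≤ a := (abs_of_pos ha).le
  have n : |-a| ≤ a := by rwa [abs_neg]
  have z : |(0 : ℝ)| ≤ a := by rw [abs_zero]; exact ha.le
  have tr : ∀ {F G H : α → ℝ} {x y : ℝ}, Ig W G → Ig W H → (∀ s, |F s - G s| ≤ H s) → |Ex W G| ≤ x →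
      Ex W H ≤ y → |Ex W F| ≤ x + y := fun {F G H x y} iG iH e hx hy => by
    have iD : Ig W fun s => F s - G s := iH.of_abs_le hW.nonneg fun s _ => e s
    rw [show F = fun s => G s + (F s - G s) from funext fun s => by ring, Ex_add iG iD]
    exact (abs_add_le _ _).trans (add_le_add hx ((abs_Ex_le hW.nonneg iD).trans
      ((Ex_mono hW.nonneg (iD.abs hW.nonneg) iH e).trans hy)))
  constructor
  · refine tr (G := fun s => (cos (θ s + a * A s + 0 * A' s + -(π / 2)) -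
      cos (θ s + -a * A s + 0 * A' s + -(π / 2))) / (2 * a)) (((ic _ _ _).sub (ic _ _ _)).div_const _)
      (i2.const_mul a) (fun s => ?_) ?_ ?_
    · rw [← sub_eq_add_neg, ← sub_eq_add_neg, cos_sub_pi_div_two, cos_sub_pi_div_two, zero_mul, add_zero,
        add_zero, neg_mul, ← sub_eq_add_neg, sin_add, sin_sub,
        show ∀ x y c : ℝ, A s * c - (x + c * y - (x - c * y)) / (2 * a) = (A s - y / a) * c from
          fun _ _ _ => by field_simp; ring, abs_mul]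
      exact (mul_le_of_le_one_right (abs_nonneg _) (abs_cos_le_one _)).trans (sn_near ha _).1
    · rw [Ex_div_const, Ex_sub (ic _ _ _) (ic _ _ _), abs_div, abs_of_pos (by positivity : 0 < 2 * a),
        div_le_div_iff₀ (by positivity) ha]
      have := (abs_sub _ _).trans (add_le_add (h _ _ (-(π / 2)) p z) (h _ _ (-(π / 2)) n z))
      nlinarith
    · rw [Ex_const_mul]; exact mul_le_mul_of_nonneg_left b2 ha.le
  · refine tr (G := fun s => (cos (θ s + a * A s + -a * A' s + 0) + cos (θ s + -a * A s + a * A' s + 0) -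
      (cos (θ s + a * A s + a * A' s + 0) + cos (θ s + -a * A s + -a * A' s + 0))) / (4 * a ^ 2))
      ((((ic _ _ _).add (ic _ _ _)).sub ((ic _ _ _).add (ic _ _ _))).div_const _)
      (((i4.add j2).add (i2.add j4)).const_mul (a / 2)) (fun s => ?_) ?_ ?_
    · have e : (cos (θ s + a * A s + -a * A' s + 0) + cos (θ s + -a * A s + a * A' s + 0) -
          (cos (θ s + a * A s + a * A' s + 0) + cos (θ s + -a * A s + -a * A' s + 0))) / (4 * a ^ 2) =
          sin (a * A s) / a * (sin (a * A' s) / a) * cos (θ s) := by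
        simp only [add_zero, neg_mul, cos_add, sin_add, cos_neg, sin_neg]; field_simp; ring
      rw [e, ← sub_mul, abs_mul]
      refine (mul_le_of_le_one_right (abs_nonneg _) (abs_cos_le_one _)).trans ?_
      obtain ⟨u1, u2⟩ := sn_near ha (A s)
      obtain ⟨v1, -⟩ := sn_near ha (A' s)
      generalize sin (a * A s) / a = x at *
      generalize sin (a * A' s) / a = y at *
      rw [show A s * A' s - x * y = (A s - x) * A' s + x * (A' s - y) by ring]
      refine (abs_add_le _ _).trans ?_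
      rw [abs_mul, abs_mul]
      have w1 := mul_le_mul_of_nonneg_right u1 (abs_nonneg (A' s))
      have w2 := mul_le_mul u2 v1 (abs_nonneg _) (abs_nonneg _)
      have w3 := mul_nonneg ha.le (sq_nonneg (A s ^ 2 - |A' s|))
      have w4 := mul_nonneg ha.le (sq_nonneg (A' s ^ 2 - |A s|))
      have w5 := congrArg (a * ·) (sq_abs (A s))
      have w6 := congrArg (a * ·) (sq_abs (A' s))
      nlinarith
    · rw [Ex_div_const, Ex_sub ((ic _ _ _).add (ic _ _ _)) ((ic _ _ _).add (ic _ _ _)),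
        Ex_add (ic _ _ _) (ic _ _ _), Ex_add (ic _ _ _) (ic _ _ _), abs_div,
        abs_of_pos (by positivity : 0 < 4 * a ^ 2), div_le_div_iff₀ (by positivity) (by positivity)]
      have := (abs_sub _ _).trans (add_le_add ((abs_add_le _ _).trans (add_le_add (h _ _ 0 p n) (h _ _ 0 n p)))
        ((abs_add_le _ _).trans (add_le_add (h _ _ 0 p p) (h _ _ 0 n n))))
      nlinarith [pow_pos ha 2]
    · rw [Ex_const_mul, Ex_add (i4.add j2) (i2.add j4), Ex_add i4 j2, Ex_add i2 j4]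
      nlinarith

/-- the energy of an admissible test function -/
theorem E0_le {R M : ℝ} {v : Pt → ℝ} (hR : 1 ≤ R) (hM : 1 ≤ M) (h : Sv R M v) :
    E0 (bl 0 ⌊M * R⌋₊) v ≤ 54 * M ^ 6 := by
  refine (B80.E0_le h.1 (k := M / (R / M) ^ 1) fun e he x _ =>
    h.2 [e] (by simp) (by simpa using he) x trivial).trans ?_
  have a : (⌊M * R⌋₊ : ℝ) ≤ M * R := Nat.floor_le (by positivity)
  have b : 1 ≤ M * R := one_le_mul_of_one_le_of_one_le hM hR
  rw [card_bl]; push_cast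
  refine (mul_le_mul_of_nonneg_left (pow_le_pow_left₀ (by positivity)
    (by linarith : 2 * (⌊M * R⌋₊ : ℝ) + 1 ≤ 3 * (M * R)) 2) (by positivity)).trans_eq ?_
  field_simp; norm_num

end Cg51

open Cg51 in
theorem cgStmt (hC : CmStmt) : CgStmt := fun p => by
  obtain ⟨Cm, Cm0, hC⟩ := hC p
  obtain ⟨k, hk⟩ := exists_nat_ge (2 * Cm)
  obtain ⟨K, hK⟩ : ∃ K, K = 24 * exp p.F.τ₂ * 54 ^ 2 := ⟨_, rfl⟩
  have K0 : 0 < K := by rw [hK]; positivity
  have e1 := one_le_exp Cm0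
  have e2 := le_mul_of_one_le_right Cm0 e1
  refine ⟨2 + 2 * K + Cm * exp Cm, k + 26, by linarith, ?_⟩
  intro Λ ω L N E R Y M hM g1 _ M2 h1 h2 q f v v' φ q0 q3 hf hv hv'
  have ok := E.mem.ok
  have Y0 := SX44.Y_pos hM
  have R1 := hM.1
  have M1 : 1 ≤ M := by linarith
  have n1 : M ≤ M ^ (k + 26) := le_self_pow₀ M1 (by omega)
  obtain ⟨C, hC'⟩ : ∃ C, C = 2 + 2 * K + Cm * exp Cm := ⟨_, rfl⟩
  rw [← hC'] at h1 h2 ⊢
  have CM : 2 * M ≤ C * M ^ (k + 26) := mul_le_mul (by linarith) n1 (by linarith) (by linarith)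
  have CC : C ≤ C * M ^ (k + 26) := le_mul_of_one_le_right (by linarith) (by linarith)
  have CY : C * Y ≤ 1 := (mul_le_mul_of_nonneg_right CC Y0.le).trans h1
  have Y1 : Y ≤ 1 := by nlinarith
  have CR : C ≤ R := by
    have a : C ≤ 1 / Y := (le_div_iff₀ Y0).2 CY
    exact a.trans ((le_self_pow₀ (by linarith) (by norm_num)).trans (SX44.R_ge hM))
  have RL : 2 * M * R ≤ L := (mul_le_mul_of_nonneg_right CM (by linarith)).trans h2
  have MR : R ≤ M * R := le_mul_of_one_le_left (by linarith) M1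
  have LN := E.le
  have u1 : ⌊M * R⌋₊ + 1 ≤ N := by
    have : (⌊M * R⌋₊ : ℝ) + 1 ≤ L := by linarith [Nat.floor_le (by linarith : 0 ≤ M * R)]
    have : ⌊M * R⌋₊ + 1 ≤ L := by exact_mod_cast this
    omega
  have u2 : ⌈2 * R⌉₊ ≤ N := (Nat.ceil_le.2 (by linarith)).trans LN
  have cm := (hC Λ ω L N E R Y hM Y1 (by linarith)
    ((mul_le_mul_of_nonneg_right (by linarith) (by linarith)).trans h2) g1 (by nlinarith) q q0 q3).2 0
  obtain ⟨m, hm, hr⟩ := E.amb 0
  have up : ∀ {g : Pt → ℝ} {b : ℝ} {n : ℕ}, n ≤ N → F2 (nnL.edI (bl 0 n)) g b → F2 (nnL.edI (bl 0 N)) g b :=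
    fun h hg => hg.subset (Lat.edI_mono (bl_mono _ h))
  have fv : ∀ {u : Pt → ℝ}, Sv R M u → F2 (nnL.edI (bl 0 N)) (A0 u) (54 * M ^ 6) := fun h =>
    RJ57.f2_mono (up u1 (B80.f2_A0 h.1)) (E0_le R1 M1 h)
  have cq : ∀ {g : Pt → ℝ} {b : ℝ}, F2 (nnL.edI (bl 0 N)) g b → Chq (bl 0 N) ((q : ℝ) • xi R + g) (q * 1 + 0) :=
    fun h => ((chq_xi (by linarith) ((Nat.le_ceil _).trans (Nat.cast_le.2 u2))).zsmul q).add (chq_flow h)
  have f0 := up (by omega) hf
  have dX : ∀ {u : Pt → ℝ}, Sv R M u → DepG (bl 0 N) (X u) := fun h => (ins_A0 h.1 u1).1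
  have M6 : 1 ≤ 54 * M ^ 6 := by linarith [one_le_pow₀ (n := 6) M1]
  have mo : ∀ {u : Pt → ℝ}, Sv R M u → Ex (m.W 0) (fun s => X u s ^ 2) ≤ K * M ^ 12 ∧
      Ex (m.W 0) (fun s => X u s ^ 4) ≤ K * M ^ 12 := fun h => by
    obtain ⟨a, b⟩ := (B80.mo_amb ok hm subset_rfl (fv h)).fin (by positivity) E.mem.tau_le
    have e : K * M ^ 12 = 24 * exp p.F.τ₂ * (54 * M ^ 6) ^ 2 := by rw [hK]; ring
    rw [e]
    exact ⟨a.trans (mul_le_mul_of_nonneg_left (le_self_pow₀ M6 two_ne_zero) (by positivity)), b⟩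
  have cen := (B80.mo_amb ok hm subset_rfl f0).cen
  obtain ⟨δ, hδ⟩ : ∃ δ, δ = Cm * exp Cm * (M ^ k * Y ^ (1 / 4 : ℝ)) := ⟨_, rfl⟩
  have key : ∀ σ σ' ψ : ℝ, |σ| ≤ (M ^ 13)⁻¹ → |σ'| ≤ (M ^ 13)⁻¹ → |Ex (m.W 0) fun s =>
      cos (2 * π * pr ((q : ℝ) • xi R + f) s + φ + σ * X v s + σ' * X v' s + ψ)| ≤ δ := fun σ σ' ψ s1 s2 => by
    have sm : ∀ {t : ℝ}, |t| ≤ (M ^ 13)⁻¹ → (t / (2 * π)) ^ 2 * (54 * M ^ 6) ≤ 1 / 8 := fun {t} ht => by
      have a : t ^ 2 ≤ (M ^ 13)⁻¹ ^ 2 := by rw [← sq_abs]; exact pow_le_pow_left₀ (abs_nonneg _) ht 2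
      have b : (t / (2 * π)) ^ 2 ≤ t ^ 2 := by
        rw [div_pow]; exact div_le_self (sq_nonneg _) (one_le_pow₀ (by linarith [pi_gt_three]))
      refine (mul_le_mul_of_nonneg_right (b.trans a) (by positivity)).trans ?_
      rw [show (M ^ 13)⁻¹ ^ 2 * (54 * M ^ 6) = 54 / M ^ 20 by field_simp, div_le_iff₀ (by positivity)]
      linarith [pow_le_pow_left₀ zero_le_two M2 20]
    have fl := RJ57.f2_mono (RJ57.f2_add f0 (RJ57.f2_add (RJ57.f2_smul (σ / (2 * π)) (fv hv))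
      (RJ57.f2_smul (σ' / (2 * π)) (fv hv')))) (by linarith [sm s1, sm s2] : _ ≤ 2 * log M + 1)
    have := cm _ _ (φ + ψ) (bl_mono _ u2) fl
    rw [hr _ (depG_cp (cq fl) _)] at this
    refine (le_of_eq (congrArg abs (Ex_congr fun s _ => ?_))).trans (this.trans ?_)
    · simp only [cp, X, pr_add, pr_smul, AddMonoidHom.add_apply, AddMonoidHom.smul_apply, smul_eq_mul]
      congr 1; field_simp; ring
    · have a : √Y ≤ Y ^ (1 / 4 : ℝ) := by
        rw [sqrt_eq_rpow]; exact rpow_le_rpow_of_exponent_ge Y0 Y1 (by norm_num)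
      have b : exp (Cm * (2 * log M + 1)) ≤ exp Cm * M ^ k := by
        rw [← rpow_natCast, rpow_def_of_pos (by linarith), ← exp_add, exp_le_exp]
        nlinarith [mul_le_mul_of_nonneg_left hk (log_nonneg M1)]
      rw [hδ]
      exact (mul_le_mul (mul_le_mul_of_nonneg_left a Cm0) b (exp_pos _).le (by positivity)).trans_eq (by ring)
  have a0 : 0 < (M ^ 13)⁻¹ := by positivity
  have tX : ∀ (u : Pt → ℝ) (j : ℕ), Ig (m.W 0) fun s => X u s ^ j := fun u j => cen.ig ((tame_pr _).pow j)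
  obtain ⟨c1, c2⟩ := core cen.wt a0 (tX v 2) (tX v 4) (tX v' 2) (tX v' 4) (mo hv).1 (mo hv).2 (mo hv').1
    (mo hv').2 key
  have c0 := key 0 0 0 (by simpa using a0.le) (by simpa using a0.le)
  simp only [zero_mul, add_zero] at c0
  have dc := depG_cp (cq f0) φ
  rw [hr _ dc, hr _ ((dX hv).mul dc), hr _ (((dX hv).mul (dX hv')).mul dc)]
  have δ0 : 0 ≤ δ := (abs_nonneg _).trans c0
  have z1 : (M ^ 13)⁻¹ * (K * M ^ 12) = K * (1 / M) := by field_simp
  have z2 : δ / (M ^ 13)⁻¹ ^ 2 = δ * M ^ 26 := by field_simp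
  have z3 : δ / (M ^ 13)⁻¹ ≤ δ * M ^ 26 := by
    rw [div_inv_eq_mul]; exact mul_le_mul_of_nonneg_left (pow_le_pow_right₀ M1 (by norm_num)) δ0
  have z4 : δ ≤ δ * M ^ 26 := le_mul_of_one_le_right δ0 (one_le_pow₀ M1)
  have z5 : δ * M ^ 26 ≤ C * (M ^ (k + 26) * Y ^ (1 / 4 : ℝ)) := by
    rw [hδ, mul_assoc, mul_right_comm (M ^ k), ← pow_add]
    exact mul_le_mul_of_nonneg_right (by linarith) (by positivity)
  have z6 : 2 * K * (1 / M) ≤ C * (1 / M) := mul_le_mul_of_nonneg_right (by nlinarith) (by positivity)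
  have z7 : 0 ≤ K * (1 / M) := by positivity
  rw [z1] at c1 c2
  rw [mul_add]
  exact ⟨c0.trans (by linarith), c1.trans (by linarith), c2.trans (by linarith)⟩

end Crest.Agent.T145.Ev
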