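import Crest.Agent.T145.FlDef_82
import Crest.Agent.T145.FlFus_4
import Crest.Agent.T145.OmB_11

/-!
# Row 145, module Fl, layer A (helper51): SEMI, PROD, FUS (unconditional)
-/

set_option autoImplicit false

namespace Crest.Agent.T145.Fl

open Finset Nc

namespace A51

variable {p : Par} {Λ : Lat} {L a : ℕ} {x z : Pt} {F G B : Cfg Pt → ℝ} {m : Mdl Pt} {U : Finset Pt}

theorem nu_eq (Λ : Lat) (w : ℕ) (z : Pt) (r : ℕ) (F : Cfg Pt → ℝ) :
    nu Λ w z r F = FlF4.nu Λ z r (w * r) F := rfl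

theorem four_le (h : Gs p Λ L) (a : ℕ) : 4 * a ≤ p.w * a := Nat.mul_le_mul_right _ h.w4

theorem nu_nonneg (hΛ : Λ.Ok) (w : ℕ) (z : Pt) (r : ℕ) (F : Cfg Pt → ℝ) : 0 ≤ nu Λ w z r F :=
  FlF4.nu_nonneg hΛ _ _ _ _

/-- an insertion at a good scale, with its radii -/
theorem ir (h : Gs p Λ L) (h0 : p.r₀ ≤ a) (hF : Ins x a F) : FlF4.Ir Λ x a a (p.w * a) F :=
  have h1 := four_le h a
  have h2 := h.gd.2.1
  ⟨le_rfl, by omega, hF.1.mono (bl_mono x (by omega)), FlF4.In_tame h.mem.ok _ _ hF.2⟩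

theorem gam_le (h : Gs p Λ L) (h0 : p.r₀ ≤ a) (hL : a ≤ L) :
    0 ≤ gam Λ a (p.w * a) ∧ gam Λ a (p.w * a) ≤ 2 :=
  have h1 := four_le h a
  have h2 := h.gd.2.1
  ⟨zero_le_one.trans (FlF4.one_le_gam h.mem.ok (by omega)), (h.gd.2.2 a h0 hL).trans (by norm_num)⟩

/-- the free box with a hole is the free annulus -/
theorem ex_hole {c c' : ℕ} (hc : c < c') (hG : DepG (an z c c') G) :
    Ex ((hole (FlF4.bx Λ z c') (bl z c)).W 0) G = EA Λ z c c' G := by
  have hr : ((z.1 + c', z.2 + c') : Pt) ∈ an z c c' :=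
    Dc15.mem_an.2 ⟨FlF4.corner_mem z c', by rw [mem_bl]; dsimp only; omega⟩
  have e : pn (Λ.N (an z c c')) (an z c c') {(z.1 + c', z.2 + c')} =
      Λ.Nr (an z c c') (z.1 + c', z.2 + c') := by
    unfold pn Lat.Nr Mdl.free
    rw [Lat.N_ed, Lat.inn_edI subset_rfl, sdiff_singleton_eq_erase]
    rfl
  rw [EA, Io98.nE_root hr hG, e, FlF4.bx, Dc15.hole_eq]

/-- an insertion times a function on an annulus, in the free box -/
theorem box_io (hΛ : Λ.Ok) {q r c R c' : ℕ} (h : FlF4.Ir Λ z q r c F) (hR : c + 2 * Λ.rg ≤ R)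
    (hc' : R + 2 * Λ.rg ≤ c') (hT : Tame G) (hG : DepG (an z R c') G) :
    In Λ z c' (fun s => F s * G s) ∧ Nm Λ z c' (fun s => F s * G s) ≤
      gam Λ r c * gam Λ c R * Nm Λ z c F * EA Λ z c c' fun s => |G s| := by
  have h1 := h.rc
  have h2 := hΛ.one_le_rg
  have hm : Amb Λ (FlF4.bx Λ z c') (bl z (R + Λ.rg)) := FlF4.amb_bx hΛ (by omega)
  obtain ⟨hc, ha⟩ := FlF4.hole_ca hΛ (by omega : Λ.rg ≤ c) (by omega) hm
  have hO : Out (bl z R) G := hG.dep.out sdiff_disjoint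
  have k := ((FlF4.ld1 Λ hΛ).2 z r c R F h1 hR h.dep h.ig).2.2.2.2 _ G hm hO ((hc.cen ha).ig hT)
  have hD : DepG (bl z c') fun s => F s * G s :=
    (h.dep.mono (bl_mono z (by omega))).mul (hG.mono sdiff_subset)
  rw [FlF4.In_bx hD, FlF4.Nm_bx hD, ← ex_hole (by omega)
    ((hG.mono (Dc15.an_mono z (by omega) le_rfl)).comp fun t => |t|)]
  exact ⟨k.1, k.2.2.2⟩

theorem EA_nonneg (hΛ : Λ.Ok) {c c' : ℕ} (hc : Λ.rg ≤ c) (hc' : c + 3 * Λ.rg ≤ c')
    (hG : DepG (an z c c') G) : 0 ≤ EA Λ z c c' fun s => |G s| := by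
  have h2 := hΛ.one_le_rg
  obtain ⟨h1, ha⟩ := FlF4.hole_ca hΛ hc le_rfl (FlF4.amb_bx (z := z) hΛ
    (by omega : c + Λ.rg + Λ.rg + Λ.rg ≤ c'))
  rw [← ex_hole (by omega) (hG.comp fun t => |t|)]
  exact Ex_nonneg (h1.cen ha).nonneg fun _ _ => abs_nonneg _

/-- the flowed form at good scales -/
theorem st_io (h : Gs p Λ L) {R : ℕ} (h0 : p.r₀ ≤ a) (hR : p.w * (p.w * a) ≤ R) (hL : p.w * R ≤ L)
    (hF : Ins z a F) (hT : Tame G) (hG : DepG (an z (p.w * (p.w * a)) R) G) :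
    DepG (bl z R) (fun s => St Λ z a F s * G s) ∧ In Λ z (p.w * R) (fun s => St Λ z a F s * G s) ∧
      Nm Λ z (p.w * R) (fun s => St Λ z a F s * G s) ≤
        4 * nu Λ p.w z a F * EA Λ z (p.w * a) (p.w * R) fun s => |G s| := by
  have hΛ := h.mem.ok
  have h1 := four_le h a
  have h2 := four_le h (p.w * a)
  have h3 := four_le h R
  have h4 := h.gd.2.1
  have iS := (ir h h0 hF).St hΛ
  have k := box_io hΛ iS (by omega : _ ≤ p.w * (p.w * a)) (by omega : _ ≤ p.w * R) hT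
    (hG.mono (Dc15.an_mono z le_rfl (by omega)))
  refine ⟨(iS.dep.mono (bl_mono z (by omega))).mul (hG.mono sdiff_subset), k.1, k.2.trans ?_⟩
  have g1 := gam_le h h0 (by omega)
  have g2 := gam_le h (by omega : p.r₀ ≤ p.w * a) (by omega)
  refine mul_le_mul_of_nonneg_right (mul_le_mul_of_nonneg_right ?_ (nu_nonneg hΛ p.w z a F))
    (EA_nonneg hΛ (by omega) (by omega) (hG.mono (Dc15.an_mono z (by omega) (by omega))))
  exact (mul_le_mul g1.2 g2.2 g2.1 zero_le_two).trans_eq (by norm_num)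

section far
variable {ι : Type} {I : Finset ι} {y : ι → Pt} {r : ι → ℕ} {H : ι → Cfg Pt → ℝ}

theorem prod_nonneg' (hΛ : Λ.Ok) (w : ℕ) (I : Finset ι) (y : ι → Pt) (r : ι → ℕ) (H : ι → Cfg Pt → ℝ) :
    0 ≤ ∏ i ∈ I, nu Λ w (y i) (r i) (H i) := prod_nonneg fun _ _ => nu_nonneg hΛ _ _ _ _

theorem prod_le (h : Gs p Λ L) (hf : Far p L U I y r H) :
    ∏ i ∈ I, gam Λ (r i) (p.w * r i) * FlF4.nu Λ (y i) (r i) (p.w * r i) (H i) ≤
      16 * ∏ i ∈ I, nu Λ p.w (y i) (r i) (H i) := by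
  have g : ∀ i ∈ I, 0 ≤ gam Λ (r i) (p.w * r i) ∧ gam Λ (r i) (p.w * r i) ≤ 2 := fun i hi =>
    gam_le h (hf.big i hi).1 (by have := four_le h (r i); have := (hf.big i hi).2; omega)
  rw [prod_mul_distrib]
  refine mul_le_mul_of_nonneg_right ?_ (prod_nonneg' h.mem.ok p.w I y r H)
  calc ∏ i ∈ I, gam Λ (r i) (p.w * r i) ≤ ∏ _i ∈ I, (2 : ℝ) :=
        prod_le_prod (fun i hi => (g i hi).1) fun i hi => (g i hi).2
    _ = 2 ^ I.card := prod_const _
    _ ≤ 2 ^ 4 := pow_le_pow_right₀ one_le_two hf.card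
    _ = 16 := by norm_num

theorem sub_big (h : Gs p Λ L) (x : Pt) (a : ℕ) : bl x a ⊆ bl x (p.w * a) :=
  bl_mono x (by have := four_le h a; omega)

/-- far insertions, one more unflowed insertion `G`, a bounded multiplier -/
theorem core (h : Gs p Λ L) (hm : Amb Λ m U) (hf : Far p L U I y r H)
    (hO : ∀ i ∈ I, Out (bl (y i) (r i)) B) (hB : ∀ s, |B s| ≤ 1) {R : ℕ} (h0 : p.r₀ ≤ R)
    (hL : p.w * R ≤ L) (hU : bl z (p.w * R) ⊆ U)
    (hd : ∀ i ∈ I, Disjoint (bl (y i) (p.w * r i)) (bl z (p.w * R)))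
    (hG : DepG (bl z (R + Λ.rg)) G) (hI : In Λ z (p.w * R) G) :
    |Ex (m.W 0) fun s => (∏ i ∈ I, H i s) * G s * B s| ≤
      32 * (∏ i ∈ I, nu Λ p.w (y i) (r i) (H i)) * Nm Λ z (p.w * R) G := by
  have hΛ := h.mem.ok
  have hW := hm.ctr.wt hm.anch 0
  have h1 := four_le h R
  have h2 := h.gd.2.1
  have iH : ∀ i ∈ I, FlF4.Ir Λ (y i) (r i) (r i) (p.w * r i) (H i) := fun i hi =>
    ir h (hf.big i hi).1 (hf.ins i hi)
  have key : ∀ K : ι → Cfg Pt → ℝ, (∀ i ∈ I, FlF4.Ir Λ (y i) (r i) (r i) (p.w * r i) (K i)) →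
      Ig (m.W 0) (fun s => G s * ∏ i ∈ I, K i s) ∧ Ex (m.W 0) (fun s => |G s * ∏ i ∈ I, K i s|) ≤
        gam Λ R (p.w * R) * Nm Λ z (p.w * R) G *
          ∏ i ∈ I, gam Λ (r i) (p.w * r i) * Nm Λ (y i) (p.w * r i) (K i) := fun K hK => by
    have := (FlF4.ld1 Λ hΛ).1 (Option ι) m (insertNone I) (fun o => o.elim z y) (fun o => o.elim R r)
      (fun o => o.elim (p.w * R) fun i => p.w * r i) (fun o => o.elim G K) (fun i hi j hj hij => by
        cases i <;> cases j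
        exacts [absurd rfl hij, (hd _ (some_mem_insertNone.1 hj)).symm, hd _ (some_mem_insertNone.1 hi),
          hf.dis _ (some_mem_insertNone.1 hi) _ (some_mem_insertNone.1 hj) fun e => hij (congrArg _ e)])
      hm.ctr hm.anch fun i hi => by
        cases i with
        | none => exact ⟨FlF4.amb_mono hm hU, (by omega : R + 2 * Λ.rg ≤ p.w * R), hG, hI⟩
        | some i =>
          have hi := some_mem_insertNone.1 hi
          exact ⟨FlF4.amb_mono hm (hf.sub i hi), (hK i hi).rc, (hK i hi).dep, (hK i hi).ig⟩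
    simpa only [prod_insertNone, Option.elim] using this
  have k1 := key H iH
  have k2 := key (fun i => St Λ (y i) (r i) (H i)) fun i hi => (iH i hi).St hΛ
  have hI1 : Ig (m.W 0) fun s => B s * G s * ∏ i ∈ I, H i s := by
    simpa only [mul_assoc] using k1.1.bdd_mul hW.nonneg hB
  have k3 := FlF4.repl_St I (Z := fun s => B s * G s) hΛ hm.ctr hm.anch subset_rfl hf.dis (fun i hi =>
    have hs := (sub_big h (y i) (r i)).trans (hf.sub i hi)
    ⟨iH i hi, FlF4.amb_mono hm hs, hs.trans hm.sub, (hO i hi).mul (hG.dep.out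
      ((hd i hi).symm.mono (bl_mono z (by omega)) (sub_big h _ _)))⟩) hI1
  rw [FlF4.nc_self hm.ctr hm.anch, FlF4.nc_self hm.ctr hm.anch] at k3
  have e : (fun s => (∏ i ∈ I, H i s) * G s * B s) = fun s => B s * G s * ∏ i ∈ I, H i s :=
    funext fun s => by ring
  rw [e, k3.2]
  refine (abs_Ex_le hW.nonneg k3.1).trans ((Ex_mono hW.nonneg (k3.1.abs hW.nonneg) (k2.1.abs hW.nonneg)
    fun s => ?_).trans (k2.2.trans ?_))
  · rw [mul_assoc, abs_mul]; exact mul_le_of_le_one_left (abs_nonneg _) (hB s)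
  · have g := gam_le h h0 (by omega)
    have n := L37.Nm_nonneg hΛ z (p.w * R) G
    refine (mul_le_mul (mul_le_mul_of_nonneg_right g.2 n) (prod_le h hf) (prod_nonneg fun i hi =>
      mul_nonneg (zero_le_one.trans (FlF4.one_le_gam hΛ (iH i hi).rc)) (L37.Nm_nonneg hΛ _ _ _))
      (mul_nonneg zero_le_two n)).trans_eq (by ring)

/-- flow one factor against the rest -/
theorem ex_St (hΛ : Λ.Ok) (hm : Amb Λ m (bl z a)) {Z : Cfg Pt → ℝ} (hZ : Out (bl z a) Z)
    (hI : Ig (m.W 0) fun s => Z s * F s) :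
    Ex (m.W 0) (fun s => Z s * F s) = Ex (m.W 0) fun s => Z s * St Λ z a F s := by
  have e := FlF4.ex_cE hm.ctr hm.anch hm.sub hI
  rw [← FlF4.St_cE hΛ hm, FlF4.St_out_mul hZ] at e
  exact e.symm

end far

end A51

open A51

theorem semiStmt : SemiStmt := by
  intro Λ w r z hΛ hr
  have h : r + Λ.rg ≤ w * r := by omega
  have hd : ∀ F, Ins z r F → DepG (bl z (w * r)) F ∧ In Λ z (w * r) F := fun F hF =>
    ⟨hF.1.mono (bl_mono z (by omega)), FlF4.In_tame hΛ _ _ hF.2⟩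
  refine ⟨fun F hF => ⟨FlF4.nu_nonneg hΛ _ _ _ _, FlF4.nu_le_Nm hΛ h (hd F hF).1 (hd F hF).2,
    fun c => FlF4.nu_smul _ _ _ _ _, fun B hB => FlF4.nu_le_of_bdd hΛ _ _ _ hB, fun G hG =>
    ⟨FlF4.nu_add_le hΛ h (hd F hF).1 (hd G hG).1 (hd F hF).2 (hd G hG).2,
      FlF4.nu_sub_le hΛ h (hd F hF).1 (hd G hG).1 (hd F hF).2 (hd G hG).2⟩⟩, fun F hF =>
    ⟨by simpa only [zero_add] using Om.ins_trl hF z, Om.Nm_St_trl hΛ z _ _ F, fun c _ => ?_⟩⟩
  rw [Om.Nm_trl hΛ, sub_self]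

theorem prodStmt : ProdStmt := by
  intro p Λ L h m U ι I x r H B hm hf hO hB
  have hΛ := h.mem.ok
  have hT : Tame fun s => ∏ i ∈ I, H i s := Tame.prod I fun i hi => (hf.ins i hi).2
  have hC := hm.ctr.cen hm.anch
  refine ⟨?_, fun z R h0 hL hU hd => ?_⟩
  · have := FlF4.fus_ex I hΛ hm.ctr hm.anch hf.dis (fun i hi =>
      ⟨ir h (hf.big i hi).1 (hf.ins i hi), FlF4.amb_mono hm (hf.sub i hi), hO i hi⟩) hB
    simp only [mul_comm (B _), one_mul] at this
    exact this.trans (prod_le h hf)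
  have h1 := four_le h R
  have hout : ∀ a, a ≤ R → Out (bl z a) fun s => ∏ i ∈ I, H i s := fun a ha =>
    Out.prod fun i hi => (hf.ins i hi).1.dep.out ((hd i hi).mono (sub_big h _ _) (bl_mono z (by omega)))
  refine ⟨fun G hG => core h hm hf hO hB h0 hL hU hd (ir h h0 hG).dep (ir h h0 hG).ig,
    fun F hF hFB => ?_, fun a F G ha haR hF hTG hG hFB => ?_⟩
  · have iS := (ir h h0 hF).St hΛ
    have e := ex_St (F := F) hΛ (FlF4.amb_mono hm ((sub_big h z R).trans hU)) ((hout R le_rfl).mul hFB)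
      (hC.ig ((hT.mul (Tame.bdd hB)).mul hF.2))
    simp only [mul_right_comm _ (B _)] at e
    rw [e]
    exact core h hm hf hO hB h0 hL hU hd iS.dep iS.ig
  · have h2 := four_le h a
    have h3 := four_le h (p.w * a)
    have k := st_io h ha haR hL hF hTG hG
    have hGO : Out (bl z a) G := (hG.dep.out sdiff_disjoint).mono (bl_mono z (by omega))
    have e := ex_St (F := F) hΛ (FlF4.amb_mono hm ((bl_mono z (by omega : a ≤ p.w * R)).trans hU))
      (((hout a (by omega)).mul hGO).mul hFB) (hC.ig (((hT.mul hTG).mul (Tame.bdd hB)).mul hF.2))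
    have e1 : (fun s => (∏ i ∈ I, H i s) * F s * G s * B s) =
        fun s => (∏ i ∈ I, H i s) * G s * B s * F s := funext fun s => by ring
    have e2 : (fun s => (∏ i ∈ I, H i s) * G s * B s * St Λ z a F s) =
        fun s => (∏ i ∈ I, H i s) * (St Λ z a F s * G s) * B s := funext fun s => by ring
    rw [e1, e, e2]
    refine (core h hm hf hO hB h0 hL hU hd (k.1.mono (bl_mono z (by omega))) k.2.1).trans ?_
    exact (mul_le_mul_of_nonneg_left k.2.2 (mul_nonneg (by norm_num)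
      (prod_nonneg' hΛ p.w I x r H))).trans_eq (by ring)

theorem fusStmt : FusStmt := by
  intro p Λ L h z R hL
  have hΛ := h.mem.ok
  have h1 := four_le h R
  have h2 := h.gd.2.1
  refine ⟨fun a F B ha haR hF hB hO hb => ?_, fun a F G ha haR hF hT hG => ?_,
    fun ι I x r H B h0 hf hB hO hb => ?_⟩
  · have iF := ir h ha hF
    have hw : p.w * a ≤ p.w * R := Nat.mul_le_mul_left _ haR
    have hFd : DepG (bl z (p.w * R)) F := hF.1.mono (bl_mono z (by omega))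
    have hBd : DepG (bl z (p.w * R)) B := hB.mono (bl_mono z (by omega))
    have hI := FlF4.In_tame hΛ z (p.w * R) hF.2
    have k1 := FlF4.nu_anti hΛ (by omega : R + Λ.rg ≤ p.w * R) haR (hBd.mul hFd)
      (FlF4.In_tame hΛ z _ ((Tame.bdd hb).mul hF.2))
    have k2 := FlF4.nu_mul_le hΛ (by omega : a + Λ.rg ≤ p.w * R) hFd hI hBd hO hb
    have k3 := (FlF4.nu_box hΛ le_rfl iF.rc hw iF.dep iF.ig).2
    have k4 := mul_le_mul_of_nonneg_right (gam_le h ha (by omega)).2 (nu_nonneg hΛ p.w z a F)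
    simp only [mul_comm (B _), one_mul] at k1 k2
    exact k1.trans (k2.trans (k3.trans k4))
  · have h3 := four_le h a
    have h4 := four_le h (p.w * a)
    have k := st_io h ha haR hL hF hT hG
    have hGO : Out (bl z a) G := (hG.dep.out sdiff_disjoint).mono (bl_mono z (by omega))
    have k1 := FlF4.nu_anti hΛ (by omega : R + Λ.rg ≤ p.w * R) (by omega : a ≤ R)
      ((hG.mono (sdiff_subset.trans (bl_mono z (by omega)))).mul (hF.1.mono (bl_mono z (by omega))))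
      (FlF4.In_tame hΛ z _ (hT.mul hF.2))
    have k2 : FlF4.nu Λ z a (p.w * R) (fun s => G s * F s) =
        Nm Λ z (p.w * R) fun s => St Λ z a F s * G s := by
      rw [FlF4.nu, FlF4.St_out_mul hGO]; simp only [mul_comm (G _)]
    rw [k2] at k1
    simp only [mul_comm (G _)] at k1
    exact k1.trans k.2.2
  · have := (FlF4.fus_nu I hΛ (by omega : R + Λ.rg ≤ p.w * R) (by omega : R + Λ.rg ≤ p.w * R)
      (hB.mono (bl_mono z (by omega))) hf.dis (fun i hi => ⟨ir h (hf.big i hi).1 (hf.ins i hi),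
        hf.sub i hi, (sub_big h _ _).trans (hf.sub i hi), hO i hi⟩) hb).2
    simp only [mul_comm (B _), one_mul] at this
    exact this.trans (prod_le h hf)

end Crest.Agent.T145.Fl
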