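import Crest.Agent.T145.EvDef_2
import Crest.Agent.T145.FlA_51
import Crest.Agent.T145.FlRate_98
import Crest.Agent.T145.FlBas_4

/-!
# Row 145, the even sector (helper14): the norm of the energy star at the scale `R`
-/

set_option autoImplicit false

namespace Crest.Agent.T145.Ev

open Finset Pot Xi Real Fl

namespace C14

variable {p : Par} {Λ : Lat} {L a r W : ℕ} {F G : Cfg Pt → ℝ} {z : Pt}

theorem rad (h : Gs p Λ L) (h0 : p.r₀ ≤ r) : r + 2 * Λ.rg ≤ p.w * r := by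
  have h1 := A51.four_le h r
  have h2 := h.gd.2.1
  omega

/-- the norm is almost decreasing -/
theorem nu_mono (h : Gs p Λ L) (h0 : p.r₀ ≤ r) (hr : r ≤ a) (hL : p.w * a ≤ L) (hF : Ins z r F) :
    nu Λ p.w z a F ≤ 2 * nu Λ p.w z r F := by
  simpa only [mul_one] using (fusStmt p Λ L h z a hL).1 r F (fun _ => 1) h0 hr hF (DepG.const _ _)
    (fun _ _ _ => rfl) (fun _ => abs_one.le)

theorem nu_add (h : Gs p Λ L) (h0 : p.r₀ ≤ r) (hF : Ins z r F) (hG : Ins z r G) :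
    nu Λ p.w z r (fun s => F s + G s) ≤ nu Λ p.w z r F + nu Λ p.w z r G :=
  (((semiStmt Λ p.w r z h.mem.ok (rad h h0)).1 F hF).2.2.2.2 G hG).1

theorem nu_smul (h : Gs p Λ L) (h0 : p.r₀ ≤ r) (hF : Ins z r F) (c : ℝ) :
    nu Λ p.w z r (fun s => c * F s) = |c| * nu Λ p.w z r F :=
  ((semiStmt Λ p.w r z h.mem.ok (rad h h0)).1 F hF).2.2.1 c

theorem nu_bdd (h : Gs p Λ L) (h0 : p.r₀ ≤ r) (hF : Ins z r F) {B : ℝ} (hB : ∀ s, |F s| ≤ B) :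
    nu Λ p.w z r F ≤ B :=
  ((semiStmt Λ p.w r z h.mem.ok (rad h h0)).1 F hF).2.2.2.1 B hB

/-- crude even contraction between two arbitrary scales -/
theorem crude {E : Dt} (h : E.Ok p W) (hW : 2 ≤ W) (h1 : E.r₁ ≤ r) (hr : r ≤ a) (hL : p.w * a ≤ E.L)
    (hF : Ins 0 r F) (he : EvenF F) (hd : D4 0 F) :
    (a : ℝ) ^ 2 * nu E.Λ p.w 0 a (fun s => F s - E.ω F) ≤
      34 * W ^ 2 * ((a : ℝ) / r) ^ (ew p.w / 10) * ((r : ℝ) ^ 2 * nu E.Λ p.w 0 r F) := by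
  have hG := h.ed.toEnv.toGs
  have h8 := h.r8
  have h0 := h.r0
  have r0 : (0 : ℝ) < r := by exact_mod_cast (by omega : 0 < r)
  have w1 : (1 : ℝ) < W := by exact_mod_cast hW
  obtain ⟨m, a1, a2⟩ := exists_nat_pow_near (x := (a : ℝ) / r) (y := (W : ℝ))
    ((one_le_div r0).2 (by exact_mod_cast hr)) w1
  have a3 : W ^ m * r ≤ a := by
    rw [le_div_iff₀ r0] at a1; exact_mod_cast a1
  have a4 : r ≤ W ^ m * r := Nat.le_mul_of_pos_left _ (Nat.pow_pos (by omega))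
  have b1 := (h.epur r m F h1 ((Nat.mul_le_mul_left _ a3).trans hL) hF he hd).1
  have b2 := nu_mono hG (by omega) a3 hL ((hF.mono a4).sub_const (E.ω F))
  have b3 := A51.nu_nonneg hG.mem.ok p.w 0 r F
  have e0 := ew_nonneg p.w
  have b4 : (W : ℝ) ^ ((-2 + ew p.w / 10) * m) * ((W : ℝ) ^ m) ^ 2 ≤ ((a : ℝ) / r) ^ (ew p.w / 10) := by
    rw [← rpow_natCast, ← rpow_natCast, ← rpow_mul (by positivity), ← rpow_add (by positivity),
      show (-2 + ew p.w / 10) * (m : ℝ) + m * (2 : ℕ) = m * (ew p.w / 10) by push_cast; ring,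
      rpow_mul (by positivity), rpow_natCast]
    exact rpow_le_rpow (by positivity) a1 (by positivity)
  have b5 : (a : ℝ) ≤ W ^ (m + 1) * r := by rw [div_lt_iff₀ r0] at a2; exact a2.le
  calc _ ≤ ((W : ℝ) ^ (m + 1) * r) ^ 2 *
        (2 * (17 * (W : ℝ) ^ ((-2 + ew p.w / 10) * m) * nu E.Λ p.w 0 r F)) := by
        have := A51.nu_nonneg hG.mem.ok p.w 0 a fun s => F s - E.ω F
        gcongr; exact b2.trans (by gcongr)
    _ = 34 * W ^ 2 * ((W : ℝ) ^ ((-2 + ew p.w / 10) * m) * ((W : ℝ) ^ m) ^ 2) *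
        ((r : ℝ) ^ 2 * nu E.Λ p.w 0 r F) := by ring
    _ ≤ _ := by gcongr

theorem nr_ew {w : ℕ} (hw : 4 ≤ w) : (nr w : ℝ) * ew w ≤ 21 / 20 := by
  have h1 := cw_pos (w := w) (by omega)
  have h2 := cw_le' hw
  have h3 := Nat.ceil_lt_add_one (show 0 ≤ 104 / cw w by positivity)
  have h4 : (nr w : ℝ) * cw w ≤ 104 + 3 * cw w := by
    rw [nr]; push_cast
    calc _ ≤ (104 / cw w + 1 + 2) * cw w := by gcongr
      _ = _ := by field_simp; ring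
  rw [ew]; linarith

theorem gk_mem {w : ℕ} (hw : 4 ≤ w) {g : ℝ} (h : |π * g - 2| ≤ ew w / 100) : 1 / 4 ≤ g ∧ g ≤ 1 := by
  have h1 := ew_le' hw
  have h2 := abs_le.1 h
  constructor <;> by_contra h3 <;> nlinarith [pi_gt_three, pi_lt_four]

theorem num {K k C₂ C₃ M A B τ g Q Y P P' x₁ x₂ : ℝ} (hK : 0 ≤ K) (hk : 0 ≤ k) (h2 : 1 ≤ C₂) (h3 : 1 ≤ C₃)
    (hM : M = K * (k * C₂ + C₃)) (hτ : 0 < τ) (hMτ : 2 * M * τ ≤ 1) (hτ1 : τ ≤ 1) (hA : 0 ≤ A) (hB : 1 ≤ B)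
    (hAB : A * B * τ ^ 14 ≤ 1) (hg : 0 ≤ g) (hQ : 0 ≤ Q) (hY : 0 ≤ Y) (hP : 0 ≤ P) (hP' : 0 ≤ P')
    (e1 : x₁ ≤ k * (g + P * (τ ^ 5) ^ 6 + C₂ * Y * P'))
    (e2 : x₂ ≤ B * (C₃ * (Q + Y * P) + P * (τ ^ 5) ^ 5)) :
    K * A * (x₁ + x₂) ≤ (τ ^ 5)⁻¹ ^ 4 * (g + Q + Y * P + Y * P') + P * (τ ^ 5) ^ 2 / 2 := by
  have hT : 0 ≤ g + Q + Y * P + Y * P' + P * τ ^ 25 := by positivity
  have a1 : x₁ ≤ B * (k * C₂ * (g + Q + Y * P + Y * P' + P * τ ^ 25)) := by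
    refine (e1.trans ?_).trans (le_mul_of_one_le_left (by positivity) hB)
    rw [mul_assoc k]
    refine mul_le_mul_of_nonneg_left ?_ hk
    have : (τ ^ 5) ^ 6 ≤ τ ^ 25 := by
      rw [← pow_mul]; exact pow_le_pow_of_le_one hτ.le hτ1 (by norm_num)
    have b1 : P * (τ ^ 5) ^ 6 ≤ C₂ * (P * τ ^ 25) :=
      (mul_le_mul_of_nonneg_left this hP).trans (le_mul_of_one_le_left (by positivity) h2)
    have b2 : g ≤ C₂ * g := le_mul_of_one_le_left hg h2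
    have b3 : 0 ≤ C₂ * (Q + Y * P) := by positivity
    linarith
  have a2 : x₂ ≤ B * (C₃ * (g + Q + Y * P + Y * P' + P * τ ^ 25)) := by
    refine e2.trans (mul_le_mul_of_nonneg_left ?_ (by linarith))
    have b1 : P * (τ ^ 5) ^ 5 ≤ C₃ * (P * τ ^ 25) := by
      rw [← pow_mul]; exact le_mul_of_one_le_left (by positivity) h3
    have b3 : 0 ≤ C₃ * (g + Y * P') := by positivity
    linarith
  have hM0 : 0 ≤ M := by rw [hM]; positivity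
  have a3 : M * (A * B) * τ ^ 15 ≤ 1 / 2 := by
    calc _ = M * τ * (A * B * τ ^ 14) := by ring
      _ ≤ M * τ * 1 := by gcongr
      _ ≤ _ := by linarith
  have a4 : M * (A * B) ≤ (τ ^ 5)⁻¹ ^ 4 := by
    rw [inv_pow, ← pow_mul, ← one_div, le_div_iff₀ (by positivity)]
    have : τ ^ (5 * 4) ≤ τ ^ 15 := pow_le_pow_of_le_one hτ.le hτ1 (by norm_num)
    calc _ ≤ M * (A * B) * τ ^ 15 := by gcongr
      _ ≤ _ := by linarith
  calc _ ≤ K * A * (B * (k * C₂ * (g + Q + Y * P + Y * P' + P * τ ^ 25)) +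
        B * (C₃ * (g + Q + Y * P + Y * P' + P * τ ^ 25))) := by gcongr
    _ = M * (A * B) * (g + Q + Y * P + Y * P') + P * τ ^ 10 * (M * (A * B) * τ ^ 15) := by rw [hM]; ring
    _ ≤ (τ ^ 5)⁻¹ ^ 4 * (g + Q + Y * P + Y * P') + P * τ ^ 10 * (1 / 2) := by gcongr
    _ = _ := by ring

end C14

open C14 in
theorem cl1Stmt (hT : TgStmt) (hBas : BasStmt) (hD : DcStmt) (hB : B1Stmt) (h2 : T2Stmt) : Cl1Stmt := by
  intro w
  obtain ⟨c, C₀, hc, -, hT⟩ := hT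
  obtain ⟨W₁, hD⟩ := hD w
  obtain ⟨W₂, hB⟩ := hB w
  obtain ⟨W₃, h2⟩ := h2 w
  refine ⟨W₁ + W₂ + W₃ + 2, fun p W D₀ hw hW => ?_⟩
  obtain ⟨C₁, n₁, c1, hD⟩ := hD p W D₀ hw (by omega)
  obtain ⟨C₂, n₂, c2, hB⟩ := hB p W D₀ hw (by omega)
  obtain ⟨C₃, n₃, c3, h2⟩ := h2 p W D₀ hw (by omega)
  obtain ⟨P₀, -, hBas⟩ := hBas p
  obtain ⟨M, hM⟩ : ∃ M : ℝ, M = 850 * W ^ 3 * (2 * π ^ 2 / c * C₂ + C₃) := ⟨_, rfl⟩
  have M0 : 0 ≤ M := by rw [hM]; positivity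
  have w2 : (2 : ℝ) ≤ W := by exact_mod_cast (by omega : 2 ≤ W)
  have pw : (0 : ℝ) ≤ p.w * W := by positivity
  have M5 : 0 ≤ (2 * M) ^ 5 := by positivity
  have W2 : (0 : ℝ) ≤ 4 * W ^ 2 := by positivity
  refine ⟨C₁ + C₂ + C₃ + (2 * M) ^ 5 + 4 * W ^ 2 + p.w * W, n₁ + n₂ + n₃ + 1, by linarith,
    fun E R Y P t hE t0 hC hY hR P' hK a a1 a2 => ?_⟩
  have ht : ∀ x : ℝ, x ≤ C₁ + C₂ + C₃ + (2 * M) ^ 5 + 4 * W ^ 2 + p.w * W → x * t ≤ 1 := fun x hx =>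
    (mul_le_mul_of_nonneg_right hx t0.le).trans hC
  have t2 : 2 * t ≤ 1 := ht 2 (by linarith)
  have t1 : t ≤ 1 := by linarith
  have L0 : (0 : ℝ) ≤ E.L := Nat.cast_nonneg _
  have hn : ∀ n, n ≤ n₁ + n₂ + n₃ + 1 → Y ≤ t ^ n ∧ R ≤ t ^ n * E.L := fun n hn =>
    have := pow_le_pow_of_le_one t0.le t1 hn
    ⟨hY.trans this, hR.trans (mul_le_mul_of_nonneg_right this L0)⟩
  obtain ⟨a₁, a₂, α₁, α₂, hD⟩ := hD E R Y P t hE t0 (ht _ (by linarith)) (hn _ (by omega)).1 (hn _ (by omega)).2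
  replace hB := hB E R Y P t hE t0 (ht _ (by linarith)) (hn _ (by omega)).1 (hn _ (by omega)).2 _ _ _ _ hD P' hK
  replace h2 := h2 E R Y P t hE t0 (ht _ (by linarith)) (hn _ (by omega)).1 (hn _ (by omega)).2 _ _ _ _ hD
  have hG := hE.ed.toEnv.toGs
  have R1 := hE.maj.one_le
  have R0 : 0 < R := by linarith
  have Y0 := hE.maj.pos.le
  have P1 := hE.P1
  have r8 := hE.r8
  have r0 := hE.r0
  have d1 := hD.r1
  have d2 := hD.le
  have hrg := hG.gd.2.1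
  obtain ⟨⟨i1, e1, s1, b1⟩, ⟨i2, e2, s2, -⟩, -, hk⟩ := hT a₁ (by omega)
  obtain ⟨g1, g2⟩ := gk_mem hG.w4 hE.crit
  replace hk := (hk _ g1 g2).1
  have a0 : (0 : ℝ) < a₁ := by exact_mod_cast (by omega : 0 < a₁)
  have ha : a₂ ≤ a := by
    have : t ^ (nr p.w + 1) ≤ t ^ 1 := pow_le_pow_of_le_one t0.le t1 (by omega)
    have h3 : (a₂ : ℝ) ≤ a := by nlinarith [hD.up]
    exact_mod_cast h3
  have hL : p.w * a ≤ E.L := by
    have h3 := (hn 1 (by omega)).2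
    have h4 := ht (p.w * W) (by linarith)
    have h5 : (p.w : ℝ) * a ≤ E.L := calc
      _ ≤ (p.w : ℝ) * (W * (t ^ 1 * E.L)) := by gcongr; exact a2.trans (by gcongr)
      _ = p.w * W * t * E.L := by ring
      _ ≤ 1 * E.L := by gcongr
      _ = _ := one_mul _
    exact_mod_cast h5
  have i2' : Ins 0 (5 * a₁) (T2 a₁) := i2.mono (by omega)
  have j1 : ∀ n, 5 * a₁ ≤ n → Ins 0 n fun s => T1 a₁ s - E.ω (T1 a₁) := fun n hn => (i1.mono hn).sub_const _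
  have j2 : ∀ n, 5 * a₁ ≤ n → Ins 0 n fun s => T2 a₁ s - E.ω (T2 a₁) := fun n hn => (i2'.mono hn).sub_const _
  have j3 : Ins 0 a₂ fun s => E.e 0 s - Tc E.ω a₁ α₁ α₂ s :=
    ((hBas _ _ _ _ hE.ed.toEnv 0).2.2.1.mono (by omega)).sub
      (((j1 _ (by omega)).smul α₁).add ((j2 _ (by omega)).smul α₂))
  -- the scales
  have u1 : 1 ≤ R / a₁ := by
    rw [one_le_div a0]
    exact hD.hi.trans (mul_le_of_le_one_right R0.le (pow_le_one₀ t0.le t1))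
  have e0 := ew_nonneg p.w
  have e1' := ew_le' hG.w4
  have hA : ∀ F, Ins 0 (5 * a₁) F → EvenF F → D4 0 F → (∀ s, |F s| ≤ 1) →
      (a : ℝ) ^ 2 * nu E.Λ p.w 0 a (fun s => F s - E.ω F) ≤
        850 * W ^ 3 * (R / a₁) ^ (ew p.w / 10) * (a₁ : ℝ) ^ 2 := fun F f1 f2 f3 f4 => by
    refine (crude hE.toOk (by omega) (by omega) (by omega) hL f1 f2 f3).trans ?_
    have k1 := nu_bdd hG (by omega) f1 f4
    have k2 : ((a : ℝ) / (5 * a₁ : ℕ)) ^ (ew p.w / 10) ≤ W * (R / a₁) ^ (ew p.w / 10) := calc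
      _ ≤ ((W : ℝ) * (R / a₁)) ^ (ew p.w / 10) := by
          refine rpow_le_rpow (by positivity) ?_ (by positivity)
          push_cast
          rw [← mul_div_assoc]
          gcongr; linarith
      _ = (W : ℝ) ^ (ew p.w / 10) * (R / a₁) ^ (ew p.w / 10) := mul_rpow (by positivity) (by positivity)
      _ ≤ _ := by
          gcongr
          exact (rpow_le_rpow_of_exponent_le (by linarith) (by linarith)).trans_eq (rpow_one _)
    have k3 := A51.nu_nonneg hG.mem.ok p.w 0 (5 * a₁) F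
    calc _ ≤ 34 * W ^ 2 * (W * (R / a₁) ^ (ew p.w / 10)) * (((5 * a₁ : ℕ) : ℝ) ^ 2 * 1) := by gcongr
      _ = _ := by push_cast; ring
  have k1 := hA _ i1 e1 s1 b1
  have k2 := hA _ i2' e2 s2 (abs_cp_le _ _)
  have k3 : (a : ℝ) ^ 2 * nu E.Λ p.w 0 a (fun s => E.e 0 s - Tc E.ω a₁ α₁ α₂ s) ≤ P * t ^ 2 / 2 := by
    have h3 := ht (4 * W ^ 2) (by linarith)
    have h4 : t ^ (16 + 2 * nr p.w) ≤ t ^ 3 := pow_le_pow_of_le_one t0.le t1 (by omega)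
    have h5 := A51.nu_nonneg hG.mem.ok p.w 0 a fun s => E.e 0 s - Tc E.ω a₁ α₁ α₂ s
    calc _ ≤ (W * R) ^ 2 * (2 * (P * t ^ 3 / R ^ 2)) := by
          gcongr
          exact (nu_mono hG (by omega) ha hL j3).trans (by gcongr; exact hD.nu.trans (by gcongr))
      _ = P * t ^ 2 / 2 * (4 * W ^ 2 * t) := by field_simp; ring
      _ ≤ P * t ^ 2 / 2 * 1 := by gcongr
      _ = _ := mul_one _
  have k4 : nu E.Λ p.w 0 a (E.e 0) ≤ nu E.Λ p.w 0 a (fun s => E.e 0 s - Tc E.ω a₁ α₁ α₂ s) +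
      (|α₁| * nu E.Λ p.w 0 a (fun s => T1 a₁ s - E.ω (T1 a₁)) +
        |α₂| * nu E.Λ p.w 0 a fun s => T2 a₁ s - E.ω (T2 a₁)) := by
    have l1 := j1 a (by omega)
    have l2 := j2 a (by omega)
    rw [← nu_smul hG (by omega) l1, ← nu_smul hG (by omega) l2]
    refine le_trans ?_ (add_le_add_right (nu_add hG (by omega) (l1.smul α₁) (l2.smul α₂)) _)
    refine le_trans (le_of_eq ?_) (nu_add hG (by omega) (j3.mono ha) ((l1.smul α₁).add (l2.smul α₂)))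
    congr 1; funext s; simp only [Tc]; ring
  -- numbers
  obtain ⟨τ, τ0, rfl⟩ : ∃ τ : ℝ, 0 < τ ∧ t = τ ^ 5 :=
    ⟨t ^ ((5 : ℕ) : ℝ)⁻¹, by positivity, (rpow_inv_natCast_pow t0.le (by norm_num)).symm⟩
  have τ1 : τ ≤ 1 := (pow_le_one_iff_of_nonneg τ0.le (by norm_num)).1 t1
  have hMτ : 2 * M * τ ≤ 1 := (pow_le_one_iff_of_nonneg (by positivity) (n := 5) (by norm_num)).1 (by
    rw [mul_pow]; exact ht _ (by linarith))
  have hAB : (R / a₁) ^ (ew p.w / 10) * (R / a₁) ^ (ew p.w / 100) * τ ^ 14 ≤ 1 := by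
    have h3 : R / a₁ ≤ τ ^ (-(120 * nr p.w : ℝ)) := by
      rw [rpow_neg τ0.le, div_le_iff₀ a0, inv_mul_eq_div, le_div_iff₀ (by positivity)]
      refine le_trans (le_of_eq ?_) hD.lo
      rw [← pow_mul, ← rpow_natCast]; congr 2; push_cast; ring
    rw [← rpow_add (by positivity)]
    calc _ ≤ (τ ^ (-(120 * nr p.w : ℝ))) ^ (ew p.w / 10 + ew p.w / 100) * τ ^ 14 := by gcongr
      _ = τ ^ (-(120 * nr p.w : ℝ) * (ew p.w / 10 + ew p.w / 100) + (14 : ℕ)) := by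
          rw [← rpow_mul τ0.le, rpow_add τ0, rpow_natCast]
      _ ≤ 1 := rpow_le_one τ0.le τ1 (by push_cast; linarith [nr_ew hG.w4])
  have x1 : |α₁| * (a₁ : ℝ) ^ 2 ≤
      2 * π ^ 2 / c * (|gk E.ω' R| + P * (τ ^ 5) ^ 6 + C₂ * Y * P') := by
    have h3 : |E.bb R a₁ α₁| ≤ |gk E.ω' R| + P * (τ ^ 5) ^ 6 + C₂ * Y * P' := by
      have := abs_sub (E.bb R a₁ α₁ + gk E.ω' R) (gk E.ω' R)
      rw [add_sub_cancel_right] at this
      linarith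
    have h4 : 0 ≤ kp (gk E.ω R) a₁ := le_trans (by positivity) hk
    rw [Dt.bb, abs_div, abs_mul, abs_of_nonneg h4, abs_of_pos (by positivity : 0 < 2 * π ^ 2),
      div_le_iff₀ (by positivity)] at h3
    rw [div_mul_eq_mul_div, le_div_iff₀ hc]
    calc _ = |α₁| * (c * (a₁ : ℝ) ^ 2) := by ring
      _ ≤ |α₁| * kp (gk E.ω R) a₁ := by gcongr
      _ ≤ _ := by linarith
  have x2 : |α₂| * (a₁ : ℝ) ^ 2 ≤
      (R / a₁) ^ (ew p.w / 100) * (C₃ * (Qq E.ω' R + Y * P) + P * (τ ^ 5) ^ 5) := by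
    have h3 : (R / a₁) ^ (ew p.w / 100) * ((a₁ : ℝ) / R) ^ (ew p.w / 100) = 1 := by
      rw [← mul_rpow (by positivity) (by positivity), div_mul_div_cancel₀ a0.ne', div_self R0.ne', one_rpow]
    calc _ = (R / a₁) ^ (ew p.w / 100) * (|α₂| * (a₁ : ℝ) ^ 2 * ((a₁ : ℝ) / R) ^ (ew p.w / 100)) := by
          rw [mul_left_comm, h3, mul_one]
      _ ≤ _ := by gcongr
  have k5 := num (K := 850 * W ^ 3) (by positivity) (by positivity) c2 c3 hM τ0 hMτ τ1 (by positivity)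
    (one_le_rpow u1 (by positivity)) hAB (abs_nonneg _) (by unfold Qq; positivity) Y0 (by linarith) hK.1 x1 x2
  have k6 := mul_le_mul_of_nonneg_left k1 (abs_nonneg α₁)
  have k7 := mul_le_mul_of_nonneg_left k2 (abs_nonneg α₂)
  have k8 := mul_le_mul_of_nonneg_left k4 (sq_nonneg (a : ℝ))
  linarith

end Crest.Agent.T145.Ev
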