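import Crest.Agent.T145.XiC_22

/-!
# Row 145: Riemann sums with a rate, the shell constant (helper22)
-/

set_option autoImplicit false

namespace Crest.Agent.T145.Xi

open Finset Pot Pot.Ha91 MeasureTheory

/-- one dimensional Riemann sums -/
theorem riem1 {h : ℝ → ℝ} {L A R : ℝ} (hL : ∀ s t, |h s - h t| ≤ L * |s - t|)
    (hA : ∀ t, h t ≠ 0 → |t| < A) (hR : 0 < R) {N : ℕ} (hN : A * R ≤ N) :
    |∑ n ∈ Icc (-N : ℤ) N, h (n / R) / R - ∫ t, h t| ≤ L * (2 * N + 1) / R ^ 2 := by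
  have hL0 : 0 ≤ L := by simpa using (abs_nonneg _).trans (hL 1 0)
  have hc : Continuous h := (LipschitzWith.of_dist_le' (K := L) fun s t => hL s t).continuous
  set a : ℕ → ℝ := fun k => (k - N) / R with ha
  have hA' : A ≤ N / R := by rwa [le_div_iff₀ hR]
  have h1 : ∫ t, h t = ∑ k ∈ range (2 * N + 1), ∫ t in a k..a (k + 1), h t := by
    rw [intervalIntegral.sum_integral_adjacent_intervals fun k _ => hc.intervalIntegrable _ _,
      intervalIntegral.integral_eq_integral_of_support_subset fun t ht => ?_]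
    have := abs_lt.1 (hA t ht)
    have h2 : (N : ℝ) / R ≤ (N + 1) / R := by gcongr; linarith
    simp only [ha, Set.mem_Ioc]
    push_cast
    rw [zero_sub, neg_div, show 2 * (N : ℝ) + 1 - N = N + 1 by ring]
    constructor <;> linarith
  have h2 : ∑ n ∈ Icc (-N : ℤ) N, h (n / R) / R = ∑ k ∈ range (2 * N + 1), h (a k) / R := by
    symm
    refine sum_bij' (fun k _ => (k : ℤ) - N) (fun n _ => (n + N).toNat) ?_ ?_ ?_ ?_ ?_
    · intro k hk; rw [mem_range] at hk; rw [mem_Icc]; omega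
    · intro n hn; rw [mem_Icc] at hn; rw [mem_range]; omega
    · intro k _; simp
    · intro n hn; rw [mem_Icc] at hn; omega
    · intro k _; simp [ha]
  rw [h1, h2, ← sum_sub_distrib]
  refine (abs_sum_le_sum_abs _ _).trans ((sum_le_card_nsmul _ _ (L / R ^ 2) fun k _ => ?_).trans (le_of_eq ?_))
  · have h3 : a (k + 1) - a k = 1 / R := by simp only [ha]; push_cast; ring
    have h4 : h (a k) / R - ∫ t in a k..a (k + 1), h t = ∫ t in a k..a (k + 1), (h (a k) - h t) := by
      rw [intervalIntegral.integral_sub (by simp) (hc.intervalIntegrable _ _),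
        intervalIntegral.integral_const, h3, smul_eq_mul]; ring
    have h5 := intervalIntegral.norm_integral_le_of_norm_le_const (a := a k) (b := a (k + 1))
      (f := fun t => h (a k) - h t) (C := L / R) fun t ht => by
        rw [Set.uIoc_of_le (by linarith [one_div_pos.2 hR])] at ht
        refine (hL _ _).trans ?_
        rw [abs_sub_comm, abs_of_nonneg (by linarith [ht.1]), div_eq_mul_one_div]
        gcongr; linarith [ht.2]
    rw [h4]
    refine h5.trans (le_of_eq ?_)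
    rw [h3, abs_of_pos (one_div_pos.2 hR)]; field_simp
  · rw [card_range, nsmul_eq_mul]; push_cast; ring

/-- two dimensional Riemann sums -/
theorem riem2 {f : ℝ × ℝ → ℝ} {L A : ℝ} (hL : ∀ p q, |f p - f q| ≤ L * ‖p - q‖)
    (hA : ∀ p, f p ≠ 0 → |p.1| < A ∧ |p.2| < A) (hA0 : 0 ≤ A) {R : ℝ} (hR : 1 ≤ R) {n : ℕ}
    (hn : A * R ≤ n) :
    |∑ x ∈ bl 0 n, f (rs R x) / R ^ 2 - ∫ s, ∫ t, f (s, t)| ≤ 2 * L * (2 * A + 3) ^ 2 / R := by
  have hR0 : 0 < R := by linarith
  have hL0 : 0 ≤ L := by simpa using (abs_nonneg _).trans (hL (1, 0) 0)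
  set N := ⌈A * R⌉₊ with hN
  have hN1 : A * R ≤ N := Nat.le_ceil _
  have hN2 : 2 * (N : ℝ) + 1 ≤ (2 * A + 3) * R := by
    linarith [(Nat.ceil_lt_add_one (by positivity : 0 ≤ A * R)).le]
  have h0 : ∑ x ∈ bl 0 n, f (rs R x) / R ^ 2 = ∑ x ∈ bl 0 N, f (rs R x) / R ^ 2 := by
    refine (sum_subset (bl_mono 0 (Nat.ceil_le.2 hn)) fun x _ hx => ?_).symm
    refine div_eq_zero_iff.2 (.inl (not_not.1 fun h => hx ?_))
    have h1 := hA _ h
    simp only [rs_apply, abs_div, abs_of_pos hR0, div_lt_iff₀ hR0] at h1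
    rw [mem_bl_abs]
    simp only [Prod.fst_zero, Prod.snd_zero, sub_zero]
    constructor
    · exact_mod_cast (h1.1.trans_le hN1).le
    · exact_mod_cast (h1.2.trans_le hN1).le
  have hc : Continuous f := (LipschitzWith.of_dist_le' (K := L) fun p q => by
    rw [dist_eq_norm p]; exact hL p q).continuous
  have h1 : ∀ s, |∑ m ∈ Icc (-N : ℤ) N, f (s, m / R) / R - ∫ t, f (s, t)| ≤ L * (2 * N + 1) / R ^ 2 :=
    fun s => riem1 (h := fun t => f (s, t)) (fun t t' => by simpa using hL (s, t) (s, t'))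
      (fun t ht => (hA _ ht).2) hR0 hN1
  have h2 : ∀ s, ∫ t, f (s, t) = ∫ t in -A..A, f (s, t) := fun s =>
    (intervalIntegral.integral_eq_integral_of_support_subset fun t ht =>
      ⟨(abs_lt.1 (hA _ ht).2).1, (abs_lt.1 (hA _ ht).2).2.le⟩).symm
  have hi : ∀ s, IntervalIntegrable (fun t => f (s, t)) volume (-A) A := fun s =>
    (hc.comp (Continuous.prodMk_right s)).intervalIntegrable _ _
  have h3 := riem1 (h := fun s => ∫ t, f (s, t)) (L := 2 * A * L) (A := A) (fun s s' => by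
    rw [h2, h2, ← intervalIntegral.integral_sub (hi s) (hi s')]
    refine (intervalIntegral.norm_integral_le_of_norm_le_const (a := -A) (b := A)
      (f := fun t => f (s, t) - f (s', t)) (C := L * |s - s'|) fun t _ => by
      simpa using hL (s, t) (s', t)).trans (le_of_eq ?_)
    rw [sub_neg_eq_add, abs_of_nonneg (by linarith : 0 ≤ A + A)]; ring) (fun s hs => by
      by_contra h
      exact hs (integral_eq_zero_of_ae (.of_forall fun t => not_not.1 fun h' => h (hA _ h').1))) hR0 hN1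
  have h4 : |∑ x ∈ bl 0 N, f (rs R x) / R ^ 2 - ∑ m ∈ Icc (-N : ℤ) N, (∫ t, f (m / R, t)) / R| ≤
      (2 * N + 1) * (L * (2 * N + 1) / R ^ 2 / R) := by
    rw [bl, sum_product]
    simp only [Prod.fst_zero, Prod.snd_zero, zero_sub, zero_add]
    rw [← sum_sub_distrib]
    refine (abs_sum_le_sum_abs _ _).trans ((sum_le_card_nsmul _ _ (L * (2 * N + 1) / R ^ 2 / R)
      fun m _ => ?_).trans (le_of_eq ?_))
    · have : ∑ y ∈ Icc (-N : ℤ) N, f (rs R (m, y)) / R ^ 2 = (∑ y ∈ Icc (-N : ℤ) N, f (m / R, y / R) / R) / R := by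
        rw [sum_div]; exact sum_congr rfl fun y _ => by rw [div_div, ← pow_two]; rfl
      rw [this, ← sub_div, abs_div, abs_of_pos hR0]
      gcongr
      exact h1 _
    · rw [Int.card_Icc, show ((N : ℤ) + 1 - -N).toNat = 2 * N + 1 by omega, nsmul_eq_mul]; push_cast; ring
  rw [h0]
  refine (abs_sub_le _ _ _).trans ((add_le_add h4 h3).trans ?_)
  calc _ ≤ (2 * A + 3) * R * (L * ((2 * A + 3) * R) / R ^ 2 / R) +
        (2 * A + 3) * L * ((2 * A + 3) * R) / R ^ 2 := by gcongr; linarith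
    _ = _ := by field_simp; ring

/-- Riemann sums of a `C¹` function with bounded support -/
theorem riem {f : ℝ × ℝ → ℝ} (hf : ContDiff ℝ 1 f) {A : ℝ} (hA0 : 0 ≤ A)
    (hA : ∀ p, f p ≠ 0 → |p.1| < A ∧ |p.2| < A) : ∃ C : ℝ, 0 ≤ C ∧ ∀ R : ℝ, 1 ≤ R → ∀ n : ℕ, A * R ≤ n →
    |∑ x ∈ bl 0 n, f (rs R x) / R ^ 2 - ∫ s, ∫ t, f (s, t)| ≤ C / R := by
  have hs : HasCompactSupport f := HasCompactSupport.intro (isCompact_closedBall 0 A) fun p hp =>
    not_not.1 fun h => hp (by
      rw [mem_closedBall_zero_iff, Prod.norm_def]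
      exact max_le (hA p h).1.le (hA p h).2.le)
  obtain ⟨L, hL⟩ := hf.lipschitzWith_of_hasCompactSupport hs one_ne_zero
  exact ⟨2 * L * (2 * A + 3) ^ 2, by positivity, fun R hR n hn =>
    riem2 (fun p q => by rw [← dist_eq_norm p]; exact hL.dist_le_mul p q) hA hA0 hR hn⟩

/-! ## the shell -/

/-- the continuum cut-off -/
noncomputable def chiR (p : ℝ × ℝ) : ℝ := cut1 1 2 p.1 * cut1 1 2 p.2

theorem chi_eq_chiR {r : ℝ} (hr : 0 < r) (x : Pt) : chi r x = chiR (rs r x) := chi_eq hr x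

theorem contDiff_chiR {k : ℕ} : ContDiff ℝ k chiR := by
  have h : ContDiff ℝ k (cut1 1 2) :=
    (Real.smoothTransition.contDiff.comp ((contDiff_const.sub contDiff_id).div_const _)).mul
      (Real.smoothTransition.contDiff.comp ((contDiff_const.add contDiff_id).div_const _))
  exact (h.comp contDiff_fst).mul (h.comp contDiff_snd)

theorem chiR_one {p : ℝ × ℝ} (h : ‖p‖ ≤ 1) : chiR p = 1 := by
  rw [chiR, cut1_one one_lt_two ((norm_fst_le p).trans h), cut1_one one_lt_two ((norm_snd_le p).trans h),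
    one_mul]

theorem chiR_ne {p : ℝ × ℝ} (h : chiR p ≠ 0) : |p.1| < 2 ∧ |p.2| < 2 :=
  ⟨not_le.1 fun h' => left_ne_zero_of_mul h (cut1_zero one_lt_two h'),
    not_le.1 fun h' => right_ne_zero_of_mul h (cut1_zero one_lt_two h')⟩

/-- the bigger cut-off is `1` on the support of the smaller one -/
theorem chi_one_of_ne {r r' : ℝ} (hr : 0 < r) (h : 2 * r ≤ r') {x : Pt} (hx : chi r x ≠ 0) :
    chi r' x = 1 := by
  have hr' : 0 < r' := by linarith
  have h1 := chiR_ne (chi_eq_chiR hr x ▸ hx)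
  simp only [rs_apply, abs_div, abs_of_pos hr, div_lt_iff₀ hr] at h1
  rw [chi_eq_chiR hr', chiR_one]
  simp only [rs_apply, Prod.norm_def, Real.norm_eq_abs, abs_div, abs_of_pos hr', max_le_iff,
    div_le_one hr']
  constructor <;> linarith [h1.1, h1.2]

theorem chi_le_chi {r r' : ℝ} (hr : 0 < r) (h : 2 * r ≤ r') (x : Pt) : chi r x ≤ chi r' x := by
  by_cases hx : chi r x = 0
  · rw [hx]; exact chi_nonneg _ _
  · rw [chi_one_of_ne hr h hx]; exact chi_le_one _ _

/-- where two cut-offs differ -/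
theorem eu_of_chi_ne {r r' : ℝ} (hr : 0 < r) (h : r ≤ r') {x : Pt} (hx : chi r' x - chi r x ≠ 0) :
    r < eu x ∧ eu x ≤ 4 * r' := by
  constructor
  · by_contra h1
    rw [chi_one_of_eu hr (not_lt.1 h1), chi_one_of_eu (by linarith) ((not_lt.1 h1).trans h)] at hx
    exact hx (sub_self _)
  · by_contra h1
    rw [not_not.1 fun h2 => h1 (eu_le_of_chi (by linarith) h2),
      not_not.1 fun h2 => h1 ((eu_le_of_chi hr h2).trans (by linarith))] at hx
    exact hx (sub_self _)

/-- the fixed function whose Riemann sums are the shell sums -/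
noncomputable def shF (W : ℝ) (p : ℝ × ℝ) : ℝ := (chiR (W⁻¹ • p) - chiR p) / (p.1 ^ 2 + p.2 ^ 2)

/-- the shell constant -/
noncomputable def shI (W : ℝ) : ℝ := ∫ s, ∫ t, shF W (s, t)

theorem contDiff_shF {W : ℝ} (hW : 1 ≤ W) : ContDiff ℝ 1 (shF W) := by
  refine contDiff_iff_contDiffAt.2 fun p => ?_
  by_cases hp : p = 0
  · subst hp
    refine (contDiffAt_const (c := (0 : ℝ))).congr_of_eventuallyEq ?_
    filter_upwards [Metric.closedBall_mem_nhds (0 : ℝ × ℝ) one_pos] with q hq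
    rw [mem_closedBall_zero_iff] at hq
    rw [shF, chiR_one hq, chiR_one, sub_self, zero_div]
    rw [norm_smul, norm_inv, Real.norm_of_nonneg (by linarith)]
    exact mul_le_one₀ (inv_le_one_of_one_le₀ hW) (norm_nonneg _) hq
  · refine ContDiffAt.div (((contDiff_chiR (k := 1)).comp (contDiff_const_smul _)).sub
      (contDiff_chiR (k := 1))).contDiffAt (by fun_prop) fun h => hp ?_
    ext <;> simp <;> nlinarith [sq_nonneg p.1, sq_nonneg p.2]

theorem shF_rs {W R : ℝ} (hW : 0 < W) (hR : 0 < R) (x : Pt) :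
    shF W (rs R x) / R ^ 2 = (chi (W * R) x - chi R x) / eu x ^ 2 := by
  rw [shF, chi_eq_chiR hR, chi_eq_chiR (mul_pos hW hR), eu_sq, div_div]
  congr 1
  · congr 2; ext <;> simp [rs_apply] <;> field_simp
  · simp only [rs_apply]; field_simp

/-- **shell sums** -/
theorem shell {W : ℝ} (hW : 1 ≤ W) : ∃ C : ℝ, 0 ≤ C ∧ ∀ R : ℝ, 1 ≤ R → ∀ n : ℕ, 2 * W * R ≤ n →
    |∑ x ∈ bl 0 n, (chi (W * R) x - chi R x) / eu x ^ 2 - shI W| ≤ C / R := by
  have hW0 : 0 < W := by linarith
  obtain ⟨C, h0, hC⟩ := riem (contDiff_shF hW) (A := 2 * W) (by positivity) fun p hp => by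
    by_cases h1 : chiR p = 0
    · have h2 := chiR_ne (p := W⁻¹ • p) fun h => hp (by rw [shF, h, h1, sub_self, zero_div])
      simp only [Prod.smul_fst, Prod.smul_snd, smul_eq_mul, abs_mul, abs_inv, abs_of_pos hW0,
        inv_mul_lt_iff₀ hW0] at h2
      constructor <;> linarith [h2.1, h2.2]
    · constructor <;> linarith [(chiR_ne h1).1, (chiR_ne h1).2]
  refine ⟨C, h0, fun R hR n hn => ?_⟩
  simpa only [shF_rs hW0 (by linarith : 0 < R), shI] using hC R hR n hn

theorem shI_pos {W : ℝ} (hW : 4 ≤ W) : 1 / 8 ≤ shI W := by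
  obtain ⟨C, h0, hC⟩ := shell (W := W) (by linarith)
  have key : ∀ m : ℕ, 1 ≤ m → 1 / 8 ≤ shI W + C / m := fun m hm => by
    have hm1 : (1 : ℝ) ≤ m := by exact_mod_cast hm
    have h1 := (abs_le.1 (hC m hm1 _ (Nat.le_ceil _))).2
    have h2 : 4 * m ≤ ⌈2 * W * m⌉₊ := by
      have : ((4 * m : ℕ) : ℝ) ≤ ⌈2 * W * m⌉₊ := by
        push_cast; nlinarith [Nat.le_ceil (2 * W * m)]
      exact_mod_cast this
    have h3 : sq (2 * m, 2 * m) (2 * m) ⊆ bl 0 ⌈2 * W * m⌉₊ := fun x hx =>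
      bl_mono 0 h2 (by rw [mem_sq] at hx; rw [mem_bl]; simp at hx ⊢; omega)
    have h4 := sum_le_sum_of_subset_of_nonneg h3 (f := fun x => (chi (W * m) x - chi m x) / eu x ^ 2)
      fun x _ _ => div_nonneg (sub_nonneg.2 (chi_le_chi (by linarith) (by nlinarith) x)) (sq_nonneg _)
    have h5 := card_nsmul_le_sum (sq (2 * m, 2 * m) (2 * m))
      (fun x => (chi (W * m) x - chi m x) / eu x ^ 2) (1 / (32 * m ^ 2)) fun x hx => by
        rw [mem_sq] at hx
        simp only at hx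
        have h6 : x ∈ bl 0 (4 * m) := by rw [mem_bl]; simp; omega
        have h7 : x ∉ bl 0 (2 * m - 1) := by rw [mem_bl]; simp; omega
        rw [chi_one (n := 4 * m) (by positivity) (by push_cast; nlinarith) h6,
          sup_chi (n := 2 * m - 1) (by linarith) (by rw [Nat.cast_sub (by omega)]; push_cast; linarith) x h7,
          sub_zero, eu_sq]
        have a1 : (2 * m : ℝ) ≤ x.1 := by exact_mod_cast hx.1.1
        have a2 : (x.1 : ℝ) ≤ 4 * m := by exact_mod_cast (by omega : x.1 ≤ 4 * m)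
        have a3 : (2 * m : ℝ) ≤ x.2 := by exact_mod_cast hx.2.1
        have a4 : (x.2 : ℝ) ≤ 4 * m := by exact_mod_cast (by omega : x.2 ≤ 4 * m)
        exact one_div_le_one_div_of_le (by nlinarith) (by nlinarith)
    rw [card_sq, nsmul_eq_mul] at h5
    have h8 : (((2 * m) ^ 2 : ℕ) : ℝ) * (1 / (32 * m ^ 2)) = 1 / 8 := by push_cast; field_simp; norm_num
    linarith
  have h1 : Filter.Tendsto (fun m : ℕ => shI W + C / m) Filter.atTop (nhds (shI W + 0)) :=
    tendsto_const_nhds.add (tendsto_const_div_atTop_nhds_zero_nat C)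
  rw [add_zero] at h1
  exact ge_of_tendsto h1 (Filter.eventually_atTop.2 ⟨1, key⟩)

end Crest.Agent.T145.Xi
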