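import Crest.Agent.T145.EvClo_54
import Crest.Agent.T145.FlBare_80
import Crest.Agent.T145.FlSw_22

/-!
# Row 145, even sector: the `K'` half of CLOSE (helper19)

`K19.qq_le`: `|g'|` and `Qq` are bounded by `|p| + |q|`.  `K19.kp`: the profile of `K'` from `DkStmt`, `AmbStmt`.
-/

set_option autoImplicit false

namespace Crest.Agent.T145.Ev

open Finset Pot Xi Real Fl

namespace K19

theorem ew_bd {w : ℕ} (hw : 4 ≤ w) : 0 < ew w ∧ ew w ≤ 1 / 100 := by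
  have h4 : (4 : ℝ) ≤ w := by exact_mod_cast hw
  have h1 : (2 : ℝ) ≤ 4 * (w : ℝ) ^ 4 := by nlinarith [one_le_pow₀ (show (1 : ℝ) ≤ w by linarith) (n := 4)]
  have h2 : 0 < log 2 := log_pos one_lt_two
  have h3 := log_le_log two_pos h1
  exact ⟨div_pos (div_pos h2 (h2.trans_le h3)) (by norm_num),
    div_le_div_of_nonneg_right ((div_le_one (h2.trans_le h3)).2 h3) (by norm_num)⟩

theorem ew_le' (w : ℕ) : ew w ≤ 1 / 100 := by
  rcases Nat.eq_zero_or_pos w with rfl | hw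
  · simp [ew, cw]
  have h4 : (1 : ℝ) ≤ w := by exact_mod_cast hw
  have h1 : (2 : ℝ) ≤ 4 * (w : ℝ) ^ 4 := by nlinarith [one_le_pow₀ h4 (n := 4)]
  have h2 : 0 < log 2 := log_pos one_lt_two
  have h3 := log_le_log two_pos h1
  exact div_le_div_of_nonneg_right ((div_le_one (h2.trans_le h3)).2 h3) (by norm_num)

theorem Rk_cast (W k : ℕ) : Rk W k = ((2 * W ^ k : ℕ) : ℝ) := by simp [Rk]

theorem Rk_succ (W k : ℕ) : Rk W (k + 1) = W * Rk W k := by rw [Rk, Rk]; ring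

theorem Rk_add (W k m : ℕ) : Rk W (k + m) = (W : ℝ) ^ m * Rk W k := by rw [Rk, Rk]; ring

theorem two_le_Rk {W : ℕ} (hW : 1 ≤ W) (k : ℕ) : 2 ≤ Rk W k := by
  have : (1 : ℝ) ≤ (W : ℝ) ^ k := one_le_pow₀ (by exact_mod_cast hW)
  rw [Rk]; linarith

theorem Rk_mono {W : ℕ} (hW : 1 ≤ W) {j k : ℕ} (h : j ≤ k) : Rk W j ≤ Rk W k := by
  have : (W : ℝ) ^ j ≤ (W : ℝ) ^ k := pow_le_pow_right₀ (by exact_mod_cast hW) h
  rw [Rk, Rk]; linarith

/-- the scale of a length -/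
theorem exists_scale (f : ℕ → ℝ) {a k : ℕ} {d : ℝ} (hk : a ≤ k) (h : f a ≤ d) :
    ∃ j, a ≤ j ∧ j ≤ k ∧ f j ≤ d ∧ (j < k → d < f (j + 1)) := by
  induction k, hk using Nat.le_induction with
  | base => exact ⟨a, le_rfl, le_rfl, h, fun h => absurd h (lt_irrefl _)⟩
  | succ k hk ih =>
    obtain ⟨j, h1, h2, h3, h4⟩ := ih
    by_cases h5 : f (k + 1) ≤ d
    · exact ⟨k + 1, by omega, le_rfl, h5, fun h => absurd h (lt_irrefl _)⟩
    · refine ⟨j, h1, by omega, h3, fun _ => ?_⟩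
      rcases h2.eq_or_lt with rfl | h6
      · exact not_le.1 h5
      · exact h4 h6

theorem y_le {y : ℕ → ℝ} {a j k : ℕ} (h : ∀ i, a ≤ i → i < k → y i ≤ 2 * y (i + 1)) (h1 : a ≤ j)
    (h2 : j ≤ k) : y j ≤ 2 ^ (k - j) * y k := by
  induction k, h2 using Nat.le_induction with
  | base => simp
  | succ k hk ih =>
    have h3 := mul_le_mul_of_nonneg_left (h k (by omega) (by omega)) (show (0 : ℝ) ≤ 2 ^ (k - j) by positivity)
    rw [Nat.succ_sub hk, pow_succ, mul_assoc]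
    exact (ih fun i a b => h i a (by omega)).trans h3

theorem yk_nonneg (ω : Sta) (W R : ℝ) : 0 ≤ yk ω W R := by unfold yk; positivity

theorem Qq_nonneg (ω' : Sta) (R : ℝ) : 0 ≤ Qq ω' R := by unfold Qq; positivity

/-- `|g'|` and `Qq` against `|p| + |q|` -/
theorem qq_le (W : ℕ) (hW : 2 ≤ W) : ∃ C : ℝ, 1 ≤ C ∧ ∀ (p : Par) (D₀ R Y : ℝ) (E : Dt),
    E.Lv p W D₀ R Y → yk E.ω W R ≤ 1 →
      |gk E.ω' R| + Qq E.ω' R ≤ C * (|pd E.ω' W R| + |qd E.ω E.ω' W R|) := by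
  obtain ⟨c, Ca, hc, hA⟩ := akStmt W hW
  obtain ⟨Ce, he0, he⟩ := abs_er_le
  have hl : 1 ≤ π * log W := by
    have h2 : log 2 ≤ log W := log_le_log two_pos (by exact_mod_cast hW)
    nlinarith [pi_gt_three, log_two_gt_d9]
  set b : ℝ := √(c / 2) * exp (-(2 * π ^ 2 * Ce)) with hb
  have hb0 : 0 < b := by positivity
  refine ⟨1 + (1 + 2 * π ^ 2 * Ce) / b, le_add_of_nonneg_right (by positivity),
    fun p D₀ R Y E h hy => ?_⟩
  have hR := h.maj.1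
  have hew := ew_le' p.w
  have hg : |gk E.ω R| ≤ 1 := by
    have := abs_le.1 h.crit
    rw [abs_le]; constructor <;> nlinarith [pi_gt_three]
  have hg' : |gk E.ω' R| ≤ |pd E.ω' W R| := by
    rw [pd, abs_mul, abs_of_pos (one_pos.trans_le hl)]
    exact le_mul_of_one_le_left (abs_nonneg _) hl
  have hy0 := yk_nonneg E.ω W R
  have hl0 : ell E.ω R (Jz 0) ≠ 0 := fun h0 => by
    have h1 := h.maj.2.1
    rw [h.cone, yk, h0] at h1
    simpa using (rpow_pos_of_pos (one_pos.trans_le hR) (-ew p.w)).trans_le h1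
  have h1 : b * Qq E.ω' R ≤ yk E.ω W R * |lr E.ω E.ω' R| := by
    have e : yk E.ω W R * |lr E.ω E.ω' R| =
        √(π * log W * Ak W R / 2) * exp (-2 * π ^ 2 * gk E.ω R * er R) * Qq E.ω' R := by
      have := abs_pos.2 hl0
      rw [yk, lr, Qq, abs_div]; field_simp
    rw [e]
    refine mul_le_mul_of_nonneg_right (mul_le_mul (sqrt_le_sqrt ?_) (exp_le_exp.2 ?_) (by positivity)
      (by positivity)) (Qq_nonneg _ _)
    · have := (hA R hR).1
      nlinarith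
    · have h2 : |gk E.ω R * er R| ≤ Ce := by
        rw [abs_mul]; exact (mul_le_of_le_one_left (abs_nonneg _) hg).trans (he R hR)
      nlinarith [le_abs_self (gk E.ω R * er R), sq_nonneg π]
  have h2 : yk E.ω W R * |lr E.ω E.ω' R| ≤ |qd E.ω E.ω' W R| + 2 * π ^ 2 * Ce * |pd E.ω' W R| := by
    have e : yk E.ω W R * lr E.ω E.ω' R =
        qd E.ω E.ω' W R + yk E.ω W R * (2 * π ^ 2 * (er R * gk E.ω' R)) := by rw [qd]; ring
    rw [← abs_of_nonneg hy0, ← abs_mul, e]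
    refine (abs_add_le _ _).trans (add_le_add le_rfl ?_)
    rw [abs_mul, abs_of_nonneg hy0, abs_mul, abs_mul (er R), abs_of_pos (by positivity : 0 < 2 * π ^ 2),
      mul_assoc (2 * π ^ 2)]
    refine (mul_le_of_le_one_left (by positivity) hy).trans ?_
    have := he R hR
    gcongr
  have h3 : Qq E.ω' R ≤ (1 + 2 * π ^ 2 * Ce) / b * (|pd E.ω' W R| + |qd E.ω E.ω' W R|) := by
    rw [div_mul_eq_mul_div, le_div_iff₀' hb0]
    have : 0 ≤ 2 * π ^ 2 * Ce * |qd E.ω E.ω' W R| := by positivity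
    nlinarith [abs_nonneg (pd E.ω' W R)]
  nlinarith [abs_nonneg (qd E.ω E.ω' W R)]

/-- bare fourth moments of `J` in the free boxes -/
theorem JJ_sq (F : Fa) : ∃ B : ℝ, ∀ Λ, F.Mem Λ → ∀ (x : Pt) (a c : ℕ), x ∈ bl 0 a → a + 1 ≤ c →
    Nc.Nm Λ 0 c (fun s => (Jz 0 s * Jz x s) ^ 2) ≤ B ^ 2 := by
  obtain ⟨C, hC, H⟩ := Fl.bareStmt F
  refine ⟨4 * √C, fun Λ hΛ x a c hx hc => ?_⟩
  have hO : Λ.Ok := ⟨hΛ.1 ▸ F.adm, F.pos.trans_le hΛ.2.2.1⟩
  have key : ∀ y ∈ bl (0 : Pt) a, Nc.EN Λ 0 c (fun s => Jz y s ^ 4) ≤ C * 16 := fun y hy => by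
    have h1 := (((H Λ hΛ 0 a (dl y) (sup_dl hy)).2.2 c hc).2.1)
    have h2 : E0 (bl 0 a) (dl y) = 4 := by
      have : E0 (bl 0 a) (dl y) = A0 (dl y) y := ip_dl hy _
      rw [this]; simp [A0]
    simp only [← Jz_eq_pr, h2] at h1
    linarith
  have hc' := hO.cen_Nr_bl (self_mem_bl (0 : Pt) c)
  have t : ∀ y, Tame fun s => Jz y s ^ 4 := fun y => (Om.tame_Jz y).pow 4
  have h3 : Nc.Nm Λ 0 c (fun s => (Jz 0 s * Jz x s) ^ 2) ≤
      Nc.EN Λ 0 c fun s => (Jz 0 s ^ 4 + Jz x s ^ 4) / 2 :=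
    Ex_mono hc'.nonneg (hc'.ig ((((Om.tame_Jz 0).mul (Om.tame_Jz x)).pow 2).abs))
      (hc'.ig (((t 0).add (t x)).div_const 2)) fun s => by
        rw [abs_of_nonneg (sq_nonneg _)]
        nlinarith [sq_nonneg (Jz 0 s ^ 2 - Jz x s ^ 2)]
  rw [Nc.EN, Ex_div_const, Ex_add (hc'.ig (t 0)) (hc'.ig (t x))] at h3
  have h4 := key 0 (self_mem_bl 0 a)
  have h5 := key x hx
  rw [mul_pow, sq_sqrt hC]
  simp only [Nc.EN] at h4 h5
  linarith

theorem two_le_pow {W : ℕ} (hW : 16 ≤ W) {e : ℝ} (he : e ≤ 1 / 100) :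
    2 ≤ ((W : ℝ) ^ (-e)) ^ 2 * (W : ℝ) ^ (1 / 2 : ℝ) := by
  have h16 : (16 : ℝ) ≤ W := by exact_mod_cast hW
  have h0 : (0 : ℝ) < W := by linarith
  rw [← rpow_natCast, ← rpow_mul h0.le, ← rpow_add h0]
  calc (2 : ℝ) = (16 : ℝ) ^ (1 / 4 : ℝ) := by
        rw [show (16 : ℝ) = 2 ^ (4 : ℝ) by norm_num, ← rpow_mul zero_le_two]; norm_num
    _ ≤ (W : ℝ) ^ (1 / 4 : ℝ) := rpow_le_rpow (by norm_num) h16 (by norm_num)
    _ ≤ _ := rpow_le_rpow_of_exponent_le (by linarith) (by push_cast; linarith)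

set_option maxHeartbeats 1000000 in
/-- the profile of `K'` -/
theorem kp (hD : DkStmt) (hA : AmbStmt) (p : Par) (W : ℕ) (D₀ : ℝ) (hW : 16 ≤ W) :
    ∃ C : ℝ, 1 ≤ C ∧ ∀ a₂ : ℕ, ∃ B : ℝ, 0 ≤ B ∧ ∀ (E : Dt) (k : ℕ) (P : ℕ → ℝ), a₂ ≤ k →
      (∀ j, a₂ ≤ j → j ≤ k → E.Bs p W D₀ (Rk W j) (D₀ * yk E.ω W (Rk W j)) (P j) ∧
        C * (D₀ * yk E.ω W (Rk W j)) ≤ 1) →
      (∀ j, a₂ ≤ j → j < k → yk E.ω W (Rk W j) ≤ 2 * yk E.ω W (Rk W (j + 1))) → C * Rk W k ≤ E.L →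
      E.Kp (Rk W k) (D₀ * yk E.ω W (Rk W k)) (B + C * ∑ j ∈ Icc a₂ k,
        (((W : ℝ) ^ (-ew p.w)) ^ 2) ^ (k - j) * (Qq E.ω' (Rk W j) + D₀ * yk E.ω W (Rk W j) * P j)) := by
  obtain ⟨C, hC, HD⟩ := hD p W D₀ (by omega)
  obtain ⟨B₀, HB⟩ := JJ_sq p.F
  have h16 : (16 : ℝ) ≤ W := by exact_mod_cast hW
  have hW0 : (0 : ℝ) < W := by linarith
  have hW1 : 1 ≤ W := by omega
  have hs : (1 : ℝ) ≤ (W : ℝ) ^ (1 / 2 : ℝ) := one_le_rpow (by linarith) (by norm_num)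
  set C₁ : ℝ := C * (4 * W) ^ 4 * (W : ℝ) ^ (1 / 2 : ℝ) with hC₁
  have hCC : C ≤ C₁ := by
    have : (1 : ℝ) ≤ (4 * W) ^ 4 := one_le_pow₀ (by linarith)
    rw [hC₁, mul_assoc]
    exact le_mul_of_one_le_right (by linarith) (one_le_mul_of_one_le_of_one_le this hs)
  have hw0 : (0 : ℝ) ≤ 16 * p.w := by positivity
  refine ⟨C₁ + 16 * p.w, by linarith, fun a₂ => ?_⟩
  obtain ⟨B', HA⟩ := (hA p W (2 * W ^ a₂) B₀ (by omega)).1
  refine ⟨|B'| * Rk W a₂ ^ 5, mul_nonneg (abs_nonneg _) (pow_nonneg (by linarith [two_le_Rk hW1 a₂]) _),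
    fun E k P hk hB hy hL => ?_⟩
  set θ : ℝ := ((W : ℝ) ^ (-ew p.w)) ^ 2 with hθ
  have hθ0 : 0 ≤ θ := sq_nonneg _
  have bk := (hB k hk le_rfl).1
  have hD1 := bk.D1
  have hew := ew_bd bk.ed.w4
  have hT : ∀ j ∈ Icc a₂ k, 0 ≤ θ ^ (k - j) * (Qq E.ω' (Rk W j) + D₀ * yk E.ω W (Rk W j) * P j) :=
    fun j hj => by
      have := (hB j (mem_Icc.1 hj).1 (mem_Icc.1 hj).2).1.P1
      have := yk_nonneg E.ω W (Rk W j)
      have := Qq_nonneg E.ω' (Rk W j)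
      positivity
  have hS := sum_nonneg hT
  have ha2 := two_le_Rk hW1 a₂
  have hk2 := two_le_Rk hW1 k
  have hY0 : 0 ≤ D₀ * yk E.ω W (Rk W k) := mul_nonneg (by linarith) (yk_nonneg _ _ _)
  have hB0 : 0 ≤ |B'| * Rk W a₂ ^ 5 := by positivity
  have hCS : 0 ≤ (C₁ + 16 * p.w) * ∑ j ∈ Icc a₂ k,
      θ ^ (k - j) * (Qq E.ω' (Rk W j) + D₀ * yk E.ω W (Rk W j) * P j) := mul_nonneg (by linarith) hS
  refine ⟨add_nonneg hB0 hCS, fun x hx0 hx => ?_⟩
  have hd := one_le_eu hx0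
  have hm0 : 0 ≤ max (eu x / Rk W k) (Rk W k / eu x) := le_max_of_le_left (by positivity)
  by_cases hsm : Rk W a₂ / 2 ≤ eu x
  · obtain ⟨j, j1, j2, j3, j4⟩ := exists_scale (fun j => Rk W j / 2) hk hsm
    have hj2 := two_le_Rk hW1 j
    have bj := hB j j1 j2
    have hYj : 0 ≤ D₀ * yk E.ω W (Rk W j) := mul_nonneg (by linarith) (yk_nonneg _ _ _)
    have hup : eu x ≤ 4 * W * Rk W j := by
      rcases j2.eq_or_lt with rfl | h
      · nlinarith
      · have := j4 h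
        rw [Rk_succ] at this
        nlinarith
    have h1 := ((HD E _ _ _ bj.1 (le_trans (mul_le_mul_of_nonneg_right (by linarith) hYj) bj.2)
      (le_trans (mul_le_mul (by linarith) (Rk_mono hW1 j2) (by linarith) (by linarith)) hL)).1 x j3 hup).2
    set T : ℝ := Qq E.ω' (Rk W j) + D₀ * yk E.ω W (Rk W j) * P j with hTd
    have hT0 : 0 ≤ T := by
      have := bj.1.P1
      have := Qq_nonneg E.ω' (Rk W j)
      positivity
    have h2 : D₀ * yk E.ω W (Rk W j) ≤ 2 ^ (k - j) * (D₀ * yk E.ω W (Rk W k)) := by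
      have := mul_le_mul_of_nonneg_left (y_le (y := fun j => yk E.ω W (Rk W j)) hy j1 j2)
        (show 0 ≤ D₀ by linarith)
      linarith
    have h3 : ((W : ℝ) ^ (1 / 2 : ℝ)) ^ (k - j) ≤
        (W : ℝ) ^ (1 / 2 : ℝ) * max (eu x / Rk W k) (Rk W k / eu x) ^ (1 / 2 : ℝ) := by
      rw [← mul_rpow hW0.le hm0, rpow_pow_comm hW0.le]
      refine rpow_le_rpow (by positivity) ?_ (by norm_num)
      rcases j2.eq_or_lt with rfl | h
      · rw [Nat.sub_self, pow_zero]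
        refine one_le_mul_of_one_le_of_one_le (by linarith) ?_
        rcases le_total (eu x) (Rk W j) with h | h
        · exact le_max_of_le_right ((one_le_div (by linarith)).2 h)
        · exact le_max_of_le_left ((one_le_div (by linarith)).2 h)
      · refine le_trans ?_ (mul_le_mul_of_nonneg_left (le_max_right _ _) hW0.le)
        have h4 := j4 h
        have h5 := Rk_add W j (k - j)
        rw [Rk_succ] at h4
        rw [Nat.add_sub_cancel' j2] at h5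
        rw [← mul_div_assoc, le_div_iff₀ (by linarith), h5]
        have : (0 : ℝ) ≤ (W : ℝ) ^ (k - j) := by positivity
        nlinarith [mul_le_mul_of_nonneg_left (show eu x ≤ W * Rk W j by nlinarith) this]
    have h4 : (2 : ℝ) ^ (k - j) ≤ θ ^ (k - j) *
        ((W : ℝ) ^ (1 / 2 : ℝ) * max (eu x / Rk W k) (Rk W k / eu x) ^ (1 / 2 : ℝ)) := by
      refine le_trans ?_ (mul_le_mul_of_nonneg_left h3 (pow_nonneg hθ0 _))
      rw [← mul_pow]
      exact pow_le_pow_left₀ zero_le_two (two_le_pow hW hew.2) _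
    have h5 : θ ^ (k - j) * T ≤ ∑ j ∈ Icc a₂ k,
        θ ^ (k - j) * (Qq E.ω' (Rk W j) + D₀ * yk E.ω W (Rk W j) * P j) :=
      single_le_sum hT (mem_Icc.2 ⟨j1, j2⟩)
    have hC0 : 0 ≤ C := by linarith
    calc |KK E.ω' x| * eu x ^ 4 ≤ C * (D₀ * yk E.ω W (Rk W j)) * T / Rk W j ^ 4 * (4 * W * Rk W j) ^ 4 := by
          gcongr
      _ = C * (4 * W) ^ 4 * T * (D₀ * yk E.ω W (Rk W j)) := by field_simp
      _ ≤ C * (4 * W) ^ 4 * T * (θ ^ (k - j) * ((W : ℝ) ^ (1 / 2 : ℝ) *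
          max (eu x / Rk W k) (Rk W k / eu x) ^ (1 / 2 : ℝ)) * (D₀ * yk E.ω W (Rk W k))) :=
          mul_le_mul_of_nonneg_left (h2.trans (mul_le_mul_of_nonneg_right h4 hY0)) (by positivity)
      _ = D₀ * yk E.ω W (Rk W k) * (C₁ * (θ ^ (k - j) * T)) *
          max (eu x / Rk W k) (Rk W k / eu x) ^ (1 / 2 : ℝ) := by rw [hC₁]; ring
      _ ≤ _ := by
          refine mul_le_mul_of_nonneg_right (mul_le_mul_of_nonneg_left ?_ hY0) (by positivity)
          refine le_add_of_nonneg_of_le hB0 (mul_le_mul (by linarith) h5 (by positivity) (by linarith))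
  · push Not at hsm
    have ba := (hB a₂ le_rfl hk).1
    have hc := Rk_cast W a₂
    obtain ⟨a, ha⟩ : ∃ a, 2 * W ^ a₂ = a + 1 := ⟨2 * W ^ a₂ - 1, by have := Nat.one_le_pow a₂ W hW1; omega⟩
    have hxa : x ∈ bl 0 a := mem_bl_of_eu (by
      rw [sub_zero]; rw [ha] at hc; push_cast at hc; linarith)
    have h1 : |KK E.ω' x| ≤ B' := HA E ba.toOk (by
        have h2 : (1 : ℝ) ≤ E.r₁ := by exact_mod_cast (by have := ba.r8; omega : 1 ≤ E.r₁)
        have h3 := (le_self_pow₀ h2 (by norm_num : 100 ≠ 0)).trans ba.r1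
        rw [hc] at h3
        exact_mod_cast h3)
      (by
        have h2 : 16 * (p.w : ℝ) * Rk W a₂ ≤ E.L :=
          le_trans (mul_le_mul (by linarith) (Rk_mono hW1 hk) (by linarith) (by linarith)) hL
        rw [hc] at h2
        exact_mod_cast h2) _
      ⟨(Om.depG_JJ 0 x).mono (union_subset (bl_mono 0 (by omega)) (bl_subset_bl hxa (by omega))),
        (Om.tame_Jz 0).mul (Om.tame_Jz x)⟩ fun c hc => HB E.Λ bk.ed.mem x a c hxa (by omega)
    have h2 : 1 / Rk W a₂ ≤ D₀ * yk E.ω W (Rk W k) * max (eu x / Rk W k) (Rk W k / eu x) ^ (1 / 2 : ℝ) := by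
      have h3 : Rk W k ^ (-(1 / 2) : ℝ) ≤ D₀ * yk E.ω W (Rk W k) :=
        (rpow_le_rpow_of_exponent_le (by linarith) (by linarith)).trans bk.maj.2.1
      have h4 : (Rk W k / Rk W a₂ ^ 2) ^ (1 / 2 : ℝ) ≤ max (eu x / Rk W k) (Rk W k / eu x) ^ (1 / 2 : ℝ) :=
        rpow_le_rpow (by positivity) (le_max_of_le_right
          (div_le_div_of_nonneg_left (by linarith) (by linarith) (by nlinarith))) (by norm_num)
      refine le_trans (le_of_eq ?_) (mul_le_mul h3 h4 (by positivity) hY0)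
      have h5 : 0 < Rk W k ^ (1 / 2 : ℝ) := by positivity
      rw [div_rpow (by linarith) (by positivity), ← sqrt_eq_rpow (Rk W a₂ ^ 2), sqrt_sq (by linarith),
        rpow_neg (by linarith)]
      field_simp
    calc |KK E.ω' x| * eu x ^ 4 ≤ |B'| * Rk W a₂ ^ 4 :=
          mul_le_mul (h1.trans (le_abs_self _)) (pow_le_pow_left₀ (by linarith) (by linarith) 4)
            (by positivity) (abs_nonneg _)
      _ = |B'| * Rk W a₂ ^ 5 * (1 / Rk W a₂) := by field_simp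
      _ ≤ |B'| * Rk W a₂ ^ 5 * (D₀ * yk E.ω W (Rk W k) *
          max (eu x / Rk W k) (Rk W k / eu x) ^ (1 / 2 : ℝ)) := mul_le_mul_of_nonneg_left h2 hB0
      _ = D₀ * yk E.ω W (Rk W k) * (|B'| * Rk W a₂ ^ 5) *
          max (eu x / Rk W k) (Rk W k / eu x) ^ (1 / 2 : ℝ) := by ring
      _ ≤ _ := mul_le_mul_of_nonneg_right (mul_le_mul_of_nonneg_left (le_add_of_nonneg_right hCS) hY0)
          (by positivity)

end K19

open K19

/-- the `K'` half of CLOSE -/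
theorem khStmt (hD : DkStmt) (hA : AmbStmt) : KhStmt := by
  intro p W D₀ hW
  obtain ⟨C₁, h1, H1⟩ := qq_le W (by omega)
  obtain ⟨C₂, h2, H2⟩ := K19.kp hD hA p W D₀ hW
  have hd := abs_nonneg D₀
  have hd2 : 0 ≤ C₂ * |D₀| := by positivity
  refine ⟨C₁ + C₂ + C₂ * |D₀|, by linarith, fun E R Y h hy => (H1 p D₀ R Y E h hy).trans
    (mul_le_mul_of_nonneg_right (by linarith) (by positivity)), fun a₂ => ?_⟩
  obtain ⟨B, hB, H⟩ := H2 a₂
  refine ⟨B, hB, fun E K P _ hb hy hL k k1 k2 => ?_⟩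
  have hW1 : 1 ≤ W := by omega
  have key := H E k P k1 (fun j j1 j2 => ⟨(hb j j1 (j2.trans k2)).1, le_trans (by
      rw [← mul_assoc]
      exact mul_le_mul_of_nonneg_right ((mul_le_mul_of_nonneg_left (le_abs_self _) (by linarith)).trans
        (by linarith)) (yk_nonneg _ _ _)) (hb j j1 (j2.trans k2)).2⟩)
    (fun j j1 j2 => hy j j1 (by omega)) (le_trans (mul_le_mul (by linarith) (Rk_mono hW1 k2)
      (by linarith [two_le_Rk hW1 k]) (by linarith)) hL)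
  simp only [← pow_mul] at key
  have hD1 := (hb k k1 k2).1.D1
  have hS : 0 ≤ ∑ j ∈ Icc a₂ k, ((W : ℝ) ^ (-ew p.w)) ^ (2 * (k - j)) *
      (Qq E.ω' (Rk W j) + D₀ * yk E.ω W (Rk W j) * P j) := sum_nonneg fun j hj => by
    have := (hb j (mem_Icc.1 hj).1 ((mem_Icc.1 hj).2.trans k2)).1.P1
    have := yk_nonneg E.ω W (Rk W j)
    have := Qq_nonneg E.ω' (Rk W j)
    positivity
  have hY : 0 ≤ D₀ * yk E.ω W (Rk W k) := mul_nonneg (by linarith) (yk_nonneg _ _ _)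
  have hR := two_le_Rk hW1 k
  refine ⟨mul_nonneg (by linarith) (by linarith), fun x h0 hx => (key.2 x h0 hx).trans
    (mul_le_mul_of_nonneg_right (mul_le_mul_of_nonneg_left ?_ hY)
      (rpow_nonneg (le_max_of_le_left (div_nonneg (by linarith [one_le_eu h0]) (by linarith))) _))⟩
  rw [mul_add]
  exact add_le_add (le_mul_of_one_le_left hB (by linarith)) (mul_le_mul_of_nonneg_right (by linarith) hS)

/-- CLOSE -/
theorem closeStmt (h1 : Cl1Stmt) (hD : DkStmt) (hP : ApStmt) (hA : AmbStmt) : CloseStmt :=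
  close_of h1 hP (khStmt hD hA)

end Crest.Agent.T145.Ev
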