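import Crest.Agent.T145.FlDef_82
import Crest.Agent.T145.XiB_22
import Crest.Agent.T145.OmB_11

/-!
# Row 145, the odd flow: BETA (`Fl.betaStmt`), the contact term of `J`
-/

set_option autoImplicit false

namespace Crest.Agent.T145.Fl

open Finset Pot Xi Real

namespace Beta3

theorem cw_nonneg (w : ℕ) : 0 ≤ cw w := by
  rcases Nat.eq_zero_or_pos w with rfl | hw
  · simp [cw]
  · have h1 : (1 : ℝ) ≤ (w : ℝ) ^ 4 := one_le_pow₀ (by exact_mod_cast hw)
    exact div_nonneg (log_nonneg (by norm_num)) (log_nonneg (by linarith))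

theorem cw_le_one (w : ℕ) : cw w ≤ 1 := by
  rcases Nat.eq_zero_or_pos w with rfl | hw
  · simp [cw]
  · have h1 : (1 : ℝ) ≤ (w : ℝ) ^ 4 := one_le_pow₀ (by exact_mod_cast hw)
    exact div_le_one_of_le₀ (log_le_log (by norm_num) (by linarith)) (log_nonneg (by linarith))

theorem ew_nonneg (w : ℕ) : 0 ≤ ew w := div_nonneg (cw_nonneg w) (by norm_num)

theorem ew_le (w : ℕ) : ew w ≤ 1 / 100 := div_le_div_of_nonneg_right (cw_le_one w) (by norm_num)

/-- `∑ |x|^(-3/2) ≤ 16 √n` -/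
theorem sum_shell (n : ℕ) : ∑ x ∈ bl 0 n, (eu x * √(eu x))⁻¹ ≤ 16 * √n := by
  induction n with
  | zero =>
    have : bl (0 : Pt) 0 = {0} := by
      ext y; rw [mem_bl, mem_singleton, Prod.ext_iff]; omega
    simp [this]
  | succ n ih =>
    have hs : bl (0 : Pt) n ⊆ bl 0 (n + 1) := bl_mono _ n.le_succ
    rw [← sum_sdiff hs]
    have h1 : ∑ y ∈ bl 0 (n + 1) \ bl 0 n, (eu y * √(eu y))⁻¹ ≤
        (bl (0 : Pt) (n + 1) \ bl 0 n).card • (((n : ℝ) + 1) * √(n + 1))⁻¹ :=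
      sum_le_card_nsmul _ _ _ fun y hy => by
        have := le_eu_of_not_bl (mem_sdiff.1 hy).2
        rw [sub_zero] at this
        have := eu_nonneg y
        exact inv_anti₀ (by positivity) (by gcongr)
    have h2 : (bl (0 : Pt) (n + 1) \ bl 0 n).card = 8 * (n + 1) := by
      rw [card_sdiff_of_subset hs, card_bl, card_bl]
      exact Nat.sub_eq_of_eq_add (by ring)
    rw [h2, nsmul_eq_mul] at h1
    have h0 : 0 < √((n : ℝ) + 1) := by positivity
    have h3 : ((8 * (n + 1) : ℕ) : ℝ) * (((n : ℝ) + 1) * √(n + 1))⁻¹ = 8 / √(n + 1) := by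
      push_cast; field_simp
    have h4 : 8 / √((n : ℝ) + 1) ≤ 16 * √(n + 1) - 16 * √n := by
      rw [div_le_iff₀ h0]
      nlinarith [Real.sq_sqrt (by positivity : (0 : ℝ) ≤ n + 1), Real.sq_sqrt (Nat.cast_nonneg (α := ℝ) n),
        sq_nonneg (√((n : ℝ) + 1) - √n)]
    push_cast
    linarith

variable {p : Par} {Λ : Lat} {ω : (Cfg Pt → ℝ) → ℝ} {L N : ℕ}

theorem depG_JJ {z x : Pt} {n : ℕ} (hx : x ∈ bl z n) (hn : n + 1 ≤ N) :
    DepG (bl z N) fun s => Jz z s * Jz x s :=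
  ((Om.depG_Jz z).mono (bl_mono z (by omega))).mul ((Om.depG_Jz x).mono (bl_one_sub hn x hx))

/-- translation covariance of the two-point function -/
theorem om_JJ (h : Env p Λ ω L N) (z : Pt) {x : Pt} {n : ℕ} (hx : x ∈ bl 0 n) (hn : n + 1 ≤ N) :
    ω (fun s => Jz z s * Jz (z + x) s) = KK ω x := by
  rw [KK, ← h.trl 0 z _ (depG_JJ hx hn)]
  congr 1
  funext s
  have a := congrFun (Om.trl_Jz z 0) s
  have b := congrFun (Om.trl_Jz z x) s
  simp only [trl, zero_add] at a b ⊢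
  rw [a, b, add_comm x z]

/-- `ω (J_z (A₀ v, s)) = ∑ v (z + x) K (x)` -/
theorem om_J_pr (h : Env p Λ ω L N) (z : Pt) {v : Pt → ℝ} {n : ℕ} (hv : Pot.Sup (bl z n) v)
    (hn : n + 1 ≤ N) :
    ω (fun s => Jz z s * pr (A0 v) s) = ∑ x ∈ bl 0 n, KK ω x * v (z + x) := by
  obtain ⟨m, hm, hω⟩ := h.amb z
  have hC := hm.ctr.cen hm.anch
  have e : (fun s => Jz z s * pr (A0 v) s) = fun s => ∑ y ∈ bl z n, v y * (Jz z s * Jz y s) := by
    funext s
    rw [pr_A0 hv, mul_sum]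
    exact sum_congr rfl fun _ _ => by ring
  rw [e, hω _ (DepG.sum fun y hy => (DepG.const _ _).mul (depG_JJ hy hn)),
    Ex_sum _ fun y _ => hC.ig (((Om.tame_Jz z).mul (Om.tame_Jz y)).const_mul _), ← Ha91.sum_bl]
  refine sum_congr rfl fun x hx => ?_
  rw [Ex_const_mul, ← hω _ (depG_JJ (Ha91.add_mem_bl.2 hx) hn), om_JJ h z hx hn, mul_comm]

/-- a symmetric kernel does not see which affine part is removed -/
theorem sum_aff {K : Pt → ℝ} (hK : Sy4 K) (n : ℕ) (u : Pt → ℝ) (z : Pt) :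
    ∑ x ∈ bl 0 n, K x * (u (z + x) - Fl.aff u z (z + x)) = ∑ x ∈ bl 0 n, K x * rem u z (z + x) := by
  have e : ∀ x : Pt, K x * (u (z + x) - Fl.aff u z (z + x)) = K x * rem u z (z + x) +
      K x * x.1 * (Xi.gs (1, 0) u z - dif (1, 0) u z) + K x * x.2 * (Xi.gs (0, 1) u z - dif (0, 1) u z) :=
    fun x => by simp [Fl.aff, rem, Xi.aff]; ring
  simp only [e, sum_add_distrib, ← sum_mul, hK.sum_fst, hK.sum_snd, zero_mul, add_zero]

end Beta3

open Beta3

/-- BETA -/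
theorem betaStmt (hK : KbStmt) : BetaStmt := by
  intro p
  obtain ⟨C, C0, hC⟩ := hK p
  refine ⟨160 * C, by positivity, fun Λ ω L N h r Y hY hr ξ u z σ ρ hu h1 h8 => ?_⟩
  obtain ⟨k1, k2, -⟩ := hC Λ ω L N h r Y hY
  have ρ0 : 0 < ρ := by linarith
  have r0 : (0 : ℝ) < r := by linarith
  set n := ⌈2 * ρ⌉₊ with hn
  have n1 : 2 * ρ ≤ n := Nat.le_ceil _
  have n2 : (n : ℝ) ≤ 2 * ρ + 1 := (Nat.ceil_lt_add_one (by positivity)).le
  have n3 : n + 1 ≤ r := by exact_mod_cast (by linarith : (n : ℝ) + 1 ≤ r)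
  have n4 : n + 1 ≤ N := n3.trans (hr.trans h.le)
  have hs : Pot.Sup (bl 0 n) (Xi.chi ρ) := sup_chi ρ0 (by linarith)
  have hS : Sy4 fun x => KK ω x * Xi.chi ρ x := by
    have h0 : ∀ x, x ∉ bl 0 (N - 1) → Xi.chi ρ x = 0 := fun x hx =>
      hs x fun h' => hx (bl_mono _ (by omega) h')
    constructor <;> intro x <;> by_cases hx : x ∈ bl 0 (N - 1)
    · rw [(k2 x hx).1, chi_swap]
    · rw [chi_swap, h0 x hx, mul_zero, mul_zero]
    · rw [(k2 x hx).2, chi_neg_fst]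
    · rw [chi_neg_fst, h0 x hx, mul_zero, mul_zero]
  have hv : Pot.Sup (bl z n) (sw u z ρ) := fun y hy => by
    rw [sw, lc, hs (y - z) fun h' => hy (by simpa using Ha91.add_mem_bl (z := z).2 h'), mul_zero]
  have e1 : ∑ x ∈ bl 0 n, KK ω x * sw u z ρ (z + x) =
      ∑ x ∈ bl 0 n, (KK ω x * Xi.chi ρ x) * (u (z + x) - aff u z (z + x)) :=
    sum_congr rfl fun x _ => by rw [sw, lc, add_sub_cancel_left]; ring
  have e2 : gk ω ρ = -(1 / 4) * ∑ x ∈ bl 0 n, (KK ω x * Xi.chi ρ x) * eu x ^ 2 := by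
    rw [gk]; congr 1; exact sum_congr rfl fun x _ => by ring
  rw [om_J_pr h z hv n4, e1, sum_aff hS, e2, (hu.2 z (self_mem_bl _ _)).1]
  refine (hS.tay n (k₃ := σ / (r : ℝ) ^ 3) fun x hx e he e' he' =>
    ((hu.2 x (bl_mono _ (by omega) hx)).2 e he e' he').2).trans ?_
  have b : ∀ x ∈ bl 0 n, |KK ω x * Xi.chi ρ x| * eu x ^ 3 ≤ C * Y ^ 2 * √r * (eu x * √(eu x))⁻¹ := by
    intro x hx
    by_cases x0 : x = 0
    · simp [x0]
    have a1 := one_le_eu x0
    have a2 : eu x ≤ r := by have := eu_le_of_bl hx; rw [sub_zero] at this; linarith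
    have a3 : 1 ≤ r / eu x := (one_le_div (by linarith)).2 a2
    have a4 := k1 x (bl_mono _ (by omega) hx) x0
    rw [max_eq_right (((div_le_one r0).2 a2).trans a3)] at a4
    have a5 : (r / eu x) ^ (2 * ew p.w) ≤ √r / √(eu x) := by
      rw [← Real.sqrt_div r0.le, Real.sqrt_eq_rpow]
      exact rpow_le_rpow_of_exponent_le a3 (by linarith [ew_le p.w])
    have a6 : |KK ω x * Xi.chi ρ x| ≤ |KK ω x| := by
      rw [abs_mul]; exact mul_le_of_le_one_right (abs_nonneg _) (abs_chi_le ρ x)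
    have a7 := a4.trans (mul_le_mul_of_nonneg_left a5 (by positivity))
    calc _ ≤ |KK ω x| * eu x ^ 3 := by gcongr
      _ = |KK ω x| * eu x ^ 4 / eu x := by field_simp
      _ ≤ C * Y ^ 2 * (√r / √(eu x)) / eu x := by gcongr
      _ = _ := by field_simp
  have b2 : ∑ x ∈ bl 0 n, |KK ω x * Xi.chi ρ x| * eu x ^ 3 ≤ C * Y ^ 2 * (16 * r) := by
    refine (sum_le_sum b).trans ?_
    rw [← mul_sum, mul_assoc]
    refine mul_le_mul_of_nonneg_left ?_ (by positivity)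
    have a1 : √(n : ℝ) ≤ √r := Real.sqrt_le_sqrt (by linarith)
    calc _ ≤ √r * (16 * √r) := mul_le_mul_of_nonneg_left ((sum_shell n).trans (by linarith))
          (Real.sqrt_nonneg _)
      _ = _ := by rw [mul_left_comm, Real.mul_self_sqrt r0.le]
  have σ0 := hu.1
  calc _ ≤ 10 * (σ / (r : ℝ) ^ 3) * (C * Y ^ 2 * (16 * r)) := by gcongr
    _ = _ := by field_simp; ring

end Crest.Agent.T145.Fl
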