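import Mathlib

/-!
# Row 145, odd flow: the two-step cone and purification (abstract; helper64, after helper82)

`C k` = insertions at scale `k`, `ν k` = norm at scale `k`, `l k` = left functional read outside scale `k`,
`S k` = reference insertion.  Cone at `k`: `ν k F ≤ Γ |l (k+1) F|`.
-/

set_option autoImplicit false

namespace Crest.Agent.T145.Fl

/-- the data of the cone argument on the steps `a ≤ k < b` -/
structure Lf {E : Type*} [AddCommGroup E] [Module ℝ E] (C : ℕ → Submodule ℝ E) (ν l : ℕ → E → ℝ)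
    (S : ℕ → E) (A B D b₁ b₂ Γ ϑ : ℝ) (a b : ℕ) : Prop where
  mono : ∀ k, C k ≤ C (k + 1)
  add : ∀ k, ∀ F ∈ C k, ∀ G ∈ C k, ν k (F + G) ≤ ν k F + ν k G
  smul : ∀ k (t : ℝ), ∀ F ∈ C k, ν k (t • F) = |t| * ν k F
  nonneg : ∀ k F, 0 ≤ ν k F
  lin : ∀ k (t : ℝ), ∀ F ∈ C k, ∀ G ∈ C k, l k (F - t • G) = l k F - t * l k G
  mem : ∀ k, S k ∈ C k
  le_one : ∀ k, ν k (S k) ≤ 1
  ker : ∀ k, a ≤ k → k < b → ∀ F ∈ C k, ∃ α : ℝ, ν (k + 1) (F - α • S k) ≤ A * ν k F
  dec : ∀ k, a ≤ k → k < b → ∀ F ∈ C k, ν (k + 1) F ≤ B * ν k F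
  l_le : ∀ k, a ≤ k → k ≤ b → ∀ F ∈ C k, |l k F| ≤ D * ν k F
  low₁ : ∀ k, a ≤ k → k < b → b₁ ≤ |l (k + 1) (S k)|
  low₂ : ∀ k, a ≤ k → k + 1 < b → b₂ ≤ |l (k + 2) (S k)|
  A0 : 0 ≤ A
  B0 : 0 < B
  D0 : 0 < D
  b0 : 0 < b₁
  b0' : 0 < b₂
  n₁ : Γ * D * A ≤ 1 / 2
  n₂ : 4 * Γ * D ^ 2 * B ^ 2 * A ≤ b₂
  n₃ : 4 * B ≤ Γ * b₂
  n₄ : 1 ≤ Γ * b₁
  n₅ : 3 * B + 2 * Γ * b₁ * A ≤ 2 * Γ * b₁ * ϑ

namespace Lf
variable {E : Type*} [AddCommGroup E] [Module ℝ E] {C : ℕ → Submodule ℝ E} {ν l : ℕ → E → ℝ}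
  {S : ℕ → E} {A B D b₁ b₂ Γ ϑ : ℝ} {a b : ℕ} (h : Lf C ν l S A B D b₁ b₂ Γ ϑ a b)
include h

theorem mono' {j k : ℕ} (hjk : j ≤ k) : C j ≤ C k := monotone_nat_of_le_succ h.mono hjk

theorem Γ0 : 0 < Γ := by
  by_contra hn
  have := mul_nonpos_of_nonpos_of_nonneg (not_lt.1 hn) h.b0.le
  linarith [h.n₄]

theorem ϑ0 : 0 < ϑ := by
  have p := mul_pos h.Γ0 h.b0
  have q := mul_nonneg p.le h.A0
  have : 0 < 2 * Γ * b₁ * ϑ := by nlinarith [h.n₅, h.B0]
  by_contra hn
  nlinarith [mul_nonneg p.le (neg_nonneg.2 (not_lt.1 hn))]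

theorem sub_mem' {k : ℕ} {F : E} (hF : F ∈ C k) {j : ℕ} (hj : j ≤ k) (t : ℝ) : F - t • S j ∈ C k :=
  sub_mem hF ((C k).smul_mem _ (h.mono' hj (h.mem j)))

theorem le_add {k j : ℕ} {F : E} (hF : F ∈ C k) (hj : j ≤ k) (t : ℝ) :
    ν k F ≤ ν k (F - t • S j) + |t| * ν k (S j) := by
  have m := h.mono' hj (h.mem j)
  have := h.add k _ (h.sub_mem' hF hj t) _ ((C k).smul_mem t m)
  rwa [sub_add_cancel, h.smul _ _ _ m] at this

theorem sub_le {k j : ℕ} {F : E} (hF : F ∈ C k) (hj : j ≤ k) (t : ℝ) :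
    ν k (F - t • S j) ≤ ν k F + |t| * ν k (S j) := by
  have m := h.mono' hj (h.mem j)
  have := h.add k _ hF _ ((C k).smul_mem (-t) m)
  rwa [h.smul _ _ _ m, abs_neg, neg_smul, ← sub_eq_add_neg] at this

theorem dec_S {k : ℕ} (ha : a ≤ k) (hb : k < b) : ν (k + 1) (S k) ≤ B :=
  (h.dec k ha hb _ (h.mem k)).trans (mul_le_of_le_one_right h.B0.le (h.le_one k))

/-- crude decay over several steps -/
theorem dec_pow {k : ℕ} (ha : a ≤ k) {F : E} (hF : F ∈ C k) (m : ℕ) (hb : k + m ≤ b) :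
    ν (k + m) F ≤ B ^ m * ν k F := by
  induction m with
  | zero => simp
  | succ m ih =>
    have h1 := h.dec (k + m) (by omega) (by omega) F (h.mono' (by omega) hF)
    have h2 := mul_le_mul_of_nonneg_left (ih (by omega)) h.B0.le
    rw [pow_succ, ← add_assoc]; linarith

/-- **the cone is invariant**, and inside it the functional decays slowly -/
theorem cone {k : ℕ} (ha : a ≤ k) (hb : k + 1 < b) {F : E} (hF : F ∈ C k)
    (hc : ν k F ≤ Γ * |l (k + 1) F|) :
    ν (k + 1) F ≤ Γ * |l (k + 2) F| ∧ b₂ / (4 * D * B) * |l (k + 1) F| ≤ |l (k + 2) F| := by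
  obtain ⟨α, hα⟩ := h.ker k ha (by omega) F hF
  have hF1 := h.mono k hF
  have hR := h.sub_mem' hF1 (Nat.le_succ k) α
  have hS := h.dec_S ha (by omega)
  have hΓ := h.Γ0
  have hA := h.A0
  have hB := h.B0
  have hD := h.D0
  have hν := h.nonneg k F
  have hα0 := abs_nonneg α
  have e1 := h.lin (k + 1) α F hF1 _ (h.mono k (h.mem k))
  have e2 := h.lin (k + 2) α F (h.mono _ hF1) _ (h.mono' (by omega) (h.mem k))
  have u1 : |l (k + 1) (F - α • S k)| ≤ D * (A * ν k F) :=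
    (h.l_le (k + 1) (by omega) (by omega) _ hR).trans (by gcongr)
  have u2 : |l (k + 2) (F - α • S k)| ≤ D * (B * (A * ν k F)) :=
    (h.l_le (k + 2) (by omega) (by omega) _ (h.mono _ hR)).trans (by
      have := h.dec (k + 1) (by omega) hb _ hR
      gcongr
      exact this.trans (by gcongr))
  have u3 : |l (k + 1) (S k)| ≤ D * B :=
    (h.l_le (k + 1) (by omega) (by omega) _ (h.mono k (h.mem k))).trans (by gcongr)
  have v1 : |l (k + 1) F| ≤ |α| * (D * B) + D * (A * ν k F) := by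
    have : l (k + 1) F = α * l (k + 1) (S k) + l (k + 1) (F - α • S k) := by rw [e1]; ring
    rw [this]
    refine (abs_add_le _ _).trans (add_le_add ?_ u1)
    rw [abs_mul]; gcongr
  have v2 : ν k F ≤ 2 * Γ * D * B * |α| := by
    have := mul_le_mul_of_nonneg_left v1 hΓ.le
    nlinarith [mul_le_mul_of_nonneg_right h.n₁ hν]
  have v3 : |α| * b₂ ≤ |l (k + 2) F| + D * (B * (A * ν k F)) := by
    have e : α * l (k + 2) (S k) = l (k + 2) F - l (k + 2) (F - α • S k) := by rw [e2]; ring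
    have := mul_le_mul_of_nonneg_left (h.low₂ k ha hb) hα0
    rw [← abs_mul, e] at this
    linarith [abs_sub (l (k + 2) F) (l (k + 2) (F - α • S k))]
  have v4 : |α| * b₂ ≤ 2 * |l (k + 2) F| := by
    have p : D * (B * (A * ν k F)) ≤ D * (B * (A * (2 * Γ * D * B * |α|))) := by gcongr
    nlinarith [mul_le_mul_of_nonneg_right h.n₂ hα0]
  have v5 : A * ν k F ≤ B * |α| := by
    have p : A * ν k F ≤ A * (2 * Γ * D * B * |α|) := by gcongr
    nlinarith [mul_le_mul_of_nonneg_right h.n₁ (mul_nonneg hB.le hα0)]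
  constructor
  · have w1 := h.le_add hF1 (Nat.le_succ k) α
    have w2 : |α| * ν (k + 1) (S k) ≤ |α| * B := by gcongr
    have w3 := mul_le_mul_of_nonneg_right h.n₃ hα0
    have w4 := mul_le_mul_of_nonneg_left v4 hΓ.le
    nlinarith
  · rw [div_mul_eq_mul_div, div_le_iff₀ (by positivity)]
    have w1 : |l (k + 1) F| ≤ 2 * (D * B) * |α| := by nlinarith [mul_le_mul_of_nonneg_left v5 hD.le]
    have w2 := mul_le_mul_of_nonneg_left w1 h.b0'.le
    have w3 := mul_le_mul_of_nonneg_left v4 (mul_pos hD hB).le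
    nlinarith

/-- **outside the cone** the norm decays fast -/
theorem out {k : ℕ} (ha : a ≤ k) (hb : k < b) {F : E} (hF : F ∈ C k)
    (hc : Γ * |l (k + 1) F| ≤ ν k F) : ν (k + 1) F ≤ ϑ * ν k F := by
  obtain ⟨α, hα⟩ := h.ker k ha hb F hF
  have hF1 := h.mono k hF
  have hR := h.sub_mem' hF1 (Nat.le_succ k) α
  have hS := h.dec_S ha hb
  have hΓ := h.Γ0
  have hB := h.B0
  have hD := h.D0
  have hν := h.nonneg k F
  have hα0 := abs_nonneg α
  have e1 := h.lin (k + 1) α F hF1 _ (h.mono k (h.mem k))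
  have u1 : |l (k + 1) (F - α • S k)| ≤ D * (A * ν k F) :=
    (h.l_le (k + 1) (by omega) (by omega) _ hR).trans (by gcongr)
  have v3 : |α| * b₁ ≤ |l (k + 1) F| + D * (A * ν k F) := by
    have e : α * l (k + 1) (S k) = l (k + 1) F - l (k + 1) (F - α • S k) := by rw [e1]; ring
    have := mul_le_mul_of_nonneg_left (h.low₁ k ha hb) hα0
    rw [← abs_mul, e] at this
    linarith [abs_sub (l (k + 1) F) (l (k + 1) (F - α • S k))]
  have v4 : 2 * (Γ * b₁) * |α| ≤ 3 * ν k F := by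
    have := mul_le_mul_of_nonneg_left v3 hΓ.le
    nlinarith [mul_le_mul_of_nonneg_right h.n₁ hν]
  have w1 := h.le_add hF1 (Nat.le_succ k) α
  have w2 : |α| * ν (k + 1) (S k) ≤ |α| * B := by gcongr
  have p := mul_pos hΓ h.b0
  refine le_of_mul_le_mul_left ?_ (show 0 < 2 * (Γ * b₁) by positivity)
  have w3 : 2 * (Γ * b₁) * ν (k + 1) F ≤ 2 * (Γ * b₁) * (A * ν k F + |α| * B) := by
    gcongr; linarith
  nlinarith [mul_le_mul_of_nonneg_right h.n₅ hν, mul_le_mul_of_nonneg_left v4 hB.le]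

/-- the cone over several steps -/
theorem cone_pow {k : ℕ} (ha : a ≤ k) {F : E} (hF : F ∈ C k) (hc : ν k F ≤ Γ * |l (k + 1) F|)
    (m : ℕ) (hb : k + m < b) : ν (k + m) F ≤ Γ * |l (k + m + 1) F| ∧
      (b₂ / (4 * D * B)) ^ m * |l (k + 1) F| ≤ |l (k + m + 1) F| := by
  induction m with
  | zero => simpa using hc
  | succ m ih =>
    obtain ⟨i1, i2⟩ := ih (by omega)
    obtain ⟨j1, j2⟩ := h.cone (k := k + m) (by omega) (by omega) (h.mono' (by omega) hF) i1
    refine ⟨j1, le_trans ?_ j2⟩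
    have : 0 ≤ b₂ / (4 * D * B) := by have := h.b0'; have := h.D0; have := h.B0; positivity
    rw [pow_succ', mul_assoc]
    exact mul_le_mul_of_nonneg_left i2 this

/-- if the cone fails at step `k + m` then it failed all the time -/
theorem out_pow {k : ℕ} (ha : a ≤ k) {F : E} (hF : F ∈ C k) (m : ℕ) (hb : k + m < b)
    (hc : Γ * |l (k + m + 1) F| < ν (k + m) F) : ν (k + m + 1) F ≤ ϑ ^ (m + 1) * ν k F := by
  have key : ∀ j, j ≤ m + 1 → ν (k + j) F ≤ ϑ ^ j * ν k F := by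
    intro j
    induction j with
    | zero => simp
    | succ j ih =>
      intro hj
      have hFj := h.mono' (show k ≤ k + j by omega) hF
      have hn : Γ * |l (k + j + 1) F| ≤ ν (k + j) F := by
        by_contra hn
        have := (h.cone_pow (k := k + j) (by omega) hFj (not_le.1 hn).le (m - j) (by omega)).1
        rw [show k + j + (m - j) = k + m by omega] at this
        linarith
      have h1 := h.out (k := k + j) (by omega) (by omega) hFj hn
      have h2 := mul_le_mul_of_nonneg_left (ih (by omega)) h.ϑ0.le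
      rw [pow_succ, ← add_assoc]; linarith
  exact key (m + 1) le_rfl

/-- lower bound for the reference insertion -/
theorem low_pow {k : ℕ} (ha : a ≤ k) (m : ℕ) (hb : k + m < b) :
    (b₂ / (4 * D * B)) ^ m * b₁ ≤ |l (k + m + 1) (S k)| := by
  have h1 := h.low₁ k ha (by omega)
  have h2 : ν k (S k) ≤ Γ * |l (k + 1) (S k)| :=
    ((h.le_one k).trans h.n₄).trans (mul_le_mul_of_nonneg_left h1 h.Γ0.le)
  refine le_trans ?_ (h.cone_pow ha (h.mem k) h2 m hb).2
  have : 0 ≤ b₂ / (4 * D * B) := by have := h.b0'; have := h.D0; have := h.B0; positivity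
  gcongr

/-- **purification** -/
theorem pur {k : ℕ} (ha : a ≤ k) {F : E} (hF : F ∈ C k) (m : ℕ) (hb : k + m < b) :
    ∃ α : ℝ, l (k + m + 1) F = α * l (k + m + 1) (S k) ∧
      |α| ≤ D * B / b₁ * (4 * D * B ^ 2 / b₂) ^ m * ν k F ∧
      ν (k + m + 1) (F - α • S k) ≤ ϑ ^ (m + 1) * (ν k F + |α|) := by
  have hB := h.B0
  have hD := h.D0
  have hb1 := h.b0
  have hb2 := h.b0'
  have h1 := h.low_pow ha m hb
  have p : 0 < (b₂ / (4 * D * B)) ^ m * b₁ := by positivity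
  have hne : l (k + m + 1) (S k) ≠ 0 := abs_pos.1 (p.trans_le h1)
  refine ⟨l (k + m + 1) F / l (k + m + 1) (S k), (div_mul_cancel₀ _ hne).symm, ?_, ?_⟩
  · have h2 := (h.l_le (k + m + 1) (by omega) (by omega) F (h.mono' (by omega) hF)).trans
      (mul_le_mul_of_nonneg_left (h.dec_pow ha hF (m + 1) (by omega)) hD.le)
    rw [abs_div]
    refine (div_le_div₀ ((abs_nonneg _).trans h2) h2 p h1).trans (le_of_eq ?_)
    rw [div_pow, div_pow, mul_pow, mul_pow, mul_pow, mul_pow, ← pow_mul, mul_comm 2 m, pow_mul]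
    field_simp
    ring
  · set α := l (k + m + 1) F / l (k + m + 1) (S k) with hα
    have hR := h.sub_mem' hF le_rfl α
    have h0 : l (k + m + 1) (F - α • S k) = 0 := by
      rw [h.lin _ _ _ (h.mono' (by omega) hF) _ (h.mono' (by omega) (h.mem k)), hα,
        div_mul_cancel₀ _ hne, sub_self]
    have h3 : ν k (F - α • S k) ≤ ν k F + |α| :=
      (h.sub_le hF le_rfl α).trans (by
        have := mul_le_of_le_one_right (abs_nonneg α) (h.le_one k); linarith)
    have q := (pow_pos h.ϑ0 (m + 1)).le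
    rcases (h.nonneg (k + m) (F - α • S k)).eq_or_lt with e | e
    · have := h.dec (k + m) (by omega) hb _ (h.mono' (by omega) hR)
      rw [← e, mul_zero] at this
      exact this.trans (mul_nonneg q (add_nonneg (h.nonneg _ _) (abs_nonneg _)))
    · exact (h.out_pow ha hR m hb (by rwa [h0, abs_zero, mul_zero])).trans
        (mul_le_mul_of_nonneg_left h3 q)

end Lf

end Crest.Agent.T145.Fl
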