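import Crest.Agent.T145.FlBas_4
import Crest.Agent.T145.FlA_51
import Crest.Agent.T145.FlBeta_3
import Crest.Agent.T145.FlPur_64

/-!
# Row 145, odd flow: the cone on the lattice, PUR (helper64)
-/

set_option autoImplicit false

namespace Crest.Agent.T145.Fl

open Finset Real

namespace Cone

/-- odd invariant insertions of radius `r` -/
def cls (r : ℕ) : Submodule ℝ (Cfg Pt → ℝ) where
  carrier := {F | Ins 0 r F ∧ OddF F ∧ D4 0 F}
  add_mem' h h' := ⟨h.1.add h'.1, h.2.1.add h'.2.1, h.2.2.add h'.2.2⟩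
  zero_mem' := ⟨Ins.const 0 r 0, fun _ => by simp, D4.const 0 0⟩
  smul_mem' c _ h := ⟨h.1.smul c, h.2.1.smul c, h.2.2.smul c⟩

theorem mem_cls {r : ℕ} {F : Cfg Pt → ℝ} : F ∈ cls r ↔ Ins 0 r F ∧ OddF F ∧ D4 0 F := Iff.rfl

theorem ew_pos {w : ℕ} (hw : 1 ≤ w) : 0 < ew w := by
  have h1 : (1 : ℝ) ≤ (w : ℝ) ^ 4 := one_le_pow₀ (by exact_mod_cast hw)
  exact div_pos (div_pos (log_pos one_lt_two) (log_pos (by linarith))) (by norm_num)

variable {p : Par} {Λ : Lat} {ω : (Cfg Pt → ℝ) → ℝ} {L N r : ℕ} {F G : Cfg Pt → ℝ}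

theorem two_le (h : Gs p Λ L) (h0 : p.r₀ ≤ r) : 2 ≤ r := by
  have := h.gd.2.1
  have := h.mem.ok.one_le_rg
  omega

theorem ins_l (h : Env p Λ ω L N) (h0 : p.r₀ ≤ r) (hL : p.w * r ≤ L) (hF : Ins 0 r F) :
    Ins 0 N fun s => F s * Sn (2 * r) s := by
  have h1 := two_le h.toGs h0
  have h2 := A51.four_le h.toGs r
  have h3 := h.le
  have h4 : (0 : ℝ) < r := by exact_mod_cast (by omega : 0 < r)
  refine (hF.mono (by omega)).mul (ins_Sn (by positivity) ?_)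
  have : ((4 * r : ℕ) : ℝ) ≤ N := by exact_mod_cast (by omega : 4 * r ≤ N)
  push_cast at this; linarith

/-- the left functional is bounded by the norm -/
theorem abs_ell_le (h : Env p Λ ω L N) (h0 : p.r₀ ≤ r) (hL : p.w * r ≤ L) (hF : Ins 0 r F) :
    |ell ω (2 * r) F| ≤ 2 * nu Λ p.w 0 r F := by
  obtain ⟨m, hm, hω⟩ := h.amb 0
  have h1 := two_le h.toGs h0
  have h2 := A51.four_le h.toGs r
  have h3 := h.le
  have h4 : (2 : ℝ) ≤ r := by exact_mod_cast h1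
  have hm' : Nc.Amb Λ m (bl 0 (p.w * r)) := FlF4.amb_mono hm (bl_mono 0 (by omega))
  have hB : bl (0 : Pt) r ⊆ m.A := (bl_mono 0 (by omega)).trans hm.sub
  have k := FlF4.fus1 h.mem.ok hB (A51.ir h.toGs h0 hF) hm' subset_rfl
    (out_Sn (ρ := 2 * r) (by positivity) (by linarith)) (abs_Sn_le _)
  have g := A51.gam_le h.toGs h0 (by omega)
  rw [ell, hω _ (ins_l h h0 hL hF).1]
  simp only [mul_comm (F _)]
  refine (FlF4.abs_ex_le_nc hm.ctr hm.anch hB k.1).trans (k.2.trans ?_)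
  rw [one_mul]
  exact mul_le_mul_of_nonneg_right g.2 (A51.nu_nonneg h.mem.ok _ _ _ _)

theorem ell_sub (h : Env p Λ ω L N) (h0 : p.r₀ ≤ r) (hL : p.w * r ≤ L) (hF : Ins 0 r F) (hG : Ins 0 r G)
    (t : ℝ) : ell ω (2 * r) (fun s => F s - t * G s) = ell ω (2 * r) F - t * ell ω (2 * r) G := by
  obtain ⟨m, hm, hω⟩ := h.amb 0
  have i1 := ins_l h h0 hL hF
  have i2 := ins_l h h0 hL hG
  rw [ell, ell, ell, hω _ (ins_l h h0 hL (hF.sub (hG.smul t))).1, hω _ i1.1, hω _ i2.1, ← Ex_const_mul,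
    ← Ex_sub (FlF4.ig_tame hm.ctr hm.anch i1.2) (FlF4.ig_tame hm.ctr hm.anch ((Tame.const t).mul i2.2))]
  congr 1; funext s; ring

theorem rp {W a b : ℝ} (h1 : 1 ≤ W) (h : 16 ≤ W ^ (1 / 5 : ℝ)) (hab : a + 1 / 5 ≤ b) :
    16 * W ^ a ≤ W ^ b := by
  have h0 : 0 < W := by linarith
  calc 16 * W ^ a ≤ W ^ (1 / 5 : ℝ) * W ^ a := by gcongr
    _ = W ^ (a + 1 / 5) := by rw [← rpow_add h0, add_comm]
    _ ≤ W ^ b := rpow_le_rpow_of_exponent_le h1 hab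

theorem ev_rpow (c : ℝ) {a : ℝ} (ha : 0 < a) : ∃ W₀ : ℕ, 1 ≤ W₀ ∧ ∀ W : ℕ, W₀ ≤ W → c ≤ (W : ℝ) ^ a := by
  have := ((tendsto_rpow_atTop ha).comp tendsto_natCast_atTop_atTop).eventually_ge_atTop c
  obtain ⟨W₀, h⟩ := Filter.eventually_atTop.1 this
  exact ⟨W₀ + 1, by omega, fun W hW => h W (by omega)⟩

/-- the left functional at step `k ≤ m` -/
noncomputable def lk (ω : (Cfg Pt → ℝ) → ℝ) (W r m k : ℕ) (F : Cfg Pt → ℝ) : ℝ :=
  if k ≤ m then ell ω (2 * (W ^ k * r : ℕ)) F else 0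

theorem lk_eq {W m k : ℕ} (h : k ≤ m) (F : Cfg Pt → ℝ) :
    lk ω W r m k F = ell ω (2 * (W ^ k * r : ℕ)) F := if_pos h

/-- the data of the cone argument along the scales `W ^ k * r`, `k ≤ m` -/
def Lc (p : Par) (W : ℕ) (Λ : Lat) (ω : (Cfg Pt → ℝ) → ℝ) (r m : ℕ) : Prop :=
  Lf (fun k => cls (W ^ k * r)) (fun k => nu Λ p.w 0 (W ^ k * r)) (lk ω W r m)
    (fun k => Sn ((W ^ k * r : ℕ) / 4)) ((W : ℝ) ^ (-3 + ew p.w / 10)) ((W : ℝ) ^ (-2 + ew p.w / 10)) 2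
    ((W : ℝ) ^ (-2 - ew p.w / 10)) ((W : ℝ) ^ (-4 - ew p.w / 10)) ((W : ℝ) ^ (5 / 2 : ℝ))
    ((W : ℝ) ^ (-(9 / 4) : ℝ)) 0 m

theorem lc_of {W r₁ m : ℕ} (hW : 1 ≤ W) (h16 : 16 ≤ (W : ℝ) ^ (1 / 5 : ℝ)) (h : Pack p W Λ ω r₁ L N)
    (h0 : p.r₀ ≤ r) (h1 : r₁ ≤ r) (hL : p.w * (W ^ m * r) ≤ L) : Lc p W Λ ω r m := by
  have hΛ := h.mem.ok
  have W1 : (1 : ℝ) ≤ W := by exact_mod_cast hW
  have W0 : (0 : ℝ) < W := by linarith
  have e0 := Beta3.ew_nonneg p.w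
  have e1 := Beta3.ew_le p.w
  have up : ∀ k, r ≤ W ^ k * r := fun k => Nat.le_mul_of_pos_left _ (pow_pos hW k)
  have mo : ∀ {j k}, j ≤ k → W ^ j * r ≤ W ^ k * r := fun hjk =>
    Nat.mul_le_mul_right _ (Nat.pow_le_pow_right hW hjk)
  have hk : ∀ {k}, k ≤ m → p.w * (W ^ k * r) ≤ L := fun hk => (Nat.mul_le_mul_left _ (mo hk)).trans hL
  have su : ∀ k, W ^ (k + 1) * r = W * (W ^ k * r) := fun k => by ring
  have se : ∀ k, _ := fun k => semiStmt Λ p.w (W ^ k * r) 0 hΛ (by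
    have := A51.four_le h.toGs (W ^ k * r); have := h.gd.2.1; have := up k; omega)
  have one : ∀ k, 1 ≤ W ^ k * r := fun k => by have := two_le h.toGs h0; have := up k; omega
  have R := fun {a b : ℝ} (hab : a + 1 / 5 ≤ b) => rp W1 h16 hab
  have P : ∀ a : ℝ, 0 < (W : ℝ) ^ a := fun a => rpow_pos_of_pos W0 a
  have M : ∀ a b : ℝ, (W : ℝ) ^ a * (W : ℝ) ^ b = (W : ℝ) ^ (a + b) := fun a b => (rpow_add W0 a b).symm
  refine ⟨fun k F hF => ⟨hF.1.mono (mo (Nat.le_succ k)), hF.2⟩,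
    fun k F hF G hG => (((se k).1 F hF.1).2.2.2.2 G hG.1).1, fun k t F hF => ((se k).1 F hF.1).2.2.1 t,
    fun k F => A51.nu_nonneg hΛ _ _ _ _, fun k t F hF G hG => ?_,
    fun k => ⟨ins_Sn4 (one k), odd_Sn _, d4_Sn _⟩,
    fun k => ((se k).1 _ (ins_Sn4 (one k))).2.2.2.1 1 (abs_Sn_le _), fun k _ hb F hF => ?_,
    fun k _ hb F hF => ?_, fun k _ hb F hF => ?_, fun k _ hb => ?_, fun k _ hb => ?_, (P _).le, P _,
    two_pos, P _, P _, ?_, ?_, ?_, ?_, ?_⟩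
  · by_cases hb : k ≤ m
    · simp only [lk_eq hb]
      exact ell_sub h.toEnv (h0.trans (up k)) (hk hb) hF.1 hG.1 t
    · simp [lk, hb]
  · have := (h.ks _ (h0.trans (up k)) (h1.trans (up k)) (su k ▸ hk hb) F hF.1 hF.2.1 hF.2.2).2
    rw [← su] at this
    exact this
  · have := (h.ks _ (h0.trans (up k)) (h1.trans (up k)) (su k ▸ hk hb) F hF.1 hF.2.1 hF.2.2).1
    rwa [← su] at this
  · rw [lk_eq hb]
    exact abs_ell_le h.toEnv (h0.trans (up k)) (hk hb) hF.1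
  · have := h.low₁ _ (h0.trans (up k)) (h1.trans (up k)) (su k ▸ hk hb)
    rw [lk_eq hb, su, Nat.cast_mul]
    exact this.trans (le_abs_self _)
  · have := h.low₂ _ (h0.trans (up k)) (h1.trans (up k)) (su k ▸ su (k + 1) ▸ hk hb)
    rw [lk_eq hb, su, su, Nat.cast_mul, Nat.cast_mul]
    exact this.trans (le_abs_self _)
  · have := R (a := 5 / 2 + (-3 + ew p.w / 10)) (b := 0) (by linarith)
    rw [← M, rpow_zero] at this
    nlinarith [mul_pos (P (5 / 2)) (P (-3 + ew p.w / 10))]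
  · have := R (a := 5 / 2 + (-2 + ew p.w / 10 + (-2 + ew p.w / 10)) + (-3 + ew p.w / 10))
      (b := -4 - ew p.w / 10) (by linarith)
    rw [← M, ← M, ← M] at this
    linarith
  · have := R (a := -2 + ew p.w / 10) (b := 5 / 2 + (-4 - ew p.w / 10)) (by linarith)
    rw [← M (5 / 2)] at this
    linarith [P (-2 + ew p.w / 10)]
  · have := R (a := 0) (b := 5 / 2 + (-2 - ew p.w / 10)) (by linarith)
    rw [← M, rpow_zero] at this
    linarith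
  · have a1 := R (a := -2 + ew p.w / 10) (b := 5 / 2 + (-2 - ew p.w / 10) + -(9 / 4)) (by linarith)
    have a2 := R (a := 5 / 2 + (-2 - ew p.w / 10) + (-3 + ew p.w / 10))
      (b := 5 / 2 + (-2 - ew p.w / 10) + -(9 / 4)) (by linarith)
    rw [← M _ (-(9 / 4)), ← M (5 / 2)] at a1
    rw [← M _ (-(9 / 4)), ← M _ (-3 + ew p.w / 10), ← M (5 / 2)] at a2
    nlinarith [P (-2 + ew p.w / 10), mul_pos (mul_pos (P (5 / 2)) (P (-2 - ew p.w / 10)))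
      (P (-3 + ew p.w / 10))]

end Cone

open Cone in
/-- **PUR** -/
theorem purStmt : PurStmt := by
  intro w
  rcases Nat.eq_zero_or_pos w with rfl | hw
  · exact ⟨0, fun p W hp _ Λ ω r₁ L N h => absurd h.w4 (by omega)⟩
  have e0 := ew_pos hw
  have e1 := Beta3.ew_le w
  obtain ⟨W₁, hW₁, H₁⟩ := ev_rpow 16 (by norm_num : (0 : ℝ) < 1 / 5)
  obtain ⟨W₂, -, H₂⟩ := ev_rpow 8 (half_pos e0)
  refine ⟨W₁ + W₂, fun p W hp hW Λ ω r₁ L N h r m F h0 h1 hL hF ho hd => ?_⟩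
  subst hp
  have hW1 : 1 ≤ W := by omega
  have W1 : (1 : ℝ) ≤ W := by exact_mod_cast hW1
  have W0 : (0 : ℝ) < W := by linarith
  have k := lc_of hW1 (H₁ W (by omega)) h h0 h1 hL
  have hC : F ∈ cls (W ^ 0 * r) := by rw [pow_zero, one_mul]; exact ⟨hF, ho, hd⟩
  have hν := A51.nu_nonneg h.mem.ok p.w 0 r F
  have Q : ∀ (a b : ℝ) (n : ℕ), a ≤ b → ((W : ℝ) ^ a) ^ n ≤ (W : ℝ) ^ (b * n) := fun a b n hab => by
    rw [← rpow_mul_natCast W0.le]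
    exact rpow_le_rpow_of_exponent_le W1 (by gcongr)
  have d := k.dec_pow le_rfl hC m (by omega)
  simp only [zero_add, pow_zero, one_mul] at d
  have d' := d.trans (mul_le_mul_of_nonneg_right (Q _ (-2 + ew p.w) m (by linarith)) hν)
  rcases m with _ | m
  · exact ⟨0, by simpa using hν, by simp; linarith, d'⟩
  obtain ⟨α, -, a1, a2⟩ := k.pur le_rfl hC m (by omega)
  simp only [zero_add, pow_zero, one_mul] at a1 a2
  have b1 : 2 * (W : ℝ) ^ (-2 + ew p.w / 10) / (W : ℝ) ^ (-2 - ew p.w / 10) ≤ 2 * (W : ℝ) ^ ew p.w := by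
    rw [mul_div_assoc, ← rpow_sub W0]
    exact mul_le_mul_of_nonneg_left (rpow_le_rpow_of_exponent_le W1 (by linarith)) zero_le_two
  have b2 : 4 * 2 * ((W : ℝ) ^ (-2 + ew p.w / 10)) ^ 2 / (W : ℝ) ^ (-4 - ew p.w / 10) ≤
      (W : ℝ) ^ ew p.w := by
    rw [mul_div_assoc, ← rpow_mul_natCast W0.le, ← rpow_sub W0]
    calc _ ≤ (W : ℝ) ^ (ew p.w / 2) * (W : ℝ) ^ (ew p.w / 2) :=
          mul_le_mul (by linarith [H₂ W (by omega)])
            (rpow_le_rpow_of_exponent_le W1 (by push_cast; linarith)) (by positivity) (by positivity)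
      _ = _ := by rw [← rpow_add W0, add_halves]
  have b3 : |α| ≤ 2 * (W : ℝ) ^ (ew p.w * ((m + 1 : ℕ) : ℝ)) * nu Λ p.w 0 r F := by
    refine a1.trans (mul_le_mul_of_nonneg_right ?_ hν)
    rw [rpow_mul_natCast W0.le, pow_succ' _ m, ← mul_assoc]
    exact mul_le_mul b1 (pow_le_pow_left₀ (by positivity) b2 m) (by positivity) (by positivity)
  refine ⟨α, b3, a2.trans ?_, d'⟩
  have b4 : 1 ≤ (W : ℝ) ^ (ew p.w * ((m + 1 : ℕ) : ℝ)) := one_le_rpow W1 (by positivity)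
  have b5 : ((W : ℝ) ^ (-(9 / 4) : ℝ)) ^ (m + 1) * (W : ℝ) ^ (ew p.w * ((m + 1 : ℕ) : ℝ)) ≤
      (W : ℝ) ^ (-(11 / 5 : ℝ) * ((m + 1 : ℕ) : ℝ)) := by
    rw [← rpow_mul_natCast W0.le, ← rpow_add W0, ← add_mul]
    exact rpow_le_rpow_of_exponent_le W1 (mul_le_mul_of_nonneg_right (by linarith) (by positivity))
  have b6 : 0 ≤ ((W : ℝ) ^ (-(9 / 4) : ℝ)) ^ (m + 1) := by positivity
  calc _ ≤ ((W : ℝ) ^ (-(9 / 4) : ℝ)) ^ (m + 1) *
        (3 * (W : ℝ) ^ (ew p.w * ((m + 1 : ℕ) : ℝ)) * nu Λ p.w 0 r F) := by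
        gcongr; nlinarith
    _ ≤ _ := by nlinarith [mul_le_mul_of_nonneg_right b5 hν]

end Crest.Agent.T145.Fl
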