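import Crest.Agent.T145.FlPur_64

/-!
# Row 145: the two-step cone and purification, vector form (abstract; helper93, after helper64 / helper82)

`C k` = insertions at scale `k`, `ν k` = norm at scale `k`, `l k` = vector of left functionals (values in `U`),
`σ k` = the reference insertions (coefficients in `V`).  Cone at `k`: `ν k F ≤ Γ ‖l (k+1) F‖`.
-/

set_option autoImplicit false

namespace Crest.Agent.T145.Pv

/-- the data of the cone argument on the steps `a ≤ k < b` -/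
structure Lv {E U V : Type*} [AddCommGroup E] [Module ℝ E] [NormedAddCommGroup U] [NormedSpace ℝ U]
    [NormedAddCommGroup V] [NormedSpace ℝ V] (C : ℕ → Submodule ℝ E) (ν : ℕ → E → ℝ) (l : ℕ → E → U)
    (σ : ℕ → V →ₗ[ℝ] E) (A B D b₁ b₂ Γ ϑ : ℝ) (a b : ℕ) : Prop where
  mono : ∀ k, C k ≤ C (k + 1)
  add : ∀ k, ∀ F ∈ C k, ∀ G ∈ C k, ν k (F + G) ≤ ν k F + ν k G
  smul : ∀ k (t : ℝ), ∀ F ∈ C k, ν k (t • F) = |t| * ν k F
  nonneg : ∀ k F, 0 ≤ ν k F
  ladd : ∀ k, ∀ F ∈ C k, ∀ G ∈ C k, l k (F + G) = l k F + l k G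
  lsmul : ∀ k (t : ℝ), ∀ F ∈ C k, l k (t • F) = t • l k F
  mem : ∀ k α, σ k α ∈ C k
  le_one : ∀ k α, ν k (σ k α) ≤ ‖α‖
  ker : ∀ k, a ≤ k → k < b → ∀ F ∈ C k, ∃ α : V, ν (k + 1) (F - σ k α) ≤ A * ν k F
  dec : ∀ k, a ≤ k → k < b → ∀ F ∈ C k, ν (k + 1) F ≤ B * ν k F
  l_le : ∀ k, a ≤ k → k ≤ b → ∀ F ∈ C k, ‖l k F‖ ≤ D * ν k F
  low₁ : ∀ k, a ≤ k → k < b → ∀ α, b₁ * ‖α‖ ≤ ‖l (k + 1) (σ k α)‖
  low₂ : ∀ k, a ≤ k → k + 1 < b → ∀ α, b₂ * ‖α‖ ≤ ‖l (k + 2) (σ k α)‖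
  A0 : 0 ≤ A
  B0 : 0 < B
  D0 : 0 < D
  b0 : 0 < b₁
  b0' : 0 < b₂
  n₁ : Γ * D * A ≤ 1 / 2
  n₂ : 4 * Γ * D ^ 2 * B ^ 2 * A ≤ b₂
  n₃ : 4 * B ≤ Γ * b₂
  n₄ : 1 ≤ Γ * b₁
  n₅ : 3 * B + 2 * Γ * b₁ * A ≤ 2 * Γ * b₁ * ϑ

namespace Lv
variable {E U V : Type*} [AddCommGroup E] [Module ℝ E] [NormedAddCommGroup U] [NormedSpace ℝ U]
  [NormedAddCommGroup V] [NormedSpace ℝ V] {C : ℕ → Submodule ℝ E} {ν : ℕ → E → ℝ} {l : ℕ → E → U}
  {σ : ℕ → V →ₗ[ℝ] E} {A B D b₁ b₂ Γ ϑ : ℝ} {a b : ℕ} (h : Lv C ν l σ A B D b₁ b₂ Γ ϑ a b)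
include h

theorem mono' {j k : ℕ} (hjk : j ≤ k) : C j ≤ C k := monotone_nat_of_le_succ h.mono hjk

theorem Γ0 : 0 < Γ := by
  by_contra hn
  have := mul_nonpos_of_nonpos_of_nonneg (not_lt.1 hn) h.b0.le
  linarith [h.n₄]

theorem ϑ0 : 0 < ϑ := by
  have p := mul_pos h.Γ0 h.b0
  have q := mul_nonneg p.le h.A0
  have : 0 < 2 * Γ * b₁ * ϑ := by nlinarith [h.n₅, h.B0]
  by_contra hn
  nlinarith [mul_nonneg p.le (neg_nonneg.2 (not_lt.1 hn))]

theorem lsub {k : ℕ} {F G : E} (hF : F ∈ C k) (hG : G ∈ C k) : l k (F - G) = l k F - l k G := by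
  rw [sub_eq_add_neg, h.ladd k F hF _ (neg_mem hG), ← neg_one_smul ℝ G, h.lsmul k _ _ hG, neg_one_smul,
    sub_eq_add_neg]

theorem sub_le {k : ℕ} {F G : E} (hF : F ∈ C k) (hG : G ∈ C k) : ν k (F - G) ≤ ν k F + ν k G := by
  have := h.add k _ hF _ ((C k).smul_mem (-1) hG)
  rwa [h.smul _ _ _ hG, abs_neg, abs_one, one_mul, neg_one_smul, ← sub_eq_add_neg] at this

theorem le_add {k : ℕ} {F G : E} (hF : F ∈ C k) (hG : G ∈ C k) : ν k F ≤ ν k (F - G) + ν k G := by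
  have := h.add k _ (sub_mem hF hG) _ hG
  rwa [sub_add_cancel] at this

theorem dec_S {k : ℕ} (ha : a ≤ k) (hb : k < b) (α : V) : ν (k + 1) (σ k α) ≤ B * ‖α‖ :=
  (h.dec k ha hb _ (h.mem k α)).trans (mul_le_mul_of_nonneg_left (h.le_one k α) h.B0.le)

/-- crude decay over several steps -/
theorem dec_pow {k : ℕ} (ha : a ≤ k) {F : E} (hF : F ∈ C k) (m : ℕ) (hb : k + m ≤ b) :
    ν (k + m) F ≤ B ^ m * ν k F := by
  induction m with
  | zero => simp
  | succ m ih =>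
    have h1 := h.dec (k + m) (by omega) (by omega) F (h.mono' (by omega) hF)
    have h2 := mul_le_mul_of_nonneg_left (ih (by omega)) h.B0.le
    rw [pow_succ, ← add_assoc]; linarith

/-- one step, Lasota–Yorke form -/
theorem ly {k : ℕ} (ha : a ≤ k) (hb : k < b) {F : E} (hF : F ∈ C k) :
    ν (k + 1) F ≤ B / b₁ * ‖l (k + 1) F‖ + A * (1 + D * B / b₁) * ν k F := by
  obtain ⟨α, hα⟩ := h.ker k ha hb F hF
  have hF1 := h.mono k hF
  have hm := h.mono k (h.mem k α)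
  have hB := h.B0
  have hD := h.D0
  have hb1 := h.b0
  have u1 : ‖l (k + 1) (F - σ k α)‖ ≤ D * (A * ν k F) :=
    (h.l_le (k + 1) (by omega) (by omega) _ (sub_mem hF1 hm)).trans (by gcongr)
  have v3 : b₁ * ‖α‖ ≤ ‖l (k + 1) F‖ + D * (A * ν k F) := by
    have e : l (k + 1) (σ k α) = l (k + 1) F - l (k + 1) (F - σ k α) := by rw [h.lsub hF1 hm]; abel
    have := h.low₁ k ha hb α
    rw [e] at this
    linarith [norm_sub_le (l (k + 1) F) (l (k + 1) (F - σ k α))]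
  have v4 : ‖α‖ ≤ (‖l (k + 1) F‖ + D * (A * ν k F)) / b₁ := by rw [le_div_iff₀ hb1]; linarith
  have w1 := h.le_add hF1 hm
  have w2 := (h.dec_S ha hb α).trans (mul_le_mul_of_nonneg_left v4 hB.le)
  refine (w1.trans (add_le_add hα w2)).trans (le_of_eq ?_)
  field_simp
  ring

/-- **the cone is invariant**, and inside it the functional decays slowly -/
theorem cone {k : ℕ} (ha : a ≤ k) (hb : k + 1 < b) {F : E} (hF : F ∈ C k)
    (hc : ν k F ≤ Γ * ‖l (k + 1) F‖) :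
    ν (k + 1) F ≤ Γ * ‖l (k + 2) F‖ ∧ b₂ / (4 * D * B) * ‖l (k + 1) F‖ ≤ ‖l (k + 2) F‖ := by
  obtain ⟨α, hα⟩ := h.ker k ha (by omega) F hF
  have hF1 := h.mono k hF
  have hm := h.mono k (h.mem k α)
  have hR := sub_mem hF1 hm
  have hS := h.dec_S ha (by omega) α
  have hΓ := h.Γ0
  have hA := h.A0
  have hB := h.B0
  have hD := h.D0
  have hν := h.nonneg k F
  have hα0 := norm_nonneg α
  have e1 := h.lsub hF1 hm
  have e2 := h.lsub (h.mono _ hF1) (h.mono _ hm)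
  have u1 : ‖l (k + 1) (F - σ k α)‖ ≤ D * (A * ν k F) :=
    (h.l_le (k + 1) (by omega) (by omega) _ hR).trans (by gcongr)
  have u2 : ‖l (k + 2) (F - σ k α)‖ ≤ D * (B * (A * ν k F)) :=
    (h.l_le (k + 2) (by omega) (by omega) _ (h.mono _ hR)).trans (by
      have := h.dec (k + 1) (by omega) hb _ hR
      gcongr
      exact this.trans (by gcongr))
  have u3 : ‖l (k + 1) (σ k α)‖ ≤ D * (B * ‖α‖) :=
    (h.l_le (k + 1) (by omega) (by omega) _ hm).trans (by gcongr)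
  have v1 : ‖l (k + 1) F‖ ≤ ‖α‖ * (D * B) + D * (A * ν k F) := by
    have : l (k + 1) F = l (k + 1) (σ k α) + l (k + 1) (F - σ k α) := by rw [e1]; abel
    rw [this]
    exact (norm_add_le _ _).trans (add_le_add (by linarith) u1)
  have v2 : ν k F ≤ 2 * Γ * D * B * ‖α‖ := by
    have := mul_le_mul_of_nonneg_left v1 hΓ.le
    nlinarith [mul_le_mul_of_nonneg_right h.n₁ hν]
  have v3 : ‖α‖ * b₂ ≤ ‖l (k + 2) F‖ + D * (B * (A * ν k F)) := by
    have e : l (k + 2) (σ k α) = l (k + 2) F - l (k + 2) (F - σ k α) := by rw [e2]; abel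
    have := h.low₂ k ha hb α
    rw [e] at this
    linarith [norm_sub_le (l (k + 2) F) (l (k + 2) (F - σ k α))]
  have v4 : ‖α‖ * b₂ ≤ 2 * ‖l (k + 2) F‖ := by
    have p : D * (B * (A * ν k F)) ≤ D * (B * (A * (2 * Γ * D * B * ‖α‖))) := by gcongr
    nlinarith [mul_le_mul_of_nonneg_right h.n₂ hα0]
  have v5 : A * ν k F ≤ B * ‖α‖ := by
    have p : A * ν k F ≤ A * (2 * Γ * D * B * ‖α‖) := by gcongr
    nlinarith [mul_le_mul_of_nonneg_right h.n₁ (mul_nonneg hB.le hα0)]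
  constructor
  · have w1 := h.le_add hF1 hm
    have w3 := mul_le_mul_of_nonneg_right h.n₃ hα0
    have w4 := mul_le_mul_of_nonneg_left v4 hΓ.le
    nlinarith
  · rw [div_mul_eq_mul_div, div_le_iff₀ (by positivity)]
    have w1 : ‖l (k + 1) F‖ ≤ 2 * (D * B) * ‖α‖ := by nlinarith [mul_le_mul_of_nonneg_left v5 hD.le]
    have w2 := mul_le_mul_of_nonneg_left w1 h.b0'.le
    have w3 := mul_le_mul_of_nonneg_left v4 (mul_pos hD hB).le
    nlinarith

/-- **outside the cone** the norm decays fast -/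
theorem out {k : ℕ} (ha : a ≤ k) (hb : k < b) {F : E} (hF : F ∈ C k)
    (hc : Γ * ‖l (k + 1) F‖ ≤ ν k F) : ν (k + 1) F ≤ ϑ * ν k F := by
  obtain ⟨α, hα⟩ := h.ker k ha hb F hF
  have hF1 := h.mono k hF
  have hm := h.mono k (h.mem k α)
  have hR := sub_mem hF1 hm
  have hS := h.dec_S ha hb α
  have hΓ := h.Γ0
  have hB := h.B0
  have hD := h.D0
  have hν := h.nonneg k F
  have hα0 := norm_nonneg α
  have e1 := h.lsub hF1 hm
  have u1 : ‖l (k + 1) (F - σ k α)‖ ≤ D * (A * ν k F) :=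
    (h.l_le (k + 1) (by omega) (by omega) _ hR).trans (by gcongr)
  have v3 : ‖α‖ * b₁ ≤ ‖l (k + 1) F‖ + D * (A * ν k F) := by
    have e : l (k + 1) (σ k α) = l (k + 1) F - l (k + 1) (F - σ k α) := by rw [e1]; abel
    have := h.low₁ k ha hb α
    rw [e] at this
    linarith [norm_sub_le (l (k + 1) F) (l (k + 1) (F - σ k α))]
  have v4 : 2 * (Γ * b₁) * ‖α‖ ≤ 3 * ν k F := by
    have := mul_le_mul_of_nonneg_left v3 hΓ.le
    nlinarith [mul_le_mul_of_nonneg_right h.n₁ hν]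
  have w1 := h.le_add hF1 hm
  have p := mul_pos hΓ h.b0
  refine le_of_mul_le_mul_left ?_ (show 0 < 2 * (Γ * b₁) by positivity)
  have w3 : 2 * (Γ * b₁) * ν (k + 1) F ≤ 2 * (Γ * b₁) * (A * ν k F + ‖α‖ * B) := by
    gcongr; linarith
  nlinarith [mul_le_mul_of_nonneg_right h.n₅ hν, mul_le_mul_of_nonneg_left v4 hB.le]

/-- the cone over several steps -/
theorem cone_pow {k : ℕ} (ha : a ≤ k) {F : E} (hF : F ∈ C k) (hc : ν k F ≤ Γ * ‖l (k + 1) F‖)
    (m : ℕ) (hb : k + m < b) : ν (k + m) F ≤ Γ * ‖l (k + m + 1) F‖ ∧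
      (b₂ / (4 * D * B)) ^ m * ‖l (k + 1) F‖ ≤ ‖l (k + m + 1) F‖ := by
  induction m with
  | zero => simpa using hc
  | succ m ih =>
    obtain ⟨i1, i2⟩ := ih (by omega)
    obtain ⟨j1, j2⟩ := h.cone (k := k + m) (by omega) (by omega) (h.mono' (by omega) hF) i1
    refine ⟨j1, le_trans ?_ j2⟩
    have : 0 ≤ b₂ / (4 * D * B) := by have := h.b0'; have := h.D0; have := h.B0; positivity
    rw [pow_succ', mul_assoc]
    exact mul_le_mul_of_nonneg_left i2 this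

/-- if the cone fails at step `k + m` then it failed all the time: decay at every intermediate scale -/
theorem out_pow {k : ℕ} (ha : a ≤ k) {F : E} (hF : F ∈ C k) (m : ℕ) (hb : k + m < b)
    (hc : Γ * ‖l (k + m + 1) F‖ < ν (k + m) F) (j : ℕ) (hj : j ≤ m + 1) : ν (k + j) F ≤ ϑ ^ j * ν k F := by
  induction j with
  | zero => simp
  | succ j ih =>
    have hFj := h.mono' (show k ≤ k + j by omega) hF
    have hn : Γ * ‖l (k + j + 1) F‖ ≤ ν (k + j) F := by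
      by_contra hn
      have := (h.cone_pow (k := k + j) (by omega) hFj (not_le.1 hn).le (m - j) (by omega)).1
      rw [show k + j + (m - j) = k + m by omega] at this
      linarith
    have h1 := h.out (k := k + j) (by omega) (by omega) hFj hn
    have h2 := mul_le_mul_of_nonneg_left (ih (by omega)) h.ϑ0.le
    rw [pow_succ, ← add_assoc]; linarith

/-- **a vanishing left functional at the top forces fast decay at every scale below** -/
theorem zero_pow {k : ℕ} (ha : a ≤ k) {F : E} (hF : F ∈ C k) (m : ℕ) (hb : k + m < b)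
    (h0 : l (k + m + 1) F = 0) (j : ℕ) (hj : j ≤ m + 1) : ν (k + j) F ≤ ϑ ^ j * ν k F := by
  induction j with
  | zero => simp
  | succ j ih =>
    have hFj := h.mono' (show k ≤ k + j by omega) hF
    have hn : Γ * ‖l (k + j + 1) F‖ ≤ ν (k + j) F := by
      by_contra hn
      have := (h.cone_pow (k := k + j) (by omega) hFj (not_le.1 hn).le (m - j) (by omega)).2
      rw [show k + j + (m - j) + 1 = k + m + 1 by omega, h0, norm_zero] at this
      have q : 0 < (b₂ / (4 * D * B)) ^ (m - j) := by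
        have := h.b0'; have := h.D0; have := h.B0; positivity
      have z : ‖l (k + j + 1) F‖ ≤ 0 := by
        by_contra hz
        linarith [mul_pos q (not_le.1 hz)]
      have := mul_nonpos_of_nonneg_of_nonpos h.Γ0.le z
      linarith [h.nonneg (k + j) F, not_le.1 hn]
    have h1 := h.out (k := k + j) (by omega) (by omega) hFj hn
    have h2 := mul_le_mul_of_nonneg_left (ih (by omega)) h.ϑ0.le
    rw [pow_succ, ← add_assoc]; linarith

/-- the reference insertions are in the cone -/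
theorem cone_S {k : ℕ} (ha : a ≤ k) (hb : k < b) (α : V) : ν k (σ k α) ≤ Γ * ‖l (k + 1) (σ k α)‖ := by
  have h1 := mul_le_mul_of_nonneg_left (h.low₁ k ha hb α) h.Γ0.le
  have h2 := mul_le_mul_of_nonneg_right h.n₄ (norm_nonneg α)
  linarith [h.le_one k α]

/-- lower bound for the reference insertions -/
theorem low_pow {k : ℕ} (ha : a ≤ k) (m : ℕ) (hb : k + m < b) (α : V) :
    (b₂ / (4 * D * B)) ^ m * (b₁ * ‖α‖) ≤ ‖l (k + m + 1) (σ k α)‖ := by
  refine le_trans ?_ (h.cone_pow ha (h.mem k α) (h.cone_S ha (by omega) α) m hb).2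
  have : 0 ≤ b₂ / (4 * D * B) := by have := h.b0'; have := h.D0; have := h.B0; positivity
  gcongr
  exact h.low₁ k ha (by omega) α

/-- the part in the cone is bounded uniformly in the depth -/
theorem unif (n₆ : 8 * D ^ 2 * B * Γ * ϑ ^ 2 ≤ b₂) {k : ℕ} (ha : a ≤ k) {F G : E} (hF : F ∈ C k)
    (hG : G ∈ C k) (hc : ν k G ≤ Γ * ‖l (k + 1) G‖) (m : ℕ) (hb : k + m < b)
    (h0 : l (k + m + 1) (F - G) = 0) :
    ‖l (k + 1) G‖ ≤ (D * B + 8 * D ^ 2 * B * (B ^ 2 + ϑ ^ 2) / b₂) * ν k F := by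
  have hB := h.B0
  have hD := h.D0
  have hb2 := h.b0'
  have hΓ := h.Γ0
  have hϑ := h.ϑ0
  have hν := h.nonneg k F
  have p1 : 0 ≤ D * B * ν k F := by positivity
  have p2 : 0 ≤ 8 * D ^ 2 * B * (B ^ 2 + ϑ ^ 2) / b₂ * ν k F := by positivity
  rcases m with _ | m
  · rw [add_zero, h.lsub (h.mono _ hF) (h.mono _ hG), sub_eq_zero] at h0
    have := (h.l_le (k + 1) (by omega) (by omega) F (h.mono _ hF)).trans
      (mul_le_mul_of_nonneg_left (h.dec k ha (by omega) F hF) hD.le)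
    rw [← h0]; linarith
  · have hF2 := h.mono' (show k ≤ k + 2 by omega) hF
    have hG2 := h.mono' (show k ≤ k + 2 by omega) hG
    have c1 := (h.cone ha (by omega) hG hc).2
    have c2 := (h.l_le (k + 2) (by omega) (by omega) F hF2).trans
      (mul_le_mul_of_nonneg_left (h.dec_pow ha hF 2 (by omega)) hD.le)
    have c3 := (h.l_le (k + 2) (by omega) (by omega) _ (sub_mem hF2 hG2)).trans
      (mul_le_mul_of_nonneg_left (h.zero_pow ha (sub_mem hF hG) (m + 1) hb h0 2 (by omega)) hD.le)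
    have c4 : ν k (F - G) ≤ ν k F + Γ * ‖l (k + 1) G‖ := (h.sub_le hF hG).trans (by linarith)
    have c5 : ‖l (k + 2) G‖ ≤ ‖l (k + 2) F‖ + ‖l (k + 2) (F - G)‖ := by
      have e : l (k + 2) G = l (k + 2) F - l (k + 2) (F - G) := by rw [h.lsub hF2 hG2]; abel
      rw [e]; exact norm_sub_le _ _
    have c6 : D * (ϑ ^ 2 * ν k (F - G)) ≤ D * (ϑ ^ 2 * (ν k F + Γ * ‖l (k + 1) G‖)) := by gcongr
    rw [div_mul_eq_mul_div, div_le_iff₀ (by positivity)] at c1
    have c7 : ‖l (k + 2) G‖ ≤ D * (B ^ 2 + ϑ ^ 2) * ν k F + D * ϑ ^ 2 * Γ * ‖l (k + 1) G‖ := by linarith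
    have c8 := mul_le_mul_of_nonneg_right c7 (show 0 ≤ 4 * D * B by positivity)
    have c9 := mul_le_mul_of_nonneg_right n₆ (norm_nonneg (l (k + 1) G))
    have : ‖l (k + 1) G‖ ≤ 8 * D ^ 2 * B * (B ^ 2 + ϑ ^ 2) / b₂ * ν k F := by
      rw [div_mul_eq_mul_div, le_div_iff₀ hb2]; nlinarith
    linarith

variable [FiniteDimensional ℝ U] [FiniteDimensional ℝ V]

/-- **purification relative to any family `τ` in the cone** -/
theorem purT (hd : Module.finrank ℝ V = Module.finrank ℝ U) {k : ℕ} (ha : a ≤ k) (τ : V →ₗ[ℝ] E)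
    (hτ : ∀ α, τ α ∈ C k) (hc : ∀ α, ν k (τ α) ≤ Γ * ‖l (k + 1) (τ α)‖)
    (hi : ∀ α, l (k + 1) (τ α) = 0 → α = 0) {F : E} (hF : F ∈ C k) (m : ℕ) (hb : k + m < b) :
    ∃ α : V, l (k + m + 1) (F - τ α) = 0 ∧
      (b₂ / (4 * D * B)) ^ m * ‖l (k + 1) (τ α)‖ ≤ D * B ^ (m + 1) * ν k F ∧
      (8 * D ^ 2 * B * Γ * ϑ ^ 2 ≤ b₂ →
        ‖l (k + 1) (τ α)‖ ≤ (D * B + 8 * D ^ 2 * B * (B ^ 2 + ϑ ^ 2) / b₂) * ν k F) ∧
      ∀ j, j ≤ m + 1 → ν (k + j) (F - τ α) ≤ ϑ ^ j * (ν k F + ν k (τ α)) := by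
  have hm : ∀ α, τ α ∈ C (k + m + 1) := fun α => h.mono' (by omega) (hτ α)
  have hF' := h.mono' (show k ≤ k + m + 1 by omega) hF
  let M : V →ₗ[ℝ] U :=
    { toFun := fun α => l (k + m + 1) (τ α)
      map_add' := fun x y => by rw [map_add, h.ladd _ _ (hm x) _ (hm y)]
      map_smul' := fun t x => by rw [map_smul, h.lsmul _ _ _ (hm x)]; rfl }
  have q : 0 < (b₂ / (4 * D * B)) ^ m := by have := h.b0'; have := h.D0; have := h.B0; positivity
  have inj : Function.Injective M := by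
    refine (injective_iff_map_eq_zero M).2 fun α hα => hi α ?_
    have := (h.cone_pow ha (hτ α) (hc α) m hb).2
    rw [show l (k + m + 1) (τ α) = 0 from hα, norm_zero] at this
    refine norm_le_zero_iff.1 ?_
    by_contra hz
    linarith [mul_pos q (not_le.1 hz)]
  obtain ⟨α, hα⟩ := (LinearMap.injective_iff_surjective_of_finrank_eq_finrank hd).1 inj (l (k + m + 1) F)
  have hα' : l (k + m + 1) (τ α) = l (k + m + 1) F := hα
  have h0 : l (k + m + 1) (F - τ α) = 0 := by rw [h.lsub hF' (hm α), hα', sub_self]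
  refine ⟨α, h0, ?_, fun n₆ => h.unif n₆ ha hF (hτ α) (hc α) m hb h0, fun j hj => ?_⟩
  · refine (h.cone_pow ha (hτ α) (hc α) m hb).2.trans ?_
    rw [hα', mul_assoc]
    exact (h.l_le (k + m + 1) (by omega) (by omega) F hF').trans
      (mul_le_mul_of_nonneg_left (h.dec_pow ha hF (m + 1) (by omega)) h.D0.le)
  · exact (h.zero_pow ha (sub_mem hF (hτ α)) m hb h0 j hj).trans
      (mul_le_mul_of_nonneg_left (h.sub_le hF (hτ α)) (pow_pos h.ϑ0 j).le)

/-- **purification** -/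
theorem pur (hd : Module.finrank ℝ V = Module.finrank ℝ U) {k : ℕ} (ha : a ≤ k) {F : E} (hF : F ∈ C k)
    (m : ℕ) (hb : k + m < b) :
    ∃ α : V, l (k + m + 1) (F - σ k α) = 0 ∧
      ‖α‖ ≤ D * B / b₁ * (4 * D * B ^ 2 / b₂) ^ m * ν k F ∧
      (8 * D ^ 2 * B * Γ * ϑ ^ 2 ≤ b₂ →
        ‖α‖ ≤ (D * B + 8 * D ^ 2 * B * (B ^ 2 + ϑ ^ 2) / b₂) / b₁ * ν k F) ∧
      ∀ j, j ≤ m + 1 → ν (k + j) (F - σ k α) ≤ ϑ ^ j * (ν k F + ‖α‖) := by
  have hB := h.B0
  have hD := h.D0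
  have hb1 := h.b0
  have hb2 := h.b0'
  obtain ⟨α, h0, h1, h2, h3⟩ := h.purT hd ha (σ k) (h.mem k) (h.cone_S ha (by omega)) (fun α hα => by
    have := h.low₁ k ha (by omega) α
    rw [hα, norm_zero] at this
    refine norm_le_zero_iff.1 ?_
    by_contra hz
    linarith [mul_pos hb1 (not_le.1 hz)]) hF m hb
  have hl := h.low₁ k ha (by omega) α
  refine ⟨α, h0, ?_, fun n₆ => ?_, fun j hj => (h3 j hj).trans ?_⟩
  · have q : 0 < (b₂ / (4 * D * B)) ^ m := by positivity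
    have := (mul_le_mul_of_nonneg_left hl q.le).trans h1
    rw [← mul_assoc, mul_comm, ← le_div_iff₀ (by positivity)] at this
    refine this.trans (le_of_eq ?_)
    rw [div_pow, div_pow, mul_pow, mul_pow, mul_pow, mul_pow, ← pow_mul, mul_comm 2 m, pow_mul]
    field_simp
    ring
  · rw [div_mul_eq_mul_div, le_div_iff₀ hb1]
    linarith [h2 n₆]
  · have := (pow_pos h.ϑ0 j).le
    gcongr
    exact h.le_one k α

end Lv

/-! ## rank one: `Fl.Lf` -/

section one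
variable {E : Type*} [AddCommGroup E] [Module ℝ E] {C : ℕ → Submodule ℝ E} {ν l : ℕ → E → ℝ}
  {S : ℕ → E} {A B D b₁ b₂ Γ ϑ : ℝ} {a b : ℕ} (h : Fl.Lf C ν l S A B D b₁ b₂ Γ ϑ a b)
include h

theorem lf_zero (k : ℕ) : l k 0 = 0 := by
  have := h.lin k 1 0 (zero_mem _) 0 (zero_mem _)
  rw [smul_zero, sub_zero] at this
  linarith

theorem lf_smul (k : ℕ) (t : ℝ) {F : E} (hF : F ∈ C k) : l k (t • F) = t * l k F := by
  have := h.lin k (-t) 0 (zero_mem _) F hF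
  rw [lf_zero h, neg_smul, sub_neg_eq_add, zero_add] at this
  linarith

theorem lf_add (k : ℕ) {F G : E} (hF : F ∈ C k) (hG : G ∈ C k) : l k (F + G) = l k F + l k G := by
  have := h.lin k (-1) F hF G hG
  rw [neg_smul, one_smul, sub_neg_eq_add] at this
  linarith

theorem toLv : Lv C ν l (fun k => LinearMap.toSpanSingleton ℝ E (S k)) A B D b₁ b₂ Γ ϑ a b where
  mono := h.mono
  add := h.add
  smul := h.smul
  nonneg := h.nonneg
  ladd k _ hF _ hG := lf_add h k hF hG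
  lsmul k t _ hF := lf_smul h k t hF
  mem k α := (C k).smul_mem α (h.mem k)
  le_one k α := by
    rw [LinearMap.toSpanSingleton_apply, h.smul _ _ _ (h.mem k)]
    exact mul_le_of_le_one_right (abs_nonneg α) (h.le_one k)
  ker := h.ker
  dec := h.dec
  l_le := h.l_le
  low₁ k ha hb α := by
    rw [LinearMap.toSpanSingleton_apply, lf_smul h _ _ (h.mono k (h.mem k)), norm_mul, mul_comm]
    exact mul_le_mul_of_nonneg_left (h.low₁ k ha hb) (norm_nonneg α)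
  low₂ k ha hb α := by
    rw [LinearMap.toSpanSingleton_apply, lf_smul h _ _ (h.mono _ (h.mono k (h.mem k))), norm_mul, mul_comm]
    exact mul_le_mul_of_nonneg_left (h.low₂ k ha hb) (norm_nonneg α)
  A0 := h.A0
  B0 := h.B0
  D0 := h.D0
  b0 := h.b0
  b0' := h.b0'
  n₁ := h.n₁
  n₂ := h.n₂
  n₃ := h.n₃
  n₄ := h.n₄
  n₅ := h.n₅

/-- **purification relative to a generic `J` in the cone**; `μ = l_top F / l_top J` -/
theorem purJ {k : ℕ} (ha : a ≤ k) {F J : E} (hF : F ∈ C k) (hJ : J ∈ C k)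
    (hc : ν k J ≤ Γ * |l (k + 1) J|) (hne : l (k + 1) J ≠ 0) (m : ℕ) (hb : k + m < b) :
    l (k + m + 1) J ≠ 0 ∧
      (8 * D ^ 2 * B * Γ * ϑ ^ 2 ≤ b₂ → |l (k + m + 1) F / l (k + m + 1) J| * |l (k + 1) J| ≤
        (D * B + 8 * D ^ 2 * B * (B ^ 2 + ϑ ^ 2) / b₂) * ν k F) ∧
      (∀ j, j ≤ m + 1 → ν (k + j) (F - (l (k + m + 1) F / l (k + m + 1) J) • J) ≤
        ϑ ^ j * (ν k F + |l (k + m + 1) F / l (k + m + 1) J| * ν k J)) ∧
      ∀ j, j ≤ m → |l (k + j + 1) F / l (k + j + 1) J - l (k + m + 1) F / l (k + m + 1) J| * |l (k + 1) J| ≤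
        D * ϑ * (4 * D * B * ϑ / b₂) ^ j * (ν k F + |l (k + m + 1) F / l (k + m + 1) J| * ν k J) := by
  have H := toLv h
  have hB := h.B0
  have hD := h.D0
  have hb2 := h.b0'
  have hϑ := h.ϑ0
  have low : ∀ j, j ≤ m → (b₂ / (4 * D * B)) ^ j * |l (k + 1) J| ≤ |l (k + j + 1) J| := fun j hj =>
    (h.cone_pow ha hJ hc j (by omega)).2
  have ne : ∀ j, j ≤ m → l (k + j + 1) J ≠ 0 := fun j hj =>
    abs_pos.1 (lt_of_lt_of_le (by have := abs_pos.2 hne; positivity) (low j hj))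
  set μ := l (k + m + 1) F / l (k + m + 1) J with hμ
  have hμJ := (C k).smul_mem μ hJ
  have h0 : l (k + m + 1) (F - μ • J) = 0 := by
    rw [h.lin _ _ _ (h.mono' (by omega) hF) _ (h.mono' (by omega) hJ), hμ, div_mul_cancel₀ _ (ne m le_rfl),
      sub_self]
  have dec : ∀ j, j ≤ m + 1 → ν (k + j) (F - μ • J) ≤ ϑ ^ j * (ν k F + |μ| * ν k J) := fun j hj =>
    (H.zero_pow ha (sub_mem hF hμJ) m hb h0 j hj).trans
      (mul_le_mul_of_nonneg_left ((H.sub_le hF hμJ).trans (by rw [h.smul _ _ _ hJ])) (pow_pos hϑ j).le)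
  refine ⟨ne m le_rfl, fun n₆ => ?_, dec, fun j hj => ?_⟩
  · have := H.unif n₆ ha hF hμJ (by
      rw [h.smul _ _ _ hJ, lf_smul h _ _ (h.mono k hJ), norm_mul, Real.norm_eq_abs, Real.norm_eq_abs]
      nlinarith [mul_le_mul_of_nonneg_left hc (abs_nonneg μ)]) m hb h0
    rwa [lf_smul h _ _ (h.mono k hJ), norm_mul] at this
  · have c1 := (h.l_le (k + j + 1) (by omega) (by omega) _
      (h.mono' (by omega) (sub_mem hF hμJ))).trans (mul_le_mul_of_nonneg_left (dec (j + 1) (by omega)) hD.le)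
    rw [h.lin _ _ _ (h.mono' (by omega) hF) _ (h.mono' (by omega) hJ)] at c1
    have e : l (k + j + 1) F - μ * l (k + j + 1) J =
        (l (k + j + 1) F / l (k + j + 1) J - μ) * l (k + j + 1) J := by
      rw [sub_mul, div_mul_cancel₀ _ (ne j hj)]
    rw [e, abs_mul] at c1
    have c2 := (mul_le_mul_of_nonneg_left (low j hj)
      (abs_nonneg (l (k + j + 1) F / l (k + j + 1) J - μ))).trans c1
    have q : 0 < (b₂ / (4 * D * B)) ^ j := by positivity
    rw [mul_left_comm, ← le_div_iff₀' q] at c2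
    refine c2.trans (le_of_eq ?_)
    rw [div_pow, div_pow, mul_pow, mul_pow, mul_pow, mul_pow, mul_pow]
    field_simp
    ring

end one

end Crest.Agent.T145.Pv
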