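import Crest.Agent.T145.EvDef_2
import Crest.Agent.T145.FlCone_64
import Crest.Agent.T145.FlEnv_30
import Crest.Agent.T145.PurV_93

/-!
# Row 145, even sector: the cone on the lattice with two references, EPUR (helper93)
-/

set_option autoImplicit false

namespace Crest.Agent.T145.Ev

open Finset Real Fl

namespace E93

/-- the norm of the centred insertion -/
noncomputable def nc (Λ : Lat) (w : ℕ) (ω : (Cfg Pt → ℝ) → ℝ) (r : ℕ) (F : Cfg Pt → ℝ) : ℝ :=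
  nu Λ w 0 r fun s => F s - ω F

/-- combination of the two references at scale `r` -/
noncomputable def cmb (σ : ℕ → Fin 2 → Cfg Pt → ℝ) (r : ℕ) (a : Fin 2 → ℝ) : Cfg Pt → ℝ :=
  fun s => ∑ i, a i * σ r i s

/-- references `σ r` and test functions `ψ r` at scale `r` -/
structure RefAt (σ ψ : ℕ → Fin 2 → Cfg Pt → ℝ) (r : ℕ) : Prop where
  ins : ∀ i, Ins 0 r (σ r i)
  even : ∀ i, EvenF (σ r i)
  d4 : ∀ i, D4 0 (σ r i)
  bd : ∀ i s, |σ r i s| ≤ 2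
  ins' : ∀ j, Ins 0 (4 * r) (ψ r j)
  out : ∀ j, Out (bl 0 r) (ψ r j)
  bd' : ∀ j s, |ψ r j s| ≤ 2

/-- one step of the even flow -/
def Kq (w W : ℕ) (Λ : Lat) (ω : (Cfg Pt → ℝ) → ℝ) (σ : ℕ → Fin 2 → Cfg Pt → ℝ) (e e₁ : ℝ) (r : ℕ) : Prop :=
  ∀ F, Ins 0 r F → EvenF F → D4 0 F →
    nc Λ w ω (W * r) F ≤ (W : ℝ) ^ (-2 + e) * nc Λ w ω r F ∧
      ∃ a, nc Λ w ω (W * r) (fun s => F s - cmb σ r a s) ≤ (W : ℝ) ^ (-3 + e₁) * nc Λ w ω r F

/-- the matrix (references at `r`, tests at `R`) is bounded below -/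
def Low (ω : (Cfg Pt → ℝ) → ℝ) (σ ψ : ℕ → Fin 2 → Cfg Pt → ℝ) (r R : ℕ) (b : ℝ) : Prop :=
  ∀ a : Fin 2 → ℝ, b * ‖a‖ ≤ ‖fun j => cv ω (cmb σ r a) (ψ R j)‖

/-- the inputs of the even cone along the scales `W ^ k * r`, `k ≤ m` -/
structure PackE (p : Par) (W : ℕ) (Λ : Lat) (ω : (Cfg Pt → ℝ) → ℝ) (σ ψ : ℕ → Fin 2 → Cfg Pt → ℝ)
    (e e₁ : ℝ) (r m L N : ℕ) : Prop extends Env p Λ ω L N where
  r0 : p.r₀ ≤ r
  top : p.w * (W ^ m * r) ≤ L
  ref : ∀ k, RefAt σ ψ (W ^ k * r)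
  ke : ∀ k, k < m → Kq p.w W Λ ω σ e e₁ (W ^ k * r)
  low₁ : ∀ k, k < m → Low ω σ ψ (W ^ k * r) (W * (W ^ k * r)) ((W : ℝ) ^ (-2 - e))
  low₂ : ∀ k, k + 1 < m → Low ω σ ψ (W ^ k * r) (W * (W * (W ^ k * r))) ((W : ℝ) ^ (-4 - e))

/-- even invariant insertions of radius `r` -/
def cle (r : ℕ) : Submodule ℝ (Cfg Pt → ℝ) where
  carrier := {F | Ins 0 r F ∧ EvenF F ∧ D4 0 F}
  add_mem' h h' := ⟨h.1.add h'.1, h.2.1.add h'.2.1, h.2.2.add h'.2.2⟩
  zero_mem' := ⟨Ins.const 0 r 0, EvenF.const 0, D4.const 0 0⟩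
  smul_mem' c _ h := ⟨h.1.smul c, h.2.1.smul c, h.2.2.smul c⟩

variable {p : Par} {Λ : Lat} {ω : (Cfg Pt → ℝ) → ℝ} {L N r : ℕ} {F G H : Cfg Pt → ℝ}
  {σ ψ : ℕ → Fin 2 → Cfg Pt → ℝ}

theorem cmb_smul (σ : ℕ → Fin 2 → Cfg Pt → ℝ) (r : ℕ) (t : ℝ) (a : Fin 2 → ℝ) :
    cmb σ r (t • a) = fun s => t * cmb σ r a s := by
  funext s; simp only [cmb, Pi.smul_apply, smul_eq_mul, mul_sum, mul_assoc]

theorem cmb_add (σ : ℕ → Fin 2 → Cfg Pt → ℝ) (r : ℕ) (a b : Fin 2 → ℝ) :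
    cmb σ r (a + b) = fun s => cmb σ r a s + cmb σ r b s := by
  funext s; simp only [cmb, Pi.add_apply, add_mul, sum_add_distrib]

theorem cmb_zero (σ : ℕ → Fin 2 → Cfg Pt → ℝ) (r : ℕ) : cmb σ r 0 = fun _ => 0 := by
  funext s; simp [cmb]

theorem RefAt.ins_cmb (h : RefAt σ ψ r) (a : Fin 2 → ℝ) : Ins 0 r (cmb σ r a) :=
  Ins.sum _ fun i _ => (h.ins i).smul (a i)
theorem RefAt.even_cmb (h : RefAt σ ψ r) (a : Fin 2 → ℝ) : EvenF (cmb σ r a) :=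
  EvenF.sum _ fun i _ => (h.even i).smul (a i)
theorem RefAt.d4_cmb (h : RefAt σ ψ r) (a : Fin 2 → ℝ) : D4 0 (cmb σ r a) :=
  D4.sum _ fun i _ => (h.d4 i).smul (a i)
theorem RefAt.abs_cmb (h : RefAt σ ψ r) (a : Fin 2 → ℝ) (s : Cfg Pt) : |cmb σ r a s| ≤ 4 * ‖a‖ := by
  have k : ∀ i, |a i * σ r i s| ≤ ‖a‖ * 2 := fun i => by
    rw [abs_mul]
    exact mul_le_mul (norm_le_pi_norm a i) (h.bd i s) (abs_nonneg _) (norm_nonneg _)
  rw [cmb, Fin.sum_univ_two]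
  linarith [abs_add_le (a 0 * σ r 0 s) (a 1 * σ r 1 s), k 0, k 1]

theorem nc_nonneg (hΛ : Λ.Ok) (w r : ℕ) (F : Cfg Pt → ℝ) : 0 ≤ nc Λ w ω r F := A51.nu_nonneg hΛ _ _ _ _

section env
variable (h : Env p Λ ω L N) (h0 : p.r₀ ≤ r) (hL : p.w * r ≤ L)
include h hL

theorem four_le : 4 * r ≤ N := ((A51.four_le h.toGs r).trans hL).trans h.le

theorem insN (hF : Ins 0 r F) : Ins 0 N F := hF.mono (by have := four_le h hL; omega)

theorem om_add (hF : Ins 0 r F) (hG : Ins 0 r G) : ω (fun s => F s + G s) = ω F + ω G := by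
  obtain ⟨m, hm⟩ := h.amb 0
  exact hm.ex_add (insN h hL hF) (insN h hL hG)

theorem om_sub (hF : Ins 0 r F) (hG : Ins 0 r G) : ω (fun s => F s - G s) = ω F - ω G := by
  obtain ⟨m, hm⟩ := h.amb 0
  exact hm.ex_sub (insN h hL hF) (insN h hL hG)

theorem om_smul (hF : Ins 0 r F) (t : ℝ) : ω (fun s => t * F s) = t * ω F := by
  obtain ⟨m, hm⟩ := h.amb 0
  exact hm.ex_smul (insN h hL hF).1 t

theorem cv_add (hF : Ins 0 r F) (hG : Ins 0 r G) (hH : Ins 0 (4 * r) H) :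
    cv ω (fun s => F s + G s) H = cv ω F H + cv ω G H := by
  obtain ⟨m, hm⟩ := h.amb 0
  have k := hH.mono (four_le h hL)
  have := hm.ex_add ((insN h hL hF).mul k) ((insN h hL hG).mul k)
  simp only [cv, add_mul, this, om_add h hL hF hG]
  ring

theorem cv_smul (hF : Ins 0 r F) (hH : Ins 0 (4 * r) H) (t : ℝ) :
    cv ω (fun s => t * F s) H = t * cv ω F H := by
  obtain ⟨m, hm⟩ := h.amb 0
  have k := hH.mono (four_le h hL)
  have := hm.ex_smul ((insN h hL hF).mul k).1 t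
  simp only [cv, mul_assoc, this, om_smul h hL hF t]
  ring

theorem cv_sub (hF : Ins 0 r F) (hG : Ins 0 r G) (hH : Ins 0 (4 * r) H) :
    cv ω (fun s => F s - G s) H = cv ω F H - cv ω G H := by
  obtain ⟨m, hm⟩ := h.amb 0
  have k := hH.mono (four_le h hL)
  have := hm.ex_sub ((insN h hL hF).mul k) ((insN h hL hG).mul k)
  simp only [cv, sub_mul, this, om_sub h hL hF hG]
  ring

theorem cv_eq (hF : Ins 0 r F) (hH : Ins 0 (4 * r) H) : cv ω F H = ω fun s => H s * (F s - ω F) := by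
  obtain ⟨m, hm⟩ := h.amb 0
  have k := hH.mono (four_le h hL)
  have e1 := hm.ex_sub ((insN h hL hF).mul k) (k.smul (ω F))
  have e2 := hm.ex_smul k.1 (ω F)
  rw [cv, ← e2, ← e1]
  congr 1; funext s; ring

theorem om_sub_const (hF : Ins 0 r F) (c : ℝ) : ω (fun s => F s - c) = ω F - c := by
  obtain ⟨m, hm⟩ := h.amb 0
  rw [om_sub h hL hF (Ins.const 0 r c), hm.ex_const]

theorem cv_sub_const (hF : Ins 0 r F) (hH : Ins 0 (4 * r) H) (c : ℝ) :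
    cv ω (fun s => F s - c) H = cv ω F H := by
  rw [cv_eq h hL hF hH, cv_eq h hL (hF.sub_const c) hH, om_sub_const h hL hF]
  congr 1; funext s; ring

include h0

omit hL in
theorem semi : r + 2 * Λ.rg ≤ p.w * r := by
  have := A51.four_le h.toGs r; have := h.gd.2.1; omega

theorem nc_add (hF : Ins 0 r F) (hG : Ins 0 r G) :
    nc Λ p.w ω r (fun s => F s + G s) ≤ nc Λ p.w ω r F + nc Λ p.w ω r G := by
  have := (((semiStmt Λ p.w r 0 h.mem.ok (semi h h0)).1 _ (hF.sub_const (ω F))).2.2.2.2 _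
    (hG.sub_const (ω G))).1
  rw [nc, om_add h hL hF hG]
  refine le_of_eq_of_le ?_ this
  congr 1; funext s; ring

theorem nc_sub (hF : Ins 0 r F) (hG : Ins 0 r G) :
    nc Λ p.w ω r (fun s => F s - G s) ≤ nc Λ p.w ω r F + nc Λ p.w ω r G := by
  have := (((semiStmt Λ p.w r 0 h.mem.ok (semi h h0)).1 _ (hF.sub_const (ω F))).2.2.2.2 _
    (hG.sub_const (ω G))).2
  rw [nc, om_sub h hL hF hG]
  refine le_of_eq_of_le ?_ this
  congr 1; funext s; ring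

theorem nc_smul (hF : Ins 0 r F) (t : ℝ) : nc Λ p.w ω r (fun s => t * F s) = |t| * nc Λ p.w ω r F := by
  have := ((semiStmt Λ p.w r 0 h.mem.ok (semi h h0)).1 _ (hF.sub_const (ω F))).2.2.1 t
  rw [nc, om_smul h hL hF, nc, ← this]
  congr 1; funext s; ring

theorem nc_le (hF : Ins 0 r F) {B : ℝ} (hB : ∀ s, |F s| ≤ B) : nc Λ p.w ω r F ≤ 2 * B := by
  obtain ⟨m, hm⟩ := h.amb 0
  have k := hm.abs_ex_le (insN h hL hF).1 hB
  exact ((semiStmt Λ p.w r 0 h.mem.ok (semi h h0)).1 _ (hF.sub_const (ω F))).2.2.2.1 _ fun s => by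
    linarith [abs_sub (F s) (ω F), hB s]

/-- the covariance with an outer bounded function is bounded by the centred norm -/
theorem abs_cv_le (hF : Ins 0 r F) (hH : Ins 0 (4 * r) H) (hO : Out (bl 0 r) H) {K : ℝ}
    (hK : ∀ s, |H s| ≤ K) : |cv ω F H| ≤ 2 * K * nc Λ p.w ω r F := by
  rw [cv_eq h hL hF hH]
  obtain ⟨m, hm, hω⟩ := h.amb 0
  have h2 := A51.four_le h.toGs r
  have h3 := h.le
  have hm' : Nc.Amb Λ m (bl 0 (p.w * r)) := FlF4.amb_mono hm (bl_mono 0 (by omega))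
  have hB : bl (0 : Pt) r ⊆ m.A := (bl_mono 0 (by omega)).trans hm.sub
  have k := FlF4.fus1 h.mem.ok hB (A51.ir h.toGs h0 (hF.sub_const (ω F))) hm' subset_rfl hO hK
  have g := A51.gam_le h.toGs h0 (by omega)
  rw [hω _ ((hH.mono (four_le h hL)).mul (insN h hL (hF.sub_const _))).1]
  refine (FlF4.abs_ex_le_nc hm.ctr hm.anch hB k.1).trans (k.2.trans ?_)
  have K0 : 0 ≤ K := (abs_nonneg _).trans (hK 0)
  rw [mul_comm 2 K, mul_assoc]
  exact mul_le_mul_of_nonneg_left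
    (mul_le_mul_of_nonneg_right g.2 (A51.nu_nonneg h.mem.ok _ _ _ _)) K0

theorem abs_om_le (hF : Ins 0 r F) : |ω F| ≤ 2 * nu Λ p.w 0 r F := by
  obtain ⟨m, hm, hω⟩ := h.amb 0
  have h2 := A51.four_le h.toGs r
  have h3 := h.le
  have hm' : Nc.Amb Λ m (bl 0 (p.w * r)) := FlF4.amb_mono hm (bl_mono 0 (by omega))
  have hB : bl (0 : Pt) r ⊆ m.A := (bl_mono 0 (by omega)).trans hm.sub
  have k := FlF4.fus0 h.mem.ok hB (A51.ir h.toGs h0 hF) hm' subset_rfl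
  have g := A51.gam_le h.toGs h0 (by omega)
  rw [hω _ (insN h hL hF).1]
  exact (FlF4.abs_ex_le_nc hm.ctr hm.anch hB k.1).trans (k.2.trans
    (mul_le_mul_of_nonneg_right g.2 (A51.nu_nonneg h.mem.ok _ _ _ _)))

theorem nc_le_nu (hF : Ins 0 r F) : nc Λ p.w ω r F ≤ 3 * nu Λ p.w 0 r F := by
  have se := (semiStmt Λ p.w r 0 h.mem.ok (semi h h0)).1
  have a := ((se _ hF).2.2.2.2 _ (Ins.const 0 r (ω F))).2
  have b := (se _ (Ins.const 0 r (ω F))).2.2.2.1 _ fun _ => abs_om_le h h0 hL hF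
  rw [nc]; linarith

theorem nc_le_sub (hF : Ins 0 r F) (c c' : ℝ) :
    nc Λ p.w ω r F ≤ 3 * nu Λ p.w 0 r fun s => F s - c - c' := by
  have := nc_le_nu h h0 hL ((hF.sub_const c).sub_const c')
  rw [nc, om_sub_const h hL (hF.sub_const c), om_sub_const h hL hF] at this
  refine le_of_eq_of_le ?_ this
  rw [nc]; congr 1; funext s; ring

omit h0 in
theorem om_cmb (hr : RefAt σ ψ r) (a : Fin 2 → ℝ) :
    ω (cmb σ r a) = a 0 * ω (σ r 0) + a 1 * ω (σ r 1) := by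
  rw [← om_smul h hL (hr.ins 0), ← om_smul h hL (hr.ins 1),
    ← om_add h hL ((hr.ins 0).smul _) ((hr.ins 1).smul _)]
  congr 1; funext s; rw [cmb, Fin.sum_univ_two]

end env

/-- the references, normalised, as a linear map -/
noncomputable def lm (σ : ℕ → Fin 2 → Cfg Pt → ℝ) (r : ℕ) : (Fin 2 → ℝ) →ₗ[ℝ] (Cfg Pt → ℝ) where
  toFun a := cmb σ r ((1 / 8 : ℝ) • a)
  map_add' a b := by rw [smul_add, cmb_add]; rfl
  map_smul' t a := by rw [smul_comm, cmb_smul]; rfl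

theorem rp {W a b : ℝ} (h1 : 1 ≤ W) (h : 1024 ≤ W ^ (1 / 5 : ℝ)) (hab : a + 1 / 5 ≤ b) :
    1024 * W ^ a ≤ W ^ b := by
  have h0 : 0 < W := by linarith
  calc 1024 * W ^ a ≤ W ^ (1 / 5 : ℝ) * W ^ a := by gcongr
    _ = W ^ (a + 1 / 5) := by rw [← rpow_add h0, add_comm]
    _ ≤ W ^ b := rpow_le_rpow_of_exponent_le h1 hab

/-- the data of the cone argument along the scales `W ^ k * r`, `k ≤ m` -/
def Lc (p : Par) (W : ℕ) (Λ : Lat) (ω : (Cfg Pt → ℝ) → ℝ) (σ ψ : ℕ → Fin 2 → Cfg Pt → ℝ) (e e₁ : ℝ)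
    (r m : ℕ) : Prop :=
  Pv.Lv (fun k => cle (W ^ min k m * r)) (fun k => nc Λ p.w ω (W ^ min k m * r))
    (fun k F j => cv ω F (ψ (W ^ min k m * r) j)) (fun k => lm σ (W ^ min k m * r))
    ((W : ℝ) ^ (-3 + e₁)) ((W : ℝ) ^ (-2 + e)) 4 ((W : ℝ) ^ (-2 - e) / 8) ((W : ℝ) ^ (-4 - e) / 8)
    ((W : ℝ) ^ (11 / 4 : ℝ)) ((W : ℝ) ^ (-(5 / 2) : ℝ)) 0 m

theorem lc_of {W m : ℕ} {e e₁ : ℝ} (hW : 1 ≤ W) (h16 : 1024 ≤ (W : ℝ) ^ (1 / 5 : ℝ))
    (e1 : e ≤ 1 / 100) (e2 : e₁ ≤ 1 / 100) (h : PackE p W Λ ω σ ψ e e₁ r m L N) :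
    Lc p W Λ ω σ ψ e e₁ r m := by
  have h0 := h.r0
  have hL := h.top
  have hΛ := h.mem.ok
  have W1 : (1 : ℝ) ≤ W := by exact_mod_cast hW
  have W0 : (0 : ℝ) < W := by linarith
  have up : ∀ k, r ≤ W ^ k * r := fun k => Nat.le_mul_of_pos_left _ (pow_pos hW k)
  have mo : ∀ {j k}, j ≤ k → W ^ j * r ≤ W ^ k * r := fun hjk =>
    Nat.mul_le_mul_right _ (Nat.pow_le_pow_right hW hjk)
  have hk : ∀ k, p.w * (W ^ min k m * r) ≤ L := fun k =>
    (Nat.mul_le_mul_left _ (mo (min_le_right k m))).trans hL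
  have su : ∀ {k}, k < m → W ^ min (k + 1) m * r = W * (W ^ min k m * r) := fun hb => by
    rw [min_eq_left hb, min_eq_left hb.le]; ring
  have u0 : ∀ k, p.r₀ ≤ W ^ k * r := fun k => h0.trans (up k)
  have rf := h.ref
  have ml : ∀ {k}, k < m → min k m < m := fun hb => (min_le_left _ _).trans_lt hb
  have R := fun {a b : ℝ} (hab : a + 1 / 5 ≤ b) => rp W1 h16 hab
  have P : ∀ a : ℝ, 0 < (W : ℝ) ^ a := fun a => rpow_pos_of_pos W0 a
  have M : ∀ a b : ℝ, (W : ℝ) ^ a * (W : ℝ) ^ b = (W : ℝ) ^ (a + b) := fun a b => (rpow_add W0 a b).symm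
  have n8 : ∀ a : Fin 2 → ℝ, ‖(1 / 8 : ℝ) • a‖ = ‖a‖ / 8 := fun a => by
    rw [norm_smul, Real.norm_eq_abs, abs_of_pos (by norm_num)]; ring
  refine ⟨fun k F hF => ⟨hF.1.mono (mo (min_le_min_right m (Nat.le_succ k))), hF.2⟩,
    fun k F hF G hG => nc_add h.toEnv (u0 _) (hk k) hF.1 hG.1,
    fun k t F hF => nc_smul h.toEnv (u0 _) (hk k) hF.1 t, fun k F => nc_nonneg hΛ _ _ _,
    fun k F hF G hG => funext fun j => cv_add h.toEnv (hk k) hF.1 hG.1 ((rf _).ins' j),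
    fun k t F hF => funext fun j => cv_smul h.toEnv (hk k) hF.1 ((rf _).ins' j) t,
    fun k a => ⟨(rf _).ins_cmb _, (rf _).even_cmb _, (rf _).d4_cmb _⟩, fun k a => ?_,
    fun k _ hb F hF => ?_, fun k _ hb F hF => ?_, fun k _ hb F hF => ?_, fun k _ hb a => ?_,
    fun k _ hb a => ?_, (P _).le, P _, four_pos, div_pos (P _) (by norm_num),
    div_pos (P _) (by norm_num), ?_, ?_, ?_, ?_, ?_⟩
  · have := nc_le h.toEnv (u0 _) (hk k) ((rf _).ins_cmb ((1 / 8 : ℝ) • a)) ((rf _).abs_cmb _)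
    rw [n8] at this
    exact this.trans (le_of_eq (by ring))
  · obtain ⟨a, ha⟩ := (h.ke _ (ml hb) F hF.1 hF.2.1 hF.2.2).2
    refine ⟨(8 : ℝ) • a, ?_⟩
    have e : lm σ (W ^ min k m * r) ((8 : ℝ) • a) = cmb σ (W ^ min k m * r) a := by
      show cmb σ _ ((1 / 8 : ℝ) • (8 : ℝ) • a) = _
      rw [smul_smul]; norm_num
    rw [e, su hb]
    exact ha
  · have := (h.ke _ (ml hb) F hF.1 hF.2.1 hF.2.2).1
    rwa [← su hb] at this
  · refine (pi_norm_le_iff_of_nonneg (mul_nonneg four_pos.le (nc_nonneg hΛ _ _ _))).2 fun j => ?_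
    exact (abs_cv_le h.toEnv (u0 _) (hk k) hF.1 ((rf _).ins' j) ((rf _).out j) ((rf _).bd' j)).trans
      (le_of_eq (by ring))
  · have := h.low₁ _ (ml hb) ((1 / 8 : ℝ) • a)
    rw [n8, ← su hb] at this
    exact le_of_eq_of_le (by ring) this
  · have := h.low₂ (min k m) (by omega) ((1 / 8 : ℝ) • a)
    rw [n8, ← su (show k < m by omega), ← su hb] at this
    exact le_of_eq_of_le (by ring) this
  · have := R (a := 11 / 4 + (-3 + e₁)) (b := 0) (by linarith)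
    rw [← M, rpow_zero] at this
    nlinarith [mul_pos (P (11 / 4)) (P (-3 + e₁))]
  · have := R (a := 11 / 4 + (-2 + e + (-2 + e)) + (-3 + e₁)) (b := -4 - e) (by linarith)
    rw [← M, ← M, ← M] at this
    nlinarith [mul_pos (mul_pos (P (11 / 4)) (mul_pos (P (-2 + e)) (P (-2 + e)))) (P (-3 + e₁))]
  · have := R (a := -2 + e) (b := 11 / 4 + (-4 - e)) (by linarith)
    rw [← M (11 / 4)] at this
    linarith [P (-2 + e)]
  · have := R (a := 0) (b := 11 / 4 + (-2 - e)) (by linarith)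
    rw [← M, rpow_zero] at this
    linarith
  · have a1 := R (a := -2 + e) (b := 11 / 4 + (-2 - e) + -(5 / 2)) (by linarith)
    have a2 := R (a := 11 / 4 + (-2 - e) + (-3 + e₁)) (b := 11 / 4 + (-2 - e) + -(5 / 2)) (by linarith)
    rw [← M _ (-(5 / 2)), ← M (11 / 4)] at a1
    rw [← M _ (-(5 / 2)), ← M _ (-3 + e₁), ← M (11 / 4)] at a2
    nlinarith [P (-2 + e), mul_pos (mul_pos (P (11 / 4)) (P (-2 - e))) (P (-3 + e₁))]

theorem n6 {W e : ℝ} (W1 : 1 ≤ W) (h16 : 1024 ≤ W ^ (1 / 5 : ℝ)) (e1 : e ≤ 1 / 100) :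
    8 * 4 ^ 2 * W ^ (-2 + e) * W ^ (11 / 4 : ℝ) * (W ^ (-(5 / 2) : ℝ)) ^ 2 ≤ W ^ (-4 - e) / 8 := by
  have W0 : 0 < W := by linarith
  have := rp (a := -2 + e + 11 / 4 + (-(5 / 2) + -(5 / 2))) (b := -4 - e) W1 h16 (by linarith)
  rw [rpow_add W0, rpow_add W0 (-2 + e), rpow_add W0 (-(5 / 2))] at this
  linarith

theorem cst {W e : ℝ} (W1 : 1 ≤ W) (e0 : 0 ≤ e) (hW : 2 ^ 15 ≤ W ^ e) :
    (4 * W ^ (-2 + e) + 8 * 4 ^ 2 * W ^ (-2 + e) * ((W ^ (-2 + e)) ^ 2 + (W ^ (-(5 / 2) : ℝ)) ^ 2) /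
      (W ^ (-4 - e) / 8)) / (W ^ (-2 - e) / 8) ≤ W ^ (6 * e) := by
  have W0 : 0 < W := by linarith
  set x := W ^ e with hx
  set u := W ^ (-2 : ℝ) with hu
  have x0 : 0 < x := rpow_pos_of_pos W0 _
  have u0 : 0 < u := rpow_pos_of_pos W0 _
  have e1 : W ^ (-2 + e) = u * x := rpow_add W0 _ _
  have e2 : W ^ (-2 - e) = u / x := rpow_sub W0 _ _
  have e3 : W ^ (-4 - e) = u ^ 2 / x := by
    rw [rpow_sub W0, hu, ← rpow_mul_natCast W0.le, hx]; norm_num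
  have e4 : W ^ (6 * e) = x ^ 6 := by rw [mul_comm, hx, ← rpow_mul_natCast W0.le]; norm_num
  have e5 : (W ^ (-(5 / 2) : ℝ)) ^ 2 ≤ (u * x) ^ 2 := by
    rw [← e1]
    exact pow_le_pow_left₀ (by positivity) (rpow_le_rpow_of_exponent_le W1 (by linarith)) 2
  rw [e1, e2, e3, e4]
  calc _ ≤ (4 * (u * x) + 8 * 4 ^ 2 * (u * x) * ((u * x) ^ 2 + (u * x) ^ 2) / (u ^ 2 / x / 8)) /
        (u / x / 8) := by gcongr
    _ = 32 * x ^ 2 + 2 ^ 14 * x ^ 5 := by field_simp; ring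
    _ ≤ x ^ 6 := by
      have x1 : 1 ≤ x := by linarith
      have : x ^ 2 ≤ x ^ 5 := pow_le_pow_right₀ x1 (by norm_num)
      have : 2 ^ 15 * x ^ 5 ≤ x * x ^ 5 := by gcongr
      nlinarith [pow_pos x0 5]

section out
variable {W m : ℕ} {e e₁ : ℝ} (hW : 2 ^ 15 ≤ (W : ℝ) ^ e) (e0 : 0 < e) (e1 : e ≤ 1 / 100)
include hW e0

theorem one_le : 1 ≤ W := by
  rcases Nat.eq_zero_or_pos W with rfl | h
  · rw [Nat.cast_zero, zero_rpow e0.ne'] at hW; norm_num at hW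
  · exact h

include e1

theorem big : 1024 ≤ (W : ℝ) ^ (1 / 5 : ℝ) :=
  le_trans (by linarith) (rpow_le_rpow_of_exponent_le (by exact_mod_cast one_le hW e0)
    (show e ≤ 1 / 5 by linarith))

variable (e2 : e₁ ≤ 1 / 100) (h : PackE p W Λ ω σ ψ e e₁ r m L N)
include e2 h

/-- the references are seen by the tests at every depth -/
theorem lowE (hm : 1 ≤ m) : Low ω σ ψ r (W ^ m * r) ((W : ℝ) ^ ((-2 - 3 * e) * m)) := by
  intro a
  have hW1 := one_le hW e0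
  have W1 : (1 : ℝ) ≤ W := by exact_mod_cast hW1
  have W0 : (0 : ℝ) < W := by linarith
  have k := lc_of hW1 (big hW e0 e1) e1 e2 h
  obtain ⟨m, rfl⟩ : ∃ n, m = n + 1 := ⟨m - 1, by omega⟩
  have d := k.low_pow le_rfl m (by omega) ((8 : ℝ) • a)
  have q : lm σ r ((8 : ℝ) • a) = cmb σ r a := by
    show cmb σ _ ((1 / 8 : ℝ) • (8 : ℝ) • a) = _
    rw [smul_smul]; norm_num
  simp only [zero_add, Nat.zero_min, pow_zero, one_mul, min_self, q] at d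
  refine le_trans ?_ d
  have b1 : (W : ℝ) ^ (-2 - 3 * e) ≤ (W : ℝ) ^ (-4 - e) / 8 / (4 * 4 * (W : ℝ) ^ (-2 + e)) := by
    rw [le_div_iff₀ (by positivity), le_div_iff₀ (by norm_num)]
    have : (W : ℝ) ^ (-4 - e) = (W : ℝ) ^ (-2 - 3 * e) * (W : ℝ) ^ (-2 + e) * (W : ℝ) ^ e := by
      rw [← rpow_add W0, ← rpow_add W0]; congr 1; ring
    rw [this]
    have : 0 < (W : ℝ) ^ (-2 - 3 * e) * (W : ℝ) ^ (-2 + e) := by positivity
    nlinarith
  have b2 : (W : ℝ) ^ (-2 - 3 * e) ≤ (W : ℝ) ^ (-2 - e) := rpow_le_rpow_of_exponent_le W1 (by linarith)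
  rw [norm_smul, Real.norm_eq_abs, abs_of_pos (by norm_num), rpow_mul_natCast W0.le, pow_succ, mul_assoc]
  refine mul_le_mul (pow_le_pow_left₀ (by positivity) b1 m) ?_ (by positivity) (by positivity)
  nlinarith [norm_nonneg a]

/-- **PURE** -/
theorem purE (hF : Ins 0 r F) (he : EvenF F) (hd : D4 0 F) :
    ∃ a : Fin 2 → ℝ, ‖a‖ ≤ (W : ℝ) ^ (6 * e) * nc Λ p.w ω r F ∧
      (1 ≤ m → ∀ j, cv ω (fun s => F s - cmb σ r a s) (ψ (W ^ m * r) j) = 0) ∧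
      ∀ j, j ≤ m → nc Λ p.w ω (W ^ j * r) (fun s => F s - cmb σ r a s) ≤
        2 * (W : ℝ) ^ (6 * e) * (W : ℝ) ^ (-(5 / 2 : ℝ) * j) * nc Λ p.w ω r F := by
  have hW1 := one_le hW e0
  have W1 : (1 : ℝ) ≤ W := by exact_mod_cast hW1
  have W0 : (0 : ℝ) < W := by linarith
  have hν := nc_nonneg (ω := ω) h.mem.ok p.w r F
  have b4 : 1 ≤ (W : ℝ) ^ (6 * e) := one_le_rpow W1 (by positivity)
  rcases m with _ | m
  · refine ⟨0, by rw [norm_zero]; positivity, fun h => absurd h (by omega), fun j hj => ?_⟩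
    obtain rfl : j = 0 := by omega
    simp only [cmb_zero, sub_zero, pow_zero, one_mul, Nat.cast_zero, mul_zero, rpow_zero, mul_one]
    nlinarith
  have k := lc_of hW1 (big hW e0 e1) e1 e2 h
  have hC : F ∈ cle (W ^ min 0 (m + 1) * r) := by
    rw [Nat.zero_min, pow_zero, one_mul]; exact ⟨hF, he, hd⟩
  obtain ⟨α, a0, -, a1, a2⟩ := k.pur rfl le_rfl hC m (by omega)
  have a1 := (a1 (n6 W1 (big hW e0 e1) e1)).trans (mul_le_mul_of_nonneg_right (cst W1 e0.le hW)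
    (nc_nonneg h.mem.ok _ _ _))
  simp only [zero_add, Nat.zero_min, pow_zero, one_mul, min_self] at a0 a1 a2
  refine ⟨(1 / 8 : ℝ) • α, ?_, fun _ j => congrFun a0 j, fun j hj => ?_⟩
  · rw [norm_smul, Real.norm_eq_abs, abs_of_pos (by norm_num)]
    linarith [norm_nonneg α]
  · have := a2 j hj
    rw [min_eq_left hj, ← rpow_mul_natCast W0.le] at this
    refine this.trans ?_
    have : 0 < (W : ℝ) ^ (-(5 / 2 : ℝ) * j) := by positivity
    nlinarith [mul_le_mul_of_nonneg_left a1 this.le, mul_le_mul_of_nonneg_right b4 (mul_nonneg this.le hν)]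

end out

theorem norm2 (a : Fin 2 → ℝ) : ‖a‖ = max |a 0| |a 1| :=
  le_antisymm ((pi_norm_le_iff_of_nonneg (le_max_of_le_left (abs_nonneg _))).2
    (Fin.forall_fin_two.2 ⟨le_max_left _ _, le_max_right _ _⟩))
    (max_le (norm_le_pi_norm a 0) (norm_le_pi_norm a 1))

section ker
variable {W : ℕ} {e : ℝ} (hW : 2 ^ 15 ≤ (W : ℝ) ^ (e / 2)) (e0 : 0 < e) (he : e = ew p.w / 10)
  (h : Env p Λ ω L N) (h0 : p.r₀ ≤ r) (hL : p.w * (W * r) ≤ L) (hK : Ke p.w W Λ r)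
include hW e0 he h h0 hL hK

/-- crude step -/
theorem step (hF : Ins 0 r F) (hv : EvenF F) (hd : D4 0 F) :
    nc Λ p.w ω (W * r) F ≤ (W : ℝ) ^ (-2 + e) * nc Λ p.w ω r F := by
  have hW1 := one_le hW (half_pos e0)
  have W0 : (0 : ℝ) < W := by exact_mod_cast hW1
  have up : r ≤ W * r := Nat.le_mul_of_pos_left _ hW1
  obtain ⟨c, hc⟩ := hK.1 _ (hF.sub_const (ω F)) (hv.sub (EvenF.const _)) (hd.sub (D4.const _ _))
  have a := nc_le_sub h (h0.trans up) hL (hF.mono up) (ω F) c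
  have b : (W : ℝ) ^ (-2 + e) = (W : ℝ) ^ (e / 2) * (W : ℝ) ^ (-2 + ew p.w / 20) := by
    rw [← rpow_add W0]; congr 1; linarith
  have q : 0 ≤ (W : ℝ) ^ (-2 + ew p.w / 20) * nc Λ p.w ω r F :=
    mul_nonneg (by positivity) (nc_nonneg h.mem.ok _ _ _)
  rw [b, mul_assoc]
  have hc' : _ ≤ (W : ℝ) ^ (-2 + ew p.w / 20) * nc Λ p.w ω r F := hc
  nlinarith

/-- the kernel is spanned by the references -/
theorem kq (e1 : e ≤ 1 / 100) (hr : RefAt σ ψ r) (hr' : RefAt σ ψ (W * r))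
    (hl : Low ω σ ψ r (W * r) ((W : ℝ) ^ (-2 - e))) : Kq p.w W Λ ω σ e (3 * e) r := by
  intro F hF hv hd
  have st := step hW e0 he h h0 hL hK hF hv hd
  refine ⟨st, ?_⟩
  have hW1 := one_le hW (half_pos e0)
  have W1 : (1 : ℝ) ≤ W := by exact_mod_cast hW1
  have W0 : (0 : ℝ) < W := by linarith
  have up : r ≤ W * r := Nat.le_mul_of_pos_left _ hW1
  have hL' : p.w * r ≤ L := (Nat.mul_le_mul_left _ up).trans hL
  have h0' := h0.trans up
  obtain ⟨t, t0, c, hc⟩ := hK.2 ![fun s => F s - ω F, fun s => σ r 0 s - ω (σ r 0), fun s => σ r 1 s - ω (σ r 1)]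
    (Fin.forall_fin_succ.2 ⟨⟨hF.sub_const _, hv.sub (EvenF.const _), hd.sub (D4.const _ _)⟩,
      Fin.forall_fin_two.2
        ⟨⟨(hr.ins 0).sub_const _, (hr.even 0).sub (EvenF.const _), (hr.d4 0).sub (D4.const _ _)⟩,
         ⟨(hr.ins 1).sub_const _, (hr.even 1).sub (EvenF.const _), (hr.d4 1).sub (D4.const _ _)⟩⟩⟩)
  set a : Fin 2 → ℝ := ![t 1, t 2] with ha
  set X : Cfg Pt → ℝ := fun s => t 0 * F s + cmb σ r a s with hX
  have iX : Ins 0 r X := (hF.smul _).add (hr.ins_cmb a)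
  have oX : ω X = t 0 * ω F + (t 1 * ω (σ r 0) + t 2 * ω (σ r 1)) := by
    rw [hX, om_add h hL' (hF.smul _) (hr.ins_cmb a), om_smul h hL' hF, om_cmb h hL' hr]; rfl
  have eX : ∀ s, ∑ i, t i * ![fun s => F s - ω F, fun s => σ r 0 s - ω (σ r 0),
      fun s => σ r 1 s - ω (σ r 1)] i s = X s - ω X := fun s => by
    rw [oX, Fin.sum_univ_three, hX]
    simp only [cmb, Fin.sum_univ_two, ha, Matrix.cons_val]
    ring
  simp only [eX] at hc
  set x := nc Λ p.w ω r F with hx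
  have x0 : 0 ≤ x := nc_nonneg h.mem.ok _ _ _
  set A := (W : ℝ) ^ (-3 + ew p.w / 20) with hA
  set y := (W : ℝ) ^ (e / 2) with hy
  set b := (W : ℝ) ^ (-2 - e) with hb
  have A0 : 0 < A := by positivity
  have b0 : 0 < b := by positivity
  have y4 : y ^ 4 = (W : ℝ) ^ (2 * e) := by rw [hy, ← rpow_mul_natCast W0.le]; congr 1; push_cast; ring
  have eB : (W : ℝ) ^ (-2 + e) = b * y ^ 4 := by rw [y4, hb, ← rpow_add W0]; congr 1; ring
  have eA : (W : ℝ) ^ (-3 + 3 * e) = A * y ^ 4 * y := by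
    rw [y4, hA, hy, ← rpow_add W0, ← rpow_add W0]; congr 1; linarith
  have Ab : 1024 * A ≤ b := rp W1 (le_trans (by linarith)
    (rpow_le_rpow_of_exponent_le W1 (show e / 2 ≤ 1 / 5 by linarith))) (by linarith)
  have y1 : 1 ≤ y ^ 4 := one_le_pow₀ (by linarith)
  have n1 : nc Λ p.w ω r X ≤ |t 0| * x + 8 * ‖a‖ := by
    have u := nc_add h h0 hL' (hF.smul (t 0)) (hr.ins_cmb a)
    rw [nc_smul h h0 hL' hF] at u
    linarith [nc_le h h0 hL' (hr.ins_cmb a) (hr.abs_cmb a)]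
  have n2 : nc Λ p.w ω (W * r) X ≤ 3 * (A * (|t 0| * x + 8 * ‖a‖)) :=
    (nc_le_sub h h0' hL (iX.mono up) (ω X) c).trans (by
      gcongr; exact hc.trans (mul_le_mul_of_nonneg_left n1 A0.le))
  have tx : 0 ≤ |t 0| * x := by positivity
  have n3 : b * ‖a‖ ≤ 12 * (A * (|t 0| * x + 8 * ‖a‖)) + |t 0| * (4 * (b * y ^ 4 * x)) := by
    refine (hl a).trans ((pi_norm_le_iff_of_nonneg (by positivity)).2 fun j => ?_)
    have u1 := abs_cv_le h h0' hL (iX.mono up) (hr'.ins' j) (hr'.out j) (hr'.bd' j)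
    have u2 := abs_cv_le h h0' hL (hF.mono up) (hr'.ins' j) (hr'.out j) (hr'.bd' j)
    have u3 := cv_add h hL ((hF.mono up).smul (t 0)) ((hr.ins_cmb a).mono up) (hr'.ins' j)
    rw [cv_smul h hL (hF.mono up) (hr'.ins' j)] at u3
    have u4 : cv ω (cmb σ r a) (ψ (W * r) j) = cv ω X (ψ (W * r) j) - t 0 * cv ω F (ψ (W * r) j) := by
      rw [hX, u3]; ring
    rw [Real.norm_eq_abs, u4]
    refine (abs_sub _ _).trans (add_le_add (by linarith) ?_)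
    rw [abs_mul, ← eB]
    exact mul_le_mul_of_nonneg_left (by linarith) (abs_nonneg _)
  have n4 : ‖a‖ ≤ 16 * y ^ 4 * (|t 0| * x) := by
    refine le_of_mul_le_mul_left ?_ b0
    have v1 := mul_le_mul_of_nonneg_right Ab tx
    have v2 := mul_le_mul_of_nonneg_right Ab (norm_nonneg a)
    have v3 := mul_le_mul_of_nonneg_right y1 (mul_nonneg b0.le tx)
    have v4 := mul_nonneg b0.le (norm_nonneg a)
    have v5 := mul_nonneg b0.le tx
    nlinarith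
  have t1 : t 0 ≠ 0 := fun z => t0 (by
    rw [z, abs_zero, zero_mul, mul_zero, norm_le_zero_iff] at n4
    funext i
    fin_cases i
    · exact z
    · exact congrFun n4 0
    · exact congrFun n4 1)
  have t2 := abs_pos.2 t1
  refine ⟨(-(t 0)⁻¹) • a, ?_⟩
  have q : (fun s => F s - cmb σ r ((-(t 0)⁻¹) • a) s) = fun s => (t 0)⁻¹ * X s := by
    funext s; rw [cmb_smul, hX]; field_simp; ring
  rw [q, nc_smul h h0' hL (iX.mono up), abs_inv, inv_mul_le_iff₀ t2, eA]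
  refine n2.trans ?_
  have v1 := mul_le_mul_of_nonneg_left n4 A0.le
  have v2 := mul_le_mul_of_nonneg_right y1 (mul_nonneg A0.le tx)
  have v3 := mul_le_mul_of_nonneg_right hW (mul_nonneg (mul_nonneg A0.le (by positivity : 0 ≤ y ^ 4)) tx)
  have v4 := mul_nonneg (mul_nonneg A0.le (by positivity : 0 ≤ y ^ 4)) tx
  nlinarith

end ker

/-- the references and tests of `EvDef_2` -/
noncomputable def sg (r : ℕ) : Fin 2 → Cfg Pt → ℝ := ![T1 (r / 8), T2 (r / 8)]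
noncomputable def ps (r : ℕ) : Fin 2 → Cfg Pt → ℝ := ![G1 (2 * r), T2 (2 * r)]

theorem refAt (hT : TgStmt) (h8 : 8 ≤ r) : RefAt sg ps r := by
  obtain ⟨c, C, -, -, H⟩ := hT
  obtain ⟨a1, a2, -, -⟩ := H (r / 8) (by omega)
  obtain ⟨-, b2, b3, -⟩ := H (2 * r) (by omega)
  have cp2 : ∀ ξ s, |cp ξ 0 s| ≤ 2 := fun ξ s => (abs_cp_le ξ 0 s).trans one_le_two
  have e : 2 * (2 * r) = 4 * r := by ring
  exact ⟨Fin.forall_fin_two.2 ⟨a1.1.mono (by omega), a2.1.mono (by omega)⟩,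
    Fin.forall_fin_two.2 ⟨a1.2.1, a2.2.1⟩, Fin.forall_fin_two.2 ⟨a1.2.2.1, a2.2.2.1⟩,
    Fin.forall_fin_two.2 ⟨fun s => (a1.2.2.2 s).trans one_le_two, cp2 _⟩,
    Fin.forall_fin_two.2 ⟨e ▸ b3.1, e ▸ b2.1⟩,
    Fin.forall_fin_two.2 ⟨b3.2.1.mono (bl_mono 0 (by omega)), b2.2.2.2.mono (bl_mono 0 (by omega))⟩,
    Fin.forall_fin_two.2 ⟨cp2 _, cp2 _⟩⟩

theorem tc_eq (h : Env p Λ ω L N) (hL : p.w * r ≤ L) (hr : RefAt sg ps r) (a : Fin 2 → ℝ) :
    Tc ω (r / 8) (a 0) (a 1) = fun s => cmb sg r a s - ω (cmb sg r a) := by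
  funext s
  rw [om_cmb h hL hr]
  simp only [Tc, cmb, Fin.sum_univ_two, sg, Matrix.cons_val]
  ring

theorem low_of {R : ℕ} {b : ℝ} (h : Env p Λ ω L N) (hL : p.w * R ≤ L) (hR : r ≤ R) (hr : RefAt sg ps r)
    (hr' : RefAt sg ps R) (hl : Lw ω (r / 8) (2 * R) b) : Low ω sg ps r R b := fun a => by
  have := hl (a 0) (a 1)
  rw [tc_eq h ((Nat.mul_le_mul_left _ hR).trans hL) hr,
    cv_sub_const (H := G1 (2 * R)) h hL ((hr.ins_cmb a).mono hR) (hr'.ins' 0),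
    cv_sub_const (H := T2 (2 * R)) h hL ((hr.ins_cmb a).mono hR) (hr'.ins' 1)] at this
  rw [norm2, norm2]
  exact this

end E93

open E93 in
/-- **EPUR** -/
theorem epurStmt (hT : TgStmt) : EpurStmt := by
  intro w
  rcases Nat.eq_zero_or_pos w with rfl | hw
  · exact ⟨0, fun p W hp _ Λ ω r₁ L N h => absurd h.w4 (by omega)⟩
  have e0 : 0 < ew w / 10 := by have := Cone.ew_pos hw; positivity
  have e1 := Beta3.ew_le w
  obtain ⟨W₀, -, H⟩ := Cone.ev_rpow (2 ^ 15) (half_pos e0)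
  refine ⟨W₀, fun p W hp hW Λ ω r₁ L N h h0 h8 hK r m F h1 hL hF hv hd => ?_⟩
  subst hp
  have hW' := H W hW
  have hW1 := one_le hW' (half_pos e0)
  have W1 : (1 : ℝ) ≤ W := by exact_mod_cast hW1
  have W0 : (0 : ℝ) < W := by linarith
  have up : ∀ k, r ≤ W ^ k * r := fun k => Nat.le_mul_of_pos_left _ (pow_pos hW1 k)
  have hk : ∀ {k}, k ≤ m → p.w * (W ^ k * r) ≤ L := fun hk =>
    (Nat.mul_le_mul_left _ (Nat.mul_le_mul_right _ (Nat.pow_le_pow_right hW1 hk))).trans hL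
  have su : ∀ k, W ^ (k + 1) * r = W * (W ^ k * r) := fun k => by ring
  have u1 : ∀ k, r₁ ≤ W ^ k * r := fun k => h1.trans (up k)
  have hr0 := h0.trans h1
  have hL0 : p.w * r ≤ L := (Nat.mul_le_mul_left _ (up m)).trans hL
  have ke : ∀ k, k < m → Ke p.w W Λ (W ^ k * r) := fun k hb => hK _ (u1 k) (su k ▸ hk hb)
  have n3 := nc_le_nu h hr0 hL0 hF
  have hν := A51.nu_nonneg h.mem.ok p.w 0 r F
  have hc := nc_nonneg (ω := ω) h.mem.ok p.w r F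
  constructor
  · have d : ∀ j, j ≤ m → nc Λ p.w ω (W ^ j * r) F ≤ ((W : ℝ) ^ (-2 + ew p.w / 10)) ^ j * nc Λ p.w ω r F := by
      intro j hj
      induction j with
      | zero => simp
      | succ j ih =>
        have := step hW' e0 rfl h (h0.trans (u1 j)) (su j ▸ hk hj) (ke j hj) (hF.mono (up j)) hv hd
        rw [su, pow_succ', mul_assoc]
        exact this.trans (mul_le_mul_of_nonneg_left (ih (by omega)) (by positivity))
    refine (d m le_rfl).trans ?_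
    rw [← rpow_mul_natCast W0.le]
    have : 0 ≤ (W : ℝ) ^ ((-2 + ew p.w / 10) * m) := by positivity
    nlinarith [mul_le_mul_of_nonneg_left n3 this, mul_nonneg this hν]
  intro hl
  have rf : ∀ k, RefAt sg ps (W ^ k * r) := fun k => refAt hT (h8.trans (u1 k))
  have le1 : ∀ n, n ≤ W * n := fun n => Nat.le_mul_of_pos_left _ hW1
  have l1 : ∀ k, k < m → Low ω sg ps (W ^ k * r) (W * (W ^ k * r)) ((W : ℝ) ^ (-2 - ew p.w / 10)) :=
    fun k hb => low_of h (su k ▸ hk hb) (le1 _) (rf k) (su k ▸ rf (k + 1)) (hl k hb).1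
  have P : PackE p W Λ ω sg ps (ew p.w / 10) (3 * (ew p.w / 10)) r m L N :=
    ⟨h, hr0, hL, rf, fun k hb => kq hW' e0 rfl h (h0.trans (u1 k)) (su k ▸ hk hb) (ke k hb) (by linarith)
      (rf k) (su k ▸ rf (k + 1)) (l1 k hb), l1, fun k hb => low_of h (su k ▸ su (k + 1) ▸ hk hb)
      ((le1 _).trans (le1 _)) (rf k) (su k ▸ su (k + 1) ▸ rf (k + 2)) (hl k (by omega)).2⟩
  rcases Nat.eq_zero_or_pos m with rfl | hm
  · refine ⟨0, 0, by simpa using hν, ?_⟩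
    simp only [Tc, zero_mul, add_zero, sub_zero, pow_zero, one_mul, Nat.cast_zero, mul_zero, rpow_zero]
    exact n3.trans (by linarith)
  have hW2 : 2 ^ 15 ≤ (W : ℝ) ^ (ew p.w / 10) :=
    hW'.trans (rpow_le_rpow_of_exponent_le W1 (by linarith))
  obtain ⟨a, a1, -, a2⟩ := purE hW2 e0 (by linarith) (by linarith) P hF hv hd
  have m1 : (1 : ℝ) ≤ m := by exact_mod_cast hm
  have rf0 : RefAt sg ps r := refAt hT (h8.trans h1)
  refine ⟨a 0, a 1, ?_, ?_⟩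
  · rw [← norm2]
    refine a1.trans ?_
    have : 3 * (W : ℝ) ^ (6 * (ew p.w / 10)) ≤ (W : ℝ) ^ (ew p.w * m) :=
      calc _ ≤ (W : ℝ) ^ (ew p.w / 10) * (W : ℝ) ^ (6 * (ew p.w / 10)) := by gcongr; linarith
        _ ≤ _ := by
          rw [← rpow_add W0]
          exact rpow_le_rpow_of_exponent_le W1 (by nlinarith)
    have q : 0 ≤ (W : ℝ) ^ (6 * (ew p.w / 10)) := by positivity
    nlinarith [mul_le_mul_of_nonneg_left n3 q, mul_le_mul_of_nonneg_right this hν]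
  · have := a2 m le_rfl
    rw [nc, om_sub h hL0 hF (rf0.ins_cmb a)] at this
    rw [tc_eq h hL0 rf0]
    refine le_trans (le_of_eq ?_) (this.trans ?_)
    · congr 1; funext s; ring
    · have q : (W : ℝ) ^ (6 * (ew p.w / 10)) * (W : ℝ) ^ (-(5 / 2 : ℝ) * m) ≤ (W : ℝ) ^ (-(11 / 5 : ℝ) * m) := by
        rw [← rpow_add W0]
        exact rpow_le_rpow_of_exponent_le W1 (by linarith)
      have q0 : 0 ≤ (W : ℝ) ^ (-(11 / 5 : ℝ) * m) := by positivity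
      nlinarith [mul_le_mul_of_nonneg_right q hc, mul_le_mul_of_nonneg_left n3 q0, mul_nonneg q0 hν]

end Crest.Agent.T145.Ev
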