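import Crest.Agent.T145.EvDef_2
import Crest.Agent.T145.EvLe_60

/-!
# Row 145, even sector: the crude sum of energy stars (helper60)
-/

set_option autoImplicit false

namespace Crest.Agent.T145.Ev

open Finset Pot Xi Real Fl

namespace Le60

theorem ew_le_one {w : ℕ} (hw : 1 ≤ w) : ew w ≤ 1 := by
  have h1 : (1 : ℝ) ≤ (w : ℝ) ^ 4 := one_le_pow₀ (by exact_mod_cast hw)
  have : cw w ≤ 1 := (div_le_one (log_pos (by linarith))).2 (log_le_log two_pos (by linarith))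
  rw [ew]; linarith

theorem far_mono {p : Par} {L : ℕ} {U U' : Finset Pt} {ι : Type} {I : Finset ι} {x : ι → Pt} {r : ι → ℕ}
    {H : ι → Cfg Pt → ℝ} (h : Far p L U I x r H) (hU : U ⊆ U') : Far p L U' I x r H :=
  ⟨h.card, h.ins, h.big, fun i hi => (h.sub i hi).trans hU, h.dis⟩

theorem disj {x z : Pt} {a b n : ℕ} (h : z ∉ bl x n) (hn : a + b ≤ n) : Disjoint (bl x a) (bl z b) :=
  disjoint_left.2 fun y h1 h2 => h (by rw [mem_bl] at h1 h2 ⊢; omega)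

end Le60
open Le60 Lj36

set_option maxHeartbeats 400000 in
theorem cr3Stmt (hS : SemiStmt) (hP : ProdStmt) (hFu : FusStmt) (hL : LocStmt) (hW : SwStmt)
    (hB : BasStmt) (hF : FarEStmt) : Cr3Stmt := by
  intro p
  obtain ⟨C₁, hC₁, h1⟩ := leStmt hS hP hL hW p
  obtain ⟨P₀, hP₀, hB⟩ := hB p
  obtain ⟨C₂, hC₂, hF⟩ := hF p
  obtain ⟨A, hA0, hA⟩ : ∃ A : ℝ, 0 ≤ A ∧ A = (35 * p.w) ^ 2 * (C₁ * (1 + P₀ * (p.r₀ : ℝ) ^ 2)) :=
    ⟨_, by positivity, rfl⟩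
  have hw0 : (0 : ℝ) ≤ p.w := Nat.cast_nonneg _
  have hK : (0 : ℝ) ≤ (p.w : ℝ) ^ 2 * p.r₀ := by positivity
  refine ⟨A + 32 * C₂ + 17 * p.w + 4800 * ((p.w : ℝ) ^ 2 * p.r₀), by positivity, ?_⟩
  intro Λ ω L N hE R P M hR hP1 hPr hM hCL ι I x h H ξ q σ φ Z hh h2 _ hFa h3 hξ hq hLr hZ hz
  have hG : Gs p Λ L := hE.toGs
  have hw := hG.w4
  have hw' : (4 : ℝ) ≤ p.w := by exact_mod_cast hw
  have h2' : (2 : ℝ) ≤ p.r₀ := by exact_mod_cast gs_two hG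
  have h16 : 16 * (p.r₀ : ℝ) ≤ (p.w : ℝ) ^ 2 * p.r₀ := by gcongr; nlinarith
  have hσ : 0 ≤ σ := (hLr 0).choose_spec.1
  have hMR : 0 < M * R := by positivity
  have ha1 : (⌊M * R⌋₊ : ℝ) ≤ M * R := Nat.floor_le hMR.le
  have hha : h ≤ ⌊M * R⌋₊ := Nat.le_floor h3
  generalize ⌊M * R⌋₊ = a at *
  have hha' : (h : ℝ) ≤ a := by exact_mod_cast hha
  have h0 : (0 : ℝ) < h := by linarith
  have hr : p.r₀ ≤ h := by exact_mod_cast (show (p.r₀ : ℝ) ≤ h by linarith)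
  have haL : 17 * (p.w * a) ≤ L := by
    have : 17 * ((p.w : ℝ) * a) ≤ L := calc
      _ = 17 * p.w * (a : ℝ) := by ring
      _ ≤ _ * (M * R) := mul_le_mul (by linarith) ha1 a.cast_nonneg (by positivity)
      _ ≤ L := (mul_assoc _ _ _).symm.trans_le hCL
    exact_mod_cast this
  have hN := hE.le
  have hwa := le_wmul hG a
  have hwh := Nat.mul_le_mul_left p.w hha
  have haN : bl 0 a ⊆ bl 0 N := bl_mono 0 (by omega)
  have hPi := prod_nonneg hS hG hFa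
  have hrg : Λ.rg ≤ p.r₀ := by have := gs_rg hG; omega
  obtain ⟨-, -, b1, b2, -, -, b3⟩ := hB Λ ω L N hE 0
  have hMe : M ^ ew p.w ≤ M := by
    simpa using rpow_le_rpow_of_exponent_le hM (ew_le_one (by omega : 1 ≤ p.w))
  have near : ∀ z ∈ Z ∩ bl 0 (16 * p.w * a), |ω fun s => (∏ i ∈ I, H i s) * cp ξ φ s * et Λ ω z s| ≤
      C₁ * (∏ i ∈ I, nu Λ p.w (x i) h (H i)) * (1 + σ) ^ 2 *
        ((1 + P₀ * (p.r₀ : ℝ) ^ 2) * (P * M * (M / R) ^ 2)) := fun z hz' => by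
    obtain ⟨u, hu⟩ := hLr z
    have h4 := (h1 Λ ω L N hE (et Λ ω 0) p.r₀ R P P₀ M le_rfl (E30.ins_le b1 hrg) b2 (by linarith)
      (by linarith) hPr (by linarith) (fun c hc => (b3 0 c (bl_mono 0 (hrg.trans hc))).1) hM 0 ι I x
      (fun _ => h) H z h σ φ ξ u q (far_mono hFa haN) hξ (E30.chq_mono hq haN) (by omega)
      (bl_subset_bl (mem_inter.1 hz').2 (by rw [mul_assoc]; omega))
      (fun i hi => disj (hz z (mem_inter.1 hz').1 i hi) (by rw [mul_assoc]; omega)) hu h2 h3).2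
      (by linarith)
    rw [(hB Λ ω L N hE z).2.1] at h4
    simp only [mul_right_comm _ (cp ξ φ _)]
    refine h4.trans (mul_le_mul_of_nonneg_left ?_ (by positivity))
    have h5 : 1 / (h : ℝ) ^ 2 ≤ (M / R) ^ 2 := by
      rw [← one_div_pow]
      refine pow_le_pow_left₀ (by positivity) ?_ 2
      rw [div_le_div_iff₀ h0 (by linarith), one_mul, mul_comm]
      exact (div_le_iff₀ (by linarith)).1 h2
    have h6 : ((p.r₀ : ℝ) / h) ^ (2 + cw p.w / 2) ≤ (p.r₀ : ℝ) ^ 2 * (P * M * (M / R) ^ 2) := calc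
      _ ≤ ((p.r₀ : ℝ) / h) ^ (2 : ℝ) := rpow_le_rpow_of_exponent_ge (by positivity)
          (div_le_one_of_le₀ (by exact_mod_cast hr) h0.le) (by linarith [cw_pos hw])
      _ = (p.r₀ : ℝ) ^ 2 * (1 * 1 * (1 / (h : ℝ) ^ 2)) := by rw [rpow_two]; ring
      _ ≤ _ := by gcongr
    calc _ ≤ P * M * (M / R) ^ 2 + P₀ * ((p.r₀ : ℝ) ^ 2 * (P * M * (M / R) ^ 2)) := by
          rw [div_eq_mul_one_div]; gcongr
      _ = _ := by ring
  have hI : Ins 0 a fun s => (∏ i ∈ I, H i s) * cp ξ φ s :=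
    E30.ins_mul (E30.ins_far (by omega) hFa) (E30.ins_cp hq φ)
  have far := hF Λ ω L N hE R P (by linarith) (by linarith) hPr a (16 * p.w * a) _ (hr.trans hha) le_rfl
    (by rw [mul_assoc]; omega) hI
  have hnu := (hFu p Λ L hG 0 a (by omega)).2.2 ι I x (fun _ => h) H (cp ξ φ) (hr.trans hha) hFa
    (depG_cp hq φ) (fun i hi => out_cp (hξ i hi) φ) (abs_cp_le ξ φ)
  have a0 : (0 : ℝ) < a := by linarith
  have h7 : max ((a : ℝ) / R) (R / a) ^ ew p.w ≤ M := le_trans (by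
    gcongr
    · exact (ew_pos hw).le
    · refine max_le ((div_le_iff₀ (by linarith)).2 ha1) ?_
      rw [div_le_iff₀ a0, mul_comm]
      exact (div_le_iff₀ (by linarith)).1 (h2.trans hha')) hMe
  have h8 : ∀ b : ℕ, a ≤ b → ((a : ℝ) / b) ^ (cw p.w / 2) ≤ 1 := fun b hb =>
    rpow_le_one (by positivity) (div_le_one_of_le₀ (by exact_mod_cast hb) b.cast_nonneg)
      (by linarith [cw_pos hw])
  have h9 := add_le_add (h8 (16 * p.w * a) (by rw [mul_assoc]; omega)) (h8 L (by omega))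
  have hc : ((Z ∩ bl 0 (16 * p.w * a)).card : ℝ) ≤ (35 * p.w * (M * R)) ^ 2 := by
    refine (Nat.cast_le.2 (card_le_card inter_subset_right)).trans ?_
    rw [card_bl]
    push_cast
    gcongr
    nlinarith [mul_le_mul_of_nonneg_left ha1 hw0, one_le_mul_of_one_le_of_one_le hM hR]
  rw [← sum_inter_add_sum_sdiff Z (bl 0 (16 * p.w * a))]
  have h10 := (sum_le_card_nsmul _ _ _ near).trans_eq (nsmul_eq_mul _ _)
  have h11 := (sum_le_sum_of_subset_of_nonneg (sdiff_subset_sdiff hZ subset_rfl)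
    fun _ _ _ => abs_nonneg _).trans far
  generalize ∏ i ∈ I, nu Λ p.w (x i) h (H i) = PP at *
  have hs : 1 ≤ (1 + σ) ^ 2 := one_le_pow₀ (by linarith)
  have hM5 : M ≤ M ^ 5 := le_self_pow₀ hM (by norm_num)
  calc _ ≤ (35 * p.w * (M * R)) ^ 2 * (C₁ * PP * (1 + σ) ^ 2 *
        ((1 + P₀ * (p.r₀ : ℝ) ^ 2) * (P * M * (M / R) ^ 2))) + C₂ * (16 * PP) * P * M * (1 + 1) :=
        add_le_add (h10.trans (by gcongr)) (h11.trans (by gcongr))
    _ = A * M ^ 5 * (1 + σ) ^ 2 * PP * P + 32 * C₂ * M * 1 * PP * P := by rw [hA]; field_simp; ring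
    _ ≤ A * M ^ 5 * (1 + σ) ^ 2 * PP * P + 32 * C₂ * M ^ 5 * (1 + σ) ^ 2 * PP * P := by gcongr
    _ = (A + 32 * C₂) * M ^ 5 * (1 + σ) ^ 2 * PP * P := by ring
    _ ≤ _ := by gcongr ?_ * _ * _ * _ * _; linarith

end Crest.Agent.T145.Ev
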