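import Crest.Agent.T145.EvDef_2
import Crest.Agent.T145.FlBas_4
import Crest.Agent.T145.FlRate_98

/-!
# Row 145, even sector: DC, the decomposition of the energy star (helper82)
-/

set_option autoImplicit false

namespace Crest.Agent.T145.Ev

open Finset Pot Xi Real Fl

theorem nr_ge {w : ℕ} (hw : 4 ≤ w) : 1040 ≤ nr w := by
  have h1 := cw_le' hw
  have h0 := cw_pos (show 1 ≤ w by omega)
  have : ((1040 : ℕ) : ℝ) ≤ 104 / cw w := by rw [le_div_iff₀ h0]; push_cast; linarith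
  have := Nat.cast_le.1 (this.trans (Nat.le_ceil _))
  unfold nr; omega

/-- the numerics of the remainder -/
theorem dc_num {W u t e : ℝ} {m ν : ℕ} (hW : 1 ≤ W) (ht : 0 < t) (hC : 21 * W ^ 3 * t ≤ 1) (hν : 1040 ≤ ν)
    (he : e ≤ 1 / 1000) (hu : 1 ≤ u * t ^ (23 * ν)) (hm : u * t ^ (ν + 1) < W ^ (m + 1)) :
    21 * W ^ (-(11 / 5 : ℝ) * m) * u ^ e * u ^ 2 ≤ t ^ (16 + 2 * ν) := by
  have u0 : 0 < u := (mul_pos_iff_of_pos_right (by positivity)).1 (zero_lt_one.trans_le hu)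
  have W0 : 0 < W := by linarith
  have l1 := log_le_log (by positivity) hC
  have l2 := log_le_log (by positivity) hu
  have l3 := log_lt_log (by positivity) hm
  have l4 := log_nonneg hW
  have l5 : 0 ≤ log 21 := log_nonneg (by norm_num)
  have n1 : (1040 : ℝ) ≤ ν := by exact_mod_cast hν
  rw [← log_le_log_iff (by positivity) (by positivity)]
  simp (disch := positivity) only [log_mul, log_pow, log_rpow, log_one] at *
  push_cast at *
  have t0 : 0 ≤ -log t := by linarith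
  have k1 : 0 ≤ ν * -log t := by positivity
  have k2 : 1040 * -log t ≤ ν * -log t := by gcongr
  have k3 : e * log u ≤ 1 / 1000 * log u := by gcongr; nlinarith
  nlinarith

set_option maxHeartbeats 1600000 in
theorem dcStmt (hL : LowStmt) (hB : BasStmt) : DcStmt := fun w => by
  obtain ⟨W₀, hL⟩ := hL w
  refine ⟨max W₀ 2, fun p W D₀ hw hW => ?_⟩
  obtain ⟨C₁, n₁, c1, hL⟩ := hL p W hw (le_of_max_le_left hW)
  obtain ⟨P₀, -, hB⟩ := hB p
  have W2 : (2 : ℝ) ≤ W := by exact_mod_cast le_of_max_le_right hW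
  have W3 : (8 : ℝ) ≤ (W : ℝ) ^ 3 := by
    calc (8 : ℝ) = 2 ^ 3 := by norm_num
      _ ≤ _ := by gcongr
  have w0 : (0 : ℝ) ≤ p.w := Nat.cast_nonneg _
  refine ⟨C₁ + p.w + 21 * (W : ℝ) ^ 3, 24 * nr p.w * n₁ + 48 * nr p.w, by linarith,
    fun E R Y P t h t0 hC hY hR => ?_⟩
  have en := h.ed.toEnv
  have w4 := en.w4
  have hν := nr_ge w4
  have e0 := ew_nonneg p.w
  have e1 := ew_le' w4
  generalize hν' : nr p.w = ν at *
  obtain ⟨R1, hRY, -⟩ := id h.maj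
  have a1 : C₁ * t ≤ 1 := by nlinarith
  have a2 : p.w * t ≤ 1 := by nlinarith
  have a3 : 21 * (W : ℝ) ^ 3 * t ≤ 1 := by nlinarith
  have a4 : 16 * t ≤ 1 := by nlinarith
  have t1 : t ≤ 1 := by linarith
  have tp : ∀ {a b : ℕ}, a ≤ b → t ^ b ≤ t ^ a := fun hab => pow_le_pow_of_le_one t0.le t1 hab
  have L0 : (0 : ℝ) ≤ E.L := Nat.cast_nonneg _
  have P0 : 0 ≤ P := by linarith [h.P1]
  -- the scale `x = R t^(24 ν)`
  have b1 : 1 ≤ R * t ^ (48 * ν) := by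
    have : R ^ (-1 : ℝ) ≤ t ^ (48 * ν) :=
      ((rpow_le_rpow_of_exponent_le R1 (by linarith)).trans hRY).trans (hY.trans (tp (by omega)))
    rw [rpow_neg_one, inv_le_iff_one_le_mul₀ (by linarith)] at this
    linarith
  have r8 : (8 : ℝ) ≤ E.r₁ := by exact_mod_cast h.r8
  have b2 : (E.r₁ : ℝ) ≤ R * t ^ (24 * ν) := by
    refine abs_le_of_sq_le_sq' ?_ (by positivity) |>.2
    calc (E.r₁ : ℝ) ^ 2 ≤ (E.r₁ : ℝ) ^ 100 := pow_le_pow_right₀ (by linarith) (by norm_num)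
      _ ≤ R * 1 := by linarith [h.r1]
      _ ≤ R * (R * t ^ (48 * ν)) := by gcongr
      _ = _ := by ring
  obtain ⟨a, ha⟩ : ∃ a : ℕ, a = ⌈R * t ^ (24 * ν)⌉₊ := ⟨_, rfl⟩
  have c2 : R * t ^ (24 * ν) ≤ a := ha ▸ Nat.le_ceil _
  have c3 : (a : ℝ) < R * t ^ (24 * ν) + 1 := ha ▸ Nat.ceil_lt_add_one (by positivity)
  have c4 : ((8 * a : ℕ) : ℝ) ≤ R * t ^ (23 * ν) := by
    have : t ^ (24 * ν) ≤ t ^ (23 * ν) * t := by rw [← pow_succ]; exact tp (by omega)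
    have : R * t ^ (24 * ν) ≤ R * t ^ (23 * ν) * t := by rw [mul_assoc]; gcongr
    have : 0 ≤ R * t ^ (23 * ν) := by positivity
    push_cast; nlinarith
  have a8 : (8 : ℝ) ≤ a := by linarith
  have c5 : E.r₁ ≤ a := by exact_mod_cast b2.trans c2
  have r0 : (0 : ℝ) < (8 * a : ℕ) := by push_cast; linarith
  have c6 : ((8 * a : ℕ) : ℝ) ≤ R * t ^ (ν + 1) := c4.trans (by gcongr ?_ * ?_; exact tp (by omega))
  obtain ⟨m, m1, m2⟩ := exists_nat_pow_near ((one_le_div r0).2 c6) (show (1 : ℝ) < W by linarith)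
  rw [le_div_iff₀ r0] at m1
  have c7 : R * t ^ (ν + 1) ≤ R * t := by gcongr; exact (tp (by omega)).trans_eq (pow_one t)
  have c8 : R * t ≤ R := by nlinarith
  have c9 : R ≤ E.L := hR.trans (mul_le_of_le_one_left L0 (pow_le_one₀ t0.le t1))
  have sc : ∀ j, j ≤ m → ((W ^ j * (8 * a) : ℕ) : ℝ) ≤ R * t := fun j hj => by
    refine le_trans ?_ (m1.trans c7)
    rw [Nat.cast_mul, Nat.cast_pow]
    gcongr; linarith
  have wL : ∀ j, j ≤ m → p.w * (W ^ j * (8 * a)) ≤ E.L := fun j hj => by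
    have := mul_le_mul_of_nonneg_left (sc j hj) w0
    have : ((p.w * (W ^ j * (8 * a)) : ℕ) : ℝ) ≤ E.L := by rw [Nat.cast_mul]; nlinarith
    exact_mod_cast this
  have W1 : ∀ j, 8 * a ≤ W ^ j * (8 * a) := fun j =>
    Nat.le_mul_of_pos_left _ (pow_pos (by have := le_of_max_le_right hW; omega) j)
  obtain ⟨z0, -, i0, ev0, d0, -⟩ := hB _ _ _ _ en 0
  have rg := en.gd.2.1
  have q0 := h.r0
  have hM : ∀ Z : ℝ, 0 ≤ Z → C₁ * (t⁻¹ ^ (24 * ν)) ^ n₁ * (t ^ (24 * ν * n₁ + 48 * ν) * Z) ≤ Z := fun Z hZ => by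
    have : (t⁻¹ ^ (24 * ν)) ^ n₁ * t ^ (24 * ν * n₁ + 48 * ν) = t ^ (48 * ν) := by
      rw [← pow_mul, pow_add, ← mul_assoc, ← mul_pow, inv_mul_cancel₀ t0.ne', one_pow, one_mul]
    calc _ = C₁ * ((t⁻¹ ^ (24 * ν)) ^ n₁ * t ^ (24 * ν * n₁ + 48 * ν)) * Z := by ring
      _ ≤ C₁ * t * Z := by rw [this]; gcongr; exact (tp (by omega)).trans_eq (pow_one t)
      _ ≤ Z := mul_le_of_le_one_left hZ a1
  have ti : 2 ≤ t⁻¹ := by rw [le_inv_comm₀ (by norm_num) t0]; linarith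
  have M2 : 2 ≤ t⁻¹ ^ (24 * ν) := ti.trans (le_self_pow₀ (by linarith) (by omega))
  obtain ⟨α₁, α₂, k1, k2⟩ := (h.epur (8 * a) m (E.e 0) (by omega) (wL m le_rfl) (i0.mono (by omega))
    ev0 d0).2 fun j hj => hw ▸ hL _ _ _ _ en R Y (t⁻¹ ^ (24 * ν)) h.maj (hw ▸ h.crit) M2
      (le_trans (by gcongr; rwa [mul_one]) (hM 1 zero_le_one)) (le_trans (by gcongr) (hM _ L0)) _
      (by
        rw [inv_pow, div_inv_eq_mul]
        exact c2.trans (by exact_mod_cast le_trans (by omega) (W1 j)))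
      ((sc j hj.le).trans (by nlinarith))
  have pf := h.prof (8 * a) (by omega) (le_trans (Nat.mul_le_mul_left _ (W1 m)) (wL m le_rfl))
  have rR : ((8 * a : ℕ) : ℝ) ≤ R := by linarith
  rw [max_eq_right (((div_le_one (by linarith)).2 rR).trans ((one_le_div r0).2 rR))] at pf
  rw [Nat.mul_div_cancel_left a (by norm_num)] at k2
  simp only [z0, sub_zero] at k2
  have u1 : 1 ≤ R / a := (one_le_div (by linarith)).2 (by push_cast at rR; linarith)
  refine ⟨a, W ^ m * (8 * a), α₁, α₂, hν' ▸ c2, hν' ▸ ?_, W1 m, hν' ▸ ?_, c5, ?_, hν' ▸ k2.trans ?_⟩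
  · have : R * t ^ (23 * ν) ≤ R * t ^ (10 * ν) := by gcongr ?_ * ?_; exact tp (by omega)
    push_cast at c4; linarith
  · rwa [Nat.cast_mul, Nat.cast_pow]
  · have f1 : (W : ℝ) ^ (ew p.w * m) ≤ (R / a) ^ ew p.w := by
      rw [mul_comm, rpow_mul (by linarith), rpow_natCast]
      gcongr
      rw [le_div_iff₀ (by linarith)]
      have : (0 : ℝ) ≤ (W : ℝ) ^ m * a := by positivity
      push_cast at m1; linarith
    have f2 : (R / (8 * a : ℕ)) ^ ew p.w ≤ (R / a) ^ ew p.w := by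
      gcongr; linarith
    have f3 : (R / a) ^ ew p.w * (R / a) ^ ew p.w ≤ (R / a) ^ (3 * ew p.w) := by
      rw [← rpow_add (by linarith)]
      exact rpow_le_rpow_of_exponent_le u1 (by linarith)
    have f4 : (a : ℝ) ^ 2 * nu E.Λ p.w 0 (8 * a) (E.e 0) ≤ P * (R / a) ^ ew p.w := by
      have : 0 ≤ P * (R / a) ^ ew p.w := by positivity
      have := mul_le_mul_of_nonneg_left f2 P0
      push_cast at *; nlinarith
    calc _ ≤ (W : ℝ) ^ (ew p.w * m) * nu E.Λ p.w 0 (8 * a) (E.e 0) * (a : ℝ) ^ 2 := by gcongr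
      _ = (W : ℝ) ^ (ew p.w * m) * ((a : ℝ) ^ 2 * nu E.Λ p.w 0 (8 * a) (E.e 0)) := by ring
      _ ≤ (W : ℝ) ^ (ew p.w * m) * (P * (R / a) ^ ew p.w) := by gcongr
      _ ≤ (R / a) ^ ew p.w * (P * (R / a) ^ ew p.w) := by gcongr
      _ = P * ((R / a) ^ ew p.w * (R / a) ^ ew p.w) := by ring
      _ ≤ _ := by gcongr
  · have g := dc_num (u := R / (8 * a : ℕ)) (m := m) (by linarith : (1 : ℝ) ≤ W) t0 a3 hν e1
      (by rw [div_mul_eq_mul_div, one_le_div r0]; exact c4) (by rwa [div_mul_eq_mul_div])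
    rw [le_div_iff₀ (by positivity)]
    calc _ = 21 * (W : ℝ) ^ (-(11 / 5 : ℝ) * m) * (((8 * a : ℕ) : ℝ) ^ 2 * nu E.Λ p.w 0 (8 * a) (E.e 0)) *
          (R / (8 * a : ℕ)) ^ 2 := by field_simp
      _ ≤ 21 * (W : ℝ) ^ (-(11 / 5 : ℝ) * m) * (P * (R / (8 * a : ℕ)) ^ ew p.w) * (R / (8 * a : ℕ)) ^ 2 := by
          gcongr
      _ = P * (21 * (W : ℝ) ^ (-(11 / 5 : ℝ) * m) * (R / (8 * a : ℕ)) ^ ew p.w * (R / (8 * a : ℕ)) ^ 2) := by
          ring
      _ ≤ _ := by gcongr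

end Crest.Agent.T145.Ev
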