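import Crest.Agent.T145.FlBas_4
import Crest.Agent.T145.Soft_23

/-!
# Row 145, the odd flow: FAR (`Fl.farStmt`), the far part of the sum over the torus (helper57, task 345)
-/

set_option autoImplicit false

namespace Crest.Agent.T145.Fl

open Finset Pot Xi Real

namespace Far57

/-- summation over square shells -/
theorem shell (g : Pt → ℝ) (φ : ℕ → ℝ) (c : Pt) (b n : ℕ)
    (h : ∀ k, b ≤ k → k < n → ∀ z ∈ bl c (k + 1) \ bl c k, g z ≤ φ k) :
    ∑ z ∈ bl c n \ bl c b, g z ≤ ∑ k ∈ Ico b n, 8 * ((k : ℝ) + 1) * φ k := by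
  rcases le_total n b with hn | hn
  · rw [sdiff_eq_empty_iff_subset.2 (bl_mono c hn), Ico_eq_empty_of_le hn]; simp
  induction n, hn using Nat.le_induction with
  | base => simp
  | succ n hn ih =>
    have hs : bl c n ⊆ bl c (n + 1) := bl_mono c n.le_succ
    have h2 : (bl c (n + 1) \ bl c n).card = 8 * (n + 1) := by
      rw [card_sdiff_of_subset hs, card_bl, card_bl]
      exact Nat.sub_eq_of_eq_add (by ring)
    have h1 := sum_le_card_nsmul _ _ _ (h n hn n.lt_succ_self)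
    rw [h2, nsmul_eq_mul] at h1
    rw [← sdiff_union_sdiff_cancel hs (bl_mono c hn),
      sum_union (disjoint_of_subset_right sdiff_subset sdiff_disjoint), sum_Ico_succ_top hn]
    push_cast at h1
    linarith [ih fun k hk hk' => h k hk (by omega)]

theorem sum_lin (b n : ℕ) : ∑ k ∈ Ico b n, 8 * ((k : ℝ) + 1) ≤ (2 * n + 1) ^ 2 := by
  induction n with
  | zero => simp
  | succ n ih =>
    rcases le_or_gt b n with hn | hn
    · rw [sum_Ico_succ_top hn]; push_cast; nlinarith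
    · rw [Ico_eq_empty_of_le hn, sum_empty]; positivity

/-- `∑_{k > b} k^(-1-γ) ≤ b^(-γ) / γ` -/
theorem tele {γ a : ℝ} (hγ : 0 < γ) (ha : 0 ≤ a) {b : ℕ} (hb : 1 ≤ b) (n : ℕ) :
    ∑ k ∈ Ico b n, 8 * ((k : ℝ) + 1) * ((a / ((k : ℝ) + 1)) ^ γ / ((k : ℝ) + 1) ^ 2) ≤
      8 / γ * (a / b) ^ γ := by
  rcases le_total n b with hn | hn
  · rw [Ico_eq_empty_of_le hn, sum_empty]; positivity
  suffices h : ∑ k ∈ Ico b n, 8 * ((k : ℝ) + 1) * ((a / ((k : ℝ) + 1)) ^ γ / ((k : ℝ) + 1) ^ 2) ≤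
      8 / γ * ((a / b) ^ γ - (a / n) ^ γ) from
    h.trans (mul_le_mul_of_nonneg_left (sub_le_self _ (by positivity)) (by positivity))
  induction n, hn using Nat.le_induction with
  | base => simp
  | succ n hn ih =>
    rw [sum_Ico_succ_top hn]
    have h1 : (1 : ℝ) ≤ n := by exact_mod_cast hb.trans hn
    have h2 : 1 + γ / (n + 1) ≤ (((n : ℝ) + 1) / n) ^ γ := by
      rw [rpow_def_of_pos (by positivity)]
      refine le_trans ?_ (add_one_le_exp _)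
      have h3 := one_sub_inv_le_log_of_pos (show 0 < ((n : ℝ) + 1) / n by positivity)
      rw [inv_div, show 1 - (n : ℝ) / (n + 1) = 1 / (n + 1) by field_simp; ring] at h3
      rw [add_comm, div_eq_mul_one_div, mul_comm (log _)]
      gcongr
    have h4 : (a / n) ^ γ = (a / ((n : ℝ) + 1)) ^ γ * (((n : ℝ) + 1) / n) ^ γ := by
      rw [← mul_rpow (by positivity) (by positivity)]; congr 1; field_simp
    have h5 : 8 * ((n : ℝ) + 1) * ((a / ((n : ℝ) + 1)) ^ γ / ((n : ℝ) + 1) ^ 2) ≤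
        8 / γ * ((a / n) ^ γ - (a / ((n : ℝ) + 1)) ^ γ) :=
      calc _ = 8 / γ * ((a / ((n : ℝ) + 1)) ^ γ * (1 + γ / (n + 1)) - (a / ((n : ℝ) + 1)) ^ γ) := by
            field_simp; ring
        _ ≤ _ := by rw [h4]; gcongr
    push_cast
    linarith

theorem cw_pos {w : ℕ} (hw : 1 ≤ w) : 0 < cw w := by
  have h1 : (1 : ℝ) ≤ (w : ℝ) ^ 4 := one_le_pow₀ (by exact_mod_cast hw)
  exact div_pos (log_pos (by norm_num)) (log_pos (by linarith))

theorem cw_le {w : ℕ} (hw : 1 ≤ w) : cw w ≤ 1 := by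
  have h1 : (1 : ℝ) ≤ (w : ℝ) ^ 4 := one_le_pow₀ (by exact_mod_cast hw)
  exact div_le_one_of_le₀ (log_le_log (by norm_num) (by linarith)) (log_nonneg (by linarith))

theorem cw_nn (w : ℕ) : 0 ≤ cw w := by
  rcases Nat.eq_zero_or_pos w with rfl | hw
  · simp [cw]
  · exact (cw_pos hw).le

/-- exponent bookkeeping -/
theorem arith {c a ρ R m t : ℝ} (hc : 0 ≤ c) (hc1 : c ≤ 1) (ha : 0 < a) (hR : 0 < R) (hρ : a ≤ ρ)
    (ht : 1 ≤ t) (hm : 0 < m) (hmρ : m ≤ t * ρ) :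
    (a / ρ) ^ c * ((ρ / R) ^ (c / 100) / ρ ^ 2) ≤
      t ^ 3 * (a / R) ^ (c / 100) * ((a / m) ^ (c / 2) / m ^ 2) := by
  have h0 : 0 < ρ := ha.trans_le hρ
  have h1 : (ρ / R) ^ (c / 100) = (a / R) ^ (c / 100) * (a / ρ) ^ (-(c / 100)) := by
    rw [rpow_neg (by positivity), ← inv_rpow (by positivity), ← mul_rpow (by positivity) (by positivity)]
    congr 1; field_simp
  have h2 : (a / ρ) ^ c * (a / ρ) ^ (-(c / 100)) ≤ (a / ρ) ^ (c / 2) := by
    rw [← rpow_add (by positivity)]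
    exact rpow_le_rpow_of_exponent_ge (by positivity) ((div_le_one h0).2 hρ) (by linarith)
  have h3 : (a / ρ) ^ (c / 2) ≤ t * (a / m) ^ (c / 2) :=
    calc _ ≤ (t * (a / m)) ^ (c / 2) := by
          refine rpow_le_rpow (by positivity) ?_ (by linarith)
          rw [← mul_div_assoc, div_le_div_iff₀ h0 hm]
          nlinarith
      _ = t ^ (c / 2) * (a / m) ^ (c / 2) := mul_rpow (by positivity) (by positivity)
      _ ≤ _ := by
          gcongr
          exact (rpow_le_rpow_of_exponent_le ht (by linarith : c / 2 ≤ 1)).trans_eq (rpow_one t)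
  have h4 : (ρ ^ 2)⁻¹ ≤ t ^ 2 * (m ^ 2)⁻¹ := by
    rw [← div_eq_mul_inv, inv_eq_one_div, div_le_div_iff₀ (by positivity) (by positivity), one_mul,
      ← mul_pow]
    gcongr
  calc _ = (a / R) ^ (c / 100) * ((a / ρ) ^ c * (a / ρ) ^ (-(c / 100))) * (ρ ^ 2)⁻¹ := by
        rw [h1]; ring
    _ ≤ (a / R) ^ (c / 100) * (t * (a / m) ^ (c / 2)) * (t ^ 2 * (m ^ 2)⁻¹) := by
        have h5 := h2.trans h3
        gcongr
    _ = _ := by ring

variable {p : Par} {Λ : Lat} {ω : (Cfg Pt → ℝ) → ℝ} {L N : ℕ}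

/-- one far site -/
theorem point (hS : SemiStmt) (hP : ProdStmt) {C : ℝ}
    (hR : ∀ (m : Mdl Pt) (z : Pt) (r R : ℕ) (F : Cfg Pt → ℝ), p.r₀ ≤ r → r ≤ R → p.w * R ≤ L →
      Nc.Amb Λ m (bl z (p.w * R)) → Ins z r F →
      nu Λ p.w z R (fun s => F s - Ex (m.W 0) F) ≤ C * ((r : ℝ) / R) ^ cw p.w * nu Λ p.w z r F)
    (h : Env p Λ ω L N) {R Y : ℝ} (hM : Maj p Λ L R Y) {a ρ : ℕ} {G : Cfg Pt → ℝ} (h0 : p.r₀ ≤ a)
    (hRa : R ≤ a) (hG : Ins 0 a G) (hρ : a ≤ ρ) (h8 : 8 * (p.w * ρ) ≤ L) {z : Pt}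
    (hz : z ∈ bl 0 (N + N / 4)) (hz' : z ∉ bl 0 (2 * (p.w * ρ))) :
    |ω fun s => G s * Jz z s| ≤ 32 * (C * ((a : ℝ) / ρ) ^ cw p.w * nu Λ p.w 0 a G) *
      (Y * (ρ / R) ^ ew p.w / (ρ : ℝ) ^ 2) := by
  have hΛ := h.mem.ok
  have hw := h.w4
  have hrg := h.gd.2.1
  have hLN := h.le
  have ha : 1 ≤ a := by exact_mod_cast hM.1.trans hRa
  have h4 : 4 * ρ ≤ p.w * ρ := Nat.mul_le_mul_right ρ hw
  obtain ⟨m, hm, hω⟩ := h.amb (z.1 / 2, z.2 / 2)
  have hC := hm.ctr.cen hm.anch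
  have s0 : bl 0 (p.w * ρ) ⊆ bl (z.1 / 2, z.2 / 2) N := fun x hx' => by
    rw [mem_bl] at hz hx' ⊢
    simp only [Prod.fst_zero, Prod.snd_zero] at hz hx' ⊢
    omega
  have sz : bl z (p.w * ρ) ⊆ bl (z.1 / 2, z.2 / 2) N := fun x hx' => by
    rw [mem_bl] at hz hx' ⊢
    simp only [Prod.fst_zero, Prod.snd_zero] at hz hx' ⊢
    omega
  have hd : Disjoint (bl 0 (p.w * ρ)) (bl z (p.w * ρ)) := disjoint_left.2 fun x h1 h2 => hz' (by
    rw [mem_bl] at h1 h2 ⊢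
    simp only [Prod.fst_zero, Prod.snd_zero] at h1 h2 ⊢
    omega)
  have hJ : Ins z ρ (Jz z) := ins_Jz z (by omega)
  have hG' : Ins 0 ρ fun s => G s - Ex (m.W 0) G := (hG.mono hρ).sub_const _
  have e : ω (fun s => G s * Jz z s) = Ex (m.W 0) fun s =>
      (∏ _i ∈ (univ : Finset Unit), (G s - Ex (m.W 0) G)) * Jz z s * 1 := by
    rw [hω _ ((hG.1.mono ((bl_mono 0 (by omega)).trans s0)).mul
      (hJ.1.mono ((bl_mono z (by omega)).trans sz)))]
    simp only [univ_unique, prod_singleton, mul_one, sub_mul]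
    rw [Ex_sub (hC.ig (hG.2.mul hJ.2)) (hC.ig (hJ.2.const_mul _)), Ex_const_mul,
      hC.ex_odd (odd_Jz z), mul_zero, sub_zero]
  have h1 := (((hP p Λ L h.toGs m _ Unit univ (fun _ => 0) (fun _ => ρ)
    (fun _ s => G s - Ex (m.W 0) G) (fun _ => 1) hm
    ⟨by simp, fun _ _ => hG', fun _ _ => ⟨by omega, by omega⟩, fun _ _ => s0,
      fun _ _ _ _ hne => (hne rfl).elim⟩ (fun _ _ => Out.const _ _) fun _ => by simp).2 z ρ
    (by omega) (by omega) sz fun _ _ => hd).2.1 (Jz z) hJ (Out.const _ _))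
  rw [e]
  refine h1.trans ?_
  simp only [univ_unique, prod_singleton]
  have h2 := hR m 0 a ρ G h0 hρ (by omega)
    ⟨hm.ctr, hm.anch, s0.trans hm.sub, hm.near.mono s0⟩ hG
  have hρR : R ≤ ρ := hRa.trans (by exact_mod_cast hρ)
  have hR0 : 0 < R := by linarith [hM.1]
  have hρ0 : (0 : ℝ) < ρ := hR0.trans_le hρR
  have h3 : nu Λ p.w z ρ (Jz z) ≤ Y * (ρ / R) ^ ew p.w / (ρ : ℝ) ^ 2 := by
    have h5 := hM.2.2 ρ (by omega) (by omega)
    rw [max_eq_left (((div_le_one hρ0).2 hρR).trans ((one_le_div hR0).2 hρR))] at h5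
    rw [← trl_Jz, ((hS Λ p.w ρ z hΛ (by omega)).2 _ (ins_Jz 0 (by omega))).2.1,
      le_div_iff₀ (by positivity), mul_comm]
    exact h5
  have h6 := ((hS Λ p.w ρ z hΛ (by omega)).1 _ hJ).1
  have h7 := ((hS Λ p.w ρ 0 hΛ (by omega)).1 _ hG').1
  gcongr
  linarith

end Far57

open Far57 in
/-- FAR -/
theorem farStmt (hS : SemiStmt) (hP : ProdStmt) (hR : RateStmt) : FarStmt := by
  intro p
  obtain ⟨C, hC, hR⟩ := hR p.w
  have hc0 := cw_nn p.w
  refine ⟨32 * C * (16 * p.w) ^ 3 * (8 / (cw p.w / 2) + 16 * (p.K : ℝ) ^ 2), by positivity,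
    fun Λ ω L N h R Y hM a b G h0 hRa hb hL hG => ?_⟩
  have hw := h.w4
  have hcp := cw_pos (show 1 ≤ p.w by omega)
  have hc1 := cw_le (show 1 ≤ p.w by omega)
  have ha : 1 ≤ a := by exact_mod_cast hM.1.trans hRa
  have hR0 : 0 < R := by linarith [hM.1]
  have hY : 0 ≤ Y := le_trans (by positivity) hM.2.1
  have hwa : 4 * a ≤ p.w * a := Nat.mul_le_mul_right a hw
  have hb' : 16 * (p.w * a) ≤ b := by rw [← mul_assoc]; exact hb
  have hL' : 16 * (p.w * a) ≤ L := by rw [← mul_assoc]; exact hL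
  have hν := ((hS Λ p.w a 0 h.mem.ok (by have := h.gd.2.1; omega)).1 _ hG).1
  set A := 32 * C * (16 * p.w) ^ 3 * nu Λ p.w 0 a G * Y * (a / R) ^ ew p.w with hA
  have hA0 : 0 ≤ A := by positivity
  set γ := cw p.w / 2 with hγ
  have key : ∀ k, b ≤ k → k < N + N / 4 → ∀ z ∈ bl (0 : Pt) (k + 1) \ bl 0 k,
      |ω fun s => G s * Jz z s| ≤ A * (((a : ℝ) / ((k : ℝ) + 1)) ^ γ / ((k : ℝ) + 1) ^ 2 +
        ((a : ℝ) / L) ^ γ / (L : ℝ) ^ 2) := fun k hk hk' z hz => by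
    obtain ⟨hz1, hz2⟩ := mem_sdiff.1 hz
    set μ := min (k + 1) L with hμ
    have hμ1 : 16 * (p.w * a) ≤ μ := le_min (by omega) hL'
    set ρ := μ / (8 * p.w) with hρ
    have h1 : 8 * p.w * ρ ≤ μ := Nat.mul_div_le _ _
    have h2 : μ < 8 * p.w * (ρ + 1) := Nat.lt_mul_div_succ _ (by omega)
    have h3 : 2 * a ≤ ρ := (Nat.le_div_iff_mul_le (by omega)).2 (by nlinarith)
    have h1' : 8 * (p.w * ρ) ≤ μ := by rw [← mul_assoc]; exact h1
    have h4 : μ ≤ 16 * p.w * ρ := by nlinarith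
    have h5 := point hS hP (hR p Λ L rfl h.toGs) h hM h0 hRa hG (ρ := ρ) (by omega) (by omega)
      (bl_mono 0 (by omega) hz1) fun h6 => hz2 (bl_mono 0 (by omega) h6)
    have hμ0 : (0 : ℝ) < μ := by exact_mod_cast (show 0 < μ by omega)
    have h6 := arith (t := 16 * p.w) (m := μ) (ρ := ρ) (a := a) hc0 hc1 (by exact_mod_cast ha) hR0
      (by exact_mod_cast (show a ≤ ρ by omega)) (by exact_mod_cast (show 1 ≤ 16 * p.w by omega)) hμ0
      (by exact_mod_cast h4)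
    calc _ ≤ _ := h5
      _ = 32 * C * nu Λ p.w 0 a G * Y *
          (((a : ℝ) / ρ) ^ cw p.w * ((ρ / R) ^ (cw p.w / 100) / (ρ : ℝ) ^ 2)) := by rw [ew]; ring
      _ ≤ 32 * C * nu Λ p.w 0 a G * Y * ((16 * p.w) ^ 3 * (a / R) ^ (cw p.w / 100) *
          (((a : ℝ) / μ) ^ γ / (μ : ℝ) ^ 2)) := by gcongr
      _ = A * (((a : ℝ) / μ) ^ γ / (μ : ℝ) ^ 2) := by rw [hA, ew]; ring
      _ ≤ _ := by
          refine mul_le_mul_of_nonneg_left ?_ hA0
          rcases min_choice (k + 1) L with h7 | h7 <;> rw [hμ, h7]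
          · push_cast; exact le_add_of_nonneg_right (by positivity)
          · exact le_add_of_nonneg_left (by positivity)
  refine (shell _ _ 0 b _ key).trans ?_
  have hL0 : (0 : ℝ) < L := by exact_mod_cast (show 0 < L by omega)
  have h1 := tele (γ := γ) (a := a) (by positivity) (by positivity) (show 1 ≤ b by omega) (N + N / 4)
  have h2 : ∑ k ∈ Ico b (N + N / 4), 8 * ((k : ℝ) + 1) ≤ 16 * (p.K : ℝ) ^ 2 * (L : ℝ) ^ 2 := by
    refine (sum_lin _ _).trans ?_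
    have h3 : 2 * (N + N / 4) + 1 ≤ 4 * (p.K * L) := by have := h.leK; have := h.le; omega
    have h4 : (2 * ((N + N / 4 : ℕ) : ℝ) + 1) ≤ 4 * (p.K * L) := by exact_mod_cast h3
    exact (pow_le_pow_left₀ (by positivity) h4 2).trans_eq (by ring)
  calc _ = A * (∑ k ∈ Ico b (N + N / 4), 8 * ((k : ℝ) + 1) *
          (((a : ℝ) / ((k : ℝ) + 1)) ^ γ / ((k : ℝ) + 1) ^ 2) +
        (∑ k ∈ Ico b (N + N / 4), 8 * ((k : ℝ) + 1)) * (((a : ℝ) / L) ^ γ / (L : ℝ) ^ 2)) := by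
        rw [sum_mul, ← sum_add_distrib, mul_sum]
        exact sum_congr rfl fun _ _ => by ring
    _ ≤ A * (8 / γ * ((a : ℝ) / b) ^ γ +
        16 * (p.K : ℝ) ^ 2 * (L : ℝ) ^ 2 * (((a : ℝ) / L) ^ γ / (L : ℝ) ^ 2)) := by gcongr
    _ = A * (8 / γ * ((a : ℝ) / b) ^ γ + 16 * (p.K : ℝ) ^ 2 * ((a : ℝ) / L) ^ γ) := by
        congr 2; field_simp
    _ ≤ A * ((8 / γ + 16 * (p.K : ℝ) ^ 2) * ((a : ℝ) / b) ^ γ +
        (8 / γ + 16 * (p.K : ℝ) ^ 2) * ((a : ℝ) / L) ^ γ) := by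
        gcongr
        · exact le_add_of_nonneg_right (by positivity)
        · exact le_add_of_nonneg_left (by positivity)
    _ = _ := by rw [hA]; ring

end Crest.Agent.T145.Fl
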