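import Crest.Agent.T145.FlDef_82
import Crest.Agent.T145.OmB_11

/-!
# Row 145 (helper14): `Fl.KbStmt`
-/

set_option autoImplicit false

namespace Crest.Agent.T145.Fl

open Finset Pot Xi Real

namespace Kb14

theorem ew_pos {w : ℕ} (hw : 1 ≤ w) : 0 < ew w := by
  have h1 : (1 : ℝ) ≤ (w : ℝ) ^ 4 := one_le_pow₀ (by exact_mod_cast hw)
  exact div_pos (div_pos (log_pos one_lt_two) (log_pos (by linarith))) (by norm_num)

theorem ew_le {w : ℕ} (hw : 1 ≤ w) : 2 * ew w ≤ 1 := by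
  have h1 : (1 : ℝ) ≤ (w : ℝ) ^ 4 := one_le_pow₀ (by exact_mod_cast hw)
  have : cw w ≤ 1 := (div_le_one (log_pos (by linarith))).2 (log_le_log two_pos (by linarith))
  rw [ew]; linarith

/-- sums over square shells -/
theorem sum_sh (z : Pt) (f : Pt → ℝ) (G : ℕ → ℝ) (k : ℕ)
    (h : ∀ j, k ≤ j → ∀ x ∈ bl z (j + 1), x ∉ bl z j → 8 * ((j : ℝ) + 1) * f x ≤ G (j + 1) - G j)
    (n : ℕ) (hn : k ≤ n) : ∑ x ∈ bl z n \ bl z k, f x ≤ G n - G k := by
  induction n, hn using Nat.le_induction with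
  | base => simp
  | succ n hn ih =>
    have h1 := bl_mono z (Nat.le_succ n)
    have h2 := bl_mono z hn
    have h3 : ((bl z (n + 1) \ bl z n).card : ℝ) = 8 * ((n : ℝ) + 1) := by
      rw [card_sdiff_of_subset h1, Nat.cast_sub (card_le_card h1), card_bl, card_bl]
      push_cast; ring
    have h4 := sum_le_card_nsmul (bl z (n + 1) \ bl z n) f ((G (n + 1) - G n) / (8 * ((n : ℝ) + 1)))
      fun x hx => by
        rw [le_div_iff₀' (by positivity)]; exact h n hn x (mem_sdiff.1 hx).1 (mem_sdiff.1 hx).2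
    rw [nsmul_eq_mul, h3, mul_div_cancel₀ _ (by positivity)] at h4
    rw [sum_sdiff_eq_sub (h2.trans h1)]
    rw [sum_sdiff_eq_sub h2] at ih
    rw [sum_sdiff_eq_sub h1] at h4
    linarith

theorem bern {ε t : ℝ} (h0 : 0 ≤ ε) (h1 : ε ≤ 1) (ht : 0 ≤ t) :
    t ^ ε ≤ (t + 1) ^ ε * (1 - ε / (t + 1)) := by
  have h2 : 0 < t + 1 := by linarith
  have h3 := rpow_one_add_le_one_add_mul_self (s := -(t + 1)⁻¹)
    (neg_le_neg (inv_le_one_of_one_le₀ (by linarith))) h0 h1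
  have h4 : t = (t + 1) * (1 + -(t + 1)⁻¹) := by field_simp; ring
  conv_lhs => rw [h4, mul_rpow h2.le (by
    rw [← sub_eq_add_neg, sub_nonneg]; exact inv_le_one_of_one_le₀ (by linarith))]
  exact mul_le_mul_of_nonneg_left (h3.trans_eq (by ring)) (by positivity)

theorem sum_up (z : Pt) {ε : ℝ} (h0 : 0 < ε) (h1 : ε ≤ 1) {k n : ℕ} (hn : k ≤ n) :
    ∑ x ∈ bl z n \ bl z k, eu (x - z) ^ ε / eu (x - z) ^ 2 ≤ 8 / ε * (n : ℝ) ^ ε := by
  refine (sum_sh z _ (fun j => 8 / ε * (j : ℝ) ^ ε) k (fun j _ x _ hx => ?_) n hn).trans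
    (sub_le_self _ (by positivity))
  have h2 := le_eu_of_not_bl hx
  have h3 : (0 : ℝ) < j + 1 := by positivity
  have h4 : eu (x - z) ^ ε / eu (x - z) ^ 2 ≤ ((j : ℝ) + 1) ^ ε / ((j : ℝ) + 1) ^ 2 := by
    rw [← rpow_two, ← rpow_two, ← rpow_sub h3, ← rpow_sub (h3.trans_le h2)]
    exact rpow_le_rpow_of_nonpos h3 h2 (by linarith)
  have h5 := bern h0.le h1 (Nat.cast_nonneg j)
  push_cast
  calc _ ≤ 8 * ((j : ℝ) + 1) * (((j : ℝ) + 1) ^ ε / ((j : ℝ) + 1) ^ 2) := by gcongr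
    _ = 8 / ε * (((j : ℝ) + 1) ^ ε - ((j : ℝ) + 1) ^ ε * (1 - ε / (j + 1))) := by field_simp; ring
    _ ≤ _ := by rw [← mul_sub]; gcongr

theorem sum_dn (z : Pt) {ε : ℝ} (h0 : 0 < ε) (h1 : ε ≤ 1) {k n : ℕ} (hk : 1 ≤ k) (hn : k ≤ n) :
    ∑ x ∈ bl z n \ bl z k, (eu (x - z) ^ ε)⁻¹ / eu (x - z) ^ 2 ≤ 8 / ε * ((k : ℝ) ^ ε)⁻¹ := by
  refine (sum_sh z _ (fun j => -(8 / ε * ((j : ℝ) ^ ε)⁻¹)) k (fun j hj x _ hx => ?_) n hn).trans
    (by rw [neg_sub_neg]; exact sub_le_self _ (by positivity))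
  have h2 := le_eu_of_not_bl hx
  have hj : (1 : ℝ) ≤ j := by exact_mod_cast hk.trans hj
  have h3 : (0 : ℝ) < j + 1 := by positivity
  have h5 := bern h0.le h1 (Nat.cast_nonneg j)
  have h6 : 0 < ((j : ℝ) + 1) ^ ε := by positivity
  have h7 : 0 < (j : ℝ) ^ ε := by positivity
  have h8 : (((j : ℝ) + 1) ^ ε)⁻¹ * (1 + ε / (j + 1)) ≤ ((j : ℝ) ^ ε)⁻¹ := by
    rw [inv_mul_le_iff₀ h6, le_mul_inv_iff₀ h7]
    have : 0 ≤ ε / (j + 1) := by positivity
    nlinarith [mul_le_mul_of_nonneg_left h5 (show 0 ≤ 1 + ε / (j + 1) by positivity),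
      mul_nonneg h6.le (mul_self_nonneg (ε / (j + 1)))]
  push_cast
  calc _ ≤ 8 * ((j : ℝ) + 1) * ((((j : ℝ) + 1) ^ ε)⁻¹ / ((j : ℝ) + 1) ^ 2) := by gcongr
    _ = 8 / ε * ((((j : ℝ) + 1) ^ ε)⁻¹ * (1 + ε / (j + 1)) - (((j : ℝ) + 1) ^ ε)⁻¹) := by
        field_simp; ring
    _ ≤ 8 / ε * (((j : ℝ) ^ ε)⁻¹ - (((j : ℝ) + 1) ^ ε)⁻¹) := by gcongr
    _ = _ := by ring

variable {p : Par} {Λ : Lat} {ω : (Cfg Pt → ℝ) → ℝ} {L N : ℕ}

theorem ok (h : Gs p Λ L) : Λ.Ok := ⟨h.mem.1 ▸ p.F.adm, p.F.pos.trans_le h.mem.2.2.1⟩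

theorem two_le_r0 (h : Gs p Λ L) : 2 ≤ p.r₀ := by
  have := (ok h).one_le_rg; have := h.gd.2.1; omega

theorem depJJ {c z x : Pt} (hz : bl z 1 ⊆ bl c N) (hx : bl x 1 ⊆ bl c N) :
    DepG (bl c N) fun s => Jz z s * Jz x s := ((Om.depG_Jz z).mono hz).mul ((Om.depG_Jz x).mono hx)

/-- the crude bound -/
theorem kk_crude (hB : BareStmt) (F : Fa) : ∃ C : ℝ, 0 ≤ C ∧ ∀ (p : Par) Λ ω L N, p.F = F →
    Env p Λ ω L N → ∀ x ∈ bl 0 (N - 1), |KK ω x| ≤ C := by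
  obtain ⟨C, hC, h⟩ := hB F
  refine ⟨C * 4, by positivity, fun p Λ ω L N hp hE x hx => ?_⟩
  have hN : N - 1 + 1 = N := by
    have := hE.big; have := hE.le; have := two_le_r0 hE.toGs; have := hE.w4
    have : 0 < 100 * p.w * p.r₀ := by positivity
    omega
  obtain ⟨m, hm, hω⟩ := hE.amb 0
  have hc := hm.ctr.cen hm.anch
  have key : ∀ y ∈ bl 0 (N - 1), Ex (m.W 0) (fun s => Jz y s ^ 2) ≤ C * 4 := fun y hy => by
    have := ((h Λ (hp ▸ hE.mem) 0 (N - 1) (dl y) (sup_dl hy)).2.1 m (by rwa [hN])).1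
    simp only [← Jz_eq_pr] at this
    refine this.trans_eq ?_
    rw [E0, show ∑ x ∈ bl 0 (N - 1), dl y x * A0 (dl y) x = _ from ip_dl hy _]
    simp [A0, Prod.ext_iff]
  rw [KK, hω _ (depJJ (bl_mono 0 (by omega)) (bl_one_sub hN.le x hx))]
  refine (abs_Ex_mul_le hc.nonneg (hc.ig ((Om.tame_Jz 0).pow 2)) (hc.ig ((Om.tame_Jz x).pow 2))).trans ?_
  rw [← mul_self_sqrt (show 0 ≤ C * 4 by positivity)]
  exact mul_le_mul (sqrt_le_sqrt (key 0 (self_mem_bl _ _))) (sqrt_le_sqrt (key x hx))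
    (sqrt_nonneg _) (sqrt_nonneg _)

/-- two far currents -/
theorem kk_far (hS : SemiStmt) (hP : ProdStmt) (hE : Env p Λ ω L N) {x : Pt} {d a : ℕ}
    (hx : x ∈ bl 0 d) (hx' : x ∉ bl 0 (2 * (p.w * a))) (hd : d ≤ L) (ha : p.r₀ ≤ a)
    (had : 2 * (p.w * a) < d) : |KK ω x| ≤ 16 * nu Λ p.w 0 a (Jz 0) ^ 2 := by
  have h2 := two_le_r0 hE.toGs
  have h4 := hE.w4
  have h5 := hE.le
  have h6 : 4 * a ≤ p.w * a := Nat.mul_le_mul_right a h4
  have h7 := hE.gd.2.1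
  obtain ⟨m, hm, hω⟩ := hE.amb (x.1 / 2, x.2 / 2)
  have s0 : bl 0 (p.w * a) ⊆ bl (x.1 / 2, x.2 / 2) N := fun y hy => by
    simp only [mem_bl, Prod.fst_zero, Prod.snd_zero] at hx hy ⊢; omega
  have s1 : bl x (p.w * a) ⊆ bl (x.1 / 2, x.2 / 2) N := fun y hy => by
    simp only [mem_bl, Prod.fst_zero, Prod.snd_zero] at hx hy ⊢; omega
  have hd : Disjoint (bl 0 (p.w * a)) (bl x (p.w * a)) := disjoint_left.2 fun y hy hy' => hx' (by
    simp only [mem_bl, Prod.fst_zero, Prod.snd_zero] at hy hy' ⊢; omega)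
  have := (hP p Λ L hE.toGs m _ Bool univ (fun i => cond i 0 x) (fun _ => a) (fun i => Jz (cond i 0 x))
    (fun _ => 1) hm ⟨by simp, fun i _ => Om.ins_Jz _ (by omega), fun _ _ => ⟨ha, by omega⟩,
      fun i _ => by cases i; exacts [s1, s0],
      fun i _ j _ hij => by
        cases i <;> cases j
        exacts [absurd rfl hij, hd.symm, hd, absurd rfl hij]⟩ (fun _ _ _ _ _ => rfl) (by simp)).1
  have e := ((hS Λ p.w a x (ok hE.toGs) (by omega)).2 (Jz 0) (Om.ins_Jz _ (by omega))).2.1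
  rw [Om.trl_Jz, zero_add] at e
  simp only [Fintype.prod_bool, cond_true, cond_false, mul_one, e] at this
  rwa [KK, hω _ (depJJ ((bl_mono 0 (by omega)).trans s0) ((bl_mono x (by omega)).trans s1)), pow_two]

theorem kk_sym (hE : Env p Λ ω L N) {x : Pt} (hx : x ∈ bl 0 (N - 1)) :
    KK ω x.swap = KK ω x ∧ KK ω (-x.2, x.1) = KK ω x := by
  have hN : N - 1 + 1 ≤ N := by
    have := hE.big; have := hE.le; have := two_le_r0 hE.toGs; have := hE.w4
    have : 0 < 100 * p.w * p.r₀ := by positivity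
    omega
  have h1 : ∀ y ∈ bl 0 (N - 1), DepG (bl 0 N) fun s => Jz 0 s * Jz y s := fun y hy =>
    depJJ (bl_mono 0 (by omega)) (bl_one_sub hN y hy)
  constructor
  · rw [KK, ← (hE.d4 _ (h1 _ (by simp only [mem_bl] at hx ⊢; simpa [and_comm] using hx))).2, KK]
    congr 1; funext s
    have a := Om.Jz_swp 0 0 s
    have b := Om.Jz_swp 0 x s
    rw [show swpZ 0 0 = 0 by ext <;> simp [swpZ]] at a
    rw [show swpZ 0 x = x.swap by ext <;> simp [swpZ]] at b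
    rw [a, b]
  · rw [KK, ← (hE.d4 _ (h1 _ (by
      simp only [mem_bl, Prod.fst_zero, Prod.snd_zero] at hx ⊢; omega))).1, KK]
    congr 1; funext s
    have a := Om.Jz_rot 0 0 s
    have b := Om.Jz_rot 0 x s
    rw [show rotZ 0 0 = 0 by ext <;> simp [rotZ]] at a
    rw [show rotZ 0 x = (-x.2, x.1) by ext <;> simp [rotZ]] at b
    rw [a, b]

theorem part1 (hS : SemiStmt) (hP : ProdStmt) (hB : BareStmt) (p : Par) : ∃ C : ℝ, 0 ≤ C ∧
    ∀ Λ ω L N, Env p Λ ω L N → ∀ R Y, Maj p Λ L R Y → ∀ x ∈ bl 0 L, x ≠ 0 →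
      |KK ω x| * eu x ^ 4 ≤ C * Y ^ 2 * max (eu x / R) (R / eu x) ^ (2 * ew p.w) := by
  obtain ⟨C, hC, h⟩ := kk_crude hB p.F
  obtain ⟨κ, hκ⟩ : ∃ κ : ℝ, κ = 4 * (2 * p.w + 1) := ⟨_, rfl⟩
  obtain ⟨D, hD⟩ : ∃ D : ℝ, D = 2 * ((2 * p.w + 1) * p.r₀) := ⟨_, rfl⟩
  have hκ1 : 1 ≤ κ := by rw [hκ]; have : (0 : ℝ) ≤ p.w := Nat.cast_nonneg _; linarith
  have hD0 : 0 ≤ D := by rw [hD]; positivity
  refine ⟨16 * κ ^ 5 + C * D ^ 5, by positivity, fun Λ ω L N hE R Y hY x hx hx0 => ?_⟩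
  have h2 := two_le_r0 hE.toGs
  have h4 := hE.w4
  have e0 := (ew_pos (w := p.w) (by omega)).le
  have e1 := ew_le (w := p.w) (by omega)
  have hR : 0 < R := one_pos.trans_le hY.1
  have hY0 : 0 < Y := (rpow_pos_of_pos hR _).trans_le hY.2.1
  have hx1 := one_le_eu hx0
  obtain ⟨d, hd, hd'⟩ : ∃ d : ℕ, x ∈ bl 0 d ∧ ∀ k, k < d → x ∉ bl 0 k :=
    ⟨max x.1.natAbs x.2.natAbs, by simp only [mem_bl, Prod.fst_zero, Prod.snd_zero]; omega,
      fun k hk => by simp only [mem_bl, Prod.fst_zero, Prod.snd_zero]; omega⟩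
  have hdL : d ≤ L := by by_contra h'; exact hd' L (by omega) hx
  have hxd : eu x ≤ 2 * d := by simpa using eu_le_of_bl hd
  set M := max (eu x / R) (R / eu x)
  have hM0 : 0 < M := lt_max_of_lt_left (by positivity)
  have hT : 0 ≤ Y ^ 2 * M ^ (2 * ew p.w) := by positivity
  set a := d / (2 * p.w + 1)
  have ha1 : (2 * p.w + 1) * a ≤ d := Nat.mul_div_le _ _
  have ha2 : d < (2 * p.w + 1) * (a + 1) := Nat.lt_mul_div_succ _ (by omega)
  by_cases ha : p.r₀ ≤ a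
  · have ha3 : 2 * (p.w * a) < d := by nlinarith
    have k1 := kk_far hS hP hE hd (hd' _ ha3) hdL ha ha3
    have k2 := hY.2.2 a ha (by omega)
    have k3 := ((hS Λ p.w a 0 (ok hE.toGs) (by have := hE.gd.2.1; nlinarith)).1 (Jz 0)
      (Om.ins_Jz _ (by omega))).1
    have ha0 : (1 : ℝ) ≤ a := by exact_mod_cast (by omega : 1 ≤ a)
    have k4 : eu x ≤ κ * a := by
      have : (d : ℝ) ≤ (2 * p.w + 1) * (a + 1) := by exact_mod_cast ha2.le
      have : (0 : ℝ) ≤ p.w := Nat.cast_nonneg _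
      rw [hκ]; nlinarith
    have k5 : (a : ℝ) ≤ eu x := by
      have := le_eu_of_not_bl (hd' a (by nlinarith))
      rw [sub_zero] at this; linarith
    have k6 : max (a / R) (R / a) ≤ κ * M := max_le
      ((show a / R ≤ eu x / R by gcongr).trans ((le_max_left _ _).trans
        (le_mul_of_one_le_left hM0.le hκ1)))
      ((show R / a ≤ κ * (R / eu x) by
        rw [← mul_div_assoc, div_le_div_iff₀ (by positivity) (by positivity)]; nlinarith).trans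
        (mul_le_mul_of_nonneg_left (le_max_right _ _) (by positivity)))
    have k7 : (max (a / R) (R / a) ^ ew p.w) ^ 2 ≤ κ * M ^ (2 * ew p.w) := by
      have : 0 ≤ max (a / R) (R / a) := le_max_of_le_left (by positivity)
      rw [← rpow_two, ← rpow_mul this, mul_comm (ew p.w)]
      refine (rpow_le_rpow this k6 (by linarith)).trans ?_
      rw [mul_rpow (by positivity) hM0.le]
      exact mul_le_mul_of_nonneg_right ((rpow_le_rpow_of_exponent_le hκ1 e1).trans_eq (rpow_one _))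
        (by positivity)
    calc _ ≤ 16 * nu Λ p.w 0 a (Jz 0) ^ 2 * (κ * a) ^ 4 := by gcongr
      _ = 16 * κ ^ 4 * ((a : ℝ) ^ 2 * nu Λ p.w 0 a (Jz 0)) ^ 2 := by ring
      _ ≤ 16 * κ ^ 4 * (Y * max (a / R) (R / a) ^ ew p.w) ^ 2 := by gcongr
      _ ≤ 16 * κ ^ 4 * (Y ^ 2 * (κ * M ^ (2 * ew p.w))) := by rw [mul_pow Y]; gcongr
      _ = 16 * κ ^ 5 * (Y ^ 2 * M ^ (2 * ew p.w)) := by ring
      _ ≤ _ := by rw [mul_assoc (_ + _)]; gcongr; exact le_add_of_nonneg_right (by positivity)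
  · have k1 : d ≤ (2 * p.w + 1) * p.r₀ := ha2.le.trans (Nat.mul_le_mul_left _ (by omega))
    have k2 := h p Λ ω L N rfl hE x (bl_mono 0 (by have := hE.big; have := hE.le; nlinarith [Nat.sub_add_cancel (show 1 ≤ N by nlinarith)]) hd)
    have k3 : eu x ≤ D := by
      have : (d : ℝ) ≤ (2 * p.w + 1) * p.r₀ := by exact_mod_cast k1
      rw [hD]; linarith
    have k4 : 1 ≤ D * (Y ^ 2 * M ^ (2 * ew p.w)) := by
      have a1 : R ^ (-(2 * ew p.w)) ≤ Y ^ 2 := by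
        rw [show -(2 * ew p.w) = -ew p.w * 2 by ring, rpow_mul hR.le, rpow_two]
        exact pow_le_pow_left₀ (by positivity) hY.2.1 2
      have a2 : (R / eu x) ^ (2 * ew p.w) ≤ M ^ (2 * ew p.w) :=
        rpow_le_rpow (by positivity) (le_max_right _ _) (by linarith)
      have a3 : eu x ^ (2 * ew p.w) ≤ D :=
        ((rpow_le_rpow_of_exponent_le hx1 e1).trans_eq (rpow_one _)).trans k3
      calc (1 : ℝ) = eu x ^ (2 * ew p.w) * (R ^ (-(2 * ew p.w)) * (R / eu x) ^ (2 * ew p.w)) := by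
            rw [div_rpow hR.le (by positivity), rpow_neg hR.le]; field_simp
        _ ≤ _ := by gcongr
    calc _ ≤ C * D ^ 4 * 1 := by rw [mul_one]; gcongr
      _ ≤ C * D ^ 4 * (D * (Y ^ 2 * M ^ (2 * ew p.w))) := by gcongr
      _ = C * D ^ 5 * (Y ^ 2 * M ^ (2 * ew p.w)) := by ring
      _ ≤ _ := by rw [mul_assoc (_ + _)]; gcongr; exact le_add_of_nonneg_left (by positivity)

/-- the shell sum of the profile -/
theorem sum_max {ε R M : ℝ} (h0 : 0 < ε) (h1 : ε ≤ 1) (hR : 0 < R) (hM : 1 ≤ M) {k n : ℕ} (hk : 1 ≤ k)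
    (hn : k ≤ n) (h2 : R ≤ 2 * M * k) (h3 : (n : ℝ) ≤ 3 * M * R) :
    ∑ x ∈ bl 0 n \ bl 0 k, max (eu x / R) (R / eu x) ^ ε / eu x ^ 2 ≤ 40 / ε * M ^ ε := by
  have a1 := sum_up 0 h0 h1 hn
  have a2 := sum_dn 0 h0 h1 hk hn
  simp only [sub_zero] at a1 a2
  have hk0 : (0 : ℝ) < k := by exact_mod_cast hk
  have key : ∀ c t : ℝ, 1 ≤ c → 0 ≤ t → t ≤ c * M → t ^ ε ≤ c * M ^ ε := fun c t hc ht h => by
    refine (rpow_le_rpow ht h h0.le).trans ?_
    rw [mul_rpow (by linarith) (by linarith)]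
    exact mul_le_mul_of_nonneg_right ((rpow_le_rpow_of_exponent_le hc h1).trans_eq (rpow_one _))
      (by positivity)
  have b1 := key 3 (n / R) (by norm_num) (by positivity) ((div_le_iff₀ hR).2 h3)
  have b2 := key 2 (R / k) (by norm_num) (by positivity) ((div_le_iff₀ hk0).2 h2)
  rw [div_rpow (by positivity) (by positivity)] at b1 b2
  calc _ ≤ ∑ x ∈ bl 0 n \ bl 0 k, ((R ^ ε)⁻¹ * (eu x ^ ε / eu x ^ 2) +
        R ^ ε * ((eu x ^ ε)⁻¹ / eu x ^ 2)) := sum_le_sum fun x _ => by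
          have := eu_nonneg x
          rw [← mul_div_assoc, ← mul_div_assoc, ← add_div, ← div_eq_inv_mul, ← div_eq_mul_inv,
            ← div_rpow this hR.le, ← div_rpow hR.le this]
          refine div_le_div_of_nonneg_right ?_ (sq_nonneg _)
          rcases max_choice (eu x / R) (R / eu x) with h | h <;> rw [h]
          · exact le_add_of_nonneg_right (by positivity)
          · exact le_add_of_nonneg_left (by positivity)
    _ ≤ (R ^ ε)⁻¹ * (8 / ε * (n : ℝ) ^ ε) + R ^ ε * (8 / ε * ((k : ℝ) ^ ε)⁻¹) := by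
          rw [sum_add_distrib, ← mul_sum, ← mul_sum]; gcongr
    _ = 8 / ε * ((n : ℝ) ^ ε / R ^ ε + R ^ ε / (k : ℝ) ^ ε) := by ring
    _ ≤ 8 / ε * (3 * M ^ ε + 2 * M ^ ε) := by gcongr
    _ = _ := by ring

theorem gk_sub (ω : (Cfg Pt → ℝ) → ℝ) {a b : ℝ} (ha : 0 < a) (hab : a ≤ b) :
    |gk ω b - gk ω a| ≤ 1 / 4 * ∑ x ∈ bl 0 ⌈2 * b⌉₊ \ bl 0 ⌊a⌋₊, |KK ω x| * eu x ^ 2 := by
  have h1 : bl (0 : Pt) ⌊a⌋₊ ⊆ bl 0 ⌈2 * b⌉₊ := bl_mono 0 (by
    have := (Nat.floor_le ha.le).trans ((show a ≤ 2 * b by linarith).trans (Nat.le_ceil _))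
    exact_mod_cast this)
  rw [gk, gk, sum_subset (bl_mono 0 (Nat.ceil_mono (show 2 * a ≤ 2 * b by linarith))) fun x _ hx => by
    rw [sup_chi ha ((Nat.le_ceil _).trans (by linarith)) x hx, mul_zero], ← mul_sub,
    ← sum_sub_distrib, ← sum_sdiff h1, sum_eq_zero (s := bl 0 ⌊a⌋₊) fun x hx => by
      rw [chi_one ha (Nat.floor_le ha.le) hx, chi_one (ha.trans_le hab)
        ((Nat.floor_le ha.le).trans hab) hx, sub_self], add_zero, abs_mul, abs_neg,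
    abs_of_pos (by norm_num : (0 : ℝ) < 1 / 4)]
  refine mul_le_mul_of_nonneg_left ((abs_sum_le_sum_abs _ _).trans (sum_le_sum fun x _ => ?_))
    (by norm_num)
  rw [← mul_sub, abs_mul, abs_mul, abs_sq]
  exact mul_le_of_le_one_right (by positivity) (abs_le.2
    ⟨by linarith [chi_nonneg b x, chi_le_one a x], by linarith [chi_nonneg a x, chi_le_one b x]⟩)

end Kb14

open Kb14 in
theorem kbStmt (hS : SemiStmt) (hP : ProdStmt) (hB : BareStmt) : KbStmt := by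
  intro p
  obtain ⟨C, hC, h⟩ := part1 hS hP hB p
  have hq : 0 ≤ 10 / |2 * ew p.w| := by positivity
  refine ⟨C * (1 + 10 / |2 * ew p.w|), by positivity, fun Λ ω L N hE R Y hY =>
    ⟨fun x hx hx0 => (h Λ ω L N hE R Y hY x hx hx0).trans ?_, fun x hx => ⟨(kk_sym hE hx).1, ?_⟩,
      fun a b M hM ha hab h1 h2 h3 => ?_⟩⟩
  · have hR : 0 < R := one_pos.trans_le hY.1
    have : 0 ≤ max (eu x / R) (R / eu x) := le_max_of_le_left (div_nonneg (eu_nonneg x) hR.le)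
    gcongr
    exact le_mul_of_one_le_right hC (by linarith)
  · rw [← (kk_sym hE hx).1]
    exact (kk_sym hE (x := x.swap) (by simp only [mem_bl] at hx ⊢; simpa [and_comm] using hx)).2
  · have h4 := hE.w4
    have e0 : 0 < 2 * ew p.w := mul_pos two_pos (ew_pos (by omega))
    have hR : 0 < R := one_pos.trans_le hY.1
    have hk : 1 ≤ ⌊a⌋₊ := Nat.le_floor (by exact_mod_cast ha)
    have hk' : (1 : ℝ) ≤ ⌊a⌋₊ := by exact_mod_cast hk
    have hn := (Nat.ceil_lt_add_one (show 0 ≤ 2 * b by linarith)).le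
    have h5 := sum_max e0 (ew_le (by omega)) hR hM hk (n := ⌈2 * b⌉₊) (by
        have := (Nat.floor_le (by linarith : 0 ≤ a)).trans
          ((show a ≤ 2 * b by linarith).trans (Nat.le_ceil _))
        exact_mod_cast this)
      (by
        rw [div_le_iff₀ (by linarith)] at h1
        nlinarith [Nat.lt_floor_add_one a]) (by linarith)
    refine (gk_sub ω (by linarith) hab).trans ?_
    calc _ ≤ 1 / 4 * ∑ x ∈ bl 0 ⌈2 * b⌉₊ \ bl 0 ⌊a⌋₊,
          C * Y ^ 2 * (max (eu x / R) (R / eu x) ^ (2 * ew p.w) / eu x ^ 2) := by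
          refine mul_le_mul_of_nonneg_left (sum_le_sum fun x hx => ?_) (by norm_num)
          have hx0 : x ≠ 0 := by rintro rfl; exact (mem_sdiff.1 hx).2 (self_mem_bl _ _)
          have := one_le_eu hx0
          rw [← mul_div_assoc, le_div_iff₀ (by positivity), mul_assoc, ← pow_add]
          exact h Λ ω L N hE R Y hY x
            (bl_mono 0 (Nat.ceil_le.2 (by linarith)) (mem_sdiff.1 hx).1) hx0
      _ ≤ 1 / 4 * (C * Y ^ 2 * (40 / (2 * ew p.w) * M ^ (2 * ew p.w))) := by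
          rw [← mul_sum]; gcongr
      _ = C * (10 / |2 * ew p.w|) * Y ^ 2 * M ^ (2 * ew p.w) := by rw [abs_of_pos e0]; ring
      _ ≤ _ := by gcongr; linarith

end Crest.Agent.T145.Fl
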