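import Crest.Agent.T145.FlEnv_30
import Crest.Agent.T145.FlFar_57
import Crest.Agent.T145.FlA_51
import Crest.Agent.T145.FlRate_98
import Crest.Agent.T145.FlKb_14

/-!
# Row 145, even sector: the torus sum against a centred source (helper4)
-/

set_option autoImplicit false

namespace Crest.Agent.T145.Ev

open Finset Real Fl Pot

namespace S4

variable {p : Par} {Λ : Lat} {ω : (Cfg Pt → ℝ) → ℝ} {L N : ℕ} {E G : Cfg Pt → ℝ} {R A : ℝ}

theorem nu_trl (h : Gs p Λ L) {r : ℕ} (h0 : p.r₀ ≤ r) (hE : Ins 0 r E) (z : Pt) :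
    nu Λ p.w z r (trl z E) = nu Λ p.w 0 r E :=
  ((semiStmt Λ p.w r z h.mem.ok (by have := h.gd.2.1; have := A51.four_le h r; omega)).2 _ hE).2.1

theorem prof_le {a₀ a : ℕ} {z : Pt} (h : Prof Λ p.w a₀ L z E R A) (h0 : a₀ ≤ a) (ha : 1 ≤ a)
    (hL : p.w * a ≤ L) : nu Λ p.w z a E ≤ A * max (a / R) (R / a) ^ ew p.w / (a : ℝ) ^ 2 := by
  have : (0 : ℝ) < a := by exact_mod_cast ha
  rw [le_div_iff₀ (by positivity), mul_comm]
  exact h a h0 hL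

/-- one far site -/
theorem point {C : ℝ}
    (hR : ∀ (m : Mdl Pt) (z : Pt) (r R : ℕ) (F : Cfg Pt → ℝ), p.r₀ ≤ r → r ≤ R → p.w * R ≤ L →
      Nc.Amb Λ m (bl z (p.w * R)) → Ins z r F →
      nu Λ p.w z R (fun s => F s - Ex (m.W 0) F) ≤ C * ((r : ℝ) / R) ^ cw p.w * nu Λ p.w z r F)
    (h : Env p Λ ω L N) {a ρ : ℕ} (h0 : p.r₀ ≤ a) (hE : Ins 0 a E) (hc : ω E = 0)
    (hG : Ins 0 a G) (hρ : a ≤ ρ) (h8 : 8 * (p.w * ρ) ≤ L) {z : Pt}
    (hz : z ∈ bl 0 (N + N / 4)) (hz' : z ∉ bl 0 (2 * (p.w * ρ))) :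
    |ω fun s => G s * trl z E s| ≤ 32 * (C * ((a : ℝ) / ρ) ^ cw p.w * nu Λ p.w 0 a G) *
      nu Λ p.w 0 ρ E := by
  have hΛ := h.mem.ok
  have hw := h.w4
  have hrg := h.gd.2.1
  have hLN := h.le
  have h4 : 4 * ρ ≤ p.w * ρ := Nat.mul_le_mul_right ρ hw
  obtain ⟨m, hm, hω⟩ := h.amb (z.1 / 2, z.2 / 2)
  have hC := hm.ctr.cen hm.anch
  have s0 : bl 0 (p.w * ρ) ⊆ bl (z.1 / 2, z.2 / 2) N := fun x hx' => by
    rw [mem_bl] at hz hx' ⊢
    simp only [Prod.fst_zero, Prod.snd_zero] at hz hx' ⊢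
    omega
  have sz : bl z (p.w * ρ) ⊆ bl (z.1 / 2, z.2 / 2) N := fun x hx' => by
    rw [mem_bl] at hz hx' ⊢
    simp only [Prod.fst_zero, Prod.snd_zero] at hz hx' ⊢
    omega
  have hd : Disjoint (bl 0 (p.w * ρ)) (bl z (p.w * ρ)) := disjoint_left.2 fun x h1 h2 => hz' (by
    rw [mem_bl] at h1 h2 ⊢
    simp only [Prod.fst_zero, Prod.snd_zero] at h1 h2 ⊢
    omega)
  have hJ : Ins z ρ (trl z E) := (hE.mono hρ).trl z
  have hJ' := hJ.1.mono ((bl_mono z (by omega)).trans sz)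
  have hG' : Ins 0 ρ fun s => G s - Ex (m.W 0) G := (hG.mono hρ).sub_const _
  have e0 : Ex (m.W 0) (trl z E) = 0 := by
    rw [← hω _ hJ', h.trl 0 z E (hE.1.mono (bl_mono 0 (by omega))), hc]
  have e : ω (fun s => G s * trl z E s) = Ex (m.W 0) fun s =>
      (∏ _i ∈ (univ : Finset Unit), (G s - Ex (m.W 0) G)) * trl z E s * 1 := by
    rw [hω _ ((hG.1.mono ((bl_mono 0 (by omega)).trans s0)).mul hJ')]
    simp only [univ_unique, prod_singleton, mul_one, sub_mul]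
    rw [Ex_sub (hC.ig (hG.2.mul hJ.2)) (hC.ig (hJ.2.const_mul _)), Ex_const_mul, e0, mul_zero,
      sub_zero]
  have h1 := (((prodStmt p Λ L h.toGs m _ Unit univ (fun _ => 0) (fun _ => ρ)
    (fun _ s => G s - Ex (m.W 0) G) (fun _ => 1) hm
    ⟨by simp, fun _ _ => hG', fun _ _ => ⟨by omega, by omega⟩, fun _ _ => s0,
      fun _ _ _ _ hne => (hne rfl).elim⟩ (fun _ _ => Out.const _ _) fun _ => by simp).2 z ρ
    (by omega) (by omega) sz fun _ _ => hd).2.1 (trl z E) hJ (Out.const _ _))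
  rw [e]
  refine h1.trans ?_
  simp only [univ_unique, prod_singleton]
  have h2 := hR m 0 a ρ G h0 hρ (by omega)
    ⟨hm.ctr, hm.anch, s0.trans hm.sub, hm.near.mono s0⟩ hG
  rw [nu_trl h.toGs (by omega) (hE.mono hρ)]
  have h6 := A51.nu_nonneg hΛ p.w 0 ρ E
  gcongr

open Far57 in
/-- FAR for a centred source with profile `A` at the scale `R` -/
theorem farE (p : Par) : ∃ C : ℝ, 0 ≤ C ∧ ∀ Λ ω L N, Env p Λ ω L N →
    ∀ (E G : Cfg Pt → ℝ) (R A : ℝ) (a₀ a b : ℕ), Ins 0 a E → ω E = 0 → 0 ≤ A → 1 ≤ R →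
      Prof Λ p.w a₀ L 0 E R A → p.r₀ ≤ a → a₀ ≤ a → R ≤ a → 16 * p.w * a ≤ b → 16 * p.w * a ≤ L →
      Ins 0 a G → ∑ z ∈ bl 0 (N + N / 4) \ bl 0 b, |ω fun s => G s * trl z E s| ≤
        C * nu Λ p.w 0 a G * A * (a / R) ^ ew p.w *
          (((a : ℝ) / b) ^ (cw p.w / 2) + ((a : ℝ) / L) ^ (cw p.w / 2)) := by
  obtain ⟨C, hC, hR⟩ := rateStmt p.w
  have hc0 := cw_nn p.w
  refine ⟨32 * C * (16 * p.w) ^ 3 * (8 / (cw p.w / 2) + 16 * (p.K : ℝ) ^ 2), by positivity,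
    fun Λ ω L N h E G R Y a₀ a b hE hc hY hR1 hM h0 h0' hRa hb hL hG => ?_⟩
  have hw := h.w4
  have hcp := Far57.cw_pos (show 1 ≤ p.w by omega)
  have hc1 := Far57.cw_le (show 1 ≤ p.w by omega)
  have ha : 1 ≤ a := by exact_mod_cast hR1.trans hRa
  have hR0 : 0 < R := by linarith
  have hwa : 4 * a ≤ p.w * a := Nat.mul_le_mul_right a hw
  have hb' : 16 * (p.w * a) ≤ b := by rw [← mul_assoc]; exact hb
  have hL' : 16 * (p.w * a) ≤ L := by rw [← mul_assoc]; exact hL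
  have hν := A51.nu_nonneg h.mem.ok p.w 0 a G
  set A := 32 * C * (16 * p.w) ^ 3 * nu Λ p.w 0 a G * Y * (a / R) ^ ew p.w with hA
  have hA0 : 0 ≤ A := by positivity
  set γ := cw p.w / 2 with hγ
  have key : ∀ k, b ≤ k → k < N + N / 4 → ∀ z ∈ bl (0 : Pt) (k + 1) \ bl 0 k,
      |ω fun s => G s * trl z E s| ≤ A * (((a : ℝ) / ((k : ℝ) + 1)) ^ γ / ((k : ℝ) + 1) ^ 2 +
        ((a : ℝ) / L) ^ γ / (L : ℝ) ^ 2) := fun k hk hk' z hz => by
    obtain ⟨hz1, hz2⟩ := mem_sdiff.1 hz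
    set μ := min (k + 1) L with hμ
    have hμ1 : 16 * (p.w * a) ≤ μ := le_min (by omega) hL'
    set ρ := μ / (8 * p.w) with hρ
    have h1 : 8 * p.w * ρ ≤ μ := Nat.mul_div_le _ _
    have h2 : μ < 8 * p.w * (ρ + 1) := Nat.lt_mul_div_succ _ (by omega)
    have h3 : 2 * a ≤ ρ := (Nat.le_div_iff_mul_le (by omega)).2 (by nlinarith)
    have h1' : 8 * (p.w * ρ) ≤ μ := by rw [← mul_assoc]; exact h1
    have h4 : μ ≤ 16 * p.w * ρ := by nlinarith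
    have h5 := point (hR p Λ L rfl h.toGs) h h0 hE hc hG (ρ := ρ) (by omega) (by omega)
      (bl_mono 0 (by omega) hz1) fun h6 => hz2 (bl_mono 0 (by omega) h6)
    have hμ0 : (0 : ℝ) < μ := by exact_mod_cast (show 0 < μ by omega)
    have h6 := arith (t := 16 * p.w) (m := μ) (ρ := ρ) (a := a) hc0 hc1 (by exact_mod_cast ha) hR0
      (by exact_mod_cast (show a ≤ ρ by omega)) (by exact_mod_cast (show 1 ≤ 16 * p.w by omega)) hμ0
      (by exact_mod_cast h4)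
    have hρR : R ≤ ρ := hRa.trans (by exact_mod_cast (show a ≤ ρ by omega))
    have hρ0 : (0 : ℝ) < ρ := hR0.trans_le hρR
    have h7 := prof_le hM (a := ρ) (by omega) (by omega) (by omega)
    rw [max_eq_left (((div_le_one hρ0).2 hρR).trans ((one_le_div hR0).2 hρR))] at h7
    calc _ ≤ _ := h5
      _ ≤ 32 * (C * ((a : ℝ) / ρ) ^ cw p.w * nu Λ p.w 0 a G) *
          (Y * (ρ / R) ^ ew p.w / (ρ : ℝ) ^ 2) := by gcongr
      _ = 32 * C * nu Λ p.w 0 a G * Y *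
          (((a : ℝ) / ρ) ^ cw p.w * ((ρ / R) ^ (cw p.w / 100) / (ρ : ℝ) ^ 2)) := by rw [ew]; ring
      _ ≤ 32 * C * nu Λ p.w 0 a G * Y * ((16 * p.w) ^ 3 * (a / R) ^ (cw p.w / 100) *
          (((a : ℝ) / μ) ^ γ / (μ : ℝ) ^ 2)) := by gcongr
      _ = A * (((a : ℝ) / μ) ^ γ / (μ : ℝ) ^ 2) := by rw [hA, ew]; ring
      _ ≤ _ := by
          refine mul_le_mul_of_nonneg_left ?_ hA0
          rcases min_choice (k + 1) L with h7 | h7 <;> rw [hμ, h7]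
          · push_cast; exact le_add_of_nonneg_right (by positivity)
          · exact le_add_of_nonneg_left (by positivity)
  refine (shell _ _ 0 b _ key).trans ?_
  have hL0 : (0 : ℝ) < L := by exact_mod_cast (show 0 < L by omega)
  have h1 := tele (γ := γ) (a := a) (by positivity) (by positivity) (show 1 ≤ b by omega) (N + N / 4)
  have h2 : ∑ k ∈ Ico b (N + N / 4), 8 * ((k : ℝ) + 1) ≤ 16 * (p.K : ℝ) ^ 2 * (L : ℝ) ^ 2 := by
    refine (sum_lin _ _).trans ?_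
    have h3 : 2 * (N + N / 4) + 1 ≤ 4 * (p.K * L) := by have := h.leK; have := h.le; omega
    have h4 : (2 * ((N + N / 4 : ℕ) : ℝ) + 1) ≤ 4 * (p.K * L) := by exact_mod_cast h3
    exact (pow_le_pow_left₀ (by positivity) h4 2).trans_eq (by ring)
  calc _ = A * (∑ k ∈ Ico b (N + N / 4), 8 * ((k : ℝ) + 1) *
          (((a : ℝ) / ((k : ℝ) + 1)) ^ γ / ((k : ℝ) + 1) ^ 2) +
        (∑ k ∈ Ico b (N + N / 4), 8 * ((k : ℝ) + 1)) * (((a : ℝ) / L) ^ γ / (L : ℝ) ^ 2)) := by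
        rw [sum_mul, ← sum_add_distrib, mul_sum]
        exact sum_congr rfl fun _ _ => by ring
    _ ≤ A * (8 / γ * ((a : ℝ) / b) ^ γ +
        16 * (p.K : ℝ) ^ 2 * (L : ℝ) ^ 2 * (((a : ℝ) / L) ^ γ / (L : ℝ) ^ 2)) := by gcongr
    _ = A * (8 / γ * ((a : ℝ) / b) ^ γ + 16 * (p.K : ℝ) ^ 2 * ((a : ℝ) / L) ^ γ) := by
        congr 2; field_simp
    _ ≤ A * ((8 / γ + 16 * (p.K : ℝ) ^ 2) * ((a : ℝ) / b) ^ γ +
        (8 / γ + 16 * (p.K : ℝ) ^ 2) * ((a : ℝ) / L) ^ γ) := by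
        gcongr
        · exact le_add_of_nonneg_right (by positivity)
        · exact le_add_of_nonneg_left (by positivity)
    _ = _ := by rw [hA]; ring

end S4

end Crest.Agent.T145.Ev
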