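import Crest.Agent.T145.FlRate_98
import Crest.Agent.T145.FlOde_64
import Crest.Agent.T145.XiD_22

/-!
# Row 145, odd flow: one step of the Kosterlitz–Thouless flow (`Fl.StepStmt`; helper58)
-/

set_option autoImplicit false

namespace Crest.Agent.T145.Fl

open Finset Pot Xi Real

namespace Step58

theorem abs_log_sub {a b c : ℝ} (hc : 0 < c) (ha : c ≤ a) (hb : c ≤ b) : |log a - log b| ≤ |a - b| / c := by
  have key : ∀ a b : ℝ, c ≤ a → c ≤ b → log a - log b ≤ |a - b| / c := fun a b ha hb => by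
    have h0 : 0 < a := by linarith
    have h1 : 0 < b := by linarith
    rw [← log_div h0.ne' h1.ne']
    calc _ ≤ a / b - 1 := log_le_sub_one_of_pos (div_pos h0 h1)
      _ = (a - b) / b := by field_simp
      _ ≤ |a - b| / b := div_le_div_of_nonneg_right (le_abs_self _) h1.le
      _ ≤ _ := div_le_div_of_nonneg_left (abs_nonneg _) hc hb
  rw [abs_le]
  exact ⟨by have := key b a hb ha; rw [abs_sub_comm] at this; linarith, key a b ha hb⟩

/-- the Gaussian factor is `(R / r)⁴` up to a relative error -/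
theorem gauss {g W R r P e θ s : ℝ} (hW : 2 ≤ W) (hR : 0 < R) (h1 : R ≤ r) (h2 : r ≤ 4 * (W * R))
    (hg0 : 0 ≤ g) (hg1 : g ≤ 1) (hP : |P - log (r / R) / (2 * π)| ≤ θ)
    (hs : 6 * |(π * g - 2) * log W| + 40 * θ ≤ s) (hs1 : s ≤ 1) :
    |r ^ 4 * exp (-4 * π ^ 2 * g * (P + e)) - R ^ 4 * exp (-4 * π ^ 2 * g * e)| ≤
      2 * s * (R ^ 4 * exp (-4 * π ^ 2 * g * e)) := by
  have hr : 0 < r := by linarith
  have hpi := pi_pos
  obtain ⟨l, hl⟩ : ∃ l, l = log (r / R) := ⟨_, rfl⟩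
  have hl0 : 0 ≤ l := hl ▸ log_nonneg (by rwa [le_div_iff₀ hR, one_mul])
  have hlW : 0 ≤ log W := log_nonneg (by linarith)
  have hl1 : l ≤ 3 * log W := by
    rw [hl, show 3 * log W = log (W ^ 3) by rw [log_pow]; norm_num]
    refine log_le_log (div_pos hr hR) ?_
    rw [div_le_iff₀ hR]
    have : 4 * W ≤ W ^ 3 := by nlinarith [mul_le_mul hW hW (by norm_num) (by linarith : 0 ≤ W)]
    nlinarith
  have he : r ^ 4 = R ^ 4 * exp (4 * l) := by
    rw [show 4 * l = ((4 : ℕ) : ℝ) * l by norm_num, exp_nat_mul, hl, exp_log (div_pos hr hR)]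
    field_simp
  rw [← hl] at hP
  obtain ⟨t, ht⟩ : ∃ t, t = -2 * (π * g - 2) * l - 4 * π ^ 2 * g * (P - l / (2 * π)) := ⟨_, rfl⟩
  have h3 : r ^ 4 * exp (-4 * π ^ 2 * g * (P + e)) - R ^ 4 * exp (-4 * π ^ 2 * g * e) =
      (exp t - 1) * (R ^ 4 * exp (-4 * π ^ 2 * g * e)) := by
    have : 4 * l + -4 * π ^ 2 * g * (P + e) = t + -4 * π ^ 2 * g * e := by rw [ht]; field_simp; ring
    rw [he, mul_assoc, ← exp_add, this, exp_add]; ring
  have h4 : |t| ≤ s := by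
    have h5 : |-2 * (π * g - 2) * l| ≤ 6 * |(π * g - 2) * log W| := by
      rw [abs_mul, abs_mul, abs_mul, abs_of_nonneg hl0, abs_of_nonneg hlW, abs_neg, abs_two]
      nlinarith [abs_nonneg (π * g - 2)]
    have h6 : |4 * π ^ 2 * g * (P - l / (2 * π))| ≤ 40 * θ := by
      rw [abs_mul, abs_of_nonneg (by positivity : 0 ≤ 4 * π ^ 2 * g)]
      refine mul_le_mul ?_ hP (abs_nonneg _) (by norm_num)
      have : π ^ 2 ≤ 10 := by nlinarith [pi_lt_d2]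
      nlinarith
    rw [ht]
    exact (abs_sub _ _).trans (by linarith)
  rw [h3, abs_mul, abs_of_nonneg (by positivity : 0 ≤ R ^ 4 * exp (-4 * π ^ 2 * g * e))]
  exact mul_le_mul_of_nonneg_right ((abs_exp_sub_one_le (h4.trans hs1)).trans (by linarith)) (by positivity)

theorem gk_sub (ω : (Cfg Pt → ℝ) → ℝ) {R R' : ℝ} (hR : 0 < R) (h : R ≤ R') :
    gk ω R' - gk ω R =
      -(1 / 4) * ∑ x ∈ bl 0 ⌈2 * R'⌉₊, (Xi.chi R' x - Xi.chi R x) / eu x ^ 2 * (eu x ^ 4 * KK ω x) := by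
  have e : ∑ x ∈ bl 0 ⌈2 * R⌉₊, KK ω x * eu x ^ 2 * Xi.chi R x =
      ∑ x ∈ bl 0 ⌈2 * R'⌉₊, KK ω x * eu x ^ 2 * Xi.chi R x :=
    sum_subset (bl_mono _ (Nat.ceil_mono (by linarith))) fun x _ hx => by
      rw [sup_chi hR (by linarith [Nat.le_ceil (2 * R)]) x hx, mul_zero]
  rw [gk, gk, e, ← mul_sub, ← sum_sub_distrib]
  congr 1
  refine sum_congr rfl fun x _ => ?_
  by_cases hx : eu x = 0
  · simp [hx]
  · field_simp

theorem yk_sq (ω : (Cfg Pt → ℝ) → ℝ) {W R : ℝ} (hW : 1 ≤ W) (hA : 0 ≤ Ak W R) :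
    yk ω W R ^ 2 = π * log W / 4 * (Ak W R *
      (2 * ell ω R (Jz 0) ^ 2 * (R ^ 4 * exp (-4 * π ^ 2 * gk ω R * er R)))) := by
  have := log_nonneg hW
  rw [yk, mul_pow, mul_pow, mul_pow, sq_sqrt (by positivity), sq_abs, ← exp_nat_mul,
    show ((2 : ℕ) : ℝ) * (-2 * π ^ 2 * gk ω R * er R) = -4 * π ^ 2 * gk ω R * er R by push_cast; ring]
  ring

/-- the equation for `x` -/
theorem hx_le (ω : (Cfg Pt → ℝ) → ℝ) {W R B s : ℝ} (hW : 1 ≤ W) (hR : 0 < R)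
    (hc : ∀ x, Xi.chi R x ≤ Xi.chi (W * R) x)
    (h : ∀ x, R < eu x → eu x ≤ 4 * (W * R) →
      |eu x ^ 4 * KK ω x - 2 * ell ω R (Jz 0) ^ 2 * (R ^ 4 * exp (-4 * π ^ 2 * gk ω R * er R))| ≤
        B + s * (2 * ell ω R (Jz 0) ^ 2 * (R ^ 4 * exp (-4 * π ^ 2 * gk ω R * er R)))) :
    |xk ω W (W * R) - xk ω W R + yk ω W R ^ 2| ≤ π * log W / 4 * Ak W R * B + s * yk ω W R ^ 2 := by
  have hl := log_nonneg hW
  have hR' : R ≤ W * R := le_mul_of_one_le_left hR.le hW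
  have h0 : ∀ x, 0 ≤ (Xi.chi (W * R) x - Xi.chi R x) / eu x ^ 2 := fun x =>
    div_nonneg (sub_nonneg.2 (hc x)) (sq_nonneg _)
  have hA : 0 ≤ Ak W R := sum_nonneg fun x _ => h0 x
  rw [yk_sq ω hW hA]
  generalize 2 * ell ω R (Jz 0) ^ 2 * (R ^ 4 * exp (-4 * π ^ 2 * gk ω R * er R)) = Q at h ⊢
  have e : xk ω W (W * R) - xk ω W R + π * log W / 4 * (Ak W R * Q) = -(π * log W / 4) *
      ∑ x ∈ bl 0 ⌈2 * (W * R)⌉₊, (Xi.chi (W * R) x - Xi.chi R x) / eu x ^ 2 * (eu x ^ 4 * KK ω x - Q) := by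
    have : xk ω W (W * R) - xk ω W R = π * log W * (gk ω (W * R) - gk ω R) := by rw [xk, xk]; ring
    rw [this, gk_sub ω hR hR', Ak]
    simp only [mul_sub _ _ Q, sum_sub_distrib, ← sum_mul]
    ring
  rw [e, abs_mul, abs_neg, abs_of_nonneg (by positivity : 0 ≤ π * log W / 4)]
  calc _ ≤ π * log W / 4 * (Ak W R * (B + s * Q)) := by
        refine mul_le_mul_of_nonneg_left ((abs_sum_le_sum_abs _ _).trans ?_) (by positivity)
        rw [Ak, sum_mul]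
        refine sum_le_sum fun x _ => ?_
        rw [abs_mul, abs_of_nonneg (h0 x)]
        by_cases hx : Xi.chi (W * R) x - Xi.chi R x = 0
        · simp [hx]
        · obtain ⟨h1, h2⟩ := eu_of_chi_ne hR hR' hx
          exact mul_le_mul_of_nonneg_left (h x h1 h2) (h0 x)
    _ = _ := by ring

/-- the equation for `y` -/
theorem hy_le {W R A A' l l' g g' e e' t : ℝ} (hW : 1 < W) (hR : 0 < R) (hA : 0 < A) (hA' : 0 < A')
    (hl : l ≠ 0) (ht : t ≤ 1 / 2)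
    (h : |l' - exp (-2 * π ^ 2 * g * (log W / (2 * π) + e - e')) * l| ≤
      t * |exp (-2 * π ^ 2 * g * (log W / (2 * π) + e - e')) * l|) :
    0 < √(π * log W * A' / 2) * (W * R) ^ 2 * |l'| * exp (-2 * π ^ 2 * g' * e') ∧
    |log (√(π * log W * A' / 2) * (W * R) ^ 2 * |l'| * exp (-2 * π ^ 2 * g' * e')) -
      log (√(π * log W * A / 2) * R ^ 2 * |l| * exp (-2 * π ^ 2 * g * e)) + (π * g - 2) * log W| ≤
      |log A' - log A| / 2 + 2 * t + 2 * π ^ 2 * |e'| * |g' - g| := by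
  have hlw := log_pos hW
  have hW0 : 0 < W := by linarith
  have hpi := pi_pos
  obtain ⟨h1, h2⟩ := abs_log_sub_le (mul_ne_zero (exp_pos _).ne' hl) h ht
  have p1 := abs_pos.2 h1
  have p2 := abs_pos.2 hl
  have q1 : 0 < π * log W * A' / 2 := by positivity
  have q2 : 0 < π * log W * A / 2 := by positivity
  have s1 := sqrt_pos.2 q1
  have s2 := sqrt_pos.2 q2
  refine ⟨by positivity, ?_⟩
  rw [abs_mul, abs_of_pos (exp_pos _), log_mul (exp_pos _).ne' p2.ne', log_exp] at h2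
  have e1 : ∀ a : ℝ, 0 < a → log √(π * log W * a / 2) = (log (π * log W / 2) + log a) / 2 := fun a ha => by
    rw [log_sqrt (by positivity), ← log_mul (by positivity) ha.ne']; congr 2; ring
  rw [log_mul (by positivity) (exp_pos _).ne', log_mul (by positivity) p1.ne',
    log_mul s1.ne' (by positivity), log_mul (by positivity) (exp_pos _).ne',
    log_mul (by positivity) p2.ne', log_mul s2.ne' (by positivity), log_exp, log_exp, e1 _ hA, e1 _ hA',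
    log_pow, log_pow, log_mul hW0.ne' hR.ne']
  have e2 : (log (π * log W / 2) + log A') / 2 + ((2 : ℕ) : ℝ) * (log W + log R) + log |l'| +
      -2 * π ^ 2 * g' * e' - ((log (π * log W / 2) + log A) / 2 + ((2 : ℕ) : ℝ) * log R + log |l| +
      -2 * π ^ 2 * g * e) + (π * g - 2) * log W = (log A' - log A) / 2 +
      (log |l'| - (-2 * π ^ 2 * g * (log W / (2 * π) + e - e') + log |l|)) +
      -(2 * π ^ 2 * e' * (g' - g)) := by push_cast; field_simp; ring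
  rw [e2]
  refine (abs_add_three _ _ _).trans ?_
  rw [abs_div, abs_two, abs_neg, abs_mul, abs_mul, abs_of_pos (by positivity : 0 < 2 * π ^ 2)]
  linarith

theorem rpow_err {Y D η q δ δ' : ℝ} (hY : 0 ≤ Y) (hD : 1 ≤ D) (h : Y ≤ D * η) (hη : 0 < η) (hη1 : η ≤ 1)
    (hq : 0 < q) (hq1 : q ≤ 1) (hδ : 0 ≤ δ') (h' : δ ≤ δ') :
    Y ^ δ' + q ^ δ' ≤ D ^ δ' * (η ^ δ + q ^ δ) := by
  have h1 : Y ^ δ' ≤ D ^ δ' * η ^ δ' := by
    rw [← mul_rpow (by linarith) hη.le]; exact rpow_le_rpow hY h hδ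
  have h2 := rpow_le_rpow_of_exponent_ge hη hη1 h'
  have h3 := rpow_le_rpow_of_exponent_ge hq hq1 h'
  have h4 := one_le_rpow hD hδ
  have h5 : 0 ≤ q ^ δ := by positivity
  nlinarith

theorem g_range {g l : ℝ} (hl : 1 / 2 ≤ l) (h : |(π * g - 2) * l| ≤ 1 / 2) : 1 / 4 ≤ g ∧ g ≤ 1 := by
  rw [abs_mul, abs_of_nonneg (by linarith : 0 ≤ l)] at h
  have hg : |π * g - 2| ≤ 1 := by nlinarith [abs_nonneg (π * g - 2)]
  constructor
  · by_contra h; nlinarith [(abs_le.1 hg).1, pi_le_four, pi_pos]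
  · by_contra h; nlinarith [(abs_le.1 hg).2, pi_gt_three]

/-- lower bound for the main term of the step of `ℓ` -/
theorem low {l A CA Ce R g e e' a : ℝ} (hl : 0 < l) (hA : A ≤ CA) (hCA : 0 < CA) (hg0 : 0 ≤ g) (hg1 : g ≤ 1)
    (he : |e'| ≤ Ce) :
    exp (-(π * l) - 2 * π ^ 2 * Ce) / √(π * l * CA / 2) *
        (√(π * l * A / 2) * R ^ 2 * |a| * exp (-2 * π ^ 2 * g * e)) ≤
      R ^ 2 * |exp (-2 * π ^ 2 * g * (l / (2 * π) + e - e')) * a| := by
  have hpi := pi_pos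
  have h1 : √(π * l * A / 2) ≤ √(π * l * CA / 2) := sqrt_le_sqrt (by gcongr)
  have h2 : 0 < √(π * l * CA / 2) := by positivity
  have h3 : exp (-(π * l) - 2 * π ^ 2 * Ce) * exp (-2 * π ^ 2 * g * e) ≤
      exp (-2 * π ^ 2 * g * (l / (2 * π) + e - e')) := by
    rw [← exp_add]
    refine exp_le_exp.2 ?_
    have h5 : -2 * π ^ 2 * g * (l / (2 * π) + e - e') =
        -(π * l * g) + -2 * π ^ 2 * g * e + 2 * π ^ 2 * (g * e') := by field_simp; ring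
    have h6 : π * l * g ≤ π * l := mul_le_of_le_one_right (by positivity) hg1
    have h7 : -Ce ≤ g * e' := by nlinarith [(abs_le.1 he).1, (abs_nonneg _).trans he]
    have h8 := mul_le_mul_of_nonneg_left h7 (by positivity : 0 ≤ 2 * π ^ 2)
    rw [h5]; linarith
  rw [abs_mul, abs_of_pos (exp_pos _), div_mul_eq_mul_div, div_le_iff₀ h2]
  calc _ = √(π * l * A / 2) * (R ^ 2 * |a|) *
        (exp (-(π * l) - 2 * π ^ 2 * Ce) * exp (-2 * π ^ 2 * g * e)) := by ring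
    _ ≤ √(π * l * CA / 2) * (R ^ 2 * |a|) * exp (-2 * π ^ 2 * g * (l / (2 * π) + e - e')) := by gcongr
    _ = _ := by ring

end Step58

set_option maxHeartbeats 800000 in
open Step58 in
theorem stepStmt (hK : KbStmt) (hY : StepYStmt) (hX : StepXStmt) (hA : AkStmt) : StepStmt := by
  intro p W D hW
  obtain ⟨Ck, hCk, hk⟩ := hK p
  obtain ⟨CY, δY, hCY, hδY, hy⟩ := hY p W hW
  obtain ⟨CX, δX, hCX, hδX, hx⟩ := hX p W hW
  obtain ⟨cA, CA, hcA, hak⟩ := hA W hW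
  obtain ⟨Cp, hCp, hp⟩ := pk_sub_cr
  obtain ⟨Ce, hCe, he⟩ := abs_er_le
  have hW2 : (2 : ℝ) ≤ W := by exact_mod_cast hW
  have hpi := pi_pos
  have hlw : 1 / 2 ≤ log (W : ℝ) := by linarith [log_two_gt_d9, log_le_log (by norm_num) hW2]
  have hCA : 0 < CA := hcA.trans_le ((hak 1 le_rfl).1.trans (hak 1 le_rfl).2.1)
  obtain ⟨D₁, hD₁, hD⟩ : ∃ D₁ : ℝ, 1 ≤ D₁ ∧ D ≤ D₁ := ⟨max 1 D, le_max_left _ _, le_max_right _ _⟩
  obtain ⟨c₀, hc₀⟩ : ∃ c₀ : ℝ, c₀ = exp (-(π * log W) - 2 * π ^ 2 * Ce) / √(π * log W * CA / 2) := ⟨_, rfl⟩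
  have hc0 : 0 < c₀ := by rw [hc₀]; positivity
  obtain ⟨K₁, hK₁⟩ : ∃ K : ℝ, K = 6 + 40 * Cp * D₁ := ⟨_, rfl⟩
  obtain ⟨K₂, hK₂⟩ : ∃ K : ℝ, K = π * log W / 4 * CA * ((4 * W) ^ 4 * CX * D₁ ^ 2 * D₁ ^ δX) := ⟨_, rfl⟩
  obtain ⟨K₃, hK₃⟩ : ∃ K : ℝ, K = CY * D₁ ^ 2 * D₁ ^ δY / c₀ := ⟨_, rfl⟩
  obtain ⟨K₄, hK₄⟩ : ∃ K : ℝ, K = CA / cA / 2 * D₁ ^ 2 +
    2 * π ^ 2 * Ce * (Ck * D₁ ^ 2 * (W : ℝ) ^ (2 * ew p.w)) := ⟨_, rfl⟩
  have k1 : 0 ≤ K₁ := by rw [hK₁]; positivity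
  have k2 : 0 ≤ K₂ := by rw [hK₂]; positivity
  have k3 : 0 ≤ K₃ := by rw [hK₃]; positivity
  have k4 : 0 ≤ K₄ := by rw [hK₄]; positivity
  have k5 : CX ≤ CX * D₁ := le_mul_of_one_le_right hCX hD₁
  have k6 : CY ≤ CY * D₁ := le_mul_of_one_le_right hCY hD₁
  obtain ⟨C, c1, c2, c3, c4, c5⟩ : ∃ C : ℝ, 2 * W + 1 ≤ C ∧ CX * D₁ ≤ C ∧ CY * D₁ ≤ C ∧
      2 * K₁ + K₂ ≤ C ∧ 4 * K₃ + K₄ ≤ C :=
    ⟨2 * W + 1 + CX * D₁ + CY * D₁ + (2 * K₁ + K₂) + (4 * K₃ + K₄), by linarith, by linarith, by linarith,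
      by linarith, by linarith⟩
  obtain ⟨δ, d0, d1, d2, d3⟩ : ∃ δ : ℝ, 0 < δ ∧ δ ≤ 1 / 2 ∧ δ ≤ δX ∧ δ ≤ δY :=
    ⟨min (1 / 2) (min δX δY), by positivity, min_le_left _ _, (min_le_right _ _).trans (min_le_left _ _),
      (min_le_right _ _).trans (min_le_right _ _)⟩
  refine ⟨C, δ, by linarith, d0, by linarith, fun Λ ω r₁ L N hE hP R hM hL hr hη => ?_⟩
  have hR : 1 ≤ R := hM.1
  have hR0 : 0 < R := by linarith
  have hWR : R ≤ W * R := le_mul_of_one_le_left hR0.le (by linarith)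
  obtain ⟨a1, a2, a3, a4⟩ := hak R hR
  obtain ⟨b1, -⟩ := hak (W * R) (hR.trans hWR)
  have hY0 := hM.pos
  have hy0' : 0 ≤ yk ω W R := by unfold yk; positivity
  have hy0 : 0 < yk ω W R := hy0'.lt_of_ne fun h => by rw [← h, mul_zero] at hY0; exact lt_irrefl _ hY0
  have hl : ell ω R (Jz 0) ≠ 0 := fun h => by simp [yk, h] at hy0
  have hYD : D * yk ω W R ≤ D₁ * yk ω W R := mul_le_mul_of_nonneg_right hD hy0'
  have hY2 : (D * yk ω W R) ^ 2 ≤ D₁ ^ 2 * yk ω W R ^ 2 := by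
    rw [← mul_pow]; exact pow_le_pow_left₀ hY0.le hYD 2
  have hRY : 1 / R ≤ (D * yk ω W R) ^ 2 := by
    have h1 : R ^ (-(1 / 2 : ℝ)) ≤ D * yk ω W R :=
      (rpow_le_rpow_of_exponent_le hR (by linarith [ew_le' hE.w4])).trans hM.2.1
    have h2 : (R ^ (-(1 / 2 : ℝ))) ^ 2 = 1 / R := by
      rw [← rpow_natCast, ← rpow_mul hR0.le, one_div R, ← rpow_neg_one]; norm_num
    rw [← h2]; exact pow_le_pow_left₀ (by positivity) h1 2
  have hRY' : 1 / R ≤ D * yk ω W R := by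
    rw [one_div, ← rpow_neg_one]
    exact (rpow_le_rpow_of_exponent_le hR (by linarith [ew_le' hE.w4])).trans hM.2.1
  have hx0 := abs_nonneg (xk ω W R)
  obtain ⟨η, hηd⟩ : ∃ η, η = |xk ω W R| + yk ω W R := ⟨_, rfl⟩
  rw [← hηd] at hη ⊢
  have hyη : yk ω W R ≤ η := by linarith
  have hη0 : 0 < η := by linarith
  have small : ∀ K : ℝ, K ≤ C → K * η ≤ 1 := fun K h => (mul_le_mul_of_nonneg_right h hη0.le).trans hη
  have large : ∀ K : ℝ, K ≤ C → K * R ≤ L := fun K h => (mul_le_mul_of_nonneg_right h hR0.le).trans hL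
  have hη1 : η ≤ 1 / 2 := by linarith [small 2 (by linarith)]
  have hYη : D * yk ω W R ≤ D₁ * η := hYD.trans (mul_le_mul_of_nonneg_left hyη (by linarith))
  have hRL : R ≤ L := by linarith [large 1 (by linarith)]
  have hq0 : 0 < R / L := div_pos hR0 (by linarith)
  have hq1 : R / L ≤ 1 := (div_le_one (by linarith)).2 hRL
  obtain ⟨hg0, hg1⟩ := g_range (g := gk ω R) hlw (show |xk ω W R| ≤ 1 / 2 by linarith)
  obtain ⟨u, hu⟩ : ∃ u, u = η ^ δ + (R / L) ^ δ := ⟨_, rfl⟩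
  have hηu : η ≤ u := by
    have h1 := rpow_le_rpow_of_exponent_ge hη0 (by linarith) (by linarith : δ ≤ 1)
    rw [rpow_one] at h1
    have h2 : 0 ≤ (R / L) ^ δ := by positivity
    linarith
  have hu2 : u ≤ 2 := by
    linarith [rpow_le_one hη0.le (by linarith : η ≤ 1) d0.le, rpow_le_one hq0.le hq1 d0.le]
  have hu0 : 0 < u := by linarith
  have eX := rpow_err hY0.le hD₁ hYη hη0 (by linarith) hq0 hq1 hδX.le d2
  have eY := rpow_err hY0.le hD₁ hYη hη0 (by linarith) hq0 hq1 hδY.le d3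
  rw [← hu] at eX eY
  rw [← mul_add, ← hu]
  have cY : ∀ K : ℝ, 0 ≤ K → K * D₁ ≤ C → K * (D * yk ω W R) ≤ 1 := fun K h0 h =>
    (mul_le_mul_of_nonneg_left hYη h0).trans (by rw [← mul_assoc]; exact small _ h)
  -- the equation for `y`
  have hlow : c₀ * yk ω W R ≤ R ^ 2 *
      |exp (-2 * π ^ 2 * gk ω R * (log W / (2 * π) + er R - er (W * R))) * ell ω R (Jz 0)| := by
    rw [hc₀]; exact low (by linarith) a2 hCA (by linarith) hg1 (he _ (hR.trans hWR))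
  have hstepY := hy Λ ω r₁ L N hE hP R _ hM (cY _ hCY c3) (large _ (by linarith)) hr hg0 hg1
  have ht : K₃ * yk ω W R * u ≤ 1 / 2 := by
    have h1 : K₃ * yk ω W R * u ≤ K₃ * η * 2 := by gcongr
    linarith [small (4 * K₃) (by linarith)]
  obtain ⟨y1, y2⟩ := hy_le (g' := gk ω (W * R)) (by linarith : (1 : ℝ) < W) hR0 (hcA.trans_le a1)
    (hcA.trans_le b1) hl ht (hstepY.trans (by
      rw [div_le_iff₀ (by positivity)]
      calc _ ≤ CY * (D₁ ^ 2 * yk ω W R ^ 2) * (D₁ ^ δY * u) := by gcongr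
        _ = K₃ * yk ω W R * u * (c₀ * yk ω W R) := by rw [hK₃]; field_simp
        _ ≤ _ := (mul_le_mul_of_nonneg_left hlow (by positivity)).trans_eq (by ring)))
  refine ⟨hy0, y1, ?_, ?_⟩
  · -- the equation for `x`
    refine (hx_le ω (B := (4 * W) ^ 4 * CX * (D₁ ^ 2 * yk ω W R ^ 2) * (D₁ ^ δX * u)) (s := 2 * (K₁ * η))
      (by linarith) hR0 a4 fun x h1 h2 => ?_).trans ?_
    · have h3 := hx Λ ω r₁ L N hE hP R _ hM (cY _ hCX c2) (large _ (by linarith)) hr hg0 hg1 x (by linarith)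
        (by linarith)
      have h4 : x ≠ 0 := fun h => by rw [h, eu_zero] at h1; linarith
      have h5 : |pk x - Xi.cr R - log (eu x / R) / (2 * π)| ≤ Cp * (D₁ * η) := by
        refine (hp R hR0 x h4).trans ?_
        rw [div_eq_mul_one_div]
        exact mul_le_mul_of_nonneg_left
          ((one_div_le_one_div_of_le hR0 h1.le).trans (hRY'.trans hYη)) hCp
      have h6 := gauss (e := er R) (s := K₁ * η) hW2 hR0 h1.le h2 (by linarith) hg1 h5 (by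
        have : |(π * gk ω R - 2) * log W| ≤ η := by rw [hηd]; exact le_add_of_nonneg_right hy0'
        rw [hK₁]; linarith) (small _ (by linarith))
      have h7 : eu x ^ 4 ≤ (4 * W) ^ 4 * R ^ 4 := by
        rw [← mul_pow]; exact pow_le_pow_left₀ (eu_nonneg x) (by linarith) 4
      have h8 : eu x ^ 4 * |KK ω x - 2 * ell ω R (Jz 0) ^ 2 *
          exp (-4 * π ^ 2 * gk ω R * (pk x - Xi.cr R + er R))| ≤
          (4 * W) ^ 4 * CX * (D₁ ^ 2 * yk ω W R ^ 2) * (D₁ ^ δX * u) :=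
        calc _ ≤ (4 * W) ^ 4 * R ^ 4 * (CX * (D₁ ^ 2 * yk ω W R ^ 2) * (D₁ ^ δX * u) / R ^ 4) :=
              mul_le_mul h7 (h3.trans (by gcongr)) (abs_nonneg _) (by positivity)
          _ = _ := by field_simp
      have h9 := mul_le_mul_of_nonneg_left h6 (by positivity : 0 ≤ 2 * ell ω R (Jz 0) ^ 2)
      rw [← abs_of_nonneg (by positivity : 0 ≤ eu x ^ 4), ← abs_mul] at h8
      rw [← abs_of_nonneg (by positivity : 0 ≤ 2 * ell ω R (Jz 0) ^ 2), ← abs_mul,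
        abs_of_nonneg (by positivity : 0 ≤ 2 * ell ω R (Jz 0) ^ 2)] at h9
      refine le_trans (le_of_eq ?_) ((abs_add_le _ _).trans (add_le_add h8 (h9.trans_eq (by ring))))
      congr 1; ring
    · have h1 : π * log W / 4 * Ak W R * ((4 * W) ^ 4 * CX * (D₁ ^ 2 * yk ω W R ^ 2) * (D₁ ^ δX * u)) ≤
          K₂ * u * yk ω W R ^ 2 :=
        calc _ ≤ π * log W / 4 * CA * ((4 * W) ^ 4 * CX * (D₁ ^ 2 * yk ω W R ^ 2) * (D₁ ^ δX * u)) := by
              gcongr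
          _ = _ := by rw [hK₂]; ring
      have h2 : 2 * (K₁ * η) * yk ω W R ^ 2 ≤ 2 * (K₁ * u) * yk ω W R ^ 2 := by gcongr
      have h3 := mul_le_mul_of_nonneg_right c4 (by positivity : 0 ≤ u * yk ω W R ^ 2)
      linarith
  · rw [← hηd]
    refine y2.trans ?_
    have h1 : |log (Ak W (W * R)) - log (Ak W R)| ≤ CA / cA * (D₁ ^ 2 * yk ω W R ^ 2) :=
      calc _ ≤ CA / R / cA := (abs_log_sub hcA b1 a1).trans (by gcongr)
        _ = CA / cA * (1 / R) := by ring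
        _ ≤ _ := mul_le_mul_of_nonneg_left (hRY.trans hY2) (by positivity)
    have h2 := (hk Λ ω L N hE R _ hM).2.2 R (W * R) W (by linarith) hR hWR
      (div_le_self hR0.le (by linarith)) le_rfl (by linarith [large _ c1])
    have h3 : 2 * π ^ 2 * |er (W * R)| * |gk ω (W * R) - gk ω R| ≤
        2 * π ^ 2 * Ce * (Ck * (D₁ ^ 2 * yk ω W R ^ 2) * (W : ℝ) ^ (2 * ew p.w)) := by
      gcongr
      · exact he _ (hR.trans hWR)
      · exact h2.trans (by gcongr)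
    have h4 : K₄ * yk ω W R ^ 2 ≤ K₄ * (u * η) := by
      rw [pow_two]; gcongr; exact hyη.trans hηu
    have h5 : K₃ * yk ω W R * u ≤ K₃ * η * u := by gcongr
    have h6 := mul_le_mul_of_nonneg_right c5 (by positivity : 0 ≤ u * η)
    have h7 : 0 ≤ K₃ * (u * η) := by positivity
    rw [hK₄] at h4
    rw [hK₄] at h6
    linarith

end Crest.Agent.T145.Fl
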