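import Crest.Agent.T145.EvDef_2
import Crest.Agent.T145.EvSum_4
import Crest.Agent.T145.FlSw_22
import Crest.Agent.T145.FlStep_58

/-!
# Row 145, even sector: the derivative of the kernel (`Ev.dkStmt`, `Ev.uStmt4`; helper4)
-/

set_option autoImplicit false

namespace Crest.Agent.T145.Ev

open Finset Pot Xi Real Fl

namespace Dk4

section env
variable {p : Par} {Λ : Lat} {ω : Sta} {L N a : ℕ} {F G B : Cfg Pt → ℝ} {z : Pt} {R Y : ℝ}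

/-- one insertion against a bounded multiplier -/
theorem one (h : Env p Λ ω L N) (h0 : p.r₀ ≤ a) (hL : p.w * a ≤ L) (hF : Ins z a F)
    (hd : DepG (bl z N) B) (hO : Out (bl z a) B) (hB : ∀ s, |B s| ≤ 1) :
    |ω fun s => F s * B s| ≤ 16 * nu Λ p.w z a F := by
  obtain ⟨m, hm, hω⟩ := h.amb z
  have h4 := A51.four_le h.toGs a
  have hN := h.le
  have := (prodStmt p Λ L h.toGs m _ Unit univ (fun _ => z) (fun _ => a) (fun _ => F) B hm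
    ⟨by simp, fun _ _ => hF, fun _ _ => ⟨h0, hL⟩, fun _ _ => bl_mono z (by omega),
      fun _ _ _ _ hne => (hne rfl).elim⟩ (fun _ _ => hO) hB).1
  simp only [univ_unique, prod_singleton] at this
  rwa [hω _ ((hF.1.mono (bl_mono z (by omega))).mul hd)]

/-- a pair of insertions at `0` and `z` -/
theorem far2 {U : Finset Pt} (h0 : p.r₀ ≤ a) (hL : p.w * a ≤ L) (hF : Ins 0 a F) (hG : Ins z a G)
    (s0 : bl 0 (p.w * a) ⊆ U) (sz : bl z (p.w * a) ⊆ U) (hz : z ∉ bl 0 (2 * (p.w * a))) :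
    Far p L U (univ : Finset Bool) (fun b => cond b 0 z) (fun _ => a) fun b => cond b F G := by
  have hd : Disjoint (bl 0 (p.w * a)) (bl z (p.w * a)) := disjoint_left.2 fun y h1 h2 => hz (by
    simp only [mem_bl, Prod.fst_zero, Prod.snd_zero] at *; omega)
  refine ⟨by simp, ?_, fun _ _ => ⟨h0, hL⟩, ?_, ?_⟩
  · rintro (_ | _) -
    exacts [hG, hF]
  · rintro (_ | _) -
    exacts [sz, s0]
  · rintro (_ | _) - (_ | _) - hne
    exacts [(hne rfl).elim, hd.symm, hd, (hne rfl).elim]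

theorem two (h : Env p Λ ω L N) (h0 : p.r₀ ≤ a) (hL : p.w * a ≤ L) (hF : Ins 0 a F) (hG : Ins z a G)
    (sz : bl z (p.w * a) ⊆ bl 0 N) (hz : z ∉ bl 0 (2 * (p.w * a))) :
    |ω fun s => F s * G s| ≤ 16 * (nu Λ p.w 0 a F * nu Λ p.w z a G) := by
  obtain ⟨m, hm, hω⟩ := h.amb 0
  have h4 := A51.four_le h.toGs a
  have hN := h.le
  have := (prodStmt p Λ L h.toGs m _ Bool univ _ _ _ (fun _ => 1) hm
    (far2 h0 hL hF hG (bl_mono 0 (by omega)) sz hz) (fun _ _ => Out.const _ _) fun _ => by simp).1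
  simp only [Fintype.prod_bool, cond_true, cond_false, mul_one] at this
  rwa [hω _ ((hF.1.mono (bl_mono 0 (by omega))).mul (hG.1.mono ((bl_mono z (by omega)).trans sz)))]

theorem ew_le_one (hw : 4 ≤ p.w) : 0 ≤ ew p.w ∧ ew p.w ≤ 1 / 2 :=
  ⟨(Kb14.ew_pos (by omega)).le, by linarith [Kb14.ew_le (show 1 ≤ p.w by omega)]⟩

theorem pos_Y (hM : Maj p Λ L R Y) : 0 < Y :=
  (rpow_pos_of_pos (by linarith [hM.1]) _).trans_le hM.2.1

theorem le_R {C : ℝ} (hw : 4 ≤ p.w) (hM : Maj p Λ L R Y) (hC : 0 ≤ C) (hY : C * Y ≤ 1) : C ≤ R := by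
  have R1 := hM.1
  have h1 : R⁻¹ ≤ R ^ (-ew p.w) := by
    rw [← rpow_neg_one]
    exact rpow_le_rpow_of_exponent_le R1 (by linarith [(ew_le_one hw).2])
  have h2 := (mul_le_mul_of_nonneg_left (h1.trans hM.2.1) hC).trans hY
  rwa [← div_eq_mul_inv, div_le_one (by linarith)] at h2

/-- a profile at a scale comparable with `R` -/
theorem prof_cmp {a₀ : ℕ} {P M : ℝ} (hw : 4 ≤ p.w) (h : Prof Λ p.w a₀ L z F R P) (hP : 0 ≤ P) (hR : 0 < R)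
    (hM : 1 ≤ M) (h0 : a₀ ≤ a) (hL : p.w * a ≤ L) (h1 : R ≤ M * a) (h2 : (a : ℝ) ≤ M * R) :
    nu Λ p.w z a F ≤ M ^ 3 * P / R ^ 2 := by
  have ha : (0 : ℝ) < a := by
    by_contra hn
    nlinarith [mul_nonneg (sub_nonneg.2 hM) (Nat.cast_nonneg (α := ℝ) a), not_lt.1 hn,
      Nat.cast_nonneg (α := ℝ) a]
  have e := ew_le_one hw
  have h3 : max (a / R) (R / a) ≤ M :=
    max_le ((div_le_iff₀ hR).2 h2) ((div_le_iff₀ ha).2 h1)
  have h4 : max (a / R) (R / a) ^ ew p.w ≤ M :=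
    (rpow_le_rpow (le_max_of_le_left (by positivity)) h3 e.1).trans
      ((rpow_le_rpow_of_exponent_le hM (by linarith [e.2])).trans_eq (rpow_one M))
  refine (S4.prof_le h h0 (by exact_mod_cast ha) hL).trans ?_
  rw [div_le_div_iff₀ (by positivity) (by positivity)]
  calc P * max (a / R) (R / a) ^ ew p.w * R ^ 2 ≤ P * M * (M * a) ^ 2 := by gcongr
    _ = _ := by ring

theorem g_rng {g e : ℝ} (h : |π * g - 2| ≤ e / 100) (he : e ≤ 1 / 2) : 1 / 2 ≤ g ∧ g ≤ 1 := by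
  rw [abs_le] at h
  constructor
  · by_contra hn; nlinarith [pi_lt_d2, pi_pos, not_le.1 hn]
  · by_contra hn; nlinarith [pi_gt_three, not_le.1 hn]

/-- in the cone `Y ≤ C R² |ℓ|` -/
theorem cone {W : ℕ} (hW : 2 ≤ W) (D₀ : ℝ) : ∃ C : ℝ, 0 ≤ C ∧ ∀ (ω : Sta) (R : ℝ), 1 ≤ R → 0 ≤ D₀ →
    0 ≤ gk ω R → gk ω R ≤ 1 → D₀ * yk ω W R ≤ C * (R ^ 2 * |ell ω R (Jz 0)|) := by
  obtain ⟨c, C, hc, hA⟩ := akStmt W hW
  obtain ⟨Ce, hCe, he⟩ := abs_er_le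
  have hl : 0 < log (W : ℝ) := log_pos (by exact_mod_cast (by omega : 1 < W))
  have := pi_pos
  refine ⟨|D₀| * (√(π * log W * C / 2) * exp (2 * π ^ 2 * Ce)), by positivity,
    fun ω R hR hD g1 g2 => ?_⟩
  obtain ⟨-, a2, -⟩ := hA R hR
  have h3 : |gk ω R * er R| ≤ Ce := by
    rw [abs_mul, abs_of_nonneg g1]
    nlinarith [abs_nonneg (er R), he R hR]
  have hp : 0 < 2 * π ^ 2 := by positivity
  have x2 : exp (-2 * π ^ 2 * gk ω R * er R) ≤ exp (2 * π ^ 2 * Ce) :=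
    exp_le_exp.2 (by nlinarith [(abs_le.1 h3).1])
  rw [abs_of_nonneg hD, mul_assoc]
  refine mul_le_mul_of_nonneg_left ?_ hD
  calc yk ω W R = √(π * log W * Ak W R / 2) * exp (-2 * π ^ 2 * gk ω R * er R) *
        (R ^ 2 * |ell ω R (Jz 0)|) := by rw [yk]; ring
    _ ≤ _ := by gcongr

theorem sum_shift (x : Pt) (ρ : ℕ) (f : Pt → ℝ) : ∑ z ∈ bl x ρ, f z = ∑ z ∈ bl 0 ρ, f (z + x) :=
  (sum_equiv (Equiv.addRight x) (fun z => by simp [mem_bl_abs]) fun _ _ => rfl).symm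

end env

/-- the basic facts on the energy star -/
def Bas (E : Dt) : Prop := ∀ z, trl z (E.e 0) = E.e z ∧ Ins z E.Λ.rg (E.e z)

variable {E : Dt} {ρ a : ℕ}

theorem trl_e (hb : Bas E) (x z : Pt) : trl x (E.e z) = E.e (z + x) := by
  rw [← (hb z).1, trl_trl, (hb _).1]

theorem ins_Jh (hb : Bas E) (h : ρ + E.Λ.rg ≤ a) (h1 : 1 ≤ a) : Ins 0 a (Jh E.Λ E.ω ρ) :=
  (ins_Jz 0 h1).mul (Ins.sum _ fun z hz => (hb z).2.move hz (by omega))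

theorem trl_Jh (hb : Bas E) (x : Pt) (s : Cfg Pt) :
    trl x (Jh E.Λ E.ω ρ) s = Jz x s * ∑ z ∈ bl x ρ, E.e z s := by
  rw [sum_shift x]
  simp only [← trl_e hb x]
  rw [← trl_Jz x]
  rfl

/-- the scales -/
structure Sc (p : Par) (W : ℕ) (E : Dt) (R C₃ : ℝ) : Prop where
  R1 : 1 ≤ R
  C3 : 0 ≤ C₃
  big : 400 * (p.w : ℝ) ^ 2 * (C₃ + p.r₀ + 1) ≤ R
  L1 : C₃ * (400 * (p.w : ℝ) ^ 2 + 4 * W) * R ≤ E.L
  L2 : (400 * (p.w : ℝ) ^ 2 + 40 * W) * R ≤ E.L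

theorem Sc.h {p : Par} {W : ℕ} {R C₃ : ℝ} (h : Sc p W E R C₃) (hw : 4 ≤ p.w) (h1 : R ≤ 64 * p.w * ρ)
    (h2 : 4 * (ρ : ℝ) ≤ R) : ∃ k : ℕ, 3 * p.w * k ≤ ρ ∧ C₃ ≤ k ∧ p.r₀ ≤ k ∧ 1 ≤ k ∧
      R ≤ 400 * (p.w : ℝ) ^ 2 * k ∧ (k : ℝ) ≤ R ∧ 12 * ((p.w * k : ℕ) : ℝ) ≤ R := by
  have a1 : 3 * p.w * (ρ / (3 * p.w)) ≤ ρ := Nat.mul_div_le _ _
  have a2 : ρ < 3 * p.w * (ρ / (3 * p.w) + 1) := Nat.lt_mul_div_succ _ (by omega)
  set k := ρ / (3 * p.w)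
  have b1 : 3 * (p.w : ℝ) * k ≤ ρ := by exact_mod_cast a1
  have b2 : (ρ : ℝ) ≤ 3 * p.w * (k + 1) := by exact_mod_cast a2.le
  have w4 : (4 : ℝ) ≤ p.w := by exact_mod_cast hw
  have hC := h.C3
  have hr : (0 : ℝ) ≤ p.r₀ := Nat.cast_nonneg _
  have hk : (0 : ℝ) ≤ k := Nat.cast_nonneg _
  have b3 : R ≤ 192 * (p.w : ℝ) ^ 2 * (k + 1) := by nlinarith
  have w2 : (0 : ℝ) < (p.w : ℝ) ^ 2 := by positivity
  have b4 : 2 * (C₃ + p.r₀ + 1) ≤ k + 1 := by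
    by_contra hn
    nlinarith [h.big, not_le.1 hn]
  refine ⟨k, a1, by linarith, by exact_mod_cast (by linarith : (p.r₀ : ℝ) ≤ k),
    by exact_mod_cast (by linarith : (1 : ℝ) ≤ k), by nlinarith, by nlinarith, by push_cast; linarith⟩

/-- the conclusion of `Cr3Stmt` -/
def Cr (p : Par) (E : Dt) (R P M C : ℝ) : Prop :=
  ∀ (ι : Type) (I : Finset ι) (x : ι → Pt) (h : ℕ) (H : ι → Cfg Pt → ℝ) (ξ : Pt → ℝ) (q : ℤ) (σ φ : ℝ)
    (Z : Finset Pt), C ≤ h → R / M ≤ h → I.card ≤ 2 → Far p E.L (bl 0 ⌊M * R⌋₊) I x (fun _ => h) H →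
    (h : ℝ) ≤ M * R → (∀ i ∈ I, ∀ y ∈ bl (x i) h, ξ y = 0) → Chq (bl 0 ⌊M * R⌋₊) ξ q →
    (∀ z, ∃ u, Lr ξ u z h σ) → Z ⊆ bl 0 (E.N + E.N / 4) →
    (∀ z ∈ Z, ∀ i ∈ I, z ∉ bl (x i) (3 * p.w * h)) →
    ∑ z ∈ Z, |E.ω fun s => (∏ i ∈ I, H i s) * cp ξ φ s * E.e z s| ≤
      C * M ^ 5 * (1 + σ) ^ 2 * (∏ i ∈ I, nu E.Λ p.w (x i) h (H i)) * P

variable {p : Par} {W : ℕ} {R Y P C₃ Cl μ : ℝ}

/-- natural number facts on the scales -/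
theorem Sc.nat (h : Sc p W E R C₃) (hE : Env p E.Λ E.ω E.L E.N) (h1 : R ≤ 64 * p.w * ρ)
    (h2 : 2 * ρ ≤ a) (h3 : 2 * (a : ℝ) ≤ R) : p.r₀ ≤ a ∧ ρ + E.Λ.rg ≤ a ∧ 1 ≤ a ∧ p.w * a ≤ E.L ∧
      4 * (ρ : ℝ) ≤ R ∧ (a : ℝ) + 1 ≤ R ∧ 4 * (⌈2 * R⌉₊ + 1) ≤ E.L ∧
      4 * (⌈4 * W * R⌉₊ + p.w * a + 1) ≤ E.L := by
  have h2' : 2 * (ρ : ℝ) ≤ a := by exact_mod_cast h2
  have hw := hE.w4
  obtain ⟨k, k1, -, k2, k3, -⟩ := h.h hw h1 (by linarith)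
  have hg := hE.gd.2.1
  have k4 : 12 * k ≤ 3 * p.w * k := Nat.mul_le_mul_right _ (by omega)
  have w4 : (4 : ℝ) ≤ p.w := by exact_mod_cast hw
  have hR := h.R1
  have hW : (0 : ℝ) ≤ W * R := by positivity
  have a1 : (1 : ℝ) ≤ a := by exact_mod_cast (by omega : 1 ≤ a)
  have a2 : (p.w : ℝ) * a ≤ p.w * R := by gcongr; linarith
  have a3 : 4 * (p.w * R) ≤ (p.w : ℝ) ^ 2 * R := by nlinarith [mul_nonneg (sub_nonneg.2 w4) (by
    positivity : (0 : ℝ) ≤ p.w * R)]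
  have a4 : 4 * R ≤ p.w * R := by gcongr
  have a5 := h.L2
  refine ⟨by omega, by omega, by omega, ?_, by linarith, by linarith, ?_, ?_⟩
  · exact_mod_cast (by push_cast; nlinarith : ((p.w * a : ℕ) : ℝ) ≤ E.L)
  · have := Nat.ceil_lt_add_one (show 0 ≤ 2 * R by linarith)
    exact_mod_cast (by push_cast; nlinarith : ((4 * (⌈2 * R⌉₊ + 1) : ℕ) : ℝ) ≤ E.L)
  · have := Nat.ceil_lt_add_one (show 0 ≤ 4 * W * R by positivity)
    exact_mod_cast (by push_cast; nlinarith : ((4 * (⌈4 * W * R⌉₊ + p.w * a + 1) : ℕ) : ℝ) ≤ E.L)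

theorem le_floor {M : ℝ} {n : ℕ} (h : (n : ℝ) ≤ M * R) : n ≤ ⌊M * R⌋₊ := Nat.le_floor h

/-- the derivative of the left functional -/
theorem stepA (hl : ∀ (R : ℝ) (c z : Pt) (r : ℕ), 1 ≤ r → (r : ℝ) ≤ R →
      Lr (fun y => xi R (y - c)) (-fun y => psi R (y - c)) z r (Cl * (r / R) ^ 2)) (hCl : 0 ≤ Cl)
    (hE : Ed p E.Λ E.ω E.ω' E.D E.L E.N) (hb : Bas E) (hs : Sc p W E R C₃) (hM : Maj p E.Λ E.L R Y)
    (hP : 0 ≤ P) (hcr : Cr p E R P (400 * (p.w : ℝ) ^ 2 + 4 * W) C₃) (h1 : R ≤ 64 * p.w * ρ)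
    (h2 : 2 * ρ ≤ a) (h3 : 2 * (a : ℝ) ≤ R) :
    |ell E.ω' R (Jz 0) - μ * ell E.ω R (Jz 0)| ≤
      16 * nu E.Λ p.w 0 a (fun s => Jh E.Λ E.ω ρ s - μ * Jz 0 s) +
        C₃ * (400 * (p.w : ℝ) ^ 2 + 4 * W) ^ 8 * (1 + Cl) ^ 2 * (Y * P / R ^ 2) := by
  have he := hE.toEnv
  obtain ⟨n1, n2, n3, n4, n5, n6, n7, -⟩ := hs.nat he h1 h2 h3
  obtain ⟨k, k1, k2, k3, k4, k5, k6, k7⟩ := hs.h he.w4 h1 n5
  have hR := hs.R1
  have R0 : 0 < R := by linarith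
  have hN := he.le
  have h4 := A51.four_le he.toGs a
  have w4 : (4 : ℝ) ≤ p.w := by exact_mod_cast he.w4
  have W0 : (0 : ℝ) ≤ W := Nat.cast_nonneg _
  set M := 400 * (p.w : ℝ) ^ 2 + 4 * W with hMd
  have M3 : 3 ≤ M := by nlinarith
  have MR : 3 * R ≤ M * R := by gcongr
  have c2 := Nat.le_ceil (2 * R)
  have c3 := Nat.ceil_lt_add_one (show 0 ≤ 2 * R by linarith)
  have iS : Ins 0 ⌈2 * R⌉₊ (Sn R) := E30.ins_Sn R0 c2
  have iJ : Ins 0 (E.N / 4) fun s => Jz 0 s * Sn R s :=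
    (ins_Jz 0 (by omega)).mul (iS.mono (by omega))
  have iH := ins_Jh hb n2 n3
  have hρ : bl 0 ρ ⊆ E.D := (bl_mono 0 (by omega)).trans hE.lo
  have N2 : 2 * R ≤ E.N := c2.trans (by exact_mod_cast (by omega : ⌈2 * R⌉₊ ≤ E.N))
  have e1 : ell E.ω R (Jh E.Λ E.ω ρ) = ∑ z ∈ bl 0 ρ, E.ω fun s => Jz 0 s * Sn R s * E.e z s := by
    rw [← he.ex_sum (c := 0) _ fun z hz => (iJ.mono (by omega)).mul ((hb z).2.move hz (by omega)), ell]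
    congr 1; funext s
    rw [← mul_sum, Jh]; ring
  have e2 : ell E.ω' R (Jz 0) - μ * ell E.ω R (Jz 0) =
      ell E.ω R (fun s => Jh E.Λ E.ω ρ s - μ * Jz 0 s) +
        ∑ z ∈ E.D \ bl 0 ρ, E.ω fun s => Jz 0 s * Sn R s * E.e z s := by
    rw [he.ell_sub R0 N2 (iH.mono (by omega)) (ins_Jz 0 (by omega)), e1, ell, hE.der _ iJ,
      ← sum_sdiff hρ]
    ring
  have b1 := one he n1 n4 (iH.sub ((ins_Jz 0 n3).smul μ)) (iS.1.mono (bl_mono 0 (by omega)))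
    (E30.out_Sn R0 n6) (E30.abs_Sn_le R)
  have kL : p.w * k ≤ E.L := by
    have : p.w * k ≤ 3 * p.w * k := Nat.mul_le_mul_right _ (by omega)
    omega
  have k8 : R ≤ M * k := k5.trans (by gcongr; linarith)
  have ka : k ≤ a := by
    have : 12 * k ≤ 3 * p.w * k := Nat.mul_le_mul_right _ (by have := he.w4; omega)
    omega
  have b2 := hcr Unit univ (fun _ => 0) k (fun _ => Jz 0) (xi R) 1 Cl (-(π / 2)) (E.D \ bl 0 ρ) k2
    ((div_le_iff₀' (by linarith)).2 k8) (by simp)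
    ⟨by simp, fun _ _ => ins_Jz 0 k4, fun _ _ => ⟨k3, kL⟩,
      fun _ _ => bl_mono 0 (le_floor (by linarith)), fun _ _ _ _ hne => (hne rfl).elim⟩
    (by linarith) (fun _ _ y hy => xi_in R0 n6 (bl_mono 0 ka hy))
    (E30.chq_mono (E30.chq_xi R0 c2) (bl_mono 0 (le_floor (by linarith))))
    (fun z => ⟨_, by
      have := (hl R 0 z k k4 k6).mono (σ' := Cl) (mul_le_of_le_one_right hCl
        (pow_le_one₀ (by positivity) ((div_le_one R0).2 k6)))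
      simpa only [sub_zero] using this⟩)
    (sdiff_subset.trans hE.hi) fun z hz _ _ h => (mem_sdiff.1 hz).2 (bl_mono 0 k1 h)
  simp only [univ_unique, prod_singleton, ← E30.Sn_eq] at b2
  have b3 := prof_cmp he.w4 hM.2.2 (pos_Y hM).le R0 (by linarith : 1 ≤ M) k3 kL k8 (by linarith)
  have hC := hs.C3
  rw [e2]
  refine (abs_add_le _ _).trans (add_le_add b1 ((abs_sum_le_sum_abs _ _).trans (b2.trans ?_)))
  calc _ ≤ C₃ * M ^ 5 * (1 + Cl) ^ 2 * (M ^ 3 * Y / R ^ 2) * P := by gcongr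
    _ = _ := by ring

set_option maxHeartbeats 800000 in
/-- the derivative of the kernel -/
theorem stepB (hE : Ed p E.Λ E.ω E.ω' E.D E.L E.N) (hb : Bas E) (hs : Sc p W E R C₃)
    (hM : Maj p E.Λ E.L R Y) (hP : 0 ≤ P) (hcr : Cr p E R P (400 * (p.w : ℝ) ^ 2 + 4 * W) C₃)
    (h0 : R ≤ 16 * p.w * a) (h1 : R ≤ 64 * p.w * ρ) (h2 : 2 * ρ ≤ a) (h3 : 8 * ((p.w * a : ℕ) : ℝ) < R)
    {x : Pt} (x1 : R / 2 ≤ eu x) (x2 : eu x ≤ 4 * W * R) :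
    |KK E.ω' x - 2 * μ * KK E.ω x| ≤
      32 * ((16 * p.w) ^ 3 * Y / R ^ 2) * nu E.Λ p.w 0 a (fun s => Jh E.Λ E.ω ρ s - μ * Jz 0 s) +
        C₃ * (400 * (p.w : ℝ) ^ 2 + 4 * W) ^ 11 * (Y ^ 2 * P / R ^ 4) := by
  have he := hE.toEnv
  have h4 := A51.four_le he.toGs a
  have h4' : 4 * (a : ℝ) ≤ (p.w * a : ℕ) := by exact_mod_cast h4
  have a0 : (0 : ℝ) ≤ a := Nat.cast_nonneg _
  obtain ⟨n1, n2, n3, n4, n5, n6, -, n8⟩ := hs.nat he h1 h2 (by linarith)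
  obtain ⟨k, k1, k2, k3, k4, k5, k6, k7⟩ := hs.h he.w4 h1 n5
  have hR := hs.R1
  have R0 : 0 < R := by linarith
  have hN := he.le
  have w4 : (4 : ℝ) ≤ p.w := by exact_mod_cast he.w4
  have W0 : (0 : ℝ) ≤ W := Nat.cast_nonneg _
  set M := 400 * (p.w : ℝ) ^ 2 + 4 * W with hMd
  have M3 : 3 + 4 * (W : ℝ) ≤ M := by nlinarith
  have MR : (3 + 4 * W) * R ≤ M * R := by gcongr
  have WR : 0 ≤ W * R := by positivity
  have c2 := Nat.le_ceil (4 * W * R)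
  have c3 := Nat.ceil_lt_add_one (show 0 ≤ 4 * W * R by positivity)
  set n := ⌈4 * W * R⌉₊
  have xn : x ∈ bl 0 n := mem_bl_of_eu (by rw [sub_zero]; linarith)
  have xa : x ∉ bl 0 (2 * (p.w * a)) := fun h => by
    have := eu_le_of_bl h
    rw [sub_zero] at this; push_cast at this h3; linarith
  have kw : p.w * k ≤ 3 * p.w * k := Nat.mul_le_mul_right _ (by omega)
  have iJ : Ins 0 (E.N / 4) fun s => Jz 0 s * Jz x s :=
    (ins_Jz 0 (by omega)).mul ((ins_Jz x le_rfl).move xn (by omega))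
  have iH := ins_Jh hb n2 n3
  set G : Cfg Pt → ℝ := fun s => Jh E.Λ E.ω ρ s - μ * Jz 0 s with hG
  have iG : Ins 0 a G := iH.sub ((ins_Jz 0 n3).smul μ)
  have sx : bl x (p.w * a) ⊆ bl 0 E.N := bl_subset_bl xn (by omega)
  have hρ : bl 0 ρ ∪ bl x ρ ⊆ E.D := (union_subset (bl_mono 0 (by omega))
    ((bl_mono x (by omega)).trans sx)).trans hE.lo
  have hd : Disjoint (bl 0 ρ) (bl x ρ) := disjoint_left.2 fun y h1 h2 => xa (by
    simp only [mem_bl, Prod.fst_zero, Prod.snd_zero] at *; omega)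
  have iK : Ins 0 E.N fun s => μ * (Jz 0 s * Jz x s) := (iJ.mono (by omega)).smul μ
  have eK : E.ω (fun s => μ * (Jz 0 s * Jz x s)) = μ * KK E.ω x := he.ex_smul (iJ.mono (by omega)).1 μ
  have e1 : ∑ z ∈ bl 0 ρ, E.ω (fun s => Jz 0 s * Jz x s * E.e z s) =
      E.ω (fun s => G s * Jz x s) + μ * KK E.ω x := by
    rw [← he.ex_sum (c := 0) _ fun z hz => (iJ.mono (by omega)).mul ((hb z).2.move hz (by omega)), ← eK,
      ← he.ex_add ((iG.mono (by omega)).mul ((ins_Jz x le_rfl).move xn (by omega))) iK]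
    congr 1; funext s
    rw [← mul_sum, hG]; simp only [Jh]; ring
  have e1' : ∑ z ∈ bl x ρ, E.ω (fun s => Jz 0 s * Jz x s * E.e z s) =
      E.ω (fun s => Jz 0 s * trl x G s) + μ * KK E.ω x := by
    rw [← he.ex_sum (c := 0) _ fun z hz => (iJ.mono (by omega)).mul ((hb z).2.of_subset
      ((bl_subset_bl hz (by omega)).trans sx)), ← eK,
      ← he.ex_add ((ins_Jz 0 (by omega)).mul ((iG.trl x).move xn (by omega))) iK]
    congr 1; funext s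
    rw [← mul_sum, hG, trl_sub, trl_smul, trl_Jz]; simp only [trl_Jh hb]; ring
  have e2 : KK E.ω' x - 2 * μ * KK E.ω x = E.ω (fun s => G s * Jz x s) + E.ω (fun s => Jz 0 s * trl x G s) +
      ∑ z ∈ E.D \ (bl 0 ρ ∪ bl x ρ), E.ω fun s => Jz 0 s * Jz x s * E.e z s := by
    rw [KK, hE.der _ iJ, ← sum_sdiff hρ, sum_union hd, e1, e1']
    ring
  have b0 := prof_cmp he.w4 hM.2.2 (pos_Y hM).le R0 (by linarith : (1 : ℝ) ≤ 16 * p.w) n1 n4 h0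
    ((by linarith : (a : ℝ) ≤ R).trans (le_mul_of_one_le_left R0.le (by linarith)))
  have b1 := two he n1 n4 iG (ins_Jz x n3) sx xa
  have b1' := two he n1 n4 (ins_Jz 0 n3) (iG.trl x) sx xa
  rw [← trl_Jz x, S4.nu_trl he.toGs n1 (ins_Jz 0 n3), trl_Jz] at b1
  rw [S4.nu_trl he.toGs n1 iG] at b1'
  have k8 : R ≤ M * k := k5.trans (by gcongr; linarith)
  have b2 := hcr Bool univ (fun b => cond b 0 x) k (fun b => cond b (Jz 0) (Jz x)) 0 0 0 0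
    (E.D \ (bl 0 ρ ∪ bl x ρ)) k2 ((div_le_iff₀' (by linarith)).2 k8) (by simp)
    (far2 k3 (by omega) (ins_Jz 0 k4) (ins_Jz x k4) (bl_mono 0 (le_floor (by linarith)))
      (bl_subset_bl xn (le_floor (by push_cast at k7 ⊢; linarith))) fun h => xa (bl_mono 0 (by omega) h))
    (by linarith) (fun _ _ _ _ => rfl) (E30.chq_zero _) (fun z => ⟨_, Lr.zero fun _ _ => rfl⟩)
    (sdiff_subset.trans hE.hi) (by
      rintro z hz (_ | _) - h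
      exacts [(mem_sdiff.1 hz).2 (mem_union_right _ (bl_mono _ k1 h)),
        (mem_sdiff.1 hz).2 (mem_union_left _ (bl_mono _ k1 h))])
  simp only [Fintype.prod_bool, cond_true, cond_false, E30.cp_zero, cos_zero, mul_one, add_zero,
    one_pow] at b2
  rw [← trl_Jz x, S4.nu_trl he.toGs k3 (ins_Jz 0 k4), trl_Jz] at b2
  have b3 := prof_cmp he.w4 hM.2.2 (pos_Y hM).le R0 (by linarith : 1 ≤ M) k3 (by omega) k8 (by linarith)
  have hC := hs.C3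
  have g0 := A51.nu_nonneg he.ok p.w 0 a G
  have g1 := A51.nu_nonneg he.ok p.w 0 k (Jz 0)
  have Y0 := pos_Y hM
  rw [e2]
  refine (abs_add_le _ _).trans (add_le_add ((abs_add_le _ _).trans ?_)
    ((abs_sum_le_sum_abs _ _).trans (b2.trans ?_)))
  · linarith only [b1, b1', mul_le_mul_of_nonneg_left b0 g0]
  · calc _ ≤ C₃ * M ^ 5 * (M ^ 3 * Y / R ^ 2 * (M ^ 3 * Y / R ^ 2)) * P := by gcongr
      _ = _ := by field_simp

theorem Sc.ex (sc : Sc p W E R C₃) (hw : 4 ≤ p.w) : ∃ a ρ : ℕ, R ≤ 16 * p.w * a ∧ 2 * (a : ℝ) ≤ R ∧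
    R ≤ 64 * p.w * ρ ∧ 2 * ρ ≤ a ∧ 8 * ((p.w * a : ℕ) : ℝ) < R ∧ 4 * W * R ≤ E.L := by
  have w4 : (4 : ℝ) ≤ p.w := by exact_mod_cast hw
  have w0 : (0 : ℝ) < p.w := by linarith
  have R1 := sc.R1
  have b0 : 400 * (p.w : ℝ) ^ 2 * 1 ≤ R := le_trans (by
    gcongr; linarith [Nat.cast_nonneg (α := ℝ) p.r₀, sc.C3]) sc.big
  have b1 : 1600 * (p.w : ℝ) ≤ R := by nlinarith
  have a1 := (div_le_iff₀' (by positivity)).1 (Nat.le_ceil (R / (16 * p.w)))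
  have a2 := Nat.ceil_lt_add_one (show 0 ≤ R / (16 * p.w) by positivity)
  have r1 := (div_le_iff₀' (by positivity)).1 (Nat.le_ceil (R / (64 * p.w)))
  have r2 := Nat.ceil_lt_add_one (show 0 ≤ R / (64 * p.w) by positivity)
  rw [div_add_one (by positivity), lt_div_iff₀' (by positivity)] at a2 r2
  set a := ⌈R / (16 * p.w)⌉₊
  set ρ := ⌈R / (64 * p.w)⌉₊
  have a0 : (0 : ℝ) ≤ a := Nat.cast_nonneg _
  refine ⟨a, ρ, a1, by nlinarith, r1, ?_, by push_cast; linarith, le_trans ?_ sc.L2⟩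
  · have : (p.w : ℝ) * (2 * ρ) ≤ p.w * a := by linarith
    exact_mod_cast le_of_mul_le_mul_left this w0
  · gcongr; nlinarith [Nat.cast_nonneg (α := ℝ) W]

theorem kb_cmp {Ck k : ℝ} {x : Pt} (hw : 4 ≤ p.w) (hW : 2 ≤ W) (hC : 0 ≤ Ck) (R0 : 0 < R)
    (x1 : R / 2 ≤ eu x) (x2 : eu x ≤ 4 * W * R)
    (h : |k| * eu x ^ 4 ≤ Ck * Y ^ 2 * max (eu x / R) (R / eu x) ^ (2 * ew p.w)) :
    |k| ≤ 64 * W * Ck * (Y ^ 2 / R ^ 4) := by
  have W2 : (2 : ℝ) ≤ W := by exact_mod_cast hW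
  have x0 : 0 < eu x := by linarith
  have e := ew_le_one hw
  have h3 : max (eu x / R) (R / eu x) ≤ 4 * W :=
    max_le ((div_le_iff₀ R0).2 x2) ((div_le_iff₀ x0).2 (by nlinarith))
  have h4 : max (eu x / R) (R / eu x) ^ (2 * ew p.w) ≤ 4 * W :=
    (rpow_le_rpow (le_max_of_le_left (by positivity)) h3 (by linarith [e.1])).trans
      ((rpow_le_rpow_of_exponent_le (by linarith) (by linarith [e.2])).trans_eq (rpow_one _))
  rw [← mul_div_assoc, le_div_iff₀ (by positivity)]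
  calc |k| * R ^ 4 ≤ |k| * (2 * eu x) ^ 4 := by gcongr; linarith
    _ = 16 * (|k| * eu x ^ 4) := by ring
    _ ≤ 16 * (Ck * Y ^ 2 * (4 * W)) := by
        refine mul_le_mul_of_nonneg_left (h.trans ?_) (by norm_num); gcongr
    _ = _ := by ring

theorem lr_cmp {l l' K Cy : ℝ} (Y0 : 0 < Y) (R0 : 0 < R) (hC : 0 ≤ Cy) (hc : Y ≤ Cy * (R ^ 2 * |l|))
    (h : |l' - μ * l| ≤ K * (Y * P / R ^ 2)) :
    |l' / l - μ| ≤ Cy * K * P ∧ |l' / l| * Y ≤ Cy * (R ^ 2 * |l'|) := by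
  have l0 : l ≠ 0 := by rintro rfl; simp at hc; linarith
  constructor
  · refine le_of_mul_le_mul_right ?_ Y0
    calc |l' / l - μ| * Y ≤ |l' / l - μ| * (Cy * (R ^ 2 * |l|)) := by gcongr
      _ = Cy * R ^ 2 * |l' - μ * l| := by
          rw [show l' - μ * l = (l' / l - μ) * l by field_simp, abs_mul]; ring
      _ ≤ Cy * R ^ 2 * (K * (Y * P / R ^ 2)) := by gcongr
      _ = _ := by field_simp
  · calc |l' / l| * Y ≤ |l' / l| * (Cy * (R ^ 2 * |l|)) := by gcongr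
      _ = _ := by rw [abs_div]; field_simp

end Dk4

set_option maxHeartbeats 800000 in
open Dk4 in
/-- DK, NJ -/
theorem dkStmt (hS : ShStmt) (h3 : Cr3Stmt) (hK : KbStmt) (hB : BasStmt) : DkStmt := by
  intro p W D₀ hW
  obtain ⟨Cs, s1, hS⟩ := hS p W D₀ hW
  obtain ⟨C₃, s3, h3⟩ := h3 p
  obtain ⟨Ck, sk, hK⟩ := hK p
  obtain ⟨_, -, hB⟩ := hB p
  obtain ⟨Cy, sy, hy⟩ := cone hW D₀
  obtain ⟨Cl, sl, hl⟩ := lr_xi
  set M := 400 * (p.w : ℝ) ^ 2 + 4 * W with hM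
  have M0 : 0 ≤ M := by positivity
  set K₁ := 16 * Cs + C₃ * M ^ 8 * (1 + Cl) ^ 2 with hK₁
  set K₃ := 64 * W * Ck with hK₃
  set K₄ := 32 * (16 * (p.w : ℝ)) ^ 3 * Cs + C₃ * M ^ 11 with hK₄
  have k1 : 0 ≤ K₁ := by positivity
  have k3 : 0 ≤ K₃ := by positivity
  have k4 : 0 ≤ K₄ := by positivity
  obtain ⟨C, c1, c2, c3, c4, c5, c6, c7⟩ : ∃ C : ℝ, Cs ≤ C ∧ 400 * (p.w : ℝ) ^ 2 * (C₃ + p.r₀ + 1) ≤ C ∧
      C₃ * M ≤ C ∧ 400 * (p.w : ℝ) ^ 2 + 40 * W ≤ C ∧ K₄ + 2 * (Cy * K₁) * K₃ ≤ C ∧ 2 * Cy * K₃ ≤ C ∧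
      Cs + (16 * (p.w : ℝ)) ^ 3 * (Cy + Cy * K₁) ≤ C := by
    have a1 : 0 ≤ 400 * (p.w : ℝ) ^ 2 * (C₃ + p.r₀ + 1) := by positivity
    have a2 : 0 ≤ C₃ * M := by positivity
    have a3 : 0 ≤ 400 * (p.w : ℝ) ^ 2 + 40 * W := by positivity
    have a4 : 0 ≤ K₄ + 2 * (Cy * K₁) * K₃ := by positivity
    have a5 : 0 ≤ 2 * Cy * K₃ := by positivity
    have a6 : 0 ≤ (16 * (p.w : ℝ)) ^ 3 * (Cy + Cy * K₁) := by positivity
    refine ⟨Cs + 400 * (p.w : ℝ) ^ 2 * (C₃ + p.r₀ + 1) + C₃ * M + (400 * (p.w : ℝ) ^ 2 + 40 * W) +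
      (K₄ + 2 * (Cy * K₁) * K₃) + 2 * Cy * K₃ + (16 * (p.w : ℝ)) ^ 3 * (Cy + Cy * K₁), ?_⟩
    refine ⟨?_, ?_, ?_, ?_, ?_, ?_, ?_⟩ <;> linarith
  refine ⟨C, s1.trans c1, fun E R Y P hb hY hL => ?_⟩
  have hE := hb.ed
  have he := hE.toEnv
  have hw := he.w4
  have w4 : (4 : ℝ) ≤ p.w := by exact_mod_cast hw
  have hm := hb.maj
  have R1 := hm.1
  have R0 : 0 < R := by linarith
  have Y0 := pos_Y hm
  have P0 : 0 ≤ P := zero_le_one.trans hb.P1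
  have CR := le_R hw hm (by linarith) hY
  have bas : Bas E := fun z => ⟨(hB _ _ _ _ he z).2.1, (hB _ _ _ _ he z).2.2.1⟩
  have sc : Sc p W E R C₃ := ⟨R1, s3, c2.trans CR, le_trans (by gcongr) hL, le_trans (by gcongr) hL⟩
  have cr : Cr p E R P M C₃ := h3 _ _ _ _ he R P M R1 hb.P1 hb.prof (by nlinarith) sc.L1
  have hS := hS E R Y P hb (le_trans (by gcongr) hY) (le_trans (by gcongr) hL)
  have g := g_rng hb.crit (ew_le_one hw).2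
  have cn : Y ≤ Cy * (R ^ 2 * |ell E.ω R (Jz 0)|) :=
    hb.cone.trans_le (hy E.ω R R1 (zero_le_one.trans hb.D1) (by linarith [g.1]) g.2)
  have Q0 : 0 ≤ Qq E.ω' R := by rw [Qq]; positivity
  have key : ∀ a ρ : ℕ, R ≤ 16 * p.w * a → 2 * (a : ℝ) ≤ R → R ≤ 64 * p.w * ρ → 2 * ρ ≤ a → ∃ μ : ℝ,
      nu E.Λ p.w 0 a (fun s => Jh E.Λ E.ω ρ s - μ * Jz 0 s) ≤ Cs * (Y * P / R ^ 2) ∧
      |lr E.ω E.ω' R - μ| ≤ Cy * K₁ * P ∧ |lr E.ω E.ω' R| * Y ≤ Cy * Qq E.ω' R := fun a ρ a1 a2 a3 a4 => by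
    have a4' : 2 * (ρ : ℝ) ≤ a := by exact_mod_cast a4
    have r0 : (0 : ℝ) ≤ ρ := Nat.cast_nonneg _
    obtain ⟨μ, hμ⟩ := hS a ρ a1 a2 (Nat.pos_of_ne_zero (by rintro rfl; simp at a3; linarith)) a4
    have b1 : nu E.Λ p.w 0 a (fun s => Jh E.Λ E.ω ρ s - μ * Jz 0 s) ≤ Cs * (Y * P / R ^ 2) := by
      have : ((ρ : ℝ) / R) ^ (1 / 7 : ℝ) ≤ 1 :=
        rpow_le_one (by positivity) ((div_le_one R0).2 (by linarith)) (by norm_num)
      calc _ ≤ _ := hμ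
        _ ≤ Cs * P * Y * 1 / R ^ 2 := by gcongr
        _ = _ := by ring
    have b2 := stepA (μ := μ) hl sl hE bas sc hm P0 cr a3 a4 a2
    exact ⟨μ, b1, lr_cmp Y0 R0 sy cn (b2.trans (by rw [hK₁, add_mul]; linarith))⟩
  have YP : 0 ≤ Y * P := by positivity
  refine ⟨fun x x1 x2 => ?_, fun a ρ a1 a2 a3 a4 => ?_⟩
  · obtain ⟨a, ρ, a1, a2, r1, a3, a4, a5⟩ := sc.ex hw
    obtain ⟨μ, m1, m2, m3⟩ := key a ρ a1 a2 r1 a3
    have b2 := stepB (μ := μ) hE bas sc hm P0 cr a1 r1 a3 a4 x1 x2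
    have x0 : x ≠ 0 := by rintro rfl; simp at x1; linarith
    have b3 := kb_cmp hw hW sk R0 x1 x2 ((hK _ _ _ _ he R Y hm).1 x (mem_bl_of_eu (by
      rw [sub_zero]; linarith only [x2, a5])) x0)
    have b4 : |KK E.ω' x - 2 * μ * KK E.ω x| ≤ K₄ * (Y ^ 2 * P / R ^ 4) := by
      calc _ ≤ _ := b2
        _ ≤ 32 * ((16 * p.w) ^ 3 * Y / R ^ 2) * (Cs * (Y * P / R ^ 2)) +
            C₃ * M ^ 11 * (Y ^ 2 * P / R ^ 4) := by gcongr
        _ = _ := by rw [hK₄]; field_simp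
    have b5 : |KK E.ω' x - 2 * lr E.ω E.ω' R * KK E.ω x| ≤ C * Y ^ 2 * P / R ^ 4 := by
      calc _ = |(KK E.ω' x - 2 * μ * KK E.ω x) - 2 * (lr E.ω E.ω' R - μ) * KK E.ω x| := by congr 1; ring
        _ ≤ |KK E.ω' x - 2 * μ * KK E.ω x| + 2 * |lr E.ω E.ω' R - μ| * |KK E.ω x| := by
            refine (abs_sub _ _).trans_eq ?_; rw [abs_mul, abs_mul, abs_two]
        _ ≤ K₄ * (Y ^ 2 * P / R ^ 4) + 2 * (Cy * K₁ * P) * (K₃ * (Y ^ 2 / R ^ 4)) := by gcongr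
        _ = (K₄ + 2 * (Cy * K₁) * K₃) * Y ^ 2 * P / R ^ 4 := by ring
        _ ≤ _ := by gcongr
    refine ⟨b5, ?_⟩
    calc _ = |(KK E.ω' x - 2 * lr E.ω E.ω' R * KK E.ω x) + 2 * lr E.ω E.ω' R * KK E.ω x| := by
          congr 1; ring
      _ ≤ C * Y ^ 2 * P / R ^ 4 + 2 * |lr E.ω E.ω' R| * (K₃ * (Y ^ 2 / R ^ 4)) := by
          refine (abs_add_le _ _).trans (add_le_add b5 ?_)
          rw [abs_mul, abs_mul, abs_two]; gcongr
      _ = C * Y ^ 2 * P / R ^ 4 + 2 * K₃ * Y * (|lr E.ω E.ω' R| * Y) / R ^ 4 := by ring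
      _ ≤ C * Y ^ 2 * P / R ^ 4 + 2 * K₃ * Y * (Cy * Qq E.ω' R) / R ^ 4 := by gcongr
      _ = C * Y ^ 2 * P / R ^ 4 + 2 * Cy * K₃ * Y * Qq E.ω' R / R ^ 4 := by ring
      _ ≤ C * Y ^ 2 * P / R ^ 4 + C * Y * Qq E.ω' R / R ^ 4 := by gcongr
      _ = _ := by ring
  · obtain ⟨μ, m1, m2, m3⟩ := key a ρ a1 a2 a3 a4
    obtain ⟨n1, n2, n3, n4, -, n6, -⟩ := sc.nat he a3 a4 a2
    have iH := ins_Jh bas n2 n3
    have iJ := ins_Jz (0 : Pt) n3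
    have sm := semiStmt E.Λ p.w a 0 he.ok (by have := he.gd.2.1; have := A51.four_le he.toGs a; omega)
    have b1 := ((sm.1 _ (iH.sub (iJ.smul μ))).2.2.2.2 _ (iJ.smul μ)).1
    simp only [sub_add_cancel] at b1
    rw [(sm.1 _ iJ).2.2.1] at b1
    have b0 := prof_cmp hw hm.2.2 Y0.le R0 (by linarith : (1 : ℝ) ≤ 16 * p.w) n1 n4 a1
      ((by linarith : (a : ℝ) ≤ R).trans (le_mul_of_one_le_left R0.le (by linarith)))
    have b2 : |μ| ≤ |lr E.ω E.ω' R| + Cy * K₁ * P := by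
      have := abs_sub_abs_le_abs_sub μ (lr E.ω E.ω' R)
      rw [abs_sub_comm] at this; linarith
    have t0 : 0 ≤ (16 * (p.w : ℝ)) ^ 3 * Cy := by positivity
    have t2 := (sm.1 _ iJ).1
    have t1 : 0 ≤ (16 * (p.w : ℝ)) ^ 3 * (Cy * K₁) := by positivity
    calc _ ≤ _ := b1
      _ ≤ Cs * (Y * P / R ^ 2) + (|lr E.ω E.ω' R| + Cy * K₁ * P) * ((16 * p.w) ^ 3 * Y / R ^ 2) := by
          gcongr
      _ = ((16 * p.w) ^ 3 * (|lr E.ω E.ω' R| * Y) + (Cs + (16 * p.w) ^ 3 * (Cy * K₁)) * (Y * P)) / R ^ 2 := by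
          ring
      _ ≤ ((16 * p.w) ^ 3 * (Cy * Qq E.ω' R) + (Cs + (16 * p.w) ^ 3 * (Cy * K₁)) * (Y * P)) / R ^ 2 := by
          gcongr
      _ = ((16 * p.w) ^ 3 * Cy * Qq E.ω' R + (Cs + (16 * p.w) ^ 3 * (Cy * K₁)) * (Y * P)) / R ^ 2 := by
          ring
      _ ≤ (C * Qq E.ω' R + C * (Y * P)) / R ^ 2 := by gcongr <;> linarith
      _ = _ := by ring

/-- USTEP -/
theorem uStmt4 (hD : DkStmt) : UStmt := by
  intro p W D₀ hW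
  obtain ⟨C, c1, hD⟩ := hD p W D₀ hW
  obtain ⟨c, CA, hc, hA⟩ := akStmt W hW
  have W1 : (1 : ℝ) ≤ W := by exact_mod_cast (by omega : 1 ≤ W)
  have a0 : 0 ≤ |CA| * (4 * (W : ℝ)) ^ 4 * C := by positivity
  refine ⟨C + |CA| * (4 * W) ^ 4 * C, by linarith, fun E R Y P hb hY hL => ?_⟩
  have R1 := hb.maj.1
  have R0 : 0 < R := by linarith
  have Y0 := Dk4.pos_Y hb.maj
  have P0 : 0 ≤ P := zero_le_one.trans hb.P1
  have h := (hD E R Y P hb (le_trans (by gcongr; linarith) hY) (le_trans (by gcongr; linarith) hL)).1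
  obtain ⟨-, a2, -, a4⟩ := hA R R1
  have hR' : R ≤ W * R := le_mul_of_one_le_left R0.le W1
  have h0 : ∀ x, 0 ≤ (Xi.chi (W * R) x - Xi.chi R x) / eu x ^ 2 := fun x =>
    div_nonneg (sub_nonneg.2 (a4 x)) (sq_nonneg _)
  have e : gk E.ω' (W * R) - gk E.ω' R - 2 * lr E.ω E.ω' R * (gk E.ω (W * R) - gk E.ω R) = -(1 / 4) *
      ∑ x ∈ bl 0 ⌈2 * (W * R)⌉₊, (Xi.chi (W * R) x - Xi.chi R x) / eu x ^ 2 *
        (eu x ^ 4 * (KK E.ω' x - 2 * lr E.ω E.ω' R * KK E.ω x)) := by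
    rw [Step58.gk_sub _ R0 hR', Step58.gk_sub _ R0 hR', mul_left_comm (2 * lr E.ω E.ω' R), ← mul_sub,
      mul_sum, ← sum_sub_distrib]
    exact congrArg _ (sum_congr rfl fun _ _ => by ring)
  beta_reduce
  rw [e, abs_mul, abs_neg, abs_of_nonneg (by norm_num : (0 : ℝ) ≤ 1 / 4)]
  calc _ ≤ 1 * (Ak W R * ((4 * W) ^ 4 * C * Y ^ 2 * P)) := by
        refine mul_le_mul (by norm_num) ((abs_sum_le_sum_abs _ _).trans ?_) (abs_nonneg _) zero_le_one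
        rw [Ak, sum_mul]
        refine sum_le_sum fun x _ => ?_
        rw [abs_mul, abs_of_nonneg (h0 x)]
        by_cases hx : Xi.chi (W * R) x - Xi.chi R x = 0
        · simp [hx]
        · obtain ⟨h1, h2⟩ := eu_of_chi_ne R0 hR' hx
          refine mul_le_mul_of_nonneg_left ?_ (h0 x)
          have h3 := (h x (by linarith) (by linarith)).1
          rw [abs_mul, abs_of_nonneg (by positivity : 0 ≤ eu x ^ 4)]
          calc _ ≤ (4 * (W * R)) ^ 4 * (C * Y ^ 2 * P / R ^ 4) := by gcongr; exact eu_nonneg _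
            _ = _ := by field_simp
    _ ≤ 1 * (|CA| * ((4 * W) ^ 4 * C * Y ^ 2 * P)) := by gcongr; exact a2.trans (le_abs_self _)
    _ = |CA| * (4 * W) ^ 4 * C * Y ^ 2 * P := by ring
    _ ≤ _ := by gcongr; linarith

end Crest.Agent.T145.Ev
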