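import Crest.Agent.T145.TauC_5
import Crest.Agent.T145.Route_51

/-!
# Row 145: integrated non-degeneracy in the edge length (helper5)
-/

set_option autoImplicit false

namespace Crest.Agent.T145.Tau5

open Finset Filter Topology

section mdl
variable {V : Type} [DecidableEq V] {m : Mdl V} {τ τ' : ℝ} {xy : Bool}

theorem deriv_vr_nonneg (hc : m.Ctr) (hA : m.Anch) (hτ : 0 < τ) (X : Cfg V →+ ℝ) :
    0 ≤ Cv ((m.len xy τ).W 0) (fun s => X s * X s) (m.en xy τ 0) :=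
  le_trans (div_nonneg (sum_nonneg fun _ _ => sq_nonneg _) (sq_nonneg _)) (nondeg hc hA hτ X)

theorem vr_len_mono (hc : m.Ctr) (hA : m.Anch) (X : Cfg V →+ ℝ) :
    MonotoneOn (fun t => Vr ((m.len xy t).W 0) X X) (Set.Ioi 0) :=
  monotoneOn_of_hasDerivWithinAt_nonneg (convex_Ioi 0)
    (fun _ ht => (ctr_hasDerivAt_Vr hc hA ht X X).continuousAt.continuousWithinAt)
    (fun _ ht => (ctr_hasDerivAt_Vr hc hA (interior_subset ht) X X).hasDerivWithinAt)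
    fun _ ht => deriv_vr_nonneg hc hA (interior_subset ht) X

/-- integrated non-degeneracy: `V(τ') - V(τ) ≥ V(τ)² (1/τ - 1/τ') / ∑ g²` for `X = ∑ g_e ∇_e` -/
theorem vr_sub_ge (hc : m.Ctr) (hA : m.Anch) (hτ : 0 < τ) (h : τ ≤ τ') {T : Finset (V × V)}
    (hT : T ⊆ m.ed) (g : V × V → ℝ) {X : Cfg V →+ ℝ} (hX : X = ∑ e ∈ T, g e • dR e) {n : ℝ}
    (hn : 0 < n) (hg : ∑ e ∈ T, g e ^ 2 ≤ n) :
    Vr ((m.len xy τ).W 0) X X ^ 2 / n * (τ⁻¹ - τ'⁻¹) ≤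
      Vr ((m.len xy τ').W 0) X X - Vr ((m.len xy τ).W 0) X X := by
  set c := Vr ((m.len xy τ).W 0) X X ^ 2 / n with hc0
  have hd : ∀ t ∈ Set.Ici τ, HasDerivAt (fun t => Vr ((m.len xy t).W 0) X X + c * t⁻¹)
      (Cv ((m.len xy t).W 0) (fun s => X s * X s) (m.en xy t 0) + c * -(t ^ 2)⁻¹) t := fun t ht =>
    (ctr_hasDerivAt_Vr hc hA (hτ.trans_le ht) X X).fun_add
      ((hasDerivAt_inv (hτ.trans_le ht).ne').const_mul c)
  have hm := monotoneOn_of_hasDerivWithinAt_nonneg (convex_Ici τ)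
    (fun t ht => (hd t ht).continuousAt.continuousWithinAt)
    (fun t ht => (hd t (interior_subset ht)).hasDerivWithinAt) (fun t ht => by
      have ht' : τ ≤ t := interior_subset ht
      have ht0 := hτ.trans_le ht'
      have h1 := nondeg_flow (xy := xy) hc hA ht0 X hT g
      rw [← hX] at h1
      have h2 := vr_len_mono (xy := xy) hc hA X hτ ht0 ht'
      have hn0 := Md.ctr_cen (len_ctr hc xy hτ) hA
      have h3 := pow_le_pow_left₀ (hn0.wt.Vr_nonneg hn0.se X) h2 2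
      have h4 := deriv_vr_nonneg (xy := xy) hc hA ht0 X
      have h5 := mul_le_mul_of_nonneg_right (mul_le_mul_of_nonneg_left hg (sq_nonneg t)) h4
      rw [mul_neg, ← sub_eq_add_neg, sub_nonneg, hc0, ← div_eq_mul_inv, div_div,
        div_le_iff₀ (by positivity)]
      nlinarith) (Set.self_mem_Ici) h h
  simp only at hm
  linarith

end mdl

theorem XT_eq (J : Finset Pt) (l : ℕ) : XT J l =
    ∑ e ∈ (⟨J, false, 1⟩ : Lat).edI (sq 0 l), (co 0 e.2 - co 0 e.1) • dR e :=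
  AddMonoidHom.ext fun s => by
    rw [XT, pr_dv, AddMonoidHom.finsetSum_apply]; rfl

theorem sum_co_le (Λ : Lat) (l : ℕ) :
    ∑ e ∈ Λ.edI (sq 0 l), (co 0 e.2 - co 0 e.1) ^ 2 ≤ Λ.a * l ^ 2 := by
  have hs : Λ.edI (sq 0 l) ⊆ (sq 0 l ×ˢ Λ.Jp).image fun p => (p.1, p.1 + p.2) := fun e he => by
    obtain ⟨h1, h2, -⟩ := Lat.mem_edI.1 he
    exact mem_image.2 ⟨(e.1, e.2 - e.1), mem_product.2 ⟨h2, h1⟩, by simp⟩
  refine (sum_le_sum_of_subset_of_nonneg hs fun _ _ _ => sq_nonneg _).trans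
    ((sum_image_le_of_nonneg fun _ _ => sq_nonneg _).trans_eq ?_)
  rw [sum_product]
  simp [co, Lat.a, card_sq, mul_comm]

/-- `g_l (τ') - g_l (τ) ≥ a g_l (τ)² (1/τ - 1/τ')` -/
theorem gN_sub_ge {Λ : Lat} (h : Λ.Ok) {τ' : ℝ} (hτ : Λ.τ ≤ τ') (l : ℕ) :
    Λ.a * Λ.gN l ^ 2 * (Λ.τ⁻¹ - τ'⁻¹) ≤ (Λ.at' τ').gN l - Λ.gN l := by
  rcases eq_or_ne l 0 with rfl | hl
  · simp [gN_zero]
  have ha : 0 < Λ.a := one_pos.trans_le h.one_le_a
  have hl' : (0 : ℝ) < l := by exact_mod_cast Nat.pos_of_ne_zero hl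
  have h1 := vr_sub_ge (xy := Λ.xy) (h.ctr_Nr (sq 0 l) 0) (h.anch_Nr (zero_mem_sq hl)) h.2 hτ
    subset_rfl _ (XT_eq Λ.J l) (by positivity : 0 < Λ.a * l ^ 2) (sum_co_le Λ l)
  rw [gN_eq h, gN_eq (h.at' (h.2.trans_le hτ))]
  refine le_trans (le_of_eq ?_) ((div_le_div_of_nonneg_right h1 (sq_nonneg (Λ.a * l))).trans_eq
    (sub_div _ _ _))
  change _ = Vr (Λ.WN l) _ _ ^ 2 / _ * _ / _
  field_simp

/-- the same for the limit -/
theorem gI_sub_ge (hT : ∀ Λ : Lat, Λ.Ok → Tendsto Λ.gN atTop (𝓝 Λ.gI)) {Λ : Lat} (h : Λ.Ok) {τ' : ℝ}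
    (hτ : Λ.τ ≤ τ') : Λ.a * Λ.gI ^ 2 * (Λ.τ⁻¹ - τ'⁻¹) ≤ (Λ.at' τ').gI - Λ.gI :=
  le_of_tendsto_of_tendsto' ((((hT _ h).pow 2).const_mul _).mul_const _)
    ((hT _ (h.at' (h.2.trans_le hτ))).sub (hT _ h)) (gN_sub_ge h hτ)

end Crest.Agent.T145.Tau5
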