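import Crest.Agent.T145.EvTDer_12
import Crest.Agent.T145.FlBare_80
import Crest.Agent.T145.FlBas_4
import Crest.Agent.T145.MidMo_32

/-!
# Row 145, even sector: ED, the torus state with its derivative (helper82)
-/

set_option autoImplicit false

namespace Crest.Agent.T145.Ev

open Finset Real Fl Om TD12

/-- non-degeneracy on the torus -/
theorem nd_dom {Λ : Lat} {n k : ℕ} (hΛ : Λ.Ok) (hn : 2 * Λ.rg < n) (hk : 2 * (k + 1) < n) {v : Pt → ℝ}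
    (hv : Pot.Sup (bl 0 k) v) :
    om Λ n (fun s => X v s * X v s) ^ 2 ≤ Λ.τ ^ 2 * E0 (bl 0 k) v * dom Λ n fun s => X v s * X v s := by
  have i : Ins 0 (k + 1) fun s => X v s * X v s := (ins_A0 hv le_rfl).mul (ins_A0 hv le_rfl)
  have e : ∀ t, (Λ.at' t).Ok → om (Λ.at' t) n (fun s => X v s * X v s) =
      Vr (((Tb Λ n 0).len Λ.xy t).W 0) (pr (A0 v)) (pr (A0 v)) := fun t h =>
    (om_Tb h hn hk i.1).trans ((cen_Tb h n 0).Vr_eq _ _).symm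
  have k1 := Tau5.nondeg_flow (xy := Λ.xy) (m := Tb Λ n 0) (ctr_Tc hΛ n _) (anch_Tc hΛ n _) hΛ.pos
    (pr (A0 v)) (Mid.Mo32.sub_Tb hΛ hk) fun e => v e.2 - v e.1
  rw [← show pr (A0 v) = ∑ e ∈ nnL.edI (bl 0 (k + 1)), (v e.2 - v e.1) • dR e from AddMonoidHom.ext fun s => by
    rw [Mid.Mo32.A0_dv hv, pr_dv, AddMonoidHom.finsetSum_apply]; rfl, ← B80.E0_ed hv (B80.gb_bl hv)] at k1
  rw [dom_unique hΛ hn i.1 i.2 (Tau5.ctr_hasDerivAt_Vr (ctr_Tc hΛ n _) (anch_Tc hΛ n _) hΛ.pos _ _) e]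
  exact (congrArg (· ^ 2) (e Λ.τ hΛ)).trans_le k1

theorem edStmt : EdStmt := fun p Λ L N h => by
  have hΛ := h.mem.ok
  have h1 := hΛ.one_le_rg
  have h2 := h.gd.2.1
  have h3 : 100 * 4 * p.r₀ ≤ nA Λ N := le_trans (by gcongr; exact h.w4) (h.big.trans h.le)
  have h4 : 2 ^ N = 2 * 2 ^ (N - 1) := by
    rcases N with _ | N
    · simp [nA] at h3; omega
    · rw [pow_succ', Nat.add_sub_cancel]
  have h5 : nA Λ N + Λ.rg + 1 = 2 ^ (N - 1) := by unfold nA at h3 ⊢; omega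
  have hn : 2 * Λ.rg < 2 ^ N := by omega
  refine ⟨h, fun x hx => ?_, fun x hx => ?_, fun F hF => sum_congr rfl fun z _ => ?_, fun z F hF _ => ?_,
    fun F hF => ⟨?_, ?_⟩, fun k v hk hv => ?_⟩
  · simp only [Mid.Qd, mem_sq, mem_bl, Prod.fst_zero, Prod.snd_zero] at hx ⊢; omega
  · simp only [Mid.Qd, mem_sq, mem_bl, Prod.fst_zero, Prod.snd_zero] at hx ⊢; omega
  · simp only [et, mul_sub, mul_comm (F _) (tor Λ N _)]
    rw [tor, om_sub (og_tame hΛ ((hF.1.mono subset_union_left).mul ((depG_est z).mono subset_union_right))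
      (hF.2.mul (tame_est hΛ z))) ((og_ins hΛ hF).const_mul _), om_const_mul hF.1.dep, ocv, mul_comm]
  · have i := ins_trl hF z
    rw [tor'_eq hΛ hn i.1 i.2, tor'_eq hΛ hn hF.1 hF.2]
    exact dom_congr hΛ hn i.1 i.2 hF.1 hF.2 fun _ h => om_trl h hn hF.1 z
  · rw [tor'_eq hΛ hn (depG_mapH hF.1 _) (hF.2.comp _), tor'_eq hΛ hn hF.1 hF.2]
    exact dom_congr hΛ hn (depG_mapH hF.1 _) (hF.2.comp _) hF.1 hF.2 fun _ h => (om_rot h hn hF.1 0).2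
  · rw [tor'_eq hΛ hn (depG_mapH hF.1 _) (hF.2.comp _), tor'_eq hΛ hn hF.1 hF.2]
    exact dom_congr hΛ hn (depG_mapH hF.1 _) (hF.2.comp _) hF.1 hF.2 fun _ h => (om_swp h hn hF.1 0).2
  · have i : Ins 0 (k + 1) fun s => X v s * X v s := (ins_A0 hv le_rfl).mul (ins_A0 hv le_rfl)
    rw [tor'_eq hΛ hn i.1 i.2]
    exact nd_dom hΛ hn (by omega) hv

end Crest.Agent.T145.Ev
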