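import Crest.Agent.T145.FlDef2_82
import Crest.Agent.T145.FlRate_98

/-!
# Row 145, packaging of the odd flow (helper98): the base (`V → Res`, powers of two)
-/

set_option autoImplicit false

namespace Crest.Agent.T145.Fl

open Finset Real

/-! ## weak enough constants -/

/-- a default choice of constants -/
noncomputable def par0 : Mid.Par :=
  ⟨0, 0, 1 / 2, 1 / 2, 1, 1, le_rfl, by norm_num, by norm_num, by norm_num, by norm_num, one_pos, one_pos⟩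

theorem evp_true {f : Mid.Par → Prop} (h : ∀ P, f P) : Evp f := ⟨par0, fun P _ => h P⟩

theorem evp_s (s : ℕ) : Evp fun P => s ≤ P.s := ⟨{ par0 with s := s }, fun _ h => h.1⟩

theorem evp_C (C : ℝ) : Evp fun P => C ≤ P.C :=
  ⟨{ par0 with C := max C 0, C0 := le_max_right _ _ }, fun _ h => (le_max_left _ _).trans h.2.1⟩

theorem evp_d {d : ℝ} (hd : 0 < d) : Evp fun P => P.d ≤ d :=
  ⟨{ par0 with d := min d (1 / 2), d0 := lt_min hd (by norm_num)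
               d1 := min_lt_of_right_lt (by norm_num) }, fun _ h => h.2.2.1.trans (min_le_left _ _)⟩

theorem evp_θ {θ : ℝ} (hθ : θ < 1) : Evp fun P => θ ≤ P.θ :=
  ⟨{ par0 with θ := max θ (1 / 2), θ0 := lt_max_of_lt_right (by norm_num)
               θ1 := max_lt hθ (by norm_num) }, fun _ h => (le_max_left _ _).trans h.2.2.2.1⟩

theorem evp_ε {ε : ℝ} (hε : 0 < ε) : Evp fun P => P.ε₀ ≤ ε :=
  ⟨{ par0 with ε₀ := ε, ε0 := hε }, fun _ h => h.2.2.2.2.1⟩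

theorem evp_δ {δ : ℝ} (hδ : 0 < δ) : Evp fun P => P.δ ≤ δ :=
  ⟨{ par0 with δ := δ, δ0 := hδ }, fun _ h => h.2.2.2.2.2⟩

/-- `2 ^ (-c) ≤ θ` -/
theorem evp_θ' {c : ℝ} (hc : 0 < c) : Evp fun P => (1 / 2 : ℝ) ^ c ≤ P.θ :=
  evp_θ (rpow_lt_one (by norm_num) (by norm_num) hc)

namespace Dat
variable (q : Dat)

/-! ## scales -/

theorem fw_w : q.fw.w = q.v := rfl
theorem fw_x : q.fw.x = q.x := rfl
theorem fw_y : q.fw.y = q.y := rfl
theorem fw_r (k : ℕ) : q.fw.r k = q.W ^ k := pow_mul 2 q.v k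
theorem fw_κ : q.fw.κ = π * log q.W := by rw [Mid.Fw.κ, W, Nat.cast_pow, Nat.cast_ofNat]; rfl
theorem W_pow (k : ℕ) : q.W ^ k = 2 ^ (q.v * k) := (pow_mul 2 q.v k).symm
theorem one_le_W : 1 ≤ q.W := Nat.one_le_two_pow
theorem one_le_W' : (1 : ℝ) ≤ q.W := by exact_mod_cast q.one_le_W
theorem R_def (k : ℕ) : q.R k = 2 * (q.W : ℝ) ^ k := rfl
theorem R_eq (k : ℕ) : q.R k = 2 * (q.fw.r k : ℝ) := by rw [fw_r, Nat.cast_pow]; rfl
theorem R_pow (k : ℕ) : q.R k = 2 ^ (q.v * k + 1) := by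
  rw [R_def, ← Nat.cast_pow, W_pow, pow_succ']; push_cast; rfl
theorem R_succ (k : ℕ) : q.W * q.R k = q.R (k + 1) := by rw [R_def, R_def]; ring
theorem two_le_R (k : ℕ) : 2 ≤ q.R k := le_mul_of_one_le_right two_pos.le (one_le_pow₀ q.one_le_W')
theorem one_le_R (k : ℕ) : 1 ≤ q.R k := one_le_two.trans (q.two_le_R k)
theorem R_pos (k : ℕ) : 0 < q.R k := two_pos.trans_le (q.two_le_R k)
theorem R_mono {k k' : ℕ} (h : k ≤ k') : q.R k ≤ q.R k' :=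
  mul_le_mul_of_nonneg_left (pow_le_pow_right₀ q.one_le_W' h) two_pos.le
theorem L_pos (N : ℕ) : 0 < q.L N := Nat.two_pow_pos _
theorem L_pos' (N : ℕ) : (0 : ℝ) < q.L N := by exact_mod_cast q.L_pos N
theorem L_cast (N : ℕ) : (q.L N : ℝ) = 2 ^ (N - q.s) := by rw [L]; push_cast; rfl
theorem L_mono {N N' : ℕ} (h : N ≤ N') : q.L N ≤ q.L N' :=
  Nat.pow_le_pow_right two_pos (Nat.sub_le_sub_right h _)
theorem L_le (N : ℕ) : q.L N ≤ 2 ^ N := Nat.pow_le_pow_right two_pos (Nat.sub_le _ _)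
theorem L_mul {N : ℕ} (h : q.s ≤ N) : 2 ^ q.s * q.L N = 2 ^ N := by
  rw [L, ← pow_add, Nat.add_sub_cancel' h]

/-- `R_k / L_N` -/
theorem ratio {N k : ℕ} (h : q.v * k + q.s ≤ N) :
    q.R k / q.L N = 2 ^ (q.s + 1) * (1 / 2) ^ (N - q.v * k) := by
  obtain ⟨j, rfl⟩ := Nat.exists_eq_add_of_le h
  rw [R_pow, L_cast, show q.v * k + q.s + j - q.s = q.v * k + j by omega,
    show q.v * k + q.s + j - q.v * k = q.s + j by omega, one_div, inv_pow]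
  field_simp
  ring

theorem ratio_rpow {N k : ℕ} (h : q.v * k + q.s ≤ N) {c θ : ℝ} (hc : c ≤ 1)
    (hθ : (1 / 2 : ℝ) ^ c ≤ θ) : (q.R k / q.L N) ^ c ≤ 2 ^ (q.s + 1) * θ ^ (N - q.v * k) := by
  rw [q.ratio h, mul_rpow (by positivity) (by positivity)]
  refine mul_le_mul ?_ ?_ (by positivity) (by positivity)
  · exact (rpow_le_rpow_of_exponent_le (one_le_pow₀ one_le_two) hc).trans (rpow_one _).le
  · rw [← rpow_natCast, ← rpow_mul (by norm_num), mul_comm, rpow_mul (by norm_num), rpow_natCast]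
    exact pow_le_pow_left₀ (by positivity) hθ _

/-- the range of scales -/
theorem range (C : ℝ) : ∃ s, q.s ≤ s ∧ ∀ N k, q.v * k + s ≤ N → C * q.R k ≤ q.L N := by
  obtain ⟨j, hj⟩ := pow_unbounded_of_one_lt C (one_lt_two (α := ℝ))
  refine ⟨q.s + j + 1, by omega, fun N k h => ?_⟩
  rw [R_pow, L_cast]
  calc C * 2 ^ (q.v * k + 1) ≤ 2 ^ j * 2 ^ (q.v * k + 1) := by gcongr
    _ = 2 ^ (j + (q.v * k + 1)) := (pow_add _ _ _).symm
    _ ≤ _ := pow_le_pow_right₀ one_le_two (by omega)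

theorem y_nonneg (Λ : Lat) (N k : ℕ) : 0 ≤ q.y Λ N k := by
  unfold y yk
  positivity

variable {q} {F : Fa} {θ₀ : ℝ}

theorem Core.four_le_W (h : q.Core F θ₀) : 4 ≤ q.W := Nat.pow_le_pow_right two_pos h.v2

theorem Core.two_le_W (h : q.Core F θ₀) : 2 ≤ q.W := le_trans (by norm_num) h.four_le_W

theorem Core.lt_R (h : q.Core F θ₀) (k : ℕ) : (k : ℝ) < q.W ^ k := by
  exact_mod_cast Nat.lt_pow_self (lt_of_lt_of_le one_lt_two h.two_le_W)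

/-- **the base**: inside the verified range the cone argument applies -/
theorem Core.base (h : q.Core F θ₀) {y₀ : ℝ} (hy : 0 < y₀) (C : ℝ) :
    Evp fun P => ∀ l, ∃ r₁ k₀, ∀ Λ N k, q.fw.V F θ₀ P Λ l N k → k₀ ≤ k →
      q.Res Λ y₀ r₁ k₀ N ∧ q.v * (k + 1) + q.s ≤ N ∧ C * q.R (k + 1) ≤ q.L N ∧
        q.C * q.R (k + 1) ≤ q.L N := by
  obtain ⟨δ, h0, h1, h2⟩ := h.res y₀ hy
  obtain ⟨s, hs, hr⟩ := q.range C
  obtain ⟨s', -, hr'⟩ := q.range q.C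
  refine (((evp_δ h0).and (evp_s s)).and (evp_s s')).mono fun P ⟨⟨a, b⟩, c⟩ l => ?_
  obtain ⟨r₁, k₀, h3⟩ := h2 l
  refine ⟨r₁, k₀, fun Λ N k ⟨hF, hW, hN⟩ hk => ?_⟩
  rw [fw_w] at hN
  have h4 : q.v * k₀ ≤ q.v * (k + 1) := Nat.mul_le_mul_left _ (by omega)
  exact ⟨h3 Λ N hF ⟨hW.1.mono_d a, hW.2.trans (a.trans h1)⟩ (by omega), by omega,
    hr N _ (by omega), hr' N _ (by omega)⟩

namespace Res
variable {Λ : Lat} {y₀ : ℝ} {r₁ k₀ N k : ℕ} (h : q.Res Λ y₀ r₁ k₀ N)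
include h

theorem env : Env q.p Λ (tor Λ N) (q.L N) (nA Λ N) := h.pack.toEnv

theorem gs : Gs q.p Λ (q.L N) := h.pack.toEnv.toGs

theorem r1_le (hk : k₀ ≤ k) : r₁ ≤ q.W ^ k :=
  (Nat.le_self_pow two_ne_zero r₁).trans (h.r1.trans (Nat.pow_le_pow_right q.one_le_W hk))

theorem r0_le (hk : k₀ ≤ k) : q.p.r₀ ≤ q.W ^ k := h.r0.trans (h.r1_le hk)

theorem sq_le (hk : k₀ ≤ k) : (r₁ : ℝ) ^ 2 ≤ q.R k := by
  have h1 : (r₁ : ℝ) ^ 2 ≤ (q.W : ℝ) ^ k := by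
    exact_mod_cast h.r1.trans (Nat.pow_le_pow_right q.one_le_W hk)
  rw [R_def]
  exact h1.trans (le_mul_of_one_le_left (by positivity) one_le_two)

/-- the cone at scale `k` from the range condition at scale `k + 1` -/
theorem cone' (hC : 0 ≤ q.C) (hk : k₀ ≤ k) (hL : q.C * q.R (k + 1) ≤ q.L N) :
    Maj q.p Λ (q.L N) (q.R k) (q.D * q.y Λ N k) ∧ q.y Λ N k ≤ y₀ :=
  h.cone k hk ((mul_le_mul_of_nonneg_left (q.R_mono k.le_succ) hC).trans hL)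

theorem lnk' (hC : 0 ≤ q.C) (hk : k₀ ≤ k) (hL : q.C * q.R (k + 1) ≤ q.L N) :
    1 / 4 ≤ gk (tor Λ N) (q.R k) ∧ gk (tor Λ N) (q.R k) ≤ 1 :=
  h.lnk _ (q.R_mono hk) ((mul_le_mul_of_nonneg_left (q.R_mono k.le_succ) hC).trans hL)

end Res

end Dat

end Crest.Agent.T145.Fl
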