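import Crest.Agent.T145.EvDef_2
import Crest.Agent.T145.FlOBas_98

/-!
# Row 145, even sector: `EnvStmt` (helper30)
-/

set_option autoImplicit false

namespace Crest.Agent.T145.Ev

open Finset Real Fl

theorem envStmt (hE : EdStmt) (hP : EpurStmt) (hK : KeWStmt) (hL : LinkStmt) : EnvStmt := by
  intro F θ₀ w r₀ h0
  obtain ⟨W₁, h1⟩ := hK ⟨F, w, r₀, 0⟩ θ₀ h0
  obtain ⟨W₂, h2⟩ := hP w
  refine ⟨W₁ + W₂, fun q e1 e2 hv c => ?_⟩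
  subst e1 e2
  have hW : W₁ + W₂ ≤ q.W := hv.trans Nat.lt_two_pow_self.le
  obtain ⟨δ₁, s₁, d1, h1⟩ := h1 q.W (by omega)
  obtain ⟨s, s1, s2⟩ : ∃ s, s₁ ≤ s ∧ q.s ≤ s := ⟨s₁ + q.s, by omega, by omega⟩
  refine ⟨⟨F, q.p.w, q.p.r₀, 2 ^ s⟩, s, rfl, fun C => ?_⟩
  obtain ⟨ε, ε0, hε⟩ : ∃ ε : ℝ, 0 < ε ∧ (4 ≤ q.p.w → 8 * ε ≤ ew q.p.w / 100) := by
    rcases le_or_gt 4 q.p.w with h | h
    · have : (4 : ℝ) ≤ q.p.w := by exact_mod_cast h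
      have l : 0 < log (4 * (q.p.w : ℝ) ^ 4) :=
        log_pos (by nlinarith [one_le_pow₀ (show (1 : ℝ) ≤ q.p.w by linarith) (n := 4)])
      have : 0 < ew q.p.w := div_pos (div_pos (log_pos one_lt_two) l) (by norm_num)
      exact ⟨ew q.p.w / 800, by positivity, fun _ => by linarith⟩
    · exact ⟨1, one_pos, fun k => absurd k (by omega)⟩
  obtain ⟨C₃, δ₃, c3, d3, h3⟩ := hL q.p θ₀ ε h0 ε0
  obtain ⟨y₀, y0, ya, yb⟩ : ∃ y₀ : ℝ, 0 < y₀ ∧ |C| * y₀ ≤ 1 ∧ C₃ * y₀ ≤ 1 := by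
    have := abs_nonneg C
    refine ⟨1 / (|C| + C₃ + 1), by positivity, ?_, ?_⟩ <;>
      rw [mul_one_div, div_le_one (by linarith)] <;> linarith
  obtain ⟨δ₄, d4, e4, h4⟩ := c.res y₀ y0
  obtain ⟨t₁, u1, v1⟩ := Dat.range { q with s := s } C
  obtain ⟨t₂, -, v2⟩ := Dat.range { q with s := s } 1
  obtain ⟨t₃, -, v3⟩ := q.range C₃
  obtain ⟨t₄, -, v4⟩ := q.range q.C
  refine ⟨min (min δ₁ δ₃) (min δ₄ ε), t₁ + t₂ + t₃ + t₄, by positivity, by simp only at u1; omega,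
    fun l => ?_⟩
  obtain ⟨ρ₁, h1⟩ := h1 l
  obtain ⟨ρ₃, h3⟩ := h3 l
  obtain ⟨ρ₄, k₄, h4⟩ := h4 l
  obtain ⟨r₁, a1, a2, a3, a4⟩ : ∃ r₁, ρ₁ ≤ r₁ ∧ ρ₄ ≤ r₁ ∧ q.p.r₀ ≤ r₁ ∧ 8 ≤ r₁ :=
    ⟨ρ₁ + ρ₄ + q.p.r₀ + 8, by omega, by omega, by omega, by omega⟩
  refine ⟨r₁, k₄ + r₁ ^ 100 + ρ₃ + 100 * q.p.w * q.p.r₀, fun Λ N k hΛ hw hk hN => ?_⟩
  simp only at u1 v1 v2
  have m1 : q.v * k ≤ q.v * (k + 1) := Nat.mul_le_mul_left _ k.le_succ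
  have m2 : q.v * k₄ ≤ q.v * k := Nat.mul_le_mul_left _ (by omega)
  have b1 : min (min δ₁ δ₃) (min δ₄ ε) ≤ δ₁ := (min_le_left _ _).trans (min_le_left _ _)
  have b3 : min (min δ₁ δ₃) (min δ₄ ε) ≤ δ₃ := (min_le_left _ _).trans (min_le_right _ _)
  have b4 : min (min δ₁ δ₃) (min δ₄ ε) ≤ δ₄ := (min_le_right _ _).trans (min_le_left _ _)
  have b5 : min (min δ₁ δ₃) (min δ₄ ε) ≤ ε := (min_le_right _ _).trans (min_le_right _ _)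
  have res := h4 Λ N hΛ ⟨hw.1.mono_d b4, hw.2.trans (b4.trans e4)⟩ (by omega)
  have env := res.env
  have kR : (k : ℝ) ≤ q.R k := by
    have := c.lt_R k
    have := Nat.cast_nonneg (α := ℝ) k
    rw [q.R_def]; linarith
  have LL : 2 ^ (N - s) ≤ q.L N := Nat.pow_le_pow_right two_pos (by omega)
  have sN : 2 ^ s * 2 ^ (N - s) = 2 ^ N := by rw [← pow_add]; congr 1; omega
  have RL : q.R k ≤ ((2 ^ (N - s) : ℕ) : ℝ) := (one_mul _).symm.trans_le (v2 N k (by omega))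
  have kL : k ≤ 2 ^ (N - s) := by exact_mod_cast kR.trans RL
  have gs : ∀ K, Gs ⟨F, q.p.w, q.p.r₀, K⟩ Λ (2 ^ (N - s)) := fun K =>
    ⟨hΛ, env.w4, env.gd.1, env.gd.2.1, fun r a b => env.gd.2.2 r a (b.trans LL)⟩
  have env' : Env ⟨F, q.p.w, q.p.r₀, 2 ^ s⟩ Λ (tor Λ N) (2 ^ (N - s)) (nA Λ N) :=
    ⟨gs _, by simp only; omega, LL.trans env.le, by
      have : 2 ^ (N - 1) ≤ 2 ^ N := Nat.pow_le_pow_right two_pos (Nat.sub_le _ _)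
      simp only [sN, nA]; omega, env.amb, env.trl, env.d4, env.flux⟩
  have cone := res.cone k (by omega) (v4 N k (by omega))
  have lk := h3 Λ _ _ _ N env (hw.1.mono_d b3) (q.L_le N) (q.R k) y₀ (res.maj _ (q.R_mono (by omega))) yb
    (le_trans (by exact_mod_cast (show ρ₃ ≤ k by omega)) kR) (v3 N k (by omega))
  refine ⟨⟨hE _ Λ _ N env', a3, a4, fun r m G b1 b2 b3 => res.pur r m G b1 (a2.trans b2) (b3.trans LL),
    h2 ⟨F, q.p.w, q.p.r₀, 2 ^ s⟩ q.W rfl (by omega) Λ _ r₁ _ _ env' a3 a4 fun r hr hL' => h1 Λ N _ (gs 0)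
      ⟨hw.1.mono_d b1, hw.2.trans b1⟩ ((Nat.mul_le_mul_right _ (Nat.pow_le_pow_right two_pos s1)).trans
        sN.le) r (a3.trans hr) (a1.trans hr) hL'⟩,
    ⟨c.D1, rfl, ⟨cone.1.1, cone.1.2.1, fun a b1 b2 => cone.1.2.2 a b1 (b2.trans LL)⟩,
      le_trans (by exact_mod_cast (show r₁ ^ 100 ≤ k by omega)) kR, ?_⟩,
    ((mul_le_mul_of_nonneg_right (le_abs_self C) (q.y_nonneg Λ N k)).trans
      (mul_le_mul_of_nonneg_left cone.2 (abs_nonneg C))).trans ya, v1 N k (by omega)⟩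
  have e := hε env.w4
  have t := (abs_sub_le (gk (tor Λ N) (q.R k)) (Λ.gN l) (2 / π)).trans (add_le_add lk (hw.2.trans b5))
  change |π * gk (tor Λ N) (q.R k) - 2| ≤ ew q.p.w / 100
  rw [show π * gk (tor Λ N) (q.R k) - 2 = π * (gk (tor Λ N) (q.R k) - 2 / π) by field_simp, abs_mul,
    abs_of_pos pi_pos]
  nlinarith [pi_le_four, pi_pos, abs_nonneg (gk (tor Λ N) (q.R k) - 2 / π)]

end Crest.Agent.T145.Ev
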