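import Crest.Agent.T145.FlOBas_98
import Crest.Agent.T145.FlEnv_30
import Crest.Agent.T145.OmB_11

/-!
# Row 145, even sector: the `τ`-derivative of the torus state and of the flow variables (helper5)
-/

set_option autoImplicit false

namespace Crest.Agent.T145.Ev

open Finset Real Fl Om Tau5 Filter Topology

namespace D5

theorem cont_eps (xy : Bool) {τ : ℝ} (hτ : 0 < τ) (k : ℤ) : ContinuousAt (fun t => eps xy t k) τ := by
  cases xy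
  · simp only [eps_false]
    exact continuousAt_const.div (by fun_prop) (by positivity)
  · simp only [eps_true]
    exact ((Bes66.hasDerivAt_bes τ _).continuousAt.add (Bes66.hasDerivAt_bes τ _).continuousAt).div
      ((Bes66.hasDerivAt_bes τ _).continuousAt.const_mul 2) (mul_pos two_pos (Bes66.bes_pos hτ k)).ne'

/-- continuity in `τ` of an expectation with a `τ`-dependent observable -/
theorem cont_ex {L ι : Type*} [AddCommGroup L] {ρ : L → ℝ} {E : Finset ι} {d : ι → L → ℤ} {xy : Bool}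
    {τ : ℝ} (h0 : ∀ s, 0 ≤ ρ s) (hd : ∀ e ∈ E, Tame fun s => (d e s : ℝ)) (hτ : 0 < τ)
    (hS : SE (wt ρ E d xy (2 * τ))) (hW : Wt (wt ρ E d xy τ)) {F : ℝ → L → ℝ} {B : L → ℝ} (hB : Tame B)
    (hF : ∀ s, ∀ t, τ / 2 < t → ContinuousAt (fun t => F t s) t) (hb : ∀ s, ∀ t, τ / 2 < t → |F t s| ≤ B s) :
    ContinuousAt (fun t => Ex (wt ρ E d xy t) (F t)) τ := by
  refine ContinuousAt.div ?_ (hasDerivAt_Zs h0 hd hτ hS).continuousAt hW.ne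
  refine (continuousOn_tsum (s := Set.Ioo (τ / 2) (2 * τ)) (fun s t ht => ?_) (hS.ig hB.abs)
    fun s t ht => ?_).continuousAt (Ioo_mem_nhds (by linarith) (by linarith))
  · exact ((hasDerivAt_wt (by linarith [ht.1]) s).continuousAt.mul (hF s t ht.1)).continuousWithinAt
  · have h1 : 0 < t := by linarith [ht.1]
    rw [Real.norm_eq_abs, abs_mul, abs_of_nonneg (wt_nonneg h0 h1 s)]
    exact mul_le_mul (wt_mono h0 h1 ht.2.le s) ((hb s t ht.1).trans (le_abs_self _)) (abs_nonneg _)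
      (wt_nonneg h0 (by linarith) s)

variable {Λ : Lat} {n : ℕ} {S : Finset Pt} {F G : Cfg Pt → ℝ}

theorem cont_om (hΛ : Λ.Ok) {F : ℝ → Cfg Pt → ℝ} {B : Cfg Pt → ℝ} (hS : ∀ t, Dep S (F t)) (hB : Tame B)
    (hF : ∀ s, ∀ t, Λ.τ / 2 < t → ContinuousAt (fun t => F t s) t)
    (hb : ∀ s, ∀ t, Λ.τ / 2 < t → |F t s| ≤ B s) : ContinuousAt (fun t => om (Λ.at' t) n (F t)) Λ.τ := by
  have hc := hΛ.ctr_T n
  have hA := hΛ.anch_T n
  have hT : Md.Tm (Λ.T n) := Md.ctr_tm hc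
  have h1 := Md.se_Ws' (len_fm (Λ.T n) Λ.xy (show 0 < 2 * Λ.τ by linarith [hΛ.pos])) hA hT 0 0
  have h2 := Md.ctr_wts (len_ctr hc Λ.xy hΛ.pos) hA 0 0
  simp only [fun t => om_eq (Λ := Λ.at' t) (n := n) (hS t), at_T, Mdl.W_eq_Ws]
  simp only [len_Ws] at h1 h2 ⊢
  exact cont_ex (fun s => mul_nonneg (ind_nonneg _) (prod_nonneg fun x hx => hc.nn x hx _))
    (fun e _ => tame_d 0 e) hΛ.pos h1 h2 (hB.comp (lf n S)) (fun s => hF _) fun s => hb _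

theorem cont_om_est (hΛ : Λ.Ok) (hF : DepG S F) (hT : Tame F) (z : Pt) :
    ContinuousAt (fun t => om (Λ.at' t) n fun s => F s * est (Λ.at' t) z s) Λ.τ := by
  have h2 : 0 < Λ.τ / 2 := half_pos hΛ.pos
  refine cont_om hΛ (S := S ∪ bl z Λ.rg) (fun t => ((hF.mono subset_union_left).mul
    ((depG_est (Λ := Λ.at' t) z).mono subset_union_right)).dep)
    (B := fun s => |F s| * ((∑ y ∈ Λ.J, (1 + |((s (z + y) - s z : ℤ) : ℝ)| / (Λ.τ / 2)) ^ 2) / 2))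
    (hT.abs.mul ((Tame.sum _ fun y _ => tame_bd (Tame.dE (z, z + y)) _).div_const 2))
    (fun s t ht => ?_) fun s t ht => ?_
  · exact ((tendsto_finsetSum _ fun y _ => cont_eps Λ.xy (h2.trans ht) _).div_const 2).const_mul _
  · rw [abs_mul]
    refine mul_le_mul_of_nonneg_left ?_ (abs_nonneg _)
    rw [est, abs_div, abs_two]
    exact div_le_div_of_nonneg_right ((abs_sum_le_sum_abs _ _).trans
      (sum_le_sum fun y _ => eps_le' _ h2 ht.le _)) zero_le_two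

end D5
open D5

/-- the `τ`-derivative of the torus state -/
noncomputable def dom (Λ : Lat) (n : ℕ) (F : Cfg Pt → ℝ) : ℝ := ∑ z ∈ sq 0 n, ocv Λ n F (est Λ z)

section dom
variable {Λ : Lat} {n : ℕ} {S : Finset Pt} {F G : Cfg Pt → ℝ}

theorem hasDerivAt_dom (hΛ : Λ.Ok) (hn : 2 * Λ.rg < n) (hF : DepG S F) (hT : Tame F) :
    HasDerivAt (fun t => om (Λ.at' t) n F) (dom Λ n F) Λ.τ := hasDerivAt_om hΛ hn 0 hF hT

/-- any period can be used -/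
theorem dom_eq (hΛ : Λ.Ok) (hn : 2 * Λ.rg < n) (a : Pt) (hF : DepG S F) (hT : Tame F) :
    dom Λ n F = ∑ z ∈ sq a n, ocv Λ n F (est Λ z) :=
  (hasDerivAt_dom hΛ hn hF hT).unique (hasDerivAt_om hΛ hn a hF hT)

theorem cont_dom (hΛ : Λ.Ok) (hn : 2 * Λ.rg < n) (hF : DepG S F) (hT : Tame F) :
    ContinuousAt (fun t => dom (Λ.at' t) n F) Λ.τ :=
  tendsto_finsetSum _ fun z _ => (cont_om_est hΛ hF hT z).sub
    ((hasDerivAt_dom hΛ hn hF hT).continuousAt.mul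
      (by simpa using cont_om_est (n := n) hΛ (DepG.const ∅ 1) (Tame.const 1) z))

/-- an identity between expectations that holds for all `τ > 0` can be differentiated -/
theorem dom_unique (hΛ : Λ.Ok) (hn : 2 * Λ.rg < n) (hF : DepG S F) (hT : Tame F) {f : ℝ → ℝ} {f' : ℝ}
    (hf : HasDerivAt f f' Λ.τ) (h : ∀ t, (Λ.at' t).Ok → om (Λ.at' t) n F = f t) : dom Λ n F = f' :=
  (hasDerivAt_dom hΛ hn hF hT).unique (hf.congr_of_eventuallyEq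
    (by filter_upwards [Ioi_mem_nhds hΛ.pos] with t ht using h t (hΛ.at' ht)))

theorem dom_const (hΛ : Λ.Ok) (hn : 2 * Λ.rg < n) (c : ℝ) : dom Λ n (fun _ => c) = 0 :=
  dom_unique hΛ hn (DepG.const ∅ c) (Tame.const c) (hasDerivAt_const _ c) fun _ h => om_const h c

theorem dom_add (hΛ : Λ.Ok) (hn : 2 * Λ.rg < n) (hF : DepG S F) (hT : Tame F) (hG : DepG S G)
    (hU : Tame G) : dom Λ n (fun s => F s + G s) = dom Λ n F + dom Λ n G :=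
  dom_unique hΛ hn (hF.add hG) (hT.add hU) ((hasDerivAt_dom hΛ hn hF hT).add (hasDerivAt_dom hΛ hn hG hU))
    fun _ h => om_add (og_tame h hF hT) (og_tame h hG hU)

theorem dom_sub (hΛ : Λ.Ok) (hn : 2 * Λ.rg < n) (hF : DepG S F) (hT : Tame F) (hG : DepG S G)
    (hU : Tame G) : dom Λ n (fun s => F s - G s) = dom Λ n F - dom Λ n G :=
  dom_unique hΛ hn (hF.sub hG) (hT.sub hU) ((hasDerivAt_dom hΛ hn hF hT).sub (hasDerivAt_dom hΛ hn hG hU))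
    fun _ h => om_sub (og_tame h hF hT) (og_tame h hG hU)

theorem dom_smul (hΛ : Λ.Ok) (hn : 2 * Λ.rg < n) (hF : DepG S F) (hT : Tame F) (c : ℝ) :
    dom Λ n (fun s => c * F s) = c * dom Λ n F :=
  dom_unique hΛ hn (hF.comp (c * ·)) ((Tame.const c).mul hT) ((hasDerivAt_dom hΛ hn hF hT).const_mul c)
    fun _ _ => om_const_mul hF.dep c

theorem dom_sum (hΛ : Λ.Ok) (hn : 2 * Λ.rg < n) {ι : Type*} (T : Finset ι) {H : ι → Cfg Pt → ℝ}
    (hF : ∀ i ∈ T, DepG S (H i)) (hT : ∀ i ∈ T, Tame (H i)) :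
    dom Λ n (fun s => ∑ i ∈ T, H i s) = ∑ i ∈ T, dom Λ n (H i) :=
  dom_unique hΛ hn (DepG.sum hF) (Tame.sum _ hT)
    (HasDerivAt.fun_sum fun i hi => hasDerivAt_dom hΛ hn (hF i hi) (hT i hi))
    fun _ h => om_sum h T fun i hi => og_tame h (hF i hi) (hT i hi)

theorem dom_odd (hΛ : Λ.Ok) (hn : 2 * Λ.rg < n) (hF : DepG S F) (hT : Tame F) (ho : OddF F) :
    dom Λ n F = 0 :=
  dom_unique hΛ hn hF hT (hasDerivAt_const _ 0) fun _ h => om_odd h hF.dep ho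

/-- two observables with the same expectation for all `τ` -/
theorem dom_congr (hΛ : Λ.Ok) (hn : 2 * Λ.rg < n) {S' : Finset Pt} (hF : DepG S F) (hT : Tame F)
    (hG : DepG S' G) (hU : Tame G) (h : ∀ t, (Λ.at' t).Ok → om (Λ.at' t) n F = om (Λ.at' t) n G) :
    dom Λ n F = dom Λ n G := dom_unique hΛ hn hF hT (hasDerivAt_dom hΛ hn hG hU) h

end dom

/-- `∂_τ K (x)` -/
noncomputable def dK (Λ : Lat) (n : ℕ) (x : Pt) : ℝ := dom Λ n fun s => Jz 0 s * Jz x s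

/-- `∂_τ g (ρ)` -/
noncomputable def dg (Λ : Lat) (n : ℕ) (ρ : ℝ) : ℝ :=
  -(1 / 4) * ∑ x ∈ bl 0 ⌈2 * ρ⌉₊, dK Λ n x * Pot.eu x ^ 2 * Xi.chi ρ x

/-- `∂_τ ℓ_R (J)` -/
noncomputable def dl (Λ : Lat) (n : ℕ) (R : ℝ) : ℝ := dom Λ n fun s => Jz 0 s * Sn R s

/-- `∂_τ log y` -/
noncomputable def vk (Λ : Lat) (n : ℕ) (R : ℝ) : ℝ :=
  dl Λ n R / ell (om Λ n) R (Jz 0) - 2 * π ^ 2 * dg Λ n R * Xi.er R

section flow
variable {Λ : Lat} {n : ℕ}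

theorem tame_JJ (x : Pt) : Tame fun s => Jz 0 s * Jz x s := (tame_Jz 0).mul (tame_Jz x)

theorem ins_JS {R : ℝ} (hR : 0 < R) : Ins 0 (⌈2 * R⌉₊ + 1) fun s => Jz 0 s * Sn R s :=
  E30.ins_mul (Om.ins_Jz 0 (by omega)) (E30.ins_Sn hR (by push_cast; linarith [Nat.le_ceil (2 * R)]))

theorem hasDerivAt_K (hΛ : Λ.Ok) (hn : 2 * Λ.rg < n) (x : Pt) :
    HasDerivAt (fun t => KK (om (Λ.at' t) n) x) (dK Λ n x) Λ.τ :=
  hasDerivAt_dom hΛ hn (depG_JJ 0 x) (tame_JJ x)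

theorem hasDerivAt_g (hΛ : Λ.Ok) (hn : 2 * Λ.rg < n) (ρ : ℝ) :
    HasDerivAt (fun t => gk (om (Λ.at' t) n) ρ) (dg Λ n ρ) Λ.τ :=
  (HasDerivAt.fun_sum fun x _ => ((hasDerivAt_K hΛ hn x).mul_const _).mul_const _).const_mul _

theorem hasDerivAt_l (hΛ : Λ.Ok) (hn : 2 * Λ.rg < n) {R : ℝ} (hR : 0 < R) :
    HasDerivAt (fun t => ell (om (Λ.at' t) n) R (Jz 0)) (dl Λ n R) Λ.τ :=
  hasDerivAt_dom hΛ hn (ins_JS hR).1 (ins_JS hR).2

theorem cont_dg (hΛ : Λ.Ok) (hn : 2 * Λ.rg < n) (ρ : ℝ) : ContinuousAt (fun t => dg (Λ.at' t) n ρ) Λ.τ :=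
  ContinuousAt.const_mul (tendsto_finsetSum _ fun x _ =>
    ((cont_dom hΛ hn (depG_JJ 0 x) (tame_JJ x)).mul_const _).mul_const _) _

theorem cont_vk (hΛ : Λ.Ok) (hn : 2 * Λ.rg < n) {R : ℝ} (hR : 0 < R) (h : ell (om Λ n) R (Jz 0) ≠ 0) :
    ContinuousAt (fun t => vk (Λ.at' t) n R) Λ.τ :=
  ((cont_dom hΛ hn (ins_JS hR).1 (ins_JS hR).2).div (hasDerivAt_l hΛ hn hR).continuousAt h).sub
    (((cont_dg hΛ hn R).const_mul _).mul_const _)

theorem hasDerivAt_x (hΛ : Λ.Ok) (hn : 2 * Λ.rg < n) (W R : ℝ) :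
    HasDerivAt (fun t => xk (om (Λ.at' t) n) W R) (π * dg Λ n R * log W) Λ.τ :=
  (((hasDerivAt_g hΛ hn R).const_mul π).sub_const 2).mul_const _

theorem hasDerivAt_y (hΛ : Λ.Ok) (hn : 2 * Λ.rg < n) (W : ℝ) {R : ℝ} (hR : 0 < R)
    (h : ell (om Λ n) R (Jz 0) ≠ 0) :
    HasDerivAt (fun t => yk (om (Λ.at' t) n) W R) (yk (om Λ n) W R * vk Λ n R) Λ.τ := by
  have h1 := hasDerivAt_l hΛ hn hR
  have h2 : HasDerivAt (fun t => |ell (om (Λ.at' t) n) R (Jz 0)|)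
      (|ell (om Λ n) R (Jz 0)| * (dl Λ n R / ell (om Λ n) R (Jz 0))) Λ.τ := by
    refine ((hasDerivAt_abs h).comp Λ.τ h1).congr_deriv ?_
    change (SignType.sign (ell (om Λ n) R (Jz 0)) : ℝ) * _ = _
    rw [← sign_mul_self]
    field_simp
  refine ((h2.const_mul (√(π * log W * Ak W R / 2) * R ^ 2)).mul
    (((hasDerivAt_g hΛ hn R).const_mul (-2 * π ^ 2)).mul_const (Xi.er R)).exp).congr_deriv ?_
  simp only [yk, vk, show Λ.at' Λ.τ = Λ from rfl]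
  ring

theorem ell_ne {ω : (Cfg Pt → ℝ) → ℝ} {W R : ℝ} (h : yk ω W R ≠ 0) : ell ω R (Jz 0) ≠ 0 := fun h0 =>
  h (by simp [yk, h0])

end flow

/-- `p = ∂_τ x` -/
noncomputable def pk (q : Dat) (Λ : Lat) (N k : ℕ) : ℝ := π * dg Λ (2 ^ N) (q.R k) * log q.W

/-- `q = ∂_τ y` -/
noncomputable def qk (q : Dat) (Λ : Lat) (N k : ℕ) : ℝ := q.y Λ N k * vk Λ (2 ^ N) (q.R k)

section res
variable {q : Dat} {Λ : Lat} {y₀ : ℝ} {r₁ k₀ N k : ℕ}

theorem res_ok (h : q.Res Λ y₀ r₁ k₀ N) : Λ.Ok := h.gs.mem.ok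

theorem res_rg (h : q.Res Λ y₀ r₁ k₀ N) : 2 * Λ.rg < 2 ^ N := by
  have h1 := h.env.le
  have h2 := q.L_pos N
  rw [nA] at h1
  rcases N with _ | N
  · simp at h1; omega
  · rw [Nat.add_sub_cancel] at h1
    rw [pow_succ]; omega

theorem res_pos (h : q.Res Λ y₀ r₁ k₀ N) (hk : k₀ ≤ k) (hL : q.C * q.R k ≤ q.L N) : q.y Λ N k ≠ 0 :=
  fun h0 => by
    have := (h.cone k hk hL).1.2.1
    rw [h0, mul_zero] at this
    exact absurd this (not_le.2 (rpow_pos_of_pos (q.R_pos k) _))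

end res

/-- the field `der` of `Mid.Lin` -/
def LDer (F : Fa) (θ₀ : ℝ) (q : Dat) (P : Mid.Par) : Prop :=
  ∀ l, ∃ a₁, ∀ Λ N k, q.fw.V F θ₀ P Λ l N k → a₁ ≤ k →
    HasDerivAt (fun τ => q.fw.x (Λ.at' τ) N k) (pk q Λ N k) Λ.τ ∧
    HasDerivAt (fun τ => q.fw.y (Λ.at' τ) N k) (qk q Λ N k) Λ.τ ∧
    ContinuousAt (fun τ => pk q (Λ.at' τ) N k) Λ.τ ∧ ContinuousAt (fun τ => qk q (Λ.at' τ) N k) Λ.τ

theorem lDer {F : Fa} {θ₀ : ℝ} {q : Dat} (h : q.Core F θ₀) : Evp (LDer F θ₀ q) := by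
  refine (h.base one_pos 0).mono fun P hb l => ?_
  obtain ⟨r₁, k₀, hb⟩ := hb l
  refine ⟨k₀, fun Λ N k hV hk => ?_⟩
  obtain ⟨hR, -, -, hL⟩ := hb Λ N k hV hk
  have hΛ := res_ok hR
  have hn := res_rg hR
  have h0 := ell_ne (res_pos hR hk
    ((mul_le_mul_of_nonneg_left (q.R_mono k.le_succ) (zero_le_one.trans h.C1)).trans hL))
  have hy := hasDerivAt_y hΛ hn q.W (q.R_pos k) h0
  exact ⟨hasDerivAt_x hΛ hn _ _, hy, ((cont_dg hΛ hn _).const_mul π).mul_const _,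
    hy.continuousAt.mul (cont_vk hΛ hn (q.R_pos k) h0)⟩

end Crest.Agent.T145.Ev
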