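import Crest.Agent.T145.FlFar_57
import Crest.Agent.T145.FlA_51
import Crest.Agent.T145.FlRate_98
import Crest.Agent.T145.EvDer_5

/-!
# Row 145, even sector: FAR and MID for a generic centred insertion, torus form (helper58)
-/

set_option autoImplicit false

namespace Crest.Agent.T145.Ev

open Finset Pot Xi Real Fl

namespace Far58

variable {p : Par} {Λ : Lat} {ω : (Cfg Pt → ℝ) → ℝ} {L N : ℕ}

theorem nu_trl (h : Gs p Λ L) {ρ : ℕ} (hρ : p.r₀ ≤ ρ) {E : Cfg Pt → ℝ} (hE : Ins 0 ρ E) (z : Pt) :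
    nu Λ p.w z ρ (trl z E) = nu Λ p.w 0 ρ E := by
  have := h.gd.2.1
  have := A51.four_le h ρ
  exact ((semiStmt Λ p.w ρ z h.mem.ok (by omega)).2 _ hE).2.1

/-- the profile above the reference scale -/
theorem prof_le {E : Cfg Pt → ℝ} {a₀ ρ : ℕ} {R A : ℝ} (hP : Prof Λ p.w a₀ L 0 E R A) (hR : 0 < R)
    (h0 : a₀ ≤ ρ) (hL : p.w * ρ ≤ L) (hρ : R ≤ ρ) :
    nu Λ p.w 0 ρ E ≤ A * (ρ / R) ^ ew p.w / (ρ : ℝ) ^ 2 := by
  have hρ0 : (0 : ℝ) < ρ := hR.trans_le hρ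
  have h5 := hP ρ h0 hL
  rw [max_eq_left (((div_le_one hρ0).2 hρ).trans ((one_le_div hR).2 hρ))] at h5
  rw [le_div_iff₀ (by positivity), mul_comm]
  exact h5

/-- MID: far insertions, a bounded multiplier and one translate of `E` -/
theorem mid (h : Env p Λ ω L N) {c : Pt} {ι : Type} {I : Finset ι} {x : ι → Pt} {r : ι → ℕ}
    {H : ι → Cfg Pt → ℝ} {B E : Cfg Pt → ℝ} (hf : Far p L (bl c N) I x r H)
    (hB : DepG (bl c N) B) (hB0 : ∀ i ∈ I, Out (bl (x i) (r i)) B) (hB1 : ∀ s, |B s| ≤ 1) {z : Pt} {ρ : ℕ}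
    (h0 : p.r₀ ≤ ρ) (hL : p.w * ρ ≤ L) (hE : Ins 0 ρ E) (hz : bl z (p.w * ρ) ⊆ bl c N)
    (hd : ∀ i ∈ I, Disjoint (bl (x i) (p.w * r i)) (bl z (p.w * ρ))) (hBz : Out (bl z ρ) B) :
    |ω fun s => (∏ i ∈ I, H i s) * trl z E s * B s| ≤
      32 * (∏ i ∈ I, nu Λ p.w (x i) (r i) (H i)) * nu Λ p.w 0 ρ E := by
  obtain ⟨m, hm, hω⟩ := h.amb c
  have hJ : Ins z ρ (trl z E) := hE.trl z
  rw [hω _ (((DepG.prod fun i hi => (hf.ins i hi).1.mono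
    ((A51.sub_big h.toGs _ _).trans (hf.sub i hi))).mul
      (hJ.1.mono ((A51.sub_big h.toGs _ _).trans hz))).mul hB), ← nu_trl h.toGs h0 hE z]
  exact ((prodStmt p Λ L h.toGs m _ ι I x r H B hm hf hB0 hB1).2 z ρ h0 hL hz hd).2.1 _ hJ hBz

/-- one far site -/
theorem point {C : ℝ}
    (hR : ∀ (m : Mdl Pt) (z : Pt) (r R : ℕ) (F : Cfg Pt → ℝ), p.r₀ ≤ r → r ≤ R → p.w * R ≤ L →
      Nc.Amb Λ m (bl z (p.w * R)) → Ins z r F →
      nu Λ p.w z R (fun s => F s - Ex (m.W 0) F) ≤ C * ((r : ℝ) / R) ^ cw p.w * nu Λ p.w z r F)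
    (h : Env p Λ ω L N) {E G : Cfg Pt → ℝ} {c : Pt} {a ρ : ℕ} (hE : Ins 0 ρ E) (hE0 : ω E = 0)
    (h0 : p.r₀ ≤ a) (hG : Ins c a G) (hρ : a ≤ ρ) (h8 : 8 * (p.w * ρ) ≤ L) {z : Pt}
    (hz : z ∈ bl c (N + N / 4)) (hz' : z ∉ bl c (2 * (p.w * ρ))) :
    |ω fun s => G s * trl z E s| ≤
      32 * (C * ((a : ℝ) / ρ) ^ cw p.w * nu Λ p.w c a G) * nu Λ p.w 0 ρ E := by
  have hΛ := h.mem.ok
  have hw := h.w4
  have hrg := h.gd.2.1
  have hLN := h.le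
  have h4 := A51.four_le h.toGs ρ
  obtain ⟨m, hm, hω⟩ := h.amb (c.1 + (z.1 - c.1) / 2, c.2 + (z.2 - c.2) / 2)
  have hC := hm.ctr.cen hm.anch
  have s0 : bl c (p.w * ρ) ⊆ bl (c.1 + (z.1 - c.1) / 2, c.2 + (z.2 - c.2) / 2) N := fun x hx' => by
    rw [mem_bl] at hz hx' ⊢
    omega
  have sz : bl z (p.w * ρ) ⊆ bl (c.1 + (z.1 - c.1) / 2, c.2 + (z.2 - c.2) / 2) N := fun x hx' => by
    rw [mem_bl] at hz hx' ⊢
    omega
  have hd : Disjoint (bl c (p.w * ρ)) (bl z (p.w * ρ)) := disjoint_left.2 fun x h1 h2 => hz' (by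
    rw [mem_bl] at h1 h2 ⊢
    omega)
  have hJ : Ins z ρ (trl z E) := hE.trl z
  have hJ' := hJ.1.mono ((bl_mono z (by omega)).trans sz)
  have hJ0 : Ex (m.W 0) (trl z E) = 0 := by
    rw [← hω _ hJ', h.trl 0 z E (hE.1.mono (bl_mono 0 (by omega))), hE0]
  have hG' : Ins c ρ fun s => G s - Ex (m.W 0) G := (hG.mono hρ).sub_const _
  have e : ω (fun s => G s * trl z E s) = Ex (m.W 0) fun s =>
      (∏ _i ∈ (univ : Finset Unit), (G s - Ex (m.W 0) G)) * trl z E s * 1 := by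
    rw [hω _ ((hG.1.mono ((bl_mono c (by omega)).trans s0)).mul hJ')]
    simp only [univ_unique, prod_singleton, mul_one, sub_mul]
    rw [Ex_sub (hC.ig (hG.2.mul hJ.2)) (hC.ig (hJ.2.const_mul _)), Ex_const_mul, hJ0, mul_zero, sub_zero]
  have h1 := (((prodStmt p Λ L h.toGs m _ Unit univ (fun _ => c) (fun _ => ρ)
    (fun _ s => G s - Ex (m.W 0) G) (fun _ => 1) hm
    ⟨by simp, fun _ _ => hG', fun _ _ => ⟨by omega, by omega⟩, fun _ _ => s0,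
      fun _ _ _ _ hne => (hne rfl).elim⟩ (fun _ _ => Out.const _ _) fun _ => by simp).2 z ρ
    (by omega) (by omega) sz fun _ _ => hd).2.1 _ hJ (Out.const _ _))
  rw [e]
  refine h1.trans ?_
  simp only [univ_unique, prod_singleton]
  have h2 := hR m c a ρ G h0 hρ (by omega) ⟨hm.ctr, hm.anch, s0.trans hm.sub, hm.near.mono s0⟩ hG
  have h6 := A51.nu_nonneg hΛ p.w 0 ρ E
  rw [nu_trl h.toGs (by omega) hE]
  gcongr

end Far58

open Far58 in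
/-- FAR for a generic centred insertion `E` with a norm profile -/
theorem farE (p : Par) : ∃ C : ℝ, 0 ≤ C ∧ ∀ Λ ω L N, Env p Λ ω L N →
    ∀ (E : Cfg Pt → ℝ) (a₀ : ℕ) (R A : ℝ), Ins 0 a₀ E → ω E = 0 → 0 < R → 0 ≤ A →
      Prof Λ p.w a₀ L 0 E R A → ∀ (c : Pt) (a b : ℕ) (G : Cfg Pt → ℝ), p.r₀ ≤ a → a₀ ≤ a → R ≤ a →
      16 * p.w * a ≤ b → 16 * p.w * a ≤ L → Ins c a G →
      ∑ z ∈ bl c (N + N / 4) \ bl c b, |ω fun s => G s * trl z E s| ≤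
        C * nu Λ p.w c a G * A * (a / R) ^ ew p.w *
          (((a : ℝ) / b) ^ (cw p.w / 2) + ((a : ℝ) / L) ^ (cw p.w / 2)) := by
  obtain ⟨C, hC, hR⟩ := rateStmt p.w
  have hc0 := cw_nonneg p.w
  refine ⟨32 * C * (16 * p.w) ^ 3 * (8 / (cw p.w / 2) + 16 * (p.K : ℝ) ^ 2), by positivity,
    fun Λ ω L N h E a₀ R Y hE hE0 hR0 hY hP c a b G h0 h0' hRa hb hL hG => ?_⟩
  have hw := h.w4
  have hcp := cw_pos (show 1 ≤ p.w by omega)
  have hc1 := Far57.cw_le (show 1 ≤ p.w by omega)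
  have ha : 1 ≤ a := by exact_mod_cast hR0.trans_le hRa
  have hwa : 4 * a ≤ p.w * a := Nat.mul_le_mul_right a hw
  have hb' : 16 * (p.w * a) ≤ b := by rw [← mul_assoc]; exact hb
  have hL' : 16 * (p.w * a) ≤ L := by rw [← mul_assoc]; exact hL
  have hν := A51.nu_nonneg h.mem.ok p.w c a G
  set A := 32 * C * (16 * p.w) ^ 3 * nu Λ p.w c a G * Y * (a / R) ^ ew p.w with hA
  have hA0 : 0 ≤ A := by positivity
  set γ := cw p.w / 2 with hγ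
  have key : ∀ k, b ≤ k → k < N + N / 4 → ∀ z ∈ bl c (k + 1) \ bl c k,
      |ω fun s => G s * trl z E s| ≤ A * (((a : ℝ) / ((k : ℝ) + 1)) ^ γ / ((k : ℝ) + 1) ^ 2 +
        ((a : ℝ) / L) ^ γ / (L : ℝ) ^ 2) := fun k hk hk' z hz => by
    obtain ⟨hz1, hz2⟩ := mem_sdiff.1 hz
    set μ := min (k + 1) L with hμ
    have hμ1 : 16 * (p.w * a) ≤ μ := le_min (by omega) hL'
    set ρ := μ / (8 * p.w) with hρ
    have h1 : 8 * p.w * ρ ≤ μ := Nat.mul_div_le _ _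
    have h2 : μ < 8 * p.w * (ρ + 1) := Nat.lt_mul_div_succ _ (by omega)
    have h3 : 2 * a ≤ ρ := (Nat.le_div_iff_mul_le (by omega)).2 (by nlinarith)
    have h1' : 8 * (p.w * ρ) ≤ μ := by rw [← mul_assoc]; exact h1
    have h4 : μ ≤ 16 * p.w * ρ := by nlinarith
    have h5 := point (hR p Λ L rfl h.toGs) h (hE.mono (by omega)) hE0 h0 hG (ρ := ρ) (by omega) (by omega)
      (bl_mono c (by omega) hz1) fun h6 => hz2 (bl_mono c (by omega) h6)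
    have h7 := prof_le hP hR0 (ρ := ρ) (by omega) (by omega)
      (hRa.trans (by exact_mod_cast (show a ≤ ρ by omega)))
    have hμ0 : (0 : ℝ) < μ := by exact_mod_cast (show 0 < μ by omega)
    have h6 := Far57.arith (t := 16 * p.w) (m := μ) (ρ := ρ) (a := a) hc0 hc1 (by exact_mod_cast ha) hR0
      (by exact_mod_cast (show a ≤ ρ by omega)) (by exact_mod_cast (show 1 ≤ 16 * p.w by omega)) hμ0
      (by exact_mod_cast h4)
    calc _ ≤ _ := h5.trans (mul_le_mul_of_nonneg_left h7 (by positivity))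
      _ = 32 * C * nu Λ p.w c a G * Y *
          (((a : ℝ) / ρ) ^ cw p.w * ((ρ / R) ^ (cw p.w / 100) / (ρ : ℝ) ^ 2)) := by rw [ew]; ring
      _ ≤ 32 * C * nu Λ p.w c a G * Y * ((16 * p.w) ^ 3 * (a / R) ^ (cw p.w / 100) *
          (((a : ℝ) / μ) ^ γ / (μ : ℝ) ^ 2)) := by gcongr
      _ = A * (((a : ℝ) / μ) ^ γ / (μ : ℝ) ^ 2) := by rw [hA, ew]; ring
      _ ≤ _ := by
          refine mul_le_mul_of_nonneg_left ?_ hA0
          rcases min_choice (k + 1) L with h7 | h7 <;> rw [hμ, h7]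
          · push_cast; exact le_add_of_nonneg_right (by positivity)
          · exact le_add_of_nonneg_left (by positivity)
  refine (Far57.shell _ _ c b _ key).trans ?_
  have hL0 : (0 : ℝ) < L := by exact_mod_cast (show 0 < L by omega)
  have h1 := Far57.tele (γ := γ) (a := a) (by positivity) (by positivity) (show 1 ≤ b by omega) (N + N / 4)
  have h2 : ∑ k ∈ Ico b (N + N / 4), 8 * ((k : ℝ) + 1) ≤ 16 * (p.K : ℝ) ^ 2 * (L : ℝ) ^ 2 := by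
    refine (Far57.sum_lin _ _).trans ?_
    have h3 : 2 * (N + N / 4) + 1 ≤ 4 * (p.K * L) := by have := h.leK; have := h.le; omega
    have h4 : (2 * ((N + N / 4 : ℕ) : ℝ) + 1) ≤ 4 * (p.K * L) := by exact_mod_cast h3
    exact (pow_le_pow_left₀ (by positivity) h4 2).trans_eq (by ring)
  calc _ = A * (∑ k ∈ Ico b (N + N / 4), 8 * ((k : ℝ) + 1) *
          (((a : ℝ) / ((k : ℝ) + 1)) ^ γ / ((k : ℝ) + 1) ^ 2) +
        (∑ k ∈ Ico b (N + N / 4), 8 * ((k : ℝ) + 1)) * (((a : ℝ) / L) ^ γ / (L : ℝ) ^ 2)) := by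
        rw [sum_mul, ← sum_add_distrib, mul_sum]
        exact sum_congr rfl fun _ _ => by ring
    _ ≤ A * (8 / γ * ((a : ℝ) / b) ^ γ +
        16 * (p.K : ℝ) ^ 2 * (L : ℝ) ^ 2 * (((a : ℝ) / L) ^ γ / (L : ℝ) ^ 2)) := by gcongr
    _ = A * (8 / γ * ((a : ℝ) / b) ^ γ + 16 * (p.K : ℝ) ^ 2 * ((a : ℝ) / L) ^ γ) := by
        congr 2; field_simp
    _ ≤ A * ((8 / γ + 16 * (p.K : ℝ) ^ 2) * ((a : ℝ) / b) ^ γ +
        (8 / γ + 16 * (p.K : ℝ) ^ 2) * ((a : ℝ) / L) ^ γ) := by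
        gcongr
        · exact le_add_of_nonneg_right (by positivity)
        · exact le_add_of_nonneg_left (by positivity)
    _ = _ := by rw [hA]; ring

namespace Far58

/-- the centred energy star at the origin -/
noncomputable def e0 (Λ : Lat) (n : ℕ) (s : Cfg Pt) : ℝ := Om.est Λ 0 s - Om.om Λ n (Om.est Λ 0)

variable {Λ : Lat} {n : ℕ} {S : Finset Pt} {G : Cfg Pt → ℝ}

theorem ins_e0 (hΛ : Λ.Ok) (n : ℕ) : Ins 0 Λ.rg (e0 Λ n) := (Om.ins_est hΛ 0).sub_const _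

theorem om_est (hΛ : Λ.Ok) (hn : 2 * Λ.rg < n) (z : Pt) :
    Om.om Λ n (Om.est Λ z) = Om.om Λ n (Om.est Λ 0) := by
  rw [← Om.om_trl hΛ hn (Om.depG_est 0) z, Om.trl_est, zero_add]

theorem trl_e0 (z : Pt) (s : Cfg Pt) : trl z (e0 Λ n) s = Om.est Λ z s - Om.om Λ n (Om.est Λ 0) := by
  have := congrFun (Om.trl_est (Λ := Λ) z 0) s
  rw [zero_add] at this
  rw [← this]; rfl

theorem om_e0 (hΛ : Λ.Ok) (n : ℕ) : Om.om Λ n (e0 Λ n) = 0 := by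
  unfold e0
  rw [Om.om_sub (Om.og_ins hΛ (Om.ins_est hΛ 0)) (Om.og_const hΛ _), Om.om_const hΛ, sub_self]

theorem ocv_est (hΛ : Λ.Ok) (hn : 2 * Λ.rg < n) (hG : DepG S G) (hT : Tame G) (z : Pt) :
    Om.ocv Λ n G (Om.est Λ z) = Om.om Λ n fun s => G s * trl z (e0 Λ n) s := by
  simp only [trl_e0, mul_sub, mul_comm (G _) (Om.om Λ n _)]
  rw [Om.om_sub (Om.og_tame hΛ ((hG.mono subset_union_left).mul ((Om.depG_est z).mono subset_union_right))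
    (hT.mul (Om.tame_est hΛ z))) ((Om.og_tame hΛ hG hT).const_mul _), Om.om_const_mul hG.dep, Om.ocv,
    om_est hΛ hn, mul_comm (Om.om Λ n G)]

/-- the torus sum splits into a ball and a far part -/
theorem dom_sub_le (hΛ : Λ.Ok) (hG : DepG S G) (hT : Tame G) {N b : ℕ} (c : Pt) (hn : 2 * Λ.rg < n)
    (hb : 2 * b < n) (h5 : n ≤ 2 * (N + N / 4) + 1) :
    |dom Λ n G - ∑ z ∈ bl c b, Om.om Λ n fun s => G s * trl z (e0 Λ n) s| ≤
      ∑ z ∈ bl c (N + N / 4) \ bl c b, |Om.om Λ n fun s => G s * trl z (e0 Λ n) s| := by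
  rw [dom_eq hΛ hn (c - (((n / 2 : ℕ) : ℤ), ((n / 2 : ℕ) : ℤ))) hG hT]
  simp only [ocv_est hΛ hn hG hT]
  rw [← sum_sdiff_eq_sub (Om.bl_subset_sq c hb)]
  refine (abs_sum_le_sum_abs _ _).trans (sum_le_sum_of_subset_of_nonneg
    (sdiff_subset_sdiff (fun x hx => ?_) subset_rfl) fun _ _ _ => abs_nonneg _)
  simp only [mem_bl, mem_sq, Prod.fst_sub, Prod.snd_sub] at hx ⊢
  omega

end Far58

open Far58 in
/-- FAR, torus form: `∂_τ ω (G)` is read on a ball -/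
theorem farD (p : Par) : ∃ C : ℝ, 0 ≤ C ∧ ∀ Λ n L N, Env p Λ (Om.om Λ n) L N → 2 * Λ.rg < n →
    n ≤ 2 * (N + N / 4) + 1 → ∀ (a₀ : ℕ) (R A : ℝ), Λ.rg ≤ a₀ → 0 < R → 0 ≤ A →
      Prof Λ p.w a₀ L 0 (e0 Λ n) R A → ∀ (c : Pt) (a b : ℕ) (G : Cfg Pt → ℝ), p.r₀ ≤ a → a₀ ≤ a → R ≤ a →
      16 * p.w * a ≤ b → 16 * p.w * a ≤ L → 2 * b < n → Ins c a G →
      |dom Λ n G - ∑ z ∈ bl c b, Om.om Λ n fun s => G s * trl z (e0 Λ n) s| ≤
        C * nu Λ p.w c a G * A * (a / R) ^ ew p.w *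
          (((a : ℝ) / b) ^ (cw p.w / 2) + ((a : ℝ) / L) ^ (cw p.w / 2)) := by
  obtain ⟨C, hC, h⟩ := farE p
  exact ⟨C, hC, fun Λ n L N hE hn h5 a₀ R A h0 hR hA hP c a b G h1 h2 h3 h4 h6 hb hG =>
    (dom_sub_le hE.mem.ok hG.1 hG.2 c hn hb h5).trans (h Λ _ L N hE _ a₀ R A
      ((ins_e0 hE.mem.ok n).mono h0) (om_e0 hE.mem.ok n) hR hA hP c a b G h1 h2 h3 h4 h6 hG)⟩

end Crest.Agent.T145.Ev
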