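import Crest.Agent.T145.EvDef_2
import Crest.Agent.T145.EvFar_58

/-!
# Row 145, even sector: `Ev.FarEStmt` (helper58)
-/

set_option autoImplicit false

namespace Crest.Agent.T145.Ev

open Finset Pot Xi Real Fl

namespace Far58

variable {p : Par} {Λ : Lat} {ω : Sta} {L N : ℕ}

theorem rg_le (h : Env p Λ ω L N) : Λ.rg ≤ N := by
  have h1 := h.gd.2.1
  have h2 := h.big
  have h3 := h.le
  have h4 := A51.four_le h.toGs p.r₀
  rw [mul_assoc] at h2
  omega

theorem trl_et (h : Env p Λ ω L N) (z : Pt) : trl z (et Λ ω 0) = et Λ ω z := by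
  have e : trl z (Om.est Λ 0) = Om.est Λ z := by rw [Om.trl_est, zero_add]
  have e' := h.trl 0 z _ ((Om.depG_est 0).mono (bl_mono 0 (rg_le h)))
  rw [e] at e'
  funext s
  rw [et, e', ← e]; rfl

theorem ins_et (hΛ : Λ.Ok) (ω : Sta) (z : Pt) : Ins z Λ.rg (et Λ ω z) := (Om.ins_est hΛ z).sub_const _

theorem om_et (h : Env p Λ ω L N) : ω (et Λ ω 0) = 0 := by
  obtain ⟨m, hm, hω⟩ := h.amb 0
  have hC := hm.ctr.cen hm.anch
  rw [hω _ ((ins_et h.mem.ok ω 0).1.mono (bl_mono 0 (rg_le h)))]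
  unfold et
  rw [Ex_sub (hC.ig (Om.tame_est h.mem.ok 0)) (hC.ig (Tame.const _)), hC.wt.ex_const,
    hω _ ((Om.depG_est 0).mono (bl_mono 0 (rg_le h))), sub_self]

/-- change of the reference scale of a profile -/
theorem prof_ref {w a₀ : ℕ} {z : Pt} {F : Cfg Pt → ℝ} {R R' P : ℝ} (h : Prof Λ w a₀ L z F R P)
    (h0 : 1 ≤ a₀) (hR : 0 < R) (hR' : 0 < R') (hP : 0 ≤ P) :
    Prof Λ w a₀ L z F R' (P * max (R' / R) (R / R') ^ ew w) := fun a ha hL => by
  have ha0 : (0 : ℝ) < a := by exact_mod_cast h0.trans ha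
  have hw : 0 ≤ ew w := div_nonneg (cw_nonneg w) (by norm_num)
  refine (h a ha hL).trans ?_
  rw [mul_assoc, ← mul_rpow (by positivity) (by positivity)]
  refine mul_le_mul_of_nonneg_left (rpow_le_rpow (by positivity) (max_le ?_ ?_) hw) hP
  · calc (a : ℝ) / R = R' / R * (a / R') := by field_simp
      _ ≤ _ := by gcongr <;> exact le_max_left _ _
  · calc R / a = R / R' * (R' / a) := by field_simp
      _ ≤ _ := by gcongr <;> exact le_max_right _ _

end Far58

open Far58 in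
theorem farEStmt : FarEStmt := fun p => by
  obtain ⟨C, hC, h⟩ := farE p
  refine ⟨C, hC, fun Λ ω L N hE R P hR hP hp a b G h0 hb hL hG => ?_⟩
  have h1 := hE.gd.2.1
  have h2 := hE.mem.ok.one_le_rg
  have ha : (0 : ℝ) < a := by exact_mod_cast (show 0 < a by omega)
  have h3 := h Λ ω L N hE _ p.r₀ a _ ((ins_et hE.mem.ok ω 0).mono (by omega)) (om_et hE) ha (by positivity)
    (prof_ref hp (by omega) hR ha hP) 0 a b G h0 h0 le_rfl hb hL hG
  simp only [trl_et hE, div_self ha.ne', one_rpow, mul_one] at h3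
  exact h3.trans_eq (by ring)

end Crest.Agent.T145.Ev
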