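import Crest.Agent.T145.EvDef_2
import Crest.Agent.T145.KrWL_56
import Crest.Agent.T145.PotAn_44
import Crest.Agent.T145.PotD_17

/-!
# Row 145, module Ev: HF, a flow that avoids a hole (helper89)
-/

set_option autoImplicit false

namespace Crest.Agent.T145.Ev

open Finset Pot Xi Fl Kw56 H59

/-- HF -/
theorem hfStmt : HfStmt := by
  obtain ⟨P, P0, hP⟩ := An44.poin_an 2
  refine ⟨324 * (2 + 16 * P), by positivity, fun v z c n k₁ c1 cn hv h0 hk => ?_⟩
  have man : ∀ {p q : ℕ} {x : Pt}, x ∈ an z p q ↔ (p : ℤ) < ds z x ∧ ds z x ≤ q := fun {p q x} => by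
    rw [an, mem_sdiff, mem_bl_ds, mem_bl_ds, not_le, and_comm]
  have hE0 : E0 (bl z n) v = eD nL (bl z n) v v := by
    rw [eD_sbp nL_ok v hv, E0, ← sum_neg_distrib]
    exact sum_congr rfl fun x _ => by rw [A0_apply, lap, nL_J]; ring
  have e0 : 0 ≤ E0 (bl z n) v := hE0 ▸ (sy_eD _).nonneg v
  refine f2_of_dual (U := an z c (n + 1)) (ed := nL.edI (an z c (n + 1)))
    (fun e he => (Lat.mem_edI.1 he).2) (fun x hx => ?_) (by positivity) fun u => ?_
  · by_cases h : x ∈ bl z (n + 1)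
    · exact h0 x (by rw [man] at hx; rw [mem_bl_ds] at *; push_cast at *; omega)
    · exact sup_A0 hv x h
  have r1 : (1 : ℝ) ≤ c := by exact_mod_cast c1
  have b1 : (2 * c : ℝ) < 4 * c := by linarith
  obtain ⟨a, ha⟩ : ∃ a, a = av (an z c (4 * c)) u := ⟨_, rfl⟩
  obtain ⟨ζ, hζ⟩ : ∃ ζ : Pt → ℝ, ζ = fun x => 1 - rmp z (2 * c) (4 * c) x := ⟨_, rfl⟩
  obtain ⟨w, hw⟩ : ∃ w : Pt → ℝ, w = fun x => ζ x * (u x - a) := ⟨_, rfl⟩
  have w1 : ∀ x, (4 * c : ℤ) ≤ ds z x → w x = u x - a := fun x h => by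
    simp only [hw, hζ, rmp_zero b1 (show (4 * c : ℝ) ≤ ds z x by exact_mod_cast h), sub_zero, one_mul]
  have near : ∀ e : Pt × Pt, e.2 - e.1 ∈ nL.Jp → e.2 ∈ bl e.1 1 := fun e he => by
    have := Lat.edge_near he; rwa [nL_rg] at this
  have lip : ∀ e : Pt × Pt, e.2 - e.1 ∈ nL.Jp → |ds z e.2 - ds z e.1| ≤ 1 := fun e he => by
    simpa using ds_lip z (near e he)
  have i1 : Pot.ip (an z c (n + 1)) (A0 v) u = eD nL (bl z n) w v := by
    have s1 : ∑ x ∈ bl z (n + 1), w x * A0 v x = ∑ x ∈ bl z (n + 1), (u x - a) * A0 v x :=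
      sum_congr rfl fun x _ => by
        by_cases h : x ∈ bl z (4 * c)
        · rw [h0 x h, mul_zero, mul_zero]
        · rw [w1 x (by rw [mem_bl_ds] at h; push_cast at h; omega)]
    have s2 := green0 (D := bl z n) (D' := bl z (n + 1)) (bl_one_sub le_rfl) w hv
    rw [eD_sbp nL_ok w hv, ← sum_neg_distrib, sum_congr rfl fun x _ =>
      show -(lapJ nL.J w x * v x) = A0 w x * v x by rw [A0_apply, lap, nL_J]; ring, s2, s1]
    simp only [sub_mul, sum_sub_distrib, ← mul_sum, sum_A0 le_rfl hv, mul_zero, sub_zero]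
    rw [Pot.ip, an, sum_sdiff_eq_sub (bl_mono z (by omega)), sum_eq_zero (s := bl z c) fun x hx => by
      rw [h0 x (bl_mono z (by omega) hx), zero_mul], sub_zero]
    exact sum_congr rfl fun x _ => mul_comm _ _
  obtain ⟨q, hq⟩ : ∃ q : Pt × Pt → Prop, q = fun e => (4 * c : ℤ) ≤ ds z e.1 ∧ (4 * c : ℤ) ≤ ds z e.2 :=
    ⟨_, rfl⟩
  classical
  obtain ⟨E₁, h1⟩ : ∃ E₁, E₁ = (nL.edT (bl z n)).filter q := ⟨_, rfl⟩
  obtain ⟨E₂, h2⟩ : ∃ E₂, E₂ = (nL.edT (bl z n)).filter fun e => ¬ q e := ⟨_, rfl⟩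
  have i2 : eD nL (bl z n) w v = edF E₁ w v + edF E₂ w v := by
    rw [eD, edF_apply, edF_apply, edF_apply, h1, h2, sum_filter_add_sum_filter_not]
  have m1 : ∀ e ∈ E₁, e ∈ nL.edI (an z c (n + 1)) ∧ (4 * c : ℤ) ≤ ds z e.1 ∧ (4 * c : ℤ) ≤ ds z e.2 :=
    fun e he => by
      rw [h1, mem_filter, Lat.mem_edT, mem_bl_ds, mem_bl_ds, hq] at he
      have := abs_le.1 (lip e he.1.1)
      refine ⟨Lat.mem_edI.2 ⟨he.1.1, ?_⟩, he.2⟩
      rw [man, man]; push_cast; omega
  have m2 : ∀ e ∈ E₂, e.2 - e.1 ∈ nL.Jp ∧ ds z e.1 ≤ 4 * c ∧ ds z e.2 ≤ 4 * c := fun e he => by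
    rw [h2, mem_filter, Lat.mem_edT, hq] at he
    have := abs_le.1 (lip e he.1.1)
    exact ⟨he.1.1, by omega⟩
  obtain ⟨E, hE⟩ : ∃ E, E = edF (nL.edI (an z c (n + 1))) u u := ⟨_, rfl⟩
  have E0' : 0 ≤ E := hE ▸ (sy_edF _).nonneg u
  have t1 : edF E₁ w w ≤ E := by
    rw [hE]
    refine le_trans (le_of_eq ?_) (Pot.edF_mono (fun e he => (m1 e he).1) u)
    rw [edF_self, edF_self]
    exact sum_congr rfl fun e he => by rw [w1 _ (m1 e he).2.1, w1 _ (m1 e he).2.2]; ring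
  have t2 : edF E₁ v v ≤ E0 (bl z n) v := by
    rw [hE0, h1]; exact Pot.edF_mono (filter_subset _ _) v
  have t3 : edF E₂ v v ≤ 162 * (c * k₁) ^ 2 := by
    refine (Pot.edF_mono (ed := nL.edI (bl z (4 * c))) (fun e he => Lat.mem_edI.2 ⟨(m2 e he).1, ?_⟩) v).trans ?_
    · rw [mem_bl_ds, mem_bl_ds]; exact_mod_cast (m2 e he).2
    · have c2 : ((bl z (4 * c)).card : ℝ) ≤ 81 * (c : ℝ) ^ 2 := by
        rw [card_bl]; push_cast; nlinarith
      rw [← eN, eN_apply]
      refine (sum_le_card_nsmul _ _ (81 * (c : ℝ) ^ 2 * k₁ ^ 2) fun y hy => ?_).trans ?_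
      · refine (sum_le_card_nsmul _ _ (k₁ ^ 2) fun x hx => ?_).trans ?_
        · have := abs_le.1 (hk x (mem_filter.1 hx).1 y (Lat.mem_Jp.1 hy).1)
          nlinarith
        · rw [nsmul_eq_mul]
          exact mul_le_mul_of_nonneg_right ((Nat.cast_le.2 (card_filter_le _ _)).trans c2) (sq_nonneg _)
      · rw [nL_Jp, card_pair (by decide), nsmul_eq_mul]; push_cast; exact le_of_eq (by ring)
  have t4 : edF E₂ w w ≤ (2 + 16 * P) * E := by
    have r0 : ∀ x, 0 ≤ rmp z (2 * c) (4 * c) x ∧ rmp z (2 * c) (4 * c) x ≤ 1 := fun x =>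
      ⟨le_max_left _ _, max_le zero_le_one (min_le_left _ _)⟩
    have u1 := edF_cut_le (Λ := nL) (ed := E₂) (fun e he => (m2 e he).1) (S := an z c (4 * c))
      (S' := an z c (4 * c)) (ζ := ζ) (L := 1 / (2 * c))
      (fun x => by rw [hζ, abs_le]; constructor <;> linarith [(r0 x).1, (r0 x).2])
      (fun e he hne => by
        have d1 := abs_le.1 (lip e (m2 e he).1)
        have d2 : (2 * c : ℤ) < ds z e.1 := by
          by_contra h
          exact hne (by simp only [hζ]; rw [rmp_one b1 (by exact_mod_cast not_lt.1 h), sub_self])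
        have := (m2 e he).2
        rw [man, man]; push_cast; omega)
      (fun e he hne => by
        have d1 := (rmp_ne (z := z) b1 (near e (m2 e he).1) fun h => hne (by simp only [hζ, h])).2.1
        have d2 : (2 * c : ℤ) - 1 < ds z e.2 := by exact_mod_cast d1
        have := (m2 e he).2
        refine ⟨by rw [man]; push_cast; omega, ?_⟩
        simp only [hζ]
        rw [sub_sub_sub_cancel_left, abs_sub_comm]
        exact (rmp_lip z b1 (near e (m2 e he).1)).trans (le_of_eq (by push_cast; ring)))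
      fun x => u x - a
    have u2 := hP z c (4 * c) u (by omega)
    have u3 : eN nL (an z c (4 * c)) u u ≤ E := hE ▸ eN_mono (An44.an_mono z le_rfl (by omega)) u
    rw [← ha] at u2
    rw [← hw, eN, edF_sub_const', ← eN, nL_Jp, card_pair (by decide)] at u1
    have u4 : ((2 : ℕ) : ℝ) * (1 / (2 * c)) ^ 2 * ∑ x ∈ an z c (4 * c), (u x - a) ^ 2 ≤ 8 * P * E :=
      (mul_le_mul_of_nonneg_left (u2.trans (mul_le_mul_of_nonneg_left u3 (by positivity)))
        (by positivity)).trans (le_of_eq (by push_cast; field_simp; ring))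
    linarith
  have q1 := ((sy_edF E₁).cs w v).trans (mul_le_mul t1 t2 ((sy_edF _).nonneg v) E0')
  have q2 := ((sy_edF E₂).cs w v).trans (mul_le_mul t4 t3 ((sy_edF _).nonneg v) (by positivity))
  rw [i1, i2, ← hE]
  nlinarith [sq_nonneg (edF E₁ w v - edF E₂ w v)]

end Crest.Agent.T145.Ev
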