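import Crest.Agent.T145.MidDef_76
import Crest.Agent.T145.OmB_11
import Crest.Agent.T145.Xi_22

/-!
# Row 145: the variance link between the flow variable `x` and the stiffness (helper76)

Every `…Stmt` is a task.  `Vt Λ n ρ` = normalised variance of `(A₀ χ_ρ, s)` on the torus of side `n`.
-/

set_option autoImplicit false

namespace Crest.Agent.T145.Mid

open Finset

/-- sup norm -/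
def sn (x : Pt) : ℝ := max |(x.1 : ℝ)| |(x.2 : ℝ)|

/-- nearest neighbour energy of the cut-off `χ_ρ` -/
noncomputable def Ec (ρ : ℕ) : ℝ := nnL.En (bl 0 (2 * ρ + 1)) (Xi.chi ρ) (Xi.chi ρ)

/-- normalised variance on the torus -/
noncomputable def Vt (Λ : Lat) (n ρ : ℕ) : ℝ :=
  Vr ((Om.Tb Λ n 0).W 0) (pr (A0 (Xi.chi ρ))) (pr (A0 (Xi.chi ρ))) / Ec ρ

/-- the centred fundamental domain -/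
noncomputable def Qd (n : ℕ) : Finset Pt := sq (-((n / 2 : ℕ) : ℤ), -((n / 2 : ℕ) : ℤ)) n

/-- VAR (deterministic): a quadratic form with a symmetric kernel of total mass zero -/
def VarStmt : Prop := ∀ K₀ : ℝ, ∃ C : ℝ, 0 ≤ C ∧ ∀ (G u : Pt → ℝ) (Q : Finset Pt) (ρ r R : ℕ),
  (∀ x, G x.swap = G x) → (∀ x : Pt, G (-x.1, x.2) = G x) → ∑ x ∈ Q, G x = 0 → bl 0 (2 * R) ⊆ Q →
  1 ≤ r → r ≤ ρ → ρ ≤ R → (R : ℝ) ≤ K₀ * ρ → Sm2 u K₀ ρ → (∀ x, |u x| ≤ K₀) → Sup (bl 0 R) u →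
    |∑ z ∈ bl 0 R, ∑ w ∈ bl 0 R, u z * u w * G (w - z) -
        -(1 / 4) * (∑ x ∈ bl 0 r, G x * n2 x) * nnL.En (bl 0 (R + 1)) u u| ≤
      C * (∑ x ∈ bl 0 r, |G x| * sn x ^ 3 / ρ + ∑ x ∈ Q \ bl 0 r, |G x| * min (sn x) ρ ^ 2)

/-- CHI: the cut-off in the words of module (b) -/
def ChiStmt : Prop := ∃ C : ℝ, 1 ≤ C ∧ ∀ ρ : ℕ, 1 ≤ ρ →
  Sm2 (Xi.chi ρ) C ρ ∧ Sup (bl 0 (2 * ρ)) (Xi.chi ρ) ∧ 1 ≤ Ec ρ ∧ Ec ρ ≤ C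

/-- VG: the variance against the running stiffness on the torus; the bare bound -/
def VgStmt : Prop := ∀ F : Fa, ∃ C : ℝ, 0 ≤ C ∧ ∀ Λ, F.Mem Λ → ∀ n : ℕ, 2 * Λ.rg + 8 < n →
  (∀ x, |Om.K Λ n x| ≤ C) ∧ ∀ ρ r : ℕ, 1 ≤ r → r ≤ ρ → 16 * ρ ≤ n →
    |Vt Λ n ρ - gJ ((Om.Tb Λ n 0).W 0) 0 r| ≤
      C * (∑ x ∈ bl 0 r, |Om.K Λ n x| * sn x ^ 3 / ρ +
        ∑ x ∈ Qd n \ bl 0 r, |Om.K Λ n x| * min (sn x) ρ ^ 2)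

/-- UP: upper link (T1x) -/
def UpStmt : Prop := ∀ (F : Fa) (ε : ℝ), 0 < ε → ∃ δ : ℝ, 0 < δ ∧ ∀ Λ, F.Mem Λ → ∀ l ρ n : ℕ,
  Sep δ l ρ → 16 * ρ ≤ n → Vt Λ n ρ ≤ Λ.gN l + ε

/-- DN: two-sided link in a window (Dlg) -/
def DnStmt : Prop := Soft fun Λ _ ε _ l L => ∀ n : ℕ, 16 * L ≤ n → |Vt Λ n L - Λ.gN l| ≤ ε

/-- MO: monotonicity with non-degenerate increments (`Tau5.vr_sub_ge`) -/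
def MoStmt : Prop := ∀ (Λ : Lat) (τ' : ℝ) (n ρ : ℕ), Λ.Ok → Λ.τ ≤ τ' → 1 ≤ ρ → 16 * ρ ≤ n →
  2 * Λ.rg + 8 < n → Vt Λ n ρ ^ 2 * (Λ.τ⁻¹ - τ'⁻¹) ≤ Vt (Λ.at' τ') n ρ - Vt Λ n ρ

/-- VX: the flow variable `x` is the normalised variance -/
def VxStmt : Prop := ∀ (F : Fa) (θ₀ : ℝ) (φ : Fw) (P : Par), Odd F θ₀ φ P → ∃ C : ℝ, 0 ≤ C ∧
  ∀ l : ℕ, ∃ B₁ : ℝ, 0 ≤ B₁ ∧ ∀ a : ℕ, ∃ (a₁ : ℕ) (B : ℝ), 0 ≤ B ∧ ∀ Λ N k, φ.V F θ₀ P Λ l N k → a₁ ≤ k → ∀ Y : ℝ,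
    (∀ j, a ≤ j → j ≤ k → |φ.y Λ N j| ≤ Y * (5 / 4) ^ (k - j)) →
    ∀ ρ n : ℕ, φ.r k ≤ ρ → 16 * ρ ≤ n → 16 * 2 ^ N ≤ n →
      |φ.κ * (Vt Λ n ρ - 2 / Real.pi) - φ.x Λ N k| ≤
        C * Y ^ 2 * (ρ / φ.r k * (1 + ρ * (n : ℝ) ^ 2 / (2 ^ N) ^ 3)) +
          B₁ * P.θ ^ (N - φ.w * k) + B * max P.θ (1 / 2) ^ k

end Crest.Agent.T145.Mid
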