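import Crest.Agent.T145.FlDef2_82
import Crest.Agent.T145.OmB_11
import Crest.Agent.T145.MidDef2_76

/-!
# Row 145, the even sector: the `τ`-derivative of the flow.  Words and Props (helper2)

`ω' = ∂_τ ω = ∑_z ω (· et z)`.  The energy star `et` is replaced at a small scale by two reference insertions
`T1` (gradient squared), `T2` (charge one); their covariances are Gaussian.  Target: `Mid.LinStmt`.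
-/

set_option autoImplicit false

namespace Crest.Agent.T145.Ev

open Finset Pot Xi Real Fl

/-- states -/
abbrev Sta : Type := (Cfg Pt → ℝ) → ℝ

/-- covariance -/
noncomputable def cv (ω : Sta) (F G : Cfg Pt → ℝ) : ℝ := ω (fun s => F s * G s) - ω F * ω G

/-- the centred energy star -/
noncomputable def et (Λ : Lat) (ω : Sta) (z : Pt) (s : Cfg Pt) : ℝ := Om.est Λ z s - ω (Om.est Λ z)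

/-- `J₀` times the energy of the ball of radius `ρ` -/
noncomputable def Jh (Λ : Lat) (ω : Sta) (ρ : ℕ) (s : Cfg Pt) : ℝ := Jz 0 s * ∑ z ∈ bl 0 ρ, et Λ ω z s

/-- a smeared dipole -/
noncomputable def fd (a : ℕ) (i : Fin 2) (y : Pt) : ℝ :=
  xi a (y - (3 * a : ℤ) • ev i) - xi a (y + (3 * a : ℤ) • ev i)

/-- the two reference insertions -/
noncomputable def T1 (a : ℕ) (s : Cfg Pt) : ℝ := (cp (fd a 0) 0 s + cp (fd a 1) 0 s) / 2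
noncomputable def T2 (a : ℕ) : Cfg Pt → ℝ := cp (xi a) 0

/-- their centred combination -/
noncomputable def Tc (ω : Sta) (a : ℕ) (α₁ α₂ : ℝ) (s : Cfg Pt) : ℝ :=
  α₁ * (T1 a s - ω (T1 a)) + α₂ * (T2 a s - ω (T2 a))

/-- the test function of the first left functional (the second one is `T2 A`) -/
noncomputable def lin (A : ℕ) (x : Pt) : ℝ := (x.1 : ℝ) * Xi.chi A x / A
noncomputable def G1 (A : ℕ) : Cfg Pt → ℝ := cp (A0 (lin A)) 0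

/-- `(A₀ v, s)` -/
noncomputable def X (v : Pt → ℝ) (s : Cfg Pt) : ℝ := pr (A0 v) s

/-- scalar product of forward gradients, energy form -/
def gr (u u' : Pt → ℝ) (z : Pt) : ℝ := ∑ i, dif (ev i) u z * dif (ev i) u' z
noncomputable def E1 (D : Finset Pt) (u u' : Pt → ℝ) : ℝ := ∑ x ∈ D, u x * A0 u' x

/-- response of `T1 a` to a gradient -/
noncomputable def kp (g : ℝ) (a : ℕ) : ℝ :=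
  exp (-4 * π ^ 2 * g * (pk (6 * (a : ℤ), 0) - Xi.cr a - er a)) * (24 * π ^ 2 * g * a) ^ 2 / 4

/-- the Gaussian factor of `ξ_R - ξ_a` -/
noncomputable def ph (g a R : ℝ) : ℝ := exp (-2 * π ^ 2 * g * (log (R / a) / (2 * π) - er a - er R))

/-- the derivatives of `xk`, `yk` -/
noncomputable def pd (ω' : Sta) (W R : ℝ) : ℝ := π * log W * gk ω' R
noncomputable def lr (ω ω' : Sta) (R : ℝ) : ℝ := ell ω' R (Jz 0) / ell ω R (Jz 0)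
noncomputable def qd (ω ω' : Sta) (W R : ℝ) : ℝ := yk ω W R * (lr ω ω' R - 2 * π ^ 2 * er R * gk ω' R)
noncomputable def Qq (ω' : Sta) (R : ℝ) : ℝ := R ^ 2 * |ell ω' R (Jz 0)|

/-- `(nr w - 1) cw w / 4 ≥ 26`, `nr w ≥ 1040`, `nr w * ew w ≤ 1.05` -/
noncomputable def nr (w : ℕ) : ℕ := ⌈104 / cw w⌉₊ + 2

/-- supported in `bl 0 (M R)`, of size `M`, smooth at scale `R / M` -/
def Sv (R M : ℝ) (v : Pt → ℝ) : Prop := Pot.Sup (bl 0 ⌊M * R⌋₊) v ∧ Sm 3 Set.univ M (R / M) v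

/-- local bounds on first and second differences -/
def Lk (v : Pt → ℝ) (z : Pt) (n : ℕ) (k₁ k₂ : ℝ) : Prop :=
  ∀ y ∈ bl z n, ∀ e ∈ nn, |dif e v y| ≤ k₁ ∧ ∀ e' ∈ nn, |difs [e, e'] v y| ≤ k₂

/-! ## Deterministic leaves -/

/-- TG: the reference insertions and test functions -/
def TgStmt : Prop := ∃ c C : ℝ, 0 < c ∧ 0 ≤ C ∧ ∀ a : ℕ, 1 ≤ a →
  (Ins 0 (5 * a) (T1 a) ∧ EvenF (T1 a) ∧ D4 0 (T1 a) ∧ ∀ s, |T1 a s| ≤ 1) ∧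
  (Ins 0 (2 * a) (T2 a) ∧ EvenF (T2 a) ∧ D4 0 (T2 a) ∧ Out (bl 0 (a - 1)) (T2 a)) ∧
  (Ins 0 (2 * a) (G1 a) ∧ Out (bl 0 (a - 1)) (G1 a) ∧ Pot.Sup (bl 0 (2 * a)) (lin a) ∧
    Sm 3 Set.univ C a (lin a) ∧ E0 (bl 0 (2 * a)) (lin a) ≤ C ∧ gr (lin a) (lin a) 0 = 1 / (a : ℝ) ^ 2 ∧
    ∀ n, n + 2 ≤ a → Lk (lin a) 0 n (1 / a) 0) ∧
  ∀ g : ℝ, 1 / 4 ≤ g → g ≤ 1 → c * (a : ℝ) ^ 2 ≤ kp g a ∧ kp g a ≤ C * (a : ℝ) ^ 2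

/-- DET: the swept potential is smooth; pairings; summation by parts -/
def DetStmt : Prop := ∃ C : ℝ, 0 ≤ C ∧
  (∀ (v : Pt → ℝ) (z : Pt) (σ ℓ ρ : ℝ), Sm 3 Set.univ σ ℓ v → 1 ≤ ρ → 4 * ρ ≤ ℓ →
    Sm 3 Set.univ (C * σ) ρ (sw v z ρ) ∧
    (∀ u', gr (v - sw v z ρ) u' z = gr v u' z ∧ gr u' (v - sw v z ρ) z = gr u' v z) ∧
    (v - sw v z ρ) z = v z ∧ ∀ n : ℕ, (n : ℝ) + 2 ≤ ρ → Lk (v - sw v z ρ) z n (C * σ / ℓ) 0) ∧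
  (∀ (v : Pt → ℝ) (z : Pt) (a : ℕ) (k₁ k₂ : ℝ), 1 ≤ a → Lk v z (6 * a) k₁ k₂ →
    (∀ i, |∑ y ∈ bl z (5 * a), fd a i (y - z) * v y| ≤ C * a * k₁ ∧
      |∑ y ∈ bl z (5 * a), fd a i (y - z) * v y - 6 * a * dif (ev i) v z| ≤ C * (a : ℝ) ^ 2 * k₂) ∧
    |∑ y ∈ bl z (2 * a), xi a (y - z) * v y - v z| ≤ C * (a : ℝ) ^ 2 * k₂) ∧
  ∀ (u u' : Pt → ℝ) (c : Pt) (n : ℕ) (D : Finset Pt), Pot.Sup (bl c n) u → bl c (n + 1) ⊆ D →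
    ∑ z ∈ D, gr u u' z = E1 (bl c n) u u'

/-- XG: two centres, two scales -/
def XgStmt : Prop := ∃ C : ℝ, 0 ≤ C ∧ ∀ (M a R T : ℝ) (z : Pt) (n r : ℕ), 1 ≤ M → C ≤ a → a ≤ R → R ≤ T →
  eu z ≤ T → 8 * T ≤ n → (n : ℝ) ≤ M * a → 1 ≤ r → (r : ℝ) ≤ a → ∃ v : Pt → ℝ, Pot.Sup (bl 0 n) v ∧
    Sm 3 Set.univ (C * (1 + log M)) r v ∧
    F2 (nnL.edI (bl 0 (n + 1))) (xi R - (fun y => xi a (y - z)) - A0 v) (C * (T / n) ^ 2) ∧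
    (bl z ⌈2 * a + 1⌉₊ ⊆ bl 0 ⌊R - 1⌋₊ →
      |E0 (bl 0 n) v - (log (R / a) / (2 * π) - er a - er R)| ≤ C * T / n)

/-- HF: a charge that vanishes near `z` has a flow that avoids a hole (stream function) -/
def HfStmt : Prop := ∃ C : ℝ, 0 ≤ C ∧ ∀ (v : Pt → ℝ) (z : Pt) (c n : ℕ) (k₁ : ℝ), 1 ≤ c → 4 * c ≤ n →
  Pot.Sup (bl z n) v → (∀ y ∈ bl z (4 * c), A0 v y = 0) →
  (∀ y ∈ bl z (4 * c), ∀ e ∈ nn, |dif e v y| ≤ k₁) →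
    F2 (nnL.edI (Nc.an z c (n + 1))) (A0 v) (2 * E0 (bl z n) v + C * (c * k₁) ^ 2)

/-! ## Tools in an invariant state -/

/-- BAS: the energy star -/
def BasStmt : Prop := ∀ p : Par, ∃ P₀ : ℝ, 1 ≤ P₀ ∧ ∀ Λ ω L N, Env p Λ ω L N → ∀ z : Pt,
  ω (et Λ ω z) = 0 ∧ trl z (et Λ ω 0) = et Λ ω z ∧ Ins z Λ.rg (et Λ ω z) ∧ EvenF (et Λ ω z) ∧
    D4 z (et Λ ω z) ∧ ω (fun s => et Λ ω z s ^ 2) ≤ P₀ ^ 2 ∧ ∀ (c : Pt) (n : ℕ), bl z Λ.rg ⊆ bl c n →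
      Nc.Nm Λ c n (fun s => et Λ ω z s ^ 2) ≤ P₀ ^ 2 ∧ Nc.Nm Λ c n (fun s => Om.est Λ z s ^ 2) ≤ P₀ ^ 2

/-- FARE: the far part of the sum of energy stars -/
def FarEStmt : Prop := ∀ p : Par, ∃ C : ℝ, 0 ≤ C ∧ ∀ Λ ω L N, Env p Λ ω L N → ∀ R P : ℝ, 0 < R → 0 ≤ P →
  Prof Λ p.w p.r₀ L 0 (et Λ ω 0) R P → ∀ (a b : ℕ) (G : Cfg Pt → ℝ), p.r₀ ≤ a → 16 * p.w * a ≤ b →
    16 * p.w * a ≤ L → Ins 0 a G →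
    ∑ z ∈ bl 0 (N + N / 4) \ bl 0 b, |ω fun s => G s * et Λ ω z s| ≤
      C * nu Λ p.w 0 a G * P * max (a / R) (R / a) ^ ew p.w *
        (((a : ℝ) / b) ^ (cw p.w / 2) + ((a : ℝ) / L) ^ (cw p.w / 2))

/-- CR3: crude sum of energy stars against far insertions and a charge -/
def Cr3Stmt : Prop := ∀ p : Par, ∃ C : ℝ, 0 ≤ C ∧ ∀ Λ ω L N, Env p Λ ω L N → ∀ R P M : ℝ, 1 ≤ R → 1 ≤ P →
  Prof Λ p.w p.r₀ L 0 (et Λ ω 0) R P → 1 ≤ M → C * M * R ≤ L →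
  ∀ (ι : Type) (I : Finset ι) (x : ι → Pt) (h : ℕ) (H : ι → Cfg Pt → ℝ) (ξ : Pt → ℝ) (q : ℤ) (σ φ : ℝ)
    (Z : Finset Pt), C ≤ h → R / M ≤ h → I.card ≤ 2 → Far p L (bl 0 ⌊M * R⌋₊) I x (fun _ => h) H →
    (h : ℝ) ≤ M * R → (∀ i ∈ I, ∀ y ∈ bl (x i) h, ξ y = 0) → Chq (bl 0 ⌊M * R⌋₊) ξ q →
    (∀ z, ∃ u, Lr ξ u z h σ) → Z ⊆ bl 0 (N + N / 4) → (∀ z ∈ Z, ∀ i ∈ I, z ∉ bl (x i) (3 * p.w * h)) →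
    ∑ z ∈ Z, |ω fun s => (∏ i ∈ I, H i s) * cp ξ φ s * et Λ ω z s| ≤
      C * M ^ 5 * (1 + σ) ^ 2 * (∏ i ∈ I, nu Λ p.w (x i) h (H i)) * P

/-- LOCN: an even insertion times a small linear functional, in the norm -/
def LocNStmt : Prop := ∀ p : Par, ∃ C : ℝ, 0 ≤ C ∧ ∀ (Λ : Lat) (L : ℕ), Gs p Λ L →
  ∀ (z : Pt) (r a₀ : ℕ) (ρ σ P P₀ : ℝ) (F : Cfg Pt → ℝ) (u : Pt → ℝ), p.w * r ≤ L → p.r₀ ≤ a₀ →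
    Ins z a₀ F → EvenF F → 0 ≤ P → Prof Λ p.w a₀ L z F r P → 0 ≤ P₀ →
    (∀ c, a₀ ≤ c → Nc.Nm Λ z c (fun s => F s ^ 2) ≤ P₀ ^ 2) → 0 ≤ σ → Qs u z r σ →
    8 * (p.w : ℝ) ^ 2 * a₀ ≤ ρ → 600 * ρ ≤ r →
    nu Λ p.w z r (fun s => F s * X (lc u z ρ) s) ≤
      C * σ * (P * (ρ / r) ^ (cw p.w / 4) / (r : ℝ) ^ 2 + P₀ * ((a₀ : ℝ) / r) ^ (2 + cw p.w / 2))

/-- PU: an insertion against one or two linear functionals read off a hole -/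
def PuStmt : Prop := ∀ p : Par, ∃ C : ℝ, 0 ≤ C ∧ ∀ Λ ω L N, Env p Λ ω L N →
  ∀ (z : Pt) (a n : ℕ) (F B : Cfg Pt → ℝ) (f f' : Pt → ℝ) (e e' : ℝ), p.r₀ ≤ a → p.w * (p.w * a) ≤ n →
    p.w * n ≤ L → Ins z a F → DepG (bl z N) B → Out (bl z a) B → (∀ s, |B s| ≤ 1) →
    F2 (nnL.edI (Nc.an z (p.w * (p.w * a)) n)) f e → F2 (nnL.edI (Nc.an z (p.w * (p.w * a)) n)) f' e' →
    |ω fun s => F s * pr f s * B s| ≤ C * nu Λ p.w z a F * √e ∧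
      |ω fun s => F s * (pr f s * pr f' s) * B s| ≤ C * nu Λ p.w z a F * (√e * √e')

/-! ## Gaussian values -/

/-- pattern: polynomially many scales around `R`; arguments `ω R M C ε` -/
def Xp (f : Sta → ℝ → ℝ → ℝ → ℝ → Prop) : Prop := ∀ p : Par, ∃ (C : ℝ) (n : ℕ), 1 ≤ C ∧
  ∀ Λ ω L N, Env p Λ ω L N → ∀ R Y M : ℝ, Maj p Λ L R Y → 1 / 4 ≤ gk ω R → gk ω R ≤ 1 → 2 ≤ M →
    C * M ^ n * Y ≤ 1 → C * M ^ n * R ≤ L → f ω R M C (C * (M ^ n * Y ^ (1 / 4 : ℝ) + 1 / M))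

/-- NG: neutral charges with up to two linear factors -/
def NgStmt : Prop := Xp fun ω R M _ ε => ∀ v₃ v v', Sv R M v₃ → Sv R M v → Sv R M v' →
  ∀ (D : Finset Pt) (g Φ : ℝ), D = bl 0 ⌊M * R⌋₊ → g = gk ω R → Φ = exp (-2 * π ^ 2 * g * E0 D v₃) →
    |ω (cp (A0 v₃) 0) - Φ| ≤ ε ∧
    |ω (fun s => X v s * cp (A0 v₃) (-(π / 2)) s) - 2 * π * g * E1 D v v₃ * Φ| ≤ ε ∧
    |ω (fun s => X v s * X v' s * cp (A0 v₃) 0 s) -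
      (g * E1 D v v' - 4 * π ^ 2 * g ^ 2 * E1 D v v₃ * E1 D v' v₃) * Φ| ≤ ε

/-- CG: charged expectations with up to two linear factors -/
def CgStmt : Prop := Xp fun ω R M _ ε => ∀ (q : ℤ) (f v v' : Pt → ℝ) (φ : ℝ), q ≠ 0 → |q| ≤ 3 →
  F2 (nnL.edI (bl 0 ⌊M * R⌋₊)) f (log M) → Sv R M v → Sv R M v' →
    |ω (cp ((q : ℝ) • xi R + f) φ)| ≤ ε ∧ |ω fun s => X v s * cp ((q : ℝ) • xi R + f) φ s| ≤ ε ∧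
    |ω fun s => X v s * X v' s * cp ((q : ℝ) • xi R + f) φ s| ≤ ε

/-- X1: `T1` against neutral test functions -/
def X1Stmt : Prop := Xp fun ω R M C ε => ∀ (a : ℕ) (z : Pt) (v v' : Pt → ℝ) (k₁ k₂ : ℝ), R / M ≤ a →
  (a : ℝ) ≤ M * R → eu z ≤ M * R → Sv R M v → Sv R M v' → Lk v z (6 * a) k₁ k₂ → Lk v' z (6 * a) k₁ k₂ →
    (a * k₁ ≤ 1 → |cv ω (trl z (T1 a)) (cp (A0 v) 0) -
      kp (gk ω R) a * gr v v z * exp (-2 * π ^ 2 * gk ω R * E0 (bl 0 ⌊M * R⌋₊) v)| ≤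
        ε + C * ((a * k₁) ^ 4 + (a : ℝ) ^ 2 * k₂ * (a * k₁ + (a : ℝ) ^ 2 * k₂))) ∧
    |cv ω (trl z (T1 a)) (fun s => X v s * X v' s) + kp (gk ω R) a * gr v v' z / (2 * π ^ 2)| ≤
      ε + C * ((a : ℝ) ^ 2 * k₂ * (a * k₁ + (a : ℝ) ^ 2 * k₂))

/-- X2: the covariances with a net charge -/
def X2Stmt : Prop := Xp fun ω R M _ ε => ∀ (a : ℕ) (z : Pt) (v v' : Pt → ℝ), R / M ≤ a →
  (a : ℝ) ≤ M * R → eu z ≤ M * R → Sv R M v → Sv R M v' →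
    (E0 (bl 0 ⌊M * R⌋₊) v ≤ log M → |cv ω (trl z (T2 a)) (cp (A0 v) 0)| ≤ ε) ∧
    |cv ω (trl z (T2 a)) fun s => X v s * X v' s| ≤ ε ∧
    ∀ (f : Pt → ℝ) (φ : ℝ), F2 (nnL.edI (bl 0 ⌊M * R⌋₊)) f (log M) →
      |cv ω (trl z (T1 a)) (cp (xi R + f) φ)| ≤ ε ∧
      |cv ω (trl z (T1 a)) fun s => X v s * cp (xi R + f) φ s| ≤ ε ∧
      |cv ω (trl z (T1 a)) (cp ((2 : ℝ) • xi R + f) φ)| ≤ ε ∧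
      |cv ω (trl z (T2 a)) (cp ((2 : ℝ) • xi R + f) φ)| ≤ ε

/-- X4: `T2` against a linear factor times a unit charge -/
def X4Stmt : Prop := Xp fun ω R M _ ε => ∀ (a : ℕ) (z : Pt) (v v'' : Pt → ℝ) (w₁ : ℝ), R / M ≤ a →
  16 * (a : ℝ) ≤ R → eu z ≤ M * R → Sv R M v → Pot.Sup (bl 0 ⌊R / 4⌋₊) v → Sv R M v'' →
  E0 (bl 0 ⌊M * R⌋₊) v'' ≤ log M → w₁ = ∑ y ∈ bl z (2 * a), xi a (y - z) * v y →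
  (v'' = 0 ∨ (w₁ = 0 ∧ E1 (bl 0 ⌊M * R⌋₊) v v'' = 0)) →
    |cv ω (trl z (T2 a)) (fun s => X v s * cp (xi R - A0 v'') (-(π / 2)) s) +
      π * gk ω R * w₁ * ph (gk ω R) a R| ≤ ε

/-! ## Even purification -/

/-- the even kernel theorem at scale `r` -/
def Ke (w W : ℕ) (Λ : Lat) (r : ℕ) : Prop :=
  (∀ F, Ins 0 r F → EvenF F → D4 0 F → ∃ c : ℝ,
    nu Λ w 0 (W * r) (fun s => F s - c) ≤ (W : ℝ) ^ (-2 + ew w / 20) * nu Λ w 0 r F) ∧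
  ∀ F : Fin 3 → Cfg Pt → ℝ, (∀ i, Ins 0 r (F i) ∧ EvenF (F i) ∧ D4 0 (F i)) →
    ∃ t : Fin 3 → ℝ, t ≠ 0 ∧ ∃ c : ℝ, nu Λ w 0 (W * r) (fun s => ∑ i, t i * F i s - c) ≤
      (W : ℝ) ^ (-3 + ew w / 20) * nu Λ w 0 r fun s => ∑ i, t i * F i s

/-- the two left functionals see the reference insertions -/
def Lw (ω : Sta) (a A : ℕ) (b : ℝ) : Prop := ∀ α₁ α₂ : ℝ,
  b * max |α₁| |α₂| ≤ max |cv ω (Tc ω a α₁ α₂) (G1 A)| |cv ω (Tc ω a α₁ α₂) (T2 A)|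

/-- both lower bounds at scale `r` -/
def Lw2 (w W : ℕ) (ω : Sta) (r : ℕ) : Prop :=
  Lw ω (r / 8) (2 * (W * r)) ((W : ℝ) ^ (-2 - ew w / 10)) ∧
    Lw ω (r / 8) (2 * (W * (W * r))) ((W : ℝ) ^ (-4 - ew w / 10))

/-- even purification, crude and sharp -/
def Epur (p : Par) (W : ℕ) (Λ : Lat) (ω : Sta) (r₁ L : ℕ) : Prop := ∀ (r m : ℕ) (F : Cfg Pt → ℝ),
  r₁ ≤ r → p.w * (W ^ m * r) ≤ L → Ins 0 r F → EvenF F → D4 0 F →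
    nu Λ p.w 0 (W ^ m * r) (fun s => F s - ω F) ≤
      17 * (W : ℝ) ^ ((-2 + ew p.w / 10) * m) * nu Λ p.w 0 r F ∧
    ((∀ j < m, Lw2 p.w W ω (W ^ j * r)) → ∃ α₁ α₂ : ℝ,
      max |α₁| |α₂| ≤ (W : ℝ) ^ (ew p.w * m) * nu Λ p.w 0 r F ∧
      nu Λ p.w 0 (W ^ m * r) (fun s => F s - ω F - Tc ω (r / 8) α₁ α₂ s) ≤
        21 * (W : ℝ) ^ (-(11 / 5 : ℝ) * m) * nu Λ p.w 0 r F)

/-- EPUR (`Pv.Lv`) -/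
def EpurStmt : Prop := ∀ w : ℕ, ∃ W₀ : ℕ, ∀ (p : Par) (W : ℕ), p.w = w → W₀ ≤ W → ∀ Λ ω r₁ L N,
  Env p Λ ω L N → p.r₀ ≤ r₁ → 8 ≤ r₁ →
  (∀ r : ℕ, r₁ ≤ r → w * (W * r) ≤ L → Ke w W Λ r) → Epur p W Λ ω r₁ L

/-- LOW -/
def LowStmt : Prop := ∀ w : ℕ, ∃ W₀ : ℕ, ∀ (p : Par) (W : ℕ), p.w = w → W₀ ≤ W → ∃ (C : ℝ) (n : ℕ), 1 ≤ C ∧
  ∀ Λ ω L N, Env p Λ ω L N → ∀ R Y M : ℝ, Maj p Λ L R Y → |π * gk ω R - 2| ≤ ew w / 100 → 2 ≤ M →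
    C * M ^ n * Y ≤ 1 → C * M ^ n * R ≤ L → ∀ r : ℕ, R / M ≤ r → (r : ℝ) ≤ M * R → Lw2 w W ω r

/-- KE: the even kernel theorem in a window -/
def KeWStmt : Prop := ∀ (p : Par) (θ₀ : ℝ), 0 < θ₀ → ∃ W₀ : ℕ, ∀ W : ℕ, W₀ ≤ W →
  ∃ (δ : ℝ) (s : ℕ), 0 < δ ∧ ∀ l : ℕ, ∃ r₁ : ℕ, ∀ Λ N L, Gs p Λ L → Mid.Cw θ₀ δ Λ l N →
    2 ^ s * L ≤ 2 ^ N → ∀ r : ℕ, p.r₀ ≤ r → r₁ ≤ r → p.w * (W * r) ≤ L → Ke p.w W Λ r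

/-! ## The state and its derivative -/

/-- an invariant state with its `τ`-derivative -/
structure Ed (p : Par) (Λ : Lat) (ω ω' : Sta) (D : Finset Pt) (L N : ℕ) : Prop extends Env p Λ ω L N where
  lo : bl 0 N ⊆ D
  hi : D ⊆ bl 0 (N + N / 4)
  der : ∀ F, Ins 0 (N / 4) F → ω' F = ∑ z ∈ D, ω fun s => F s * et Λ ω z s
  trl' : ∀ (z : Pt) F, Ins 0 (N / 8) F → z ∈ bl 0 (N / 8) → ω' (Crest.Agent.T145.trl z F) = ω' F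
  d4' : ∀ F, Ins 0 (N / 4) F →
    ω' (fun s => F (mapH (rotZ 0) s)) = ω' F ∧ ω' (fun s => F (mapH (swpZ 0) s)) = ω' F
  nd : ∀ (n : ℕ) (v : Pt → ℝ), n + 1 ≤ N / 4 → Pot.Sup (bl 0 n) v →
    ω (fun s => X v s * X v s) ^ 2 ≤ Λ.τ ^ 2 * E0 (bl 0 n) v * ω' fun s => X v s * X v s

/-- the data of an environment -/
structure Dt where
  Λ : Lat
  ω : Sta
  ω' : Sta
  D : Finset Pt
  r₁ : ℕ
  L : ℕ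
  N : ℕ

namespace Dt
variable (E : Dt)

/-- the energy star at `z` -/
noncomputable abbrev e (z : Pt) : Cfg Pt → ℝ := et E.Λ E.ω z

structure Ok (p : Par) (W : ℕ) : Prop where
  ed : Ed p E.Λ E.ω E.ω' E.D E.L E.N
  r0 : p.r₀ ≤ E.r₁
  r8 : 8 ≤ E.r₁
  pur : Pur p W E.Λ E.r₁ E.L
  epur : Epur p W E.Λ E.ω E.r₁ E.L

/-- the scale `R` is critical and in the cone -/
structure Lv (p : Par) (W : ℕ) (D₀ R Y : ℝ) : Prop where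
  D1 : 1 ≤ D₀
  cone : Y = D₀ * yk E.ω W R
  maj : Maj p E.Λ E.L R Y
  r1 : (E.r₁ : ℝ) ^ 100 ≤ R
  crit : |π * gk E.ω R - 2| ≤ ew p.w / 100

/-- the standing hypotheses; `P` majorises the profile of the energy star -/
structure Bs (p : Par) (W : ℕ) (D₀ R Y P : ℝ) : Prop extends E.Ok p W, E.Lv p W D₀ R Y where
  P1 : 1 ≤ P
  prof : Prof E.Λ p.w p.r₀ E.L 0 (E.e 0) R P

/-- `P'` majorises the profile of `K'` -/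
def Kp (R Y P' : ℝ) : Prop := 0 ≤ P' ∧ ∀ x : Pt, x ≠ 0 → eu x ≤ 64 * R →
  |KK E.ω' x| * eu x ^ 4 ≤ Y * P' * max (eu x / R) (R / eu x) ^ (1 / 2 : ℝ)

/-- the energy star is a combination of `T1 a₁`, `T2 a₁` when seen from the scale `a₂` -/
structure Dc (p : Par) (R P t : ℝ) (a₁ a₂ : ℕ) (α₁ α₂ : ℝ) : Prop where
  lo : R * t ^ (24 * nr p.w) ≤ a₁
  hi : (a₁ : ℝ) ≤ R * t ^ (10 * nr p.w)
  le : 8 * a₁ ≤ a₂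
  up : (a₂ : ℝ) ≤ R * t ^ (nr p.w + 1)
  r1 : E.r₁ ≤ a₁
  b : max |α₁| |α₂| * (a₁ : ℝ) ^ 2 ≤ P * (R / a₁) ^ (3 * ew p.w)
  nu : nu E.Λ p.w 0 a₂ (fun s => E.e 0 s - Tc E.ω a₁ α₁ α₂ s) ≤ P * t ^ (16 + 2 * nr p.w) / R ^ 2

/-- the coefficient of the gradient squared (`≈ - ∂_τ g`) -/
noncomputable def bb (R : ℝ) (a₁ : ℕ) (α₁ : ℝ) : ℝ := α₁ * kp (gk E.ω R) a₁ / (2 * π ^ 2)

end Dt

/-- pattern without a small parameter; arguments `p W E R Y P C` -/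
def Fix (f : Par → ℕ → Dt → ℝ → ℝ → ℝ → ℝ → Prop) : Prop := ∀ (p : Par) (W : ℕ) (D₀ : ℝ), 2 ≤ W →
  ∃ C : ℝ, 1 ≤ C ∧ ∀ (E : Dt) (R Y P : ℝ), E.Bs p W D₀ R Y P → C * Y ≤ 1 → C * R ≤ E.L → f p W E R Y P C

/-- pattern with the small parameter `t`; arguments `p W E R Y P t C` -/
def Lam (f : Par → ℕ → Dt → ℝ → ℝ → ℝ → ℝ → ℝ → Prop) : Prop := ∀ w : ℕ, ∃ W₀ : ℕ,
  ∀ (p : Par) (W : ℕ) (D₀ : ℝ), p.w = w → W₀ ≤ W → ∃ (C : ℝ) (n : ℕ), 1 ≤ C ∧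
    ∀ (E : Dt) (R Y P t : ℝ), E.Bs p W D₀ R Y P → 0 < t → C * t ≤ 1 → Y ≤ t ^ n → R ≤ t ^ n * E.L →
      f p W E R Y P t C

/-- the same, given a decomposition of the energy star; arguments `p W E R Y P t C a₁ α₁ α₂` -/
def LamD (f : Par → ℕ → Dt → ℝ → ℝ → ℝ → ℝ → ℝ → ℕ → ℝ → ℝ → Prop) : Prop :=
  Lam fun p W E R Y P t C => ∀ a₁ a₂ α₁ α₂, E.Dc p R P t a₁ a₂ α₁ α₂ → f p W E R Y P t C a₁ α₁ α₂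

/-- DC -/
def DcStmt : Prop := Lam fun p _ E R _ P t _ => ∃ a₁ a₂ α₁ α₂, E.Dc p R P t a₁ a₂ α₁ α₂

/-- S1: two linear functionals with separated charges -/
def S1Stmt : Prop := LamD fun _ _ E R _ P t _ a₁ α₁ _ => ∀ u u', Sv R t⁻¹ u → Sv R t⁻¹ u' →
  (∀ z, (∀ y ∈ bl z ⌈R * t⌉₊, A0 u y = 0) ∨ ∀ y ∈ bl z ⌈R * t⌉₊, A0 u' y = 0) →
    |E.ω' (fun s => X u s * X u' s) + E.bb R a₁ α₁ * E1 (bl 0 ⌊t⁻¹ * R⌋₊) u u'| ≤ P * t ^ 6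

/-- S2: a neutral charge, any set of stars -/
def S2Stmt : Prop := LamD fun _ _ E R _ P t _ a₁ α₁ _ => ∀ v, Sv R t⁻¹ v →
  E0 (bl 0 ⌊t⁻¹ * R⌋₊) v ≤ log t⁻¹ → ∀ Z, Z ⊆ E.D →
    |∑ z ∈ Z, E.ω (fun s => cp (A0 v) 0 s * E.e z s) - 2 * π ^ 2 * E.bb R a₁ α₁ * (∑ z ∈ Z, gr v v z) *
      exp (-2 * π ^ 2 * gk E.ω R * E0 (bl 0 ⌊t⁻¹ * R⌋₊) v)| ≤ P * t ^ 6

/-- S3: charge two -/
def S3Stmt : Prop := ∀ A : ℝ, LamD fun _ _ E R _ P t _ _ _ _ => ∀ (f : Pt → ℝ) (φ : ℝ),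
  F2 (nnL.edI (bl 0 ⌊t⁻¹ * R⌋₊)) f (A * log t⁻¹) →
  (∀ z, ∃ u, Lr ((2 : ℝ) • xi R + f) u z ⌈R * t⌉₊ t⁻¹) → ∀ Z, Z ⊆ E.D →
    |∑ z ∈ Z, E.ω fun s => cp ((2 : ℝ) • xi R + f) φ s * E.e z s| ≤ P * t ^ 6

/-- S4: the coefficient of `T2` is seen by `J` smeared inside the hole of `Sn R` -/
def S4Stmt : Prop := LamD fun p _ E R _ P t _ a₁ _ α₂ =>
  |E.ω' (fun s => X (Xi.chi (R / (16 * p.w))) s * Sn R s) + α₂ * π * gk E.ω R * ph (gk E.ω R) a₁ R *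
    ∑ x ∈ bl 0 ⌊R / 4⌋₊, Xi.chi (R / (16 * p.w)) x| ≤ P * t ^ 6

/-- SH: `Jh ρ` is a multiple of `J` -/
def ShStmt : Prop := Fix fun p _ E R Y P C => ∀ a ρ : ℕ, R ≤ 16 * p.w * a → 2 * (a : ℝ) ≤ R → 1 ≤ ρ →
  2 * ρ ≤ a → ∃ μ : ℝ, nu E.Λ p.w 0 a (fun s => Jh E.Λ E.ω ρ s - μ * Jz 0 s) ≤
    C * P * Y * (ρ / R) ^ (1 / 7 : ℝ) / R ^ 2

/-- DK, NJ: `K' ≈ 2 (l' / l) K`, and the norm of `Jh` -/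
def DkStmt : Prop := Fix fun p W E R Y P C =>
  (∀ x : Pt, R / 2 ≤ eu x → eu x ≤ 4 * W * R →
    |KK E.ω' x - 2 * lr E.ω E.ω' R * KK E.ω x| ≤ C * Y ^ 2 * P / R ^ 4 ∧
      |KK E.ω' x| ≤ C * Y * (Qq E.ω' R + Y * P) / R ^ 4) ∧
  ∀ a ρ : ℕ, R ≤ 16 * p.w * a → 2 * (a : ℝ) ≤ R → R ≤ 64 * p.w * ρ → 2 * ρ ≤ a →
    nu E.Λ p.w 0 a (Jh E.Λ E.ω ρ) ≤ C * (Qq E.ω' R + Y * P) / R ^ 2

/-- USTEP -/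
def UStmt : Prop := Fix fun _ W E R Y P C =>
  |gk E.ω' (W * R) - gk E.ω' R - 2 * lr E.ω E.ω' R * (gk E.ω (W * R) - gk E.ω R)| ≤ C * Y ^ 2 * P

/-- VL: the quadratic form of `K'` -/
def VlStmt : Prop := Fix fun _ _ E R Y _ C => ∀ (P' σ : ℝ) (u u' : Pt → ℝ), E.Kp R Y P' →
  Pot.Sup (bl 0 ⌈2 * R⌉₊) u → Pot.Sup (bl 0 ⌈32 * R⌉₊) u' → Sm 3 Set.univ σ R u → Sm 3 Set.univ σ R u' →
  ∑ x ∈ bl 0 ⌈2 * R⌉₊, u x * u' x = 0 →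
    |E.ω' (fun s => X u s * X u' s) - gk E.ω' R * E1 (bl 0 ⌈2 * R⌉₊) u u'| ≤ C * σ ^ 2 * Y * P'

/-- B1L: the coefficient of `T1` is `-g'` -/
def B1Stmt : Prop := LamD fun _ _ E R Y P t C a₁ α₁ _ => ∀ P', E.Kp R Y P' →
  |E.bb R a₁ α₁ + gk E.ω' R| ≤ P * t ^ 6 + C * Y * P'

/-- ND: non-degeneracy -/
def NdStmt : Prop := Lam fun _ _ E R Y P t C => ∀ P', E.Kp R Y P' →
  C⁻¹ - P * t ^ 5 - C * Y * P' ≤ gk E.ω' R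

/-- T2L: the coefficient of `T2` -/
def T2Stmt : Prop := LamD fun p _ E R Y P t C a₁ _ α₂ =>
  |α₂| * (a₁ : ℝ) ^ 2 * (a₁ / R) ^ (ew p.w / 100) ≤ C * (Qq E.ω' R + Y * P) + P * t ^ 5

/-- VSTEP -/
def VStmt : Prop := LamD fun _ W E R _ P t _ a₁ α₁ _ => yk E.ω W R ≤ 2 * yk E.ω W (W * R) →
  |lr E.ω E.ω' (W * R) - lr E.ω E.ω' R -
    2 * π ^ 2 * E.bb R a₁ α₁ * (log W / (2 * π) + er R - er (W * R))| ≤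
    (P + |E.bb R a₁ α₁|) * t ^ (1 / 400 : ℝ)

/-- CL1: the norm of the energy star at the scale `R` -/
def Cl1Stmt : Prop := Lam fun p W E R Y P t _ => ∀ P', E.Kp R Y P' → ∀ a : ℕ, R / 2 ≤ a →
  (a : ℝ) ≤ W * R → (a : ℝ) ^ 2 * nu E.Λ p.w 0 a (E.e 0) ≤
    t⁻¹ ^ 4 * (|gk E.ω' R| + Qq E.ω' R + Y * P + Y * P') + P * t ^ 2

/-- LN: one linearised step and non-degeneracy -/
def LnStmt : Prop := ∀ w : ℕ, ∃ W₀ : ℕ, ∀ (p : Par) (W : ℕ) (D₀ : ℝ), p.w = w → W₀ ≤ W →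
  ∃ c C d : ℝ, 0 < c ∧ 1 ≤ C ∧ 0 < d ∧ d < 1 ∧ ∀ (E : Dt) (R Y P P' e κ : ℝ), E.Bs p W D₀ R Y P →
    E.Kp R Y P' → KT.St e (xk E.ω W R) (yk E.ω W R) (xk E.ω W (W * R)) (yk E.ω W (W * R)) →
    C * (e + (|xk E.ω W R| + yk E.ω W R) + (Y + R / E.L) ^ d) ≤ κ → κ ≤ 1 / 100 →
      KT.Ln (2 * κ) (xk E.ω W R) (yk E.ω W R) (pd E.ω' W R) (qd E.ω E.ω' W R) (pd E.ω' W (W * R))
        (qd E.ω E.ω' W (W * R)) (2 * (|pd E.ω' W R| + |qd E.ω E.ω' W R| + P + P')) ∧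
      c - κ * (P + P') ≤ pd E.ω' W R

/-- AP: a priori growth of the norm of the energy star -/
def ApStmt : Prop := ∀ (p : Par) (W : ℕ), 2 ≤ W → ∃ C : ℝ, 1 ≤ C ∧ ∀ E : Dt, E.Ok p W →
  (∀ a : ℕ, p.r₀ ≤ a → nu E.Λ p.w 0 a (E.e 0) ≤ C) ∧
  (∀ r a : ℕ, E.r₁ ≤ r → r ≤ a → p.w * a ≤ E.L → (a : ℝ) ^ 2 * nu E.Λ p.w 0 a (E.e 0) ≤
    C * ((a : ℝ) / r) ^ (ew p.w / 10) * ((r : ℝ) ^ 2 * nu E.Λ p.w 0 r (E.e 0))) ∧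
  ∀ R : ℝ, (E.r₁ : ℝ) ≤ R → Prof E.Λ p.w p.r₀ E.L 0 (E.e 0) R (C * R ^ 2)

/-- APF, AMB: a priori size of `ω' F`, and the dependence on the environment -/
def AmbStmt : Prop := ∀ (p : Par) (W a : ℕ) (B : ℝ), 2 ≤ W →
  (∃ B' : ℝ, ∀ E : Dt, E.Ok p W → E.r₁ ≤ a → 16 * p.w * a ≤ E.L → ∀ F, Ins 0 a F →
    (∀ c, a ≤ c → Nc.Nm E.Λ 0 c (fun s => F s ^ 2) ≤ B ^ 2) → |E.ω' F| ≤ B') ∧
  ∀ ε : ℝ, 0 < ε → ∃ L₀ : ℕ, ∀ E E' : Dt, E.Ok p W → E'.Ok p W → E'.Λ = E.Λ → E.r₁ ≤ a → E'.r₁ ≤ a →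
    L₀ ≤ E.L → L₀ ≤ E'.L → ∀ F, Ins 0 a F → (∀ c, a ≤ c → Nc.Nm E.Λ 0 c (fun s => F s ^ 2) ≤ B ^ 2) →
      |E.ω F - E'.ω F| ≤ ε ∧ |E.ω' F - E'.ω' F| ≤ ε

/-- CLOSE: the profiles are bounded by the linearised solution -/
def CloseStmt : Prop := ∀ w : ℕ, ∃ W₀ : ℕ, ∀ (p : Par) (W : ℕ) (D₀ : ℝ), p.w = w → W₀ ≤ W →
  ∃ C : ℝ, 1 ≤ C ∧ ∀ a₂ : ℕ, ∃ B : ℝ, 0 ≤ B ∧ ∀ (E : Dt) (K : ℕ), E.Ok p W →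
    (∀ j, a₂ ≤ j → j ≤ K → E.Lv p W D₀ (Rk W j) (D₀ * yk E.ω W (Rk W j)) ∧ C * yk E.ω W (Rk W j) ≤ 1) →
    (∀ j, a₂ ≤ j → j < K → yk E.ω W (Rk W j) ≤ 2 * yk E.ω W (Rk W (j + 1))) → C * Rk W K ≤ E.L →
    ∀ k, a₂ ≤ k → k ≤ K → ∃ P P' : ℝ, E.Bs p W D₀ (Rk W k) (D₀ * yk E.ω W (Rk W k)) P ∧
      E.Kp (Rk W k) (D₀ * yk E.ω W (Rk W k)) P' ∧
      P + P' ≤ C * (B + ∑ j ∈ Icc a₂ K, ((W : ℝ) ^ (-ew w)) ^ Nat.dist j k *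
        (|pd E.ω' W (Rk W j)| + |qd E.ω E.ω' W (Rk W j)|))

/-! ## The torus and the packaging -/

/-- the `τ`-derivative of the torus state -/
noncomputable def tor' (Λ : Lat) (N : ℕ) : Sta := fun F =>
  ∑ z ∈ Mid.Qd (2 ^ N), Om.ocv Λ (2 ^ N) F (Om.est Λ z)

/-- ED -/
def EdStmt : Prop := ∀ (p : Par) (Λ : Lat) (L N : ℕ), Env p Λ (tor Λ N) L (nA Λ N) →
  Ed p Λ (tor Λ N) (tor' Λ N) (Mid.Qd (2 ^ N)) L (nA Λ N)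

/-- DER -/
def DerStmt : Prop := ∀ (Λ : Lat) (N : ℕ) (S : Finset Pt) (F : Cfg Pt → ℝ), Λ.Ok → 2 * Λ.rg < 2 ^ N →
  DepG S F → Tame F → HasDerivAt (fun τ => tor (Λ.at' τ) N F) (tor' Λ N F) Λ.τ ∧
    ContinuousAt (fun τ => tor' (Λ.at' τ) N F) Λ.τ

/-- the environment on the torus of side `2 ^ N` -/
noncomputable def tE (Λ : Lat) (N r₁ s : ℕ) : Dt :=
  ⟨Λ, tor Λ N, tor' Λ N, Mid.Qd (2 ^ N), r₁, 2 ^ (N - s), nA Λ N⟩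

/-- `p = ∂_τ x`, `q = ∂_τ y` -/
noncomputable def pT (q : Dat) (Λ : Lat) (N k : ℕ) : ℝ := pd (tor' Λ N) q.W (q.R k)
noncomputable def qT (q : Dat) (Λ : Lat) (N k : ℕ) : ℝ := qd (tor Λ N) (tor' Λ N) q.W (q.R k)

/-- for all cores with a large ratio -/
def Cores (f : Fa → ℝ → Dat → Prop) : Prop := ∀ (F : Fa) (θ₀ : ℝ) (w r₀ : ℕ), 0 < θ₀ → ∃ v₀ : ℕ,
  ∀ q : Dat, q.p.w = w → q.p.r₀ = r₀ → v₀ ≤ q.v → q.Core F θ₀ → f F θ₀ q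

/-- ENV: the standing hypotheses hold on the torus in a window -/
def EnvStmt : Prop := Cores fun F θ₀ q => ∃ (p : Par) (s : ℕ), p.w = q.p.w ∧ ∀ C : ℝ,
  ∃ (δ : ℝ) (s' : ℕ), 0 < δ ∧ s ≤ s' ∧ ∀ l : ℕ, ∃ r₁ k₀ : ℕ, ∀ Λ N k, F.Mem Λ → Mid.Cw θ₀ δ Λ l N → k₀ ≤ k →
    q.v * (k + 1) + s' ≤ N → (tE Λ N r₁ s).Ok p q.W ∧
      (tE Λ N r₁ s).Lv p q.W q.D (q.R k) (q.D * q.y Λ N k) ∧ C * q.y Λ N k ≤ 1 ∧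
      C * q.R k ≤ (tE Λ N r₁ s).L

/-- the fields of `Mid.Lin` -/
def LDr (F : Fa) (θ₀ : ℝ) (q : Dat) (P : Mid.Par) : Prop :=
  ∀ l, ∃ a₁, ∀ Λ N k, q.fw.V F θ₀ P Λ l N k → a₁ ≤ k →
    HasDerivAt (fun τ => q.fw.x (Λ.at' τ) N k) (pT q Λ N k) Λ.τ ∧
    HasDerivAt (fun τ => q.fw.y (Λ.at' τ) N k) (qT q Λ N k) Λ.τ ∧
    ContinuousAt (fun τ => pT q (Λ.at' τ) N k) Λ.τ ∧ ContinuousAt (fun τ => qT q (Λ.at' τ) N k) Λ.τ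
def LLin (F : Fa) (θ₀ : ℝ) (q : Dat) (P : Mid.Par) : Prop :=
  ∃ c, 0 < c ∧ ∀ l a, ∃ a₁, ∀ a₂, a₁ ≤ a₂ → ∃ B, 0 ≤ B ∧ ∀ Λ N K n, q.fw.V F θ₀ P Λ l N K →
    q.fw.Ball Λ N P.ε₀ a K → a₂ ≤ n → n < K →
      KT.Ln (q.fw.er P Λ N n) (q.fw.x Λ N n) (q.fw.y Λ N n) (pT q Λ N n) (qT q Λ N n) (pT q Λ N (n + 1))
        (qT q Λ N (n + 1)) (Mid.sz q.fw P (pT q) (qT q) B a₂ K Λ N n) ∧
      c - q.fw.er P Λ N n * (1 + Mid.sz q.fw P (pT q) (qT q) B a₂ K Λ N n) ≤ pT q Λ N n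
def LAmb (F : Fa) (θ₀ : ℝ) (q : Dat) (P : Mid.Par) : Prop :=
  ∀ l a, ∃ a₁, ∀ k, a₁ ≤ k → ∀ ε, 0 < ε → ∃ N₀, ∀ Λ N N', q.fw.V F θ₀ P Λ l N k →
    q.fw.V F θ₀ P Λ l N' k → q.fw.Ball Λ N P.ε₀ a k → q.fw.Ball Λ N' P.ε₀ a k → N₀ ≤ N → N₀ ≤ N' →
      |pT q Λ N k - pT q Λ N' k| + |qT q Λ N k - qT q Λ N' k| ≤ ε

def TDerStmt : Prop := Cores fun F θ₀ q => Evp (LDr F θ₀ q)
def TLinStmt : Prop := Cores fun F θ₀ q => Evp (LLin F θ₀ q)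
def TAmbStmt : Prop := Cores fun F θ₀ q => Evp (LAmb F θ₀ q)

theorem linStmt (hC : CoreStmt) (hO : Leaf Mid.Odd) (h1 : TDerStmt) (h2 : TLinStmt) (h3 : TAmbStmt) :
    Mid.LinStmt := fun F θ₀ _ _ h0 => by
  obtain ⟨w, r₀, -, hq⟩ := hC F θ₀ 0 h0
  obtain ⟨v₁, a⟩ := h1 F θ₀ w r₀ h0
  obtain ⟨v₂, b⟩ := h2 F θ₀ w r₀ h0
  obtain ⟨v₃, d⟩ := h3 F θ₀ w r₀ h0
  obtain ⟨q, e1, e2, e3, c⟩ := hq (max v₁ (max v₂ v₃))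
  simp only [max_le_iff] at e3
  obtain ⟨P, hP⟩ := (hO F θ₀ q h0 c).ex
  obtain ⟨P', ⟨x, y⟩, z⟩ := (((a q e1 e2 e3.1 c).and (b q e1 e2 e3.2.1 c)).and (d q e1 e2 e3.2.2 c)).ex
  exact ⟨q.fw, P, P', pT q, qT q, hP, x, y, z⟩

end Crest.Agent.T145.Ev
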