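import Crest.Agent.T145.FlKs_11
import Crest.Agent.T145.KrK3_85
import Crest.Agent.T145.EvDef_2

/-!
# Row 145, even sector: `KeWStmt`, the even kernel theorem in a window (helper90)
-/

set_option autoImplicit false

namespace Crest.Agent.T145.Ev.W90

open Finset Real Filter Fl Fl.L11

variable {Λ : Lat}

/-- the covariance with an outer function is linear in the flowed insertion -/
theorem C_sum (hΛ : Λ.Ok) (G : Kr.Gm) {r : ℕ} (hr : r + Λ.rg ≤ G.R₂) {ι : Type} [Fintype ι]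
    {F : ι → Cfg Pt → ℝ} (hF : ∀ i, Ins 0 r (F i)) {Φ : Cfg Pt → ℝ} (hΦ : Ins 0 G.R₂ Φ)
    (ho : Out (bl 0 r) Φ) (t : ι → ℝ) :
    G.C Λ (Nc.St Λ 0 r fun s => ∑ i, t i * F i s) Φ = ∑ i, t i * G.C Λ (Nc.St Λ 0 r (F i)) Φ := by
  have st : Nc.St Λ 0 r (fun s => ∑ i, t i * F i s) = fun s => ∑ i, t i * Nc.St Λ 0 r (F i) s :=
    funext fun s => by
      simp only [Nc.St, ← Ex_const_mul]
      exact Ex_sum _ fun i _ => (hΛ.se_D _ s).ig ((hF i).2.const_mul _)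
  have i1 : ∀ i, Nc.In Λ 0 G.R₂ (Nc.St Λ 0 r (F i)) := fun i =>
    FlF4.In_St hΛ ((hF i).mono (by omega)).1 hr (FlF4.In_tame hΛ _ _ (hF i).2)
  have i2 : ∀ i, Nc.In Λ 0 G.R₂ fun s => Nc.St Λ 0 r (F i) s * Φ s := fun i => by
    have k := hΦ.mul ((hF i).mono (show r ≤ G.R₂ by omega))
    have := FlF4.In_St hΛ k.1 hr (FlF4.In_tame hΛ _ _ k.2)
    rw [FlF4.St_out_mul ho] at this
    simpa only [mul_comm] using this
  simp only [st, Kr.Gm.C, Kr.Gm.E, Nc.EN, sum_mul, mul_assoc, mul_sub, sum_sub_distrib]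
  rw [Ex_sum _ fun i _ => (i1 i).const_mul _, Ex_sum _ fun i _ => (i2 i).const_mul _]
  simp only [Ex_const_mul, sum_mul, mul_assoc]

theorem keP (hK : Kr.KEvenStmt) (F : Fa) {θ₀ : ℝ} (h0 : 0 < θ₀) {w : ℕ} (hw : 4 ≤ w) :
    ∀ᶠ W : ℕ in atTop, ∃ δ : ℝ, 0 < δ ∧ ∀ Λ, F.Mem Λ → ∀ l L', Λ.Win θ₀ δ l L' →
      2 - ew w / 80 ≤ π * Λ.gN l → ∀ r₀ L r : ℕ, Nc.Gd Λ (1 / 400) w r₀ L → r₀ ≤ r → 64 ≤ r →
      w * (W * r) ≤ L → W * r ≤ L' → L' ≤ 2 * (W * r) → Ke w W Λ r := by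
  have e0 := Kb14.ew_pos (show 1 ≤ w by omega)
  have e1 := Kb14.ew_le (show 1 ≤ w by omega)
  obtain ⟨ε, hε⟩ : ∃ ε, ε = ew w / 80 := ⟨_, rfl⟩
  obtain ⟨ω, hω⟩ : ∃ ω : ℝ, ω = w ^ 2 + 1 := ⟨_, rfl⟩
  have w4 : (4 : ℝ) ≤ w := by exact_mod_cast hw
  have ω1 : 1 ≤ ω := by nlinarith
  have ε0 : 0 < ε := by linarith
  obtain ⟨W₁, h₂⟩ := hK F θ₀ ε h0 ε0 (by linarith)
  obtain ⟨C₃, -, h₃⟩ := Kr.k3Stmt
  filter_upwards [ev_rp ε0 (ω ^ 3), ev_rp one_pos (max W₁ 1024 * ω)] with W hx hW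
  rw [rpow_one, ← le_div_iff₀ (by linarith)] at hW
  obtain ⟨δ₂, d2, h₂⟩ := h₂ _ ((le_max_left _ _).trans hW) 2 one_le_two
  have k1 := (le_max_right _ _).trans hW
  have W1 : (1 : ℝ) ≤ W := by rw [le_div_iff₀ (by linarith)] at k1; linarith
  have W1' : 1 ≤ W := by exact_mod_cast W1
  refine ⟨δ₂, d2, fun Λ hΛ l L' hw' hg r₀ L r hG a1 r64 a3 a4 a5 => ?_⟩
  have g1 := hG.2.1
  have b1 : 4 * r ≤ w * r := Nat.mul_le_mul_right _ hw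
  have b2 : 4 * (w * r) ≤ w * (w * r) := Nat.mul_le_mul_right _ hw
  have b3 : 4 * (W * r) ≤ w * (W * r) := Nat.mul_le_mul_right _ hw
  have b4 : r ≤ W * r := Nat.le_mul_of_pos_left _ W1'
  have b5 : w * r ≤ w * (W * r) := Nat.mul_le_mul_left _ b4
  have rg : (Λ.rg : ℝ) ≤ r := by exact_mod_cast (by omega : Λ.rg ≤ r)
  have r0 : (0 : ℝ) ≤ r := r.cast_nonneg
  have ok : (gm Λ w W r).Ok (W / ω) := by
    refine ⟨k1, show 2 * (w * r) ≤ w * (w * r) + _ by omega, show 64 ≤ w * (w * r) + _ by omega, ?_, ?_,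
      show 2 * (W * r) ≤ w * (W * r) by omega⟩ <;> simp only [gm] <;> push_cast
    · rw [div_mul_eq_mul_div, div_le_iff₀ (by linarith), mul_assoc]
      gcongr; nlinarith
    · rw [mul_assoc, div_mul_eq_mul_div, ← mul_div_assoc, le_div_iff₀ (by linarith), mul_assoc, mul_left_comm 2]
      refine mul_le_mul_of_nonneg_left ?_ W.cast_nonneg
      nlinarith [mul_nonneg r0 (show (0 : ℝ) ≤ w ^ 2 - 1 by nlinarith), Λ.rg.cast_nonneg (α := ℝ)]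
  obtain ⟨-, l2⟩ := h₂ Λ hΛ l L' hw' _ ok ⟨a4, by simp only [gm]; exact_mod_cast a5⟩ (by linarith)
  have W0 : (0 : ℝ) < W := by linarith
  have p1 : ω ^ 2 ≤ ω ^ 3 := pow_le_pow_right₀ ω1 (by norm_num)
  have ok' := hΛ.ok
  have ad := fun H (hH : Ins 0 r H) => adm ok' W hG hw a1 (b5.trans a3) hH
  have n0 := A51.nu_nonneg ok' w 0 r
  have hTS : ∀ H, Tame H → (gm Λ w W r).T Λ (Nc.St Λ 0 r H) = Nc.St Λ 0 (W * r) H := fun H hH =>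
    St_St ok' b4 hH
  have al := Kr.algStmt' _ _ ok
  have lt := Kr.O11.r_lt ok
  have g2 : r + 1 ≤ (gm Λ w W r).r := show _ ≤ w * (w * r) + _ by omega
  have g3 : (gm Λ w W r).r ≤ (gm Λ w W r).R₂ := by have := ok.out; omega
  have y1 := (((h₃ _ _ ok).2.1 0).1)
  clear h₂ h₃ hK
  set G := gm Λ w W r
  have sub : Nc.an 0 (G.r - 1) G.r ⊆ bl 0 G.R₂ := sdiff_subset.trans (bl_mono 0 g3)
  have out : ∀ {f : Pt → ℝ}, Sup (Nc.an 0 (G.r - 1) G.r) f → Out (bl 0 r) fun s => pr f s := fun hf =>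
    out_pr fun y hy => hf y fun h => (mem_sdiff.1 h).2 (bl_mono 0 (by omega) hy)
  refine ⟨fun H hH he _ => ⟨G.E Λ (Nc.St Λ 0 r H), ?_⟩, fun H hH => ?_⟩
  · have := (l2 _ (ad H hH) (Om.even_St he 0 r)).1
    rw [hTS H hH.2] at this
    rw [nu, FlF4.St_sub ok' hH.2 (Tame.const _), FlF4.St_const ok']
    exact this.trans (mul_le_mul_of_nonneg_right ((dvp (n := 2) W0 ω1 (by push_cast; linarith)).trans
      (L11.ab W1 hx p1 (by linarith))) (n0 H))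
  let Φ : Fin 2 → Cfg Pt → ℝ := ![Kr.cs G.eq, fun t => G.yi (Λ.gN l) 0 t * G.yi (Λ.gN l) 0 t]
  have iy : Ins 0 G.R₂ (G.yi (Λ.gN l) 0) :=
    ⟨((Kr.O11.depG_f2 y1.1 y1.2).mono sub).comp (· / Λ.gN l), Kr.O11.tame_y 0⟩
  have oy : Out (bl 0 r) (G.yi (Λ.gN l) 0) := (out y1.1).comp (· / Λ.gN l)
  have hΦ : ∀ k, Ins 0 G.R₂ (Φ k) ∧ Out (bl 0 r) (Φ k) := Fin.forall_fin_two.2
    ⟨⟨⟨(Kr.O11.depG_cs al.eq_sup ((Kr.O11.sum_sup al.eq_sup fun x hx => al.eq_sup x fun h => hx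
      (Nc.Geo.an_mono 0 (by have := ok.hc; omega) le_rfl h)).trans al.eq_sum)).mono sub,
      Tame.bdd (Kr.O11.abs_cs _)⟩, (out al.eq_sup).comp fun x => cos (2 * π * x)⟩, iy.mul iy, oy.mul oy⟩
  let M : (Fin 3 → ℝ) →ₗ[ℝ] (Fin 2 → ℝ) :=
    { toFun := fun t k => ∑ i, t i * G.C Λ (Nc.St Λ 0 r (H i)) (Φ k)
      map_add' := fun x y => by ext k; simp only [Pi.add_apply, add_mul, sum_add_distrib]
      map_smul' := fun c x => by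
        ext k; simp only [Pi.smul_apply, smul_eq_mul, RingHom.id_apply, mul_sum, mul_assoc] }
  obtain ⟨t, ht, t0⟩ := (Submodule.ne_bot_iff _).1 (LinearMap.ker_ne_bot_of_finrank_lt (f := M) (by simp))
  have iH : Ins 0 r fun s => ∑ i, t i * H i s := Ins.sum _ fun i _ => (hH i).1.smul _
  have z : ∀ k, G.C Λ (Nc.St Λ 0 r fun s => ∑ i, t i * H i s) (Φ k) = 0 := fun k =>
    (C_sum ok' G (show _ ≤ w * (W * r) by omega) (fun i => (hH i).1) (hΦ k).1 (hΦ k).2 t).trans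
      (congrFun (LinearMap.mem_ker.1 ht) k)
  obtain ⟨-, -, -, c3, c4⟩ := l2 _ (ad _ iH) (Om.even_St (EvenF.sum _ fun i _ => (hH i).2.1.smul _) 0 r)
  obtain ⟨c3, c5⟩ := c3 (Om.d4_St ok' (D4.sum _ fun i _ => (hH i).2.2.smul _) r)
  have c6 : G.C Λ (Nc.St Λ 0 r fun s => ∑ i, t i * H i s)
      (fun t => G.yi (Λ.gN l) 1 t * G.yi (Λ.gN l) 0 t) = 0 := by simpa only [mul_comm] using c3
  have z0 : G.C Λ _ (Kr.cs G.eq) = 0 := z 0
  have z1 : G.C Λ _ (fun t => G.yi (Λ.gN l) 0 t * G.yi (Λ.gN l) 0 t) = 0 := z 1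
  simp only [Fin.sum_univ_two, c3, c6, ← c5, z0, z1, hTS _ iH.2, mul_zero, zero_mul, zero_div, add_zero,
    sub_zero] at c4
  refine ⟨t, t0, G.E Λ (Nc.St Λ 0 r fun s => ∑ i, t i * H i s), ?_⟩
  rw [nu, FlF4.St_sub ok' iH.2 (Tame.const _), FlF4.St_const ok']
  exact c4.trans (mul_le_mul_of_nonneg_right ((dvp (n := 3) W0 ω1 (by push_cast; linarith)).trans
    (L11.ab W1 hx le_rfl (by linarith))) (n0 _))

end Crest.Agent.T145.Ev.W90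

namespace Crest.Agent.T145.Ev

open Finset Real Filter Fl Fl.L11

/-- KE in a window -/
theorem keWStmt (hK : Kr.KEvenStmt) (hT : T1mStmt) : KeWStmt := fun p θ₀ h0 => by
  by_cases hw : 4 ≤ p.w
  swap
  · exact ⟨0, fun _ _ => ⟨1, 0, one_pos, fun _ => ⟨0, fun _ _ _ h => absurd h.w4 hw⟩⟩⟩
  have e0 := Kb14.ew_pos (show 1 ≤ p.w by omega)
  obtain ⟨W₀, H⟩ := eventually_atTop.1 ((W90.keP hK p.F (half_pos h0) hw).and (eventually_ge_atTop 1))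
  refine ⟨W₀, fun W hW => ?_⟩
  obtain ⟨⟨δ₁, d, h₁⟩, W1⟩ := H W hW
  obtain ⟨δ, ⟨⟨k1, k2⟩, k3⟩, d0⟩ := ((((ev_subwin hT p.F h0 d 0).and (ev_le d)).and
    (ev_le (show 0 < ew p.w / 320 by linarith))).and self_mem_nhdsWithin).exists
  refine ⟨δ, 0, d0, fun l => ⟨max 64 (⌈l / δ₁⌉₊ + 1), fun Λ N L hG hC hL r a b c => ?_⟩⟩
  have b3 : 4 * (W * r) ≤ p.w * (W * r) := Nat.mul_le_mul_right _ hw
  have b4 : r ≤ W * r := Nat.le_mul_of_pos_left _ W1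
  obtain ⟨j, j1, j2⟩ := dyad (show 1 ≤ W * r by omega)
  refine h₁ Λ hG.mem l _ (k1 Λ hG.mem l _ hC.1 j (by omega) (Or.inr ⟨hC.1.2.1.1.trans (by gcongr), ?_⟩)) ?_
    _ _ r hG.gd a (by omega) c j1 j2
  · rw [mul_comm, ← div_le_iff₀ d]
    exact (Nat.le_ceil _).trans (by exact_mod_cast (by omega : _ ≤ 2 ^ j))
  · have : π * Λ.gN l = 2 + π * (Λ.gN l - 2 / π) := by field_simp; ring
    nlinarith [(abs_le.1 hC.2).1, pi_lt_four, pi_pos]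

end Crest.Agent.T145.Ev
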