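import Crest.Agent.T145.FlLoc_94
import Crest.Agent.T145.EvDef_2

/-!
# Row 145 (helper94): `Ev.locNStmt`, the norm of an even insertion times the localised linear functional
-/

set_option autoImplicit false

noncomputable section

namespace Crest.Agent.T145.F94

open Finset Nc FlF4

/-- the norm of `F X_j` -/
theorem Lev.nuX {Λ : Lat} {z : Pt} {F : Cfg Pt → ℝ} {w j₀ K j : ℕ} {a : ℕ → ℕ} {D : ℕ → Finset Pt}
    {f : ℕ → Pt → ℝ} {x : ℕ → ℝ} (h : Lev Λ z w a j₀ K D f x) (hΛ : Λ.Ok) (hj : j < K) (hT : Tame F)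
    (hF : DepG (bl z (a 0)) F) {n : ℝ} (hn0 : 0 ≤ n)
    (h0 : j < j₀ → ∀ c, a 0 ≤ c → Nm Λ z c (fun s => F s ^ 2) ≤ n ^ 2)
    (hn : j₀ ≤ j → nu Λ z (a j) (w * a j) F ≤ n) :
    nu Λ z (a (j + 2)) (w * a (j + 2)) (fun s => F s * pr (f j) s) ≤ 4 * n * (cB Λ.τ 4 * x j) := by
  have e1 := (h.ac (j + 2)).1
  have ab : bl z (a j) ⊆ bl z (w * (w * a j)) := bl_mono z (by have := h.ac j; omega)
  have := (h.fusF hΛ (dm_bx (ρ := a (j + 2)) (C := w * a (j + 2)) (by omega)) zero_le_one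
    (amb_bx hΛ (by omega)) (j := j) hj le_rfl le_rfl (by omega) hT hF hn0 h0 hn
    (mul_nonneg (cB_pos _ _).le (h.x0 j)) (Y := fun s => |pr (f j) s|) (Z := fun s => pr (f j) s)
    (fun U hU => bd_x2 hΛ (h.x0 j) (hU j le_rfl hj le_rfl))
    (fun h1 => (h.out h1 le_rfl hj).comp _) ((h.dep hj le_rfl).comp _)
    (fun h1 => (h.out h1 le_rfl hj).mono ab) fun _ => le_rfl).2
  rw [nu_eq hΛ (((hF.mono (bl_mono z (h.mono (Nat.zero_le _)))).mul (h.dep hj le_rfl)).mono
    (bl_mono z (by omega))) (by omega)]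
  simpa only [mul_one, one_mul] using this

end Crest.Agent.T145.F94

namespace Crest.Agent.T145.Ev

open Finset Pot Xi Real Fl F94

set_option maxHeartbeats 1000000 in
theorem locNStmt (hR : RateStmt) : LocNStmt := by
  intro p
  obtain ⟨R, hR0, hR⟩ := hR p.w
  obtain ⟨X₀, hX₀, hfl⟩ := fl_lc
  set Q : ℝ := 8 * (p.w : ℝ) ^ 2 with hQ
  set κ := cw p.w with hκdef
  set Y := X₀ * Q ^ 4 with hY
  set β₄ := FlF4.cB p.F.τ₂ 4
  have hY0 : 0 ≤ Y := by positivity
  have hβ₄ : 0 ≤ β₄ := (FlF4.cB_pos _ _).le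
  refine ⟨4 * β₄ * Y * R * Q ^ 3 * (1 + |1 / (Q ^ (κ / 4) - 1)|), by positivity,
    fun Λ L h z r a₀ ρ σ P P₀ F u hL h0 hI hE hP hPr hP₀ hmic hσ hu hρ1 hρ2 => ?_⟩
  have hΛ := gs_ok h
  have w4 := h.w4
  have hrg := h.gd.2.1
  have rg1 := hΛ.one_le_rg
  obtain ⟨hκ, hκ1⟩ := cw_pos (show 1 ≤ p.w by omega)
  have hw : ∀ t, t ≤ p.w * t := fun t => Nat.le_mul_of_pos_left _ (by omega)
  have hQ2 : 2 ≤ Q := by
    have : (4 : ℝ) ≤ p.w := by exact_mod_cast w4
    rw [hQ]; nlinarith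
  obtain ⟨J, K, a, β, s₀, hJ, hJK, a0, aK, am, β0, βJ, hs₀, hs₁, glo, gK, gtwo, ghi, r8, r2⟩ :=
    grid (show 2 ≤ p.w by omega) (show 1 ≤ a₀ by omega) hρ1 hρ2
  rw [← hQ] at glo ghi
  have ar : ∀ j ≤ K + 1, a j ≤ r := fun j hj => aK ▸ am hj
  have al : ∀ j, a₀ ≤ a j := fun j => a0 ▸ am (Nat.zero_le j)
  have hr : (0 : ℝ) < r := by exact_mod_cast (by have := ar 0 (by omega); omega : 0 < r)
  have hs : ∀ j, 0 < s₀ * Q ^ j := fun j => by positivity
  have aβ : ∀ j, 1 ≤ j → j ≤ K → (a j : ℝ) + 1 ≤ β j := fun j h1 h2 => by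
    rcases h2.eq_or_lt with rfl | h2
    · exact gK
    · refine le_trans ?_ (glo j h1 h2).2
      exact_mod_cast Nat.succ_le_succ ((hw _).trans (hw _))
  have β1 : ∀ j, 1 ≤ j → j ≤ K → 1 ≤ β j := fun j h1 h2 => by
    linarith [aβ j h1 h2, (Nat.cast_nonneg (a j) : (0 : ℝ) ≤ _)]
  have β01 : ∀ j ≤ K, β j = 0 ∨ 1 ≤ β j := fun j hj =>
    (Nat.eq_zero_or_pos j).imp (fun e => by rw [e, β0]) fun h1 => β1 j h1 hj
  have βm : ∀ j < K, β j ≤ β (j + 1) := fun j hj => by
    rcases Nat.eq_zero_or_pos j with rfl | h1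
    · linarith [β1 1 le_rfl hj]
    · linarith [gtwo j h1 hj.le, aβ (j + 1) (by omega) hj, β1 j h1 hj.le]
  have βr : ∀ j, 1 ≤ j → j ≤ K → 2 * β j + 1 ≤ r := fun j h1 h2 =>
    (gtwo j h1 h2).trans (by exact_mod_cast ar _ (by omega))
  have sa : ∀ j < K, s₀ * Q ^ j * r ≤ a j := fun j hj => by
    rcases Nat.eq_zero_or_pos j with rfl | h1
    · simpa [a0] using hs₁
    · exact (glo j h1 hj).1.ge
  have s1 : ∀ j < K, s₀ * Q ^ j ≤ 1 := fun j hj => by
    have : (a j : ℝ) ≤ r := by exact_mod_cast ar j (by omega)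
    exact le_of_mul_le_mul_right (by linarith [sa j hj]) hr
  have hfl' := fun j (hj : j < K) => hfl Λ u z r σ (β j) (β (j + 1)) 1 (Y * σ * (s₀ * Q ^ j) ^ 2)
    hΛ hσ hu (β01 j hj.le) (βm j hj) (β1 _ (by omega) hj) (βr _ (by omega) hj) (by
      have h1 : β (j + 1) / r ≤ Q ^ 2 * (s₀ * Q ^ j) := by rw [div_le_iff₀ hr]; exact ghi j hj
      have h2 : 0 ≤ β (j + 1) / r := div_nonneg (by linarith [β1 (j + 1) (by omega) hj]) hr.le
      calc _ ≤ X₀ * |1| * σ * (Q ^ 2 * (s₀ * Q ^ j)) ^ 2 := by gcongr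
        _ = _ := by rw [hY, abs_one]; ring)
  simp only [one_smul] at hfl'
  have lev : Lev Λ z p.w a 1 K (fun j => if j < 1 then bl z (⌊2 * β (j + 1)⌋₊ + 1)
      else bl z (⌊2 * β (j + 1)⌋₊ + 1) \ bl z (p.w * (p.w * a j)))
      (fun j => A0 (lc u z (β (j + 1)) - lc u z (β j))) fun j => Y * σ * (s₀ * Q ^ j) ^ 2 :=
    have two : ∀ j, 1 ≤ j → j < K → 2 * (p.w * (p.w * a j) + 1) + 1 ≤ a (j + 1) := fun j h1 h2 => by
      have h3 := (glo j h1 h2).2
      have h4 := gtwo j h1 h2.le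
      exact_mod_cast (by push_cast at h3 ⊢; linarith :
        ((2 * (p.w * (p.w * a j) + 1) + 1 : ℕ) : ℝ) ≤ a (j + 1))
    { j1 := le_rfl
      w2 := by omega
      rg := by omega
      mono := am
      ba := fun j hj => by
        have h1 := two (max j 1) (le_max_right _ _) (by omega)
        have h2 := am (show max j 1 + 1 ≤ j + 2 by omega)
        have h3 := Nat.mul_le_mul_left p.w (Nat.mul_le_mul_left p.w (am (le_max_left j 1)))
        have h4 := (al j).trans ((hw _).trans (hw _))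
        omega
      top := by have := al K; omega
      g1 := fun j hj => (gs_gam h (h0.trans (al j)) ((ar j (by omega)).trans ((hw r).trans hL))).2
      g2 := fun j hj => (gs_gam h (h0.trans ((al j).trans (hw _)))
        ((Nat.mul_le_mul_left _ (ar j (by omega))).trans hL)).2
      sub := fun j hj => by
        have h1 : ⌊2 * β (j + 1)⌋₊ + 1 ≤ a (j + 2) := by
          have := Nat.floor_le (show 0 ≤ 2 * β (j + 1) by linarith [β1 (j + 1) (by omega) hj])
          exact_mod_cast (by push_cast; linarith [gtwo (j + 1) (by omega) hj] :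
            ((⌊2 * β (j + 1)⌋₊ + 1 : ℕ) : ℝ) ≤ a (j + 2))
        split_ifs
        exacts [bl_mono z h1, sdiff_subset.trans (bl_mono z h1)]
      disj := fun j h1 _ => by rw [if_neg (by omega)]; exact disjoint_sdiff
      x0 := fun j => by positivity
      fl := fun j hj => by
        split_ifs with h1
        · exact (hfl' j hj).1
        refine (hfl' j hj).2 _ fun y hy => ?_
        have h3 := (glo j (by omega) hj).2
        have h4 := β1 j (by omega) hj.le
        have h5 := βm j hj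
        rw [lc_in (by linarith) h3 hy, lc_in (by linarith) (h3.trans h5) hy] }
  have g := gs_gam h (h0.trans ((al 0).trans (ar 0 (by omega)))) ((hw r).trans hL)
  have hm := FlF4.amb_bx (z := z) hΛ (le_refl (p.w * r + Λ.rg))
  have tX : ∀ j, Tame fun s => F s * pr (A0 (lc u z (β (j + 1)) - lc u z (β j))) s :=
    fun j => hI.2.mul (Tame.hom _)
  have dX : ∀ j < J, DepG (bl z (a (j + 2)))
      fun s => F s * pr (A0 (lc u z (β (j + 1)) - lc u z (β j))) s :=
    fun j hj => (hI.1.mono (bl_mono z (al _))).mul (lev.dep (by omega) le_rfl)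
  have e : (fun s => F s * X (lc u z ρ) s) =
      fun s => ∑ j ∈ range J, F s * pr (A0 (lc u z (β (j + 1)) - lc u z (β j))) s := funext fun s => by
    simp only [A0_sub, pr_sub, AddMonoidHom.sub_apply, ← mul_sum]
    rw [sum_range_sub fun j => pr (A0 (lc u z (β j))) s, β0, βJ, lc_zero,
      show A0 0 = 0 from A0_const 0, pr_zero, AddMonoidHom.zero_apply, sub_zero, X]
  rw [e]
  refine (FlF4.nu_sum_le hΛ (show r + Λ.rg ≤ p.w * r by omega) _ fun j hj => ⟨(dX j (mem_range.1 hj)).mono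
    (bl_mono z ((ar _ (by have := mem_range.1 hj; omega)).trans (hw r))),
    FlF4.In_tame hΛ z _ (tX j)⟩).trans ?_
  have hβ : FlF4.cB Λ.τ 4 ≤ β₄ := FlF4.cB_mono h.mem.2.2.2 le_rfl
  have hρr : ρ / r ≤ 1 := by rw [div_le_one hr]; linarith [βr J hJ (by omega), β1 J hJ (by omega)]
  have hρ0 : 0 ≤ ρ := by linarith [β1 J hJ (by omega)]
  set A := P * (ρ / r) ^ (κ / 4) / (r : ℝ) ^ 2 with hA
  set A' := P₀ * ((a₀ : ℝ) / r) ^ (2 + κ / 2) with hA'
  have hA0 : 0 ≤ A := by positivity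
  have hA0' : 0 ≤ A' := by positivity
  refine (sum_le_sum (g := fun j => 4 * β₄ * Y * R * Q ^ 3 * σ *
    (A * (s₀ * Q ^ j) ^ (κ / 4) + if j = 0 then A' else 0)) fun j hj => ?_).trans ?_
  · have hj := mem_range.1 hj
    set n := if j < 1 then P₀ else P * max ((a j : ℝ) / r) (r / a j) ^ (κ / 100) / (a j : ℝ) ^ 2 with hn'
    have hn : 0 ≤ n := by simp only [n]; split_ifs <;> positivity
    have hf := lev.nuX hΛ (j := j) (by omega) hI.2 (a0 ▸ hI.1) hn
      (fun h1 c hc => by rw [hn', if_pos h1]; exact hmic c (a0 ▸ hc)) fun h1 => by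
        have h3 : (0 : ℝ) < a j := by exact_mod_cast (by have := al j; omega : 0 < a j)
        rw [hn', if_neg (by omega), le_div_iff₀ (by positivity), mul_comm]
        exact hPr (a j) (al j) ((Nat.mul_le_mul_left _ (ar j (by omega))).trans hL)
    have h1 := hR p Λ L rfl h _ z (a (j + 2)) r _ (h0.trans (al _)) (ar _ (by omega)) hL hm
      ⟨dX j hj, tX j⟩
    rw [(hm.ctr.cen hm.anch).ex_odd fun s => by rw [hE s, map_neg, mul_neg]] at h1
    simp only [sub_zero] at h1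
    have h2 : ((a (j + 2) : ℝ) / r) ^ κ ≤ Q ^ 3 * (s₀ * Q ^ j) ^ κ := by
      have h3 : (a (j + 2) : ℝ) / r ≤ Q ^ 3 * (s₀ * Q ^ j) := by
        have h4 := ghi (j + 1) (by omega)
        have h5 := aβ (j + 2) (by omega) (by omega)
        rw [div_le_iff₀ hr]
        rw [pow_succ Q j] at h4
        linarith
      refine (rpow_le_rpow (by positivity) h3 hκ.le).trans ?_
      rw [mul_rpow (by positivity) (hs j).le]
      refine mul_le_mul_of_nonneg_right ?_ (by positivity)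
      simpa using rpow_le_rpow_of_exponent_le (one_le_pow₀ (n := 3) (show 1 ≤ Q by linarith)) hκ1
    have tm : n * (s₀ * Q ^ j) ^ 2 * (s₀ * Q ^ j) ^ κ ≤
        A * (s₀ * Q ^ j) ^ (κ / 4) + if j = 0 then A' else 0 := by
      rw [hn']
      by_cases h1 : j < 1
      · obtain rfl : j = 0 := by omega
        rw [if_pos h1, if_pos rfl, mul_assoc, ← rpow_natCast, ← rpow_add (hs 0)]
        refine le_add_of_nonneg_of_le (by positivity) (mul_le_mul_of_nonneg_left ?_ hP₀)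
        refine (rpow_le_rpow_of_exponent_ge (hs 0) (s1 0 (by omega))
          (show 2 + κ / 2 ≤ _ by push_cast; linarith)).trans (rpow_le_rpow (hs 0).le ?_ (by positivity))
        rw [le_div_iff₀ hr]; simpa using hs₁
      · rw [if_neg h1]
        refine le_add_of_le_of_nonneg (term hκ hP (hs j) hr (sa j (by omega))
          (by exact_mod_cast ar j (by omega)) ?_ hρr) (by split_ifs <;> positivity)
        have h2 : (a j : ℝ) ≤ a J := by exact_mod_cast am hj.le
        rw [le_div_iff₀ hr]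
        linarith [sa j (by omega), aβ J hJ (by omega)]
    calc _ ≤ R * (Q ^ 3 * (s₀ * Q ^ j) ^ κ) * (4 * n * (β₄ * (Y * σ * (s₀ * Q ^ j) ^ 2))) :=
          h1.trans (mul_le_mul (mul_le_mul_of_nonneg_left h2 hR0) (hf.trans (by gcongr))
            (FlF4.nu_nonneg hΛ _ _ _ _) (by positivity))
      _ = 4 * β₄ * Y * R * Q ^ 3 * σ * (n * (s₀ * Q ^ j) ^ 2 * (s₀ * Q ^ j) ^ κ) := by ring
      _ ≤ _ := mul_le_mul_of_nonneg_left tm (by positivity)
  · rw [← mul_sum, sum_add_distrib, ← mul_sum, sum_ite_eq', if_pos (mem_range.2 (by omega))]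
    have h1 := (geo_rpow (show 1 < Q by linarith) hs₀ (show 0 < κ / 4 by positivity)
      (s1 J (by omega))).trans (le_abs_self _)
    set c := |1 / (Q ^ (κ / 4) - 1)|
    have hc : 0 ≤ c := abs_nonneg _
    have h2 : A * ∑ j ∈ range J, (s₀ * Q ^ j) ^ (κ / 4) + A' ≤ (1 + c) * (A + A') := by
      nlinarith [mul_le_mul_of_nonneg_left h1 hA0, mul_nonneg hc hA0']
    refine (mul_le_mul_of_nonneg_left h2 (by positivity)).trans_eq ?_
    ring

end Crest.Agent.T145.Ev
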