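import Crest.Agent.T145.XiB_22

/-!
# Row 145: the potential `ψ_r = a - Φ_r` of the smeared charge, two-centre energies (helper22)
-/

set_option autoImplicit false

namespace Crest.Agent.T145.Xi

open Finset Pot Pot.Ha91

theorem difs_congr {u v : Pt → ℝ} {ys : List Pt} (h : ∀ y ∈ ys, y ∈ nn) {z : Pt}
    (huv : ∀ w ∈ bl z ys.length, u w = v w) : difs ys u z = difs ys v z := by
  have h1 := difs_le h (u := u - v) (z := z) (M := 0) fun w hw => by simp [huv w hw]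
  rw [difs_sub, mul_zero, abs_nonpos_iff, Pi.sub_apply] at h1
  linarith

/-- `ψ_r`: constant near the origin, the potential kernel far away, `A₀ ψ_r = -ξ_r` -/
noncomputable def psi (r : ℝ) (x : Pt) : ℝ := pk x - Phi r x

theorem psi_eq (r : ℝ) : psi r = pk - Phi r := rfl

theorem A0_psi (r : ℝ) : A0 (psi r) = -xi r := by
  funext x; rw [psi_eq, A0_sub, Pi.sub_apply, A0_pk, Pi.neg_apply, xi_apply]; ring

theorem A0_psi_sub (r : ℝ) (z x : Pt) : A0 (fun w => psi r (w - z)) x = -xi r (x - z) := by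
  rw [A0_shift, A0_psi]; rfl

theorem sy4_psi (r : ℝ) : Sy4 (psi r) := sy4_pk.sub (sy4_Phi r)

theorem psi_in {r : ℝ} (hr : 0 < r) {n : ℕ} (hn : (n : ℝ) ≤ r) {x : Pt} (hx : x ∈ bl 0 n) :
    psi r x = cr r := by rw [psi, Phi_in hr hn hx]; ring

theorem psi_of_eu {r : ℝ} (hr : 0 < r) {x : Pt} (hx : eu x ≤ r) : psi r x = cr r := by
  rw [psi, Phi_of_eu hr hx]; ring

theorem psi_out {r : ℝ} (hr : 0 < r) {n : ℕ} (hn : 2 * r ≤ n + 1) {x : Pt} (hx : x ∉ bl 0 n) :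
    psi r x = pk x := by rw [psi, sup_Phi hr hn x hx, sub_zero]

theorem psi_far {r : ℝ} (hr : 0 < r) {x : Pt} (hx : 4 * r < eu x) : psi r x = pk x := by
  rw [psi, Phi, not_not.1 fun h => (eu_le_of_chi hr h).not_gt hx, zero_mul, sub_zero]

theorem wt_eq (r r' : ℝ) (x : Pt) : wt r r' x = psi r x - psi r' x + (cr r' - cr r) := by
  rw [wt, psi, psi]; ring

/-- all differences of `ψ_r`, at the scale `r + |z|` -/
theorem difs_psi (k : ℕ) : ∃ C : ℝ, 0 ≤ C ∧ ∀ r : ℝ, 1 ≤ r → ∀ ys : List Pt, ys.length = k + 1 →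
    (∀ y ∈ ys, y ∈ nn) → ∀ z, |difs ys (psi r) z| ≤ C / (r + eu z) ^ (k + 1) := by
  obtain ⟨C1, hC1⟩ := pkD k
  obtain ⟨C2, h2, hC2⟩ := sm_Phi (k + 1) (M := 2) one_le_two
  obtain ⟨C3, h3, hC3⟩ := abs_Phi_le'
  set L : ℝ := 8 * (k + 1) with hL
  have hk : (0 : ℝ) ≤ k := Nat.cast_nonneg k
  have hL1 : 1 ≤ L := by linarith
  have hlL := Real.log_nonneg hL1
  set C4 := |C1| * 2 ^ (k + 1) + C2 + (|C1| + 2 ^ (k + 1) * (C3 + Real.log L)) * L ^ (k + 1)
  have h4 : 0 ≤ C4 := by positivity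
  refine ⟨|C1| * 2 ^ (k + 1) + C4 * (L + 1) ^ (k + 1), by positivity, fun r hr ys hl hys z => ?_⟩
  have hr0 : 0 < r := by linarith
  have hz := eu_nonneg z
  have hp : |difs ys pk z| ≤ |C1| / (1 + eu z) ^ (k + 1) :=
    (hC1 ys hl hys z).1.trans (by gcongr; exact le_abs_self _)
  have hn : ∀ w ∈ bl z ys.length, eu w ≤ eu z + 2 * (k + 1) ∧ eu z ≤ eu w + 2 * (k + 1) := fun w hw => by
    have := eu_near hw
    rwa [hl, Nat.cast_succ] at this
  by_cases hzr : L * r < eu z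
  · rw [difs_congr hys (v := pk) fun w hw => psi_far hr0 (by nlinarith [(hn w hw).2])]
    have h5 : (r + eu z) / 2 ≤ 1 + eu z := by nlinarith
    calc _ ≤ |C1| / ((r + eu z) / 2) ^ (k + 1) := hp.trans (by gcongr)
      _ = |C1| * 2 ^ (k + 1) / (r + eu z) ^ (k + 1) := by rw [div_pow]; field_simp
      _ ≤ _ := by gcongr; exact le_add_of_nonneg_right (by positivity)
  · have h5 : |difs ys (psi r) z| ≤ C4 / r ^ (k + 1) := by
      by_cases hrL : L < r
      · by_cases hz2 : r / 2 ≤ eu z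
        · have h6 := hC2 r (by push_cast; linarith) ys hl.le hys z hz2
          rw [hl] at h6
          rw [psi_eq, difs_sub, Pi.sub_apply]
          have h7 : |C1| / (1 + eu z) ^ (k + 1) ≤ |C1| * 2 ^ (k + 1) / r ^ (k + 1) :=
            calc _ ≤ |C1| / (r / 2) ^ (k + 1) := by gcongr; linarith
              _ = _ := by rw [div_pow]; field_simp
          refine (abs_sub _ _).trans ((add_le_add (hp.trans h7) h6).trans ?_)
          rw [← add_div]; gcongr; exact le_add_of_nonneg_right (by positivity)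
        · obtain ⟨y, ys, rfl⟩ := List.exists_cons_of_length_eq_add_one hl
          rw [difs_congr hys (v := fun _ => cr r) fun w hw => psi_of_eu hr0 (by linarith [(hn w hw).1]),
            difs_const, abs_zero]
          positivity
      · have h6 := difs_le hys (u := Phi r) (z := z) (M := C3 + Real.log L) fun w _ =>
          (hC3 r hr w).trans (by gcongr; exact not_lt.1 hrL)
        rw [hl] at h6
        rw [psi_eq, difs_sub, Pi.sub_apply]
        have h7 : |C1| / (1 + eu z) ^ (k + 1) ≤ |C1| :=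
          div_le_self (abs_nonneg _) (one_le_pow₀ (by linarith))
        refine (abs_sub _ _).trans ((add_le_add (hp.trans h7) h6).trans ?_)
        rw [le_div_iff₀ (by positivity)]
        calc _ ≤ (|C1| + 2 ^ (k + 1) * (C3 + Real.log L)) * L ^ (k + 1) := by
              gcongr; exact not_lt.1 hrL
          _ ≤ _ := le_add_of_nonneg_left (by positivity)
    have h6 : (r + eu z) / (L + 1) ≤ r := by rw [div_le_iff₀ (by positivity)]; linarith [not_lt.1 hzr]
    calc _ ≤ C4 / ((r + eu z) / (L + 1)) ^ (k + 1) := h5.trans (by gcongr)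
      _ = C4 * (L + 1) ^ (k + 1) / (r + eu z) ^ (k + 1) := by rw [div_pow]; field_simp
      _ ≤ _ := by gcongr; exact le_add_of_nonneg_left (by positivity)

/-- uniform form: one constant for the orders `1 ≤ j ≤ k` -/
theorem difs_psi' (k : ℕ) : ∃ C : ℝ, 0 ≤ C ∧ ∀ r : ℝ, 1 ≤ r → ∀ ys : List Pt, 1 ≤ ys.length →
    ys.length ≤ k → (∀ y ∈ ys, y ∈ nn) → ∀ z, |difs ys (psi r) z| ≤ C / (r + eu z) ^ ys.length := by
  choose C h0 hC using difs_psi
  refine ⟨∑ j ∈ range k, C j, sum_nonneg fun j _ => h0 j, fun r hr ys h1 h2 h3 z => ?_⟩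
  obtain ⟨j, hj⟩ : ∃ j, ys.length = j + 1 := ⟨ys.length - 1, by omega⟩
  have := eu_nonneg z
  refine (hC j r hr ys hj h3 z).trans ?_
  rw [hj]
  gcongr
  exact single_le_sum (f := C) (fun i _ => h0 i) (mem_range.2 (by omega))

/-- `ψ_r (· - c)` is smooth at scale `ℓ` wherever `ℓ ≤ r + |z - c|` -/
theorem smH_psi (k : ℕ) : ∃ C : ℝ, 0 ≤ C ∧ ∀ (r ℓ : ℝ) (c : Pt), 1 ≤ r → 0 < ℓ →
    SmH k {z | ℓ ≤ r + eu (z - c)} (C / ℓ ^ 2) ℓ fun w => psi r (w - c) := by
  obtain ⟨C, h0, hC⟩ := difs_psi' k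
  refine ⟨C, h0, fun r ℓ c hr hℓ ys h1 h2 h3 z hz => ?_⟩
  simp only [sub_eq_add_neg] at hz ⊢
  rw [difs_shift, div_div, ← pow_add, Nat.add_sub_cancel' h1]
  exact (hC r hr ys (by omega) h2 h3 _).trans (by gcongr; exact hz)

/-- size of `ψ_r` -/
theorem abs_psi : ∃ C : ℝ, 0 ≤ C ∧ ∀ r : ℝ, 1 ≤ r → ∀ z,
    |psi r z - Real.log (r + eu z) / (2 * Real.pi)| ≤ C := by
  obtain ⟨C, h0, hC⟩ := pk_sub_cr
  refine ⟨2 * C + |kap| + 4, by positivity, fun r hr z => ?_⟩
  have hr0 : 0 < r := by linarith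
  have hz := eu_nonneg z
  have hpi := Real.pi_gt_three
  have key : ∀ t : ℝ, 5⁻¹ ≤ t → t ≤ 5 → |Real.log t / (2 * Real.pi)| ≤ 1 := fun t h1 h2 => by
    rw [abs_div, abs_of_pos (by positivity : 0 < 2 * Real.pi), div_le_one (by positivity)]
    linarith [abs_log_le (by norm_num) h1 h2, Real.log_le_sub_one_of_pos (show (0 : ℝ) < 5 by norm_num)]
  have hk := abs_le.1 (le_refl |kap|)
  by_cases h1 : eu z ≤ r
  · have h2 := abs_le.1 (key ((r + eu z) / r) (by rw [le_div_iff₀ hr0]; linarith)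
      (by rw [div_le_iff₀ hr0]; linarith))
    rw [Real.log_div (by positivity) hr0.ne', sub_div] at h2
    rw [psi_of_eu hr0 h1, cr, abs_le]
    constructor <;> linarith [h2.1, h2.2]
  · have hz0 : 0 < eu z := by linarith [not_le.1 h1]
    have hz' : z ≠ 0 := fun h => by simp [h, eu] at hz0
    have h2 := hC r hr0 z hz'
    have h3 : C / eu z ≤ C := div_le_self h0 (one_le_eu hz')
    have h4 := abs_le.1 (key ((r + eu z) / eu z) (by rw [le_div_iff₀ hz0]; linarith)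
      (by rw [div_le_iff₀ hz0]; linarith))
    rw [Real.log_div (by positivity) hz0.ne', sub_div] at h4
    have h5 : |Phi r z| ≤ C + 1 := by
      by_cases hc : chi r z = 0
      · rw [Phi, hc, zero_mul, abs_zero]; positivity
      · have h6 := key (eu z / r) (by rw [le_div_iff₀ hr0]; linarith)
          (by rw [div_le_iff₀ hr0]; linarith [eu_le_of_chi hr0 hc])
        rw [Phi, abs_mul]
        refine (mul_le_of_le_one_left (abs_nonneg _) (abs_chi_le _ _)).trans ?_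
        rw [abs_le] at *
        constructor <;> linarith [h2.1, h2.2, h6.1, h6.2]
    rw [cr, Real.log_div hz0.ne' hr0.ne', sub_div] at h2
    rw [psi]
    rw [abs_le] at h2 h5 ⊢
    constructor <;> linarith [h2.1, h2.2, h4.1, h4.2, h5.1, h5.2]

/-! ## pairings -/

/-- the potential kernel centred at `x` against the smeared charge -/
theorem pk_pair {r : ℝ} (hr : 0 < r) {n : ℕ} (hn : 2 * r ≤ n) (x : Pt) :
    ∑ y ∈ bl 0 n, pk (y - x) * xi r y = psi r x := by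
  have h1 : 1 ≤ n := by
    have : (0 : ℝ) < n := by linarith
    exact_mod_cast this
  obtain ⟨m, rfl⟩ : ∃ m, n = m + 1 := ⟨n - 1, by omega⟩
  have hs := sup_Phi hr (n := m) (by exact_mod_cast hn)
  have h2 := green_bl (c := 0) le_rfl (fun y => pk (y - x)) hs
  have h3 : ∑ y ∈ bl 0 (m + 1), pk (y - x) * dl (0 : Pt) y = pk (0 - x) :=
    ip_dl' (self_mem_bl _ _) fun y => pk (y - x)
  have h4 : ∑ y ∈ bl 0 (m + 1), dl x y * Phi r y = Phi r x :=
    ip_dl_sup x (hs.mono (bl_mono _ (Nat.le_succ _)))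
  simp only [xi_apply, mul_add, sum_add_distrib, h3, ← h2, A0_pk_sub, neg_mul, sum_neg_distrib, h4,
    zero_sub, pk_neg, psi]
  ring

/-- the mutual potential of two smeared charges -/
noncomputable def pp (r r' : ℝ) (x : Pt) : ℝ := ∑ y ∈ bl 0 ⌈2 * r'⌉₊, psi r (y - x) * xi r' y

theorem pp_eq (r : ℝ) {r' : ℝ} (hr : 0 < r') (x : Pt) {D : Finset Pt} (hD : bl 0 ⌈2 * r'⌉₊ ⊆ D) :
    ∑ y ∈ D, psi r (y - x) * xi r' y = pp r r' x :=
  (sum_subset hD fun y _ hy => by rw [sup_xi hr (Nat.le_ceil _) y hy, mul_zero]).symm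

theorem pp_eq' (r : ℝ) {r' : ℝ} (hr : 0 < r') (z z' : Pt) {D : Finset Pt} (hD : bl z' ⌈2 * r'⌉₊ ⊆ D) :
    ∑ y ∈ D, psi r (y - z) * xi r' (y - z') = pp r r' (z - z') := by
  rw [← sum_subset hD fun y _ hy => by
    rw [sup_xi hr (Nat.le_ceil _) _ fun h => hy (by simpa using (add_mem_bl (z := z')).2 h), mul_zero],
    ← sum_bl, pp]
  exact sum_congr rfl fun y _ => by congr 2 <;> abel

theorem pp_neg (r r' : ℝ) (x : Pt) : pp r r' (-x) = pp r r' x := by
  rw [pp, pp, ← sum_bl_neg]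
  exact sum_congr rfl fun y _ => by
    rw [xi_neg, ← (sy4_psi r).neg]; congr 2; abel

theorem sy4_pp (r r' : ℝ) : Sy4 (pp r r') := by
  refine ⟨fun x => ?_, fun x => ?_⟩
  · rw [pp, pp, ← sum_bl_swap]
    exact sum_congr rfl fun y _ => by rw [xi_swap, ← (sy4_psi r).swap]; rfl
  · rw [pp, pp, ← sum_bl_neg_fst]
    exact sum_congr rfl fun y _ => by
      rw [xi_neg_fst, ← (sy4_psi r).neg_fst]; congr 2; ext <;> simp; ring

/-- self energy -/
theorem pp_self {r : ℝ} (hr : 0 < r) : pp r r 0 = cr r + er r := by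
  have h1 := pk_pair hr (Nat.le_ceil _) 0
  have h2 := er_eq hr (Subset.refl _)
  simp only [pp, psi, sub_zero, sub_mul, sum_sub_distrib] at h1 ⊢
  rw [h1, h2, pk_zero, Phi_zero hr]; ring

/-- as a double sum over the potential kernel -/
theorem pp_double {r : ℝ} (hr : 0 < r) (r' : ℝ) (x : Pt) : pp r r' x =
    ∑ y ∈ bl 0 ⌈2 * r'⌉₊, ∑ w ∈ bl 0 ⌈2 * r⌉₊, pk (w - (y - x)) * xi r w * xi r' y := by
  simp only [pp, ← sum_mul, pk_pair hr (Nat.le_ceil _)]

theorem pp_comm {r r' : ℝ} (hr : 0 < r) (hr' : 0 < r') (x : Pt) : pp r r' x = pp r' r x := by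
  rw [← pp_neg r' r, pp_double hr, pp_double hr', sum_comm]
  refine sum_congr rfl fun w _ => sum_congr rfl fun y _ => ?_
  rw [← pk_neg (w - (y - x)), mul_right_comm]; congr 3; abel

/-- disjoint charges interact through the potential kernel, exactly -/
theorem pp_far {r r' : ℝ} (hr : 0 < r) (hr' : 0 < r') {n n' : ℕ} (hn : 2 * r ≤ n + 1) (hn' : 2 * r' ≤ n')
    {x : Pt} (hx : x ∉ bl 0 (n + n')) : pp r r' x = pk x := by
  rw [← pp_eq r hr' x (bl_mono 0 (Nat.ceil_le.2 hn')), ← psi_out hr' (n := n + n') (by push_cast; linarith) hx,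
    ← pk_pair hr' hn']
  refine sum_congr rfl fun y hy => ?_
  rw [psi_out hr hn fun h => hx ?_]
  rw [mem_bl] at h hy ⊢
  simp only [Prod.fst_sub, Prod.snd_sub, Prod.fst_zero, Prod.snd_zero] at h hy ⊢
  omega

/-- a small charge inside a big one -/
theorem pp_in {r r' : ℝ} (hr : 0 < r) (hr' : 0 < r') {n m : ℕ} (hn : 2 * r' ≤ n) (hm : (n : ℝ) + m ≤ r)
    {x : Pt} (hx : x ∈ bl 0 m) : pp r r' x = cr r := by
  rw [← pp_eq r hr' x (bl_mono 0 (Nat.ceil_le.2 hn)), ← mul_one (cr r), ← sum_xi hr' hn, mul_sum]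
  refine sum_congr rfl fun y hy => ?_
  rw [psi_in hr (n := n + m) (by exact_mod_cast hm) ?_]
  rw [mem_bl] at hx hy ⊢
  simp only [Prod.fst_sub, Prod.snd_sub, Prod.fst_zero, Prod.snd_zero] at hx hy ⊢
  omega

/-! ## two centres -/

/-- the potential of the dipole `ξ_ρ - ξ_ρ (· - x)` -/
noncomputable def tc (ρ : ℝ) (x y : Pt) : ℝ := psi ρ (y - x) - psi ρ y

theorem A0_tc (ρ : ℝ) (x y : Pt) : A0 (tc ρ x) y = xi ρ y - xi ρ (y - x) := by
  rw [show tc ρ x = (fun y => psi ρ (y - x)) - psi ρ from rfl, A0_sub, Pi.sub_apply, A0_psi_sub, A0_psi,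
    Pi.neg_apply]
  ring

/-- the energy of the dipole -/
theorem tc_pair {ρ : ℝ} (hρ : 0 < ρ) (x : Pt) {D : Finset Pt} (h0 : bl 0 ⌈2 * ρ⌉₊ ⊆ D)
    (hx : bl x ⌈2 * ρ⌉₊ ⊆ D) :
    ∑ y ∈ D, tc ρ x y * (xi ρ y - xi ρ (y - x)) = 2 * (pp ρ ρ x - cr ρ - er ρ) := by
  have h1 := pp_eq ρ hρ x h0
  have h2 := pp_eq' ρ hρ x x hx
  have h3 := pp_eq ρ hρ 0 h0
  have h4 := pp_eq' ρ hρ 0 x hx
  simp only [sub_zero, sub_self, zero_sub, pp_neg, pp_self hρ] at h2 h3 h4
  simp only [tc, sub_mul, mul_sub, sum_sub_distrib, h1, h2, h3, h4]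
  ring

/-- the dipole potential decays -/
theorem difs_tc (k : ℕ) : ∃ C : ℝ, 0 ≤ C ∧ ∀ ρ : ℝ, 1 ≤ ρ → ∀ ys : List Pt, ys.length ≤ k →
    (∀ y ∈ ys, y ∈ nn) → ∀ x z : Pt, 4 * eu x ≤ ρ + eu z →
      |difs ys (tc ρ x) z| ≤ C * eu x / (ρ + eu z) ^ (ys.length + 1) := by
  obtain ⟨C, h0, hC⟩ := difs_psi' (k + 1)
  refine ⟨2 * 2 ^ (k + 1) * C, by positivity, fun ρ hρ ys h1 h2 x z hx => ?_⟩
  have hz := eu_nonneg z
  have h3 : difs ys (tc ρ x) z = difs ys (psi ρ) (z + -x) - difs ys (psi ρ) z := by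
    rw [show tc ρ x = (fun y => psi ρ (y + -x)) - psi ρ from rfl, difs_sub, Pi.sub_apply, difs_shift]
  have h4 := rad_le_eu (-x)
  rw [eu_neg] at h4
  have key : ∀ e ∈ nn, ∀ w ∈ bl 0 (rad (-x)), |dif e (difs ys (psi ρ)) (z + w)| ≤
      C / ((ρ + eu z) / 2) ^ (ys.length + 1) := fun e he w hw => by
    have h6 : (e :: ys).length ≤ k + 1 := Nat.succ_le_succ h1
    have h5 := (eu_near (add_mem_bl.2 hw : z + w ∈ _)).2
    refine (hC ρ hρ (e :: ys) (by simp) h6 (by simpa [he] using h2) (z + w)).trans ?_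
    rw [List.length_cons]
    gcongr
    linarith
  rw [h3]
  refine (tay1 (mem_bl_rad (-x)) fun w hw => ⟨key _ e1_nn w hw, key _ e2_nn w hw⟩).trans ?_
  calc _ ≤ 2 * eu x * (C / ((ρ + eu z) / 2) ^ (ys.length + 1)) := by gcongr
    _ = 2 * 2 ^ (ys.length + 1) * C * eu x / (ρ + eu z) ^ (ys.length + 1) := by
        rw [div_pow]; field_simp
    _ ≤ _ := by have := eu_nonneg x; gcongr; norm_num

theorem sm_tc (k : ℕ) : ∃ C : ℝ, 0 ≤ C ∧ ∀ (ρ ℓ : ℝ) (x : Pt), 1 ≤ ρ → 0 < ℓ → 4 * eu x ≤ ℓ →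
    Sm k {z | ℓ ≤ ρ + eu z} (C * eu x / ℓ) ℓ (tc ρ x) := by
  obtain ⟨C, h0, hC⟩ := difs_tc k
  refine ⟨C, h0, fun ρ ℓ x hρ hℓ hx ys h1 h2 z hz => (hC ρ hρ ys h1 h2 x z (hx.trans hz)).trans ?_⟩
  have := eu_nonneg x
  rw [div_div, ← pow_succ']
  gcongr
  exact hz

/-! ## cutting a potential at a large radius -/

/-- the tail `V (1 - χ_R)` of a potential that is small and smooth beyond `R / 2` -/
theorem sm_tail (k : ℕ) : ∃ C : ℝ, 0 ≤ C ∧ ∀ (V : Pt → ℝ) (R δ : ℝ), 8 * k < R →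
    Sm k {z | R / 2 ≤ eu z} δ R V → 0 ≤ δ → Sm k Set.univ (C * δ) R fun z => V z * (1 - chi R z) := by
  obtain ⟨C, h0, hC⟩ := sm_chi k
  refine ⟨2 ^ k * (1 + C), by positivity, fun V R δ hR hV hδ => ?_⟩
  have hk : (0 : ℝ) ≤ k := Nat.cast_nonneg k
  have hR0 : 0 < R := by linarith
  have h1 : Sm k {z | R / 2 ≤ eu z} (1 + C) R fun z => 1 - chi R z := by
    exact ((Sm.const k _ hR0 1).sub (hC R hR0)).mono le_rfl (Set.subset_univ _) (by simp) hR0
  have h2 := hV.mul hR0 h1 (S := {z | 3 * R / 4 ≤ eu z}) fun z hz w hw => by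
    have := (eu_near hw).2
    simp only [Set.mem_ofPred_eq] at hz ⊢
    linarith
  have h3 : Sm k {z | ¬ 3 * R / 4 ≤ eu z} (2 ^ k * δ * (1 + C)) R fun z => V z * (1 - chi R z) :=
    (Sm.zero' k _ (by positivity) hR0).congr fun z hz w hw => by
      have := (eu_near hw).1
      simp only [Set.mem_ofPred_eq, not_le] at hz
      rw [chi_one_of_eu hR0 (by linarith), sub_self, mul_zero]
  exact (Sm.union h2 h3).mono le_rfl (fun z _ => em _) (le_of_eq (by ring)) hR0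

/-- the cut potential sees the charge of the tail only to second order -/
theorem tail_pair : ∃ C : ℝ, 0 ≤ C ∧ ∀ (V : Pt → ℝ) (R δ : ℝ) (D : Finset Pt), 16 < R →
    Sm 2 {z | R / 2 ≤ eu z} δ R V → 0 ≤ δ →
    ∑ z ∈ D, |V z * chi R z * A0 (fun z => V z * (1 - chi R z)) z| ≤ C * δ ^ 2 := by
  obtain ⟨C, h0, hC⟩ := sm_tail 2
  refine ⟨98 * C, by positivity, fun V R δ D hR hV hδ => ?_⟩
  have hR0 : 0 < R := by linarith
  have h1 := Sm.smH (hC V R δ (by push_cast; linarith) hV hδ)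
  have h2 : ∀ z, |V z * chi R z * A0 (fun z => V z * (1 - chi R z)) z| ≤ δ * (2 * (C * δ / R ^ 2)) :=
    fun z => by
      by_cases hz : R / 2 ≤ eu z
      · rw [abs_mul, abs_mul]
        exact mul_le_mul ((mul_le_of_le_one_right (abs_nonneg _) (abs_chi_le _ _)).trans (hV.zero hz))
          (h1.abs_A0 le_rfl trivial) (abs_nonneg _) hδ
      · rw [A0_congr (v := fun _ => 0) fun w hw => by
          rw [chi_one_of_eu hR0 (by have := (eu_near hw).1; push_cast at this; linarith), sub_self, mul_zero],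
          A0_const]
        simp only [Pi.zero_apply, mul_zero, abs_zero]; positivity
  calc _ ≤ ∑ z ∈ D ∪ bl 0 ⌈2 * R⌉₊, |V z * chi R z * A0 (fun z => V z * (1 - chi R z)) z| :=
        sum_le_sum_of_subset_of_nonneg subset_union_left fun _ _ _ => abs_nonneg _
    _ = ∑ z ∈ bl 0 ⌈2 * R⌉₊, |V z * chi R z * A0 (fun z => V z * (1 - chi R z)) z| :=
        (sum_subset subset_union_right fun z _ hz => by
          rw [sup_chi hR0 (by linarith [Nat.le_ceil (2 * R)]) z hz]; simp).symm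
    _ ≤ (bl (0 : Pt) ⌈2 * R⌉₊).card • (δ * (2 * (C * δ / R ^ 2))) := sum_le_card_nsmul _ _ _ fun z _ => h2 z
    _ ≤ 49 * R ^ 2 * (δ * (2 * (C * δ / R ^ 2))) := by
        rw [nsmul_eq_mul]; gcongr; exact card_bl_ceil (by linarith)
    _ = _ := by field_simp; ring

end Crest.Agent.T145.Xi
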