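import Crest.Agent.T145.FlDef_82
import Crest.Agent.T145.XiC_22
import Crest.Agent.T145.Route_51

/-!
# Row 145, flow module: moving smeared charges (`XfStmt`, helper91)
-/

set_option autoImplicit false

namespace Crest.Agent.T145.Fl

open Finset Pot Pot.Ha91 Xi Real

namespace Xf91

theorem nn_ok : nnL.Ok := ⟨admissible_nn, one_pos⟩

theorem f2_up {m n : ℕ} (hmn : m ≤ n) {f : Pt → ℝ} {a : ℝ} (h : F2 (nnL.edI (bl 0 m)) f a) :
    F2 (nnL.edI (bl 0 n)) f a := by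
  have hs : nnL.edI (bl 0 m) ⊆ nnL.edI (bl 0 n) := Lat.edI_mono (bl_mono 0 hmn)
  obtain ⟨φ, h1, h2⟩ := h
  refine ⟨fun e => if e ∈ nnL.edI (bl 0 m) then φ e else 0, ?_, ?_⟩
  · rw [h1]; funext x
    simp only [dv]
    rw [← sum_subset hs fun e _ he => by simp [he]]
    exact sum_congr rfl fun e he => by simp [he]
  · rw [← sum_subset hs fun e _ he => by simp [he]]
    exact (le_of_eq (sum_congr rfl fun e he => by simp [he])).trans h2

/-- a neutral bounded density in a ball -/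
theorem f2_bl {n : ℕ} {f : Pt → ℝ} {K : ℝ} (hs : Pot.Sup (bl 0 n) f) (h0 : ∑ x ∈ bl 0 n, f x = 0)
    (hK : ∀ x, |f x| ≤ K) : F2 (nnL.edI (bl 0 n)) f (2 * (2 * n + 1) ^ 4 * K ^ 2) := by
  have h1 : ∑ x ∈ bl 0 n, f x ^ 2 ≤ (2 * n + 1) ^ 2 * K ^ 2 := by
    refine (sum_le_card_nsmul _ _ (K ^ 2) fun x _ => ?_).trans (le_of_eq ?_)
    · exact sq_le_sq' (abs_le.1 (hK x)).1 (abs_le.1 (hK x)).2
    · rw [card_bl, nsmul_eq_mul]; push_cast; ring
  rw [bl_eq_sq, sq_eq_rc] at *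
  refine RJ57.f2_mono (nn_ok.r1_f2 hs h0) ?_
  push_cast
  calc _ ≤ ((2 * n + 1) ^ 2 + (2 * n + 1) ^ 2) * ((2 * n + 1) ^ 2 * K ^ 2) := by gcongr
    _ = _ := by ring

/-- the gradient flow of a function supported in a ball -/
theorem f2_sup {m : ℕ} {u g : Pt → ℝ} (hs : Pot.Sup (bl 0 m) u) (hg : ∀ y ∈ nn, ∀ x, dif y u x ^ 2 ≤ g x) :
    F2 (nnL.edI (bl 0 (m + 1))) (A0 u) (2 * ∑ x ∈ bl 0 (m + 1), g x) := by
  have h : ∀ y ∈ nn, ∀ x, dif y u x ≠ 0 → x ∈ bl 0 (m + 1) := fun y hy x hx => by_contra fun h => hx (by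
    rw [dif, hs _ (mem_bl_one_of h (nn_bl hy x)), hs _ (mem_bl_one_of h (self_mem_bl _ _)), sub_self])
  refine RJ57.f2_mono (f2_A0 nn_ok fun i z hz => ⟨h _ (ev_nn i) z hz, h (-ev i)
    (by fin_cases i <;> decide) _ ?_⟩) ?_
  · rwa [Pot.dif_neg, add_sub_cancel_right, neg_ne_zero]
  · rw [Fin.sum_univ_two, two_mul]
    exact add_le_add (sum_le_sum fun x _ => hg _ (ev_nn 0) x) (sum_le_sum fun x _ => hg _ (ev_nn 1) x)

/-- the logarithmic sum -/
theorem sum_inv {ρ : ℝ} (hρ : 1 ≤ ρ) (n : ℕ) :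
    ∑ x ∈ bl 0 n, 1 / (ρ + eu x) ^ 2 ≤ 1 + 8 * (log (ρ + n) - log ρ) := by
  induction n with
  | zero =>
    have : bl (0 : Pt) 0 = {0} := by ext x; rw [mem_bl, mem_singleton, Prod.ext_iff]; simp; omega
    rw [this, sum_singleton, eu_zero, add_zero, Nat.cast_zero, add_zero, sub_self, mul_zero, add_zero]
    exact div_le_self one_pos.le (one_le_pow₀ hρ)
  | succ n ih =>
    have hn : (0 : ℝ) ≤ n := n.cast_nonneg
    have hs := bl_mono (0 : Pt) n.le_succ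
    have h1 : ((bl (0 : Pt) (n + 1) \ bl 0 n).card : ℝ) = 8 * (n + 1) := by
      rw [card_sdiff_of_subset hs, Nat.cast_sub (card_le_card hs), card_bl, card_bl]; push_cast; ring
    have h2 := sum_le_card_nsmul (bl (0 : Pt) (n + 1) \ bl 0 n) (fun x => 1 / (ρ + eu x) ^ 2)
      (1 / (ρ + (n + 1)) ^ 2) fun x hx => by
        have := le_eu_of_not_bl (mem_sdiff.1 hx).2
        rw [sub_zero] at this
        gcongr
    have h3 := log_le_sub_one_of_pos (show 0 < (ρ + n) / (ρ + (n + 1)) by positivity)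
    have h4 : 8 * (n + 1) * (1 / (ρ + (n + 1)) ^ 2) ≤ 8 * (1 - (ρ + n) / (ρ + (n + 1))) := by
      rw [show 1 - (ρ + n) / (ρ + (n + 1)) = (ρ + (n + 1)) * (1 / (ρ + (n + 1)) ^ 2) by field_simp; ring,
        mul_assoc]
      exact mul_le_mul_of_nonneg_left (mul_le_mul_of_nonneg_right (by linarith) (by positivity)) (by norm_num)
    rw [log_div (by positivity) (by positivity)] at h3
    rw [nsmul_eq_mul, h1] at h2
    rw [← sum_sdiff hs]
    push_cast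
    linarith

theorem sum_inv' {ρ M : ℝ} (hρ : 1 ≤ ρ) (hM : 1 ≤ M) {n : ℕ} {c : Pt} (hc : c ∈ bl 0 n)
    (hn : (n : ℝ) ≤ 9 * (M * ρ)) : ∑ x ∈ bl 0 n, 1 / (ρ + eu (x - c)) ^ 2 ≤ 145 * (1 + log M) := by
  have h1 := sum_inv hρ (n + n)
  have h2 := sum_bl c (n + n) fun x => 1 / (ρ + eu (x - c)) ^ 2
  have h3 := sum_le_sum_of_subset_of_nonneg (f := fun x => 1 / (ρ + eu (x - c)) ^ 2)
    (bl_subset_bl (mem_bl_comm.1 hc) (le_refl (n + n))) fun _ _ _ => by positivity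
  have h4 : log (ρ + (n + n : ℕ)) ≤ log (19 * M * ρ) :=
    log_le_log (by positivity) (by push_cast; nlinarith)
  rw [log_mul (by positivity) (by positivity), log_mul (by positivity) (by positivity)] at h4
  simp only [add_sub_cancel_left] at h2
  linarith [log_le_sub_one_of_pos (show (0 : ℝ) < 19 by norm_num), log_nonneg hM]

/-- the potential of two opposite smeared charges -/
theorem sm_two (k : ℕ) : ∃ C : ℝ, 0 ≤ C ∧ ∀ (ρ R ℓ M : ℝ) (c c' : Pt) (S : Set Pt), 1 ≤ ρ → 1 ≤ R →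
    0 < ℓ → 1 ≤ M → (∀ w ∈ S, ℓ ≤ ρ + eu (w - c) ∧ ℓ ≤ R + eu (w - c') ∧
      ρ + eu (w - c) ≤ M * (R + eu (w - c')) ∧ R + eu (w - c') ≤ M * (ρ + eu (w - c))) →
    Sm k S (C * (1 + log M)) ℓ fun w => psi ρ (w - c) - psi R (w - c') := by
  obtain ⟨C1, h1, hC1⟩ := difs_psi' k
  obtain ⟨C2, h2, hC2⟩ := abs_psi
  refine ⟨2 * C1 + 2 * C2 + 1, by positivity, fun ρ R ℓ M c c' S hρ hR hℓ hM hS ys hk hys w hw => ?_⟩
  obtain ⟨a1, a2, a3, a4⟩ := hS w hw
  have hl := log_nonneg hM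
  have hC : 2 * C1 + 2 * C2 + log M ≤ (2 * C1 + 2 * C2 + 1) * (1 + log M) := by nlinarith
  cases ys with
  | nil =>
    have b1 := abs_le.1 (hC2 ρ hρ (w - c))
    have b2 := abs_le.1 (hC2 R hR (w - c'))
    have b3 := log_le_log (by linarith) a3
    have b4 := log_le_log (by linarith) a4
    rw [log_mul (by positivity) (by linarith)] at b3 b4
    have b5 : |(log (ρ + eu (w - c)) - log (R + eu (w - c'))) / (2 * π)| ≤ log M := by
      rw [abs_div, abs_of_pos two_pi_pos]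
      exact (div_le_self (abs_nonneg _) (by linarith [pi_gt_three])).trans (abs_le.2 ⟨by linarith, by linarith⟩)
    rw [sub_div, abs_le] at b5
    simp only [difs, List.length_nil, pow_zero, div_one]
    rw [abs_le]
    constructor <;> linarith [b1.1, b1.2, b2.1, b2.2, b5.1, b5.2]
  | cons y ys =>
    have key : ∀ (r : ℝ) (a : Pt), 1 ≤ r → ℓ ≤ r + eu (w - a) →
        |difs (y :: ys) (fun w => psi r (w - a)) w| ≤ C1 / ℓ ^ (y :: ys).length := fun r a hr ha => by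
      simp only [sub_eq_add_neg] at ha ⊢
      rw [difs_shift]
      exact (hC1 r hr _ (by simp) hk hys _).trans (by gcongr)
    rw [show (fun w => psi ρ (w - c) - psi R (w - c')) =
      (fun w => psi ρ (w - c)) - fun w => psi R (w - c') from rfl, difs_sub]
    refine (abs_sub _ _).trans ((add_le_add (key ρ c hρ a1) (key R c' hR a2)).trans ?_)
    rw [← add_div]
    gcongr
    linarith

/-- the tail of `V` beyond the radius `R` -/
noncomputable def tl (V : Pt → ℝ) (R : ℝ) (z : Pt) : ℝ := V z * (1 - Xi.chi R z)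

theorem A0_tl (V : Pt → ℝ) (R : ℝ) : A0 (tl V R) = A0 V - A0 fun z => V z * Xi.chi R z := by
  rw [← A0_sub]; congr 1; funext z; simp only [tl, Pi.sub_apply]; ring

theorem sm_tl (k : ℕ) : ∃ C : ℝ, 0 ≤ C ∧ ∀ (V : Pt → ℝ) (R δ : ℝ), 0 < R → 0 ≤ δ →
    Sm k {z | R - 4 * k ≤ eu z} δ R V → Sm k Set.univ (C * δ) R (tl V R) := by
  obtain ⟨C, h0, hC⟩ := sm_chi k
  refine ⟨2 ^ k * (1 + C), by positivity, fun V R δ hR hδ hV => ?_⟩
  have h1 : Sm k {z | R - 4 * k ≤ eu z} (1 + C) R fun z => 1 - Xi.chi R z :=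
    ((Sm.const k _ hR 1).sub (hC R hR)).mono le_rfl (Set.subset_univ _) (by simp) hR
  have h2 := hV.mul hR h1 (S := {z | R - 2 * k ≤ eu z}) fun z hz w hw => by
    have := (eu_near hw).2
    simp only [Set.mem_ofPred_eq] at hz ⊢
    linarith
  have h3 : Sm k {z | ¬ R - 2 * k ≤ eu z} (2 ^ k * δ * (1 + C)) R fun z => V z * (1 - Xi.chi R z) :=
    (Sm.zero' k _ (by positivity) hR).congr fun z hz w hw => by
      have := (eu_near hw).1
      simp only [Set.mem_ofPred_eq, not_le] at hz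
      rw [chi_one_of_eu hR (by linarith), sub_self, mul_zero]
  exact (Sm.union h2 h3).mono le_rfl (fun z _ => em _) (le_of_eq (by ring)) hR

/-- the charge of the tail: its flow, its pairing with the cut potential, and the gradient of the tail -/
theorem tail : ∃ C : ℝ, 0 ≤ C ∧ ∀ (V : Pt → ℝ) (R δ : ℝ), 1 ≤ R → 0 ≤ δ →
    Sm 2 {z | R - 8 ≤ eu z} δ R V → (∀ y ∈ nn, ∀ z, |dif y (tl V R) z| ≤ C * δ / R) ∧
      (∀ n : ℕ, 2 * R ≤ n → (n : ℝ) ≤ 3 * R → |∑ z ∈ bl 0 n, V z * Xi.chi R z * A0 (tl V R) z| ≤ C * δ ^ 2) ∧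
      ∀ m n : ℕ, (m : ℝ) ≤ 2 * R → 2 * R ≤ n → Pot.Sup (bl 0 m) (A0 V) → ∑ z ∈ bl 0 m, A0 V z = 0 →
        F2 (nnL.edI (bl 0 n)) (A0 (tl V R)) (C * δ ^ 2) := by
  obtain ⟨C, h0, hC⟩ := sm_tl 2
  refine ⟨C + 98 * C + 8 * 7 ^ 4 * C ^ 2, by positivity, fun V R δ hR hδ hV => ?_⟩
  have hR0 : 0 < R := by linarith
  have h1 := hC V R δ hR0 hδ (by rwa [show 4 * ((2 : ℕ) : ℝ) = 8 by norm_num])
  have h2 : ∀ z, |A0 (tl V R) z| ≤ 2 * (C * δ / R ^ 2) := fun z => (Sm.smH h1).abs_A0 le_rfl trivial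
  refine ⟨fun y hy z => (h1.one one_le_two hy trivial).trans ?_, fun n h3 h4 => ?_,
    fun m n h3 h4 h5 h6 => ?_⟩
  · gcongr; linarith [show 0 ≤ 98 * C + 8 * 7 ^ 4 * C ^ 2 by positivity]
  · refine (abs_sum_le_sum_abs _ _).trans ((sum_le_card_nsmul _ _ (δ * (2 * (C * δ / R ^ 2)))
      fun z _ => ?_).trans ?_)
    · by_cases hz : R - 8 ≤ eu z
      · rw [abs_mul, abs_mul]
        exact mul_le_mul ((mul_le_of_le_one_right (abs_nonneg _) (abs_chi_le _ _)).trans (hV.zero hz))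
          (h2 z) (abs_nonneg _) hδ
      · rw [A0_congr (v := fun _ => 0) fun w hw => by
          rw [tl, chi_one_of_eu hR0 (by have := (eu_near hw).1; push_cast at this; linarith), sub_self,
            mul_zero], A0_const]
        simp only [Pi.zero_apply, mul_zero, abs_zero]; positivity
    · rw [card_bl, nsmul_eq_mul]
      push_cast
      calc _ ≤ (7 * R) ^ 2 * (δ * (2 * (C * δ / R ^ 2))) := by gcongr; linarith
        _ = 98 * C * δ ^ 2 := by field_simp; ring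
        _ ≤ _ := by gcongr; linarith [show 0 ≤ 8 * 7 ^ 4 * C ^ 2 by positivity]
  · obtain ⟨N, hN⟩ : ∃ N, ⌈2 * R⌉₊ = N + 1 := ⟨_, (Nat.succ_pred_eq_of_pos (Nat.ceil_pos.2 (by linarith))).symm⟩
    have a1 : 2 * R ≤ N + 1 := by exact_mod_cast Nat.ceil_le.1 hN.le
    have a2 : (N : ℝ) + 1 ≤ 2 * R + 1 := by
      exact_mod_cast hN ▸ (Nat.ceil_lt_add_one (by linarith : 0 ≤ 2 * R)).le
    have a3 : m ≤ N + 1 := by exact_mod_cast h3.trans a1
    have a4 : Pot.Sup (bl 0 N) fun z => V z * Xi.chi R z := fun z hz => by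
      simp only [sup_chi hR0 a1 z hz, mul_zero]
    refine f2_up (hN ▸ Nat.ceil_le.2 h4) (RJ57.f2_mono (f2_bl (n := N + 1) (fun z hz => ?_) ?_ h2) ?_)
    · rw [A0_tl, Pi.sub_apply, sup_A0 a4 z hz, h5 z fun h => hz (bl_mono 0 a3 h), sub_zero]
    · simp only [A0_tl, Pi.sub_apply, sum_sub_distrib, sum_A0 le_rfl a4,
        ← sum_subset (bl_mono 0 a3) fun z _ hz => h5 z hz, h6, sub_zero]
    · push_cast
      calc _ ≤ 2 * (7 * R) ^ 4 * (2 * (C * δ / R ^ 2)) ^ 2 := by gcongr; linarith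
        _ = 8 * 7 ^ 4 * C ^ 2 * δ ^ 2 := by field_simp; ring
        _ ≤ _ := by gcongr; linarith

/-- a displaced charge -/
theorem shifted {ρ : ℝ} (hρ : 0 < ρ) {z : Pt} {m : ℕ} (hm : eu z + 2 * ρ + 1 ≤ m) :
    bl z ⌈2 * ρ⌉₊ ⊆ bl 0 m ∧ (∀ y, y ∉ bl 0 m → xi ρ (y - z) = 0) ∧ ∑ y ∈ bl 0 m, xi ρ (y - z) = 1 := by
  have h1 : bl z ⌈2 * ρ⌉₊ ⊆ bl 0 m := bl_subset_bl (mem_bl_rad z) (by
    have : ((⌈2 * ρ⌉₊ + rad z : ℕ) : ℝ) ≤ m := by
      push_cast; linarith [rad_le_eu z, Nat.ceil_lt_add_one (by linarith : 0 ≤ 2 * ρ)]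
    exact_mod_cast this)
  have h2 : Pot.Sup (bl z ⌈2 * ρ⌉₊) fun y => xi ρ (y - z) := fun y hy =>
    sup_xi hρ (Nat.le_ceil _) _ fun h => hy (by simpa using (add_mem_bl (z := z)).2 h)
  refine ⟨h1, h2.mono h1, ?_⟩
  rw [← sum_subset h1 fun y _ hy => h2 y hy, ← sum_bl]
  simpa only [add_sub_cancel_left] using sum_xi hρ (Nat.le_ceil _)

theorem part1 : ∃ C : ℝ, 0 ≤ C ∧ ∀ (M T ρ R : ℝ) (z : Pt) (n : ℕ), 1 ≤ ρ → 1 ≤ R → ρ ≤ T → R ≤ T →
    eu z ≤ T → T ≤ M * ρ → T ≤ M * R → 8 * T ≤ n →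
    F2 (nnL.edI (bl 0 n)) ((fun y => xi ρ (y - z)) - xi R) (C * (1 + log M)) := by
  obtain ⟨C1, h1, hC1⟩ := sm_two 2
  obtain ⟨C2, h2, hC2⟩ := tail
  obtain ⟨C3, h3, hC3⟩ := difs_psi 0
  have hl9 := log_nonneg (show (1 : ℝ) ≤ 9 by norm_num)
  set δ := C1 * (1 + log 9) * 16 ^ 2 with hδ
  have hδ0 : 0 ≤ δ := by positivity
  refine ⟨12 * (290 * C3 ^ 2 + 25 * (C2 * δ) ^ 2) + 2 * (C2 * δ ^ 2), by positivity,
    fun M T ρ R z n hρ hR a1 a2 a3 a4 a5 a6 => ?_⟩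
  have hT : 1 ≤ T := hρ.trans a1
  have hM : 1 ≤ M := by nlinarith
  have hl := log_nonneg hM
  set V : Pt → ℝ := fun w => psi R (w - 0) - psi ρ (w - z) with hV
  have hA : A0 V = (fun y => xi ρ (y - z)) - xi R := by
    funext y
    rw [show V = (fun w => psi R (w - 0)) - fun w => psi ρ (w - z) from rfl, A0_sub, Pi.sub_apply, A0_psi_sub,
      A0_psi_sub, sub_zero, Pi.sub_apply]
    ring
  have b1 := (hC1 R ρ (T / 4) 9 0 z {w | 4 * T - 8 ≤ eu w} hR hρ (by positivity) (by norm_num)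
    fun w hw => by
      have c1 := eu_add_le (w - z) z
      have c2 := eu_add_le w (-z)
      have c3 := eu_nonneg w
      have c4 := eu_nonneg (w - z)
      rw [sub_add_cancel] at c1
      rw [eu_neg, ← sub_eq_add_neg] at c2
      simp only [Set.mem_ofPred_eq, sub_zero] at hw ⊢
      rcases le_total T 4 with h | h
      all_goals exact ⟨by linarith, by linarith, by linarith, by linarith⟩).scale' (m := 16) (by positivity)
      (by norm_num)
  rw [show 16 * (T / 4) = 4 * T by ring] at b1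
  obtain ⟨b2, -, b3⟩ := hC2 V (4 * T) δ (by linarith) hδ0 b1
  obtain ⟨-, s1, s2⟩ := shifted (by linarith : 0 < ρ) (z := z) (m := ⌈4 * T⌉₊)
    (by linarith [Nat.le_ceil (4 * T)])
  have s3 : 2 * R ≤ ⌈4 * T⌉₊ := by linarith [Nat.le_ceil (4 * T)]
  have b4 := b3 ⌈4 * T⌉₊ n (by linarith [Nat.ceil_lt_add_one (by linarith : 0 ≤ 4 * T)]) (by linarith)
    (fun y hy => by rw [hA, Pi.sub_apply, s1 y hy, sup_xi (by linarith) s3 y hy, sub_zero])
    (by simp only [hA, Pi.sub_apply, sum_sub_distrib, s2, sum_xi (by linarith) s3, sub_self])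
  obtain ⟨N, hN⟩ : ∃ N, ⌈8 * T⌉₊ = N + 1 := ⟨_, (Nat.succ_pred_eq_of_pos (Nat.ceil_pos.2 (by linarith))).symm⟩
  have c1 : 8 * T ≤ N + 1 := by exact_mod_cast Nat.ceil_le.1 hN.le
  have c2 : (N : ℝ) + 1 ≤ 8 * T + 1 := by
    exact_mod_cast hN ▸ (Nat.ceil_lt_add_one (by linarith : 0 ≤ 8 * T)).le
  have key : ∀ (r : ℝ) (a : Pt), 1 ≤ r → ∀ y ∈ nn, ∀ w, dif y (fun w => psi r (w - a)) w ^ 2 ≤
      C3 ^ 2 * (1 / (r + eu (w - a)) ^ 2) := fun r a hr y hy w => by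
    have := hC3 r hr [y] rfl (by simpa using hy) (w - a)
    rw [mul_one_div, ← div_pow, ← sq_abs]
    simp only [difs, dif, zero_add, pow_one, add_sub_right_comm] at this ⊢
    gcongr
  have b5 := f2_sup (m := N) (u := fun w => V w * Xi.chi (4 * T) w) (g := fun w => 3 * (C3 ^ 2 *
    (1 / (R + eu (w - 0)) ^ 2) + C3 ^ 2 * (1 / (ρ + eu (w - z)) ^ 2) + (C2 * δ / (4 * T)) ^ 2))
    (fun w hw => by simp only [sup_chi (by linarith : 0 < 4 * T) (by linarith) w hw, mul_zero])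
    fun y hy w => by
      have d1 := key R 0 hR y hy w
      have d2 := key ρ z hρ y hy w
      have d3 := pow_le_pow_left₀ (abs_nonneg _) (b2 y hy w) 2
      have d4 : dif y (fun w => V w * Xi.chi (4 * T) w) w = dif y (fun w => psi R (w - 0)) w -
          dif y (fun w => psi ρ (w - z)) w - dif y (tl V (4 * T)) w := by simp only [dif, tl, hV]; ring
      rw [sq_abs] at d3
      rw [d4]
      generalize dif y (fun w => psi R (w - 0)) w = p at *
      generalize dif y (fun w => psi ρ (w - z)) w = q at *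
      generalize dif y (tl V (4 * T)) w = t at *
      nlinarith [sq_nonneg (p + q), sq_nonneg (p + t), sq_nonneg (q - t)]
  refine RJ57.f2_mono (RJ57.f2_congr (RJ57.f2_add (f2_up (hN ▸ Nat.ceil_le.2 a6) b5) b4)
    (by rw [A0_tl, hA, add_sub_cancel])) ?_
  have e1 := sum_inv' hR hM (self_mem_bl 0 (N + 1)) (by push_cast; linarith)
  have e2 := sum_inv' hρ hM (c := z) (n := N + 1) (mem_bl_of_eu (by rw [sub_zero]; push_cast; linarith))
    (by push_cast; linarith)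
  have e3 : (((2 * (N + 1) + 1) ^ 2 : ℕ) : ℝ) * (C2 * δ / (4 * T)) ^ 2 ≤ 25 * (C2 * δ) ^ 2 := by
    push_cast
    calc _ ≤ (20 * T) ^ 2 * (C2 * δ / (4 * T)) ^ 2 := by gcongr; linarith
      _ = _ := by field_simp; ring
  simp only [← mul_sum, sum_add_distrib, sum_const, card_bl, nsmul_eq_mul]
  have e4 := mul_le_mul_of_nonneg_left e1 (sq_nonneg C3)
  have e5 := mul_le_mul_of_nonneg_left e2 (sq_nonneg C3)
  nlinarith [mul_nonneg hl (sq_nonneg (C2 * δ)), mul_nonneg hl (mul_nonneg h2 (sq_nonneg δ))]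

theorem part2 {ρ R : ℝ} {n : ℕ} (hρ : 0 < ρ) (h1 : 2 * ρ + 2 ≤ R) (h2 : 2 * R ≤ n) :
    E0 (bl 0 n) (Phi ρ - Phi R) = log (R / ρ) / (2 * π) - er ρ - er R := by
  have hR : 0 < R := by linarith
  have h3 : 2 * ρ ≤ n := by linarith
  have h4 := cross hρ hR h3 h2
  have h5 := er_eq hρ (bl_mono 0 (Nat.ceil_le.2 h3))
  have h6 := er_eq hR (bl_mono 0 (Nat.ceil_le.2 h2))
  have h7 : ∑ x ∈ bl 0 n, Phi ρ x * xi R x = 0 := sum_eq_zero fun x _ => by
    by_cases hx : x ∈ bl 0 ⌈2 * ρ⌉₊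
    · rw [xi_in hR (by linarith [Nat.ceil_lt_add_one (by linarith : 0 ≤ 2 * ρ)]) hx, mul_zero]
    · rw [sup_Phi hρ (by linarith [Nat.le_ceil (2 * ρ)]) x hx, zero_mul]
  simp only [E0, ← xi_sub, Pi.sub_apply, sub_mul, mul_sub, sum_sub_distrib, ← cr_sub hρ hR]
  linarith

theorem part3 : ∃ C : ℝ, 0 ≤ C ∧ ∀ (ρ : ℝ) (x : Pt) (n : ℕ), 8 ≤ ρ → x ∉ bl 0 ⌈4 * ρ + 4⌉₊ → 8 * eu x ≤ n →
    |E0 (bl 0 n) (fun y => tc ρ x y * Xi.chi (n / 2) y) - 2 * (pk x - Xi.cr ρ - er ρ)| ≤ C * eu x / n ∧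
      F2 (nnL.edI (bl 0 (n + 1))) (xi ρ - (fun y => xi ρ (y - x)) - A0 fun y => tc ρ x y * Xi.chi (n / 2) y)
        (C * (eu x / n) ^ 2) := by
  obtain ⟨C1, h1, hC1⟩ := sm_tc 2
  obtain ⟨C2, h2, hC2⟩ := tail
  refine ⟨4 * C2 * C1 ^ 2, by positivity, fun ρ x n hρ hx hn => ?_⟩
  have hρ0 : 0 < ρ := by linarith
  have a0 := eu_nonneg x
  have a1 := le_eu_of_not_bl hx
  have a2 := Nat.le_ceil (4 * ρ + 4)
  have a3 := Nat.ceil_lt_add_one (by linarith : 0 ≤ 2 * ρ)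
  have a4 := Nat.ceil_lt_add_one (by linarith : 0 ≤ eu x + 2 * ρ + 1)
  have a5 := Nat.le_ceil (eu x + 2 * ρ + 1)
  rw [sub_zero] at a1
  have hn0 : (0 : ℝ) < n := by linarith
  obtain ⟨-, b1, b2⟩ := hC2 (tc ρ x) (n / 2) _ (by linarith) (by positivity)
    ((hC1 ρ (n / 2) x (by linarith) (by linarith) (by linarith)).mono le_rfl
      (fun z hz => by simp only [Set.mem_ofPred_eq] at hz ⊢; linarith) le_rfl (by linarith))
  obtain ⟨s0, s1, s2⟩ := shifted hρ0 a5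
  set m := ⌈eu x + 2 * ρ + 1⌉₊
  have s3 : 2 * ρ ≤ m := by linarith
  have hA : A0 (tc ρ x) = xi ρ - fun y => xi ρ (y - x) := funext (A0_tc ρ x)
  have hs : Pot.Sup (bl 0 m) (A0 (tc ρ x)) := fun y hy => by
    rw [A0_tc, s1 y hy, sup_xi hρ0 s3 y hy, sub_zero]
  have e : C2 * (C1 * eu x / (n / 2)) ^ 2 = 4 * C2 * C1 ^ 2 * (eu x / n) ^ 2 := by field_simp; ring
  constructor
  · have c1 := b1 n (by linarith) (by linarith)
    have c2 := tc_pair hρ0 x (bl_mono 0 (Nat.ceil_le.2 s3)) s0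
    have c3 : ∑ y ∈ bl 0 n, tc ρ x y * Xi.chi (n / 2) y * A0 (tc ρ x) y =
        ∑ y ∈ bl 0 m, tc ρ x y * (xi ρ y - xi ρ (y - x)) := by
      rw [← sum_subset (bl_mono 0 (show m ≤ n by exact_mod_cast (by linarith : (m : ℝ) ≤ n)))
        fun y _ hy => by rw [hs y hy, mul_zero]]
      exact sum_congr rfl fun y hy => by rw [chi_one (by linarith) (by linarith) hy, mul_one, A0_tc]
    rw [pp_far hρ0 hρ0 (n := ⌈2 * ρ⌉₊) (by linarith [Nat.le_ceil (2 * ρ)]) (Nat.le_ceil _) fun h => hx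
      (bl_mono 0 (by exact_mod_cast (by linarith : (⌈2 * ρ⌉₊ + ⌈2 * ρ⌉₊ : ℝ) ≤ ⌈4 * ρ + 4⌉₊)) h)] at c2
    simp only [A0_tl, Pi.sub_apply, mul_sub, sum_sub_distrib] at c1
    rw [c3, c2, abs_sub_comm, e] at c1
    refine c1.trans ?_
    rw [mul_div_assoc, pow_two (eu x / n)]
    gcongr
    exact mul_le_of_le_one_left (by positivity) (by rw [div_le_one hn0]; linarith)
  · have c1 := b2 m (n + 1) (by linarith) (by push_cast; linarith) hs
      (by simp only [A0_tc, sum_sub_distrib, s2, sum_xi hρ0 s3, sub_self])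
    rwa [A0_tl, hA, e] at c1

end Xf91

open Xf91 in
theorem xfStmt : XfStmt := by
  obtain ⟨C1, h1, hC1⟩ := part1
  obtain ⟨C2, h2, hC2⟩ := sm_two 3
  obtain ⟨C3, h3, hC3⟩ := part3
  obtain ⟨C4, h4, hC4⟩ := sm_chi 3
  have h5 : 0 ≤ 16 * C2 * C4 := by positivity
  refine ⟨C1 + C2 + C3 + 16 * C2 * C4 + 8, by positivity,
    fun M T ρ R z n a1 a2 a3 a4 a5 a6 a7 a8 => ?_, fun M ρ R n r a1 a2 a3 a4 a5 a6 a7 => ⟨?_, ?_⟩,
    fun M ρ x n r a1 a2 a3 a4 a5 a6 a7 => ?_⟩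
  · have := log_nonneg (show 1 ≤ M by nlinarith)
    exact RJ57.f2_mono (hC1 M T ρ R z n a1 a2 a3 a4 a5 a6 a7 a8) (by gcongr; linarith)
  · exact part2 (by linarith) a2 a5
  · have := log_nonneg a1
    have hr : (0 : ℝ) < r := by exact_mod_cast a6
    refine ((hC2 R ρ r M 0 0 Set.univ (by linarith) (by linarith) hr a1 fun w _ => ?_).mono le_rfl
      Set.Subset.rfl (by gcongr; linarith) hr).congr fun _ _ w _ => by simp [psi]
    have := eu_nonneg (w - 0)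
    exact ⟨by linarith, by linarith, by nlinarith, by nlinarith⟩
  · have := log_nonneg a1
    have hr : (0 : ℝ) < r := by exact_mod_cast a6
    have b1 := le_eu_of_not_bl a3
    have b2 := Nat.le_ceil (4 * ρ + 4)
    rw [sub_zero] at b1
    obtain ⟨c1, c2⟩ := hC3 ρ x n (by linarith) a3 a4
    refine ⟨_, fun y hy => by simp only [sup_chi (by linarith : (0 : ℝ) < n / 2) (by linarith) y hy, mul_zero],
      ?_, c1.trans (by gcongr <;> linarith), RJ57.f2_mono c2 (by gcongr; linarith)⟩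
    have c3 := (hC2 ρ ρ r (2 * M) x 0 Set.univ (by linarith) (by linarith) hr (by linarith) fun w _ => by
      have c1 := eu_add_le (w - x) x
      have c2 := eu_add_le w (-x)
      have c3 := eu_nonneg w
      have c4 := eu_nonneg (w - x)
      rw [sub_add_cancel] at c1
      rw [eu_neg, ← sub_eq_add_neg] at c2
      rw [sub_zero]
      exact ⟨by linarith, by linarith, by nlinarith, by nlinarith⟩).mul_univ hr
      ((hC4 (n / 2) (by linarith)).scale hr (by linarith))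
    simp only [sub_zero] at c3
    refine c3.mono le_rfl Set.Subset.rfl ?_ hr
    rw [log_mul two_ne_zero (by linarith)]
    calc _ ≤ 2 ^ 3 * (C2 * (2 * (1 + log M))) * C4 := by
          gcongr; linarith [log_le_sub_one_of_pos two_pos]
      _ = 16 * C2 * C4 * (1 + log M) := by ring
      _ ≤ _ := by gcongr; linarith

end Crest.Agent.T145.Fl
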