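import Crest.Agent.T145.EvX1u_11
import Crest.Agent.T145.FlEnv_30
import Crest.Agent.T145.FlBas_4
import Crest.Agent.T145.FlBare_80
import Crest.Agent.T145.FlXf_91

/-!
# Row 145, even sector: the two left functionals see the reference insertions (helper11)

`Ev.lowStmt : LowStmt` from the Gaussian values.  `L11.win` turns the pattern `Xp` into "the window is as large
and the error as small as we like".
-/

set_option autoImplicit false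

namespace Crest.Agent.T145.Ev

open Finset Pot Xi Real Fl

namespace L11

theorem ew_bd {w : ℕ} (hw : 4 ≤ w) : 0 < ew w ∧ ew w ≤ 1 / 100 := by
  have h4 : (4 : ℝ) ≤ w := by exact_mod_cast hw
  have h1 : (2 : ℝ) ≤ 4 * (w : ℝ) ^ 4 := by nlinarith [one_le_pow₀ (by linarith : (1 : ℝ) ≤ w) (n := 4)]
  have h2 : 0 < log 2 := log_pos (by norm_num)
  have h3 := log_le_log (by norm_num) h1
  have : cw w ≤ 1 := (div_le_one (by linarith)).2 h3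
  have : 0 < cw w := div_pos h2 (by linarith)
  unfold ew
  constructor <;> linarith

/-- a large window and a small error -/
theorem win {f : Sta → ℝ → ℝ → ℝ → ℝ → Prop} (h : Xp f) (p : Par) (K : ℝ) (k : ℕ) {ε₀ : ℝ} (hK : 1 ≤ K)
    (h0 : 0 < ε₀) : ∃ (C : ℝ) (n : ℕ), 1 ≤ C ∧ ∀ Λ ω L N, Env p Λ ω L N → ∀ R Y M : ℝ, Maj p Λ L R Y →
      1 / 4 ≤ gk ω R → gk ω R ≤ 1 → 2 ≤ M → C * M ^ n * Y ≤ 1 → C * M ^ n * R ≤ L →
      ∃ M' C' ε : ℝ, (K * M) ^ (k + 1) ≤ M' ∧ 0 ≤ ε ∧ ε ≤ ε₀ ∧ M' * R ≤ L ∧ f ω R M' C' ε := by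
  obtain ⟨C, n, hC, h⟩ := h p
  have q0 : 0 < 2 * C / ε₀ := by positivity
  obtain ⟨D, hD⟩ : ∃ D, D = K + 2 * C / ε₀ := ⟨_, rfl⟩
  have D1 : 1 ≤ D := by linarith
  obtain ⟨b, hb⟩ : ∃ b, b = C * (1 + 2 / ε₀) * D ^ ((k + 1) * (n + 1)) := ⟨_, rfl⟩
  have e1 : 1 ≤ 1 + 2 / ε₀ := le_add_of_nonneg_right (by positivity)
  have b1 : 1 ≤ b := hb ▸ one_le_mul_of_one_le_of_one_le (one_le_mul_of_one_le_of_one_le hC e1) (one_le_pow₀ D1)
  refine ⟨b ^ 4, (k + 1) * (n + 1) * 4, one_le_pow₀ b1, fun Λ ω L N hE R Y M hM g1 g2 m2 y1 l1 => ?_⟩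
  have R0 : 0 < R := by linarith [hM.1]
  have Y0 : 0 < Y := (rpow_pos_of_pos R0 _).trans_le hM.2.1
  obtain ⟨M', hM'⟩ : ∃ M', M' = (D * M) ^ (k + 1) := ⟨_, rfl⟩
  have DM : D ≤ D * M ∧ M ≤ D * M := ⟨by nlinarith, by nlinarith⟩
  have M1 : D * M ≤ M' := hM' ▸ le_self_pow₀ (by linarith) (by omega)
  obtain ⟨u, hu⟩ : ∃ u, u = C * (1 + 2 / ε₀) * M' ^ (n + 1) := ⟨_, rfl⟩
  have eu : b ^ 4 * M ^ ((k + 1) * (n + 1) * 4) = u ^ 4 := by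
    rw [hu, hb, hM', pow_mul M, ← mul_pow, ← pow_mul, mul_pow D]; ring
  rw [eu] at y1 l1
  have p1 : 1 ≤ M' ^ n := one_le_pow₀ (by linarith)
  have u1 : C * (1 + 2 / ε₀) * M' ^ n ≤ u := by
    rw [hu]; gcongr <;> linarith
  have u2 : C * M' ^ n ≤ u := le_trans (by gcongr; nlinarith) u1
  have u3 : M' ≤ u := by
    have : M' ≤ M' ^ (n + 1) := le_self_pow₀ (by linarith) (by omega)
    have := one_le_mul_of_one_le_of_one_le hC e1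
    rw [hu]; nlinarith
  have u4 : u ≤ u ^ 4 := le_self_pow₀ (by linarith) (by omega)
  have y4 : u * Y ^ (1 / 4 : ℝ) ≤ 1 := by
    refine le_of_not_gt fun hh => ?_
    have := one_lt_pow₀ hh (n := 4) (by norm_num)
    rw [mul_pow, ← rpow_natCast (Y ^ _), ← rpow_mul Y0.le] at this
    norm_num at this
    linarith
  have y0 : 0 ≤ Y ^ (1 / 4 : ℝ) := by positivity
  have M0 : 0 < M' := by linarith
  refine ⟨M', C, _, ?_, by positivity, ?_, by nlinarith,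
    h Λ ω L N hE R Y M' hM g1 g2 (by linarith) (by nlinarith) (by nlinarith)⟩
  · rw [hM']; gcongr; linarith
  · have a1 : C * M' ^ n * Y ^ (1 / 4 : ℝ) * (1 + 2 / ε₀) ≤ 1 := by nlinarith
    have a2 : C * M' ^ n * Y ^ (1 / 4 : ℝ) ≤ ε₀ / 2 := by
      have : ε₀ / 2 * (1 + 2 / ε₀) = ε₀ / 2 + 1 := by field_simp
      exact le_of_mul_le_mul_right (by nlinarith) (by linarith : 0 < 1 + 2 / ε₀)
    have a3 : C * (1 / M') ≤ ε₀ / 2 := by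
      rw [mul_one_div, div_le_iff₀ (by linarith)]
      have : ε₀ / 2 * (2 * C / ε₀) = C := by field_simp
      nlinarith
    nlinarith

/-- the geometry of two scales `a ≪ A` in a window `M'` around `R` -/
structure Ge (B R M₁ M' : ℝ) (a A : ℕ) : Prop where
  B0 : 0 ≤ B
  R1 : 1 ≤ R
  M1 : 1 ≤ M₁
  a1 : 1 ≤ a
  Ba : B ≤ a
  lo : R ≤ M₁ * a
  hi : (A : ℝ) ≤ M₁ * R
  sep : 6 * a + 2 ≤ A
  big : 9 * M₁ ≤ M'
  lg : 4 * (B * (1 + log (M₁ ^ 2))) ≤ log M'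

theorem big {B M₁ M' : ℝ} (hB : 0 ≤ B) (h1 : 1 ≤ M₁) (h : (9 * M₁) ^ (⌈8 * B⌉₊ + 1) ≤ M') :
    9 * M₁ ≤ M' ∧ 4 * (B * (1 + log (M₁ ^ 2))) ≤ log M' := by
  refine ⟨(le_self_pow₀ (by linarith) (by omega)).trans h, ?_⟩
  have := log_le_log (by positivity) h
  rw [log_pow, log_mul (by norm_num) (by linarith)] at this
  have l9 : 1 ≤ log 9 := by
    rw [le_log_iff_exp_le (by norm_num)]; linarith [exp_one_lt_d9]
  have l1 := log_nonneg h1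
  have c := Nat.le_ceil (8 * B)
  rw [log_pow]
  push_cast at this ⊢
  nlinarith

namespace Ge
variable {B R M₁ M' : ℝ} {a A : ℕ} (h : Ge B R M₁ M' a A)
include h

theorem a1' : (1 : ℝ) ≤ a := by exact_mod_cast h.a1
theorem sep' : 6 * (a : ℝ) + 2 ≤ A := by exact_mod_cast h.sep
theorem l0 : 0 ≤ log (M₁ ^ 2) := log_nonneg (one_le_pow₀ h.M1)
theorem Bl : B ≤ log M' := by nlinarith [h.lg, h.l0, h.B0]
theorem lM : log M' ≤ M' := (log_le_sub_one_of_pos (by linarith [h.big, h.M1])).trans (by linarith)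
theorem wlo : R / M' ≤ a := by
  rw [div_le_iff₀ (by linarith [h.big, h.M1])]; nlinarith [h.lo, h.big, h.M1, h.a1']
theorem w0 : 0 < R / M' := div_pos (by linarith [h.R1]) (by linarith [h.big, h.M1])
theorem fl : 8 * (M₁ * R) ≤ ⌊M' * R⌋₊ := by
  nlinarith [Nat.lt_floor_add_one (M' * R), h.big, h.R1, h.M1]
theorem flA : 2 * A ≤ ⌊M' * R⌋₊ := by
  have : ((2 * A : ℕ) : ℝ) ≤ ⌊M' * R⌋₊ := by push_cast; nlinarith [h.fl, h.hi, h.sep', h.a1']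
  exact_mod_cast this
theorem whi : (a : ℝ) ≤ M' * R := by nlinarith [h.hi, h.sep', h.a1', h.big, h.M1, h.R1]
theorem z0 : eu (0 : Pt) ≤ M' * R := by rw [eu_zero]; linarith [h.whi, h.a1']
theorem sv {v : Pt → ℝ} {σ ℓ : ℝ} (hs : Pot.Sup (bl 0 (2 * A)) v) (hm : Sm 3 Set.univ σ ℓ v)
    (h1 : σ ≤ log M') (h2 : (a : ℝ) ≤ ℓ) : Sv R M' v :=
  ⟨hs.mono (bl_mono 0 h.flA), (hm.scale h.w0 (h.wlo.trans h2)).mono le_rfl le_rfl (h1.trans h.lM) h.w0⟩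
theorem sv0 : Sv R M' 0 :=
  h.sv (σ := |0|) (ℓ := a) (fun _ _ => rfl) (Sm.const 3 _ (by linarith [h.a1']) 0)
    (by simpa using h.B0.trans h.Bl) le_rfl
theorem N2 {L N : ℕ} (h1 : M' * R ≤ L) (h2 : L ≤ N) : 2 * A ≤ N :=
  (h.flA.trans (Nat.floor_le_of_le h1)).trans h2

/-- moving the unit charge -/
theorem f2 (hX : ∀ (M T ρ R : ℝ) (z : Pt) (n : ℕ), 1 ≤ ρ → 1 ≤ R → ρ ≤ T → R ≤ T → eu z ≤ T → T ≤ M * ρ →
    T ≤ M * R → 8 * T ≤ n →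
    F2 (nnL.edI (bl 0 n)) ((fun y => xi ρ (y - z)) - xi R) (B * (1 + log M))) {ρ : ℝ} (h1 : (a : ℝ) ≤ ρ)
    (h2 : ρ ≤ A) : F2 (nnL.edI (bl 0 ⌊M' * R⌋₊)) (xi ρ - xi R) (B * (1 + log (M₁ ^ 2))) := by
  have m1 := h.M1
  have r1 := h.R1
  have := hX (M₁ ^ 2) (M₁ * R) ρ R 0 _ (h.a1'.trans h1) r1 (h2.trans h.hi) (by nlinarith)
    (by rw [eu_zero]; positivity) (by
      have := mul_le_mul_of_nonneg_left (h.lo.trans (mul_le_mul_of_nonneg_left h1 (by linarith))) (by linarith : 0 ≤ M₁)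
      nlinarith) (by nlinarith [mul_nonneg (by positivity : 0 ≤ M₁ * R) (by linarith : 0 ≤ M₁ - 1)]) h.fl
  simpa only [sub_zero] using this

end Ge

theorem cv_Tc {Λ : Lat} {ω : Sta} {m : Mdl Pt} {N a : ℕ} (h : Rep Λ ω m 0 N) (h1 : Ins 0 N (T1 a))
    (h2 : Ins 0 N (T2 a)) {G : Cfg Pt → ℝ} (hG : Ins 0 N G) (α₁ α₂ : ℝ) :
    cv ω (Tc ω a α₁ α₂) G = α₁ * cv ω (T1 a) G + α₂ * cv ω (T2 a) G := by
  have e1 : ω (Tc ω a α₁ α₂) = 0 := by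
    unfold Tc
    rw [h.ex_add ((h1.sub_const _).smul _) ((h2.sub_const _).smul _), h.ex_smul (h1.sub_const _).1,
      h.ex_smul (h2.sub_const _).1, h.ex_sub h1 (Ins.const _ _ _), h.ex_sub h2 (Ins.const _ _ _),
      h.ex_const, h.ex_const]
    ring
  have e2 : (fun s => Tc ω a α₁ α₂ s * G s) = fun s =>
      α₁ * (T1 a s * G s - ω (T1 a) * G s) + α₂ * (T2 a s * G s - ω (T2 a) * G s) := by
    funext s; unfold Tc; ring
  unfold cv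
  rw [e1, e2, h.ex_add (((h1.mul hG).sub (hG.smul _)).smul _) (((h2.mul hG).sub (hG.smul _)).smul _),
    h.ex_smul ((h1.mul hG).sub (hG.smul _)).1, h.ex_smul ((h2.mul hG).sub (hG.smul _)).1,
    h.ex_sub (h1.mul hG) (hG.smul _), h.ex_sub (h2.mul hG) (hG.smul _), h.ex_smul hG.1, h.ex_smul hG.1]
  ring

theorem two {b ε m₁₁ m₁₂ m₂₁ m₂₂ : ℝ} (hb : 0 ≤ b) (h1 : b + ε ≤ m₁₁) (h2 : b + ε ≤ m₂₂) (h3 : |m₁₂| ≤ ε)
    (h4 : |m₂₁| ≤ ε) (x y : ℝ) : b * max |x| |y| ≤ max |x * m₁₁ + y * m₁₂| |x * m₂₁ + y * m₂₂| := by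
  have e0 := (abs_nonneg _).trans h3
  rcases le_total |y| |x| with h | h
  · rw [max_eq_left h]
    refine le_trans ?_ (le_max_left _ _)
    have := abs_sub (x * m₁₁ + y * m₁₂) (y * m₁₂)
    rw [add_sub_cancel_right, abs_mul, abs_mul, abs_of_nonneg (by linarith : 0 ≤ m₁₁)] at this
    nlinarith [abs_nonneg x, abs_nonneg y, mul_le_mul h h3 (abs_nonneg _) (abs_nonneg _)]
  · rw [max_eq_right h]
    refine le_trans ?_ (le_max_right _ _)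
    have := abs_sub (x * m₂₁ + y * m₂₂) (x * m₂₁)
    rw [add_sub_cancel_left, abs_mul, abs_mul, abs_of_nonneg (by linarith : 0 ≤ m₂₂)] at this
    nlinarith [abs_nonneg x, abs_nonneg y, mul_le_mul h h4 (abs_nonneg _) (abs_nonneg _)]

/-- the numerical end -/
theorem num {c η : ℝ} (hc : 0 < c) (h0 : 0 < η) (h1 : η ≤ 1 / 100) : ∃ W₀ : ℕ, ∀ W : ℕ, W₀ ≤ W → ∀ (j : ℕ) (t : ℝ),
    j ≤ 2 → 1 / (32 * (W : ℝ) ^ j) ≤ t →
      (W : ℝ) ^ (-(2 * (j : ℝ)) - η / 10) + ((W : ℝ) ^ 5)⁻¹ ≤ c * t ^ (2 + η / 100) := by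
  have := (tendsto_rpow_atTop (by linarith : 0 < η * (2 / 25))).comp tendsto_natCast_atTop_atTop
  obtain ⟨W₀, hW⟩ := Filter.eventually_atTop.1 (this.eventually_ge_atTop (2 * 32 ^ 3 / c))
  refine ⟨max W₀ 1, fun W h j t hj ht => ?_⟩
  have w := hW W (le_of_max_le_left h)
  have W1 : (1 : ℝ) ≤ W := by exact_mod_cast le_of_max_le_right h
  have W0 : (0 : ℝ) < W := by linarith
  have j2 : (j : ℝ) ≤ 2 := by exact_mod_cast hj
  have j0 : (0 : ℝ) ≤ j := Nat.cast_nonneg j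
  simp only [Function.comp] at w
  have a1 : ((W : ℝ) ^ 5)⁻¹ ≤ (W : ℝ) ^ (-(2 * (j : ℝ)) - η / 10) := by
    rw [← rpow_natCast, ← rpow_neg W0.le]
    exact rpow_le_rpow_of_exponent_le W1 (by push_cast; linarith)
  have a2 : (1 / (32 * (W : ℝ) ^ j)) ^ (2 + η / 100) ≤ t ^ (2 + η / 100) :=
    rpow_le_rpow (by positivity) ht (by linarith)
  have a3 : (32 : ℝ) ^ (2 + η / 100) ≤ 32 ^ 3 := by
    rw [← rpow_natCast]; exact rpow_le_rpow_of_exponent_le (by norm_num) (by push_cast; linarith)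
  have a4 : (W : ℝ) ^ (-(2 * (j : ℝ)) - η / 10) * (W : ℝ) ^ (η * (2 / 25)) ≤
      (W : ℝ) ^ (-((j : ℝ) * (2 + η / 100))) := by
    rw [← rpow_add W0]; exact rpow_le_rpow_of_exponent_le W1 (by nlinarith)
  rw [one_div, inv_rpow (by positivity), mul_rpow (by norm_num) (by positivity), ← rpow_natCast,
    ← rpow_mul W0.le, mul_inv, ← rpow_neg W0.le] at a2
  have a5 : (32 ^ 3 : ℝ)⁻¹ ≤ ((32 : ℝ) ^ (2 + η / 100))⁻¹ := inv_anti₀ (by positivity) a3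
  have p0 : 0 < (W : ℝ) ^ (-(2 * (j : ℝ)) - η / 10) := by positivity
  rw [div_le_iff₀ hc] at w
  have a6 := mul_le_mul a5 a4 (by positivity) (by positivity)
  have a7 := mul_le_mul_of_nonneg_left (a6.trans a2) hc.le
  nlinarith [mul_le_mul_of_nonneg_left w p0.le]

/-- the geometry at scale `r` -/
theorem geo {B R M M' Q : ℝ} {W r j : ℕ} (hB : 0 ≤ B) (hR : 1 ≤ R) (hM : 2 ≤ M) (hW : 1 ≤ W) (hj : j ≤ 2)
    (hQ : Q = 16 * (W : ℝ) ^ 2 * M) (h1 : R / M ≤ r) (h2 : (r : ℝ) ≤ M * R) (h3 : 16 * (B + 1) ≤ r)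
    (h4 : (9 * Q) ^ (⌈8 * B⌉₊ + 1) ≤ M') : Ge B R Q M' (r / 8) (2 * (W ^ j * r)) ∧
      1 / (32 * (W : ℝ) ^ j) ≤ ((r / 8 : ℕ) : ℝ) / (2 * (W ^ j * r) : ℕ) ∧
      ((r / 8 : ℕ) : ℝ) / (2 * (W ^ j * r) : ℕ) ≤ 1 / (W : ℝ) ^ j := by
  have W1 : (1 : ℝ) ≤ W := by exact_mod_cast hW
  have r16 : 16 ≤ r := by
    have : (16 : ℝ) ≤ r := by linarith
    exact_mod_cast this
  have a1 : (r : ℝ) ≤ 16 * (r / 8 : ℕ) := by exact_mod_cast (by omega : r ≤ 16 * (r / 8))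
  have a2 : 8 * ((r / 8 : ℕ) : ℝ) ≤ r := by exact_mod_cast (by omega : 8 * (r / 8) ≤ r)
  have p1 : (1 : ℝ) ≤ (W : ℝ) ^ j := one_le_pow₀ W1
  have p2 : (W : ℝ) ^ j ≤ (W : ℝ) ^ 2 := pow_le_pow_right₀ W1 hj
  have p3 : 1 ≤ W ^ j := Nat.one_le_pow _ _ hW
  have Q1 : 16 * M ≤ Q := by nlinarith
  rw [div_le_iff₀ (by linarith)] at h1
  have := big hB (by linarith) h4
  refine ⟨⟨hB, hR, by linarith, by omega, by linarith, by nlinarith, ?_, ?_, this.1, this.2⟩, ?_, ?_⟩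
  · push_cast
    have := mul_le_mul p2 h2 (by positivity) (by positivity)
    have : 0 ≤ (W : ℝ) ^ 2 * (M * R) := by positivity
    rw [hQ]; nlinarith
  · have := Nat.mul_le_mul_right r p3
    omega
  · push_cast
    rw [div_le_div_iff₀ (by positivity) (by positivity)]; nlinarith
  · push_cast
    rw [div_le_div_iff₀ (by positivity) (by positivity)]; nlinarith

theorem n11 {c C₀ CT g E k a A W ε x : ℝ} (c0 : 0 < c) (C0 : 0 ≤ C₀) (g1 : g ≤ 1) (E0 : 0 ≤ E) (E1 : E ≤ CT)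
    (a0 : 0 < a) (A0 : 0 < A) (W1 : 1 ≤ W) (t : a / A ≤ 1 / W) (hk : c * a ^ 2 ≤ k)
    (hW : C₀ ≤ c * exp (-2 * π ^ 2 * CT) / 2 * W)
    (h : |x - k * (1 / A ^ 2) * exp (-2 * π ^ 2 * g * E)| ≤
      ε + C₀ * ((a * (1 / A)) ^ 4 + a ^ 2 * 0 * (a * (1 / A) + a ^ 2 * 0))) :
    c * exp (-2 * π ^ 2 * CT) / 2 * (a / A) ^ 2 - ε ≤ x := by
  have e : exp (-2 * π ^ 2 * CT) ≤ exp (-2 * π ^ 2 * g * E) :=
    exp_le_exp.2 (by nlinarith [mul_le_mul g1 E1 E0 zero_le_one, sq_nonneg π])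
  have e0 := exp_pos (-2 * π ^ 2 * CT)
  generalize exp (-2 * π ^ 2 * CT) = u at *
  have E2 : c * u * (a / A) ^ 2 ≤ k * (1 / A ^ 2) * exp (-2 * π ^ 2 * g * E) :=
    calc _ = c * a ^ 2 * (1 / A ^ 2) * u := by ring
      _ ≤ _ := by
        have : 0 ≤ k := le_trans (by positivity) hk
        gcongr
  have t0 : 0 < a / A := by positivity
  have t1 : a / A ≤ 1 := t.trans ((div_le_one (by linarith)).2 W1)
  have E3 : C₀ * (a / A) ^ 2 ≤ c * u / 2 := by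
    have h1 : a / A * W ≤ 1 := by rwa [← le_div_iff₀ (by linarith)]
    have := mul_le_mul hW (pow_le_of_le_one t0.le t1 (n := 2) (by norm_num)) (by positivity) (by positivity)
    nlinarith [mul_le_mul_of_nonneg_left h1 (by positivity : 0 ≤ c * u / 2)]
  have := (abs_le.1 h).1
  rw [mul_one_div a] at this
  nlinarith [mul_le_mul_of_nonneg_right E3 (sq_nonneg (a / A))]

theorem n22 {Ce g η a A d₁ d₂ : ℝ} (g0 : 0 ≤ g) (g1 : g ≤ 1) (g2 : π * g - 2 ≤ η) (a0 : 0 < a) (aA : a ≤ A)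
    (h1 : |d₁| ≤ Ce) (h2 : |d₂| ≤ Ce) : exp (-4 * π ^ 2 * Ce) * (a / A) ^ (2 + η) ≤
      exp (-2 * π ^ 2 * g * (log (A / a) / (2 * π) - d₁ - d₂)) := by
  rw [rpow_def_of_pos (div_pos a0 (by linarith)), ← exp_add, ← inv_div A, log_inv]
  refine exp_le_exp.2 ?_
  have lA : 0 ≤ log (A / a) := log_nonneg ((one_le_div a0).2 aA)
  have e : -2 * π ^ 2 * g * (log (A / a) / (2 * π) - d₁ - d₂) =
      -(π * g * log (A / a)) + 2 * π ^ 2 * (g * (d₁ + d₂)) := by field_simp; ring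
  have : -(2 * Ce) ≤ g * (d₁ + d₂) := by nlinarith [(abs_le.1 h1).1, (abs_le.1 h2).1, abs_nonneg d₁]
  rw [e]
  nlinarith [sq_nonneg π]

theorem n22' {x y u v Φ ε₃ ε₄ ε b : ℝ} (h1 : |u| ≤ ε₄) (h2 : |v| ≤ ε₄) (h3 : |x| ≤ ε₄) (h4 : |y - Φ| ≤ ε₃)
    (s3 : ε₃ ≤ ε) (s4 : ε₄ ≤ ε) (e1 : ε ≤ 1) (hb : b ≤ Φ) : b / 2 - 2 * ε ≤ 2⁻¹ * (x + y) - u * v := by
  have t := (abs_nonneg _).trans h1
  have q4 := (abs_le.1 ((abs_mul _ _).trans_le (mul_le_mul h1 h2 (abs_nonneg _) t))).2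
  nlinarith [(abs_le.1 h3).1, (abs_le.1 h4).1]

theorem cv22 {Λ : Lat} {ω : Sta} {m : Mdl Pt} {N a A : ℕ} (hm : Rep Λ ω m 0 N) (a1 : 1 ≤ a) (aA : a ≤ A)
    (AN : 2 * A ≤ N) : cv ω (T2 a) (T2 A) =
      2⁻¹ * (ω (cp (xi a + xi A) 0) + ω (cp (A0 (Phi a - Phi A)) 0)) - ω (cp (xi a) 0) * ω (cp (xi A) 0) := by
  have ca : Chq (bl 0 N) (xi a) 1 := chq_xi (by exact_mod_cast a1) (by exact_mod_cast (by omega))
  have cA : Chq (bl 0 N) (xi A) 1 := chq_xi (by exact_mod_cast (by omega)) (by exact_mod_cast AN)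
  have e4 : A0 (Phi a - Phi A) = xi a - xi A := by rw [A0_sub, xi, xi]; abel
  rw [e4, ← hm.ex_add (ins_cp (ca.add cA) 0) (ins_cp (ca.sub cA) 0),
    ← hm.ex_smul ((ins_cp (ca.add cA) 0).add (ins_cp (ca.sub cA) 0)).1, cv, T2, T2]
  congr 2; funext s; rw [cp_mul, add_zero, sub_zero]; ring

theorem Ge.le {B R Q M' : ℝ} {a A : ℕ} (h : Ge B R Q M' a A) {C : ℝ} (hC : C ≤ B) :
    C * (1 + log (Q ^ 2)) ≤ log M' ∧ C ≤ log M' ∧ (A : ℝ) ≤ Q ^ 2 * a := by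
  refine ⟨by nlinarith [h.lg, h.l0, h.B0], hC.trans h.Bl, ?_⟩
  nlinarith [mul_le_mul_of_nonneg_left h.lo (by linarith [h.M1] : 0 ≤ Q), h.hi]

theorem pre {C M R Y η g : ℝ} {r : ℕ} (C0 : 0 ≤ C) (m2 : 2 ≤ M) (R1 : 1 ≤ R) (η1 : η ≤ 1 / 100) (hY : R ^ (-η) ≤ Y)
    (hg : |π * g - 2| ≤ η / 100) (r1 : R / M ≤ r) :
    0 < Y ∧ 1 / 4 ≤ g ∧ g ≤ 1 ∧ (C * M ^ 1 * Y ≤ 1 → C ≤ r) := by
  have Y1 : R⁻¹ ≤ Y := le_trans (by
    rw [← rpow_neg_one]; exact rpow_le_rpow_of_exponent_le R1 (by linarith)) hY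
  obtain ⟨g1, g2⟩ := abs_le.1 hg
  refine ⟨(inv_pos.2 (by linarith)).trans_le Y1, by nlinarith [pi_gt_three, pi_lt_four],
    by nlinarith [pi_gt_three, pi_lt_four], fun h => ?_⟩
  have : C * M * R⁻¹ ≤ 1 := le_trans (by rw [pow_one]; gcongr) h
  rw [mul_inv_le_iff₀ (by linarith), ← le_div_iff₀ (by linarith), one_mul] at this
  linarith

end L11

open L11 in
theorem lowStmt (hT : TgStmt) (hF : XfStmt) (h1 : X1uStmt) (h2 : X2Stmt) (hN : NgStmt) (hC : CgStmt) :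
    LowStmt := fun w => by
  by_cases hw : 4 ≤ w
  swap
  · exact ⟨0, fun p W e _ => ⟨1, 0, le_rfl, fun Λ ω L N hE => absurd (e ▸ hE.w4) hw⟩⟩
  obtain ⟨η0, η1⟩ := ew_bd hw
  obtain ⟨c, CT, c0, CT0, hT⟩ := hT
  obtain ⟨CX, CX0, hX, hX', -⟩ := hF
  obtain ⟨C₀, C0, h1⟩ := h1
  obtain ⟨Ce, Ce0, he⟩ := abs_er_le
  obtain ⟨c₁, hc₁⟩ : ∃ c₁, c₁ = c * exp (-2 * π ^ 2 * CT) / 2 := ⟨_, rfl⟩
  obtain ⟨c₂, hc₂⟩ : ∃ c₂, c₂ = exp (-4 * π ^ 2 * Ce) / 2 := ⟨_, rfl⟩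
  have c10 : 0 < c₁ := by rw [hc₁]; positivity
  have c20 : 0 < c₂ := by rw [hc₂]; positivity
  obtain ⟨W₀, hW₀⟩ := num (lt_min c10 c20) η0 η1
  refine ⟨max W₀ (⌈C₀ / c₁⌉₊ + 1), fun p W e hW => ?_⟩
  have hW1 : 1 ≤ W := by omega
  have W1 : (1 : ℝ) ≤ W := by exact_mod_cast hW1
  have WC : C₀ ≤ c₁ * W := by
    rw [← div_le_iff₀' c10]; exact (Nat.le_ceil _).trans (by exact_mod_cast (by omega))
  have K1 : 1 ≤ 9 * (16 * (W : ℝ) ^ 2) := by linarith [one_le_pow₀ W1 (n := 2)]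
  have e0 : 0 < ((W : ℝ) ^ 5)⁻¹ / 3 := by positivity
  have e1 : ((W : ℝ) ^ 5)⁻¹ ≤ 1 := inv_le_one_of_one_le₀ (one_le_pow₀ W1)
  obtain ⟨B, hB⟩ : ∃ B, B = CX + CT := ⟨_, rfl⟩
  have B1 : CX ≤ B := by linarith
  have B2 : CT ≤ B := by linarith
  have B0 : 0 ≤ B := by linarith
  have hX1 : ∀ (M T ρ R : ℝ) (z : Pt) (n : ℕ), 1 ≤ ρ → 1 ≤ R → ρ ≤ T → R ≤ T → eu z ≤ T → T ≤ M * ρ →
      T ≤ M * R → 8 * T ≤ n →
      F2 (nnL.edI (bl 0 n)) ((fun y => xi ρ (y - z)) - xi R) (B * (1 + log M)) :=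
    fun M T ρ R z n a b c d e f g i => RJ57.f2_mono (hX M T ρ R z n a b c d e f g i) (by
      have := log_nonneg (x := M) (le_of_mul_le_mul_right (by linarith) (by linarith : 0 < R))
      exact mul_le_mul_of_nonneg_right B1 (by linarith))
  obtain ⟨C₁, n₁, k1, w1⟩ := win h1 p _ ⌈8 * B⌉₊ K1 e0
  obtain ⟨C₂, n₂, k2, w2⟩ := win h2 p _ ⌈8 * B⌉₊ K1 e0
  obtain ⟨C₃, n₃, k3, w3⟩ := win hN p _ ⌈8 * B⌉₊ K1 e0
  obtain ⟨C₄, n₄, k4, w4⟩ := win hC p _ ⌈8 * B⌉₊ K1 e0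
  refine ⟨C₁ + C₂ + C₃ + C₄ + 16 * (B + 1), n₁ + n₂ + n₃ + n₄ + 1, by linarith,
    fun Λ ω L N hE R Y M hM hg m2 y1 l1 r r1 r2 => ?_⟩
  have R1 := hM.1
  obtain ⟨Y0, g3, g4, r3⟩ := pre (C := 16 * (B + 1)) (by linarith) m2 R1 η1 (e ▸ hM.2.1) hg r1
  have up : ∀ (C : ℝ) (n : ℕ), C ≤ C₁ + C₂ + C₃ + C₄ + 16 * (B + 1) → n ≤ n₁ + n₂ + n₃ + n₄ + 1 →
      C * M ^ n * Y ≤ 1 ∧ C * M ^ n * R ≤ L := fun C n b d => by
    have := mul_le_mul b (pow_le_pow_right₀ (by linarith : 1 ≤ M) d) (by positivity) (by linarith)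
    exact ⟨(mul_le_mul_of_nonneg_right this Y0.le).trans y1,
      (mul_le_mul_of_nonneg_right this (by linarith)).trans l1⟩
  replace r3 := r3 (up _ 1 (by linarith) (by omega)).1
  obtain ⟨M₁, -, ε₁, b1, -, s1, v1, x1⟩ := w1 Λ ω L N hE R Y M hM g3 g4 m2
    (up _ _ (by linarith) (by omega)).1 (up _ _ (by linarith) (by omega)).2
  obtain ⟨M₂, -, ε₂, b2, -, s2, -, x2⟩ := w2 Λ ω L N hE R Y M hM g3 g4 m2
    (up _ _ (by linarith) (by omega)).1 (up _ _ (by linarith) (by omega)).2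
  obtain ⟨M₃, -, ε₃, b3, -, s3, -, x3⟩ := w3 Λ ω L N hE R Y M hM g3 g4 m2
    (up _ _ (by linarith) (by omega)).1 (up _ _ (by linarith) (by omega)).2
  obtain ⟨M₄, -, ε₄, b4, -, s4, -, x4⟩ := w4 Λ ω L N hE R Y M hM g3 g4 m2
    (up _ _ (by linarith) (by omega)).1 (up _ _ (by linarith) (by omega)).2
  rw [mul_assoc] at b1 b2 b3 b4
  obtain ⟨m, hm⟩ := hE.amb 0
  clear w1 w2 w3 w4 up y1 l1 hX
  have key : ∀ j : ℕ, 1 ≤ j → j ≤ 2 →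
      Lw ω (r / 8) (2 * (W ^ j * r)) ((W : ℝ) ^ (-(2 * (j : ℝ)) - ew w / 10)) := fun j j1 j2 => by
    obtain ⟨G₁, t1, t2⟩ := geo (j := j) B0 R1 m2 hW1 j2 rfl r1 r2 r3 b1
    have G₂ := (geo (j := j) B0 R1 m2 hW1 j2 rfl r1 r2 r3 b2).1
    have G₃ := (geo (j := j) B0 R1 m2 hW1 j2 rfl r1 r2 r3 b3).1
    have G₄ := (geo (j := j) B0 R1 m2 hW1 j2 rfl r1 r2 r3 b4).1
    have nm := hW₀ W (le_of_max_le_left hW) j _ j2 t1
    clear b1 b2 b3 b4 t1 r1 r2 r3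
    generalize r / 8 = a at *
    generalize 2 * (W ^ j * r) = A at *
    generalize 16 * (W : ℝ) ^ 2 * M = Q at *
    have a1 := G₁.a1'
    have a2 := G₁.sep'
    have a3 := G₁.sep
    have aA : (a : ℝ) ≤ A := by linarith
    have A0' : (0 : ℝ) < A := by linarith
    have AN := G₁.N2 v1 hE.le
    obtain ⟨⟨i1, -⟩, ⟨i2, -⟩, -, kp1⟩ := hT a G₁.a1
    obtain ⟨-, ⟨i3, -⟩, ⟨i4, -, u1, u2, u3, u4, u5⟩, -⟩ := hT A (by omega)
    have t0 : 0 < (a : ℝ) / A := by positivity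
    have t3 : (a : ℝ) / A ≤ 1 / W :=
      t2.trans (one_div_le_one_div_of_le (by linarith) (le_self_pow₀ W1 (by omega)))
    have t4 : (a : ℝ) / A ≤ 1 := (div_le_one A0').2 aA
    have t5 : ((a : ℝ) / A) ^ (2 + ew w / 100) ≤ ((a : ℝ) / A) ^ 2 := by
      rw [← rpow_natCast]; exact rpow_le_rpow_of_exponent_ge t0 t4 (by push_cast; linarith)
    have tp : 0 ≤ ((a : ℝ) / A) ^ (2 + ew w / 100) := by positivity
    have sv1 := G₁.sv u1 u2 (G₁.le B2).2.1 aA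
    have m11 := (x1 a 0 _ _ _ _ G₁.wlo G₁.whi G₁.z0 sv1 sv1 (u5 _ a3) (u5 _ a3)).1 (by rwa [mul_one_div])
    rw [trl_zero, u4, B80.E0_congr sv1.1 u1] at m11
    replace m11 := n11 c0 C0 g4 (B80.E0_nonneg u1) u3 (by linarith) A0' W1 t3 (kp1 _ g3 g4).1 (hc₁ ▸ WC) m11
    have sv2 := G₂.sv u1 u2 (G₂.le B2).2.1 aA
    obtain ⟨m12, -, m21⟩ := x2 a 0 _ _ G₂.wlo G₂.whi G₂.z0 sv2 sv2
    replace m12 := m12 (by rw [B80.E0_congr sv2.1 u1]; exact u3.trans (G₂.le B2).2.1)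
    replace m21 := (m21 _ 0 (RJ57.f2_mono (G₂.f2 hX1 aA le_rfl) (G₂.le le_rfl).1)).1
    rw [trl_zero] at m12 m21
    rw [add_sub_cancel] at m21
    obtain ⟨z1, z2⟩ := hX' (Q ^ 2) a A (2 * A) a (one_le_pow₀ G₁.M1) (by linarith) (G₁.le B1).2.2
      (B1.trans G₁.Ba) (by push_cast; rfl) G₁.a1 le_rfl
    have su : Pot.Sup (bl 0 (2 * A)) (Phi a - Phi A) :=
      (sup_Phi (by linarith) (by push_cast; linarith)).sub (sup_Phi A0' (by push_cast; linarith))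
    have sv := G₃.sv su z2 (G₃.le B1).1 le_rfl
    have n1 := (x3 _ _ _ sv G₃.sv0 G₃.sv0 _ _ _ rfl rfl rfl).1
    rw [B80.E0_congr sv.1 su, z1] at n1
    have fa := G₄.f2 hX1 le_rfl aA
    have fA := G₄.f2 hX1 aA le_rfl
    have q1 := (x4 1 _ _ _ 0 one_ne_zero (by norm_num) (RJ57.f2_mono fa (G₄.le le_rfl).1) G₄.sv0 G₄.sv0).1
    have q2 := (x4 1 _ _ _ 0 one_ne_zero (by norm_num) (RJ57.f2_mono fA (G₄.le le_rfl).1) G₄.sv0 G₄.sv0).1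
    have q3 := (x4 2 _ _ _ 0 two_ne_zero (by norm_num)
      (RJ57.f2_mono (RJ57.f2_add fa fA) (by linarith only [G₄.lg])) G₄.sv0 G₄.sv0).1
    rw [Int.cast_one, one_smul, add_sub_cancel] at q1 q2
    have e3 : ((2 : ℤ) : ℝ) • xi R + (xi a - xi R + (xi A - xi R)) = xi a + xi A := by
      funext y; simp; ring
    rw [e3] at q3
    have m22 := n22' q1 q2 q3 n1 s3 s4 (by linarith only [e1, e0])
      (n22 (by linarith only [g3]) g4 (abs_le.1 hg).2 (by linarith only [a1]) aA (he a a1) (he A (a1.trans aA)))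
    rw [← cv22 hm G₁.a1 (by omega) AN] at m22
    intro α₁ α₂
    rw [cv_Tc hm (i1.mono (by omega)) (i2.mono (by omega)) (i4.mono AN),
      cv_Tc hm (i1.mono (by omega)) (i2.mono (by omega)) (i3.mono AN)]
    have d1 := mul_le_mul (min_le_left c₁ c₂) t5 tp c10.le
    have d2 := mul_le_mul_of_nonneg_right (min_le_right c₁ c₂) tp
    rw [← hc₁] at m11
    rw [mul_div_right_comm, ← hc₂] at m22
    exact two (ε := ((W : ℝ) ^ 5)⁻¹ / 3) (by positivity) (by unfold G1; linarith only [m11, d1, nm, s1, e0])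
      (by linarith only [m22, d2, nm]) (m12.trans s2) (m21.trans s2) α₁ α₂
  refine ⟨?_, ?_⟩
  · simpa using key 1 le_rfl (by norm_num)
  · have := key 2 (by norm_num) le_rfl
    rw [pow_two W, mul_assoc] at this
    norm_num at this ⊢
    exact this

end Crest.Agent.T145.Ev
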