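import Crest.Agent.T145.MidDef2_76
import Crest.Agent.T145.PotD_17
import Crest.Agent.T145.Br_73

/-!
# Row 145, middle glue: CHI and VG (helper19)

`Mid.chiStmt : ChiStmt`, `Mid.vgStmt : VarStmt → VgStmt`.
-/

set_option autoImplicit false

namespace Crest.Agent.T145.Mid

open Finset

namespace Vg19

theorem En_eq (B : Finset Pt) (m : Pt → ℝ) : nnL.En B m m =
    ∑ i, ∑ x ∈ B.filter (fun x => x + ev i ∈ B), df i m x ^ 2 := by
  have e : nnL.Jp = {(1, 0), (0, 1)} := xyL_Jp 1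
  rw [Lat.En, Lat.sum_edI, e, sum_pair (by decide), Fin.sum_univ_two]
  congr 1 <;> exact sum_congr rfl fun x _ => by simp [nnL, pow_two, df, ev]

theorem Ec_le {C : ℝ} {ρ : ℕ} (hρ : 1 ≤ ρ) (h : Sm2 (Xi.chi ρ) C ρ) : Ec ρ ≤ 98 * C ^ 2 := by
  have hρ' : (1 : ℝ) ≤ ρ := by exact_mod_cast hρ
  have key : ∀ i, ∑ x ∈ (bl 0 (2 * ρ + 1)).filter (fun x => x + ev i ∈ bl 0 (2 * ρ + 1)),
      df i (Xi.chi ρ) x ^ 2 ≤ 49 * C ^ 2 := fun i => by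
    refine (sum_le_sum_of_subset_of_nonneg (filter_subset _ _) fun _ _ _ => sq_nonneg _).trans ?_
    refine (sum_le_card_nsmul _ _ ((C / ρ) ^ 2) fun x _ => ?_).trans ?_
    · rw [← sq_abs]; exact pow_le_pow_left₀ (abs_nonneg _) (h.1 i x) 2
    · rw [card_bl, nsmul_eq_mul, div_pow, ← mul_div_assoc, div_le_iff₀ (by positivity)]
      push_cast
      have : (2 * (2 * (ρ : ℝ) + 1) + 1) ^ 2 ≤ 49 * (ρ : ℝ) ^ 2 := by nlinarith
      nlinarith [mul_le_mul_of_nonneg_right this (sq_nonneg C)]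
  rw [Ec, En_eq, Fin.sum_univ_two]
  linarith [key 0, key 1]

theorem one_le_Ec {ρ : ℕ} (hρ : 1 ≤ ρ) : 1 ≤ Ec ρ := by
  have hρ' : (0 : ℝ) < ρ := by exact_mod_cast hρ
  set g : ℕ × ℕ → Pt := fun p => ((ρ : ℤ) + p.2, p.1) with hg
  have row : ∀ y ∈ range ρ, 1 / (ρ : ℝ) ≤ ∑ t ∈ range ρ, df 0 (Xi.chi ρ) (g (y, t)) ^ 2 := fun y hy => by
    have hy' := mem_range.1 hy
    have h1 : ∑ t ∈ range ρ, df 0 (Xi.chi ρ) (g (y, t)) = -1 := by
      have := sum_range_sub (fun t : ℕ => Xi.chi ρ (g (y, t))) ρ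
      have a1 : 2 * (ρ : ℝ) ≤ ((2 * ρ - 1 : ℕ) : ℝ) + 1 := by
        rw [Nat.cast_sub (by omega)]; push_cast; linarith
      have a2 : g (y, ρ) ∉ bl 0 (2 * ρ - 1) := by simp only [hg, mem_bl]; simp; omega
      have a3 : g (y, 0) ∈ bl 0 ρ := by simp only [hg, mem_bl]; simp; omega
      rw [Xi.sup_chi hρ' a1 _ a2, Xi.chi_one hρ' le_rfl a3, zero_sub] at this
      rw [← this]
      exact sum_congr rfl fun t _ => by simp [df, hg, ev, add_assoc]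
    have h2 := sq_sum_le_card_mul_sum_sq (s := range ρ) (f := fun t => df 0 (Xi.chi ρ) (g (y, t)))
    rw [h1, card_range] at h2
    rw [div_le_iff₀' hρ']
    linarith
  have h3 : (1 : ℝ) ≤ ∑ p ∈ range ρ ×ˢ range ρ, df 0 (Xi.chi ρ) (g p) ^ 2 := by
    rw [sum_product]
    refine le_trans (le_of_eq ?_) (sum_le_sum row)
    rw [sum_const, card_range, nsmul_eq_mul, mul_one_div_cancel hρ'.ne']
  rw [← sum_image (f := fun x => df 0 (Xi.chi ρ) x ^ 2) (fun p _ q _ e => by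
    simp only [hg, Prod.mk.injEq] at e
    ext <;> omega)] at h3
  rw [Ec, En_eq, Fin.sum_univ_two]
  refine le_add_of_le_of_nonneg (h3.trans (sum_le_sum_of_subset_of_nonneg (fun x hx => ?_)
    fun _ _ _ => sq_nonneg _)) (sum_nonneg fun _ _ => sq_nonneg _)
  obtain ⟨p, hp, rfl⟩ := mem_image.1 hx
  simp only [mem_product, mem_range] at hp
  simp only [mem_filter, mem_bl, hg, ev]
  simp
  omega

variable {Λ : Lat} {n : ℕ}

theorem ex_JJ (hΛ : Λ.Ok) (hn : 2 * Λ.rg < n) {R : ℕ} (h : 2 * (R + 1) < n) {z w : Pt} (hz : z ∈ bl 0 R)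
    (hw : w ∈ bl 0 R) : Ex ((Om.Tb Λ n 0).W 0) (fun s => Jz z s * Jz w s) = Om.K Λ n (w - z) := by
  rw [← Om.om_JJ hΛ hn, Om.om_Tb hΛ hn h ((Om.depG_JJ z w).mono
    (union_subset (bl_subset_bl hz (by omega)) (bl_subset_bl hw (by omega))))]

theorem vr_eq (hΛ : Λ.Ok) (hn : 2 * Λ.rg < n) {R : ℕ} (h : 2 * (R + 1) < n) {u : Pt → ℝ}
    (hu : Sup (bl 0 R) u) : Vr ((Om.Tb Λ n 0).W 0) (pr (A0 u)) (pr (A0 u)) =
      ∑ z ∈ bl 0 R, ∑ w ∈ bl 0 R, u z * u w * Om.K Λ n (w - z) := by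
  have hc := Om.cen_Tb hΛ n 0
  have e : pr (A0 u) = ∑ z ∈ bl 0 R, u z • pr (A0 (Pot.dl z)) := AddMonoidHom.ext fun s => by
    simp only [Xi.pr_A0 hu, AddMonoidHom.finsetSum_apply, AddMonoidHom.smul_apply, ← Xi.Jz_eq_pr,
      smul_eq_mul]
  rw [e, hc.se.Vr_sum_left]
  refine sum_congr rfl fun z hz => ?_
  rw [hc.se.Vr_sum_right]
  refine sum_congr rfl fun w hw => ?_
  rw [Vr_smul_left, Vr_smul_right, hc.Vr_eq, ← ex_JJ hΛ hn h hz hw, mul_assoc]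
  simp only [← Xi.Jz_eq_pr]

theorem gJ_eq (hΛ : Λ.Ok) (hn : 2 * Λ.rg < n) {r : ℕ} (h : 2 * (r + 1) < n) :
    gJ ((Om.Tb Λ n 0).W 0) 0 r = -(1 / 4) * ∑ x ∈ bl 0 r, Om.K Λ n x * n2 x := by
  rw [gJ]
  congr 1
  refine sum_congr rfl fun x hx => ?_
  rw [zero_add, ex_JJ hΛ hn h (self_mem_bl 0 r) hx, sub_zero]

theorem abs_K_le (hΛ : Λ.Ok) (hn : 2 * Λ.rg < n) (x : Pt) : |Om.K Λ n x| ≤ Om.K Λ n 0 := by
  have h0 := Om.og_JJ (n := n) hΛ 0 0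
  have h1 := Om.og_JJ (n := n) hΛ x x
  have h2 := Om.og_JJ (n := n) hΛ 0 x
  have h3 := Om.om_mono hΛ ((h2.abs hΛ).add (h2.abs hΛ)) (h0.add h1) fun s => by
    rw [abs_mul]
    nlinarith [sq_nonneg (|Jz 0 s| - |Jz x s|), abs_mul_abs_self (Jz 0 s), abs_mul_abs_self (Jz x s)]
  rw [Om.om_add (h2.abs hΛ) (h2.abs hΛ), Om.om_add h0 h1, Om.om_JJ hΛ hn, Om.om_JJ hΛ hn, sub_self,
    sub_self] at h3
  have h4 := Om.abs_om_le hΛ h2
  rw [Om.om_JJ hΛ hn, sub_zero] at h4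
  linarith

theorem K_zero_le (hΛ : Λ.Ok) (hn : 2 * Λ.rg + 2 < n) : Om.K Λ n 0 ≤ Λ.τ * 4 := by
  have ha := Om.amb_Tb (n := n) hΛ 0 (R := 0) (by omega)
  set ed : Finset (Pt × Pt) := {(0, (1, 0)), ((-1, 0), 0), (0, (0, 1)), ((0, -1), 0)} with hed
  set φ : Pt × Pt → ℝ := fun e => if e.1 = 0 then -1 else 1 with hφ
  have h0 : ∀ e ∈ ed, (e.1 ∈ bl (0 : Pt) 0 ∨ e.2 ∈ bl (0 : Pt) 0) ∧ e.2 - e.1 ∈ Λ.Jp := by
    have h1 := hΛ.e1
    have h2 := hΛ.e2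
    have h3 := self_mem_bl (0 : Pt) 0
    simp only [hed, mem_insert, mem_singleton]
    rintro e (rfl | rfl | rfl | rfl) <;> simp [h1, h2, h3]
  have hE : ed ⊆ (Om.Tb Λ n 0).ed := fun e he => (ha.near.1 e (h0 e he).1).2 (h0 e he).2
  have h1 := (brStmt.2.1 Λ _ (dv ed φ) 4 hΛ ha.ctr ha.anch ed hE
    (fun e he => ha.near.2.1 e (hE he) (h0 e he).1) ⟨φ, fun _ _ => rfl, by
      rw [hed, sum_insert (by decide), sum_insert (by decide), sum_pair (by decide)]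
      simp [hφ]; norm_num⟩).1
  have h2 : ∀ s, pr (dv ed φ) s = Jz 0 s := fun s => by
    rw [brStmt.1, hed, sum_insert (by decide), sum_insert (by decide), sum_pair (by decide)]
    simp [hφ, dE, Jz]; ring
  rw [(Om.cen_Tb hΛ n 0).Vr_eq] at h1
  simp only [h2] at h1
  have h3 := hΛ.one_le_rg
  rwa [ex_JJ hΛ (by omega) (R := 0) (by omega) (self_mem_bl 0 0) (self_mem_bl 0 0), sub_zero] at h1

end Vg19

open Vg19

/-- CHI -/
theorem chiStmt : ChiStmt := by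
  obtain ⟨C, h0, hC⟩ := Xi.sm_chi 2
  refine ⟨1 + C + 98 * C ^ 2, by nlinarith, fun ρ hρ => ?_⟩
  have hρ' : (0 : ℝ) < ρ := by exact_mod_cast hρ
  have h := (hC ρ hρ').sm2 le_rfl
  have h1 : C ≤ 1 + C + 98 * C ^ 2 := by nlinarith
  exact ⟨⟨fun i x => (h.1 i x).trans (by gcongr), fun i j x => (h.2 i j x).trans (by gcongr)⟩,
    Xi.sup_chi hρ' (by push_cast; linarith), one_le_Ec hρ, (Ec_le hρ h).trans (by linarith)⟩

/-- VG -/
theorem vgStmt (hV : VarStmt) : VgStmt := by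
  intro F
  obtain ⟨K, hK, HK⟩ := chiStmt
  obtain ⟨C, hC, H⟩ := hV (K + 1)
  refine ⟨C + |F.τ₂| * 4, by positivity, fun Λ hΛ n hn => ?_⟩
  have hO : Λ.Ok := ⟨hΛ.1 ▸ F.adm, F.pos.trans_le hΛ.2.2.1⟩
  have hn' : 2 * Λ.rg < n := by omega
  refine ⟨fun x => (abs_K_le hO hn' x).trans ((K_zero_le hO (by omega)).trans ?_), fun ρ r h1 h2 h3 => ?_⟩
  · linarith [hΛ.2.2.2, le_abs_self F.τ₂]
  obtain ⟨s1, s2, s3, -⟩ := HK ρ (h1.trans h2)
  have hρ : (0 : ℝ) ≤ ρ := Nat.cast_nonneg _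
  have key := H (Om.K Λ n) (Xi.chi ρ) (Qd n) ρ r (2 * ρ) (Om.K_swap hO hn') (Om.K_neg_fst hO hn')
    (Om.sum_K hO (by omega) _)
    (by simpa [Qd] using Om.bl_subset_sq (n := n) 0 (R := 2 * (2 * ρ)) (by omega)) h1 h2 (by omega)
    (by push_cast; nlinarith)
    ⟨fun i x => (s1.1 i x).trans (by gcongr; linarith), fun i j x => (s1.2 i j x).trans (by gcongr; linarith)⟩
    (fun x => (Xi.abs_chi_le _ x).trans (by linarith)) s2
  rw [← vr_eq hO hn' (by omega) s2, ← gJ_eq hO hn' (by omega)] at key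
  have hE : 0 < Ec ρ := one_pos.trans_le s3
  have hS : 0 ≤ ∑ x ∈ bl 0 r, |Om.K Λ n x| * sn x ^ 3 / ρ +
      ∑ x ∈ Qd n \ bl 0 r, |Om.K Λ n x| * min (sn x) ρ ^ 2 :=
    add_nonneg (sum_nonneg fun x _ => by
      have : 0 ≤ sn x := (abs_nonneg _).trans (le_max_left _ _)
      positivity) (sum_nonneg fun x _ => by positivity)
  rw [Vt, div_sub' hE.ne', abs_div, abs_of_pos hE, mul_comm (Ec ρ)]
  refine (div_le_self (abs_nonneg _) s3).trans (key.trans ?_)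
  gcongr
  exact le_add_of_nonneg_right (by positivity)

end Crest.Agent.T145.Mid
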