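import Crest.Agent.T145.EvXp_81
import Crest.Agent.T145.EvFarE_58
import Crest.Agent.T145.MidVg_19

/-!
# Row 145, even sector: non-degeneracy `Ev.ndStmt` (helper68)
-/

set_option autoImplicit false

namespace Crest.Agent.T145.Ev

open Finset Pot Xi Real Fl

namespace Nd68

variable {p : Par} {Λ : Lat} {ω ω' : Sta} {D : Finset Pt} {L N : ℕ} {F G : Cfg Pt → ℝ}

/-- an insertion at the origin and an energy star fit into one represented ball -/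
theorem fit (h : Env p Λ ω L N) {z : Pt} (hz : z ∈ bl 0 (N + N / 4)) :
    ∃ c, bl 0 (N / 4) ⊆ bl c N ∧ bl z Λ.rg ⊆ bl c N := by
  have h0 := h.mem.ok.one_le_rg
  have h1 := h.gd.2.1
  have h2 := h.big
  have h3 := h.le
  have h4 := A51.four_le h.toGs p.r₀
  rw [mul_assoc] at h2
  refine ⟨(z.1 / 2, z.2 / 2), fun x hx => ?_, fun x hx => ?_⟩ <;>
  · simp only [mem_bl, Prod.fst_zero, Prod.snd_zero] at hz hx ⊢
    omega

/-- `ω'` is linear -/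
theorem om'_sub (h : Ed p Λ ω ω' D L N) (hF : Ins 0 (N / 4) F) (hG : Ins 0 (N / 4) G) (c : ℝ) :
    ω' (fun s => F s - c * G s) = ω' F - c * ω' G := by
  rw [h.der _ (hF.sub (hG.smul c)), h.der _ hF, h.der _ hG, mul_sum, ← sum_sub_distrib]
  refine sum_congr rfl fun z hz => ?_
  obtain ⟨x, h1, h2⟩ := fit h.toEnv (h.hi hz)
  obtain ⟨m, hm⟩ := h.amb x
  have e := (Far58.ins_et h.mem.ok ω z).of_subset h2
  have a := (hF.of_subset h1).mul e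
  have b := (hG.of_subset h1).mul e
  rw [← hm.ex_smul b.1, ← hm.ex_sub a (b.smul c)]
  exact congrArg ω (funext fun s => by ring)

theorem g_mem {w : ℕ} (hw : 4 ≤ w) {g : ℝ} (h : |π * g - 2| ≤ ew w / 100) : 1 / 4 ≤ g ∧ g ≤ 1 := by
  have := (X81.ew_bd hw).2
  obtain ⟨a, b⟩ := abs_le.1 h
  constructor <;> nlinarith [pi_gt_three, pi_lt_four]

theorem one_le_E0 {ρ : ℕ} (hρ : 1 ≤ ρ) : 1 ≤ E0 (bl 0 (2 * ρ)) (Xi.chi ρ) := by
  have h0 : (0 : ℝ) < ρ := by exact_mod_cast hρ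
  have h : Pot.Sup (bl 0 (2 * ρ)) (Xi.chi ρ) := sup_chi h0 (by push_cast; linarith)
  refine (Mid.Vg19.one_le_Ec hρ).trans_eq ?_
  rw [B80.E0_ed h (B80.gb_bl h), Mid.Ec, Lat.En]
  simp [nnL, pow_two]

theorem A0_chi {r : ℝ} (hr : 0 < r) {n : ℕ} (hn : (n : ℝ) + 1 ≤ r) {y : Pt} (hy : y ∈ bl 0 n) :
    A0 (Xi.chi r) y = 0 := by
  rw [A0_congr (v := fun _ => 1) fun w hw => chi_one hr (n := n + 1) (by push_cast; exact hn)
    (bl_subset_bl hy (by omega) hw), A0_const]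
  rfl

theorem num {A g Q τ T C B B' κ x y g' : ℝ} (hA : 1 ≤ A) (hg : 1 / 4 ≤ g) (hQ : |Q - g * A| ≤ 1 / 8)
    (τ0 : 0 < τ) (τ1 : τ ≤ T) (hC : 64 * T ^ 2 ≤ C) (nd : Q ^ 2 ≤ τ ^ 2 * A * B) (κ0 : 0 ≤ κ) (κ1 : κ ≤ 1)
    (hx : |B'| ≤ x) (hy : |B - κ * B' - g' * A| ≤ y) : C⁻¹ - x - y ≤ g' := by
  have Q1 : A / 8 ≤ Q := by nlinarith [(abs_le.1 hQ).1]
  have τ2 : 64 * τ ^ 2 ≤ C := by nlinarith
  have τ3 : 0 < 64 * τ ^ 2 := by positivity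
  have B1 : A ≤ 64 * τ ^ 2 * B :=
    le_of_mul_le_mul_left (by nlinarith [pow_le_pow_left₀ (by linarith) Q1 2]) (show 0 < A by linarith)
  have B0 : 0 ≤ B := by by_contra h; nlinarith
  have B2 : C⁻¹ * A ≤ B := by
    rw [inv_mul_le_iff₀ (by linarith)]; exact B1.trans (mul_le_mul_of_nonneg_right τ2 B0)
  have u1 : κ * B' ≤ x := (le_abs_self _).trans (by
    rw [abs_mul, abs_of_nonneg κ0]; exact (mul_le_of_le_one_left (abs_nonneg _) κ1).trans hx)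
  have u3 : 0 ≤ x + y := add_nonneg ((abs_nonneg _).trans hx) ((abs_nonneg _).trans hy)
  refine le_of_mul_le_mul_right ?_ (show 0 < A by linarith)
  nlinarith [(abs_le.1 hy).2, mul_le_mul_of_nonneg_left hA u3]

end Nd68

open Nd68 in
/-- ND -/
theorem ndStmt (hD : DcStmt) (hS : S1Stmt) (hV : VlStmt) (hN : NgStmt) : NdStmt := by
  intro w
  obtain ⟨W₁, hD⟩ := hD w
  obtain ⟨W₂, hS⟩ := hS w
  refine ⟨W₁ + W₂ + 2, fun p W D₀ hw hW => ?_⟩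
  obtain ⟨C₁, n₁, c1, hD⟩ := hD p W D₀ hw (by omega)
  obtain ⟨C₂, n₂, c2, hS⟩ := hS p W D₀ hw (by omega)
  obtain ⟨C₃, c3, hV⟩ := hV p W D₀ (by omega)
  obtain ⟨C₄, n₄, c4, hN⟩ := hN p
  obtain ⟨σ, σ0, hσ⟩ := sm_chi 3
  obtain ⟨M, M1, M2, M3⟩ : ∃ M : ℝ, 9 * σ ≤ M ∧ 16 * C₄ ≤ M ∧ 100 ≤ M :=
    ⟨9 * σ + 16 * C₄ + 100, by linarith, by linarith, by linarith⟩
  have k1 : 0 ≤ C₃ * (9 * σ) ^ 2 := by positivity
  have k2 : 0 ≤ 16 * (C₄ * M ^ n₄) := by positivity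
  have k3 : 0 ≤ 64 * p.F.τ₂ ^ 2 := by positivity
  obtain ⟨C, hC⟩ : ∃ C, C = C₁ + C₂ + C₃ + C₃ * (9 * σ) ^ 2 + 16 * (C₄ * M ^ n₄) + 64 * p.F.τ₂ ^ 2 + M :=
    ⟨_, rfl⟩
  refine ⟨C, n₁ + n₂ + 4, by linarith, fun E R Y P t b t0 tC hY hL P' hK => ?_⟩
  have e := b.ed
  have le : ∀ {A : ℝ}, A ≤ C → A * t ≤ 1 := fun h => (mul_le_mul_of_nonneg_right h t0.le).trans tC
  have tM : M * t ≤ 1 := le (by linarith)
  have t1 : t ≤ 1 := by nlinarith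
  have Y0 := (X81.Y_pos b.maj).le
  have L0 : (0 : ℝ) ≤ E.L := Nat.cast_nonneg _
  have pw : ∀ k, k ≤ n₁ + n₂ + 4 → Y ≤ t ^ k ∧ R ≤ t ^ k * E.L := fun k hk =>
    have a := pow_le_pow_of_le_one t0.le t1 hk
    ⟨hY.trans a, hL.trans (mul_le_mul_of_nonneg_right a L0)⟩
  obtain ⟨Yt, Rt⟩ := pw 1 (by omega)
  rw [pow_one] at Yt Rt
  have sm : ∀ {A : ℝ}, 0 ≤ A → A ≤ C → A * Y ≤ 1 ∧ A * R ≤ E.L := fun h0 h =>
    ⟨(mul_le_mul_of_nonneg_left Yt h0).trans (le h), (mul_le_mul_of_nonneg_left Rt h0).trans (by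
      rw [← mul_assoc]; exact mul_le_of_le_one_left L0 (le h))⟩
  obtain ⟨a₁, a₂, α₁, α₂, dc⟩ := hD E R Y P t b t0 (le (by linarith)) (pw n₁ (by omega)).1
    (pw n₁ (by omega)).2
  have S := hS E R Y P t b t0 (le (by linarith)) (pw n₂ (by omega)).1 (pw n₂ (by omega)).2 _ _ _ _ dc
  have V := hV E R Y P b (sm (by linarith) (by linarith)).1 (sm (by linarith) (by linarith)).2 P' (9 * σ)
  obtain ⟨g1, g2⟩ := g_mem e.w4 b.crit
  have Ng := hN _ _ _ _ e.toEnv R Y M b.maj g1 g2 (by linarith) (sm (by positivity) (by linarith)).1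
    (sm (by positivity) (by linarith)).2
  have RM : M ≤ R := X81.big e.w4 b.maj (sm (by linarith) (by linarith)).1 (by linarith)
  have R0 : 0 < R := by linarith
  have r1 : (⌊R⌋₊ : ℝ) ≤ R := Nat.floor_le R0.le
  have r2 := Nat.lt_floor_add_one R
  generalize ⌊R⌋₊ = ρ at r1 r2
  have ρ1 : (99 : ℝ) ≤ ρ := by linarith
  have ρ0 : (0 : ℝ) < ρ := by linarith
  have ρ2 : 99 ≤ ρ := by exact_mod_cast ρ1
  have ρN : 100 * ρ ≤ E.N := by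
    have a : (100 : ℝ) * R ≤ E.L := (sm (by norm_num) (by linarith)).2
    have : (E.L : ℝ) ≤ E.N := by exact_mod_cast e.le
    exact_mod_cast (by linarith : (100 : ℝ) * ρ ≤ E.N)
  have s1 : Pot.Sup (bl 0 (2 * ρ)) (Xi.chi ρ) := sup_chi ρ0 (by push_cast; linarith)
  have s2 : Pot.Sup (bl 0 (16 * ρ)) (Xi.chi (8 * ρ)) := sup_chi (by linarith) (by push_cast; linarith)
  have m1 : Sm 3 Set.univ (8 * σ) R (Xi.chi ρ) := by
    have := ((hσ ρ ρ0).scale (ℓ' := R / 2) (by linarith) (by linarith)).scale' (m := 2) (by linarith)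
      (by norm_num)
    rwa [show σ * 2 ^ 3 = 8 * σ by ring, show 2 * (R / 2) = R by ring] at this
  have m2 : Sm 3 Set.univ σ R (Xi.chi (8 * ρ)) := (hσ _ (by linarith)).scale R0 (by linarith)
  have sv : ∀ {v : Pt → ℝ} {a : ℝ}, Pot.Sup (bl 0 (16 * ρ)) v → Sm 3 Set.univ a R v → a ≤ 9 * σ →
      Sv R M v := fun h1 h2 h3 =>
    ⟨h1.mono (bl_mono 0 (Nat.le_floor (by push_cast; nlinarith))),
      (h2.mono le_rfl Set.Subset.rfl (by linarith) R0).scale (by positivity)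
        (div_le_self R0.le (by linarith))⟩
  have v1 := sv (s1.mono (bl_mono 0 (by omega))) m1 (by linarith)
  have v2 := sv s2 m2 (by linarith)
  have Mt : M ≤ t⁻¹ := by rw [← one_div, le_div_iff₀ t0]; exact tM
  have z2 : ∀ y ∈ bl 0 (5 * ρ), A0 (Xi.chi (8 * ρ)) y = 0 := fun y hy =>
    A0_chi (by linarith) (by push_cast; linarith) hy
  have E12 : ∀ U, E1 U (Xi.chi ρ) (Xi.chi (8 * ρ)) = 0 := fun U => sum_eq_zero fun x _ => by
    by_cases hx : x ∈ bl 0 (2 * ρ)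
    · rw [z2 x (bl_mono 0 (by omega) hx), mul_zero]
    · rw [s1 x hx, zero_mul]
  have S1 := S _ _ (X81.sv_mono v1 R0 (by linarith) Mt) (X81.sv_mono v2 R0 (by linarith) Mt) fun z => by
    have a : ⌈R * t⌉₊ ≤ ρ := Nat.ceil_le.2 (by nlinarith)
    by_cases hz : z ∈ bl 0 (4 * ρ)
    · exact Or.inr fun y hy => z2 y (bl_subset_bl hz (by omega) hy)
    · refine Or.inl fun y hy => sup_A0 s1 y fun k => hz (bl_subset_bl k (r := ρ) (by omega) ?_)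
      exact mem_bl_comm.1 (bl_mono z a hy)
  rw [E12, mul_zero, add_zero] at S1
  have c2R : 2 * ρ ≤ ⌈2 * R⌉₊ := by
    exact_mod_cast (by linarith [Nat.le_ceil (2 * R)] : (2 : ℝ) * ρ ≤ ⌈2 * R⌉₊)
  have c2R' : (⌈2 * R⌉₊ : ℝ) ≤ 8 * ρ := by linarith [Nat.ceil_lt_add_one (show 0 ≤ 2 * R by linarith)]
  have c32 : 16 * ρ ≤ ⌈32 * R⌉₊ := by
    exact_mod_cast (by linarith [Nat.le_ceil (32 * R)] : (16 : ℝ) * ρ ≤ ⌈32 * R⌉₊)
  have q1 : 0 < ∑ x ∈ bl 0 ⌈2 * R⌉₊, Xi.chi ρ x :=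
    sum_pos' (fun x _ => chi_nonneg _ x) ⟨0, self_mem_bl _ _, by
      rw [chi_one ρ0 le_rfl (self_mem_bl _ _)]; exact one_pos⟩
  obtain ⟨κ, κ0, κ1, hκ⟩ : ∃ κ : ℝ, 0 ≤ κ ∧ κ ≤ 1 ∧
      κ * ∑ x ∈ bl 0 ⌈2 * R⌉₊, Xi.chi ρ x = ∑ x ∈ bl 0 ⌈2 * R⌉₊, Xi.chi ρ x * Xi.chi ρ x :=
    ⟨_ / _, div_nonneg (sum_nonneg fun x _ => mul_self_nonneg _) q1.le, (div_le_one q1).2
      (sum_le_sum fun x _ => mul_le_of_le_one_left (chi_nonneg _ x) (chi_le_one _ x)),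
      div_mul_cancel₀ _ q1.ne'⟩
  have V1 := V (Xi.chi ρ) (Xi.chi ρ - κ • Xi.chi (8 * ρ)) hK (s1.mono (bl_mono 0 c2R))
    (fun x hx => by
      rw [Pi.sub_apply, Pi.smul_apply, s1 x fun k => hx (bl_mono 0 (by omega) k),
        s2 x fun k => hx (bl_mono 0 c32 k), smul_zero, sub_zero])
    (m1.mono le_rfl Set.Subset.rfl (by linarith) R0)
    ((m1.sub (m2.smul κ)).mono le_rfl Set.Subset.rfl (by rw [abs_of_nonneg κ0]; nlinarith) R0) (by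
      rw [← sub_eq_zero.2 hκ.symm, mul_sum, ← sum_sub_distrib]
      exact sum_congr rfl fun x hx => by
        rw [Pi.sub_apply, Pi.smul_apply, chi_one (by linarith) c2R' hx, smul_eq_mul]; ring)
  have i1 : Ins 0 (E.N / 4) (X (Xi.chi ρ)) := ins_A0 s1 (by omega)
  have i2 : Ins 0 (E.N / 4) (X (Xi.chi (8 * ρ))) := ins_A0 s2 (by omega)
  have l1 : (fun s => X (Xi.chi ρ) s * X (Xi.chi ρ - κ • Xi.chi (8 * ρ)) s) = fun s =>
      X (Xi.chi ρ) s * X (Xi.chi ρ) s - κ * (X (Xi.chi ρ) s * X (Xi.chi (8 * ρ)) s) := funext fun s => by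
    simp only [X, A0_sub, A0_smul, pr_sub, pr_smul, AddMonoidHom.sub_apply, AddMonoidHom.smul_apply,
      smul_eq_mul]
    ring
  have l2 : E1 (bl 0 ⌈2 * R⌉₊) (Xi.chi ρ) (Xi.chi ρ - κ • Xi.chi (8 * ρ)) =
      E0 (bl 0 (2 * ρ)) (Xi.chi ρ) := by
    rw [B80.E0_congr s1 (s1.mono (bl_mono 0 c2R)), ← sub_zero (E0 _ _), ← mul_zero κ,
      ← E12 (bl 0 ⌈2 * R⌉₊), E0, E1, E1, mul_sum, ← sum_sub_distrib]
    exact sum_congr rfl fun x _ => by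
      rw [A0_sub, A0_smul, Pi.sub_apply, Pi.smul_apply, smul_eq_mul]; ring
  rw [l1, om'_sub e (i1.mul i1) (i1.mul i2), l2] at V1
  have N3 := (Ng 0 _ _ (X81.sv_zero R0 (by linarith)) v1 v1 _ _ _ rfl rfl rfl).2.2
  have A00 : A0 (0 : Pt → ℝ) = 0 := A0_const 0
  have l3 : E1 (bl 0 ⌊M * R⌋₊) (Xi.chi ρ) (Xi.chi ρ) = E0 (bl 0 (2 * ρ)) (Xi.chi ρ) :=
    B80.E0_congr v1.1 s1
  rw [l3] at N3
  simp only [E0, E1, cp, A00, Pi.zero_apply, mul_zero, sum_const_zero, exp_zero, mul_one, sub_zero,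
    pr_zero, AddMonoidHom.zero_apply, add_zero, cos_zero] at N3
  have nd := e.nd (2 * ρ) _ (by omega) s1
  have E1' := one_le_E0 (show 1 ≤ ρ by omega)
  rw [E0] at nd E1' V1
  generalize ∑ x ∈ bl 0 (2 * ρ), Xi.chi ρ x * A0 (Xi.chi ρ) x = A at nd E1' V1 N3
  generalize E.ω' (fun s => X (Xi.chi ρ) s * X (Xi.chi ρ) s) = B at nd V1
  generalize E.ω' (fun s => X (Xi.chi ρ) s * X (Xi.chi (8 * ρ)) s) = B' at S1 V1
  generalize E.ω (fun s => X (Xi.chi ρ) s * X (Xi.chi ρ) s) = Q at nd N3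
  have ε1 : C₄ * (M ^ n₄ * Y ^ (1 / 4 : ℝ) + 1 / M) ≤ 1 / 8 := by
    have a : Y ^ (1 / 4 : ℝ) ≤ t := by
      refine (rpow_le_rpow Y0 (pw 4 (by omega)).1 (by norm_num)).trans_eq ?_
      rw [← rpow_natCast, ← rpow_mul t0.le]; norm_num
    have a2 := mul_le_mul_of_nonneg_left a k2
    have a3 : 16 * (C₄ * M ^ n₄) * t ≤ 1 := le (by linarith)
    have a4 : C₄ * (1 / M) ≤ 1 / 16 := by rw [mul_one_div, div_le_iff₀ (by linarith)]; linarith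
    linarith
  exact num E1' g1 (N3.trans ε1) e.mem.ok.pos e.mem.tau_le (by linarith) nd κ0 κ1
    (S1.trans (mul_le_mul_of_nonneg_left (pow_le_pow_of_le_one t0.le t1 (by norm_num)) (by linarith [b.P1])))
    (V1.trans (mul_le_mul_of_nonneg_right (mul_le_mul_of_nonneg_right (by linarith) Y0) hK.1))

end Crest.Agent.T145.Ev
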