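import Crest.Agent.T145.NcBas_78

/-!
# Row 145, flow calculus, part A (helper4): the `L¹` norm of a conditional expectation, any model
-/

set_option autoImplicit false
set_option linter.unusedSectionVars false

namespace Crest.Agent.T145.FlF4

open Finset

section gen
variable {V : Type} [DecidableEq V]

/-- `E_m |E_m[H | off B]|` -/
noncomputable def nc (m : Mdl V) (B : Finset V) (H : Cfg V → ℝ) : ℝ :=
  Ex (m.W 0) fun s => |m.cE B H s|

variable {m : Mdl V} {B B' : Finset V} {H H' G : Cfg V → ℝ}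

theorem cE_add' {s : Cfg V} (h : Ig ((m.free B).W s) H) (h' : Ig ((m.free B).W s) H') :
    m.cE B (fun t => H t + H' t) s = m.cE B H s + m.cE B H' s := Ex_add h h'

theorem cE_sub' {s : Cfg V} (h : Ig ((m.free B).W s) H) (h' : Ig ((m.free B).W s) H') :
    m.cE B (fun t => H t - H' t) s = m.cE B H s - m.cE B H' s := Ex_sub h h'

theorem cE_smul' (m : Mdl V) (B : Finset V) (c : ℝ) (H : Cfg V → ℝ) (s : Cfg V) :
    m.cE B (fun t => c * H t) s = c * m.cE B H s := Ex_const_mul _ _ _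

theorem nc_congr (h : ∀ s, m.W 0 s ≠ 0 → m.cE B H s = m.cE B H' s) : nc m B H = nc m B H' :=
  Ex_congr fun s hs => by rw [h s hs]

theorem nc_smul (m : Mdl V) (B : Finset V) (c : ℝ) (H : Cfg V → ℝ) :
    nc m B (fun t => c * H t) = |c| * nc m B H := by
  simp only [nc, cE_smul', abs_mul]; exact Ex_const_mul _ _ _

theorem nc_neg (m : Mdl V) (B : Finset V) (H : Cfg V → ℝ) : nc m B (fun t => -H t) = nc m B H := by
  have := nc_smul m B (-1) H
  simpa using this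

theorem nc_zero (m : Mdl V) (B : Finset V) : nc m B (fun _ => 0) = 0 := by
  simp [nc, Mdl.cE]

theorem nc_sub_comm (m : Mdl V) (B : Finset V) (H H' : Cfg V → ℝ) :
    nc m B (fun t => H t - H' t) = nc m B (fun t => H' t - H t) := by
  rw [← nc_neg]; simp only [neg_sub]

theorem nc_out_mul (hG : Out B G) (H : Cfg V → ℝ) :
    nc m B (fun t => G t * H t) = Ex (m.W 0) fun s => |G s| * |m.cE B H s| := by
  simp only [nc, Mdl.cE_out_mul hG, abs_mul]

section ca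
variable (hc : m.Ctr) (ha : m.Anch)
include hc ha

theorem nc_nonneg (B : Finset V) (H : Cfg V → ℝ) : 0 ≤ nc m B H :=
  Ex_nonneg (hc.wt ha 0).nonneg fun _ _ => abs_nonneg _

theorem ig_tame (hH : Tame H) : Ig (m.W 0) H := (hc.cen ha).ig hH

variable (hB : B ⊆ m.A)
include hB

theorem wt_fibre (s : Cfg V) : Wt ((m.free B).W s) := (hc.free hB).wt (ha.free hB) s

theorem ig_fibre (hH : Tame H) (s : Cfg V) : Ig ((m.free B).W s) H :=
  ((hc.free hB).se (ha.free hB) s).ig hH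

theorem ig_cE (hH : Ig (m.W 0) H) : Ig (m.W 0) (m.cE B H) :=
  (Mdl.tower_cE hB (hc.wt ha 0) hH).1

theorem ex_cE (hH : Ig (m.W 0) H) : Ex (m.W 0) (m.cE B H) = Ex (m.W 0) H :=
  (Mdl.tower_cE hB (hc.wt ha 0) hH).2.symm

theorem ig_abs_cE (hH : Ig (m.W 0) H) : Ig (m.W 0) fun s => |m.cE B H s| :=
  (ig_cE hc ha hB hH).abs (hc.wt ha 0).nonneg

theorem abs_ex_le_nc (hH : Ig (m.W 0) H) : |Ex (m.W 0) H| ≤ nc m B H := by
  rw [← ex_cE hc ha hB hH]
  exact abs_Ex_le (hc.wt ha 0).nonneg (ig_cE hc ha hB hH)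

theorem nc_le_ex_abs (hH : Ig (m.W 0) H) : nc m B H ≤ Ex (m.W 0) fun s => |H s| := by
  have hW := hc.wt ha 0
  have h1 := hH.abs hW.nonneg
  rw [← ex_cE hc ha hB h1]
  exact Ex_mono' hW.nonneg (ig_abs_cE hc ha hB hH) (ig_cE hc ha hB h1) fun s hs =>
    Mdl.abs_cE_le (wt_fibre hc ha hB s).nonneg (Mdl.ig_fib' hB hs hH)

theorem nc_le_ex (hG : Ig (m.W 0) G) (h : ∀ s, m.W 0 s ≠ 0 → |H s| ≤ G s) :
    Ig (m.W 0) H ∧ nc m B H ≤ Ex (m.W 0) G := by
  have hW := hc.wt ha 0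
  have hH : Ig (m.W 0) H := Ig.of_abs_le hW.nonneg hG h
  exact ⟨hH, (nc_le_ex_abs hc ha hB hH).trans (Ex_mono' hW.nonneg (hH.abs hW.nonneg) hG h)⟩

theorem nc_le_of_bdd {K : ℝ} (h : ∀ s, |H s| ≤ K) : nc m B H ≤ K :=
  (nc_le_ex hc ha hB ((hc.wt ha 0).ig_const K) fun s _ => h s).2.trans_eq ((hc.wt ha 0).ex_const K)

theorem nc_const (c : ℝ) : nc m B (fun _ => c) = |c| := by
  have : nc m B (fun _ => c) = Ex (m.W 0) fun _ => |c| :=
    Ex_congr fun s _ => by rw [Mdl.cE_def, (wt_fibre hc ha hB s).ex_const]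
  rw [this, (hc.wt ha 0).ex_const]

theorem nc_of_out (hG : Out B G) : nc m B G = Ex (m.W 0) fun s => |G s| :=
  Ex_congr fun s _ => by rw [Mdl.cE_of_out hG (wt_fibre hc ha hB s)]

theorem nc_add_le (hH : Ig (m.W 0) H) (hH' : Ig (m.W 0) H') :
    nc m B (fun t => H t + H' t) ≤ nc m B H + nc m B H' := by
  have hW := hc.wt ha 0
  unfold nc
  rw [← Ex_add (ig_abs_cE hc ha hB hH) (ig_abs_cE hc ha hB hH')]
  refine Ex_mono' hW.nonneg (ig_abs_cE hc ha hB (hH.add hH'))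
    ((ig_abs_cE hc ha hB hH).add (ig_abs_cE hc ha hB hH')) fun s hs => ?_
  rw [cE_add' (Mdl.ig_fib' hB hs hH) (Mdl.ig_fib' hB hs hH')]
  exact abs_add_le _ _

theorem nc_sub_le (hH : Ig (m.W 0) H) (hH' : Ig (m.W 0) H') :
    nc m B (fun t => H t - H' t) ≤ nc m B H + nc m B H' := by
  have := nc_add_le hc ha hB hH hH'.neg
  rw [nc_neg] at this
  simpa only [sub_eq_add_neg] using this

theorem nc_tri {H'' : Cfg V → ℝ} (hH : Ig (m.W 0) H) (hH' : Ig (m.W 0) H') (hH'' : Ig (m.W 0) H'') :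
    nc m B (fun t => H t - H'' t) ≤ nc m B (fun t => H t - H' t) + nc m B fun t => H' t - H'' t := by
  have := nc_add_le hc ha hB (hH.sub hH') (hH'.sub hH'')
  simpa only [sub_add_sub_cancel] using this

theorem nc_sum_le {ι : Type*} (T : Finset ι) {F : ι → Cfg V → ℝ} (h : ∀ i ∈ T, Ig (m.W 0) (F i)) :
    nc m B (fun t => ∑ i ∈ T, F i t) ≤ ∑ i ∈ T, nc m B (F i) := by
  classical
  induction T using Finset.induction_on with
  | empty => simp [nc_zero]
  | insert i T hi ih =>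
    simp only [sum_insert hi]
    have h' : ∀ j ∈ T, Ig (m.W 0) (F j) := fun j hj => h j (mem_insert_of_mem hj)
    exact (nc_add_le hc ha hB (h i (mem_insert_self _ _)) (Ig.sum T h')).trans
      (add_le_add le_rfl (ih h'))

/-- conditioning twice -/
theorem cE_cE_supp (hBB : B' ⊆ B) (hH : Ig (m.W 0) H) {s : Cfg V} (hs : m.W 0 s ≠ 0) :
    m.cE B (m.cE B' H) s = m.cE B H s :=
  (Mdl.cE_cE hBB (wt_fibre hc ha hB s) (Mdl.ig_fib' hB hs hH)).2

theorem nc_cE (hBB : B' ⊆ B) (hH : Ig (m.W 0) H) : nc m B (m.cE B' H) = nc m B H :=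
  nc_congr fun _ hs => cE_cE_supp hc ha hB hBB hH hs

/-- the larger the set, the smaller the norm -/
theorem nc_anti (hBB : B' ⊆ B) (hH : Ig (m.W 0) H) : nc m B H ≤ nc m B' H := by
  rw [← nc_cE hc ha hB hBB hH]
  exact nc_le_ex_abs hc ha hB (ig_cE hc ha (hBB.trans hB) hH)

theorem nc_out_mul_le (hG : Out B G) {K : ℝ} (hK : ∀ s, |G s| ≤ K) (hH : Ig (m.W 0) H) :
    nc m B (fun t => G t * H t) ≤ K * nc m B H := by
  have hW := hc.wt ha 0
  have h1 := ig_abs_cE hc ha hB hH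
  rw [nc_out_mul hG, nc, ← Ex_const_mul]
  refine Ex_mono hW.nonneg (h1.bdd_mul hW.nonneg (C := K) fun s => by rw [abs_abs]; exact hK s)
    (h1.const_mul K) fun s => mul_le_mul_of_nonneg_right (hK s) (abs_nonneg _)

/-- a bounded multiplier read off a smaller set -/
theorem nc_mul_le (hBB : B' ⊆ B) (hG : Out B' G) {K : ℝ} (hK : ∀ s, |G s| ≤ K) (hH : Ig (m.W 0) H) :
    nc m B (fun t => G t * H t) ≤ K * nc m B' H :=
  (nc_anti hc ha hB hBB (hH.bdd_mul (hc.wt ha 0).nonneg hK)).trans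
    (nc_out_mul_le hc ha (hBB.trans hB) hG hK hH)

/-- test against a bounded function read off `B` -/
theorem abs_ex_mul_le (hG : Out B G) {K : ℝ} (hK : ∀ s, |G s| ≤ K) (hH : Ig (m.W 0) H) :
    |Ex (m.W 0) fun t => H t * G t| ≤ K * nc m B H := by
  simp only [mul_comm (H _)]
  exact (abs_ex_le_nc hc ha hB (hH.bdd_mul (hc.wt ha 0).nonneg hK)).trans
    (nc_out_mul_le hc ha hB hG hK hH)

/-- the dual form of the norm -/
theorem nc_dual (hH : Ig (m.W 0) H) :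
    nc m B H = Ex (m.W 0) fun t => H t * (SignType.sign (m.cE B H t) : ℝ) := by
  have hW := hc.wt ha 0
  have hO : Out B fun t => (SignType.sign (m.cE B H t) : ℝ) :=
    (Mdl.cE_out m B H).comp fun x => (SignType.sign x : ℝ)
  have hb : ∀ t, |(SignType.sign (m.cE B H t) : ℝ)| ≤ 1 := fun t => by
    rcases lt_trichotomy (m.cE B H t) 0 with h | h | h
    · simp [sign_neg h]
    · simp [h]
    · simp [sign_pos h]
  have h1 := (Mdl.tower_cE_mul hB hO hW (hH.bdd_mul hW.nonneg hb)).2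
  simp only [mul_comm (H _)]
  rw [h1]
  exact Ex_congr fun s _ => by rw [sign_mul_self]

theorem exists_dual (hH : Ig (m.W 0) H) : ∃ σ : Cfg V → ℝ, Out B σ ∧ (∀ s, |σ s| ≤ 1) ∧
    nc m B H = Ex (m.W 0) fun t => H t * σ t :=
  ⟨fun t => (SignType.sign (m.cE B H t) : ℝ), (Mdl.cE_out m B H).comp fun x => (SignType.sign x : ℝ),
    fun t => by
      rcases lt_trichotomy (m.cE B H t) 0 with h | h | h
      · simp [sign_neg h]
      · simp [h]
      · simp [sign_pos h], nc_dual hc ha hB hH⟩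

omit hB in
theorem nc_self (H : Cfg V → ℝ) : nc m m.A H = |Ex (m.W 0) H| := by
  have : nc m m.A H = Ex (m.W 0) fun _ => |Ex (m.W 0) H| := Ex_congr fun s hs => by
    rw [Mdl.cE_self, m.W_congr (η' := 0) fun x hx => Mdl.W_ne_zero hs hx]
  rw [this, (hc.wt ha 0).ex_const]

end ca

/-- replace every factor of a product by its conditional expectation -/
theorem repl {ι : Type*} (I : Finset ι) {Q : ι → Finset V} {F : ι → Cfg V → ℝ} {η : Cfg V}
    (hW : Wt (m.W η)) (hQ : ∀ i ∈ I, Q i ⊆ m.A)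
    (hF : ∀ i ∈ I, ∀ j ∈ I, i ≠ j → Out (Q j) (F i) ∧ Out (Q j) (m.cE (Q i) (F i)))
    {Z : Cfg V → ℝ} (hZ : ∀ i ∈ I, Out (Q i) Z) (hI : Ig (m.W η) fun s => Z s * ∏ i ∈ I, F i s) :
    Ig (m.W η) (fun s => Z s * ∏ i ∈ I, m.cE (Q i) (F i) s) ∧
      Ex (m.W η) (fun s => Z s * ∏ i ∈ I, F i s) =
        Ex (m.W η) fun s => Z s * ∏ i ∈ I, m.cE (Q i) (F i) s := by
  classical
  induction I using Finset.induction_on generalizing Z with
  | empty => exact ⟨hI, rfl⟩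
  | insert i I hi ih =>
    have hne : ∀ j ∈ I, i ≠ j := fun j hj e => hi (e ▸ hj)
    have h1 := ih (Z := fun s => Z s * F i s) (fun j hj => hQ j (mem_insert_of_mem hj))
      (fun j hj k hk => hF j (mem_insert_of_mem hj) k (mem_insert_of_mem hk))
      (fun j hj => (hZ j (mem_insert_of_mem hj)).mul
        (hF i (mem_insert_self _ _) j (mem_insert_of_mem hj) (hne j hj)).1)
      (hI.congr fun s _ => by rw [prod_insert hi, mul_assoc])
    have hO : Out (Q i) fun s => Z s * ∏ j ∈ I, m.cE (Q j) (F j) s :=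
      (hZ i (mem_insert_self _ _)).mul (Out.prod fun j hj =>
        (hF j (mem_insert_of_mem hj) i (mem_insert_self _ _) (hne j hj).symm).2)
    have h2 := Mdl.tower_cE_mul (hQ i (mem_insert_self _ _)) hO hW (F := F i)
      (h1.1.congr fun s _ => by ring)
    simp only [prod_insert hi]
    refine ⟨h2.1.congr fun s _ => by ring, ?_⟩
    calc _ = Ex (m.W η) fun s => Z s * F i s * ∏ j ∈ I, F j s := Ex_congr fun s _ => by ring
      _ = _ := h1.2
      _ = Ex (m.W η) fun s => (Z s * ∏ j ∈ I, m.cE (Q j) (F j) s) * F i s :=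
        Ex_congr fun s _ => by ring
      _ = _ := h2.2
      _ = _ := Ex_congr fun s _ => by ring

/-- the same under a conditional expectation -/
theorem nc_repl (hc : m.Ctr) (ha : m.Anch) (hB : B ⊆ m.A) {ι : Type*} (I : Finset ι)
    {Q : ι → Finset V} {F : ι → Cfg V → ℝ} (hQ : ∀ i ∈ I, Q i ⊆ B)
    (hF : ∀ i ∈ I, ∀ j ∈ I, i ≠ j → Out (Q j) (F i) ∧ Out (Q j) (m.cE (Q i) (F i)))
    {Z : Cfg V → ℝ} (hZ : ∀ i ∈ I, Out (Q i) Z) (hI : Ig (m.W 0) fun s => Z s * ∏ i ∈ I, F i s) :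
    Ig (m.W 0) (fun s => Z s * ∏ i ∈ I, m.cE (Q i) (F i) s) ∧
      nc m B (fun s => Z s * ∏ i ∈ I, F i s) =
        nc m B fun s => Z s * ∏ i ∈ I, m.cE (Q i) (F i) s :=
  ⟨(repl I (hc.wt ha 0) (fun i hi => (hQ i hi).trans hB) hF hZ hI).1, nc_congr fun s hs =>
    (repl (m := m.free B) I (wt_fibre hc ha hB s) hQ hF hZ (Mdl.ig_fib' hB hs hI)).2⟩

/-- mean value inequality in the norm -/
theorem nc_mvt (hc : m.Ctr) (ha : m.Anch) (hB : B ⊆ m.A) {Φ Φ' : ℝ → Cfg V → ℝ} {K : ℝ}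
    (hd : ∀ s t, HasDerivAt (fun y => Φ y s) (Φ' t s) t) (hG : Ig (m.W 0) G)
    (hb : ∀ s, ∀ t ∈ Set.Ioo (-1 : ℝ) 2, |Φ' t s| ≤ G s) (h0 : ∀ t, Ig (m.W 0) (Φ t))
    (hK : ∀ t ∈ Set.Icc (0 : ℝ) 1, nc m B (Φ' t) ≤ K) : nc m B (fun s => Φ 1 s - Φ 0 s) ≤ K := by
  have hW := hc.wt ha 0
  obtain ⟨σ, hO, hσ, e⟩ := exists_dual hc ha hB ((h0 1).sub (h0 0))
  have hder : ∀ t ∈ Set.Icc (0 : ℝ) 1, HasDerivAt (fun y => Ex (m.W 0) fun s => Φ y s * σ s)
      (Ex (m.W 0) fun s => Φ' t s * σ s) t := fun t ht =>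
    hasDerivAt_Ex (Φ := fun y s => Φ y s * σ s) (Φ' := fun y s => Φ' y s * σ s) (ε := 1) hW.nonneg
      one_pos hG ((h0 t).mul_bdd hW.nonneg hσ) (fun s y _ => (hd s y).mul_const _) fun s y hy => by
        rw [abs_mul]
        have h1 := hb s y ⟨by linarith [hy.1, ht.1], by linarith [hy.2, ht.2]⟩
        exact (mul_le_mul h1 (hσ s) (abs_nonneg _) ((abs_nonneg _).trans h1)).trans_eq (mul_one _)
  have hbd : ∀ t ∈ Set.Icc (0 : ℝ) 1, ‖Ex (m.W 0) fun s => Φ' t s * σ s‖ ≤ K := fun t ht => by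
    have h1 : Ig (m.W 0) (Φ' t) := Ig.of_abs_le hW.nonneg hG fun s _ =>
      hb s t ⟨by linarith [ht.1], by linarith [ht.2]⟩
    have := abs_ex_mul_le hc ha hB hO hσ h1
    rw [one_mul] at this
    exact this.trans (hK t ht)
  have := norm_image_sub_le_of_norm_deriv_le_segment_01'
    (fun t ht => (hder t ht).hasDerivWithinAt) fun t ht => hbd t (Set.Ico_subset_Icc_self ht)
  rw [e]
  simp only [sub_mul]
  rw [Ex_sub ((h0 1).mul_bdd hW.nonneg hσ) ((h0 0).mul_bdd hW.nonneg hσ)]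
  exact (le_abs_self _).trans this

end gen

end Crest.Agent.T145.FlF4
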