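import Crest.Agent.T145.FlDef_82
import Crest.Agent.T145.FlOde_64
import Crest.Agent.T145.FlFusA_4
import Crest.Agent.T145.OmB_11

/-!
# Row 145, odd flow: neutral charges are Gaussian (NEU) (helper31)
-/

set_option autoImplicit false

namespace Crest.Agent.T145.Fl

open Finset Pot Xi Real

namespace N31

theorem cw_bd {w : ℕ} (hw : 1 ≤ w) : 0 < cw w ∧ cw w ≤ 1 := by
  have h1 : (1 : ℝ) ≤ (w : ℝ) ^ 4 := one_le_pow₀ (by exact_mod_cast hw)
  have h2 : log 2 ≤ log (4 * (w : ℝ) ^ 4) := log_le_log two_pos (by linarith)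
  have h3 : 0 < log 2 := log_pos one_lt_two
  exact ⟨div_pos h3 (h3.trans_le h2), (div_le_one (h3.trans_le h2)).2 h2⟩

theorem ew_bd {w : ℕ} (hw : 1 ≤ w) : 0 < ew w ∧ ew w ≤ 1 / 100 := by
  have := cw_bd hw
  unfold ew
  constructor <;> linarith [this.1, this.2]

/-- `M ^ (2 ε) ≤ M` -/
theorem rpow_ew_le {w : ℕ} (hw : 1 ≤ w) {M : ℝ} (hM : 1 ≤ M) : M ^ (2 * ew w) ≤ M := by
  have := rpow_le_rpow_of_exponent_le hM (show 2 * ew w ≤ 1 by linarith [(ew_bd hw).2])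
  rwa [rpow_one] at this

theorem abs_cp_le (ξ : Pt → ℝ) (φ : ℝ) (s : Cfg Pt) : |cp ξ φ s| ≤ 1 := abs_cos_le_one _

theorem tame_cp (ξ : Pt → ℝ) (φ : ℝ) : Tame (cp ξ φ) := Tame.bdd (abs_cp_le ξ φ)

theorem cp_add_pi (ξ : Pt → ℝ) (φ : ℝ) (s : Cfg Pt) : cp ξ (φ + π) s = -cp ξ φ s := by
  simp only [cp, ← add_assoc, cos_add_pi]

theorem cp_zero (s : Cfg Pt) : cp 0 0 s = 1 := by simp [cp]

/-- an integer charge gives a function of the gradients -/
theorem depG_cp {U : Finset Pt} {ξ : Pt → ℝ} {q : ℤ} (h : Chq U ξ q) (φ : ℝ) : DepG U (cp ξ φ) :=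
  fun s s' k e => by
    have : pr ξ s' = pr ξ s + ((q * k : ℤ) : ℝ) := by
      simp only [pr_of_fsupp ξ _ h.1]
      rw [Int.cast_mul, ← h.2, Finset.sum_mul, ← Finset.sum_add_distrib]
      exact Finset.sum_congr rfl fun x hx => by rw [e x hx]; push_cast; ring
    unfold cp
    rw [this, show 2 * π * (pr ξ s + ((q * k : ℤ) : ℝ)) + φ =
      2 * π * pr ξ s + φ + ((q * k : ℤ) : ℝ) * (2 * π) by ring, cos_add_int_mul_two_pi]

theorem chq_zero (U : Finset Pt) : Chq U 0 0 := ⟨fun _ _ => rfl, by simp⟩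

theorem chq_add {c : Pt} {n N : ℕ} {ζ v : Pt → ℝ} {q : ℤ} (h : Chq (bl c N) ζ q)
    (hv : Pot.Sup (bl c n) v) (hn : n + 1 ≤ N) (t : ℝ) : Chq (bl c N) (ζ + t • A0 v) q := by
  refine ⟨fun x hx => ?_, ?_⟩
  · have := sup_A0 hv x fun hx' => hx (bl_mono c hn hx')
    simp [h.1 x hx, this]
  · simp only [Pi.add_apply, Pi.smul_apply, smul_eq_mul, Finset.sum_add_distrib, ← Finset.mul_sum,
      sum_A0 hn hv, h.2, mul_zero, add_zero]

section rep
variable {Λ : Lat} {ω : (Cfg Pt → ℝ) → ℝ} {m : Mdl Pt} {c : Pt} {N : ℕ}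

theorem rep_neg (hR : Rep Λ ω m c N) {F : Cfg Pt → ℝ} (hF : DepG (bl c N) F) :
    ω (fun s => -F s) = -ω F := by
  rw [hR.2 _ (hF.comp fun x => -x), hR.2 _ hF, Ex_neg]

theorem rep_const (hR : Rep Λ ω m c N) (a : ℝ) : ω (fun _ => a) = a := by
  rw [hR.2 _ (DepG.const _ a), (hR.1.ctr.wt hR.1.anch 0).ex_const]

theorem rep_abs_le (hR : Rep Λ ω m c N) {F : Cfg Pt → ℝ} (hF : DepG (bl c N) F) {a : ℝ}
    (h : ∀ s, |F s| ≤ a) : |ω F| ≤ a := by
  rw [hR.2 _ hF]; exact (hR.1.ctr.wt hR.1.anch 0).abs_ex_le fun s _ => h s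

/-- **differentiation along a neutral deformation of the charge** -/
theorem der (hR : Rep Λ ω m c N) {F : Cfg Pt → ℝ} (hF : DepG (bl c N) F) (hT : Tame F)
    {ζ v : Pt → ℝ} {q : ℤ} {n : ℕ} (hq : Chq (bl c N) ζ q) (hv : Pot.Sup (bl c n) v) (hn : n + 1 ≤ N)
    (φ t : ℝ) :
    HasDerivAt (fun t : ℝ => ω fun s => F s * cp (ζ + t • A0 v) φ s)
      (2 * π * ∑ z ∈ bl c n, v z * ω fun s => F s * Jz z s * cp (ζ + t • A0 v) (φ + π / 2) s) t := by
  have hc := hR.1.ctr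
  have ha := hR.1.anch
  have hW := hc.wt ha 0
  have e1 : (fun t : ℝ => ω fun s => F s * cp (ζ + t • A0 v) φ s) =
      fun t : ℝ => Ex (m.W 0) fun s => F s * cp (ζ + t • A0 v) φ s :=
    funext fun t => hR.2 _ (hF.mul (depG_cp (chq_add hq hv hn t) φ))
  have hJ : ∀ z ∈ bl c n, DepG (bl c N) (Jz z) := fun z hz =>
    (Om.depG_Jz z).mono (bl_subset_bl hz (by omega))
  have e2 : (2 * π * ∑ z ∈ bl c n, v z * ω fun s => F s * Jz z s * cp (ζ + t • A0 v) (φ + π / 2) s) =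
      Ex (m.W 0) fun s => 2 * π * (F s * pr (A0 v) s * cp (ζ + t • A0 v) (φ + π / 2) s) := by
    rw [Ex_const_mul]
    congr 1
    have : (fun s => F s * pr (A0 v) s * cp (ζ + t • A0 v) (φ + π / 2) s) = fun s =>
        ∑ z ∈ bl c n, v z * (F s * Jz z s * cp (ζ + t • A0 v) (φ + π / 2) s) := funext fun s => by
      rw [pr_A0 hv, Finset.mul_sum, Finset.sum_mul]
      exact Finset.sum_congr rfl fun z _ => by ring
    rw [this, Ex_sum _ fun z _ => FlF4.ig_tame hc ha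
      (((hT.mul (Om.tame_Jz z)).mul (tame_cp _ _)).const_mul _)]
    refine Finset.sum_congr rfl fun z hz => ?_
    rw [Ex_const_mul, hR.2 _ ((hF.mul (hJ z hz)).mul (depG_cp (chq_add hq hv hn t) _))]
  rw [e1, e2]
  refine hasDerivAt_Ex (ε := 1) (B := fun s => 2 * π * |F s * pr (A0 v) s|)
    (Φ := fun t s => F s * cp (ζ + t • A0 v) φ s)
    (Φ' := fun t s => 2 * π * (F s * pr (A0 v) s * cp (ζ + t • A0 v) (φ + π / 2) s)) hW.nonneg one_pos
    (FlF4.ig_tame hc ha ((hT.mul (Tame.hom _)).abs.const_mul _))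
    (FlF4.ig_tame hc ha (hT.mul (tame_cp _ _))) (fun s y _ => ?_) fun s y _ => ?_
  · have e : ∀ y : ℝ, pr (ζ + y • A0 v) s = pr ζ s + y * pr (A0 v) s := fun y => by
      rw [pr_add, pr_smul]; rfl
    simp only [cp, e, ← add_assoc, cos_add_pi_div_two]
    have h1 : HasDerivAt (fun y : ℝ => 2 * π * (pr ζ s + y * pr (A0 v) s) + φ) (2 * π * pr (A0 v) s) y := by
      simpa using ((((hasDerivAt_id y).mul_const (pr (A0 v) s)).const_add (pr ζ s)).const_mul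
        (2 * π)).add_const φ
    exact (h1.cos.const_mul (F s)).congr_deriv (by ring)
  · rw [abs_mul, abs_of_pos two_pi_pos, abs_mul]
    exact mul_le_mul_of_nonneg_left (mul_le_of_le_one_right (abs_nonneg _) (abs_cp_le _ _ _))
      two_pi_pos.le

end rep

/-- **Duhamel, backward form**: `M` bounds the exponent `-∫_t^1 (α + β s) ds` -/
theorem duh_back {f f' : ℝ → ℝ} {α β E M : ℝ} (hf : ∀ t ∈ Set.Icc (0 : ℝ) 1, HasDerivAt f (f' t) t)
    (he : ∀ t ∈ Set.Icc (0 : ℝ) 1, |f' t + (α + β * t) * f t| ≤ E)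
    (hM : ∀ t ∈ Set.Icc (0 : ℝ) 1, exp (α * (t - 1) + β * (t ^ 2 - 1) / 2) ≤ M) :
    |f 1 - exp (-(α + β / 2)) * f 0| ≤ M * E := by
  obtain ⟨t, ht, e⟩ := duh_mvt α β hf
  have ht' := Set.Ioo_subset_Icc_self ht
  have e' : f 1 - exp (-(α + β / 2)) * f 0 =
      exp (α * (t - 1) + β * (t ^ 2 - 1) / 2) * (f' t + (α + β * t) * f t) := by
    have : f 1 - exp (-(α + β / 2)) * f 0 = exp (-(α + β / 2)) * (exp (α + β / 2) * f 1 - f 0) := by
      rw [mul_sub, ← mul_assoc, ← exp_add]; simp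
    rw [this, e, ← mul_assoc, ← exp_add]
    congr 2; ring
  rw [e', abs_mul, abs_of_pos (exp_pos _)]
  exact mul_le_mul (hM t ht') (he t ht') (abs_nonneg _) ((exp_pos _).le.trans (hM t ht'))

/-- the signed form for `α = 0` -/
theorem duh_max {f f' : ℝ → ℝ} {β E : ℝ} (hf : ∀ t ∈ Set.Icc (0 : ℝ) 1, HasDerivAt f (f' t) t)
    (he : ∀ t ∈ Set.Icc (0 : ℝ) 1, |f' t + β * t * f t| ≤ E) :
    |f 1 - exp (-(β / 2)) * f 0| ≤ max 1 (exp (-(β / 2))) * E := by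
  have := duh_back (α := 0) (β := β) (M := max 1 (exp (-(β / 2)))) hf (by simpa using he) fun t ht => by
    have h1 : t ^ 2 ≤ 1 := pow_le_one₀ ht.1 ht.2
    rcases le_total 0 β with h | h
    · exact (exp_le_one_iff.2 (by nlinarith)).trans (le_max_left _ _)
    · exact (exp_le_exp.2 (by nlinarith [sq_nonneg t])).trans (le_max_right _ _)
  simpa using this

/-- `g` varies little between two scales near `R` (no order) -/
theorem gk_near {p : Par} {C : ℝ} {ω : (Cfg Pt → ℝ) → ℝ} {L : ℕ} {R Y : ℝ}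
    (h : ∀ a b M : ℝ, 1 ≤ M → 1 ≤ a → a ≤ b → R / M ≤ a → b ≤ M * R → 2 * b + 1 ≤ L →
      |gk ω b - gk ω a| ≤ C * Y ^ 2 * M ^ (2 * ew p.w))
    {a M : ℝ} (hM : 1 ≤ M) (hR : 1 ≤ R) (ha : 1 ≤ a) (h1 : R / M ≤ a) (h2 : a ≤ M * R)
    (hL : 2 * a + 1 ≤ L) (hL' : 2 * R + 1 ≤ L) : |gk ω a - gk ω R| ≤ C * Y ^ 2 * M ^ (2 * ew p.w) := by
  rcases le_total a R with h3 | h3
  · rw [abs_sub_comm]; exact h a R M hM ha h3 h1 (le_mul_of_one_le_left (by linarith) hM) hL'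
  · exact h R a M hM hR h3 (div_le_self (by linarith) hM) h2 hL

theorem lr_of_sm {v : Pt → ℝ} {σ : ℝ} {r : ℕ} (h : Sm 3 Set.univ σ r v) (z : Pt) :
    Lr (A0 v) v z r σ :=
  ⟨(abs_nonneg _).trans (h.zero (Set.mem_univ z)), fun y _ => ⟨rfl, fun e he e' he' =>
    ⟨h [e, e'] (by simp) (by simp [he, he']) y trivial, fun e'' he'' =>
      h [e, e', e''] (by simp) (by simp [he, he', he'']) y trivial⟩⟩⟩

theorem abs_A0_sm {v : Pt → ℝ} {σ ℓ : ℝ} (h : Sm 3 Set.univ σ ℓ v) (hℓ : 0 < ℓ) (z : Pt) :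
    |A0 v z| ≤ 2 * (σ / ℓ ^ 2) := by
  rw [A0_apply, abs_neg]
  exact (h.mono (by norm_num) subset_rfl le_rfl hℓ).abs_lap fun _ _ => trivial

theorem far_empty (p : Par) (L : ℕ) (U : Finset Pt) :
    Far p L U (∅ : Finset Unit) (fun _ => 0) (fun _ => 0) fun _ _ => 1 :=
  ⟨by simp, by simp, by simp, by simp, by simp⟩

end N31

open N31 in
/-- NEU -/
theorem neuStmt (hLj : LjStmt) (hKb : KbStmt) : NeuStmt := fun p => by
  obtain ⟨C₁, hC₁, hl⟩ := hLj p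
  obtain ⟨C₂, hC₂, hk⟩ := hKb p
  refine ⟨600 + C₁ + 36 * π * C₁ + 43200 * π ^ 2 * C₂, by positivity, ?_⟩
  intro Λ ω L N hE R Y M hY hY1 hM hRL r b σ v hr hRr hrM hbM hrL hbN hv hs
  have hw4 := hE.w4
  have hw : 1 ≤ p.w := by omega
  have hR1 : 1 ≤ R := hY.1
  have hY0 : 0 ≤ Y := (rpow_nonneg (by linarith) _).trans hY.2.1
  have hp : 0 ≤ 36 * π * C₁ + 43200 * π ^ 2 * C₂ := by positivity
  have hr6 : (600 : ℝ) ≤ r := by linarith
  have hr0 : (0 : ℝ) < r := by linarith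
  have hσ : 0 ≤ σ := (abs_nonneg _).trans (hs.zero (Set.mem_univ 0))
  have hM0 : 0 < M := by linarith
  obtain ⟨m, hm⟩ := hE.amb 0
  have hb1 : b + 1 ≤ N := by omega
  have hq : ∀ t : ℝ, Chq (bl 0 N) (0 + t • A0 v) 0 := chq_add (chq_zero _) hv hb1
  set g := gk ω R with hg
  set E := E0 (bl 0 b) v with hE0
  -- the size of the support
  have hcard : ((bl (0 : Pt) b).card : ℝ) / (r : ℝ) ^ 2 ≤ 9 * M ^ 4 := by
    have h1 : R ≤ M * r := by rwa [div_le_iff₀' hM0] at hRr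
    have h2 : (b : ℝ) ≤ M ^ 2 * r := by nlinarith
    have h3 : (1 : ℝ) ≤ M ^ 2 * r := by nlinarith [one_le_pow₀ (n := 2) hM]
    rw [card_bl, div_le_iff₀ (by positivity)]
    push_cast
    calc (2 * (b : ℝ) + 1) ^ 2 ≤ (3 * (M ^ 2 * r)) ^ 2 := by gcongr; linarith
      _ = _ := by ring
  have hsum : ∀ K : ℝ, 0 ≤ K → ∀ u : Pt → ℝ, (∀ z ∈ bl (0 : Pt) b, |u z| ≤ K / (r : ℝ) ^ 2) →
      |∑ z ∈ bl 0 b, v z * u z| ≤ 9 * M ^ 4 * σ * K := fun K hK u hu => by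
    refine (Finset.abs_sum_le_sum_abs _ _).trans ?_
    refine (Finset.sum_le_card_nsmul _ _ (σ * (K / (r : ℝ) ^ 2)) fun z hz => ?_).trans ?_
    · rw [abs_mul]; exact mul_le_mul (hs.zero (Set.mem_univ z)) (hu z hz) (abs_nonneg _) hσ
    · rw [nsmul_eq_mul]
      calc _ = ((bl (0 : Pt) b).card : ℝ) / (r : ℝ) ^ 2 * σ * K := by ring
        _ ≤ _ := by gcongr
  have hEb : |E| ≤ 9 * M ^ 4 * σ * (2 * σ) := hsum _ (by positivity) _ fun z _ =>
    (abs_A0_sm hs hr0 z).trans_eq (by ring)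
  -- the stiffness at the scale `r / 600`
  have hgg : |gk ω (r / 600) - g| ≤ C₂ * Y ^ 2 * (600 * M) := by
    have hwr : (4 : ℝ) * r ≤ L := by
      have : 4 * r ≤ L := (Nat.mul_le_mul_right r hw4).trans hrL
      exact_mod_cast this
    refine (gk_near (hk Λ ω L N hE R Y hY).2.2 (M := 600 * M) (by linarith) hR1
      (by rw [le_div_iff₀ (by norm_num)]; linarith) ?_ (by nlinarith) (by linarith) hRL).trans ?_
    · rw [mul_comm, ← div_div]; gcongr
    · exact mul_le_mul_of_nonneg_left (rpow_ew_le hw (by linarith)) (by positivity)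
  have key := duh_max (β := 4 * π ^ 2 * g * E)
    (E := (36 * π * C₁ + 43200 * π ^ 2 * C₂) * (1 + σ) ^ 3 * M ^ 5 * Y)
    (fun t _ => der hm (DepG.const _ (1 : ℝ)) (Tame.const 1) (chq_zero _) hv hb1 0 t) fun t ht => by
      simp only [one_mul, zero_add]
      have hq' : Chq (bl 0 N) (t • A0 v) 0 := by simpa using hq t
      set f := ω fun s => cp (t • A0 v) 0 s with hf
      have hf1 : |f| ≤ 1 := rep_abs_le hm (depG_cp hq' 0) (abs_cp_le _ _)
      have hpi : (ω fun s => cp (t • A0 v) (π / 2 + π / 2) s) = -f := by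
        rw [hf, ← rep_neg hm (depG_cp hq' 0)]
        congr 1; funext s; rw [add_halves, ← cp_add_pi, zero_add]
      have ht1 : |t| ≤ 1 := by rw [abs_of_nonneg ht.1]; exact ht.2
      have hst : Sm 3 Set.univ σ r (t • v) :=
        (hs.smul t).mono le_rfl subset_rfl (mul_le_of_le_one_left hσ ht1) hr0
      have hz : ∀ z ∈ bl (0 : Pt) b, |(ω fun s => Jz z s * cp (t • A0 v) (π / 2) s) +
          2 * π * gk ω (r / 600) * (t * A0 v z) * f| ≤ C₁ * (1 + σ) ^ 2 * M * (2 * Y) / (r : ℝ) ^ 2 := by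
        intro z hz
        have h := (hl Λ ω L N hE R Y M hY hM 0 Unit ∅ (fun _ => 0) (fun _ => 0) (fun _ _ => 1) z r σ
          (π / 2) (t • A0 v) (t • v) 0 (far_empty p L _) (by simp) hq' hrL
          (bl_subset_bl hz (by omega)) (by simp) (A0_smul t v ▸ lr_of_sm hst z) hrM).2 (by linarith) hRr
        simp only [Finset.prod_empty, one_mul, mul_one, hpi, Pi.smul_apply, smul_eq_mul, mul_neg,
          sub_neg_eq_add] at h
        refine h.trans ?_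
        have h2 : Y + Y ^ 2 ≤ 2 * Y := by nlinarith
        have h3 := rpow_ew_le hw hM
        gcongr
      have h1 := hsum _ (by positivity) _ hz
      have e : 2 * π * ∑ z ∈ bl (0 : Pt) b, v z * (ω fun s => Jz z s * cp (t • A0 v) (π / 2) s) +
          4 * π ^ 2 * g * E * t * f =
          2 * π * ∑ z ∈ bl (0 : Pt) b, v z * ((ω fun s => Jz z s * cp (t • A0 v) (π / 2) s) +
            2 * π * gk ω (r / 600) * (t * A0 v z) * f) -
          4 * π ^ 2 * ((gk ω (r / 600) - g) * E * (t * f)) := by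
        have : ∑ z ∈ bl (0 : Pt) b, v z * (2 * π * gk ω (r / 600) * (t * A0 v z) * f) =
            2 * π * gk ω (r / 600) * t * f * E := by
          rw [hE0, E0, Finset.mul_sum]; exact Finset.sum_congr rfl fun z _ => by ring
        simp only [mul_add, Finset.sum_add_distrib, this]
        ring
      rw [e]
      refine (abs_sub _ _).trans ?_
      rw [abs_mul, abs_mul (4 * π ^ 2), abs_of_pos two_pi_pos, abs_of_pos (by positivity : 0 < 4 * π ^ 2),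
        abs_mul, abs_mul, abs_mul]
      have a1 : σ * (1 + σ) ^ 2 ≤ (1 + σ) ^ 3 := by nlinarith [sq_nonneg (1 + σ)]
      have a2 : σ ^ 2 * Y ≤ (1 + σ) ^ 3 := by nlinarith [sq_nonneg σ, pow_nonneg hσ 3]
      calc _ ≤ 2 * π * (9 * M ^ 4 * σ * (C₁ * (1 + σ) ^ 2 * M * (2 * Y))) +
            4 * π ^ 2 * (C₂ * Y ^ 2 * (600 * M) * (9 * M ^ 4 * σ * (2 * σ)) * (1 * 1)) := by gcongr
        _ = 36 * π * C₁ * (σ * (1 + σ) ^ 2) * M ^ 5 * Y +
            43200 * π ^ 2 * C₂ * (σ ^ 2 * Y) * M ^ 5 * Y := by ring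
        _ ≤ 36 * π * C₁ * (1 + σ) ^ 3 * M ^ 5 * Y + 43200 * π ^ 2 * C₂ * (1 + σ) ^ 3 * M ^ 5 * Y := by
          gcongr
        _ = _ := by ring
  simp only [one_mul, zero_add, one_smul, zero_smul, cp_zero, rep_const hm, mul_one] at key
  rw [show -(4 * π ^ 2 * g * E / 2) = -2 * π ^ 2 * g * E by ring] at key
  refine key.trans ?_
  rw [mul_comm]
  have : 0 ≤ max 1 (exp (-2 * π ^ 2 * g * E)) := zero_le_one.trans (le_max_left _ _)
  gcongr
  linarith

end Crest.Agent.T145.Fl
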