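import Crest.Agent.T145.EvDef_2
import Crest.Agent.T145.FlEnv_30
import Crest.Agent.T145.FlBare_80
import Crest.Agent.T145.FlNeu_31

/-! # Row 145, even sector: Gaussian values with linear factors, by finite differences (helper75) -/

set_option autoImplicit false

namespace Crest.Agent.T145.Ev

open Finset Pot Xi Real Fl Fl.E30

namespace N75

theorem pt1 (θ a : ℝ) : |a * cos θ - (cos (θ + a - π / 2) - cos (θ - a - π / 2)) / 2| ≤ |a| ^ 3 / 6 := by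
  rw [cos_sub_pi_div_two, cos_sub_pi_div_two, sin_add, sin_sub,
    show ∀ x y z : ℝ, a * x - (y + x * z - (y - x * z)) / 2 = (a - z) * x from fun _ _ _ => by ring, abs_mul]
  exact (mul_le_of_le_one_right (abs_nonneg _) (abs_cos_le_one _)).trans (abs_sub_sin_le a)

theorem pt2 (θ a b : ℝ) : |a * b * cos θ +
    (cos (θ + a + b) - cos (θ + a - b) - cos (θ - a + b) + cos (θ - a - b)) / 4| ≤ (a ^ 4 + b ^ 4) / 6 := by
  have e : a * b * cos θ + (cos (θ + a + b) - cos (θ + a - b) - cos (θ - a + b) + cos (θ - a - b)) / 4 =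
      ((a - sin a) * b + sin a * (b - sin b)) * cos θ := by
    simp only [cos_add, cos_sub, sin_add, sin_sub]; ring
  rw [e, abs_mul]
  refine (mul_le_of_le_one_right (abs_nonneg _) (abs_cos_le_one _)).trans ((abs_add_le _ _).trans ?_)
  rw [abs_mul, abs_mul, ← Even.pow_abs (n := 4) (by decide) a, ← Even.pow_abs (n := 4) (by decide) b]
  have h1 := mul_le_mul_of_nonneg_right (abs_sub_sin_le a) (abs_nonneg b)
  have h2 := mul_le_mul (abs_sin_le_abs (x := a)) (abs_sub_sin_le b) (abs_nonneg _) (abs_nonneg _)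
  nlinarith [mul_nonneg (sq_nonneg (|a| - |b|)) (show 0 ≤ |a| ^ 2 + |a| * |b| + |b| ^ 2 by positivity)]

variable {p : Par} {Λ : Lat} {ω : Sta} {L N : ℕ} {c : Pt} {ζ η η' : Pt → ℝ} {q : ℤ} {m R M Y : ℝ}

/-- first central difference -/
theorem fd1 (h : Env p Λ ω L N) (hζ : Chq (bl c N) ζ q) (hη : Chq (bl c N) η 0)
    (h2 : ω (fun s => pr η s ^ 2) ≤ m) (h4 : ω (fun s => pr η s ^ 4) ≤ m) {t : ℝ} (ht : 0 ≤ t) (φ : ℝ) :
    |2 * π * t * ω (fun s => pr η s * cp ζ φ s) -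
      (ω (cp (ζ + t • η) (φ - π / 2)) - ω (cp (ζ + (-t) • η) (φ - π / 2))) / 2| ≤ (2 * π * t) ^ 3 * m / 6 := by
  have a := ins_pr hη
  have b := ins_mul a (ins_cp hζ φ)
  have d := fun t => ins_cp (chq_line hζ hη t) (φ - π / 2)
  rw [← h.ex_smul b.1, ← h.ex_sub (d _) (d _), div_eq_inv_mul, ← h.ex_smul (ins_sub (d _) (d _)).1,
    ← h.ex_sub (ins_smul b _) (ins_smul (ins_sub (d _) (d _)) _)]
  refine (h.abs_ex_le_ex (ins_sub (ins_smul b _) (ins_smul (ins_sub (d _) (d _)) _)).1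
    (ins_smul (ins_add (ins_pow a 2) (ins_pow a 4)) ((2 * π * t) ^ 3 / 12)) fun s => ?_).trans ?_
  · have := pt1 (2 * π * pr ζ s + φ) (2 * π * t * pr η s)
    rw [abs_mul (2 * π * t), abs_of_nonneg (show 0 ≤ 2 * π * t by positivity), mul_pow] at this
    refine le_of_eq_of_le ?_ (this.trans ?_)
    · simp only [cp, pr_add, pr_smul, AddMonoidHom.add_apply, AddMonoidHom.smul_apply, smul_eq_mul]
      congr 1; ring_nf
    · rw [← sq_abs (pr η s), ← Even.pow_abs (n := 4) (by decide) (pr η s)]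
      nlinarith [mul_nonneg (show 0 ≤ (2 * π * t) ^ 3 by positivity) (sq_nonneg (|pr η s| ^ 2 - |pr η s|))]
  · rw [h.ex_smul (ins_add (ins_pow a 2) (ins_pow a 4)).1, h.ex_add (ins_pow a 2) (ins_pow a 4)]
    nlinarith [mul_le_mul_of_nonneg_left (add_le_add h2 h4) (show 0 ≤ (2 * π * t) ^ 3 by positivity)]

/-- second mixed central difference -/
theorem fd2 (h : Env p Λ ω L N) (hζ : Chq (bl c N) ζ q) (hη : Chq (bl c N) η 0) (hη' : Chq (bl c N) η' 0)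
    (h4 : ω (fun s => pr η s ^ 4) ≤ m) (h4' : ω (fun s => pr η' s ^ 4) ≤ m) (t φ : ℝ) :
    |(2 * π * t) ^ 2 * ω (fun s => pr η s * pr η' s * cp ζ φ s) +
      (ω (cp (ζ + t • η + t • η') φ) - ω (cp (ζ + t • η + (-t) • η') φ) -
        ω (cp (ζ + (-t) • η + t • η') φ) + ω (cp (ζ + (-t) • η + (-t) • η') φ)) / 4| ≤
      (2 * π * t) ^ 4 * m / 3 := by
  have a := ins_pr hη
  have a' := ins_pr hη'
  have b := ins_mul (ins_mul a a') (ins_cp hζ φ)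
  have d := fun t t' => ins_cp (chq_line (chq_line hζ hη t) hη' t') φ
  have e := ins_add (ins_sub (ins_sub (d t t) (d t (-t))) (d (-t) t)) (d (-t) (-t))
  rw [← h.ex_smul b.1, ← h.ex_sub (d _ _) (d _ _), ← h.ex_sub (ins_sub (d _ _) (d _ _)) (d _ _),
    ← h.ex_add (ins_sub (ins_sub (d _ _) (d _ _)) (d _ _)) (d _ _), div_eq_inv_mul, ← h.ex_smul e.1,
    ← h.ex_add (ins_smul b _) (ins_smul e _)]
  refine (h.abs_ex_le_ex (ins_add (ins_smul b _) (ins_smul e _)).1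
    (ins_smul (ins_add (ins_pow a 4) (ins_pow a' 4)) ((2 * π * t) ^ 4 / 6)) fun s => ?_).trans ?_
  · refine le_of_eq_of_le ?_ ((pt2 (2 * π * pr ζ s + φ) (2 * π * t * pr η s) (2 * π * t * pr η' s)).trans_eq ?_)
    · simp only [cp, pr_add, pr_smul, AddMonoidHom.add_apply, AddMonoidHom.smul_apply, smul_eq_mul]
      congr 1; ring_nf
    · ring
  · rw [h.ex_smul (ins_add (ins_pow a 4) (ins_pow a' 4)).1, h.ex_add (ins_pow a 4) (ins_pow a' 4)]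
    nlinarith [mul_le_mul_of_nonneg_left (add_le_add h4 h4') (show 0 ≤ (2 * π * t) ^ 4 by positivity)]

theorem exp3 {x κ : ℝ} (h : |x| ≤ κ) (hκ : κ ≤ 1) : |exp x - (1 + x + x ^ 2 / 2)| ≤ κ ^ 3 := by
  have := Real.exp_bound (h.trans hκ) (n := 3) (by decide)
  simp only [sum_range_succ, range_zero, sum_empty, Nat.factorial] at this
  refine le_of_eq_of_le (by congr 2; norm_num) (this.trans ?_)
  have h1 := pow_le_pow_left₀ (abs_nonneg x) h 3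
  have h2 : 0 ≤ |x| ^ 3 := by positivity
  norm_num; linarith

theorem E1_comm {n : ℕ} {u v : Pt → ℝ} (hu : Pot.Sup (bl c n) u) (hv : Pot.Sup (bl c n) v) :
    E1 (bl c n) u v = E1 (bl c n) v u := by
  have := green0 (bl_one_sub (c := c) (n := n) le_rfl) u hv
  rw [E1, E1, sum_subset (bl_mono c (Nat.le_succ n)) fun x _ hx => by rw [hu x hx, zero_mul], ← this]
  exact sum_congr rfl fun x _ => mul_comm _ _

theorem E0_three {n : ℕ} {u v v' : Pt → ℝ} (hu : Pot.Sup (bl c n) u) (hv : Pot.Sup (bl c n) v)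
    (hv' : Pot.Sup (bl c n) v') (s t : ℝ) : E0 (bl c n) (u + s • v + t • v') =
      E0 (bl c n) u + 2 * s * E1 (bl c n) v u + 2 * t * E1 (bl c n) v' u + s ^ 2 * E1 (bl c n) v v +
        t ^ 2 * E1 (bl c n) v' v' + 2 * s * t * E1 (bl c n) v v' := by
  have e : E0 (bl c n) (u + s • v + t • v') = E0 (bl c n) u + s * (E1 (bl c n) v u + E1 (bl c n) u v) +
      t * (E1 (bl c n) v' u + E1 (bl c n) u v') + s ^ 2 * E1 (bl c n) v v + t ^ 2 * E1 (bl c n) v' v' +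
      s * t * (E1 (bl c n) v v' + E1 (bl c n) v' v) := by
    simp only [E0, E1, A0_add, A0_smul, Pi.add_apply, Pi.smul_apply, smul_eq_mul, mul_sum, mul_add,
      ← sum_add_distrib]
    exact sum_congr rfl fun x _ => by ring
  rw [e, E1_comm hu hv, E1_comm hu hv', E1_comm hv' hv]; ring

theorem abs_E1_le {u v : Pt → ℝ} (hu : Sv R M u) (hv : Sv R M v) (hM : 1 ≤ M) (hR : 1 ≤ R) :
    |E1 (bl 0 ⌊M * R⌋₊) u v| ≤ 18 * M ^ 6 := by
  have h0 : 0 < R / M := by positivity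
  refine (abs_sum_le_sum_abs _ _).trans ((sum_le_card_nsmul _ _ (M * (2 * (M / (R / M) ^ 2)))
    fun x _ => ?_).trans ?_)
  · rw [abs_mul]
    exact mul_le_mul (hu.2.zero trivial) (N31.abs_A0_sm hv.2 h0 x) (abs_nonneg _) (by positivity)
  · have h1 := Nat.floor_le (show 0 ≤ M * R by positivity)
    rw [nsmul_eq_mul, card_bl]
    push_cast
    calc _ ≤ (3 * (M * R)) ^ 2 * (M * (2 * (M / (R / M) ^ 2))) := by
          gcongr; nlinarith [one_le_mul_of_one_le_of_one_le hM hR]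
      _ = _ := by field_simp; ring

/-- `B Y ≤ 1` makes the scale large -/
theorem big (hE : Env p Λ ω L N) (hY : Maj p Λ L R Y) {B : ℝ} (hB : 0 ≤ B) (h : B * Y ≤ 1) :
    0 < Y ∧ B ≤ R := by
  have h0 : 0 < R := one_pos.trans_le hY.1
  have h1 : R⁻¹ ≤ Y := by
    rw [← rpow_neg_one]
    exact (rpow_le_rpow_of_exponent_le hY.1
      (by linarith [(N31.ew_bd (w := p.w) (by have := hE.w4; omega)).2])).trans hY.2.1
  refine ⟨(inv_pos.2 h0).trans_le h1, ?_⟩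
  rw [← div_le_one h0]
  exact (mul_le_mul_of_nonneg_left h1 hB).trans h

/-- moments of a smooth linear functional -/
theorem mom (hB : Fl.BareStmt) (p : Par) : ∃ C : ℝ, 0 ≤ C ∧ ∀ Λ ω L N, Env p Λ ω L N → ∀ (R M : ℝ) (v : Pt → ℝ),
    1 ≤ M → 1 ≤ R → ⌊M * R⌋₊ + 1 ≤ N → Sv R M v →
      ω (fun s => pr (A0 v) s ^ 2) ≤ C * M ^ 12 ∧ ω (fun s => pr (A0 v) s ^ 4) ≤ C * M ^ 12 := by
  obtain ⟨C, C0, h⟩ := hB p.F
  refine ⟨324 * C, by positivity, fun Λ ω L N hE R M v hM hR hN hv => ?_⟩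
  obtain ⟨m, hm⟩ := hE.amb 0
  obtain ⟨h0, h1, -⟩ := h Λ hE.mem 0 _ v hv.1
  obtain ⟨h2, h3⟩ := h1 m (hm.amb_sub (bl_mono 0 hN))
  have a := ins_prA0 hv.1 hN
  have h4 : E0 (bl 0 ⌊M * R⌋₊) v ≤ 18 * M ^ 6 := (le_abs_self _).trans (abs_E1_le hv hv hM hR)
  have h5 := one_le_pow₀ (n := 6) hM
  rw [hm.ex_eq (ins_pow a 2), hm.ex_eq (ins_pow a 4), show 324 * C * M ^ 12 = C * (18 * M ^ 6) ^ 2 by ring]
  exact ⟨h2.trans (mul_le_mul_of_nonneg_left (by nlinarith) C0), h3.trans (by gcongr)⟩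

theorem ex2 {α u κ : ℝ} (h : |α| + |u| ≤ κ) (hκ : κ ≤ 1) :
    |(exp (α - u) - exp (-α - u)) / 2 - α| ≤ κ ^ 2 := by
  have k : ∀ x : ℝ, |x| ≤ κ → |exp x - 1 - x| ≤ κ ^ 2 := fun x hx =>
    (Real.abs_exp_sub_one_sub_id_le (hx.trans hκ)).trans (by rw [← sq_abs]; gcongr)
  have h1 := abs_le.1 (k (α - u) ((abs_sub _ _).trans h))
  have h2 := abs_le.1 (k (-α - u) ((abs_sub _ _).trans (by rwa [abs_neg])))
  rw [abs_le]; constructor <;> linarith [h1.1, h1.2, h2.1, h2.2]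

theorem ex4 {α β γ u κ : ℝ} (h : |α| + |β| + |γ| + |u| ≤ κ) (hκ : κ ≤ 1) :
    |(exp (-α - β - u - γ) - exp (-α + β - u + γ) - exp (α - β - u + γ) + exp (α + β - u - γ)) / 4 -
      (α * β - γ + u * γ)| ≤ κ ^ 3 := by
  have a := abs_le.1 (le_refl |α|)
  have b := abs_le.1 (le_refl |β|)
  have c := abs_le.1 (le_refl |γ|)
  have d := abs_le.1 (le_refl |u|)
  have k : ∀ x : ℝ, -κ ≤ x → x ≤ κ → _ := fun x h1 h2 => abs_le.1 (exp3 (abs_le.2 ⟨h1, h2⟩) hκ)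
  have h1 := k (-α - β - u - γ) (by linarith) (by linarith)
  have h2 := k (-α + β - u + γ) (by linarith) (by linarith)
  have h3 := k (α - β - u + γ) (by linarith) (by linarith)
  have h4 := k (α + β - u - γ) (by linarith) (by linarith)
  rw [abs_le]; constructor <;> linarith [h1.1, h1.2, h2.1, h2.2, h3.1, h3.2, h4.1, h4.2]

theorem pi_sq : 4 * π ^ 2 ≤ 40 := by nlinarith [pi_lt_d2, pi_pos]

theorem coef {g τ d S : ℝ} (g0 : 0 ≤ g) (g1 : g ≤ 1) (t0 : 0 ≤ τ) (hd : |d| ≤ S) :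
    |4 * π ^ 2 * g * τ * d| ≤ 40 * S * τ := by
  rw [abs_mul, abs_of_nonneg (by positivity)]
  calc _ ≤ 40 * 1 * τ * S := by gcongr; exact pi_sq
    _ = _ := by ring

theorem cancel {l x Φ y κ a B : ℝ} (hl : 0 < l) (Φ0 : 0 ≤ Φ) (Φ1 : Φ ≤ 1) (hy : |y| ≤ κ)
    (h : |l * x - Φ * y| ≤ a) (hB : a + κ ≤ l * B) : |x| ≤ B := by
  have h1 : |Φ * y| ≤ κ := by
    rw [abs_mul, abs_of_nonneg Φ0]; exact (mul_le_of_le_one_left (abs_nonneg _) Φ1).trans hy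
  refine le_of_mul_le_mul_left ?_ hl
  rw [← abs_of_pos hl, ← abs_mul, abs_of_pos hl]
  linarith [abs_sub_abs_le_abs_sub (l * x) (Φ * y)]

theorem core1 {A Fp Fm Φ τ g d e m δ S : ℝ} (t0 : 0 < τ) (t1 : τ ≤ 1) (Φ0 : 0 ≤ Φ) (Φ1 : Φ ≤ 1)
    (g0 : 0 ≤ g) (g1 : g ≤ 1) (hd : |d| ≤ S) (he : |e| ≤ S) (hκ : 160 * S * τ ≤ 1) (m0 : 0 ≤ m) (δ0 : 0 ≤ δ)
    (h : |2 * π * τ * A - (-Fp - -Fm) / 2| ≤ (2 * π * τ) ^ 3 * m / 6)
    (hp : |Fp - Φ * exp (-(4 * π ^ 2 * g * τ * d) - 2 * π ^ 2 * g * τ ^ 2 * e)| ≤ δ * τ ^ 2)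
    (hm : |Fm - Φ * exp (4 * π ^ 2 * g * τ * d - 2 * π ^ 2 * g * τ ^ 2 * e)| ≤ δ * τ ^ 2) :
    |A - 2 * π * g * d * Φ| ≤ ((160 * S) ^ 2 + δ + 7 * m) * τ := by
  have S0 := (abs_nonneg _).trans hd
  have h1 := coef g0 g1 t0.le hd
  have h2 := coef g0 g1 (sq_nonneg τ) he
  have h3 : S * τ ^ 2 ≤ S * τ := by gcongr; nlinarith
  have h4 := ex2 (α := 4 * π ^ 2 * g * τ * d) (u := 2 * π ^ 2 * g * τ ^ 2 * e) (κ := 160 * S * τ)
    (by rw [show 2 * π ^ 2 * g * τ ^ 2 * e = 4 * π ^ 2 * g * τ ^ 2 * e / 2 by ring, abs_div, abs_two]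
        nlinarith [mul_nonneg S0 t0.le]) hκ
  refine cancel (a := (2 * π * τ) ^ 3 * m / 6 + δ * τ ^ 2) (show 0 < 2 * π * τ by positivity) Φ0 Φ1 h4 ?_ ?_
  · rw [abs_le] at h hp hm ⊢
    constructor <;> linarith [h.1, h.2, hp.1, hp.2, hm.1, hm.2]
  · have h5 : (2 * π * τ) ^ 3 * m / 6 ≤ 2 * π * τ * (7 * m * τ) := by
      have : 4 * π ^ 2 * τ ≤ 40 * 1 := by gcongr; exact pi_sq
      calc _ = 2 * π * τ * (4 * π ^ 2 * τ / 6 * m * τ) := by ring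
        _ ≤ _ := by gcongr; linarith
    have h6 : 1 * (((160 * S) ^ 2 + δ) * τ ^ 2) ≤ 2 * π * (((160 * S) ^ 2 + δ) * τ ^ 2) := by
      gcongr; linarith [pi_gt_three]
    linarith

theorem core2 {B F₁ F₂ F₃ F₄ Φ τ g d d' c e e' m δ S : ℝ} (t0 : 0 < τ) (t1 : τ ≤ 1) (Φ0 : 0 ≤ Φ)
    (Φ1 : Φ ≤ 1) (g0 : 0 ≤ g) (g1 : g ≤ 1) (hd : |d| ≤ S) (hd' : |d'| ≤ S) (hc : |c| ≤ S) (he : |e| ≤ S)
    (he' : |e'| ≤ S) (hκ : 160 * S * τ ≤ 1) (m0 : 0 ≤ m) (δ0 : 0 ≤ δ) {α β γ u : ℝ}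
    (hα : α = 4 * π ^ 2 * g * τ * d) (hβ : β = 4 * π ^ 2 * g * τ * d') (hγ : γ = 4 * π ^ 2 * g * τ ^ 2 * c)
    (hu : u = 2 * π ^ 2 * g * τ ^ 2 * (e + e'))
    (h : |(2 * π * τ) ^ 2 * B + (F₁ - F₂ - F₃ + F₄) / 4| ≤ (2 * π * τ) ^ 4 * m / 3)
    (h₁ : |F₁ - Φ * exp (-α - β - u - γ)| ≤ δ * τ ^ 3) (h₂ : |F₂ - Φ * exp (-α + β - u + γ)| ≤ δ * τ ^ 3)
    (h₃ : |F₃ - Φ * exp (α - β - u + γ)| ≤ δ * τ ^ 3) (h₄ : |F₄ - Φ * exp (α + β - u - γ)| ≤ δ * τ ^ 3) :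
    |B - (g * c - 4 * π ^ 2 * g ^ 2 * d * d') * Φ| ≤ ((160 * S) ^ 3 + (160 * S) ^ 2 + δ + 14 * m) * τ := by
  have S0 := (abs_nonneg _).trans hd
  have a1 := coef g0 g1 t0.le hd
  have a2 := coef g0 g1 t0.le hd'
  have a3 := coef g0 g1 (sq_nonneg τ) hc
  have a4 := coef g0 g1 (sq_nonneg τ) ((abs_add_le _ _).trans (add_le_add he he'))
  have h3 : S * τ ^ 2 ≤ S * τ := by gcongr; nlinarith
  have a5 : |u| ≤ 40 * S * τ ^ 2 := by
    rw [show u = 4 * π ^ 2 * g * τ ^ 2 * (e + e') / 2 by rw [hu]; ring, abs_div, abs_two]; linarith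
  rw [← hα] at a1
  rw [← hβ] at a2
  rw [← hγ] at a3
  have h4 := ex4 (α := α) (β := β) (γ := γ) (u := u) (κ := 160 * S * τ) (by linarith) hκ
  have a6 : |u * γ| ≤ (160 * S) ^ 2 * τ ^ 3 := by
    rw [abs_mul]
    calc _ ≤ 40 * S * τ ^ 2 * (40 * S * τ) := mul_le_mul a5 (by linarith) (abs_nonneg _) (by positivity)
      _ ≤ 160 * S * τ ^ 2 * (160 * S * τ) := by gcongr <;> norm_num
      _ = _ := by ring
  have h5 : |-((exp (-α - β - u - γ) - exp (-α + β - u + γ) - exp (α - β - u + γ) +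
      exp (α + β - u - γ)) / 4 - (α * β - γ))| ≤ (160 * S * τ) ^ 3 + (160 * S) ^ 2 * τ ^ 3 := by
    rw [abs_le] at h4 a6 ⊢
    constructor <;> linarith [h4.1, h4.2, a6.1, a6.2]
  refine cancel (a := (2 * π * τ) ^ 4 * m / 3 + δ * τ ^ 3)
    (show 0 < (2 * π * τ) ^ 2 by positivity) Φ0 Φ1 h5 ?_ ?_
  · have e : (2 * π * τ) ^ 2 * ((g * c - 4 * π ^ 2 * g ^ 2 * d * d') * Φ) = Φ * (γ - α * β) := by
      rw [hα, hβ, hγ]; ring
    rw [mul_sub, e]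
    rw [abs_le] at h h₁ h₂ h₃ h₄ ⊢
    constructor <;> linarith [h.1, h.2, h₁.1, h₁.2, h₂.1, h₂.2, h₃.1, h₃.2, h₄.1, h₄.2]
  · have h6 : (2 * π * τ) ^ 4 * m / 3 ≤ (2 * π * τ) ^ 2 * (14 * m * τ) := by
      have : 4 * π ^ 2 * τ ≤ 40 * 1 := by gcongr; exact pi_sq
      calc _ = (2 * π * τ) ^ 2 * (4 * π ^ 2 * τ / 3 * m * τ) := by ring
        _ ≤ _ := by gcongr; linarith
    have h7 : 1 * (((160 * S) ^ 3 + (160 * S) ^ 2 + δ) * τ ^ 3) ≤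
        4 * π ^ 2 * (((160 * S) ^ 3 + (160 * S) ^ 2 + δ) * τ ^ 3) := by
      gcongr; nlinarith [pi_gt_three]
    linarith

/-- `NEU` along the two-parameter family -/
theorem neu3 (hN : Fl.NeuStmt) (p : Par) : ∃ C : ℝ, 1 ≤ C ∧ ∀ Λ ω L N, Env p Λ ω L N → ∀ R Y M : ℝ,
    Maj p Λ L R Y → 0 ≤ gk ω R → 2 ≤ M → C * M * Y ≤ 1 → C * M * R ≤ L → ⌊M * R⌋₊ + 1 ≤ N ∧
    ∀ v₃ v v', Sv R M v₃ → Sv R M v → Sv R M v' → ∀ s t : ℝ, |s| ≤ 1 → |t| ≤ 1 →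
      |ω (cp (A0 v₃ + s • A0 v + t • A0 v') 0) -
        exp (-2 * π ^ 2 * gk ω R * E0 (bl 0 ⌊M * R⌋₊) (v₃ + s • v + t • v'))| ≤ C * M ^ 8 * Y := by
  obtain ⟨C, C0, h⟩ := hN p
  have w0 : (0 : ℝ) ≤ p.w := Nat.cast_nonneg _
  refine ⟨2048 * C + p.w + 4, by linarith, fun Λ ω L N hE R Y M hY g0 hM y1 l1 => ?_⟩
  obtain ⟨Y0, hR⟩ := big hE hY (by positivity) y1
  have R1 := hY.1
  have M0 : 0 < M := by linarith
  have hL : (L : ℝ) ≤ N := by exact_mod_cast hE.le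
  have b1 := Nat.floor_le (show 0 ≤ M * R by positivity)
  have r1 := Nat.floor_le (show 0 ≤ R / M by positivity)
  have r2 := Nat.lt_floor_add_one (R / M)
  have r3 : 2048 * C + p.w + 4 ≤ R / M := by rwa [le_div_iff₀ M0]
  have r4 : R / M ≤ R := div_le_self (by linarith) (by linarith)
  have r5 : 2 * R ≤ M * R := by gcongr
  have r6 : (p.w : ℝ) * ⌊R / M⌋₊ ≤ p.w * (M * R) := by gcongr; linarith
  have r7 : 0 ≤ C * (M * R) := by positivity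
  have r8 : (⌊M * R⌋₊ : ℝ) + 1 + p.w * ⌊R / M⌋₊ ≤ L := by nlinarith
  have r9 : ⌊M * R⌋₊ + 1 + p.w * ⌊R / M⌋₊ ≤ L := by exact_mod_cast r8
  refine ⟨by have := hE.le; omega, fun v₃ v v' h₃ hv hv' s t hs ht => ?_⟩
  have hS := (h₃.1.add (hv.1.smul s)).add (hv'.1.smul t)
  have := h Λ ω L N hE R Y (2 * M) hY (by nlinarith [mul_nonneg C0 M0.le, mul_nonneg w0 M0.le]) (by linarith)
    (by nlinarith [mul_nonneg w0 (show 0 ≤ M * R by positivity)]) ⌊R / M⌋₊ ⌊M * R⌋₊ (3 * M) _ (by linarith)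
    (by rw [mul_comm, ← div_div]; linarith) (by nlinarith) (by nlinarith) (by omega)
    (by have := hE.le; omega) hS
    ((((h₃.2.add (hv.2.smul s)).add (hv'.2.smul t)).mono le_rfl Set.Subset.rfl (by nlinarith)
      (by positivity)).scale (by linarith) r1)
  rw [A0_add, A0_add, A0_smul, A0_smul, max_eq_left (exp_le_one_iff.2 (by
    have := mul_nonneg (mul_nonneg (sq_nonneg π) g0) (B80.E0_nonneg hS); linarith))] at this
  refine this.trans ?_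
  calc _ ≤ C * (4 * M) ^ 3 * (2 * M) ^ 5 * Y * 1 := by gcongr; linarith
    _ = 2048 * C * M ^ 8 * Y := by ring
    _ ≤ _ := by gcongr; linarith

end N75

open N75 in
/-- NG -/
theorem ngStmt (hN : Fl.NeuStmt) (hB : Fl.BareStmt) : NgStmt := fun p => by
  obtain ⟨C₁, c1, h₁⟩ := neu3 hN p
  obtain ⟨C₂, c2, h₂⟩ := mom hB p
  refine ⟨2880 ^ 4 + C₁ + 14 * C₂, 24, by linarith [show (0 : ℝ) ≤ 2880 ^ 4 by positivity],
    fun Λ ω L N hE R Y M hY g1 g2 hM y1 l1 v₃ v v' h₃ hv hv' D g Φ hD hg hΦ => ?_⟩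
  have M1 : 1 ≤ M := by linarith
  have R1 := hY.1
  have mm : ∀ k, k ≤ 24 → M ^ k ≤ M ^ 24 := fun k hk => pow_le_pow_right₀ M1 hk
  have Y0 := (big hE hY (by positivity) y1).1
  have cc : C₁ * M ≤ (2880 ^ 4 + C₁ + 14 * C₂) * M ^ 24 :=
    mul_le_mul (by linarith [show (0 : ℝ) ≤ 2880 ^ 4 by positivity]) (by simpa using mm 1 (by norm_num))
      (by positivity) (by positivity)
  obtain ⟨hn, h₁⟩ := h₁ Λ ω L N hE R Y M hY (by linarith) hM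
    ((mul_le_mul_of_nonneg_right cc Y0.le).trans y1) ((mul_le_mul_of_nonneg_right cc (by linarith)).trans l1)
  replace h₁ := h₁ v₃ v v' h₃ hv hv'
  obtain ⟨m2, m4⟩ := h₂ Λ ω L N hE R M v M1 R1 hn hv
  obtain ⟨-, m4'⟩ := h₂ Λ ω L N hE R M v' M1 R1 hn hv'
  have hτ : (Y ^ (1 / 4 : ℝ)) ^ 4 = Y := by
    rw [← rpow_natCast, ← rpow_mul Y0.le]; norm_num
  have t0 : 0 < Y ^ (1 / 4 : ℝ) := rpow_pos_of_pos Y0 _
  generalize Y ^ (1 / 4 : ℝ) = τ at hτ t0 ⊢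
  subst hτ
  have hκ : 160 * (18 * M ^ 6) * τ ≤ 1 := by
    refine (pow_le_one_iff_of_nonneg (by positivity) four_ne_zero).1 (le_trans ?_ y1)
    calc _ = 2880 ^ 4 * M ^ 24 * τ ^ 4 := by ring
      _ ≤ _ := by gcongr; linarith
  have t1 : τ ≤ 1 := by nlinarith [one_le_pow₀ (n := 6) M1]
  have ta : |τ| ≤ 1 := by rwa [abs_of_pos t0]
  have tb : |-τ| ≤ 1 := by rwa [abs_neg]
  have tz : |(0 : ℝ)| ≤ 1 := by simp
  simp only [E0_three h₃.1 hv.1 hv'.1] at h₁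
  simp only [← hD, ← hg] at h₁
  have bd := fun {u v : Pt → ℝ} (hu : Sv R M u) (hv : Sv R M v) => hD ▸ abs_E1_le hu hv M1 R1
  have g0 : 0 ≤ g := by linarith
  have Φ0 : 0 ≤ Φ := hΦ ▸ (exp_pos _).le
  have Φ1 : Φ ≤ 1 := hΦ ▸ exp_le_one_iff.2 (by
    have := mul_nonneg (mul_nonneg (sq_nonneg π) g0) (B80.E0_nonneg (hD ▸ h₃.1 : Pot.Sup D v₃)); linarith)
  have key : ∀ (s t x : ℝ) (k : ℕ), |s| ≤ 1 → |t| ≤ 1 → k ≤ 4 → x = -2 * π ^ 2 * g * (2 * s * E1 D v v₃ +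
      2 * t * E1 D v' v₃ + s ^ 2 * E1 D v v + t ^ 2 * E1 D v' v' + 2 * s * t * E1 D v v') →
      |ω (cp (A0 v₃ + s • A0 v + t • A0 v') 0) - Φ * exp x| ≤ C₁ * M ^ 8 * τ ^ k := fun s t x k hs ht hk hx => by
    refine le_of_eq_of_le ?_ ((h₁ s t hs ht).trans (by gcongr ?_ * ?_; exact pow_le_pow_of_le_one t0.le t1 hk))
    rw [hΦ, ← exp_add, hx]; congr 3; ring
  have fin : ((160 * (18 * M ^ 6)) ^ 3 + (160 * (18 * M ^ 6)) ^ 2 + C₁ * M ^ 8 + 14 * (C₂ * M ^ 12)) * τ ≤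
      (2880 ^ 4 + C₁ + 14 * C₂) * (M ^ 24 * τ + 1 / M) := by
    calc _ = (2880 ^ 3 * M ^ 18 + 2880 ^ 2 * M ^ 12 + C₁ * M ^ 8 + 14 * C₂ * M ^ 12) * τ := by ring
      _ ≤ (2880 ^ 3 * M ^ 24 + 2880 ^ 2 * M ^ 24 + C₁ * M ^ 24 + 14 * C₂ * M ^ 24) * τ := by
        gcongr <;> first | exact M1 | norm_num
      _ = (2880 ^ 3 + 2880 ^ 2 + C₁ + 14 * C₂) * (M ^ 24 * τ + 0) := by ring
      _ ≤ _ := by gcongr <;> first | positivity | norm_num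
  have q₃ := chq_A0 h₃.1 hn
  have q := chq_A0 hv.1 hn
  have q' := chq_A0 hv'.1 hn
  refine ⟨le_trans ?_ fin, le_trans ?_ fin, le_trans ?_ fin⟩
  · have := key 0 0 0 1 tz tz (by norm_num) (by ring)
    simp only [zero_smul, add_zero, exp_zero, mul_one, pow_one] at this
    refine this.trans (mul_le_mul_of_nonneg_right ?_ t0.le)
    have : 0 ≤ (160 * (18 * M ^ 6)) ^ 3 + (160 * (18 * M ^ 6)) ^ 2 + 14 * (C₂ * M ^ 12) := by positivity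
    linarith
  · have a := fd1 hE q₃ q m2 m4 t0.le (-(π / 2))
    rw [hE.ex_cp (chq_line q₃ q _), hE.ex_cp (chq_line q₃ q (-τ)), show -(π / 2) - π / 2 = -π by ring,
      cos_neg, cos_pi, neg_one_mul, neg_one_mul] at a
    have b := key τ 0 (-(4 * π ^ 2 * g * τ * E1 D v v₃) - 2 * π ^ 2 * g * τ ^ 2 * E1 D v v) 2 ta tz
      (by norm_num) (by ring)
    have c := key (-τ) 0 (4 * π ^ 2 * g * τ * E1 D v v₃ - 2 * π ^ 2 * g * τ ^ 2 * E1 D v v) 2 tb tz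
      (by norm_num) (by ring)
    rw [zero_smul, add_zero] at b c
    refine (core1 t0 t1 Φ0 Φ1 g0 (hg ▸ g2) (bd hv h₃) (bd hv hv) hκ (by positivity) (by positivity)
      a b c).trans (mul_le_mul_of_nonneg_right ?_ t0.le)
    have : 0 ≤ (160 * (18 * M ^ 6)) ^ 3 := by positivity
    have : 0 ≤ C₂ * M ^ 12 := by positivity
    linarith
  · exact core2 t0 t1 Φ0 Φ1 g0 (hg ▸ g2) (bd hv h₃) (bd hv' h₃) (bd hv hv') (bd hv hv) (bd hv' hv') hκ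
      (by positivity) (by positivity) rfl rfl rfl rfl (fd2 hE q₃ q q' m4 m4' τ 0)
      (key _ _ _ 3 ta ta (by norm_num) (by ring)) (key _ _ _ 3 ta tb (by norm_num) (by ring))
      (key _ _ _ 3 tb ta (by norm_num) (by ring)) (key _ _ _ 3 tb tb (by norm_num) (by ring))

end Crest.Agent.T145.Ev
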