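import Crest.Agent.T145.EvDef_2
import Crest.Agent.T145.FlA_51
import Crest.Agent.T145.FlBare_80
import Crest.Agent.T145.FlBas_4

/-!
# Row 145, the even sector: PU (helper51)
-/

set_option autoImplicit false

namespace Crest.Agent.T145.Ev

open Finset Real Fl

namespace Pu51

theorem depG_f2 {U : Finset Pt} {f : Pt → ℝ} {e : ℝ} (h : F2 (nnL.edI U) f e) : DepG U fun s => pr f s :=
  DepG.pr (chq_flow h).1 (by simpa using (chq_flow h).2)

/-- first absolute moments -/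
theorem mom {W : Cfg Pt → ℝ} {τ t e e' : ℝ} {f f' : Pt → ℝ} (h : B80.Mo W τ f e) (h' : B80.Mo W τ f' e')
    (e0 : 0 ≤ e) (e0' : 0 ≤ e') (hτ : τ ≤ t) (t1 : 1 ≤ t) :
    Ex W (fun s => |pr f s|) ≤ t * √e ∧ Ex W (fun s => |pr f s * pr f' s|) ≤ t * (√e * √e') := by
  have t0 : 0 ≤ t := by linarith
  have i : ∀ g : Pt → ℝ, Ig W fun s => |pr g s| ^ 2 := fun g => h.cen.ig ((tame_pr g).abs.pow 2)
  have b : ∀ {g : Pt → ℝ} {a : ℝ}, B80.Mo W τ g a → 0 ≤ a → √(Ex W fun s => |pr g s| ^ 2) ≤ √t * √a :=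
    fun k a0 => by
      rw [← sqrt_mul t0]; simp only [sq_abs]
      exact sqrt_le_sqrt (k.two.trans (mul_le_mul_of_nonneg_right hτ a0))
  constructor
  · refine (le_abs_self _).trans ((abs_le_sqrt (h.cen.wt.ex_sq_le (i f))).trans ((b h e0).trans ?_))
    exact mul_le_mul_of_nonneg_right (sqrt_le_iff.2 ⟨t0, by nlinarith⟩) (sqrt_nonneg _)
  · simp only [abs_mul]
    refine (le_abs_self _).trans ((abs_Ex_mul_le h.cen.nonneg (i f) (i f')).trans
      ((mul_le_mul (b h e0) (b h' e0') (sqrt_nonneg _) (by positivity)).trans_eq ?_))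
    rw [mul_mul_mul_comm, mul_self_sqrt t0]

end Pu51

open Pu51 in
theorem puStmt : PuStmt := fun p => by
  refine ⟨128 * max p.F.τ₂ 1, by positivity, fun Λ ω L N E z a n F B f f' e e' h0 hn hL hF hB hO B1 hf hf' => ?_⟩
  have ok := E.mem.ok
  obtain ⟨m, hm, hr⟩ := E.amb z
  have w4 := E.w4
  have a1 : 1 ≤ a := by have := E.gd.2.1; have := ok.one_le_rg; omega
  have h1 := Nat.mul_le_mul_right a w4
  have h2 := Nat.mul_le_mul_right (p.w * a) w4
  have h3 := Nat.mul_le_mul_right n w4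
  have h4 := E.le
  have key : ∀ G : Cfg Pt → ℝ, Tame G → DepG (Nc.an z (p.w * (p.w * a)) n) G → ∀ b : ℝ,
      (Nc.EA Λ z (p.w * a) (p.w * n) fun s => |G s|) ≤ max p.F.τ₂ 1 * b →
      |ω fun s => F s * G s * B s| ≤ 128 * max p.F.τ₂ 1 * nu Λ p.w z a F * b := fun G tG dG b hb => by
    have := ((prodStmt p Λ L E.toGs m (bl z N) Unit ∅ (fun _ => z) (fun _ => 0) (fun _ _ => 1) B hm
      ⟨by simp, by simp, by simp, by simp, by simp⟩ (by simp) B1).2 z n (by omega) hL (bl_mono z (by omega))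
      (by simp)).2.2 a F G h0 hn hF tG dG hO
    simp only [prod_empty, one_mul, mul_one] at this
    rw [hr _ (((hF.1.mono (bl_mono z (by omega))).mul
      (dG.mono (sdiff_subset.trans (bl_mono z (by omega))))).mul hB)]
    refine this.trans ((mul_le_mul_of_nonneg_left hb
      (mul_nonneg (by norm_num) (A51.nu_nonneg ok _ _ _ _))).trans_eq (by ring))
  have sub : Nc.an z (p.w * (p.w * a)) n ⊆ Nc.an z (p.w * a) (p.w * n) :=
    sdiff_subset_sdiff (bl_mono z (by omega)) (bl_mono z (by omega))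
  have e0 : ∀ {g : Pt → ℝ} {b : ℝ}, F2 (nnL.edI (Nc.an z (p.w * (p.w * a)) n)) g b → 0 ≤ b :=
    fun ⟨_, _, h⟩ => (sum_nonneg fun _ _ => sq_nonneg _).trans h
  obtain ⟨m1, m2⟩ := mom (B80.mo_an ok (by omega) sub hf) (B80.mo_an ok (by omega) sub hf') (e0 hf) (e0 hf')
    (E.mem.tau_le.trans (le_max_left _ 1)) (le_max_right _ _)
  exact ⟨key _ (tame_pr f) (depG_f2 hf) _ m1,
    key _ ((tame_pr f).mul (tame_pr f')) ((depG_f2 hf).mul (depG_f2 hf')) _ m2⟩

end Crest.Agent.T145.Ev
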