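import Crest.Agent.T145.EvDef_2
import Crest.Agent.T145.EvLe_60
import Crest.Agent.T145.FlA_51
import Crest.Agent.T145.FlBas_4
import Crest.Agent.T145.FlSw_22
import Crest.Agent.T145.FlBare_80
import Crest.Agent.T145.FlRate_98

/-!
# Row 145, even sector: the sum of energy stars against a charge two (`S3Stmt`, helper74)
-/

set_option autoImplicit false
set_option linter.unusedSectionVars false

namespace Crest.Agent.T145.Ev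

open Finset Pot Xi Real Fl

namespace S74

/-- three zones: far, middle, active -/
theorem split {Z D B A : Finset Pt} {F : Pt → ℝ} {x δ₀ δ₁ : ℝ} (hZ : Z ⊆ D)
    (hf : ∑ z ∈ D \ B, |F z| ≤ x) (h1 : ∀ z ∈ B, z ∉ A → |F z| ≤ δ₀)
    (h2 : ∀ z ∈ B, z ∈ A → |F z| ≤ δ₀ + δ₁) (h0 : 0 ≤ δ₁) :
    |∑ z ∈ Z, F z| ≤ x + B.card * δ₀ + A.card * δ₁ := by
  have e1 : ∑ z ∈ Z, |F z| ≤ ∑ z ∈ D \ B, |F z| + ∑ z ∈ B, |F z| := by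
    rw [← sum_union sdiff_disjoint]
    exact sum_le_sum_of_subset_of_nonneg (fun y hy => by by_cases h : y ∈ B <;> simp [h, hZ hy])
      fun _ _ _ => abs_nonneg _
  have e2 : ∑ z ∈ B, |F z| ≤ ∑ z ∈ B, (δ₀ + if z ∈ A then δ₁ else 0) := sum_le_sum fun z hz => by
    split_ifs with h
    exacts [h2 z hz h, (h1 z hz h).trans_eq (add_zero _).symm]
  rw [sum_add_distrib, sum_const, nsmul_eq_mul, sum_ite_mem, sum_const, nsmul_eq_mul] at e2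
  have e3 : ((B ∩ A).card : ℝ) * δ₁ ≤ A.card * δ₁ := by gcongr; exact inter_subset_right
  linarith [abs_sum_le_sum_abs F Z]

theorem f2_up {ed ed' : Finset (Pt × Pt)} {f : Pt → ℝ} {n : ℝ} (h : F2 ed f n) (hE : ed ⊆ ed') :
    F2 ed' f n :=
  let ⟨φ, h1, h2⟩ := h
  ⟨fun e => ind (e ∈ ed) * φ e, by rw [dv_ind hE, h1], by rwa [sum_ind_sq hE]⟩

theorem far0 (p : Par) (L : ℕ) (U : Finset Pt) :
    Far p L U (∅ : Finset Unit) (fun _ => 0) (fun _ => 0) fun _ _ => 1 :=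
  ⟨by simp, by simp, by simp, by simp, by simp⟩

variable {p : Par} {Λ : Lat} {ω : Sta} {L N : ℕ}

/-- an insertion is replaced by two centred reference insertions -/
theorem dec (h : Env p Λ ω L N) {E T₁ T₂ B : Cfg Pt → ℝ} {a : ℕ} {z c : Pt} (α₁ α₂ : ℝ)
    (h0 : p.r₀ ≤ a) (hL : p.w * a ≤ L) (hz : bl z (p.w * a) ⊆ bl c N) (hE : Ins 0 a E) (h1 : Ins 0 a T₁)
    (h2 : Ins 0 a T₂) (hB : Ins c N B) (hO : Out (bl z a) B) (hb : ∀ s, |B s| ≤ 1) :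
    |ω (fun s => trl z E s * B s) - α₁ * cv ω (trl z T₁) B - α₂ * cv ω (trl z T₂) B| ≤
      32 * nu Λ p.w 0 a fun s => E s - (α₁ * (T₁ s - ω T₁) + α₂ * (T₂ s - ω T₂)) := by
  have hG := h.toGs
  have ha := Lj36.le_wmul hG a
  have hs : bl z a ⊆ bl c N := (bl_mono z ha).trans hz
  have hI : Ins 0 a fun s => E s - (α₁ * (T₁ s - ω T₁) + α₂ * (T₂ s - ω T₂)) :=
    hE.sub (((h1.sub_const _).smul _).add ((h2.sub_const _).smul _))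
  obtain ⟨m, hm⟩ := h.amb c
  have k := ((prodStmt p Λ L hG m _ Unit ∅ _ _ _ B hm.1 (far0 p L _) (by simp) hb).2 z a h0 hL hz
    (by simp)).2.1 _ (hI.trl z) hO
  simp only [prod_empty, one_mul, mul_one] at k
  rw [Le60.nu_trl semiStmt hG h0 hI le_rfl, ← hm.2 _ (((hI.trl z).of_subset hs).mul hB).1] at k
  have i0 := ((hE.trl z).of_subset hs).mul hB
  have i1 := ((h1.trl z).of_subset hs).mul hB
  have i2 := ((h2.trl z).of_subset hs).mul hB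
  have aN := ha.trans (hL.trans h.le)
  refine le_of_eq_of_le (congrArg _ ?_) k
  rw [show (fun s => trl z (fun s => E s - (α₁ * (T₁ s - ω T₁) + α₂ * (T₂ s - ω T₂))) s * B s) =
    fun s => (trl z E s * B s - α₁ * (trl z T₁ s * B s) - α₂ * (trl z T₂ s * B s)) +
      (α₁ * ω T₁ + α₂ * ω T₂) * B s from funext fun s => by simp only [trl]; ring,
    hm.ex_add ((i0.sub (i1.smul _)).sub (i2.smul _)) (hB.smul _), hm.ex_sub (i0.sub (i1.smul _)) (i2.smul _),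
    hm.ex_sub i0 (i1.smul _), hm.ex_smul i1.1, hm.ex_smul i2.1, hm.ex_smul hB.1, cv, cv,
    h.trl 0 z T₁ (h1.mono aN).1, h.trl 0 z T₂ (h2.mono aN).1]
  ring

/-! ### numerics -/

theorem rp {x t e : ℝ} {j : ℕ} (t0 : 0 < t) (t1 : t ≤ 1) (h0 : 0 ≤ x) (hx : x ≤ t ^ j) (he : 26 ≤ j * e)
    (e0 : 0 ≤ e) : x ^ e ≤ t ^ 26 :=
  calc x ^ e ≤ (t ^ j) ^ e := by gcongr
    _ = t ^ (j * e) := by rw [← rpow_natCast, ← rpow_mul t0.le]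
    _ ≤ t ^ ((26 : ℕ) : ℝ) := rpow_le_rpow_of_exponent_ge t0 t1 (by exact_mod_cast he)
    _ = _ := rpow_natCast _ _

theorem rp1 {x s e : ℝ} (h0 : 0 ≤ x) (hx : x ≤ s) (s1 : 1 ≤ s) (e0 : 0 ≤ e) (e1 : e ≤ 1) : x ^ e ≤ s :=
  calc x ^ e ≤ s ^ e := by gcongr
    _ ≤ s ^ (1 : ℝ) := rpow_le_rpow_of_exponent_le s1 e1
    _ = _ := rpow_one _

/-- the scales -/
structure Nu (w r₀ j m L : ℕ) (R t : ℝ) : Prop where
  t0 : 0 < t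
  t1 : 600 * t ≤ 1
  t2 : 16 * w * t ≤ 1
  t3 : 8 * (w : ℝ) ^ 2 * r₀ * t ≤ 1
  w1 : 1 ≤ w
  j1 : 1 ≤ j
  jm : j + 2 ≤ m
  R1 : 1 ≤ R * t ^ m
  RL : R ≤ t ^ m * L

namespace Nu
variable {w r₀ j m L : ℕ} {R t : ℝ} (h : Nu w r₀ j m L R t)
include h

theorem le1 : t ≤ 1 := by linarith [h.t0, h.t1]
theorem ts : t * t⁻¹ = 1 := mul_inv_cancel₀ h.t0.ne'
theorem big {K : ℝ} (hK : K * t ≤ 1) : K ≤ t⁻¹ := by rwa [← one_div, le_div_iff₀ h.t0]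
theorem s1 : 1 ≤ t⁻¹ := h.big (by linarith [h.le1])
theorem dn {a b : ℕ} (hab : a ≤ b) : t ^ b ≤ t ^ a := pow_le_pow_of_le_one h.t0.le h.le1 hab
theorem up {a b : ℕ} (hab : a ≤ b) : t⁻¹ ^ a ≤ t⁻¹ ^ b := pow_le_pow_right₀ h.s1 hab
theorem R0 : 0 < R := by
  have := h.R1
  by_contra c
  nlinarith [pow_pos h.t0 m]
theorem one {a : ℕ} (ha : a ≤ m) : 1 ≤ R * t ^ a := h.R1.trans (mul_le_mul_of_nonneg_left (h.dn ha) h.R0.le)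
theorem oneR : 1 ≤ R := by simpa using h.one (Nat.zero_le m)
theorem sρ : t⁻¹ ≤ R * t ^ (j + 1) := by
  rw [← one_div, div_le_iff₀ h.t0, mul_assoc, ← pow_succ]; exact h.one h.jm
theorem n1 : 8 * (w : ℝ) ^ 2 * r₀ ≤ R * t ^ (j + 1) := (h.big h.t3).trans h.sρ
theorem n7 : R * t ≤ ⌈R * t⌉₊ := Nat.le_ceil _
theorem r0 : (0 : ℝ) < ⌈R * t⌉₊ := (mul_pos h.R0 h.t0).trans_le h.n7
theorem n6' : R * t ^ (j + 1) ≤ t ^ j * ⌈R * t⌉₊ :=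
  calc _ = t ^ j * (R * t) := by ring
    _ ≤ _ := by gcongr; exacts [(pow_pos h.t0 _).le, h.n7]
theorem n6 : R * t ^ (j + 1) / ⌈R * t⌉₊ ≤ t ^ j := by rw [div_le_iff₀ h.r0]; exact h.n6'
theorem n2 : 600 * (R * t ^ (j + 1)) ≤ ⌈R * t⌉₊ := by
  have := h.dn h.j1
  have h1 : t ^ j * ⌈R * t⌉₊ ≤ t * ⌈R * t⌉₊ := by gcongr; simpa using this
  nlinarith [h.n6', h.t1, h.r0]
theorem n3 {x : ℝ} (hx : x ≤ R * t ^ (j + 1 + 1)) : x + 1 ≤ R * t ^ (j + 1) := by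
  have h1 := (h.big h.t1).trans h.sρ
  rw [pow_succ, ← mul_assoc] at hx
  nlinarith [h.t1]
theorem n5 : (⌈R * t⌉₊ : ℝ) ≤ 2 * R := by
  have := Nat.ceil_lt_add_one (mul_pos h.R0 h.t0).le
  nlinarith [h.le1, h.oneR]
theorem n5' : (⌈R * t⌉₊ : ℝ) ≤ t⁻¹ * R := h.n5.trans (by gcongr; exacts [h.R0.le, by linarith [h.big h.t1]])
theorem n8 : (⌊t⁻¹ * R⌋₊ : ℝ) ≤ t⁻¹ * R := Nat.floor_le (mul_pos (inv_pos.2 h.t0) h.R0).le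
theorem n8' : 2 * R ≤ ⌊t⁻¹ * R⌋₊ := by
  have := Nat.lt_floor_add_one (t⁻¹ * R)
  nlinarith [h.big h.t1, h.oneR]
theorem ρR : R * t ^ (j + 1) ≤ R := mul_le_of_le_one_right h.R0.le (pow_le_one₀ h.t0.le h.le1)
theorem r₀ρ : (r₀ : ℝ) ≤ R * t ^ (j + 1) := by
  have : (1 : ℝ) ≤ w := by exact_mod_cast h.w1
  have h1 : (1 : ℝ) ≤ 8 * (w : ℝ) ^ 2 := by nlinarith
  exact (le_mul_of_one_le_left (Nat.cast_nonneg _) h1).trans h.n1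
theorem r₀a : r₀ ≤ ⌊t⁻¹ * R⌋₊ := by
  exact_mod_cast (show (r₀ : ℝ) ≤ ⌊t⁻¹ * R⌋₊ by linarith [h.r₀ρ, h.ρR, h.n8', h.R0])
theorem b0 : R * t⁻¹ ^ (j + 1) ≤ ⌈R * t⁻¹ ^ (j + 1)⌉₊ := Nat.le_ceil _
theorem n9 : 16 * w * ⌊t⁻¹ * R⌋₊ ≤ ⌈R * t⁻¹ ^ (j + 1)⌉₊ := by
  have h1 := h.up (show 2 ≤ j + 1 by linarith [h.j1])
  have h2 : (16 * w * ⌊t⁻¹ * R⌋₊ : ℝ) ≤ ⌈R * t⁻¹ ^ (j + 1)⌉₊ :=
    calc _ ≤ t⁻¹ * (t⁻¹ * R) := by gcongr; exacts [(inv_pos.2 h.t0).le, h.big h.t2, h.n8]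
      _ = R * t⁻¹ ^ 2 := by ring
      _ ≤ _ := le_trans (by gcongr; exact h.R0.le) h.b0
  exact_mod_cast h2
theorem oneB : 1 ≤ R * t⁻¹ ^ (j + 1) := one_le_mul_of_one_le_of_one_le h.oneR (one_le_pow₀ h.s1)
theorem n10 : (⌈R * t⁻¹ ^ (j + 1)⌉₊ : ℝ) ≤ 2 * (R * t⁻¹ ^ (j + 1)) := by
  have := Nat.ceil_lt_add_one (zero_le_one.trans h.oneB)
  linarith [h.oneB]
theorem mR : 600 * (R * t⁻¹ ^ (j + 1)) ≤ t⁻¹ ^ m * R :=
  calc _ ≤ t⁻¹ * (R * t⁻¹ ^ (j + 1)) := by gcongr; exacts [zero_le_one.trans h.oneB, h.big h.t1]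
    _ = t⁻¹ ^ (j + 2) * R := by ring
    _ ≤ _ := by gcongr; exacts [h.R0.le, h.s1, h.jm]
theorem n11 : ⌈R * t⁻¹ ^ (j + 1)⌉₊ + w * ⌈R * t⌉₊ ≤ ⌊t⁻¹ ^ m * R⌋₊ := Nat.le_floor (by
  have h1 : (w * ⌈R * t⌉₊ : ℝ) ≤ R * t⁻¹ ^ (j + 1) :=
    calc _ ≤ w * (2 * R) := by gcongr; exact h.n5
      _ ≤ (16 * w) * R := by nlinarith [h.R0, (Nat.cast_nonneg w : (0 : ℝ) ≤ w)]
      _ ≤ t⁻¹ ^ (j + 1) * R := by
        gcongr; exacts [h.R0.le, (h.big h.t2).trans (le_self_pow₀ h.s1 (by omega))]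
      _ = _ := mul_comm _ _
  push_cast
  linarith [h.n10, h.mR, h.oneB])
theorem n12 : ⌊t⁻¹ ^ m * R⌋₊ ≤ L := Nat.floor_le_of_le (
  calc _ ≤ t⁻¹ ^ m * (t ^ m * L) := by gcongr; exacts [(pow_pos (inv_pos.2 h.t0) _).le, h.RL]
    _ = _ := by rw [← mul_assoc, ← mul_pow, mul_comm t⁻¹, h.ts, one_pow, one_mul])
theorem n13 {b : ℝ} (hb : (⌈R * t⁻¹ ^ (j + 1)⌉₊ : ℝ) ≤ b) : (⌊t⁻¹ * R⌋₊ : ℝ) / b ≤ t ^ j := by
  rw [div_le_iff₀ (by linarith [h.oneB, h.b0])]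
  calc _ ≤ t⁻¹ * R := h.n8
    _ = (t * t⁻¹) ^ j * (t⁻¹ * R) := by rw [h.ts, one_pow, one_mul]
    _ = t ^ j * (R * t⁻¹ ^ (j + 1)) := by ring
    _ ≤ _ := by gcongr; exacts [(pow_pos h.t0 _).le, h.b0.trans hb]

theorem cdB : ((bl 0 ⌈R * t⁻¹ ^ (j + 1)⌉₊).card : ℝ) ≤ 25 * (R * t⁻¹ ^ (j + 1)) ^ 2 := by
  rw [card_bl]; push_cast
  calc _ ≤ (5 * (R * t⁻¹ ^ (j + 1))) ^ 2 := by gcongr; linarith [h.n10, h.oneB]
    _ = _ := by ring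
theorem cdA {a : ℕ} (ha : (a : ℝ) ≤ R) : ((bl 0 (⌊t⁻¹ * R⌋₊ + a)).card : ℝ) ≤ 25 * (t⁻¹ * R) ^ 2 := by
  rw [card_bl]; push_cast
  have := le_mul_of_one_le_left h.R0.le h.s1
  calc _ ≤ (5 * (t⁻¹ * R)) ^ 2 := by gcongr; linarith [h.n8, h.oneR]
    _ = _ := by ring

variable {C P c e : ℝ}

theorem errF {ν : ℝ} (hC : 0 ≤ C) (hP : 0 ≤ P) (h1 : ν ≤ 1) (e0 : 0 ≤ e) (e1 : e ≤ 1) (c0 : 0 ≤ c)
    (hc : 26 ≤ j * (c / 4)) (hCt : 8 * C * t ≤ 1) :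
    C * ν * P * max (⌊t⁻¹ * R⌋₊ / R) (R / ⌊t⁻¹ * R⌋₊) ^ e *
      (((⌊t⁻¹ * R⌋₊ : ℝ) / ⌈R * t⁻¹ ^ (j + 1)⌉₊) ^ (c / 2) + ((⌊t⁻¹ * R⌋₊ : ℝ) / L) ^ (c / 2)) ≤
      P * t ^ 6 / 4 := by
  have R0 := h.R0
  have t0 := h.t0
  have hc' : 26 ≤ j * (c / 2) := hc.trans (by gcongr; norm_num)
  have a1 := rp t0 h.le1 (by positivity) (h.n13 le_rfl) hc' (by positivity)
  have a2 := rp t0 h.le1 (by positivity) (h.n13 (b := L) (by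
    exact_mod_cast (Nat.le_add_right _ _).trans (h.n11.trans h.n12))) hc' (by positivity)
  have a3 : max ((⌊t⁻¹ * R⌋₊ : ℝ) / R) (R / ⌊t⁻¹ * R⌋₊) ^ e ≤ t⁻¹ :=
    rp1 (by positivity) (max_le (by rw [div_le_iff₀ R0]; exact h.n8)
      (le_trans (by rw [div_le_one (by linarith [h.n8'])]; linarith [h.n8']) h.s1)) h.s1 e0 e1
  calc _ ≤ C * 1 * P * t⁻¹ * (t ^ 26 + t ^ 26) := by gcongr
    _ = (8 * C * t) * (t * t⁻¹) * (P * t ^ 24 / 4) := by ring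
    _ ≤ 1 * (t * t⁻¹) * (P * t ^ 6 / 4) := by gcongr ?_ * _ * (_ * ?_ / _); exact h.dn (by norm_num)
    _ = _ := by rw [h.ts]; ring

theorem errL {P₀ : ℝ} (hC : 0 ≤ C) (hP : 1 ≤ P) (h0 : 0 ≤ P₀) (e0 : 0 ≤ e) (e1 : e ≤ 1) (c0 : 0 ≤ c)
    (hc : 26 ≤ j * (c / 4)) :
    C * (t⁻¹ * (1 + t⁻¹)) * (P * t⁻¹ ^ e * (R * t ^ (j + 1) / ⌈R * t⌉₊) ^ (c / 4) / (⌈R * t⌉₊ : ℝ) ^ 2 +
      P₀ * ((r₀ : ℝ) / ⌈R * t⌉₊) ^ (2 + c / 2)) ≤ 2 * C * (1 + P₀ * r₀ ^ 2) * P * t ^ 21 / R ^ 2 := by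
  have R0 := h.R0
  have t0 := h.t0
  have r0 := h.r0
  have s1 := h.s1
  have hc' : 26 ≤ j * (c / 2) := hc.trans (by gcongr; norm_num)
  have a1 := rp t0 h.le1 (by positivity) h.n6 hc (by positivity)
  have a2 := rp (x := (r₀ : ℝ) / ⌈R * t⌉₊) t0 h.le1 (by positivity)
    (le_trans (by gcongr; exact h.r₀ρ) h.n6) hc' (by positivity)
  have a3 := rp1 (zero_le_one.trans s1) le_rfl s1 e0 e1
  have a4 : ((r₀ : ℝ) / ⌈R * t⌉₊) ^ (2 + c / 2) ≤ r₀ ^ 2 / (R * t) ^ 2 * t ^ 26 := by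
    rw [rpow_add' (by positivity) (by positivity), rpow_two, div_pow]
    gcongr; exact h.n7
  calc _ ≤ C * (t⁻¹ * (t⁻¹ + t⁻¹)) * (P * t⁻¹ * t ^ 26 / (R * t) ^ 2 +
        P₀ * (r₀ ^ 2 / (R * t) ^ 2 * t ^ 26) * (P * t⁻¹)) := by
        gcongr _ * (_ * (?_ + _)) * (_ * ?_ * ?_ / ?_ ^ 2 + ?_)
        · exact h.n7
        · exact le_trans (by gcongr) (le_mul_of_one_le_right (by positivity)
            (one_le_mul_of_one_le_of_one_le hP s1))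
    _ = _ := by field_simp; ring

theorem errA {α : ℝ} {a k : ℕ} (hP : 0 ≤ P) (e0 : 0 ≤ e) (e1 : e ≤ 1) (h1 : R * t ^ k ≤ a)
    (h2 : α * (a : ℝ) ^ 2 ≤ P * (R / a) ^ e) : α ≤ P * t⁻¹ ^ (3 * k) / R ^ 2 := by
  have R0 := h.R0
  have t0 := h.t0
  have a0 : (0 : ℝ) < a := lt_of_lt_of_le (by positivity) h1
  have a1 : (R / a) ^ e ≤ t⁻¹ ^ k := rp1 (by positivity) (by
    rw [inv_pow, div_le_iff₀ a0, ← div_eq_inv_mul, le_div_iff₀ (by positivity)]; exact h1)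
    (one_le_pow₀ h.s1) e0 e1
  rw [← le_div_iff₀ (by positivity)] at h2
  calc _ ≤ _ := h2
    _ ≤ P * t⁻¹ ^ k / (R * t ^ k) ^ 2 := by gcongr
    _ = _ := by simp only [inv_pow]; field_simp; ring

theorem errE {Y : ℝ} {n₂ : ℕ} (hC : 0 ≤ C) (h0 : 0 ≤ Y) (hY : Y ≤ t ^ (4 * (m * (n₂ + 1)))) :
    C * ((t⁻¹ ^ m) ^ n₂ * Y ^ (1 / 4 : ℝ) + 1 / t⁻¹ ^ m) ≤ 2 * C * t ^ m := by
  have t0 := h.t0
  have a1 : Y ^ (1 / 4 : ℝ) ≤ t ^ (m * (n₂ + 1)) :=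
    calc _ ≤ ((t ^ (m * (n₂ + 1))) ^ 4) ^ (1 / 4 : ℝ) := by gcongr; rwa [← pow_mul, mul_comm]
      _ = _ := by rw [one_div]; exact pow_rpow_inv_natCast (n := 4) (by positivity) (by norm_num)
  calc _ ≤ C * ((t⁻¹ ^ m) ^ n₂ * t ^ (m * (n₂ + 1)) + 1 / t⁻¹ ^ m) := by gcongr
    _ = _ := by simp only [inv_pow]; field_simp; ring

/-- the total error -/
theorem fin {C₂ x b a : ℝ} (hC : 0 ≤ C) (hC₂ : 0 ≤ C₂) (hP : 0 ≤ P) (hx : x ≤ P * t ^ 6 / 4)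
    (hb : b ≤ 25 * (R * t⁻¹ ^ (j + 1)) ^ 2) (ha : a ≤ 25 * (t⁻¹ * R) ^ 2) (hm : 74 * (j + 1) + 7 ≤ m)
    (h1 : 100 * C * t ≤ 1) (h2 : 400 * C₂ * t ≤ 1) :
    x + b * (32 * (P * t ^ (16 + 2 * (j + 1)) / R ^ 2) +
      2 * (P * t⁻¹ ^ (3 * (24 * (j + 1))) / R ^ 2 * (2 * C₂ * t ^ m))) + a * (C * P * t ^ 21 / R ^ 2) ≤
      P * t ^ 6 := by
  have R0 := h.R0
  have t0 := h.t0
  have a1 : a * (C * P * t ^ 21 / R ^ 2) ≤ P * t ^ 6 / 4 :=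
    calc _ ≤ 25 * (t⁻¹ * R) ^ 2 * (C * P * t ^ 21 / R ^ 2) := by gcongr
      _ = (100 * C * t) * (P * t ^ 18 / 4) := by field_simp; ring
      _ ≤ 1 * (P * t ^ 6 / 4) := by gcongr ?_ * (_ * ?_ / _); exact h.dn (by norm_num)
      _ = _ := one_mul _
  have a2 : b * (32 * (P * t ^ (16 + 2 * (j + 1)) / R ^ 2) +
      2 * (P * t⁻¹ ^ (3 * (24 * (j + 1))) / R ^ 2 * (2 * C₂ * t ^ m))) ≤ P * t ^ 6 / 4 + P * t ^ 6 / 4 :=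
    calc _ ≤ 25 * (R * t⁻¹ ^ (j + 1)) ^ 2 * (32 * (P * t ^ (16 + 2 * (j + 1)) / R ^ 2) +
          2 * (P * t⁻¹ ^ (3 * (24 * (j + 1))) / R ^ 2 * (2 * C₂ * t ^ (74 * (j + 1) + 7)))) := by
          gcongr ?_ * (_ + 2 * (_ * (_ * ?_))); exact h.dn hm
      _ = (600 * t) ^ 2 * (P * t ^ 14 / 450) + (400 * C₂ * t) * (P * t ^ 6 / 4) := by
          simp only [mul_pow, inv_pow]; field_simp; ring
      _ ≤ 1 ^ 2 * (P * t ^ 6 / 4) + 1 * (P * t ^ 6 / 4) := by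
          gcongr ?_ ^ 2 * (_ * ?_ / ?_) + ?_ * _
          exacts [h.t1, h.dn (by norm_num), by norm_num]
      _ = _ := by ring
  linarith


theorem xc {n₂ n : ℕ} (hC : 0 ≤ C) (hCt : C * t ≤ 1) (hn : m * n₂ + 1 ≤ n) :
    C * (t⁻¹ ^ m) ^ n₂ * t ^ n ≤ 1 := by
  have t0 := h.t0
  calc _ ≤ C * (t⁻¹ ^ m) ^ n₂ * t ^ (m * n₂ + 1) := by gcongr _ * ?_; exact h.dn hn
    _ = C * t := by simp only [inv_pow]; field_simp; ring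
    _ ≤ _ := hCt

theorem lg {A x : ℝ} (hx : x ≤ 1) (hm : 2 * |A| + 2 ≤ m) : 2 * (A * log t⁻¹) + 2 * x ≤ log (t⁻¹ ^ m) := by
  have h1 : 1 ≤ log t⁻¹ := (le_log_iff_exp_le (inv_pos.2 h.t0)).2 (by
    linarith [exp_one_lt_d9, h.big h.t1])
  rw [log_pow]
  nlinarith [le_abs_self A]

theorem errS (hC : 0 ≤ C) (hCt : C * t ≤ 1) : C * t⁻¹ ^ 2 * (R * t ^ (j + 1) / ⌈R * t⌉₊) ^ 4 ≤ 1 := by
  have t0 := h.t0
  have R0 := h.R0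
  calc _ ≤ C * t⁻¹ ^ 2 * (t ^ 1) ^ 4 := by gcongr; exact h.n6.trans (h.dn h.j1)
    _ = C * t * t := by field_simp
    _ ≤ 1 * 1 := by gcongr; exact h.le1
    _ = _ := one_mul _

end Nu

theorem nr_spec {w : ℕ} (hw : 4 ≤ w) : ∃ j : ℕ, nr w = j + 1 ∧ 1 ≤ j ∧ 26 ≤ j * (cw w / 4) := by
  refine ⟨⌈104 / cw w⌉₊ + 1, rfl, by omega, ?_⟩
  have h0 := cw_pos (show 1 ≤ w by omega)
  have h1 := Nat.le_ceil (104 / cw w)
  rw [div_le_iff₀ h0] at h1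
  push_cast
  nlinarith

theorem ks {a b c d e f g t : ℝ} (ha : 0 ≤ a) (hb : 0 ≤ b) (hc : 0 ≤ c) (hd : 0 ≤ d) (he : 0 ≤ e) (hf : 0 ≤ f)
    (hg : 0 ≤ g) (ht : 0 < t) (h : (a + b + c + d + e + f + g) * t ≤ 1) :
    a * t ≤ 1 ∧ b * t ≤ 1 ∧ c * t ≤ 1 ∧ d * t ≤ 1 ∧ e * t ≤ 1 ∧ f * t ≤ 1 ∧ g * t ≤ 1 := by
  have k : ∀ x : ℝ, x ≤ _ → x * t ≤ 1 := fun x hx => (mul_le_mul_of_nonneg_right hx ht.le).trans h
  refine ⟨k _ ?_, k _ ?_, k _ ?_, k _ ?_, k _ ?_, k _ ?_, k _ ?_⟩ <;> linarith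

theorem gb {g e : ℝ} (h : |π * g - 2| ≤ e / 100) (he : e ≤ 1) : 1 / 4 ≤ g ∧ g ≤ 1 := by
  constructor <;> nlinarith [abs_le.1 h, pi_gt_three, pi_le_four]

end S74

open S74

theorem s3Stmt (hL : LocStmt) (hX : X2Stmt) (hF : FarEStmt) (hB : BasStmt) (hT : TgStmt) : S3Stmt := by
  intro A w
  refine ⟨0, fun p W D₀ _ _ => ?_⟩
  obtain ⟨CL, hCL, hL⟩ := leStmt semiStmt prodStmt hL swStmt p
  obtain ⟨C₂, n₂, hC₂, hX⟩ := hX p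
  obtain ⟨CF, hCF, hF⟩ := hF p
  obtain ⟨P₀, hP₀, hB⟩ := hB p
  obtain ⟨_, _, -, -, hT⟩ := hT
  obtain ⟨CS, hCS, hW⟩ := swStmt
  obtain ⟨m, hm1, hm2⟩ : ∃ m : ℕ, 74 * nr p.w + 7 ≤ m ∧ 2 * |A| + 2 ≤ m :=
    ⟨74 * nr p.w + 7 + ⌈2 * |A|⌉₊, by omega, by
      push_cast; linarith [Nat.le_ceil (2 * |A|), (Nat.cast_nonneg (nr p.w) : (0 : ℝ) ≤ _)]⟩
  obtain ⟨C₁, hC₁, e₁⟩ : ∃ C₁ : ℝ, 0 ≤ C₁ ∧ C₁ = 2 * CL * (1 + P₀ * p.r₀ ^ 2) := ⟨_, by positivity, rfl⟩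
  have c1 : (0 : ℝ) ≤ 16 * p.w := by positivity
  have c2 : (0 : ℝ) ≤ 8 * (p.w : ℝ) ^ 2 * p.r₀ := by positivity
  refine ⟨600 + 16 * p.w + 8 * (p.w : ℝ) ^ 2 * p.r₀ + 8 * CF + 100 * C₁ + 400 * C₂ + CS,
    4 * (m * (n₂ + 1)) + 1, by linarith, ?_⟩
  intro E R Y P t hE t0 hK hY hR a₁ a₂ α₁ α₂ hD f φ hf hLr Z hZ
  have C2 : 0 ≤ C₂ := zero_le_one.trans hC₂
  obtain ⟨k1, k2, k3, k4, k5, k6, k7⟩ := ks (by norm_num) c1 c2 (by positivity) (by positivity)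
    (by positivity) hCS t0 hK
  have h : Env p E.Λ E.ω E.L E.N := hE.ed.toEnv
  have hG := h.toGs
  have hw := hG.w4
  obtain ⟨j, hj, j1, hc⟩ := nr_spec hw
  have e0 := ew_nonneg p.w
  have e3 : 3 * ew p.w ≤ 1 := by linarith only [ew_le' hw]
  have e1 : ew p.w ≤ 1 := by linarith only [ew_le' hw]
  have c0 := cw_nonneg p.w
  have R1 := hE.maj.1
  have P1 := hE.P1
  have P0 : 0 ≤ P := zero_le_one.trans P1
  have p0 : 0 ≤ P₀ := zero_le_one.trans hP₀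
  have mn : t ^ (4 * (m * (n₂ + 1)) + 1) ≤ t ^ m :=
    pow_le_pow_of_le_one t0.le (by linarith only [k1, t0]) (by rw [mul_add]; omega)
  have u : Nu p.w p.r₀ j m E.L R t := ⟨t0, k1, k2, k3, by omega, j1, by omega, by
      rw [← inv_le_iff_one_le_mul₀' (one_pos.trans_le R1), ← rpow_neg_one]
      exact (rpow_le_rpow_of_exponent_le R1 (neg_le_neg e1)).trans (hE.maj.2.1.trans (hY.trans mn)),
    hR.trans (mul_le_mul_of_nonneg_right mn (Nat.cast_nonneg _))⟩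
  obtain ⟨d1, -, d3, d4, d5, d6, d7⟩ := hD
  rw [hj] at d1 d4 d7 hm1
  have a2ρ := u.n3 d4
  have a2r : a₂ ≤ ⌈R * t⌉₊ := by
    exact_mod_cast (show (a₂ : ℝ) ≤ ⌈R * t⌉₊ by linarith only [a2ρ, u.n2, u.sρ, u.s1])
  have a2R : (a₂ : ℝ) ≤ R := by linarith only [a2ρ, u.ρR]
  have r8 := hE.r8
  have r0 := hE.r0
  have nN := u.n12.trans h.le
  have rw' := Lj36.le_wmul hG ⌈R * t⌉₊
  have bw := u.n11
  have ab := u.n9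
  have ab' : ⌊t⁻¹ * R⌋₊ ≤ ⌊t⁻¹ ^ m * R⌋₊ :=
    (Nat.le_mul_of_pos_left _ (by omega)).trans (ab.trans ((Nat.le_add_right _ _).trans bw))
  have rg : E.Λ.rg ≤ p.r₀ := by have := Lj36.gs_rg hG; omega
  have hB := hB E.Λ E.ω E.L E.N h
  have iE : Ins 0 p.r₀ (E.e 0) := (hB 0).2.2.1.mono rg
  have q2 : ∀ {n : ℕ} {g : Pt → ℝ} {x : ℝ}, ⌊t⁻¹ * R⌋₊ ≤ n → F2 (nnL.edI (bl 0 n)) g x →
      Chq (bl 0 n) ((2 : ℝ) • xi R + g) (1 + 1 + 0) := fun {n} _ _ hn hg => by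
    have := chq_xi u.R0 (u.n8'.trans (Nat.cast_le.2 hn))
    rw [two_smul]; exact (this.add this).add (chq_flow hg)
  have sub : ∀ {z}, z ∈ bl 0 ⌈R * t⁻¹ ^ (j + 1)⌉₊ → bl z (p.w * ⌈R * t⌉₊) ⊆ bl 0 ⌊t⁻¹ ^ m * R⌋₊ :=
    fun hz => bl_subset_bl hz (by omega)
  have M1 : 1 ≤ t⁻¹ ^ m := one_le_pow₀ u.s1
  have xc := u.xc (n₂ := n₂) (n := 4 * (m * (n₂ + 1)) + 1) C2 (by nlinarith only [k6, C2, t0])
    (by rw [mul_add]; omega)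
  have hX := hX E.Λ E.ω E.L E.N h R Y (t⁻¹ ^ m) hE.maj (gb hE.crit e1).1 (gb hE.crit e1).2
    (le_trans (by linarith only [u.big u.t1]) (le_self_pow₀ u.s1 (by omega : m ≠ 0)))
    ((mul_le_mul_of_nonneg_left hY (by positivity)).trans xc)
    ((mul_le_mul_of_nonneg_left hR (by positivity)).trans (by
      rw [← mul_assoc]; exact mul_le_of_le_one_left (Nat.cast_nonneg _) xc))
  have hα := u.errA P0 (by positivity) e3 d1 d6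
  have hε := u.errE C2 hE.maj.pos.le (hY.trans (u.dn (Nat.le_succ _)))
  have sv : Sv R (t⁻¹ ^ m) fun _ => 0 := ⟨fun _ _ => rfl, Sm.zero' _ _ (by positivity) (by positivity)⟩
  have site : ∀ z ∈ bl 0 ⌈R * t⁻¹ ^ (j + 1)⌉₊, ∀ g : Pt → ℝ,
      F2 (nnL.edI (bl 0 ⌊t⁻¹ ^ m * R⌋₊)) g (log (t⁻¹ ^ m)) →
      (∀ y ∈ bl z a₂, ((2 : ℝ) • xi R + g) y = 0) →
      |E.ω fun s => trl z (E.e 0) s * cp ((2 : ℝ) • xi R + g) φ s| ≤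
        32 * (P * t ^ (16 + 2 * (j + 1)) / R ^ 2) +
          2 * (P * t⁻¹ ^ (3 * (24 * (j + 1))) / R ^ 2 * (2 * C₂ * t ^ m)) := fun z hz g hg h0 => by
    have wa := Nat.mul_le_mul_left p.w a2r
    have k := dec h α₁ α₂ (by omega) (by have := u.n12; omega)
      ((bl_mono z wa).trans ((sub hz).trans (bl_mono 0 nN))) (iE.mono (by omega))
      ((hT a₁ (by omega)).1.1.mono (by omega)) ((hT a₁ (by omega)).2.1.1.mono (by omega))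
      ((ins_cp (q2 ab' hg) φ).mono nN) (out_cp h0 φ) (abs_cp_le _ φ)
    obtain ⟨-, -, x1, x2⟩ := (hX a₁ z _ _ (by
        rw [inv_pow, div_inv_eq_mul]
        exact le_trans (mul_le_mul_of_nonneg_left (u.dn (by omega)) u.R0.le) d1)
      (le_trans (le_trans (Nat.cast_le.2 (by omega)) a2R) (le_mul_of_one_le_left u.R0.le M1))
      (by have := eu_le_of_bl hz; rw [sub_zero] at this; linarith only [this, u.n10, u.mR, u.oneB]) sv sv).2.2 g φ hg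
    have y : ∀ {α x : ℝ}, |α| ≤ max |α₁| |α₂| → |x| ≤ _ → |α * x| ≤
        P * t⁻¹ ^ (3 * (24 * (j + 1))) / R ^ 2 * (2 * C₂ * t ^ m) := fun h1 h2 => by
      rw [abs_mul]; exact mul_le_mul (h1.trans hα) (h2.trans hε) (abs_nonneg _) (by positivity)
    have y1 := abs_le.1 (y (le_max_left _ _) x1)
    have y2 := abs_le.1 (y (le_max_right _ _) x2)
    have y3 := abs_le.1 (k.trans (mul_le_mul_of_nonneg_left d7 (by norm_num)))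
    rw [abs_le]; constructor <;> linarith only [y1, y2, y3]
  have hq := q2 le_rfl hf
  have hf' := f2_up hf (Lat.edI_mono (bl_mono 0 ab'))
  have cm : ∀ z, (fun s => cp ((2 : ℝ) • xi R + f) φ s * E.e z s) =
      fun s => trl z (E.e 0) s * cp ((2 : ℝ) • xi R + f) φ s := fun z => by
    rw [(hB z).2.1]; exact funext fun s => mul_comm _ _
  refine (split (A := bl 0 (⌊t⁻¹ * R⌋₊ + a₂)) (δ₁ := C₁ * P * t ^ 21 / R ^ 2) (hZ.trans hE.ed.hi)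
    (hF _ _ _ _ h R P u.R0 P0 hE.prof _ _ _ u.r₀a ab (by have := u.n12; omega) (ins_cp hq φ))
    (fun z hz hz' => ?_) (fun z hz _ => ?_) (by positivity)).trans
    (u.fin hC₁ C2 P0 (u.errF hCF P0
      (((semiStmt _ _ _ 0 h.ok (Lj36.gs_le hG u.r₀a)).1 _ (ins_cp hq φ)).2.2.2.1 1 (abs_cp_le _ φ))
      e0 e1 c0 hc k4) u.cdB (u.cdA a2R) hm1 k5 k6)
  · rw [cm]
    refine site z hz f (RJ57.f2_mono hf' ?_) fun y hy => hq.1 y fun hy' =>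
      hz' (bl_subset_bl hy' (by omega) (mem_bl_comm.1 hy))
    linarith only [u.lg zero_le_one hm2, RJ57.f2_nonneg hf]
  · obtain ⟨v, hv⟩ := hLr z
    have hs := (sub hz).trans (bl_mono 0 nN)
    have ρ1 : 1 ≤ R * t ^ (j + 1) := u.s1.trans u.sρ
    have k := (hL _ _ _ _ h (E.e 0) p.r₀ R P P₀ t⁻¹ le_rfl iE (hB 0).2.2.2.1 u.R0 P0 hE.prof
      p0 (fun c hc => ((hB 0).2.2.2.2.2.2 0 c (bl_mono 0 (rg.trans hc))).1) u.s1 0 Unit ∅ _ _ _ z _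
      t⁻¹ φ _ v _ (far0 p _ _) (by simp) (hq.mono (bl_mono 0 (ab'.trans nN))) (by have := u.n12; omega) hs
      (by simp) hv (by rw [div_inv_eq_mul]; exact u.n7) u.n5').1 _ u.n1 u.n2
    simp only [prod_empty, one_mul, mul_one] at k
    have hn2 : ⌈2 * (R * t ^ (j + 1))⌉₊ + 1 ≤ ⌈R * t⌉₊ := by
      have := Nat.ceil_lt_add_one (show 0 ≤ 2 * (R * t ^ (j + 1)) by linarith only [ρ1])
      exact_mod_cast (show ((⌈2 * (R * t ^ (j + 1))⌉₊ : ℝ) + 1) ≤ ⌈R * t⌉₊ by linarith only [this, ρ1, u.n2])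
    obtain ⟨w1, w2, w3⟩ := (hW _ v z _ _ hv (by omega)).2.2 _ _ ρ1 (Nat.le_ceil _) hn2
    have k2 := site z hz (f + (-1 : ℝ) • A0 (sw v z (R * t ^ (j + 1)))) (RJ57.f2_mono (RJ57.f2_add hf'
      (RJ57.f2_smul (-1) (f2_up (B80.f2_A0 w1) (Lat.edI_mono ((bl_mono z (hn2.trans rw')).trans (sub hz))))))
      (u.lg (by linarith only [w2, u.errS hCS k7]) hm2)) fun y hy => by
        have := w3 a₂ a2ρ y hy
        simp only [Pi.add_apply, Pi.smul_apply, smul_eq_mul] at this ⊢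
        linarith only [this]
    rw [← add_assoc, neg_one_smul, ← sub_eq_add_neg] at k2
    have k3 := abs_le.1 (k.trans (u.errL hCL P1 p0 e0 e1 c0 hc))
    have k4 := abs_le.1 k2
    rw [cm, abs_le, e₁]; constructor <;> linarith only [k3, k4]

end Crest.Agent.T145.Ev
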