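import Crest.Agent.T145.KtG_54

/-!
# Row 145 (helper54): the discrete Kosterlitz-Thouless flow, part H
(orbits with a linearisation on a finite horizon; continuity method; exit on a finite horizon)
-/

set_option autoImplicit false

namespace Crest.Agent.T145.KT

open Filter Topology Finset Asymptotics

/-- relative error at step `n` for the horizon `K` -/
noncomputable def er (C δ θ τ : ℝ) (K : ℕ) (x y : ℕ → ℝ) (n : ℕ) : ℝ :=
  C * (|x n| + y n) ^ δ + τ * θ ^ (K - n)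

/-- the size of the linearised solution seen at step `n` (memory, future, accumulated past) -/
noncomputable def Abd (M B θ : ℝ) (a K : ℕ) (x y p q : ℕ → ℝ) (n : ℕ) : ℝ :=
  M * (B + ∑ j ∈ Icc a K, θ ^ Nat.dist j n * (|p j| + |q j|) +
    (|x n| + y n) * ∑ j ∈ Icc a n, (|p j| + |q j|))

/-- an orbit with a linearised solution on the horizon `[a, K]` -/
structure Orb (C δ θ M B τ ε : ℝ) (a K : ℕ) (x y p q : ℕ → ℝ) : Prop where
  small : ∀ n, a ≤ n → n ≤ K → |x n| + y n ≤ ε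
  st : ∀ n, a ≤ n → n < K → St (er C δ θ τ K x y n) (x n) (y n) (x (n + 1)) (y (n + 1))
  ln : ∀ n, a ≤ n → n < K → Ln (er C δ θ τ K x y n) (x n) (y n) (p n) (q n) (p (n + 1)) (q (n + 1))
    (Abd M B θ a K x y p q n)

theorem er_le {C δ θ τ ε : ℝ} {K n : ℕ} {x y : ℕ → ℝ} (hC : 0 ≤ C) (hδ : 0 ≤ δ) (hθ : 0 ≤ θ)
    (hθ1 : θ ≤ 1) (hτ : 0 ≤ τ) (h0 : 0 ≤ |x n| + y n) (h : |x n| + y n ≤ ε) :
    er C δ θ τ K x y n + (|x n| + y n) ≤ om C δ ε + τ := by
  have h1 := om_mono hC hδ h0 h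
  have h2 : τ * θ ^ (K - n) ≤ τ := mul_le_of_le_one_right hτ (pow_le_one₀ hθ hθ1)
  simp only [er, om] at *
  linarith

/-- continuity method for finitely many functions of a real parameter -/
theorem real_ind {b₀ b₁ : ℝ} (F : Finset ℕ) {D D' : ℕ → ℝ → ℝ} {r l : ℕ → ℝ}
    (hD : ∀ n ∈ F, ∀ b ∈ Set.Icc b₀ b₁, HasDerivAt (D n) (D' n b) b)
    (hl : ∀ b ∈ Set.Icc b₀ b₁, (∀ n ∈ F, |D n b| ≤ r n) → ∀ n ∈ F, |D' n b| ≤ l n)
    (hl0 : ∀ n ∈ F, 0 ≤ l n) (h : ∀ n ∈ F, |D n b₁| + l n * (b₁ - b₀) < r n) :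
    ∀ b ∈ Set.Icc b₀ b₁, ∀ n ∈ F, |D n b| ≤ r n := by
  set s : Set ℝ := {t | ∀ n ∈ F, |D n (b₁ - t)| ≤ r n} with hs
  have hm : ∀ t ∈ Set.Icc 0 (b₁ - b₀), b₁ - t ∈ Set.Icc b₀ b₁ := fun t ht =>
    ⟨by linarith [ht.2], by linarith [ht.1]⟩
  have hc : ∀ n ∈ F, ∀ t ∈ Set.Icc 0 (b₁ - b₀), ContinuousAt (fun t => |D n (b₁ - t)|) t :=
    fun n hn t ht => (ContinuousAt.comp (f := fun t => b₁ - t) (hD n hn _ (hm t ht)).continuousAt
      (by fun_prop)).abs
  have hcl : IsClosed (s ∩ Set.Icc 0 (b₁ - b₀)) := by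
    have : s ∩ Set.Icc 0 (b₁ - b₀) = Set.Icc 0 (b₁ - b₀) ∩ ⋂ n ∈ F,
        (Set.Icc 0 (b₁ - b₀) ∩ (fun t => |D n (b₁ - t)|) ⁻¹' Set.Iic (r n)) := by
      ext t
      simp only [hs, Set.mem_inter_iff, Set.mem_ofPred_eq, Set.mem_iInter, Set.mem_preimage,
        Set.mem_Iic]
      exact ⟨fun h => ⟨h.2, fun n hn => ⟨h.2, h.1 n hn⟩⟩, fun h => ⟨fun n hn => (h.2 n hn).2, h.1⟩⟩
    rw [this]
    exact isClosed_Icc.inter (isClosed_biInter fun n hn =>
      ContinuousOn.preimage_isClosed_of_isClosed (fun t ht => (hc n hn t ht).continuousWithinAt)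
        isClosed_Icc isClosed_Iic)
  intro b hb
  have hbb : 0 ≤ b₁ - b₀ := by linarith [hb.1, hb.2]
  have key := hcl.Icc_subset_of_forall_mem_nhdsGT_of_Icc_subset
    (fun n hn => by have := h n hn; have := mul_nonneg (hl0 n hn) hbb; rw [sub_zero]; linarith)
    (fun t ht hsub => by
      refine mem_nhdsWithin_of_mem_nhds ((eventually_all_finset F).2 fun n hn => ?_)
      refine (hc n hn t ⟨ht.1, ht.2.le⟩).eventually (ge_mem_nhds ?_)
      have hsub' : Set.Icc (b₁ - t) b₁ ⊆ Set.Icc b₀ b₁ :=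
        Set.Icc_subset_Icc (by linarith [ht.2]) le_rfl
      have := Convex.norm_image_sub_le_of_norm_hasDerivWithin_le (f := D n) (f' := D' n) (C := l n)
        (s := Set.Icc (b₁ - t) b₁) (fun u hu => (hD n hn u (hsub' hu)).hasDerivWithinAt)
        (fun u hu => hl u (hsub' hu) (fun k hk => by
          have hu' : b₁ - u ∈ Set.Icc 0 t := ⟨by linarith [hu.2], by linarith [hu.1]⟩
          simpa only [sub_sub_cancel] using hsub hu' k hk) n hn)
        (convex_Icc _ _) (Set.right_mem_Icc.2 (by linarith [ht.1]))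
        (Set.left_mem_Icc.2 (by linarith [ht.1]))
      rw [Real.norm_eq_abs, Real.norm_eq_abs, sub_sub_cancel_left, abs_neg, abs_of_nonneg ht.1] at this
      have h1 := abs_add_le (D n (b₁ - t) - D n b₁) (D n b₁)
      rw [sub_add_cancel] at h1
      have h2 := mul_le_mul_of_nonneg_left ht.2.le (hl0 n hn)
      have := h n hn
      linarith)
  have hb' : b₁ - b ∈ Set.Icc 0 (b₁ - b₀) := ⟨by linarith [hb.2], by linarith [hb.1]⟩
  have hk : ∀ n ∈ F, |D n (b₁ - (b₁ - b))| ≤ r n := key hb'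
  simpa only [sub_sub_cancel] using hk

/-- closed growth bound for an abstract weight `G` -/
theorem closed_abs {e p q A G : ℕ → ℝ} {a K : ℕ} {κ S₀ B₀ M e₀ : ℝ} (hκ : 0 < κ)
    (hG : ∀ n, a ≤ n → 0 < G n) (hB₀ : 0 ≤ B₀) (hS₀ : 0 ≤ S₀) (he₀ : 30 * e₀ * M ≤ κ)
    (he : ∀ n, a ≤ n → n < K → 0 ≤ e n ∧ e n ≤ e₀ ∧ 0 ≤ A n)
    (step : ∀ n, a ≤ n → n < K → ∀ S, 0 ≤ S → 10 * (e n * A n) ≤ κ * (S * G n) → |p n| ≤ S * G n →
      |q n| ≤ S * G n / 2 → |p (n + 1)| ≤ S * G (n + 1) ∧ |q (n + 1)| ≤ S * G (n + 1) / 2)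
    (hA : ∀ S, 0 ≤ S → (∀ j, a ≤ j → j ≤ K → |p j| + |q j| ≤ S * G j) →
      ∀ n, a ≤ n → n < K → A n ≤ M * (B₀ + S) * G n)
    (h0 : |p a| + |q a| ≤ S₀ * G a) :
    ∀ n, a ≤ n → n ≤ K → |p n| + |q n| ≤ (6 * S₀ + B₀) * G n := by
  set P : Set ℝ := {S | 0 ≤ S ∧ ∀ j, a ≤ j → j ≤ K → |p j| + |q j| ≤ S * G j} with hP
  have hne : P.Nonempty := by
    refine ⟨∑ j ∈ Icc a K, (|p j| + |q j|) / G j,
      sum_nonneg fun j hj => div_nonneg (by positivity) (hG j (mem_Icc.1 hj).1).le, fun j h1 h2 => ?_⟩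
    rw [← div_le_iff₀ (hG j h1)]
    exact single_le_sum (f := fun j => (|p j| + |q j|) / G j)
      (fun j hj => div_nonneg (by positivity) (hG j (mem_Icc.1 hj).1).le) (mem_Icc.2 ⟨h1, h2⟩)
  have hbd : BddBelow P := ⟨0, fun S hS => hS.1⟩
  have h1 : 0 ≤ sInf P := le_csInf hne fun S hS => hS.1
  have h2 : ∀ j, a ≤ j → j ≤ K → |p j| + |q j| ≤ sInf P * G j := fun j j1 j2 => by
    rw [← div_le_iff₀ (hG j j1)]
    exact le_csInf hne fun S hS => (div_le_iff₀ (hG j j1)).2 (hS.2 j j1 j2)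
  set S := 2 * S₀ + (B₀ + sInf P) / 3 with hS
  have hS0 : 0 ≤ S := by positivity
  have h3 : ∀ n, a ≤ n → n ≤ K → |p n| ≤ S * G n ∧ |q n| ≤ S * G n / 2 := by
    intro n hn
    induction n, hn using Nat.le_induction with
    | base =>
      intro _
      have := mul_nonneg (add_nonneg hB₀ h1) (hG a le_rfl).le
      have := mul_nonneg hS₀ (hG a le_rfl).le
      rw [hS]; constructor <;> linarith [abs_nonneg (q a), abs_nonneg (p a)]
    | succ n hn ih =>
      intro hK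
      obtain ⟨i1, i2⟩ := ih (by omega)
      obtain ⟨k1, k2, k3⟩ := he n hn (by omega)
      refine step n hn (by omega) S hS0 ?_ i1 i2
      have a1 := mul_le_mul k2 (hA _ h1 h2 n hn (by omega)) k3 (k1.trans k2)
      have a2 := mul_le_mul_of_nonneg_right he₀ (mul_nonneg (add_nonneg hB₀ h1) (hG n hn).le)
      have a3 := mul_nonneg (mul_nonneg hκ.le hS₀) (hG n hn).le
      rw [hS]; linarith
  have h4 : sInf P ≤ 3 / 2 * S := csInf_le hbd ⟨by positivity, fun j j1 j2 => by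
    obtain ⟨k1, k2⟩ := h3 j j1 j2
    linarith⟩
  intro n n1 n2
  exact (h2 n n1 n2).trans (mul_le_mul_of_nonneg_right (by linarith) (hG n n1).le)

theorem Ln.crude {e x y p q p' q' A κ S ε : ℝ} (h : Ln e x y p q p' q' A) (hκ1 : κ ≤ 1) (hy : 0 ≤ y)
    (hη : |x| + y ≤ ε) (he : 0 ≤ e) (hS : 10 * (e * A) ≤ κ * S) (hp : |p| ≤ S) (hq : |q| ≤ S / 2) :
    |p'| ≤ S * (1 + 3 * ε) ∧ |q'| ≤ S * (1 + 3 * ε) / 2 := by
  have hS0 : 0 ≤ S := (abs_nonneg _).trans hp
  have hA := h.A_nonneg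
  have hx0 := abs_nonneg x
  have hF : e * (|x| + y) * A ≤ ε * (S / 10) := by
    calc e * (|x| + y) * A = (|x| + y) * (e * A) := by ring
      _ ≤ ε * (S / 10) := by gcongr; linarith; nlinarith
  have c1 : |x| * S + y * S ≤ ε * S := by rw [← add_mul]; gcongr
  have c2 := mul_nonneg hx0 hS0
  have c3 := mul_nonneg hy hS0
  constructor
  · have a1 : |p'| ≤ |p' - p + 2 * y * q| + |p| + |2 * y * q| := by
      have := abs_add_le (p' - p + 2 * y * q) (p - 2 * y * q)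
      have := abs_sub p (2 * y * q)
      rw [show p' - p + 2 * y * q + (p - 2 * y * q) = p' by ring] at *
      linarith
    rw [abs_mul, abs_mul, abs_two, abs_of_nonneg hy] at a1
    have a2 : 2 * y * |q| ≤ 2 * y * (S / 2) := by gcongr
    linarith [h.hp]
  · have a1 : |q'| ≤ |q' - q + x * q + y * p| + (|q| + |x * q|) + |y * p| := by
      have := abs_add_le (q' - q + x * q + y * p) ((q - x * q) - y * p)
      have := abs_sub (q - x * q) (y * p)
      have := abs_sub q (x * q)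
      rw [show q' - q + x * q + y * p + ((q - x * q) - y * p) = q' by ring] at *
      linarith
    rw [abs_mul, abs_mul, abs_of_nonneg hy] at a1
    have a2 : y * |p| ≤ y * S := by gcongr
    have a3 : |x| * |q| ≤ |x| * (S / 2) := by gcongr
    linarith [h.hq]

theorem sum_dist_le {φ : ℕ → ℝ} (h0 : ∀ i, 0 ≤ φ i) (hφ : Summable φ) (S : Finset ℕ) (n : ℕ) :
    ∑ j ∈ S, φ (Nat.dist j n) ≤ 2 * ∑' i, φ i := by
  have key : ∀ T : Finset ℕ, Set.InjOn (fun j => Nat.dist j n) T →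
      ∑ j ∈ T, φ (Nat.dist j n) ≤ ∑' i, φ i := fun T hT => by
    rw [← sum_image (f := φ) hT]
    exact hφ.sum_le_tsum _ fun i _ => h0 i
  rw [← sum_filter_add_sum_filter_not S (· ≤ n), two_mul]
  refine add_le_add (key _ fun i hi j hj h => ?_) (key _ fun i hi j hj h => ?_)
  · simp only [coe_filter, Set.mem_ofPred_eq, Nat.dist] at hi hj h; omega
  · simp only [coe_filter, Set.mem_ofPred_eq, Nat.dist] at hi hj h; omega

/-- the constant of the memory kernel -/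
noncomputable def cth (θ : ℝ) : ℝ := ∑' i : ℕ, ((i : ℝ) + 1) ^ 2 * ((1 + θ) / 2) ^ i

theorem summable_cth {θ : ℝ} (h0 : 0 ≤ θ) (h1 : θ < 1) :
    Summable fun i : ℕ => ((i : ℝ) + 1) ^ 2 * ((1 + θ) / 2) ^ i := by
  have hr : ‖(1 + θ) / 2‖ < 1 := by rw [Real.norm_eq_abs, abs_of_nonneg (by linarith)]; linarith
  have a2 := summable_pow_mul_geometric_of_norm_lt_one 2 hr
  have a1 := summable_pow_mul_geometric_of_norm_lt_one 1 hr
  have a0 := summable_pow_mul_geometric_of_norm_lt_one 0 hr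
  exact ((a2.add (a1.mul_left 2)).add a0).congr fun i => by ring

theorem cth_nonneg {θ : ℝ} (h0 : 0 ≤ θ) : 0 ≤ cth θ := tsum_nonneg fun i => by positivity

theorem weight_le {θ Γ s : ℝ} (h0 : 0 ≤ θ) (hΓ : 1 ≤ Γ) (hθΓ : θ * Γ ≤ (1 + θ) / 2) (hs0 : 0 ≤ s)
    (hs : s ≤ 2) (N : ℕ) {j n : ℕ} (hn : 1 ≤ n) :
    θ ^ Nat.dist j n * (Γ ^ (j - N) * (j : ℝ) ^ s) ≤ (Γ ^ (n - N) * (n : ℝ) ^ s) *
      ((((Nat.dist j n : ℕ) : ℝ) + 1) ^ 2 * ((1 + θ) / 2) ^ Nat.dist j n) := by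
  obtain ⟨d, hd⟩ : ∃ d, d = Nat.dist j n := ⟨_, rfl⟩
  have h1 : j ≤ n + d := by rw [hd]; unfold Nat.dist; omega
  rw [← hd]
  have h2 : Γ ^ (j - N) ≤ Γ ^ (n - N) * Γ ^ d := by
    rw [← pow_add]; exact pow_le_pow_right₀ hΓ (by omega)
  have h3 : (j : ℝ) ^ s ≤ (n : ℝ) ^ s * ((d : ℝ) + 1) ^ 2 := by
    have a1 : (j : ℝ) ≤ n * (d + 1) := by
      have : j ≤ n * (d + 1) := by nlinarith
      exact_mod_cast this
    calc (j : ℝ) ^ s ≤ (n * (d + 1)) ^ s := Real.rpow_le_rpow (by positivity) a1 hs0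
      _ = (n : ℝ) ^ s * ((d : ℝ) + 1) ^ s := Real.mul_rpow (by positivity) (by positivity)
      _ ≤ (n : ℝ) ^ s * ((d : ℝ) + 1) ^ (2 : ℝ) := by
          gcongr; linarith [Nat.cast_nonneg (α := ℝ) d]
      _ = _ := by rw [Real.rpow_two]
  have h4 : θ ^ d * Γ ^ d ≤ ((1 + θ) / 2) ^ d := by rw [← mul_pow]; gcongr
  calc θ ^ d * (Γ ^ (j - N) * (j : ℝ) ^ s)
      ≤ θ ^ d * ((Γ ^ (n - N) * Γ ^ d) * ((n : ℝ) ^ s * ((d : ℝ) + 1) ^ 2)) := by gcongr
    _ = (Γ ^ (n - N) * (n : ℝ) ^ s) * (((d : ℝ) + 1) ^ 2 * (θ ^ d * Γ ^ d)) := by ring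
    _ ≤ _ := by gcongr

theorem sum_weight_le {Γ : ℝ} (hΓ : 1 < Γ) (N m n : ℕ) (hm : 1 ≤ m) :
    ∑ j ∈ Icc m n, Γ ^ (j - N) ≤ (min n N : ℕ) + Γ ^ (n - N) * (Γ / (Γ - 1)) := by
  have h0 : 0 < Γ - 1 := by linarith
  induction n with
  | zero => rw [Icc_eq_empty (by omega)]; simp; positivity
  | succ n ih =>
    by_cases hmn : m ≤ n + 1
    · rw [sum_Icc_succ_top hmn]
      by_cases hN : n + 1 ≤ N
      · rw [min_eq_left hN, show n + 1 - N = 0 by omega]
        rw [min_eq_left (by omega), show n - N = 0 by omega] at ih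
        push_cast; linarith
      · rw [min_eq_right (by omega), show n + 1 - N = n - N + 1 by omega, pow_succ]
        rw [min_eq_right (by omega)] at ih
        have : Γ ^ (n - N) * Γ * (Γ / (Γ - 1)) = Γ ^ (n - N) * (Γ / (Γ - 1)) + Γ ^ (n - N) * Γ := by
          field_simp; ring
        linarith
    · rw [Icc_eq_empty (by omega), sum_empty]; positivity

/-- the amplification constant of the size -/
noncomputable def Mth (M θ : ℝ) : ℝ := M * (4 + 2 * cth θ)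

variable {C δ θ M B τ ε : ℝ} {a K : ℕ} {x y p q : ℕ → ℝ}

/-- bounds for the linearised solution when the orbit is close to `1/n` on `[m, N]` -/
theorem Orb.lin_bound (O : Orb C δ θ M B τ ε a K x y p q) (hC : 0 ≤ C) (hδ : 0 ≤ δ) (hθ : 0 ≤ θ)
    (hθ1 : θ < 1) (hM : 0 ≤ M) (hB : 0 ≤ B) (hτ : 0 ≤ τ) (hε : 0 < ε) (hεθ : 6 * ε ≤ 1 - θ)
    {κ : ℝ} (hκ : 0 < κ) (hκ1 : κ ≤ 1) (hw : om C δ ε + τ ≤ 1 / 100)
    (hw' : 30 * (om C δ ε + τ) * Mth M θ ≤ κ) {m N : ℕ} (ham : a ≤ m) (hm : 2 ≤ m) (hmN : m ≤ N)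
    (hNK : N ≤ K) (hcl : ∀ n, m ≤ n → n ≤ N → |x n - 1 / n| ≤ κ / 8 / n ∧ y n ≤ (1 + κ / 8) / n)
    {B₁ : ℝ} (hB₁ : ∑ j ∈ Icc a m, (|p j| + |q j|) ≤ B₁) :
    (∀ j, m ≤ j → j ≤ K → |p j| + |q j| ≤
      (8 * B₁ + B) * ((1 + 3 * ε) ^ (j - N) * (j : ℝ) ^ (1 + κ))) ∧
    ∀ n, m ≤ n → n < K → Abd M B θ a K x y p q n ≤
      Mth M θ * (10 * B₁ + 2 * B) * ((1 + 3 * ε) ^ (n - N) * (n : ℝ) ^ (1 + κ)) := by
  set Γ := 1 + 3 * ε with hΓ
  have Γ1 : 1 < Γ := by linarith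
  have hε1 : ε ≤ 1 / 100 := by linarith [le_om (δ := δ) hC hε.le]
  have hB1 : 0 ≤ B₁ := (sum_nonneg fun j _ => by positivity).trans hB₁
  have hG1 : ∀ n, m ≤ n → 1 ≤ Γ ^ (n - N) * (n : ℝ) ^ (1 + κ) := fun n hn =>
    one_le_mul_of_one_le_of_one_le (one_le_pow₀ Γ1.le)
      (Real.one_le_rpow (by exact_mod_cast (show 1 ≤ n by omega)) (by linarith))
  have hwn : ∀ n, m ≤ n → n < K → er C δ θ τ K x y n + (|x n| + y n) ≤ om C δ ε + τ :=
    fun n h1 h2 => er_le hC hδ hθ hθ1.le hτ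
      (add_nonneg (abs_nonneg _) (O.st n (by omega) h2).pos.le) (O.small n (by omega) h2.le)
  have hη3 : ∀ n, m ≤ n → n ≤ N → (|x n| + y n) * n ≤ 3 := fun n h1 h2 => by
    obtain ⟨k1, k2⟩ := hcl n h1 h2
    have n0 : (0 : ℝ) < n := by exact_mod_cast (show 0 < n by omega)
    have k3 := abs_add_le (x n - 1 / n) (1 / n)
    rw [sub_add_cancel, abs_of_pos (show (0 : ℝ) < 1 / n by positivity)] at k3
    rw [← le_div_iff₀ n0]
    have : κ / 8 / n + 1 / n + (1 + κ / 8) / n ≤ 3 / n := by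
      rw [← add_div, ← add_div]; gcongr; linarith
    linarith
  have hηN : ∀ n, N ≤ n → n ≤ K → (|x n| + y n) * N ≤ 3 * Γ ^ (n - N) := by
    intro n hn
    induction n, hn using Nat.le_induction with
    | base => intro _; simpa using hη3 N hmN le_rfl
    | succ n hn ih =>
      intro hK
      have i := ih (by omega)
      have s := O.st n (by omega) (by omega)
      have k1 := s.eta_le' (hwn n (by omega) (by omega)) hw
      have k2 : (|x n| + y n) * (1 + 3 * (|x n| + y n)) ≤ (|x n| + y n) * Γ := by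
        have := O.small n (by omega) (by omega)
        have := s.pos
        gcongr; linarith
      rw [show n + 1 - N = n - N + 1 by omega, pow_succ]
      calc _ ≤ (|x n| + y n) * Γ * N := by gcongr; linarith
        _ = (|x n| + y n) * N * Γ := by ring
        _ ≤ 3 * Γ ^ (n - N) * Γ := by gcongr
        _ = _ := by ring
  have hA : ∀ S, 0 ≤ S → (∀ j, m ≤ j → j ≤ K → |p j| + |q j| ≤ S * (Γ ^ (j - N) * (j : ℝ) ^ (1 + κ))) →
      ∀ n, m ≤ n → n < K → Abd M B θ a K x y p q n ≤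
        Mth M θ * ((B + 2 * B₁) + S) * (Γ ^ (n - N) * (n : ℝ) ^ (1 + κ)) := by
    intro S hS h n n1 n2
    have y0 := (O.st n (by omega) n2).pos
    have η0 : 0 ≤ |x n| + y n := by positivity
    have η1 := O.small n (by omega) n2.le
    have past : ∑ j ∈ Ico a m, (|p j| + |q j|) ≤ B₁ := le_trans (sum_le_sum_of_subset_of_nonneg
      Ico_subset_Icc_self fun j _ _ => by positivity) hB₁
    have split : ∀ (f : ℕ → ℝ) k, m ≤ k → ∑ j ∈ Icc a k, f j = ∑ j ∈ Ico a m, f j + ∑ j ∈ Icc m k, f j :=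
      fun f k hk => by
        rw [← Ico_add_one_right_eq_Icc, ← Ico_add_one_right_eq_Icc,
          sum_Ico_consecutive f ham (by omega)]
    set G := Γ ^ (n - N) * (n : ℝ) ^ (1 + κ) with hG
    have G1 : 1 ≤ G := hG1 n n1
    have s1 : ∑ j ∈ Icc a K, θ ^ Nat.dist j n * (|p j| + |q j|) ≤ B₁ + S * G * (2 * cth θ) := by
      rw [split _ K (by omega)]
      refine add_le_add (le_trans (sum_le_sum fun j _ => ?_) past) ?_
      · exact mul_le_of_le_one_left (by positivity) (pow_le_one₀ hθ hθ1.le)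
      · refine le_trans (sum_le_sum (g := fun j => S * G * ((((Nat.dist j n : ℕ) : ℝ) + 1) ^ 2 *
          ((1 + θ) / 2) ^ Nat.dist j n)) fun j hj => ?_) ?_
        · have k1 := weight_le (j := j) (s := 1 + κ) hθ Γ1.le (by nlinarith) (by linarith) (by linarith)
            N (show 1 ≤ n by omega)
          calc _ ≤ θ ^ Nat.dist j n * (S * (Γ ^ (j - N) * (j : ℝ) ^ (1 + κ))) := by
                gcongr; exact h j (mem_Icc.1 hj).1 (mem_Icc.1 hj).2
            _ = S * (θ ^ Nat.dist j n * (Γ ^ (j - N) * (j : ℝ) ^ (1 + κ))) := by ring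
            _ ≤ S * (G * _) := by gcongr
            _ = _ := by ring
        · rw [← mul_sum]
          exact mul_le_mul_of_nonneg_left (sum_dist_le
            (φ := fun i : ℕ => ((i : ℝ) + 1) ^ 2 * ((1 + θ) / 2) ^ i) (fun i => by positivity)
            (summable_cth hθ hθ1) _ n) (by positivity)
    have s2 : (|x n| + y n) * ∑ j ∈ Icc a n, (|p j| + |q j|) ≤ B₁ + S * G * 4 := by
      rw [split _ n n1, mul_add]
      refine add_le_add ((mul_le_of_le_one_left (sum_nonneg fun j _ => by positivity)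
        (by linarith)).trans past) ?_
      have k1 : ∑ j ∈ Icc m n, (|p j| + |q j|) ≤
          S * (n : ℝ) ^ (1 + κ) * ((min n N : ℕ) + Γ ^ (n - N) * (Γ / (Γ - 1))) := by
        refine le_trans ?_ (mul_le_mul_of_nonneg_left (sum_weight_le Γ1 N m n (by omega)) (by positivity))
        rw [mul_sum]
        refine sum_le_sum fun j hj => (h j (mem_Icc.1 hj).1 (by have := (mem_Icc.1 hj).2; omega)).trans ?_
        have : (j : ℝ) ≤ n := by exact_mod_cast (mem_Icc.1 hj).2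
        calc _ ≤ S * (Γ ^ (j - N) * (n : ℝ) ^ (1 + κ)) := by gcongr
          _ = _ := by ring
      have k2 : (|x n| + y n) * (min n N : ℕ) ≤ 3 * Γ ^ (n - N) := by
        rcases le_total n N with hl | hl
        · rw [min_eq_left hl, show n - N = 0 by omega]; simpa using hη3 n n1 hl
        · rw [min_eq_right hl]; exact hηN n hl n2.le
      have k3 : (|x n| + y n) * (Γ / (Γ - 1)) ≤ 1 := by
        rw [← mul_div_assoc, div_le_one (by linarith)]; nlinarith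
      have k4 := mul_le_mul_of_nonneg_left k3 (show 0 ≤ Γ ^ (n - N) by positivity)
      calc _ ≤ (|x n| + y n) * (S * (n : ℝ) ^ (1 + κ) *
            ((min n N : ℕ) + Γ ^ (n - N) * (Γ / (Γ - 1)))) := by gcongr
        _ = S * (n : ℝ) ^ (1 + κ) * ((|x n| + y n) * (min n N : ℕ) +
            Γ ^ (n - N) * ((|x n| + y n) * (Γ / (Γ - 1)))) := by ring
        _ ≤ S * (n : ℝ) ^ (1 + κ) * (3 * Γ ^ (n - N) + Γ ^ (n - N) * 1) := by gcongr
        _ = _ := by rw [hG]; ring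
    have c0 := cth_nonneg hθ
    have k5 : (B + 2 * B₁) * 1 ≤ (B + 2 * B₁) * ((4 + 2 * cth θ) * G) := by gcongr; nlinarith
    rw [Abd, Mth, mul_assoc, mul_assoc]
    exact mul_le_mul_of_nonneg_left (by linarith) hM
  have h1 := closed_abs (e := er C δ θ τ K x y) (p := p) (q := q) (A := Abd M B θ a K x y p q)
    (G := fun n => Γ ^ (n - N) * (n : ℝ) ^ (1 + κ)) (a := m) (K := K) (S₀ := B₁) hκ
    (fun n hn => lt_of_lt_of_le one_pos (hG1 n hn)) (show 0 ≤ B + 2 * B₁ by positivity) hB1 hw'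
    (fun n n1 n2 => ⟨(O.st n (by omega) n2).e_nonneg, by
      have := (O.st n (by omega) n2).pos
      linarith [hwn n n1 n2, abs_nonneg (x n)], (O.ln n (by omega) n2).A_nonneg⟩)
    (fun n n1 n2 S hS k1 k2 k3 => by
      have s := O.st n (by omega) n2
      have n2' : (2 : ℝ) ≤ n := by exact_mod_cast hm.trans n1
      rcases lt_or_ge n N with hl | hl
      · obtain ⟨r1, r2⟩ := (O.ln n (by omega) n2).grow hκ hκ1 n2' (hcl n n1 hl.le).1 s.pos.le
          (hcl n n1 hl.le).2 s.e_nonneg le_rfl k1 k2 k3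
        have r3 : S * (Γ ^ (n - N) * (n : ℝ) ^ (1 + κ)) * (1 + (1 + κ) / n) ≤
            S * (Γ ^ (n + 1 - N) * ((n + 1 : ℕ) : ℝ) ^ (1 + κ)) := by
          rw [show n + 1 - N = n - N by omega, mul_assoc, mul_assoc]
          gcongr
          push_cast
          exact rpow_succ_ge (by linarith) le_rfl (by linarith)
        exact ⟨r1.trans r3, r2.trans (by linarith)⟩
      · obtain ⟨r1, r2⟩ := (O.ln n (by omega) n2).crude hκ1 s.pos.le (O.small n (by omega) n2.le)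
          s.e_nonneg k1 k2 k3
        have r3 : S * (Γ ^ (n - N) * (n : ℝ) ^ (1 + κ)) * (1 + 3 * ε) ≤
            S * (Γ ^ (n + 1 - N) * ((n + 1 : ℕ) : ℝ) ^ (1 + κ)) := by
          rw [show n + 1 - N = n - N + 1 by omega, pow_succ, ← hΓ, mul_assoc, mul_right_comm]
          gcongr; omega
        exact ⟨r1.trans r3, r2.trans (by linarith)⟩)
    hA (le_trans (le_trans (single_le_sum (f := fun j => |p j| + |q j|) (fun j _ => by positivity)
      (mem_Icc.2 ⟨ham, le_rfl⟩)) hB₁) (le_mul_of_one_le_right hB1 (hG1 m le_rfl)))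
  have e1 : 6 * B₁ + (B + 2 * B₁) = 8 * B₁ + B := by ring
  rw [e1] at h1
  refine ⟨h1, fun n n1 n2 => (hA _ (by positivity) h1 n n1 n2).trans (le_of_eq (by ring))⟩

end Crest.Agent.T145.KT
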