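import Crest.Agent.T145.MidDef2_97
import Crest.Agent.T145.KtH_54

/-!
# Row 145: what the middle glue consumes from the flow (helper76)

`Odd` : provider `Fl` (82, 64).  `Lin` : provider `Ev` (2).  Consumer: `Mid*_76` (`Top.SlopeStmt`,
`Top.ScaleStmt`, `CritFlowStmt`).  Scales `r_k = 2 ^ (w k)`; `N` = dyadic index of the top of the verified
window (the provider chooses its torus as a function of `N`, not of `τ`).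
-/

set_option autoImplicit false

namespace Crest.Agent.T145.Mid

open Finset

/-- a critical window from `l` up to `2 ^ N` -/
def Cw (θ₀ δ : ℝ) (Λ : Lat) (l N : ℕ) : Prop :=
  Λ.Win θ₀ δ l (2 ^ N) ∧ |Λ.gN l - 2 / Real.pi| ≤ δ

/-- the flow variables `x Λ N k`, `y Λ N k` -/
structure Fw where
  w : ℕ
  x : Lat → ℕ → ℕ → ℝ
  y : Lat → ℕ → ℕ → ℝ

/-- constants -/
structure Par where
  s : ℕ
  C : ℝ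
  d : ℝ
  θ : ℝ
  ε₀ : ℝ
  δ : ℝ
  C0 : 0 ≤ C
  d0 : 0 < d
  d1 : d < 1
  θ0 : 0 < θ
  θ1 : θ < 1
  ε0 : 0 < ε₀
  δ0 : 0 < δ

namespace Fw
variable (φ : Fw)

/-- `κ = π log W` -/
noncomputable def κ : ℝ := Real.pi * Real.log (2 ^ φ.w)

/-- `r_k` -/
def r (k : ℕ) : ℕ := 2 ^ (φ.w * k)

/-- `η` -/
noncomputable def η (Λ : Lat) (N k : ℕ) : ℝ := |φ.x Λ N k| + φ.y Λ N k

/-- the orbit is `ε`-small on `[a, k]` -/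
def Ball (Λ : Lat) (N : ℕ) (ε : ℝ) (a k : ℕ) : Prop := ∀ j, a ≤ j → j ≤ k → φ.η Λ N j ≤ ε

/-- the relative error of a step -/
noncomputable def er (P : Par) (Λ : Lat) (N k : ℕ) : ℝ :=
  P.C * (φ.η Λ N k ^ P.d + P.θ ^ (N - φ.w * k))

/-- the scale `k` lies in the verified range -/
def V (F : Fa) (θ₀ : ℝ) (P : Par) (Λ : Lat) (l N k : ℕ) : Prop :=
  F.Mem Λ ∧ Cw θ₀ P.δ Λ l N ∧ φ.w * (k + 1) + P.s ≤ N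

end Fw

/-- the odd flow -/
structure Odd (F : Fa) (θ₀ : ℝ) (φ : Fw) (P : Par) : Prop where
  w1 : 1 ≤ φ.w
  /-- the flow equations -/
  step : ∀ l a, ∃ a₁, ∀ Λ N k, φ.V F θ₀ P Λ l N k → a₁ ≤ k → φ.Ball Λ N P.ε₀ a k →
    KT.St (φ.er P Λ N k) (φ.x Λ N k) (φ.y Λ N k) (φ.x Λ N (k + 1)) (φ.y Λ N (k + 1))
  /-- `y` is bounded below at a fixed scale -/
  pos : ∀ l, ∃ a₁, ∀ k, a₁ ≤ k → ∃ c, 0 < c ∧ ∀ Λ N, φ.V F θ₀ P Λ l N k → c ≤ φ.y Λ N k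
  /-- `y` is small in a good window -/
  ent : ∀ ε, 0 < ε → ∃ (δ₃ : ℝ) (m : ℕ), 0 < δ₃ ∧ ∀ l, ∃ a₁, ∀ Λ N k, φ.V F θ₀ P Λ l N k → a₁ ≤ k →
    φ.w * k + m ≤ N → Λ.Win θ₀ δ₃ l (2 ^ (φ.w * k + m)) → φ.y Λ N k ≤ ε
  /-- the norm of `J` from scale `r_k` on -/
  nu : ∀ l, ∃ a₁, ∀ Λ N k, φ.V F θ₀ P Λ l N k → a₁ ≤ k → ∀ (r c : ℕ) (z : Pt), φ.r k ≤ r →
    r ≤ φ.r (k + 1) → 2 ^ P.s * r ≤ c →
      Nc.Nm Λ z c (Nc.St Λ z r (Jz z)) ≤ P.C * φ.y Λ N k / (r : ℝ) ^ 2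
  /-- the two-point function of `J` from scale `r_k` on, in every centred model -/
  kb : ∀ l, ∃ a₁, ∀ Λ N k, φ.V F θ₀ P Λ l N k → a₁ ≤ k → ∀ (r : ℕ) (m : Mdl Pt) (z z' : Pt),
    φ.r k ≤ r → 2 ^ P.s * r ≤ 2 ^ N → Nc.Amb Λ m (bl z (2 ^ P.s * r)) →
    Nc.Amb Λ m (bl z' (2 ^ P.s * r)) → Disjoint (bl z (2 ^ P.s * r)) (bl z' (2 ^ P.s * r)) →
      |Ex (m.W 0) fun s => Jz z s * Jz z' s| ≤ P.C * φ.y Λ N k ^ 2 / (φ.r k * (r : ℝ) ^ 3)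
  /-- `x` is the running stiffness, in every centred model containing a ball of radius `2 ^ N` -/
  gj : ∀ l, ∃ (a₁ : ℕ) (B : ℝ), ∀ Λ N k, φ.V F θ₀ P Λ l N k → a₁ ≤ k →
    ∀ (r : ℕ) (m : Mdl Pt) (z : Pt), φ.r k ≤ r → r ≤ φ.r (k + 1) → Nc.Amb Λ m (bl z (2 ^ N)) →
      |φ.κ * (gJ (m.W 0) z r - 2 / Real.pi) - φ.x Λ N k| ≤
        P.C * φ.y Λ N k ^ 2 + B * (P.θ ^ (N - φ.w * k) + P.θ ^ k)
  /-- dependence of `x` on the ambient torus -/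
  ambx : ∀ l, ∃ (a₁ : ℕ) (B : ℝ), ∀ Λ N N' k, φ.V F θ₀ P Λ l N k → φ.V F θ₀ P Λ l N' k → N ≤ N' →
    a₁ ≤ k → |φ.x Λ N k - φ.x Λ N' k| ≤ B * P.θ ^ (N - φ.w * k)
  /-- dependence of `y` on the ambient torus -/
  amby : ∀ l, ∃ a₁, ∀ k, a₁ ≤ k → ∀ ε, 0 < ε → ∃ N₀, ∀ Λ N N', φ.V F θ₀ P Λ l N k →
    φ.V F θ₀ P Λ l N' k → N₀ ≤ N → N₀ ≤ N' → |φ.y Λ N k - φ.y Λ N' k| ≤ ε

/-- the operator product expansion of `J` and the charged mean (clause (3) of `CritFlow2Stmt`) -/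
def Ope (F : Fa) (θ₀ : ℝ) (φ : Fw) (P : Par) : Prop :=
  ∀ l a, ∃ (a₁ : ℕ) (B : ℝ), ∀ Λ N k, φ.V F θ₀ P Λ l N k → a₁ ≤ k → φ.Ball Λ N P.ε₀ a k →
    ∀ r : ℕ, φ.r k ≤ r → r ≤ φ.r (k + 1) → ∃ (α : ℝ) (ξ : Pt → ℝ), Sup (bl 0 r) ξ ∧
      ∑ x ∈ bl 0 r, ξ x = 1 ∧ ∀ z : Pt,
      (∀ c : ℕ, 2 ^ P.s * r ≤ c → Nc.Nm Λ z c (Nc.St Λ z r fun s =>
        Jz z s - α * Real.sin (2 * Real.pi * pr (fun x => ξ (x - z)) s)) ≤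
          P.C * φ.η Λ N k ^ (1 + P.d) / (r : ℝ) ^ 2) ∧
      ∀ m : Mdl Pt, Nc.Amb Λ m (bl z (2 ^ N)) →
        |α| * Ph (m.W 0) ((2 * Real.pi) • pr fun x => ξ (x - z)) ≤
          (P.C * φ.η Λ N k ^ (1 + P.d) + B * P.θ ^ (N - φ.w * k)) / (r : ℝ) ^ 2

/-- the size of the linearised flow at scale `n`, horizon `K` -/
noncomputable def sz (φ : Fw) (P : Par) (p q : Lat → ℕ → ℕ → ℝ) (B : ℝ) (a K : ℕ) (Λ : Lat)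
    (N n : ℕ) : ℝ :=
  KT.Abd P.C B P.θ a K (φ.x Λ N) (φ.y Λ N) (p Λ N) (q Λ N) n

/-- the `τ`-derivative of the flow: `p = ∂_τ x`, `q = ∂_τ y` -/
structure Lin (F : Fa) (θ₀ : ℝ) (φ : Fw) (P : Par) (p q : Lat → ℕ → ℕ → ℝ) : Prop where
  der : ∀ l, ∃ a₁, ∀ Λ N k, φ.V F θ₀ P Λ l N k → a₁ ≤ k →
    HasDerivAt (fun τ => φ.x (Λ.at' τ) N k) (p Λ N k) Λ.τ ∧
    HasDerivAt (fun τ => φ.y (Λ.at' τ) N k) (q Λ N k) Λ.τ ∧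
    ContinuousAt (fun τ => p (Λ.at' τ) N k) Λ.τ ∧ ContinuousAt (fun τ => q (Λ.at' τ) N k) Λ.τ
  /-- the linearised flow equations and non-degeneracy -/
  lin : ∃ c, 0 < c ∧ ∀ l a, ∃ a₁, ∀ a₂, a₁ ≤ a₂ → ∃ B, 0 ≤ B ∧ ∀ Λ N K n, φ.V F θ₀ P Λ l N K →
    φ.Ball Λ N P.ε₀ a K → a₂ ≤ n → n < K →
      KT.Ln (φ.er P Λ N n) (φ.x Λ N n) (φ.y Λ N n) (p Λ N n) (q Λ N n) (p Λ N (n + 1))
        (q Λ N (n + 1)) (sz φ P p q B a₂ K Λ N n) ∧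
      c - φ.er P Λ N n * (1 + sz φ P p q B a₂ K Λ N n) ≤ p Λ N n
  /-- dependence on the ambient torus -/
  amb : ∀ l a, ∃ a₁, ∀ k, a₁ ≤ k → ∀ ε, 0 < ε → ∃ N₀, ∀ Λ N N', φ.V F θ₀ P Λ l N k →
    φ.V F θ₀ P Λ l N' k → φ.Ball Λ N P.ε₀ a k → φ.Ball Λ N' P.ε₀ a k → N₀ ≤ N → N₀ ≤ N' →
      |p Λ N k - p Λ N' k| + |q Λ N k - q Λ N' k| ≤ ε

/-- provider: `Fl` -/
def OddStmt : Prop := ∀ (F : Fa) (θ₀ : ℝ), 0 < θ₀ → ∃ φ P, Odd F θ₀ φ P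

/-- provider: `Fl` (only `J = nn`, XY is used) -/
def OpeStmt : Prop := ∀ (F : Fa) (θ₀ : ℝ), F.J = nn → F.xy = true → 0 < θ₀ →
  ∃ φ P, Odd F θ₀ φ P ∧ Ope F θ₀ φ P

/-- provider: `Fl` and `Ev` (same `φ`, independent constants; only `J = nn`, XY is used) -/
def LinStmt : Prop := ∀ (F : Fa) (θ₀ : ℝ), F.J = nn → F.xy = true → 0 < θ₀ →
  ∃ φ P P' p q, Odd F θ₀ φ P ∧ Lin F θ₀ φ P' p q

end Crest.Agent.T145.Mid
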