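import Crest.Agent.T145.TauD_5
import Crest.Agent.T145.Sc_97

/-!
# Row 145: signs of single-edge energy insertions (one-sided links) (helper5)
-/

set_option autoImplicit false

namespace Crest.Agent.T145.Tau5

open Finset Filter Topology

theorem deriv_nonpos_of_left {φ : ℝ → ℝ} {φ' τ : ℝ} (h : HasDerivAt φ φ' τ)
    (hl : ∀ᶠ t in 𝓝[<] τ, φ τ ≤ φ t) : φ' ≤ 0 := by
  refine le_of_tendsto (h.tendsto_slope.mono_left (nhdsLT_le_nhdsNE τ)) ?_
  filter_upwards [hl, self_mem_nhdsWithin] with t h1 h2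
  rw [slope_def_field]
  exact div_nonpos_of_nonneg_of_nonpos (sub_nonneg.2 h1) (sub_nonpos.2 (le_of_lt h2))

section grp
variable {L : Type} [AddCommGroup L] [IsAddTorsionFree L] {ρ : L → ℝ} {xy : Bool} {τ : ℝ}

omit [IsAddTorsionFree L] in
theorem hasDerivAt_edge (hρ : RSD ρ) (d : L →+ ℤ) (hτ : 0 < τ)
    (hc : Cen fun s => ρ s * kern xy τ (d s)) (hS : SE fun s => ρ s * kern xy (2 * τ) (d s))
    {F : L → ℝ} (hF : Tame F) :
    HasDerivAt (fun t => Ex (fun s => ρ s * kern xy t (d s)) F)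
      (Cv (fun s => ρ s * kern xy τ (d s)) F fun s => eps xy τ (d s)) τ := by
  have e : ∀ t, wt ρ (univ : Finset Unit) (fun _ s => d s) xy t = fun s => ρ s * kern xy t (d s) :=
    fun t => funext fun s => by simp [wt]
  have e' : en (univ : Finset Unit) (fun _ s => d s) xy τ = fun s => eps xy τ (d s) :=
    funext fun s => by simp [en]
  have h := hasDerivAt_ex (ρ := ρ) (E := (univ : Finset Unit)) (d := fun _ s => d s) (xy := xy)
    hρ.nonneg (fun _ _ => Tame.hom ((Int.castAddHom ℝ).comp d)) hτ (e _ ▸ hS) (e _ ▸ hc.wt) hF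
  simpa only [e, e'] using h

theorem loc_edge (hρ : RSD ρ) (d : L →+ ℤ) (hτ : 0 < τ) (hc : Cen fun s => ρ s * kern xy τ (d s)) :
    ∀ᶠ t in 𝓝[<] τ, Loc (fun s => ρ s * kern xy t (d s)) fun s => ρ s * kern xy τ (d s) := by
  filter_upwards [Ioo_mem_nhdsLT hτ] with t ht
  exact shortStmt L ρ d _ _ hρ ⟨xy, t, τ, ht.1, ht.2.le, rfl, rfl⟩ hc

/-- a PD function is negatively correlated with the energy of an edge -/
theorem cv_pd_edge (hρ : RSD ρ) (d : L →+ ℤ) (hτ : 0 < τ)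
    (hc : Cen fun s => ρ s * kern xy τ (d s)) (hS : SE fun s => ρ s * kern xy (2 * τ) (d s))
    {G : L → ℝ} (hG : PD G) :
    Cv (fun s => ρ s * kern xy τ (d s)) G (fun s => eps xy τ (d s)) ≤ 0 :=
  deriv_nonpos_of_left (hasDerivAt_edge hρ d hτ hc hS ((Tame.const (G 0)).of_le fun s =>
    (hG.abs_le s))) ((loc_edge hρ d hτ hc).mono fun _ h => h.2 G hG)

/-- an exponential is positively correlated with the energy of an edge -/
theorem cv_exp_edge (hρ : RSD ρ) (d : L →+ ℤ) (hτ : 0 < τ)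
    (hc : Cen fun s => ρ s * kern xy τ (d s)) (hS : SE fun s => ρ s * kern xy (2 * τ) (d s))
    (f : L →+ ℝ) :
    0 ≤ Cv (fun s => ρ s * kern xy τ (d s)) (fun s => Real.exp (f s)) fun s => eps xy τ (d s) := by
  have hp := hc.wt.ex_exp_pos hc.se f
  have h := deriv_nonpos_of_left ((hasDerivAt_edge hρ d hτ hc hS (Tame.exp f)).log hp.ne').neg
    ((loc_edge hρ d hτ hc).mono fun _ h => neg_le_neg (h.1 f))
  simpa using (le_div_iff₀ hp).1 (neg_nonpos.1 h)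

end grp

section mdl
variable {V : Type} [DecidableEq V] {m : Mdl V} {xy : Bool} {τ : ℝ} {e : V × V}

/-- the model with the kernel of the edge `e` replaced -/
noncomputable def upd (m : Mdl V) (e : V × V) (u : ℤ → ℝ) : Mdl V :=
  { m with w := Function.update m.w e u }

theorem upd_ctr (hc : m.Ctr) {u : ℤ → ℝ} (hu : Fam u) : (upd m e u).Ctr :=
  ⟨fun e' he' => by
    by_cases h : e' = e
    · simpa only [upd, h, Function.update_self] using hu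
    · simpa only [upd, Function.update_of_ne h] using hc.1 e' he', hc.2⟩

theorem upd_Ws (he : e ∈ m.ed) (u : ℤ → ℝ) (q : ℤ) : (upd m e u).Ws 0 (Pi.single e q) =
    fun s => (m.keep (m.ed.erase e)).W 0 s * u (dH e s + q) := funext fun s => by
  simp only [Mdl.W, Mdl.Ws, Mdl.keep, upd, dH_apply]
  rw [← mul_prod_erase _ _ he, Pi.single_eq_same, Function.update_self, prod_congr rfl fun e' he' => by
    rw [Pi.single_eq_of_ne (mem_erase.1 he').1, add_zero, Function.update_of_ne (mem_erase.1 he').1]]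
  ring

theorem upd_W (he : e ∈ m.ed) (u : ℤ → ℝ) :
    (upd m e u).W 0 = fun s => (m.keep (m.ed.erase e)).W 0 s * u (dH e s) := by
  rw [Mdl.W_eq_Ws, ← Pi.single_zero e, upd_Ws he]; simp only [add_zero]

theorem upd_self {u : ℤ → ℝ} (hw : m.w e = u) : upd m e u = m := by
  rw [upd, ← hw, Function.update_eq_self]

theorem W_edge (he : e ∈ m.ed) (hw : m.w e = kern xy τ) :
    m.W 0 = fun s => (m.keep (m.ed.erase e)).W 0 s * kern xy τ (dH e s) := by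
  rw [← upd_W he, upd_self hw]

theorem se_edge (hc : m.Ctr) (hA : m.Anch) (he : e ∈ m.ed) (hτ : 0 < τ) :
    SE fun s => (m.keep (m.ed.erase e)).W 0 s * kern xy τ (dH e s) :=
  upd_W he (kern xy τ) ▸ (Md.ctr_cen (upd_ctr hc ⟨xy, τ, hτ, rfl⟩) hA).se

theorem cv_pd (hc : m.Ctr) (hA : m.Anch) (he : e ∈ m.ed) (hτ : 0 < τ) (hw : m.w e = kern xy τ)
    {G : Cfg V → ℝ} (hG : PD G) : Cv (m.W 0) G (fun s => eps xy τ (dE e s)) ≤ 0 := by
  have h := Md.ctr_cen hc hA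
  rw [W_edge he hw] at h ⊢
  exact cv_pd_edge (hc.keep (erase_subset e m.ed)).rsd (dH e) hτ h
    (se_edge hc hA he (by positivity)) hG

theorem cv_cos (hc : m.Ctr) (hA : m.Anch) (he : e ∈ m.ed) (hτ : 0 < τ) (hw : m.w e = kern xy τ)
    (ξ : Cfg V →+ ℝ) : Cv (m.W 0) (fun s => Real.cos (ξ s)) (fun s => eps xy τ (dE e s)) ≤ 0 :=
  cv_pd hc hA he hτ hw (pd_cos ξ)

theorem cv_exp (hc : m.Ctr) (hA : m.Anch) (he : e ∈ m.ed) (hτ : 0 < τ) (hw : m.w e = kern xy τ)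
    (f : Cfg V →+ ℝ) : 0 ≤ Cv (m.W 0) (fun s => Real.exp (f s)) fun s => eps xy τ (dE e s) := by
  have h := Md.ctr_cen hc hA
  rw [W_edge he hw] at h ⊢
  exact cv_exp_edge (hc.keep (erase_subset e m.ed)).rsd (dH e) hτ h
    (se_edge hc hA he (by positivity)) f

theorem cv_sq (hc : m.Ctr) (hA : m.Anch) (he : e ∈ m.ed) (hτ : 0 < τ) (hw : m.w e = kern xy τ)
    (X : Cfg V →+ ℝ) : Vr (m.W 0) X (dR e) ^ 2 / τ ^ 2 ≤
      Cv (m.W 0) (fun s => X s * X s) fun s => eps xy τ (dE e s) := by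
  have hn := hc.keep (erase_subset e m.ed)
  rw [W_edge he hw]
  exact nondeg_edge hn.rsd (ctr_pd hn) (Md.W_pos hn.1 (fun _ _ => rfl) fun x hx => (hn.2 x hx).2.2)
    (dH e) hτ (fun q => upd_Ws he (kern xy τ) q ▸
      Md.ctr_ses (upd_ctr hc ⟨xy, τ, hτ, rfl⟩) hA 0 _) X

theorem cv_sq_nonneg (hc : m.Ctr) (hA : m.Anch) (he : e ∈ m.ed) (hτ : 0 < τ)
    (hw : m.w e = kern xy τ) (X : Cfg V →+ ℝ) :
    0 ≤ Cv (m.W 0) (fun s => X s * X s) fun s => eps xy τ (dE e s) :=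
  le_trans (by positivity) (cv_sq hc hA he hτ hw X)

end mdl

/-- the energy insertion of `Sc_97` is `eps` -/
theorem en_eq {Λ : Lat} (h : Λ.Ok) (σ : Pt × Pt → ℤ) (e : Pt × Pt) (s : Cfg Pt) :
    Λ.en σ e s = eps Λ.xy Λ.τ (nE σ e s) := by
  have h1 := kern_pos Λ.xy h.2 (nE σ e s)
  rw [Lat.en, ((hasDerivAt_kern Λ.xy h.2 _).log h1.ne').deriv, mul_div_cancel_left₀ _ h1.ne']

theorem en_eq0 {Λ : Lat} (h : Λ.Ok) (e : Pt × Pt) : Λ.en 0 e = fun s => eps Λ.xy Λ.τ (dE e s) :=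
  funext fun s => by rw [en_eq h, nE, Pi.zero_apply, add_zero]

theorem men_eq {Λ : Lat} (h : Λ.Ok) (m : Mdl Pt) (σ : Pt × Pt → ℤ) :
    m.en Λ.xy Λ.τ σ = fun s => ∑ e ∈ m.ed, Λ.en σ e s :=
  funext fun s => sum_congr rfl fun e _ => (en_eq h σ e s).symm

theorem tame_len {Λ : Lat} (h : Λ.Ok) (σ : Pt × Pt → ℤ) (e : Pt × Pt) : Tame (Λ.en σ e) :=
  (tame_eps (tame_d σ e) Λ.xy h.2).congr fun s => (en_eq h σ e s).symm

/-- energy insertion on the torus -/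
theorem hasDerivAt_exT {Λ : Lat} (h : Λ.Ok) (n : ℕ) {F : Cfg Pt → ℝ} (hF : Tame F) :
    HasDerivAt (fun t => (Λ.at' t).exT n F)
      (∑ e ∈ (Λ.T n).ed, Cv ((Λ.T n).W 0) F (Λ.en 0 e)) Λ.τ := by
  have h1 := ctr_hasDerivAt (xy := Λ.xy) (h.ctr_T n) (h.anch_T n) 0 h.2 hF
  have hS := (h.cen_T n).se
  rw [men_eq h, T_len, Cv_comm, Cv_sum_left _ (fun e _ => hS.ig (tame_len h 0 e))
    fun e _ => hS.ig ((tame_len h 0 e).mul hF)] at h1
  exact h1.congr_deriv (sum_congr rfl fun e _ => Cv_comm _ _ _)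

theorem T_cv_pd {Λ : Lat} (h : Λ.Ok) {n : ℕ} {e : Pt × Pt} (he : e ∈ (Λ.T n).ed) {G : Cfg Pt → ℝ}
    (hG : PD G) : Cv ((Λ.T n).W 0) G (Λ.en 0 e) ≤ 0 :=
  en_eq0 h e ▸ cv_pd (h.ctr_T n) (h.anch_T n) he h.2 rfl hG

theorem T_cv_sq {Λ : Lat} (h : Λ.Ok) {n : ℕ} {e : Pt × Pt} (he : e ∈ (Λ.T n).ed) (X : Cfg Pt →+ ℝ) :
    Vr ((Λ.T n).W 0) X (dR e) ^ 2 / Λ.τ ^ 2 ≤ Cv ((Λ.T n).W 0) (fun s => X s * X s) (Λ.en 0 e) :=
  en_eq0 h e ▸ cv_sq (h.ctr_T n) (h.anch_T n) he h.2 rfl X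

end Crest.Agent.T145.Tau5
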