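import Crest.Agent.T145.FlDef_82
import Crest.Agent.T145.MidDef_76
import Crest.Agent.T145.Om_11

/-!
# Row 145, the odd flow: soft inputs in a window, the core, packaging into `Mid.Odd` (helper82)

Order of constants: family, `θ₀`, (`w`, `r₀`), `W = 2 ^ v`, (`s`, `δ₀`), `C`, `D`, `y₀`, `δ`, `l`, `r₁`, `k₀`.
-/

set_option autoImplicit false

namespace Crest.Agent.T145.Fl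

open Finset Pot Xi Real

/-- a window with two tolerances -/
def Cw2 (θ₀ δ₀ δ : ℝ) (Λ : Lat) (l N : ℕ) : Prop := Λ.Win θ₀ δ l (2 ^ N) ∧ |Λ.gN l - 2 / π| ≤ δ₀

/-! ## Soft inputs -/

/-- SG: `(A₀ v, s)` is Gaussian and almost independent of the outside, at every scale of a window -/
def SgStmt : Prop := ∀ (F : Fa) (θ₀ K ε : ℝ), 0 < θ₀ → 1 ≤ K → 0 < ε → ∃ δ : ℝ, 0 < δ ∧ ∀ l : ℕ, ∃ r₁ : ℕ,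
  ∀ Λ N, F.Mem Λ → Λ.Win θ₀ δ l (2 ^ N) → ∀ (z : Pt) (n : ℕ) (v : Pt → ℝ) (m : Mdl Pt), r₁ ≤ n →
    n ≤ 2 ^ N → Pot.Sup (bl z n) v → (∀ x, |A0 v x| ≤ K / (n : ℝ) ^ 2) → E0 (bl z n) v ≤ K →
    Nc.Amb Λ m (bl z (n + 1)) →
      Gs3 (m.W 0) (pr (A0 v)) (Λ.gN l * E0 (bl z n) v) ε ∧
      ∀ G : Cfg Pt → ℝ, Out (bl z n) G → (∀ s, |G s| ≤ 1) →
        |Ex (m.W 0) fun s => pr (A0 v) s * G s| ≤ ε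

/-- SC: charged expectations are small in a window -/
def ScStmt : Prop := ∀ (F : Fa) (θ₀ K ε : ℝ), 0 < θ₀ → 1 ≤ K → 0 < ε → ∃ (δ : ℝ) (s : ℕ), 0 < δ ∧
  ∀ l : ℕ, ∃ r₁ : ℕ, ∀ Λ N, F.Mem Λ → Λ.Win θ₀ δ l (2 ^ N) →
    ∀ (z : Pt) (R n : ℕ) (ξ : Pt → ℝ) (q : ℤ) (φ : ℝ) (m : Mdl Pt), r₁ ≤ R → 2 ^ s * R ≤ n → n ≤ 2 ^ N →
      q ≠ 0 → Chq (bl z R) ξ q → (∀ x, |ξ x| ≤ K / (R : ℝ) ^ 2) → Nc.Amb Λ m (bl z n) →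
      |Ex (m.W 0) (cp ξ φ)| ≤ ε

/-- LOW: sharp lower bound for two sines, off centre; `c` does not depend on the ratio `V` -/
def LowStmt : Prop := ∀ (F : Fa) (θ₀ η : ℝ), 0 < θ₀ → 0 < η → ∃ c : ℝ, 0 < c ∧ ∀ V : ℝ, 1 ≤ V →
  ∃ (δ : ℝ) (s : ℕ), 0 < δ ∧ ∀ l : ℕ, ∃ r₁ : ℕ, ∀ Λ N, F.Mem Λ → Mid.Cw θ₀ δ Λ l N →
    ∀ (ρ R : ℝ) (z : Pt) (n : ℕ) (m : Mdl Pt), (r₁ : ℝ) ≤ ρ → 4 * ρ ≤ R → R ≤ V * ρ → eu z ≤ R →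
      2 ^ s * R ≤ n → n ≤ 2 ^ N → Nc.Amb Λ m (bl 0 n) →
      c * (ρ / R) ^ (2 + η) ≤ Ex (m.W 0) fun t => trl z (Sn ρ) t * Sn R t

/-- KS: the odd kernel theorem in a window -/
def KsWStmt : Prop := ∀ (p : Par) (θ₀ : ℝ), 0 < θ₀ → ∃ W₀ : ℕ, ∀ W : ℕ, W₀ ≤ W →
  ∃ (δ : ℝ) (s : ℕ), 0 < δ ∧ ∀ l : ℕ, ∃ r₁ : ℕ, ∀ Λ N L, Gs p Λ L → Mid.Cw θ₀ δ Λ l N →
    2 ^ s * L ≤ 2 ^ N → ∀ r : ℕ, p.r₀ ≤ r → r₁ ≤ r → p.w * (W * r) ≤ L → Ks p.w W Λ r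

/-- SMALL in a window -/
def SmallWStmt : Prop := ∀ (p : Par) (θ₀ : ℝ), 0 < θ₀ → ∃ W₀ : ℕ, ∀ W : ℕ, W₀ ≤ W →
  ∃ (δ₀ : ℝ) (s : ℕ), 0 < δ₀ ∧ ∀ ε₁ : ℝ, 0 < ε₁ → ∃ δ : ℝ, 0 < δ ∧ ∀ l r₁ : ℕ, ∃ r₂ : ℕ, r₁ ≤ r₂ ∧
    ∀ Λ N L, Gs p Λ L → Cw2 θ₀ δ₀ δ Λ l N → 2 ^ s * L ≤ 2 ^ N →
      (∀ r : ℕ, p.r₀ ≤ r → r₁ ≤ r → p.w * (W * r) ≤ L → Ks p.w W Λ r) → Small p W Λ r₂ L ε₁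

/-- ENTLOW: the charged expectation decays slower than any power -/
def EntLowStmt : Prop := ∀ (F : Fa) (θ₀ η : ℝ), 0 < θ₀ → 0 < η → ∃ (δ : ℝ) (s : ℕ), 0 < δ ∧
  ∀ l : ℕ, ∃ (r₁ : ℕ) (c : ℝ), 0 < c ∧ ∀ Λ N, F.Mem Λ → Mid.Cw θ₀ δ Λ l N →
    ∀ (R : ℝ) (n : ℕ) (m : Mdl Pt), (r₁ : ℝ) ≤ R → 2 ^ s * R ≤ n → n ≤ 2 ^ N → Nc.Amb Λ m (bl 0 n) →
      c * R ^ (-η) ≤ Ex (m.W 0) (cp (xi R) 0)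

/-- LINK: the running stiffness is the stiffness of the window -/
def LinkStmt : Prop := ∀ (p : Par) (θ₀ ε : ℝ), 0 < θ₀ → 0 < ε → ∃ C δ : ℝ, 0 ≤ C ∧ 0 < δ ∧
  ∀ l : ℕ, ∃ r₁ : ℕ, ∀ Λ ω L N' N, Env p Λ ω L N' → Λ.Win θ₀ δ l (2 ^ N) → L ≤ 2 ^ N →
    ∀ R Y : ℝ, Maj p Λ L R Y → C * Y ≤ 1 → (r₁ : ℝ) ≤ R → C * R ≤ L → |gk ω R - Λ.gN l| ≤ ε

/-- ENT with a free range constant -/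
def Ent2Stmt : Prop := ∀ w : ℕ, ∃ W₀ : ℕ, ∀ (p : Par) (W : ℕ), p.w = w → W₀ ≤ W → ∃ C₀ D : ℝ, 1 ≤ D ∧
  ∀ C : ℝ, C₀ ≤ C → ∀ y₀ : ℝ, 0 < y₀ → ∃ ε₁ : ℝ, 0 < ε₁ ∧ ∀ r₁ : ℕ,
    (∃ k₀ : ℕ, ∀ Λ ω L N, Pack p W Λ ω r₁ L N → Small p W Λ r₁ L ε₁ → ∀ R : ℝ, Rk W k₀ ≤ R →
      Maj p Λ L R y₀) ∧
    ∀ (k₁ : ℕ) (c : ℝ), 0 < c → ∃ k₀ : ℕ, ∀ Λ ω L N, Pack p W Λ ω r₁ L N → Small p W Λ r₁ L ε₁ →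
      (∀ k, k₁ ≤ k → C * Rk W k ≤ L → 1 / 4 ≤ gk ω (Rk W k) ∧ gk ω (Rk W k) ≤ 1 ∧
        c * Rk W k ^ (-ew p.w / 2) ≤ ω (cp (xi (Rk W k)) 0)) →
      ∀ k, k₀ ≤ k → C * Rk W k ≤ L →
        Maj p Λ L (Rk W k) (D * yk ω W (Rk W k)) ∧ yk ω W (Rk W k) ≤ y₀

/-! ## Change of the ambient model -/

/-- AMB0 -/
def Amb0Stmt : Prop := ∀ w : ℕ, ∃ C : ℝ, 0 ≤ C ∧ ∀ (p : Par) (Λ : Lat) (L : ℕ), p.w = w → Gs p Λ L →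
  ∀ (m m' : Mdl Pt) (z z' : Pt) (a : ℕ) (G : Cfg Pt → ℝ), Nc.Amb Λ m (bl z L) → Nc.Amb Λ m' (bl z' L) →
    p.r₀ ≤ a → w * a ≤ L → Ins 0 a G →
    |Ex (m.W 0) (trl z G) - Ex (m'.W 0) (trl z' G)| ≤ C * ((a : ℝ) / L) ^ cw w * nu Λ w 0 a G

/-- AMBK -/
def AmbKStmt : Prop := ∀ p : Par, ∃ C : ℝ, 0 ≤ C ∧ ∀ (Λ : Lat) (L : ℕ), Gs p Λ L → ∀ R Y M : ℝ,
  Maj p Λ L R Y → 1 ≤ M → ∀ (m m' : Mdl Pt) (z z' : Pt) (n : ℕ), Nc.Amb Λ m (bl z L) →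
    Nc.Amb Λ m' (bl z' L) → (n : ℝ) ≤ M * R → C * n ≤ L →
    ∑ x ∈ bl 0 n, |Ex (m.W 0) (fun s => Jz z s * Jz (z + x) s) -
        Ex (m'.W 0) fun s => Jz z' s * Jz (z' + x) s| * eu x ^ 2 ≤ C * M * Y ^ 2 * (R / L) ^ cw p.w

/-! ## The core -/

/-- the constants of the flow -/
structure Dat where
  p : Par
  v : ℕ
  s : ℕ
  C : ℝ
  D : ℝ
  δ₀ : ℝ

/-- the radius on which the torus of side `2 ^ N` is the lattice -/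
def nA (Λ : Lat) (N : ℕ) : ℕ := 2 ^ (N - 1) - Λ.rg - 1

/-- the torus state -/
noncomputable def tor (Λ : Lat) (N : ℕ) : (Cfg Pt → ℝ) → ℝ := Om.om Λ (2 ^ N)

namespace Dat
variable (q : Dat)

def W : ℕ := 2 ^ q.v
def L (N : ℕ) : ℕ := 2 ^ (N - q.s)
noncomputable def R (k : ℕ) : ℝ := Rk q.W k
noncomputable def x (Λ : Lat) (N k : ℕ) : ℝ := xk (tor Λ N) q.W (q.R k)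
noncomputable def y (Λ : Lat) (N k : ℕ) : ℝ := yk (tor Λ N) q.W (q.R k)
/-- the flow variables -/
noncomputable def fw : Mid.Fw := ⟨q.v, q.x, q.y⟩

/-- what the cone argument gives on the torus of side `2 ^ N` -/
structure Res (Λ : Lat) (y₀ : ℝ) (r₁ k₀ N : ℕ) : Prop where
  pack : Pack q.p q.W Λ (tor Λ N) r₁ (q.L N) (nA Λ N)
  pur : Pur q.p q.W Λ r₁ (q.L N)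
  r0 : q.p.r₀ ≤ r₁
  r1 : r₁ ^ 2 ≤ q.W ^ k₀
  maj : ∀ R : ℝ, q.R k₀ ≤ R → Maj q.p Λ (q.L N) R y₀
  lnk : ∀ R : ℝ, q.R k₀ ≤ R → q.C * R ≤ q.L N → 1 / 4 ≤ gk (tor Λ N) R ∧ gk (tor Λ N) R ≤ 1
  cone : ∀ k, k₀ ≤ k → q.C * q.R k ≤ q.L N →
    Maj q.p Λ (q.L N) (q.R k) (q.D * q.y Λ N k) ∧ q.y Λ N k ≤ y₀

/-- the core of the odd flow -/
structure Core (F : Fa) (θ₀ : ℝ) : Prop where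
  fam : q.p.F = F
  v2 : 2 ≤ q.v
  s2 : 2 ≤ q.s
  C1 : 1 ≤ q.C
  D1 : 1 ≤ q.D
  δ0 : 0 < q.δ₀
  res : ∀ y₀ : ℝ, 0 < y₀ → ∃ δ : ℝ, 0 < δ ∧ δ ≤ q.δ₀ ∧ ∀ l : ℕ, ∃ r₁ k₀ : ℕ, ∀ Λ N, F.Mem Λ →
    Cw2 θ₀ q.δ₀ δ Λ l N → q.v * k₀ + q.s ≤ N → q.Res Λ y₀ r₁ k₀ N

end Dat

/-- CORE; `w` and `W` can be taken as large as one likes -/
def CoreStmt : Prop := ∀ (F : Fa) (θ₀ : ℝ) (w₀ : ℕ), 0 < θ₀ → ∃ w r₀ : ℕ, w₀ ≤ w ∧ ∀ v₀ : ℕ, ∃ q : Dat,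
  q.p.w = w ∧ q.p.r₀ = r₀ ∧ v₀ ≤ q.v ∧ q.Core F θ₀

/-! ## Packaging -/

/-- `P` is weaker than `P₀` -/
def PLe (P₀ P : Mid.Par) : Prop :=
  P₀.s ≤ P.s ∧ P₀.C ≤ P.C ∧ P.d ≤ P₀.d ∧ P₀.θ ≤ P.θ ∧ P.ε₀ ≤ P₀.ε₀ ∧ P.δ ≤ P₀.δ

/-- for all weak enough constants -/
def Evp (f : Mid.Par → Prop) : Prop := ∃ P₀, ∀ P, PLe P₀ P → f P

theorem Evp.and {f g : Mid.Par → Prop} (hf : Evp f) (hg : Evp g) : Evp fun P => f P ∧ g P := by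
  obtain ⟨P, hP⟩ := hf
  obtain ⟨Q, hQ⟩ := hg
  refine ⟨⟨max P.s Q.s, max P.C Q.C, min P.d Q.d, max P.θ Q.θ, min P.ε₀ Q.ε₀, min P.δ Q.δ,
    le_max_of_le_left P.C0, lt_min P.d0 Q.d0, min_lt_of_left_lt P.d1, lt_max_of_lt_left P.θ0,
    max_lt P.θ1 Q.θ1, lt_min P.ε0 Q.ε0, lt_min P.δ0 Q.δ0⟩, fun T h => ?_⟩
  simp only [PLe, max_le_iff, le_min_iff] at h
  exact ⟨hP T ⟨h.1.1, h.2.1.1, h.2.2.1.1, h.2.2.2.1.1, h.2.2.2.2.1.1, h.2.2.2.2.2.1⟩,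
    hQ T ⟨h.1.2, h.2.1.2, h.2.2.1.2, h.2.2.2.1.2, h.2.2.2.2.1.2, h.2.2.2.2.2.2⟩⟩

theorem Evp.ex {f : Mid.Par → Prop} (hf : Evp f) : ∃ P, f P :=
  let ⟨P, hP⟩ := hf; ⟨P, hP P ⟨le_rfl, le_rfl, le_rfl, le_rfl, le_rfl, le_rfl⟩⟩

theorem Evp.mono {f g : Mid.Par → Prop} (hf : Evp f) (h : ∀ P, f P → g P) : Evp g :=
  let ⟨P, hP⟩ := hf; ⟨P, fun T hT => h T (hP T hT)⟩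

/-- the fields of `Mid.Odd` -/
def OStep (F : Fa) (θ₀ : ℝ) (φ : Mid.Fw) (P : Mid.Par) : Prop :=
  ∀ l a, ∃ a₁, ∀ Λ N k, φ.V F θ₀ P Λ l N k → a₁ ≤ k → φ.Ball Λ N P.ε₀ a k →
    KT.St (φ.er P Λ N k) (φ.x Λ N k) (φ.y Λ N k) (φ.x Λ N (k + 1)) (φ.y Λ N (k + 1))
def OPos (F : Fa) (θ₀ : ℝ) (φ : Mid.Fw) (P : Mid.Par) : Prop :=
  ∀ l, ∃ a₁, ∀ k, a₁ ≤ k → ∃ c, 0 < c ∧ ∀ Λ N, φ.V F θ₀ P Λ l N k → c ≤ φ.y Λ N k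
def OEnt (F : Fa) (θ₀ : ℝ) (φ : Mid.Fw) (P : Mid.Par) : Prop :=
  ∀ ε, 0 < ε → ∃ (δ₃ : ℝ) (m : ℕ), 0 < δ₃ ∧ ∀ l, ∃ a₁, ∀ Λ N k, φ.V F θ₀ P Λ l N k → a₁ ≤ k →
    φ.w * k + m ≤ N → Λ.Win θ₀ δ₃ l (2 ^ (φ.w * k + m)) → φ.y Λ N k ≤ ε
def ONu (F : Fa) (θ₀ : ℝ) (φ : Mid.Fw) (P : Mid.Par) : Prop :=
  ∀ l, ∃ a₁, ∀ Λ N k, φ.V F θ₀ P Λ l N k → a₁ ≤ k → ∀ (r c : ℕ) (z : Pt), φ.r k ≤ r →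
    r ≤ φ.r (k + 1) → 2 ^ P.s * r ≤ c →
      Nc.Nm Λ z c (Nc.St Λ z r (Jz z)) ≤ P.C * φ.y Λ N k / (r : ℝ) ^ 2
def OKb (F : Fa) (θ₀ : ℝ) (φ : Mid.Fw) (P : Mid.Par) : Prop :=
  ∀ l, ∃ a₁, ∀ Λ N k, φ.V F θ₀ P Λ l N k → a₁ ≤ k → ∀ (r : ℕ) (m : Mdl Pt) (z z' : Pt),
    φ.r k ≤ r → 2 ^ P.s * r ≤ 2 ^ N → Nc.Amb Λ m (bl z (2 ^ P.s * r)) →
    Nc.Amb Λ m (bl z' (2 ^ P.s * r)) → Disjoint (bl z (2 ^ P.s * r)) (bl z' (2 ^ P.s * r)) →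
      |Ex (m.W 0) fun s => Jz z s * Jz z' s| ≤ P.C * φ.y Λ N k ^ 2 / (φ.r k * (r : ℝ) ^ 3)
def OGj (F : Fa) (θ₀ : ℝ) (φ : Mid.Fw) (P : Mid.Par) : Prop :=
  ∀ l, ∃ (a₁ : ℕ) (B : ℝ), ∀ Λ N k, φ.V F θ₀ P Λ l N k → a₁ ≤ k →
    ∀ (r : ℕ) (m : Mdl Pt) (z : Pt), φ.r k ≤ r → r ≤ φ.r (k + 1) → Nc.Amb Λ m (bl z (2 ^ N)) →
      |φ.κ * (gJ (m.W 0) z r - 2 / Real.pi) - φ.x Λ N k| ≤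
        P.C * φ.y Λ N k ^ 2 + B * (P.θ ^ (N - φ.w * k) + P.θ ^ k)
def OAmbx (F : Fa) (θ₀ : ℝ) (φ : Mid.Fw) (P : Mid.Par) : Prop :=
  ∀ l, ∃ (a₁ : ℕ) (B : ℝ), ∀ Λ N N' k, φ.V F θ₀ P Λ l N k → φ.V F θ₀ P Λ l N' k → N ≤ N' →
    a₁ ≤ k → |φ.x Λ N k - φ.x Λ N' k| ≤ B * P.θ ^ (N - φ.w * k)
def OAmby (F : Fa) (θ₀ : ℝ) (φ : Mid.Fw) (P : Mid.Par) : Prop :=
  ∀ l, ∃ a₁, ∀ k, a₁ ≤ k → ∀ ε, 0 < ε → ∃ N₀, ∀ Λ N N', φ.V F θ₀ P Λ l N k →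
    φ.V F θ₀ P Λ l N' k → N₀ ≤ N → N₀ ≤ N' → |φ.y Λ N k - φ.y Λ N' k| ≤ ε

/-- a packaging leaf -/
def Leaf (f : Fa → ℝ → Mid.Fw → Mid.Par → Prop) : Prop :=
  ∀ (F : Fa) (θ₀ : ℝ) (q : Dat), 0 < θ₀ → q.Core F θ₀ → Evp (f F θ₀ q.fw)

theorem leaf_odd (h1 : Leaf OStep) (h2 : Leaf OPos) (h3 : Leaf OEnt) (h4 : Leaf ONu) (h5 : Leaf OKb)
    (h6 : Leaf OGj) (h7 : Leaf OAmbx) (h8 : Leaf OAmby) : Leaf Mid.Odd := fun F θ₀ q h c =>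
  ((((((((h1 F θ₀ q h c).and (h2 F θ₀ q h c)).and (h3 F θ₀ q h c)).and (h4 F θ₀ q h c)).and
    (h5 F θ₀ q h c)).and (h6 F θ₀ q h c)).and (h7 F θ₀ q h c)).and (h8 F θ₀ q h c)).mono
    fun _ ⟨⟨⟨⟨⟨⟨⟨a, b⟩, d⟩, e⟩, f⟩, g⟩, i⟩, j⟩ => ⟨le_trans one_le_two c.v2, a, b, d, e, f, g, i, j⟩

theorem oddStmt (hC : CoreStmt) (h : Leaf Mid.Odd) : Mid.OddStmt := fun F θ₀ h0 => by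
  obtain ⟨_, _, _, h1⟩ := hC F θ₀ 0 h0
  obtain ⟨q, _, _, _, c⟩ := h1 0
  exact ⟨q.fw, (h F θ₀ q h0 c).ex⟩

theorem opeStmt (hC : CoreStmt) (h : Leaf Mid.Odd) (h' : Leaf Mid.Ope) : Mid.OpeStmt :=
  fun F θ₀ _ _ h0 => by
  obtain ⟨_, _, _, h1⟩ := hC F θ₀ 0 h0
  obtain ⟨q, _, _, _, c⟩ := h1 0
  exact ⟨q.fw, ((h F θ₀ q h0 c).and (h' F θ₀ q h0 c)).ex⟩

end Crest.Agent.T145.Fl
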