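import Crest.Agent.T145.EvDef_2
import Crest.Agent.T145.FlEnv_30
import Crest.Agent.T145.FlA_51
import Crest.Agent.T145.FlBas_4
import Crest.Agent.T145.FlSw_22
import Crest.Agent.T145.FlFar_57

/-!
# Row 145, even sector: T2L, the coefficient of the charged reference insertion (helper17)
-/

set_option autoImplicit false

namespace Crest.Agent.T145.Ev

open Finset Pot Xi Real Fl

namespace T17

theorem ew_le {w : ℕ} (hw : 1 ≤ w) : 0 < ew w ∧ ew w ≤ 1 / 100 := by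
  have h1 := Far57.cw_pos hw
  have h2 := Far57.cw_le hw
  constructor <;> rw [ew] <;> linarith

/-- the small parameter makes everything large -/
theorem small {p : Par} {Λ : Lat} {L n : ℕ} {R Y t C : ℝ} (hw : 1 ≤ p.w) (hM : Maj p Λ L R Y) (hC : 1 ≤ C)
    (ht : 0 < t) (hCt : C * t ≤ 1) (hn : 1 ≤ n) (hY : Y ≤ t ^ n) (hL : R ≤ t ^ n * L) :
    0 < Y ∧ t ≤ 1 ∧ C * Y ≤ 1 ∧ C * R ≤ L ∧ C ≤ R := by
  have hR := hM.1
  have hR0 : 0 < R := by linarith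
  have t1 : t ≤ 1 := by nlinarith
  have h1 : t ^ n ≤ t := pow_le_of_le_one ht.le t1 (by omega)
  have h2 : R⁻¹ ≤ Y := by
    rw [← rpow_neg_one]
    exact (rpow_le_rpow_of_exponent_le hR (by linarith [(ew_le hw).2])).trans hM.2.1
  have hY0 : 0 < Y := (inv_pos.2 hR0).trans_le h2
  have h3 : C * Y ≤ 1 := (mul_le_mul_of_nonneg_left (hY.trans h1) (by linarith)).trans hCt
  have hL0 : (0 : ℝ) ≤ L := Nat.cast_nonneg _
  refine ⟨hY0, t1, h3, ?_, ?_⟩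
  · calc C * R ≤ C * (t * L) := by gcongr; exact hL.trans (by gcongr)
      _ = C * t * L := by ring
      _ ≤ 1 * L := by gcongr
      _ = L := one_mul _
  · have : C * R⁻¹ ≤ 1 := (mul_le_mul_of_nonneg_left h2 (by linarith)).trans h3
    rwa [← div_eq_mul_inv, div_le_one hR0] at this

variable {p : Par} {Λ : Lat} {ω ω' : Sta} {D : Finset Pt} {L N : ℕ}

/-- a centre that sees the origin and a far site -/
theorem mid (h : Env p Λ ω L N) {z : Pt} (hz : z ∈ bl 0 (N + N / 4)) :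
    ∃ c m, Rep Λ ω m c N ∧ bl 0 (N / 4) ⊆ bl c N ∧ bl z Λ.rg ⊆ bl c N := by
  obtain ⟨m, hm⟩ := h.amb (z.1 / 2, z.2 / 2)
  have h1 := h.gd.2.1
  have h2 := h.big
  have h3 := h.le
  have h4 : 400 * p.r₀ ≤ 100 * p.w * p.r₀ := Nat.mul_le_mul_right _ (by have := h.w4; omega)
  have h5 := h.mem.ok.one_le_rg
  refine ⟨_, m, hm, fun x hx => ?_, fun x hx => ?_⟩ <;>
  · rw [mem_bl] at hz hx ⊢
    simp only [Prod.fst_zero, Prod.snd_zero] at hz hx ⊢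
    omega

/-- linearity of the derivative state -/
theorem der_sum (h : Ed p Λ ω ω' D L N) (he : ∀ z, Ins z Λ.rg (et Λ ω z)) {ι : Type} (T : Finset ι)
    (a : ι → ℝ) {F : ι → Cfg Pt → ℝ} (hF : ∀ i ∈ T, Ins 0 (N / 4) (F i)) :
    ω' (fun s => ∑ i ∈ T, a i * F i s) = ∑ i ∈ T, a i * ω' (F i) := by
  have e : ∑ i ∈ T, a i * ω' (F i) = ∑ i ∈ T, ∑ z ∈ D, a i * ω fun s => F i s * et Λ ω z s :=
    sum_congr rfl fun i hi => by rw [h.der _ (hF i hi), mul_sum]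
  rw [h.der _ (Ins.sum T fun i hi => (hF i hi).smul _), e, sum_comm]
  refine sum_congr rfl fun z hz => ?_
  obtain ⟨c, m, hm, s1, s2⟩ := mid h.toEnv (h.hi hz)
  rw [← hm.ex_sum_smul T a fun i hi => ((hF i hi).of_subset s1).mul ((he z).of_subset s2)]
  simp only [sum_mul, mul_assoc]

theorem ins_Jh (he : ∀ z, Ins z Λ.rg (et Λ ω z)) {ρ a : ℕ} (h1 : 1 ≤ a) (h : Λ.rg + ρ ≤ a) :
    Ins 0 a (Jh Λ ω ρ) :=
  (ins_Jz 0 h1).mul (Ins.sum _ fun _ hz => (he _).move hz h)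

theorem trl_Jh (he : ∀ z, trl z (et Λ ω 0) = et Λ ω z) (ρ : ℕ) (x : Pt) :
    trl x (Jh Λ ω ρ) = fun s => Jz x s * ∑ z ∈ bl x ρ, et Λ ω z s := by
  funext s
  rw [← Pot.Ha91.sum_bl x ρ fun z => et Λ ω z s, ← trl_Jz x]
  refine congrArg _ (sum_congr rfl fun z _ => ?_)
  rw [← he (x + z), add_comm, ← Fl.trl_trl, he]
  rfl

theorem nat_le {a b : ℕ} (h : (a : ℝ) ≤ b) : a ≤ b := by exact_mod_cast h

/-- the scales -/
theorem scales {w r₀ L N : ℕ} {R A : ℝ} (hw : 4 ≤ w) (hA : 0 ≤ A)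
    (hR : (384 * (w : ℝ) ^ 2 + 4) * (A + r₀ + 4) ≤ R) (hL : 64 * R ≤ L) (hN : L ≤ N) :
    ∃ k : ℕ, R ≤ 192 * (w * (w * k)) ∧ 96 * ((w : ℝ) * (w * k)) ≤ R ∧ 384 * ((w : ℝ) * k) ≤ R ∧
      (k : ℝ) ≤ R ∧ A ≤ k ∧ r₀ + 4 ≤ k ∧ 4 * k ≤ w * k ∧ 4 * (w * k) ≤ w * (w * k) ∧
      ⌈2 * R⌉₊ ≤ N / 4 ∧ ⌊R / 4⌋₊ + 12 * (w * (w * k)) + 1 ≤ ⌈2 * R⌉₊ ∧ ⌈2 * R⌉₊ ≤ L := by
  have hw' : (4 : ℝ) ≤ w := by exact_mod_cast hw
  have hr0 : (0 : ℝ) ≤ r₀ := Nat.cast_nonneg _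
  have h0 : 0 < 192 * (w : ℝ) ^ 2 := by positivity
  have hR3 : (384 * (w : ℝ) ^ 2 + 4) * 4 ≤ R := le_trans (by gcongr; linarith) hR
  have hR0 : 16 ≤ R := by linarith
  obtain ⟨k, hk1, hk2⟩ : ∃ k : ℕ, R ≤ 192 * (w : ℝ) ^ 2 * k ∧ 192 * (w : ℝ) ^ 2 * k ≤ 2 * R := by
    refine ⟨⌈R / (192 * (w : ℝ) ^ 2)⌉₊, ?_, ?_⟩
    · rw [← div_le_iff₀' h0]; exact Nat.le_ceil _
    · have := (Nat.ceil_lt_add_one (show 0 ≤ R / (192 * (w : ℝ) ^ 2) by positivity)).le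
      have h2 := mul_le_mul_of_nonneg_left this h0.le
      rw [mul_add, mul_div_cancel₀ _ h0.ne'] at h2
      linarith
  have hk0 : (0 : ℝ) ≤ k := Nat.cast_nonneg _
  have hkM : R ≤ (384 * (w : ℝ) ^ 2 + 4) * k := hk1.trans (by gcongr; linarith)
  have hk3 : A + r₀ + 4 ≤ k := le_of_mul_le_mul_left (hR.trans hkM) (by linarith)
  have h1 : 4 * (k : ℝ) ≤ w * k := by gcongr
  have h2 : 4 * ((w : ℝ) * k) ≤ w * (w * k) := by gcongr
  have h3 : 96 * ((w : ℝ) * (w * k)) ≤ R := by linarith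
  have hq : (⌊R / 4⌋₊ : ℝ) ≤ R / 4 := Nat.floor_le (by positivity)
  have hc := (Nat.ceil_lt_add_one (show 0 ≤ 2 * R by positivity)).le
  have hLN : (L : ℝ) ≤ N := by exact_mod_cast hN
  refine ⟨k, by linarith, h3, by linarith, by linarith, by linarith, nat_le (by push_cast; linarith),
    Nat.mul_le_mul_right _ hw, Nat.mul_le_mul_right _ hw, ?_,
    nat_le (by push_cast; linarith [Nat.le_ceil (2 * R)]), nat_le (by linarith)⟩
  rw [Nat.le_div_iff_mul_le (by norm_num)]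
  exact nat_le (by push_cast; linarith)

/-- the stars near the current -/
theorem near (hE : Env p Λ ω L N) (he : ∀ z, Ins z Λ.rg (et Λ ω z))
    (ht : ∀ z, trl z (et Λ ω 0) = et Λ ω z) {R : ℝ} {x : Pt} {a ρ d : ℕ} (hx : x ∈ bl 0 d)
    (h0 : p.r₀ ≤ a) (h1 : 1 ≤ a) (h2 : Λ.rg + ρ ≤ a) (h3 : p.w * a + d ≤ L) (hS : Ins 0 L (Sn R))
    (hout : ∀ y ∈ bl x a, xi R y = 0) :
    |∑ z ∈ bl x ρ, ω fun s => Jz x s * Sn R s * et Λ ω z s| ≤ 16 * nu Λ p.w 0 a (Jh Λ ω ρ) := by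
  obtain ⟨m, hm⟩ := hE.amb 0
  have h4 := A51.four_le hE.toGs a
  have h5 := hE.gd.2.1
  have h6 := hE.le
  have i1 : Ins 0 a (Jh Λ ω ρ) := ins_Jh he h1 h2
  have s1 : bl x (p.w * a) ⊆ bl 0 N := bl_subset_bl hx (by omega)
  have k := (prodStmt p Λ L hE.toGs m _ Unit univ (fun _ => x) (fun _ => a)
    (fun _ => trl x (Jh Λ ω ρ)) (Sn R) hm.1
    ⟨by simp, fun _ _ => i1.trl x, fun _ _ => ⟨h0, by omega⟩, fun _ _ => s1,
      fun _ _ _ _ hne => (hne rfl).elim⟩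
    (fun _ _ => by rw [Fl.Sn_eq]; exact out_cp hout _) (abs_Sn_le R)).1
  simp only [univ_unique, prod_singleton] at k
  rw [((semiStmt Λ p.w _ x hE.mem.ok (by omega)).2 _ i1).2.1,
    ← hm.ex_eq (((i1.trl x).move hx (by omega)).mul (hS.mono h6)), trl_Jh ht] at k
  rw [← hm.ex_sum _ fun z hz => (((ins_Jz x h1).move hx (by omega)).mul (hS.mono h6)).mul
    ((he z).move (bl_subset_bl hx (le_refl _) hz) (by omega))]
  refine le_trans (le_of_eq ?_) k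
  congr 2; funext s; rw [← mul_sum]; ring

theorem nu_J {R Y M : ℝ} {k : ℕ} (hE : Gs p Λ L) (h : Maj p Λ L R Y) (h0 : p.r₀ ≤ k) (h1 : 1 ≤ k)
    (hL : p.w * k ≤ L) (hkR : (k : ℝ) ≤ R) (hkM : R ≤ M * k) (hM : 1 ≤ M) (x : Pt) :
    nu Λ p.w x k (Jz x) ≤ M ^ 3 * Y / R ^ 2 := by
  have hR0 : 0 < R := by linarith [h.1]
  have hY0 : 0 < Y := (rpow_pos_of_pos hR0 _).trans_le h.2.1
  have h4 := A51.four_le hE k
  have h5 := hE.gd.2.1
  have hk0 : (0 : ℝ) < k := by exact_mod_cast h1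
  have hew := ew_le (w := p.w) (by have := hE.w4; omega)
  rw [← trl_Jz x, ((semiStmt Λ p.w k x hE.mem.ok (by omega)).2 _ (ins_Jz 0 h1)).2.1]
  have h3 : max ((k : ℝ) / R) (R / k) ^ ew p.w ≤ M := by
    have h4 : max ((k : ℝ) / R) (R / k) ≤ M := max_le (((div_le_one hR0).2 hkR).trans hM)
      (by rwa [div_le_iff₀ hk0])
    calc _ ≤ M ^ ew p.w := rpow_le_rpow (by positivity) h4 hew.1.le
      _ ≤ M ^ (1 : ℝ) := rpow_le_rpow_of_exponent_le hM (by linarith [hew.2])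
      _ = M := rpow_one _
  have h2 : (k : ℝ) ^ 2 * nu Λ p.w 0 k (Jz 0) ≤ Y * M :=
    (h.2.2 k h0 hL).trans (mul_le_mul_of_nonneg_left h3 hY0.le)
  rw [le_div_iff₀ (by positivity)]
  have h6 := A51.nu_nonneg hE.mem.ok p.w 0 k (Jz 0)
  calc _ ≤ nu Λ p.w 0 k (Jz 0) * (M * k) ^ 2 := by gcongr
    _ = M ^ 2 * ((k : ℝ) ^ 2 * nu Λ p.w 0 k (Jz 0)) := by ring
    _ ≤ M ^ 2 * (Y * M) := mul_le_mul_of_nonneg_left h2 (by positivity)
    _ = _ := by ring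

/-- one site -/
theorem site (hB : BasStmt) (hD : DkStmt) (hC : Cr3Stmt) (p : Par) (W : ℕ) (D₀ : ℝ) (hW : 2 ≤ W) :
    ∃ C : ℝ, 1 ≤ C ∧ ∀ (E : Dt) (R Y P : ℝ), E.Bs p W D₀ R Y P → C * Y ≤ 1 → C * R ≤ E.L → C ≤ R →
      ∀ x ∈ bl (0 : Pt) ⌊R / 4⌋₊,
        |E.ω' fun s => Jz x s * Sn R s| ≤ C * (Qq E.ω' R + Y * P) / R ^ 2 := by
  obtain ⟨P₀, -, hB⟩ := hB p
  obtain ⟨Cd, hCd, hD⟩ := hD p W D₀ hW
  obtain ⟨Cc, hCc, hC⟩ := hC p
  obtain ⟨σ, hσ, hX⟩ := lr_xi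
  obtain ⟨M, hM⟩ : ∃ M : ℝ, M = 384 * (p.w : ℝ) ^ 2 + 4 := ⟨_, rfl⟩
  have hM0 : 4 ≤ M := by rw [hM]; exact le_add_of_nonneg_left (by positivity)
  have k1 : 0 ≤ Cc * M ^ 8 * (1 + σ) ^ 2 := by positivity
  have k2 : 0 ≤ M * (Cc + p.r₀ + 4) := by positivity
  refine ⟨16 * Cd + Cc * M ^ 8 * (1 + σ) ^ 2 + M * (Cc + p.r₀ + 4) + 64, by linarith,
    fun E R Y P h hY hL hR x hx => ?_⟩
  have hE := h.ed.toEnv
  have hw := hE.w4
  have hw' : (4 : ℝ) ≤ p.w := by exact_mod_cast hw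
  have hR1 := h.maj.1
  have hR0 : 0 < R := by linarith
  have hY0 : 0 < Y := (rpow_pos_of_pos hR0 _).trans_le h.maj.2.1
  have hP := h.P1
  have he := fun z => (hB _ _ _ _ hE z).2.2.1
  have ht := fun z => (hB _ _ _ _ hE z).2.1
  have hrg := hE.gd.2.1
  have cL : ∀ A : ℝ, A ≤ 16 * Cd + Cc * M ^ 8 * (1 + σ) ^ 2 + M * (Cc + p.r₀ + 4) + 64 → A * R ≤ E.L :=
    fun A hA => (mul_le_mul_of_nonneg_right hA hR0.le).trans hL
  obtain ⟨k, a1, a2, a3, a4, a5, a6, a7, a8, a9, a10, a11⟩ := scales (r₀ := p.r₀) (R := R) hw hCc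
    (by rw [← hM]; linarith) (cL 64 (by linarith)) hE.le
  have hk0 : (0 : ℝ) ≤ k := Nat.cast_nonneg _
  have hkM : R ≤ M * k := by
    have : 0 ≤ (p.w : ℝ) * (p.w * k) := by positivity
    rw [hM]; linarith
  have hq : (⌊R / 4⌋₊ : ℝ) ≤ R / 4 := Nat.floor_le (by positivity)
  have hMR : 4 * R ≤ M * R := mul_le_mul_of_nonneg_right hM0 hR0.le
  have hfl : ∀ n : ℕ, (n : ℝ) ≤ 4 * R → n ≤ ⌊M * R⌋₊ := fun n hn => Nat.le_floor (hn.trans hMR)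
  have hS : Ins 0 ⌈2 * R⌉₊ (Sn R) := ins_Sn hR0 (Nat.le_ceil _)
  have hJ : Ins 0 ⌈2 * R⌉₊ (Jz x) := (ins_Jz x le_rfl).move hx (by omega)
  have e3 : 3 * p.w * k = 3 * (p.w * k) := mul_assoc _ _ _
  have e4 : p.w * (12 * (p.w * k)) = 12 * (p.w * (p.w * k)) := mul_left_comm _ _ _
  have hsub : bl x (3 * p.w * k) ⊆ E.D := (bl_subset_bl hx (by omega)).trans h.ed.lo
  have hout : ∀ n : ℕ, n ≤ 12 * (p.w * k) → ∀ y ∈ bl x n, xi R y = 0 := fun n hn y hy =>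
    xi_in hR0 (n := 12 * (p.w * k) + ⌊R / 4⌋₊) (by push_cast; linarith)
      (bl_subset_bl hx (by omega) hy)
  rw [h.ed.der _ ((hJ.mul hS).mono a9), ← sum_sdiff hsub, add_comm]
  refine (abs_add_le _ _).trans ?_
  have hQ : 0 ≤ Qq E.ω' R := by rw [Qq]; positivity
  have n1 := near (ρ := 3 * p.w * k) hE he ht hx (a := 12 * (p.w * k)) (by omega) (by omega)
    (by omega) (by omega) (hS.mono a11) (hout _ le_rfl)
  have n2 := (hD E R Y P h ((mul_le_mul_of_nonneg_right (by linarith) hY0.le).trans hY)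
    (cL _ (by linarith))).2 (12 * (p.w * k)) (3 * p.w * k) (by push_cast; linarith)
    (by push_cast; linarith) (by push_cast; linarith) (by omega)
  have f1 := hC _ _ _ _ hE R P M hR1 hP h.prof (by linarith)
    (cL _ (by nlinarith [mul_nonneg (show 0 ≤ M by linarith) (Nat.cast_nonneg p.r₀ : (0 : ℝ) ≤ _)]))
    Unit univ (fun _ => x) k (fun _ => Jz x) (xi R) 1 σ
    (-(π / 2)) (E.D \ bl x (3 * p.w * k)) a5 (by rwa [div_le_iff₀' (by linarith)]) (by simp)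
    ⟨by simp, fun _ _ => ins_Jz x (by omega), fun _ _ => ⟨by omega, by omega⟩,
      fun _ _ => bl_subset_bl hx (hfl _ (by push_cast; linarith)), fun _ _ _ _ hne => (hne rfl).elim⟩
    (by linarith) (fun _ _ => hout _ (by omega))
    (chq_xi hR0 ((Nat.le_ceil _).trans (Nat.cast_le.2 (hfl _
      (by linarith [(Nat.ceil_lt_add_one (show 0 ≤ 2 * R by positivity)).le])))))
    (fun z => ⟨_, by
      simpa only [sub_zero] using (hX R 0 z k (by omega) a4).mono (mul_le_of_le_one_right hσ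
        (pow_le_one₀ (by positivity) ((div_le_one hR0).2 a4)))⟩)
    (sdiff_subset.trans h.ed.hi) fun z hz _ _ => (mem_sdiff.1 hz).2
  simp only [univ_unique, prod_singleton, ← Fl.Sn_eq] at f1
  have f2 := nu_J hE.toGs h.maj (k := k) (by omega) (by omega) (by omega) a4 hkM (by linarith) x
  have hYP : 0 ≤ Y * P := by positivity
  calc _ ≤ 16 * (Cd * (Qq E.ω' R + Y * P) / R ^ 2) +
        Cc * M ^ 5 * (1 + σ) ^ 2 * (M ^ 3 * Y / R ^ 2) * P :=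
        add_le_add (n1.trans (by gcongr)) ((abs_sum_le_sum_abs _ _).trans (f1.trans (by gcongr)))
    _ = (16 * Cd * (Qq E.ω' R + Y * P) + Cc * M ^ 8 * (1 + σ) ^ 2 * (Y * P)) / R ^ 2 := by ring
    _ ≤ _ := by
        refine div_le_div_of_nonneg_right ?_ (by positivity)
        linarith [mul_nonneg k1 hQ, mul_nonneg k2 (add_nonneg hQ hYP)]

end T17

open T17 in
/-- T2L -/
theorem t2Stmt (hS : S4Stmt) (hB : BasStmt) (hD : DkStmt) (hC : Cr3Stmt) : T2Stmt := by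
  intro w
  obtain ⟨W₀, hS⟩ := hS w
  refine ⟨max W₀ 2, fun p W D₀ hp hW => ?_⟩
  obtain ⟨Cs, n, hCs, hS⟩ := hS p W D₀ hp (le_of_max_le_left hW)
  obtain ⟨K, hK, hsite⟩ := site hB hD hC p W D₀ (le_of_max_le_right hW)
  obtain ⟨P₀, -, hB⟩ := hB p
  obtain ⟨Ce, hCe, her⟩ := abs_er_le
  set e := exp (4 * π ^ 2 * Ce) with he
  have he1 : 1 ≤ e := one_le_exp (by positivity)
  have k1 : 0 ≤ e * (256 * (p.w : ℝ) ^ 2) := by positivity
  have k2 : K ≤ e * K := le_mul_of_one_le_left (by linarith) he1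
  refine ⟨Cs + e * K + e * (256 * (p.w : ℝ) ^ 2), max n 1, by linarith,
    fun E R Y P t h ht hCt hY hL a₁ a₂ α₁ α₂ hc => ?_⟩
  have hE := h.ed.toEnv
  have hw := hE.w4
  have hw' : (4 : ℝ) ≤ p.w := by exact_mod_cast hw
  obtain ⟨hY0, t1, c1, c2, c3⟩ := small (by omega) h.maj (by linarith) ht hCt (le_max_right _ _) hY hL
  have hR1 := h.maj.1
  have hR0 : 0 < R := by linarith
  have hP := h.P1
  have hn : t ^ max n 1 ≤ t ^ n := pow_le_pow_of_le_one ht.le t1 (le_max_left _ _)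
  have h1 := hS E R Y P t h ht (le_trans (by gcongr; linarith) hCt) (hY.trans hn)
    (hL.trans (by gcongr)) a₁ a₂ α₁ α₂ hc
  have h2 := hsite E R Y P h (le_trans (by gcongr; linarith) c1) (le_trans (by gcongr; linarith) c2)
    (by linarith)
  set ρ := R / (16 * p.w) with hρ
  have hρ0 : 0 < ρ := by positivity
  have hρR : R = 16 * p.w * ρ := by rw [hρ]; field_simp
  have hq := Nat.lt_floor_add_one (R / 4)
  have hq' : (⌊R / 4⌋₊ : ℝ) ≤ R / 4 := Nat.floor_le (by positivity)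
  have hρ64 : 64 * ρ ≤ R := by rw [hρR]; gcongr; linarith
  have hsup : Pot.Sup (bl 0 ⌊R / 4⌋₊) (Xi.chi ρ) := sup_chi hρ0 (by linarith)
  set S := ∑ x ∈ bl (0 : Pt) ⌊R / 4⌋₊, Xi.chi ρ x with hSd
  have hS1 : ρ ^ 2 ≤ S := by
    have h3 : ⌊ρ⌋₊ ≤ ⌊R / 4⌋₊ := Nat.floor_le_floor (by linarith)
    calc ρ ^ 2 ≤ (2 * (⌊ρ⌋₊ : ℝ) + 1) ^ 2 := by
          gcongr; linarith [Nat.lt_floor_add_one ρ, (Nat.cast_nonneg ⌊ρ⌋₊ : (0 : ℝ) ≤ _)]
      _ = ∑ x ∈ bl (0 : Pt) ⌊ρ⌋₊, Xi.chi ρ x := by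
          rw [sum_congr rfl fun x hx => chi_one hρ0 (Nat.floor_le hρ0.le) hx]
          simp [card_bl]
      _ ≤ S := sum_le_sum_of_subset_of_nonneg (bl_mono 0 h3) fun x _ _ => chi_nonneg _ _
  have hS0 : 0 < S := lt_of_lt_of_le (by positivity) hS1
  have hLN : (E.L : ℝ) ≤ E.N := by exact_mod_cast hE.le
  have hRL : 64 * R ≤ E.L := le_trans (by gcongr; nlinarith) c2
  have hN4 : ⌈2 * R⌉₊ ≤ E.N / 4 := by
    rw [Nat.le_div_iff_mul_le (by norm_num)]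
    have : ((⌈2 * R⌉₊ * 4 : ℕ) : ℝ) ≤ E.N := by
      push_cast
      linarith [(Nat.ceil_lt_add_one (show 0 ≤ 2 * R by positivity)).le]
    exact_mod_cast this
  have hq2 : 1 + ⌊R / 4⌋₊ ≤ ⌈2 * R⌉₊ := by
    have : ((1 + ⌊R / 4⌋₊ : ℕ) : ℝ) ≤ ⌈2 * R⌉₊ := by push_cast; linarith [Nat.le_ceil (2 * R)]
    exact_mod_cast this
  have hQ : 0 ≤ Qq E.ω' R := by rw [Qq]; positivity
  set Z := Qq E.ω' R + Y * P with hZ
  have hZ0 : 0 ≤ Z := by positivity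
  have h3 : |E.ω' fun s => X (Xi.chi ρ) s * Sn R s| ≤ S * (K * Z / R ^ 2) := by
    simp only [X, pr_A0 hsup, sum_mul, mul_assoc]
    rw [der_sum h.ed (fun z => (hB _ _ _ _ hE z).2.2.1) _ _ fun x hx =>
      (((ins_Jz x le_rfl).move hx hq2).mul (ins_Sn hR0 (Nat.le_ceil _))).mono hN4, hSd, sum_mul]
    refine (abs_sum_le_sum_abs _ _).trans (sum_le_sum fun x hx => ?_)
    rw [abs_mul, abs_of_nonneg (chi_nonneg _ _)]
    exact mul_le_mul_of_nonneg_left (h2 x hx) (chi_nonneg _ _)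
  -- the Gaussian factor
  set g := gk E.ω R with hg
  have hew := ew_le (w := p.w) (by omega)
  have hcr := abs_le.1 h.crit
  have ha1 : (1 : ℝ) ≤ a₁ := by exact_mod_cast (show 1 ≤ a₁ by have := hc.r1; have := h.r8; omega)
  have haR : (a₁ : ℝ) ≤ R := hc.hi.trans (mul_le_of_le_one_right hR0.le (pow_le_one₀ ht.le t1))
  have hg0 : 0 ≤ g := nonneg_of_mul_nonneg_right (a := π) (by linarith) pi_pos
  have hg1 : g ≤ 1 := by nlinarith [pi_gt_three]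
  have h4 : (a₁ / R) ^ 2 * (a₁ / R) ^ (ew p.w / 100) ≤ e * ph g a₁ R := by
    have h5 : (0 : ℝ) < a₁ / R := by positivity
    have h6 : 0 ≤ log (R / a₁) := log_nonneg ((one_le_div (by linarith)).2 haR)
    have h7 : log (a₁ / R) = -log (R / a₁) := by rw [← log_inv, inv_div]
    rw [← rpow_two, ← rpow_add h5, rpow_def_of_pos h5, he, ph, ← exp_add, exp_le_exp, h7]
    have h8 := abs_le.1 (her a₁ ha1)
    have h9 := abs_le.1 (her R hR1)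
    have h10 : -2 * π ^ 2 * g * (log (R / a₁) / (2 * π) - er a₁ - er R) =
        -(π * g) * log (R / a₁) + 2 * π ^ 2 * (g * (er a₁ + er R)) := by field_simp; ring
    have h11 : -(2 * Ce) ≤ g * (er a₁ + er R) := by nlinarith
    rw [h10]
    nlinarith [mul_le_mul_of_nonneg_left h11 (by positivity : 0 ≤ 2 * π ^ 2),
      mul_nonneg h6 (show 0 ≤ 2 + ew p.w / 100 - π * g by linarith)]
  have hph : 0 < ph g a₁ R := exp_pos _
  have h5 : |α₂| * ph g a₁ R * S ≤ S * (K * Z / R ^ 2) + P * t ^ 6 := by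
    have h6 : |α₂ * π * g * ph g a₁ R * S| ≤ S * (K * Z / R ^ 2) + P * t ^ 6 := by
      have := abs_sub (E.ω' (fun s => X (Xi.chi ρ) s * Sn R s) + α₂ * π * g * ph g a₁ R * S)
        (E.ω' fun s => X (Xi.chi ρ) s * Sn R s)
      rw [add_sub_cancel_left] at this
      linarith
    refine le_trans ?_ h6
    rw [mul_assoc α₂, abs_mul, abs_mul, abs_mul, abs_of_pos hS0, abs_of_pos hph,
      abs_of_nonneg (mul_nonneg pi_pos.le hg0)]
    gcongr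
    exact le_mul_of_one_le_right (abs_nonneg _) (by linarith)
  have h6 : |α₂| * ph g a₁ R * R ^ 2 ≤ K * Z + 256 * (p.w : ℝ) ^ 2 * (P * t ^ 6) := by
    refine le_of_mul_le_mul_right ?_ hS0
    calc _ = |α₂| * ph g a₁ R * S * R ^ 2 := by ring
      _ ≤ (S * (K * Z / R ^ 2) + P * t ^ 6) * R ^ 2 := by gcongr
      _ = K * Z * S + 256 * (p.w : ℝ) ^ 2 * (P * t ^ 6) * ρ ^ 2 := by
          rw [add_mul, mul_assoc S, div_mul_cancel₀ _ (by positivity)]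
          conv_lhs => enter [2]; rw [hρR]
          ring
      _ ≤ K * Z * S + 256 * (p.w : ℝ) ^ 2 * (P * t ^ 6) * S := by gcongr
      _ = _ := by ring
  have h7 : e * (256 * (p.w : ℝ) ^ 2) * t ≤ 1 := le_trans (by gcongr; linarith) hCt
  calc _ = |α₂| * ((a₁ / R) ^ 2 * (a₁ / R) ^ (ew p.w / 100)) * R ^ 2 := by field_simp
    _ ≤ |α₂| * (e * ph g a₁ R) * R ^ 2 := by gcongr
    _ = e * (|α₂| * ph g a₁ R * R ^ 2) := by ring
    _ ≤ e * (K * Z + 256 * (p.w : ℝ) ^ 2 * (P * t ^ 6)) := by gcongr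
    _ = e * K * Z + e * (256 * (p.w : ℝ) ^ 2) * t * (P * t ^ 5) := by ring
    _ ≤ _ := add_le_add (mul_le_mul_of_nonneg_right (by linarith) hZ0)
        (mul_le_of_le_one_left (by positivity) h7)

end Crest.Agent.T145.Ev
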