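import Crest.Agent.T145.EvDef_2
import Crest.Agent.T145.EvDer_5

/-!
# Row 145, even sector: DER and TDER (helper12)
-/

set_option autoImplicit false

namespace Crest.Agent.T145.Ev

open Finset Real Fl Om Filter Topology

namespace TD12

variable {Λ : Lat} {N : ℕ} {S : Finset Pt} {F : Cfg Pt → ℝ}

theorem tor'_eq (hΛ : Λ.Ok) (hn : 2 * Λ.rg < 2 ^ N) (hF : DepG S F) (hT : Tame F) :
    tor' Λ N F = dom Λ (2 ^ N) F := (dom_eq hΛ hn _ hF hT).symm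

theorem gk_eq (hΛ : Λ.Ok) (hn : 2 * Λ.rg < 2 ^ N) (R : ℝ) : gk (tor' Λ N) R = dg Λ (2 ^ N) R :=
  congrArg (_ * ·) (sum_congr rfl fun x _ =>
    congrArg (· * _ * _) (tor'_eq hΛ hn (depG_JJ 0 x) (tame_JJ x)))

theorem ell_eq (hΛ : Λ.Ok) (hn : 2 * Λ.rg < 2 ^ N) {R : ℝ} (hR : 0 < R) :
    ell (tor' Λ N) R (Jz 0) = dl Λ (2 ^ N) R := tor'_eq hΛ hn (ins_JS hR).1 (ins_JS hR).2

theorem pT_eq (hΛ : Λ.Ok) (hn : 2 * Λ.rg < 2 ^ N) (q : Dat) (k : ℕ) : pT q Λ N k = pk q Λ N k := by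
  rw [pT, pd, gk_eq hΛ hn, pk]; ring

theorem qT_eq (hΛ : Λ.Ok) (hn : 2 * Λ.rg < 2 ^ N) (q : Dat) (k : ℕ) : qT q Λ N k = qk q Λ N k := by
  rw [qT, qd, lr, gk_eq hΛ hn, ell_eq hΛ hn (q.R_pos k), qk, vk, mul_right_comm (2 * π ^ 2)]; rfl

end TD12

open TD12

theorem derStmt : DerStmt := fun Λ N _ _ hΛ hn hF hT =>
  ⟨tor'_eq hΛ hn hF hT ▸ hasDerivAt_dom hΛ hn hF hT, (cont_dom hΛ hn hF hT).congr (by
    filter_upwards [Ioi_mem_nhds hΛ.pos] with t ht using (tor'_eq (hΛ.at' ht) hn hF hT).symm)⟩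

theorem tDerStmt : TDerStmt := fun F θ₀ _ _ _ => ⟨0, fun q _ _ _ h => by
  refine ((lDer h).and (h.base one_pos 0)).mono fun P ⟨hd, hb⟩ l => ?_
  obtain ⟨a, hd⟩ := hd l
  obtain ⟨r₁, k₀, hb⟩ := hb l
  refine ⟨max a k₀, fun Λ N k hV hk => ?_⟩
  obtain ⟨hR, -⟩ := hb Λ N k hV (le_of_max_le_right hk)
  obtain ⟨h1, h2, h3, h4⟩ := hd Λ N k hV (le_of_max_le_left hk)
  have hΛ := res_ok hR
  have hn := res_rg hR
  rw [pT_eq hΛ hn, qT_eq hΛ hn]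
  refine ⟨h1, h2, h3.congr ?_, h4.congr ?_⟩ <;> filter_upwards [Ioi_mem_nhds hΛ.pos] with t ht
  exacts [(pT_eq (hΛ.at' ht) hn q k).symm, (qT_eq (hΛ.at' ht) hn q k).symm]⟩

end Crest.Agent.T145.Ev
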