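import Crest.Agent.T145.EvDef_2
import Crest.Agent.T145.FlOBas_98

/-!
# Row 145, even sector (helper70): the field `lin` of `Mid.Lin`
-/

set_option autoImplicit false

namespace Crest.Agent.T145.Ev

open Finset Real Fl Filter Topology

namespace E70

theorem exists_v (W₀ : ℕ) : ∃ v₀ : ℕ, ∀ v, v₀ ≤ v → W₀ ≤ 2 ^ v :=
  ⟨W₀, fun _ h => h.trans Nat.lt_two_pow_self.le⟩

theorem half {e x y x' y' : ℝ} (h : KT.St e x y x' y') (hw : e + (|x| + y) ≤ 1 / 100) : y ≤ 2 * y' := by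
  have h1 := (abs_le.1 (h.abs_dy hw le_rfl)).1
  have h2 := h.e_nonneg
  have h3 := h.pos
  nlinarith

/-- the error of the linearised step -/
theorem kap {C C₁ D B η y ρ T d d₁ d₂ θ₁ θ₂ : ℝ} {n : ℕ} (hC : 0 ≤ C) (hC₁ : 0 ≤ C₁) (hD : 1 ≤ D)
    (hB : 0 ≤ B) (y0 : 0 ≤ y) (hy : y ≤ η) (η1 : η ≤ 1) (d0 : 0 < d) (d1 : d < 1) (h0 : 0 < d₂) (h1 : d₂ ≤ d)
    (h2 : d₂ ≤ d₁) (t0 : 0 ≤ θ₁) (t1 : θ₁ ≤ θ₂) (ρ0 : 0 ≤ ρ) (hρ : ρ ^ d ≤ B * θ₂ ^ n)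
    (hT : T = C * (C₁ + 1 + D + B)) :
    C * (C₁ * (η ^ d₁ + θ₁ ^ n) + η + (D * y + ρ) ^ d) ≤ T * (η ^ d₂ + θ₂ ^ n) := by
  have η0 : 0 ≤ η := y0.trans hy
  have a1 : η ^ d₁ ≤ η ^ d₂ := rpow_le_rpow_of_exponent_ge' η0 η1 h0.le h2
  have a2 : η ≤ η ^ d₂ := by
    have := rpow_le_rpow_of_exponent_ge' η0 η1 h0.le (h1.trans d1.le)
    rwa [rpow_one] at this
  have a3 : θ₁ ^ n ≤ θ₂ ^ n := pow_le_pow_left₀ t0 t1 n
  have a4 : (D * y + ρ) ^ d ≤ (D * y) ^ d + ρ ^ d := rpow_add_le_add_rpow (by positivity) ρ0 d0.le d1.le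
  have a5 : (D * y) ^ d ≤ D * η ^ d₂ := by
    rw [mul_rpow (by linarith) y0]
    refine mul_le_mul ?_ ((rpow_le_rpow y0 hy d0.le).trans
      (rpow_le_rpow_of_exponent_ge' η0 η1 h0.le h1)) (by positivity) (by linarith)
    exact (rpow_le_rpow_of_exponent_le hD d1.le).trans (rpow_one _).le
  have b0 : 0 ≤ η ^ d₂ := by positivity
  have b1 : 0 ≤ θ₂ ^ n := pow_nonneg (t0.trans t1) n
  rw [hT, mul_assoc]
  refine mul_le_mul_of_nonneg_left ?_ hC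
  nlinarith [mul_le_mul_of_nonneg_left a1 hC₁, mul_le_mul_of_nonneg_left a3 hC₁, mul_nonneg hB b0,
    mul_nonneg (by linarith : 0 ≤ D) b1]

theorem small {T d θ : ℝ} (d0 : 0 < d) (t0 : 0 ≤ θ) (t1 : θ < 1) : ∃ (ε : ℝ) (s : ℕ), 0 < ε ∧ ε ≤ 1 ∧
    ∀ (η : ℝ) (n : ℕ), 0 ≤ η → η ≤ ε → s ≤ n → T * (η ^ d + θ ^ n) ≤ 1 / 100 := by
  have hc : 0 < 1 / (200 * (|T| + 1)) := by positivity
  obtain ⟨s, hs⟩ := exists_pow_lt_of_lt_one hc t1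
  refine ⟨min 1 ((1 / (200 * (|T| + 1))) ^ d⁻¹), s, by positivity, min_le_left _ _, fun η n h0 h1 h2 => ?_⟩
  have a1 : η ^ d ≤ 1 / (200 * (|T| + 1)) :=
    (rpow_le_rpow h0 (h1.trans (min_le_right _ _)) d0.le).trans_eq (rpow_inv_rpow hc.le d0.ne')
  have a2 : θ ^ n ≤ 1 / (200 * (|T| + 1)) := (pow_le_pow_of_le_one t0 t1.le h2).trans hs.le
  have a3 : 0 ≤ η ^ d + θ ^ n := by positivity
  calc T * (η ^ d + θ ^ n) ≤ (|T| + 1) * (1 / (200 * (|T| + 1)) + 1 / (200 * (|T| + 1))) :=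
        mul_le_mul (by linarith [le_abs_self T]) (add_le_add a1 a2) a3 (by positivity)
    _ = 1 / 100 := by field_simp; norm_num

end E70

open E70 in
theorem tLinStmt (hE : EnvStmt) (hL : LnStmt) (hC : CloseStmt) (hS : Leaf OStep) : TLinStmt := by
  intro F θ₀ w r₀ h0
  obtain ⟨v₁, h1⟩ := hE F θ₀ w r₀ h0
  obtain ⟨W₂, h2⟩ := hL w
  obtain ⟨W₃, h3⟩ := hC w
  obtain ⟨v₂, hv⟩ := exists_v (W₂ + W₃)
  refine ⟨max v₁ v₂, fun q e1 e2 e3 c => ?_⟩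
  have hW : W₂ + W₃ ≤ q.W := hv _ (le_of_max_le_right e3)
  obtain ⟨p, s, pw, h1⟩ := h1 q e1 e2 (le_of_max_le_left e3) c
  obtain ⟨c₀, C₂, d, c0, C2, d0, d1, h2⟩ := h2 p q.W q.D (pw.trans e1) (by omega)
  obtain ⟨C₃, C3, h3⟩ := h3 p q.W q.D (pw.trans e1) (by omega)
  obtain ⟨δ, s', δ0, ss, h1⟩ := h1 C₃
  obtain ⟨P₁, hS⟩ := (hS F θ₀ q h0 c).ex
  have W1 : (1 : ℝ) < q.W := by exact_mod_cast lt_of_lt_of_le one_lt_two c.two_le_W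
  obtain ⟨d₂, x0, x1, x2⟩ : ∃ d₂ : ℝ, 0 < d₂ ∧ d₂ ≤ d ∧ d₂ ≤ P₁.d :=
    ⟨min d P₁.d, lt_min d0 P₁.d0, min_le_left _ _, min_le_right _ _⟩
  obtain ⟨θ₂, t1, t2, t3⟩ : ∃ θ₂ : ℝ, θ₂ < 1 ∧ P₁.θ ≤ θ₂ ∧ (1 / 2 : ℝ) ^ d ≤ θ₂ :=
    ⟨max P₁.θ ((1 / 2) ^ d), max_lt P₁.θ1 (rpow_lt_one (by norm_num) (by norm_num) d0),
      le_max_left _ _, le_max_right _ _⟩
  obtain ⟨T, hT⟩ : ∃ T : ℝ, T = C₂ * (P₁.C + 1 + q.D + 2 ^ (s + 1)) := ⟨_, rfl⟩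
  have t0 : 0 ≤ θ₂ := P₁.θ0.le.trans t2
  obtain ⟨ε, s₂, ε0, ε1, hs⟩ := small (T := T) x0 t0 t1
  have t4 : (q.W : ℝ) ^ (-ew (max w 4)) < 1 :=
    rpow_lt_one_of_one_lt_of_neg W1 (neg_lt_zero.2 (ew_pos (by omega)))
  refine ((((((((((((evp_s s').and (evp_s s₂)).and (evp_s P₁.s)).and (evp_C (2 * T))).and
    (evp_C (2 * (1 + C₃)))).and (evp_d x0)).and (evp_θ t1)).and (evp_θ t4)).and (evp_ε ε0)).and
    (evp_ε P₁.ε0)).and (evp_δ δ0)).and (evp_δ P₁.δ0)).mono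
    fun P ⟨⟨⟨⟨⟨⟨⟨⟨⟨⟨⟨p1, p2⟩, p3⟩, p4⟩, p5⟩, p6⟩, p7⟩, p8⟩, p9⟩, p10⟩, p11⟩, p12⟩ => ⟨c₀, c0, fun l a => ?_⟩
  obtain ⟨r₁, k₀, h1⟩ := h1 l
  obtain ⟨a₁, hS⟩ := hS l a
  refine ⟨max a (max k₀ a₁), fun a₂ ha => ?_⟩
  simp only [max_le_iff] at ha
  obtain ⟨B, B0, h3⟩ := h3 a₂
  refine ⟨B, B0, fun Λ N K n ⟨hF, hw, hN⟩ hB n1 n2 => ?_⟩
  rw [Dat.fw_w] at hN
  have vm : ∀ j, j ≤ K → q.v * (j + 1) ≤ q.v * (K + 1) := fun j hj => Nat.mul_le_mul_left _ (by omega)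
  have vm' : ∀ j, q.v * j ≤ q.v * (j + 1) := fun j => Nat.mul_le_mul_left _ (by omega)
  have env := fun j (j1 : a₂ ≤ j) (j2 : j ≤ K) =>
    h1 Λ N j hF ⟨hw.1.mono_d p11, hw.2.trans p11⟩ (by omega) (by have := vm j j2; omega)
  have st := fun j (j1 : a₂ ≤ j) (j2 : j ≤ K) => hS Λ N j
    ⟨hF, ⟨hw.1.mono_d p12, hw.2.trans p12⟩, by have := vm j j2; rw [Dat.fw_w]; omega⟩ (by omega)
    fun i i1 i2 => (hB i i1 (i2.trans j2)).trans p10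
  have η0 : ∀ j, 0 ≤ |q.x Λ N j| + q.y Λ N j := fun j => add_nonneg (abs_nonneg _) (q.y_nonneg Λ N j)
  have ηε : ∀ j, a₂ ≤ j → j ≤ K → |q.x Λ N j| + q.y Λ N j ≤ ε := fun j j1 j2 =>
    (hB j (by omega) j2).trans p9
  have D1 := c.D1
  have kp : ∀ j, a₂ ≤ j → j ≤ K → C₂ * (q.fw.er P₁ Λ N j + (|q.x Λ N j| + q.y Λ N j) +
      (q.D * q.y Λ N j + q.R j / (2 ^ (N - s) : ℕ)) ^ d) ≤
      T * ((|q.x Λ N j| + q.y Λ N j) ^ d₂ + θ₂ ^ (N - q.v * j)) := fun j j1 j2 =>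
    kap (by linarith) P₁.C0 D1 (by positivity) (q.y_nonneg Λ N j) (le_add_of_nonneg_left (abs_nonneg _))
      ((ηε j j1 j2).trans ε1) d0 d1 x0 x1 x2 P₁.θ0.le t2 (div_nonneg (q.R_pos j).le (Nat.cast_nonneg _))
      (Dat.ratio_rpow { q with s := s } (N := N) (k := j)
        (by have := vm j j2; have := vm' j; simp only; omega) d1.le t3) hT
  have sm : ∀ j, a₂ ≤ j → j ≤ K →
      T * ((|q.x Λ N j| + q.y Λ N j) ^ d₂ + θ₂ ^ (N - q.v * j)) ≤ 1 / 100 := fun j j1 j2 =>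
    hs _ _ (η0 j) (ηε j j1 j2) (by have := vm j j2; have := vm' j; omega)
  have nK : a₂ ≤ K := n1.trans n2.le
  obtain ⟨Q, Q', b1, b2, b3⟩ := h3 (tE Λ N r₁ s) K (env K nK le_rfl).1
    (fun j j1 j2 => ⟨(env j j1 j2).2.1, (env j j1 j2).2.2.1⟩) (fun j j1 j2 => by
      refine half (st j j1 j2.le) (le_trans ?_ ((kp j j1 j2.le).trans (sm j j1 j2.le)))
      have u1 : 0 ≤ q.fw.er P₁ Λ N j := (st j j1 j2.le).e_nonneg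
      have u2 : 0 ≤ (q.D * q.y Λ N j + q.R j / (2 ^ (N - s) : ℕ)) ^ d :=
        rpow_nonneg (add_nonneg (mul_nonneg (by linarith) (q.y_nonneg Λ N j))
          (div_nonneg (q.R_pos j).le (Nat.cast_nonneg _))) _
      have u3 := η0 j
      change q.fw.er P₁ Λ N j + (|q.x Λ N j| + q.y Λ N j) ≤ _
      nlinarith) (env K nK le_rfl).2.2.2 n n1 n2.le
  have w4 : 4 ≤ w := (pw.trans e1) ▸ b1.ed.w4
  rw [max_eq_left w4] at p8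
  have s1 := st n n1 n2.le
  have k1 := h2 (tE Λ N r₁ s) (q.R n) _ Q Q' (q.fw.er P₁ Λ N n) _ b1 b2 (by rw [q.R_succ]; exact s1)
    (kp n n1 n2.le) (sm n n1 n2.le)
  rw [q.R_succ] at k1
  set κ := T * ((|q.x Λ N n| + q.y Λ N n) ^ d₂ + θ₂ ^ (N - q.v * n)) with hκ
  have T0 : 0 ≤ T := by have := P₁.C0; rw [hT]; positivity
  have κ0 : 0 ≤ κ := mul_nonneg T0 (add_nonneg (rpow_nonneg (η0 n) _) (pow_nonneg t0 _))
  have er : 2 * κ ≤ q.fw.er P Λ N n := by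
    rw [hκ, ← mul_assoc]
    exact mul_le_mul p4 (add_le_add (rpow_le_rpow_of_exponent_ge' (η0 n) ((ηε n n1 n2.le).trans ε1)
      P.d0.le p6) (pow_le_pow_left₀ t0 p7 _))
      (add_nonneg (rpow_nonneg (η0 n) _) (pow_nonneg t0 _)) P.C0
  obtain ⟨S, hS'⟩ : ∃ S, S = ∑ j ∈ Icc a₂ K, P.θ ^ Nat.dist j n * (|pT q Λ N j| + |qT q Λ N j|) := ⟨_, rfl⟩
  have θ0 := P.θ0
  have z1 : |pT q Λ N n| + |qT q Λ N n| ≤ S := by
    rw [hS']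
    refine le_trans ?_ (single_le_sum (f := fun j => P.θ ^ Nat.dist j n * (|pT q Λ N j| + |qT q Λ N j|))
      (fun j _ => by positivity) (mem_Icc.2 ⟨n1, n2.le⟩))
    simp only [Nat.dist_self, pow_zero, one_mul, le_refl]
  have z2 : Q + Q' ≤ C₃ * (B + S) := by
    refine b3.trans (mul_le_mul_of_nonneg_left (add_le_add le_rfl ?_) (by linarith))
    rw [hS']
    exact sum_le_sum fun j _ => mul_le_mul_of_nonneg_right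
      (pow_le_pow_left₀ (by positivity) p8 _) (by positivity)
  have S0 : 0 ≤ S := le_trans (by positivity) z1
  have z3 : 2 * (|pT q Λ N n| + |qT q Λ N n| + Q + Q') ≤ Mid.sz q.fw P (pT q) (qT q) B a₂ K Λ N n := by
    have u1 : 0 ≤ (|q.fw.x Λ N n| + q.fw.y Λ N n) * ∑ j ∈ Icc a₂ n, (|pT q Λ N j| + |qT q Λ N j|) :=
      mul_nonneg (η0 n) (sum_nonneg fun j _ => by positivity)
    rw [Mid.sz, KT.Abd, ← hS']
    refine le_trans ?_ (mul_le_mul p5 (le_add_of_nonneg_right u1) (by positivity) P.C0)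
    nlinarith
  have Q0 : 0 ≤ Q + Q' := add_nonneg (zero_le_one.trans b1.P1) b2.1
  refine ⟨k1.1.mono (q.y_nonneg Λ N n) (by positivity) er z3, le_trans ?_ k1.2⟩
  have z4 : Q + Q' ≤ 1 + Mid.sz q.fw P (pT q) (qT q) B a₂ K Λ N n := by
    linarith [abs_nonneg (pT q Λ N n), abs_nonneg (qT q Λ N n)]
  linarith [mul_le_mul (by linarith : κ ≤ q.fw.er P Λ N n) z4 Q0 (by linarith)]

end Crest.Agent.T145.Ev
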