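import Crest.Agent.T145.EvDet_91

/-!
# Row 145, the even sector: the deterministic leaf `TgStmt` (helper91)
-/

set_option autoImplicit false

namespace Crest.Agent.T145.Ev

open Finset Pot Pot.Ha91 Xi Real Fl Fl.Sw22

namespace D91

/-! ## the dipoles -/

theorem chq_fd {a : ℕ} (ha : 1 ≤ a) (i : Fin 2) : Chq (bl 0 (5 * a)) (fd a i) 0 := by
  have ha0 : (0 : ℝ) < a := by exact_mod_cast ha
  have h := fun c : Pt => chq_xi' ha0 (r := 2 * a) (by simp) c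
  have h1 := ((h _).mono (bl_subset_bl (r' := 5 * a) (ev_mem a i).1 (by omega))).sub
    ((h _).mono (bl_subset_bl (r' := 5 * a) (ev_mem a i).2 (by omega)))
  simp only [sub_neg_eq_add, sub_self] at h1
  exact h1

theorem fd_swp (a : ℕ) (x : Pt) : fd a 0 (swpZ 0 x) = fd a 1 x ∧ fd a 1 (swpZ 0 x) = fd a 0 x := by
  constructor <;>
  · rw [fd, fd, ← xi_swap, ← xi_swap a (swpZ 0 x + _)]
    congr 2 <;> ext <;> simp [swpZ, ev]

theorem fd_rot (a : ℕ) (x : Pt) : fd a 0 (rotZ 0 x) = -fd a 1 x ∧ fd a 1 (rotZ 0 x) = fd a 0 x := by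
  constructor
  · rw [fd, fd, neg_sub, ← xi_rot a (x + _), ← xi_rot a (x - _)]
    congr 2 <;> ext <;> simp [rotZ, ev] <;> ring
  · rw [fd, fd, ← xi_rot a (x + _), ← xi_rot a (x - _)]
    congr 2 <;> ext <;> simp [rotZ, ev]

theorem cp_mapH (φ : Pt ≃ Pt) (ξ : Pt → ℝ) (t : ℝ) (s : Cfg Pt) :
    cp ξ t (mapH φ s) = cp (fun x => ξ (φ x)) t s := by simp only [cp, pr_mapH]

theorem d4_T1 (a : ℕ) : D4 0 (T1 a) := fun s => by
  have h : cp (fun x => -fd a 1 x) 0 s = cp (fd a 1) 0 s := by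
    have := cp_neg (fd a 1) 0
    rw [neg_zero] at this
    exact congrFun this s
  simp only [T1, cp_mapH, (fd_swp a _).1, (fd_swp a _).2, (fd_rot a _).1, (fd_rot a _).2, h]
  exact ⟨by rw [add_comm], by rw [add_comm]⟩

theorem ins_T1 {a : ℕ} (ha : 1 ≤ a) : Ins 0 (5 * a) (T1 a) :=
  (((ins_cp (chq_fd ha 0) 0).add (ins_cp (chq_fd ha 1) 0)).mul_const 2⁻¹).congr fun s => by
    rw [T1, div_eq_mul_inv]

theorem even_T1 (a : ℕ) : EvenF (T1 a) := fun s => by simp only [T1, even_cp _ s]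

theorem abs_T1 (a : ℕ) (s : Cfg Pt) : |T1 a s| ≤ 1 := by
  have h1 := abs_le.1 (abs_cp_le (fd a 0) 0 s)
  have h2 := abs_le.1 (abs_cp_le (fd a 1) 0 s)
  rw [T1, abs_le]
  constructor <;> linarith [h1.1, h1.2, h2.1, h2.2]

/-! ## the linear test function -/

theorem lin_in {a n : ℕ} (ha : 1 ≤ a) (hn : n ≤ a) {x : Pt} (hx : x ∈ bl 0 n) : lin a x = x.1 / a := by
  rw [lin, chi_one (by exact_mod_cast ha) (by exact_mod_cast hn) hx, mul_one]

theorem sup_lin {a : ℕ} (ha : 1 ≤ a) : Pot.Sup (bl 0 (2 * a - 1)) (lin a) := fun x hx => by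
  have h : 2 * (a : ℝ) ≤ ((2 * a - 1 : ℕ) : ℝ) + 1 := by
    have : 2 * a ≤ 2 * a - 1 + 1 := by omega
    exact_mod_cast this
  rw [lin, sup_chi (by exact_mod_cast ha) h x hx, mul_zero, zero_div]

theorem dif_lin {a n : ℕ} (ha : 1 ≤ a) (hn : n + 1 ≤ a) {x e : Pt} (hx : x ∈ bl 0 n) (he : e ∈ nn) :
    dif e (lin a) x = e.1 / a := by
  rw [dif, lin_in ha hn (bl_subset_bl hx (by omega) (nn_bl he x)), lin_in ha hn (bl_mono _ (by omega) hx)]
  simp only [Prod.fst_add]; push_cast; ring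

theorem sm_lin : ∃ C : ℝ, 0 ≤ C ∧ ∀ a : ℕ, 1 ≤ a → Sm 3 Set.univ C a (lin a) := by
  obtain ⟨C1, h1, hC1⟩ := sm_chi 3
  refine ⟨2 ^ 3 * 8 * C1, by positivity, fun a ha => ?_⟩
  have ha1 : (1 : ℝ) ≤ a := by exact_mod_cast ha
  have ha0 : (0 : ℝ) < a := by linarith
  have hd : ∀ y : Pt, dif y (fun x : Pt => (x.1 : ℝ) / a) = fun _ => (y.1 : ℝ) / a := fun y => by
    funext x; simp only [dif, Prod.fst_add]; push_cast; ring
  have h6 : Sm 3 (bl (0 : Pt) (2 * a + 6)) 8 a fun x : Pt => (x.1 : ℝ) / a := fun ys _ h8 x hx => by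
    match ys, h8 with
    | [], _ =>
      simp only [difs, List.length_nil, pow_zero, div_one]
      have h2 : |x.1| ≤ ((2 * a + 6 : ℕ) : ℤ) := by simpa using (mem_bl_abs.1 hx).1
      have h3 : |(x.1 : ℝ)| ≤ 2 * a + 6 := by exact_mod_cast h2
      rw [abs_div, abs_of_pos ha0, div_le_iff₀ ha0]; linarith
    | [y], h8 =>
      simp only [difs, hd, List.length_singleton, pow_one]
      rw [abs_div, abs_of_pos ha0]
      gcongr
      exact (abs_nn_le (h8 y (by simp))).1.trans (by norm_num)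
    | y :: y' :: ys, _ =>
      rw [difs_cons', hd, difs_const, abs_zero]; positivity
  have h8 := h6.mul ha0 ((hC1 a ha0).mono le_rfl (Set.subset_univ _) le_rfl ha0) (S := bl 0 (2 * a + 3))
    fun x hx w hw => bl_subset_bl hx (by omega) hw
  have h9 : Sm 3 {x | x ∉ bl (0 : Pt) (2 * a + 3)} (2 ^ 3 * 8 * C1) a (lin a) :=
    (Sm.zero' 3 _ (by positivity) ha0).congr fun x hx w hw => sup_lin ha w fun h =>
      hx (bl_subset_bl h (by omega) (mem_bl_comm.1 hw))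
  have e : (fun w : Pt => (w.1 : ℝ) / a * Xi.chi a w) = lin a := funext fun w => by rw [lin]; ring
  rw [e] at h8
  exact (Sm.union h8 h9).mono le_rfl (fun x _ => em _) le_rfl ha0

theorem E0_le {C : ℝ} {a : ℕ} (ha : 1 ≤ a) {v : Pt → ℝ} (h : Sm 3 Set.univ C a v) :
    E0 (bl 0 (2 * a)) v ≤ 50 * C ^ 2 := by
  have ha1 : (1 : ℝ) ≤ a := by exact_mod_cast ha
  have hC : 0 ≤ C := (abs_nonneg _).trans (h.zero (z := 0) trivial)
  have h9 : ∀ x ∈ bl (0 : Pt) (2 * a), v x * A0 v x ≤ C * (2 * (C / (a : ℝ) ^ 2)) := fun x _ => by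
    refine (le_abs_self _).trans ?_
    rw [abs_mul]
    exact mul_le_mul (h.zero trivial) ((Sm.smH h).abs_A0 (by norm_num) trivial) (abs_nonneg _) hC
  refine (sum_le_card_nsmul _ _ _ h9).trans ?_
  rw [card_bl, nsmul_eq_mul]
  push_cast
  calc _ ≤ (5 * (a : ℝ)) ^ 2 * (C * (2 * (C / (a : ℝ) ^ 2))) := by gcongr; linarith
    _ = _ := by field_simp; ring

theorem lk_lin {a n : ℕ} (ha : 1 ≤ a) (hn : n + 2 ≤ a) : Lk (lin a) 0 n (1 / a) 0 := fun y hy e he => by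
  constructor
  · rw [dif_lin ha (by omega) hy he, abs_div, Nat.abs_cast]
    gcongr
    exact (abs_nn_le he).1
  · intro e' he'
    change |dif e' (lin a) (y + e) - dif e' (lin a) y| ≤ 0
    rw [dif_lin ha hn (bl_subset_bl hy (by omega) (nn_bl he y)) he',
      dif_lin ha hn (bl_mono _ (by omega) hy) he', sub_self, abs_zero]

theorem A0_lin {a : ℕ} (ha : 1 ≤ a) {y : Pt} (hy : y ∈ bl 0 (a - 1)) : A0 (lin a) y = 0 := by
  rw [A0_congr (v := fun x : Pt => (x.1 : ℝ) / a) fun w hw =>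
    lin_in ha le_rfl (bl_subset_bl hy (by omega) hw)]
  simp only [A0, Prod.fst_add]; push_cast; ring

theorem gr_lin {a : ℕ} (ha : 1 ≤ a) : gr (lin a) (lin a) 0 = 1 / (a : ℝ) ^ 2 := by
  simp only [gr, Fin.sum_univ_two, dif_lin (n := 0) ha ha (self_mem_bl _ _) (ev_nn _)]
  simp [ev]; ring

/-! ## the response -/

theorem kp_exp : ∃ A : ℝ, 0 ≤ A ∧ ∀ a : ℕ, 1 ≤ a → |pk (6 * (a : ℤ), 0) - Xi.cr a - er a| ≤ A := by
  obtain ⟨C1, h1, hC1⟩ := pk_sub_cr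
  obtain ⟨C2, h2, hC2⟩ := abs_er_le
  refine ⟨C1 + 5 + C2, by positivity, fun a ha => ?_⟩
  have ha1 : (1 : ℝ) ≤ a := by exact_mod_cast ha
  have hz : ((6 * (a : ℤ), 0) : Pt) ≠ 0 := fun h => by
    have := congrArg Prod.fst h
    simp only [Prod.fst_zero] at this
    omega
  have h3 := hC1 a (by linarith) _ hz
  have h4 : eu (6 * (a : ℤ), 0) / a = 6 := by
    rw [eu]; push_cast
    rw [zero_pow two_ne_zero, add_zero, sqrt_sq (by positivity)]; field_simp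
  rw [h4] at h3
  have h5 : C1 / eu (6 * (a : ℤ), 0) ≤ C1 := div_le_self h1 (one_le_eu hz)
  have h6 : 0 ≤ log 6 / (2 * π) := div_nonneg (log_nonneg (by norm_num)) (by positivity)
  have h7 : log 6 / (2 * π) ≤ 5 :=
    (div_le_self (log_nonneg (by norm_num)) (by linarith [pi_gt_three])).trans
      (by linarith [log_le_sub_one_of_pos (show (0 : ℝ) < 6 by norm_num)])
  have h8 := abs_le.1 (hC2 a ha1)
  have h9 := abs_le.1 h3
  rw [abs_le]
  constructor <;> linarith [h8.1, h8.2, h9.1, h9.2]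

theorem kp_bd : ∃ c C : ℝ, 0 < c ∧ 0 ≤ C ∧ ∀ a : ℕ, 1 ≤ a → ∀ g : ℝ, 1 / 4 ≤ g → g ≤ 1 →
    c * (a : ℝ) ^ 2 ≤ kp g a ∧ kp g a ≤ C * (a : ℝ) ^ 2 := by
  obtain ⟨A, hA, h⟩ := kp_exp
  refine ⟨exp (-(4 * π ^ 2 * A)) * (24 * π ^ 2 * (1 / 4)) ^ 2 / 4, exp (4 * π ^ 2 * A) * (24 * π ^ 2) ^ 2 / 4,
    by positivity, by positivity, fun a ha g h1 h2 => ?_⟩
  have h3 : |-4 * π ^ 2 * g * (pk (6 * (a : ℤ), 0) - Xi.cr a - er a)| ≤ 4 * π ^ 2 * A := by
    rw [abs_mul, show -4 * π ^ 2 * g = -(4 * π ^ 2 * g) by ring, abs_neg, abs_of_nonneg (by positivity)]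
    exact mul_le_mul (mul_le_of_le_one_right (by positivity) h2) (h a ha) (abs_nonneg _) (by positivity)
  obtain ⟨h4, h5⟩ := abs_le.1 h3
  constructor
  · calc _ = exp (-(4 * π ^ 2 * A)) * (24 * π ^ 2 * (1 / 4) * a) ^ 2 / 4 := by ring
      _ ≤ _ := by rw [kp]; gcongr
  · calc kp g a ≤ exp (4 * π ^ 2 * A) * (24 * π ^ 2 * 1 * a) ^ 2 / 4 := by rw [kp]; gcongr
      _ = _ := by ring

end D91

open D91

theorem tgStmt : TgStmt := by
  obtain ⟨c, C1, hc, h1, hk⟩ := kp_bd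
  obtain ⟨C2, h2, hl⟩ := sm_lin
  refine ⟨c, C1 + C2 + 50 * C2 ^ 2, hc, by positivity, fun a ha => ?_⟩
  have ha0 : (0 : ℝ) < a := by exact_mod_cast ha
  have h3 : ((a - 1 : ℕ) : ℝ) + 1 ≤ a := by
    have : a - 1 + 1 ≤ a := by omega
    exact_mod_cast this
  refine ⟨⟨ins_T1 ha, even_T1 a, d4_T1 a, abs_T1 a⟩,
    ⟨ins_cp (chq_xi ha0 (by simp)) 0, even_cp _, d4_cp (xi_rot a) (xi_swp a) 0,
      out_cp (fun _ hy => xi_in ha0 h3 hy) 0⟩,
    ⟨ins_cp (chq_A0 (sup_lin ha) (by omega)) 0, out_cp (fun _ hy => A0_lin ha hy) 0,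
      (sup_lin ha).mono (bl_mono _ (by omega)), (hl a ha).mono le_rfl Set.Subset.rfl
        (by nlinarith [sq_nonneg C2]) ha0, (E0_le ha (hl a ha)).trans (by linarith), gr_lin ha,
      fun n hn => lk_lin ha hn⟩, fun g g1 g2 => ⟨(hk a ha g g1 g2).1, (hk a ha g g1 g2).2.trans ?_⟩⟩
  gcongr
  nlinarith [sq_nonneg C2]

end Crest.Agent.T145.Ev
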