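import Crest.Agent.T145.RJa_57

/-!
# Row 145, module (b) (helper57): `RJStmt`, `R2Stmt`, `R3Stmt`
-/

set_option autoImplicit false

namespace Crest.Agent.T145

open Finset Crest.ProbabilityR.HeightModel

namespace RJ57

theorem mem_ok {F : Fa} {Λ : Lat} (h : F.Mem Λ) : Λ.Ok := ⟨h.1 ▸ F.adm, F.pos.trans_le h.2.2.1⟩

theorem jp_rg {Λ : Lat} {y : Pt} (hy : y ∈ Λ.Jp) : |y.1| ≤ Λ.rg ∧ |y.2| ≤ Λ.rg :=
  Lat.le_rg (Lat.mem_Jp.1 hy).1

theorem co_le {Λ : Lat} {y : Pt} (hy : y ∈ Λ.Jp) (i : Fin 2) : |co i y| ≤ Λ.rg := by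
  fin_cases i
  exacts [cast_le (jp_rg hy).1, cast_le (jp_rg hy).2]

theorem abs_sum_Jp {Λ : Lat} (f : Pt → ℝ) {b : ℝ} (hb : 0 ≤ b) (h : ∀ y ∈ Λ.Jp, |f y| ≤ b) :
    |∑ y ∈ Λ.Jp, f y| ≤ Λ.J.card * b := by
  refine (abs_sum_le_sum_abs _ _).trans ((sum_le_card_nsmul _ _ b h).trans ?_)
  rw [nsmul_eq_mul]
  exact mul_le_mul_of_nonneg_right (by exact_mod_cast card_filter_le _ _) hb

theorem iso {Λ : Lat} (hΛ : Λ.Ok) (p q : Fin 2 → ℝ) :
    ∑ y ∈ Λ.Jp, (∑ i, p i * co i y) * (∑ i, q i * co i y) = Λ.a * ∑ i, p i * q i := by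
  have h1 : ∑ y ∈ Λ.Jp, (y.1 : ℝ) ^ 2 = Λ.a := rfl
  have h2 := hΛ.a_eq_snd
  have h3 := hΛ.sum_mixed
  simp only [Fin.sum_univ_two, co0, co1]
  calc _ = ∑ y ∈ Λ.Jp, (p 0 * q 0 * (y.1 : ℝ) ^ 2 + (p 0 * q 1 + p 1 * q 0) * ((y.1 : ℝ) * y.2) +
        p 1 * q 1 * (y.2 : ℝ) ^ 2) := sum_congr rfl fun y _ => by ring
    _ = _ := by
      rw [sum_add_distrib, sum_add_distrib, ← mul_sum, ← mul_sum, ← mul_sum, h1, ← h2, h3]; ring

theorem iso' {Λ : Lat} (hΛ : Λ.Ok) (i : Fin 2) (q : Fin 2 → ℝ) :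
    ∑ y ∈ Λ.Jp, co i y * ∑ j, q j * co j y = Λ.a * q i := by
  have := iso hΛ (fun j => co j (ev i)) q
  simp only [mul_comm (co _ (ev i)), sum_co_ev] at this
  rw [this]
  fin_cases i <;> simp [Fin.sum_univ_two]

theorem a_le (Λ : Lat) : Λ.a ≤ Λ.J.card * (Λ.rg : ℝ) ^ 2 :=
  (le_abs_self _).trans (abs_sum_Jp _ (by positivity) fun y hy => by
    rw [abs_pow]; exact pow_le_pow_left₀ (abs_nonneg _) (co_le hy 0) 2)

theorem rj1 {Λ : Lat} (hΛ : Λ.Ok) (a : Pt) (n₁ n₂ : ℕ) (Φ : Pt → Pt → ℝ) {c c' : ℝ}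
    (hc : ∀ y ∈ Λ.Jp, ∀ x, |Φ y x| ≤ c) (hc' : ∀ y ∈ Λ.Jp, ∀ i x, |df i (Φ y) x| ≤ c') :
    F2 (Λ.edI (rc a n₁ n₂))
      (dv (Λ.edI (rc a n₁ n₂)) (fun e => Φ (e.2 - e.1) e.1) -
        dv (nnL.edI (rc a n₁ n₂)) fun e =>
          ∑ y ∈ Λ.Jp, (∑ i, co i y * co i (e.2 - e.1)) * Φ y e.1)
      (32 * (Λ.J.card : ℝ) ^ 2 * (Λ.rg : ℝ) ^ 4 *
        ((n₁ : ℝ) * n₂ * c' ^ 2 + ((n₁ : ℝ) + n₂) * c ^ 2)) := by
  have hρ := hΛ.one_le_rg
  have c0 : 0 ≤ c := (abs_nonneg _).trans (hc _ hΛ.e1 0)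
  have c0' : 0 ≤ c' := (abs_nonneg _).trans (hc' _ hΛ.e1 0 0)
  choose! H H1 H2 H3 H4 using fun y (hy : y ∈ Λ.Jp) =>
    route a n₁ n₂ Λ.rg hρ y (jp_rg hy).1 (jp_rg hy).2 (Φ y) (hc y hy) (hc' y hy)
  have key := nn_f2 hΛ (rc a n₁ n₂) (fun i z => ∑ y ∈ Λ.Jp, H y i z) fun i z hz => by
    obtain ⟨y, hy, h⟩ := exists_ne_zero_of_sum_ne_zero hz
    exact H2 y hy i z h
  refine f2_mono (f2_congr key (funext fun z => ?_)) ?_
  · simp only [Pi.sub_apply, dv_edI Λ, dv_nn, sub_sub_cancel, add_sub_cancel_left, sum_co_ev,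
      mul_sum, ← sum_sub_distrib]
    rw [sum_comm (s := univ), sum_comm (s := univ), ← sum_sub_distrib]
    exact sum_congr rfl fun y hy => H1 y hy z
  · have h1 : (1 : ℝ) ≤ Λ.rg := by exact_mod_cast hρ
    have b : ∀ i, ∑ z ∈ rc a n₁ n₂, (∑ y ∈ Λ.Jp, H y i z) ^ 2 ≤
        n₁ * n₂ * (Λ.J.card * (Λ.rg * (2 * Λ.rg * c'))) ^ 2 +
          2 * (2 * Λ.rg : ℕ) * (n₁ + n₂) * (Λ.J.card * (2 * Λ.rg * c)) ^ 2 := fun i =>
      sum_bd_le a n₁ n₂ _ _ (sq_nonneg _) (sq_nonneg _)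
        (fun z => sq_le_sq' (neg_le_of_abs_le (abs_sum_Jp _ (by positivity) fun y hy => H3 y hy i z))
          (le_of_abs_le (abs_sum_Jp _ (by positivity) fun y hy => H3 y hy i z)))
        fun z hz => sq_le_sq'
          (neg_le_of_abs_le (abs_sum_Jp _ (by positivity) fun y hy => H4 y hy i z hz))
          (le_of_abs_le (abs_sum_Jp _ (by positivity) fun y hy => H4 y hy i z hz))
    rw [Fin.sum_univ_two]
    refine (add_le_add (b 0) (b 1)).trans ?_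
    push_cast
    have e1 : 0 ≤ (Λ.J.card : ℝ) ^ 2 * (Λ.rg : ℝ) ^ 4 * (n₁ * n₂ * c' ^ 2) := by positivity
    have e2 : 0 ≤ (Λ.J.card : ℝ) ^ 2 * (Λ.rg : ℝ) ^ 3 * ((n₁ + n₂) * c ^ 2) := by positivity
    have e3 := mul_le_mul_of_nonneg_left h1 e2
    nlinarith

/-- `A u = e₀ A^{nn} u` up to a small flow -/
theorem rj2 {Λ : Lat} (hΛ : Λ.Ok) (a : Pt) (n₁ n₂ : ℕ) (u : Pt → ℝ) {c c' : ℝ}
    (hc : ∀ i x, |df i u x| ≤ c) (hc' : ∀ i j x, |df j (df i u) x| ≤ c') :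
    F2 (Λ.edI (rc a n₁ n₂)) (Λ.Au (rc a n₁ n₂) u - Λ.e0 • nnL.Au (rc a n₁ n₂) u)
      (320 * (Λ.J.card : ℝ) ^ 2 * (Λ.rg : ℝ) ^ 6 * Λ.τ⁻¹ ^ 2 *
        ((n₁ : ℝ) * n₂ * c' ^ 2 + ((n₁ : ℝ) + n₂) * c ^ 2)) := by
  have hτ := hΛ.pos
  have c0' : 0 ≤ c' := (abs_nonneg _).trans (hc' 0 0 0)
  have k1 := rj1 hΛ a n₁ n₂ (fun y x => (u (x + y) - u x) / Λ.τ) (c := 2 * Λ.rg * c / Λ.τ)
    (c' := 2 * Λ.rg * c' / Λ.τ) (fun y hy x => by
      rw [abs_div, abs_of_pos hτ]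
      exact div_le_div_of_nonneg_right (lip hc x y (jp_rg hy).1 (jp_rg hy).2) hτ.le)
    fun y hy i x => by
      have := lip (hc' i) x y (jp_rg hy).1 (jp_rg hy).2
      rw [show df i (fun x => (u (x + y) - u x) / Λ.τ) x = (df i u (x + y) - df i u x) / Λ.τ by
        simp only [df, add_right_comm x y]; ring, abs_div, abs_of_pos hτ]
      exact div_le_div_of_nonneg_right this hτ.le
  let G : Fin 2 → Pt → ℝ := fun i z =>
    ∑ y ∈ Λ.Jp, co i y * ((u (z + y) - u z) / Λ.τ) - Λ.e0 * df i u z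
  have hG : ∀ i z, |G i z| ≤ Λ.J.card * (Λ.rg * (2 * Λ.rg * (2 * Λ.rg * c')) / Λ.τ) := fun i z => by
    have e : G i z = ∑ y ∈ Λ.Jp, co i y * (u (z + y) - u z - ∑ j, df j u z * co j y) / Λ.τ := by
      simp only [G, mul_sub (co i _) (_ - _), sub_div (co i _ * _), sum_sub_distrib, ← sum_div,
        iso' hΛ, Lat.e0, ← mul_div_assoc]
      ring
    rw [e]
    refine abs_sum_Jp _ (by positivity) fun y hy => ?_
    rw [abs_div, abs_of_pos hτ, abs_mul]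
    exact div_le_div_of_nonneg_right (mul_le_mul (co_le hy i)
      (tay hc' z y (jp_rg hy).1 (jp_rg hy).2) (abs_nonneg _) (Nat.cast_nonneg _)) hτ.le
  have k2 := nn_f2 hΛ (rc a n₁ n₂) (fun i z => gt (rc a n₁ n₂) (ev i) z * G i z) fun i z => of_gt
  refine f2_mono (f2_congr (f2_add k1 k2) (funext fun z => ?_)) ?_
  · simp only [Pi.add_apply, Pi.sub_apply, Pi.smul_apply, smul_eq_mul, add_sub_cancel, dv_nn, Au_nn,
      sub_sub_cancel, add_sub_cancel_left, sum_co_ev, G]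
    rw [Lat.Au, Fin.sum_univ_two, Fin.sum_univ_two, Fin.sum_univ_two]
    ring
  · have h1 : (1 : ℝ) ≤ Λ.rg := by exact_mod_cast hΛ.one_le_rg
    have b : ∀ i, ∑ z ∈ rc a n₁ n₂, (gt (rc a n₁ n₂) (ev i) z * G i z) ^ 2 ≤
        n₁ * n₂ * (Λ.J.card * (Λ.rg * (2 * Λ.rg * (2 * Λ.rg * c')) / Λ.τ)) ^ 2 := fun i => by
      have hz := fun z => (abs_gt_mul (rc a n₁ n₂) (ev i) z _).trans (hG i z)
      refine (sum_le_card_nsmul _ _ _ fun z _ =>
        sq_le_sq' (neg_le_of_abs_le (hz z)) (le_of_abs_le (hz z))).trans ?_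
      rw [nsmul_eq_mul, card_rc]
    rw [Fin.sum_univ_two]
    have b0 := b 0
    have b1 := b 1
    simp only [div_eq_mul_inv] at b0 b1 ⊢
    have e2 : 0 ≤ (Λ.J.card : ℝ) ^ 2 * (Λ.rg : ℝ) ^ 6 * Λ.τ⁻¹ ^ 2 * ((n₁ + n₂) * c ^ 2) := by
      positivity
    nlinarith

theorem abs_lin {p : Fin 2 → ℝ} {c : ℝ} (h : ∀ i, |p i| ≤ c) {Λ : Lat} {y : Pt} (hy : y ∈ Λ.Jp) :
    |∑ i, p i * co i y| ≤ 2 * Λ.rg * c := by
  have c0 : 0 ≤ c := (abs_nonneg _).trans (h 0)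
  have b : ∀ i, |p i * co i y| ≤ c * Λ.rg := fun i => by
    rw [abs_mul]; exact mul_le_mul (h i) (co_le hy i) (abs_nonneg _) c0
  rw [Fin.sum_univ_two]
  exact (abs_add_le _ _).trans (by linarith [b 0, b 1])

theorem En_eq (Λ : Lat) (B : Finset Pt) (u v : Pt → ℝ) : Λ.En B u v =
    ∑ x ∈ B, ∑ y ∈ Λ.Jp, gt B y x * ((u (x + y) - u x) * (v (x + y) - v x) / Λ.τ) :=
  sum_edI' Λ B _

theorem En_nn (B : Finset Pt) (u v : Pt → ℝ) :
    nnL.En B u v = ∑ x ∈ B, ∑ i, gt B (ev i) x * (df i u x * df i v x) := by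
  simp only [En_eq, sum_nn, df]
  simp [nnL]

theorem en_pt {Λ : Lat} (hΛ : Λ.Ok) (B : Finset Pt) {u v : Pt → ℝ} {c : ℝ}
    (hu : ∀ i x, |df i u x| ≤ c) (hv : ∀ i x, |df i v x| ≤ c) (x : Pt) :
    |∑ y ∈ Λ.Jp, gt B y x * ((u (x + y) - u x) * (v (x + y) - v x) / Λ.τ)| ≤
      Λ.J.card * (2 * Λ.rg * c * (2 * Λ.rg * c) / Λ.τ) := by
  have hτ := hΛ.pos
  have c0 : 0 ≤ c := (abs_nonneg _).trans (hu 0 0)
  refine abs_sum_Jp _ (by positivity) fun y hy => (abs_gt_mul _ _ _ _).trans ?_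
  rw [abs_div, abs_of_pos hτ, abs_mul]
  exact div_le_div_of_nonneg_right (mul_le_mul (lip hu x y (jp_rg hy).1 (jp_rg hy).2)
    (lip hv x y (jp_rg hy).1 (jp_rg hy).2) (abs_nonneg _) (by positivity)) hτ.le

theorem e0_nonneg {Λ : Lat} (hΛ : Λ.Ok) : 0 ≤ Λ.e0 :=
  div_nonneg (zero_le_one.trans hΛ.one_le_a) hΛ.pos.le

theorem e0_le {Λ : Lat} (hΛ : Λ.Ok) : Λ.e0 ≤ Λ.J.card * (Λ.rg : ℝ) ^ 2 * Λ.τ⁻¹ := by
  rw [← div_eq_mul_inv]
  exact div_le_div_of_nonneg_right (a_le Λ) hΛ.pos.le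

theorem rj3 {Λ : Lat} (hΛ : Λ.Ok) (a : Pt) (n₁ n₂ : ℕ) {u v : Pt → ℝ} {c c' : ℝ}
    (hu : ∀ i x, |df i u x| ≤ c) (hu' : ∀ i j x, |df j (df i u) x| ≤ c')
    (hv : ∀ i x, |df i v x| ≤ c) (hv' : ∀ i j x, |df j (df i v) x| ≤ c') :
    |Λ.En (rc a n₁ n₂) u v - Λ.e0 * nnL.En (rc a n₁ n₂) u v| ≤
      16 * Λ.J.card * (Λ.rg : ℝ) ^ 3 * Λ.τ⁻¹ * (n₁ * n₂ * (c * c') + (n₁ + n₂) * c ^ 2) := by
  have hτ := hΛ.pos
  have c0 : 0 ≤ c := (abs_nonneg _).trans (hu 0 0)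
  have c0' : 0 ≤ c' := (abs_nonneg _).trans (hu' 0 0 0)
  have hρ := hΛ.one_le_rg
  rw [En_eq, En_nn, mul_sum, ← sum_sub_distrib]
  refine (abs_sum_le_sum_abs _ _).trans ((sum_bd_le a n₁ n₂ Λ.rg _
    (A := 6 * Λ.J.card * (Λ.rg : ℝ) ^ 2 * Λ.τ⁻¹ * c ^ 2)
    (A' := Λ.J.card * (16 * (Λ.rg : ℝ) ^ 3 * (c * c') / Λ.τ)) (by positivity) (by positivity)
    (fun x => ?_) fun x hx => ?_).trans ?_)
  · have b : ∀ i, |gt (rc a n₁ n₂) (ev i) x * (df i u x * df i v x)| ≤ c * c := fun i =>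
      (abs_gt_mul _ _ _ _).trans (by rw [abs_mul]; exact mul_le_mul (hu i x) (hv i x) (abs_nonneg _) c0)
    have b1 : |∑ i, gt (rc a n₁ n₂) (ev i) x * (df i u x * df i v x)| ≤ 2 * (c * c) := by
      rw [Fin.sum_univ_two]; exact (abs_add_le _ _).trans (by linarith [b 0, b 1])
    have b2 := mul_le_mul (e0_le hΛ) b1 (abs_nonneg _) (by positivity)
    have b3 := en_pt hΛ (rc a n₁ n₂) hu hv x
    refine (abs_sub _ _).trans ?_
    rw [abs_mul, abs_of_nonneg (e0_nonneg hΛ)]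
    rw [div_eq_mul_inv] at b3
    nlinarith
  · have g1 : ∀ y : Pt, |y.1| ≤ Λ.rg → |y.2| ≤ Λ.rg → gt (rc a n₁ n₂) y x = 1 := fun y y1 y2 =>
      gt_one (hx (self_mem_bl _ _)) (hx (mem_bl_abs.2 (by simpa using ⟨y1, y2⟩)))
    have g2 : ∀ i, gt (rc a n₁ n₂) (ev i) x = 1 := fun i => by
      fin_cases i <;> exact g1 _ (by simp; try exact_mod_cast hρ) (by simp; try exact_mod_cast hρ)
    simp only [g2, one_mul]
    rw [Lat.e0, div_mul_eq_mul_div, ← iso hΛ, sum_div, ← sum_sub_distrib]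
    refine abs_sum_Jp _ (by positivity) fun y hy => ?_
    rw [g1 y (jp_rg hy).1 (jp_rg hy).2, one_mul, ← sub_div, abs_div, abs_of_pos hτ]
    refine div_le_div_of_nonneg_right ?_ hτ.le
    have t1 := mul_le_mul (tay hu' x y (jp_rg hy).1 (jp_rg hy).2)
      (lip hv x y (jp_rg hy).1 (jp_rg hy).2) (abs_nonneg _) (by positivity)
    have t2 := mul_le_mul (abs_lin (fun i => hu i x) hy)
      (tay hv' x y (jp_rg hy).1 (jp_rg hy).2) (abs_nonneg _) (by positivity)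
    rw [← abs_mul] at t1 t2
    generalize ∑ i, df i u x * co i y = p at t1 t2 ⊢
    generalize ∑ i, df i v x * co i y = q at t1 t2 ⊢
    rw [show (u (x + y) - u x) * (v (x + y) - v x) - p * q =
      (u (x + y) - u x - p) * (v (x + y) - v x) + p * (v (x + y) - v x - q) by ring]
    exact (abs_add_le _ _).trans (by nlinarith)
  · have e2 : 0 ≤ (Λ.J.card : ℝ) * (Λ.rg : ℝ) ^ 3 * Λ.τ⁻¹ * ((n₁ + n₂) * c ^ 2) := by positivity
    rw [div_eq_mul_inv]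
    nlinarith

theorem rj4 {Λ : Lat} (hΛ : Λ.Ok) (B : Finset Pt) {u v : Pt → ℝ} {c : ℝ}
    (hu : ∀ i x, |df i u x| ≤ c) (hv : ∀ i x, |df i v x| ≤ c) :
    |Λ.En B u v| ≤ 4 * Λ.J.card * (Λ.rg : ℝ) ^ 2 * Λ.τ⁻¹ * (B.card * c ^ 2) := by
  rw [En_eq]
  refine (abs_sum_le_sum_abs _ _).trans
    ((sum_le_card_nsmul _ _ _ fun x _ => en_pt hΛ B hu hv x).trans (le_of_eq ?_))
  rw [nsmul_eq_mul]; ring

theorem rj5 {Λ : Lat} (hΛ : Λ.Ok) (B : Finset Pt) {u : Pt → ℝ} {c' : ℝ}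
    (hu' : ∀ i j x, |df j (df i u) x| ≤ c') {x : Pt} (hx : bl x Λ.rg ⊆ B) :
    |Λ.Au B u x| ≤ 8 * Λ.J.card * (Λ.rg : ℝ) ^ 2 * Λ.τ⁻¹ * c' := by
  have hτ := hΛ.pos
  have c0' : 0 ≤ c' := (abs_nonneg _).trans (hu' 0 0 0)
  rw [Lat.Au, dv_edI]
  refine (abs_sum_Jp _ (b := 8 * (Λ.rg : ℝ) ^ 2 * c' / Λ.τ) (by positivity) fun y hy => ?_).trans
    (le_of_eq (by ring))
  have x0 := hx (self_mem_bl _ _)
  rw [gt_one (hx (mem_bl_abs.2 (by simpa using jp_rg hy))) (by simpa using x0),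
    gt_one x0 (hx (mem_bl_abs.2 (by simpa using jp_rg hy))), one_mul, one_mul, ← sub_div, abs_div,
    abs_of_pos hτ]
  refine div_le_div_of_nonneg_right ?_ hτ.le
  have t1 := tay hu' x y (jp_rg hy).1 (jp_rg hy).2
  have t2 := tay hu' x (-y) (ρ := Λ.rg) (by simpa using (jp_rg hy).1) (by simpa using (jp_rg hy).2)
  simp only [Fin.sum_univ_two, co0, co1, Prod.fst_neg, Prod.snd_neg, Int.cast_neg,
    ← sub_eq_add_neg] at t1 t2
  rw [abs_le] at t1 t2 ⊢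
  constructor <;> nlinarith [t1.1, t1.2, t2.1, t2.2]

/-- one constant for a family -/
theorem fam_cst (F : Fa) : ∃ T : ℝ, 1 ≤ T ∧ ∀ Λ, F.Mem Λ →
    (Λ.J.card : ℝ) ≤ T ∧ (Λ.rg : ℝ) ≤ T ∧ Λ.τ⁻¹ ≤ T ∧ Λ.τ ≤ T := by
  have h1 : (0 : ℝ) ≤ F.J.card := Nat.cast_nonneg _
  have h2 : (0 : ℝ) ≤ interactionRange F.J := Nat.cast_nonneg _
  have h3 : 0 ≤ F.τ₁⁻¹ := inv_nonneg.2 F.pos.le
  have h4 := abs_nonneg F.τ₂
  refine ⟨1 + F.J.card + interactionRange F.J + F.τ₁⁻¹ + |F.τ₂|, by linarith, fun Λ h => ?_⟩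
  have h5 := inv_anti₀ F.pos h.2.2.1
  have h6 := h.2.2.2.trans (le_abs_self _)
  rw [Lat.rg, h.1]
  exact ⟨by linarith, by linarith, by linarith, by linarith⟩

theorem mono_le {N ρ t T : ℝ} (hT : 1 ≤ T) (hN : 0 ≤ N) (hρ : 0 ≤ ρ) (ht : 0 ≤ t) (h1 : N ≤ T)
    (h2 : ρ ≤ T) (h3 : t ≤ T) (i j k : ℕ) (h : i + j + k ≤ 10) : N ^ i * ρ ^ j * t ^ k ≤ T ^ 10 := by
  calc N ^ i * ρ ^ j * t ^ k ≤ T ^ i * T ^ j * T ^ k := by gcongr
    _ = T ^ (i + j + k) := by ring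
    _ ≤ _ := pow_le_pow_right₀ hT h

theorem fin_le {a A x k y : ℝ} (h : a ≤ A) (hx : 0 ≤ x) (e : x = k * y) : a * x ≤ A * k * y := by
  rw [mul_assoc, ← e]; exact mul_le_mul_of_nonneg_right h hx

theorem df_co (i j : Fin 2) (x : Pt) : df j (co i) x = co i (ev j) := by
  rw [df, co_add]; ring

theorem df_co_le (i j : Fin 2) (x : Pt) : |df j (co i) x| ≤ 1 := by
  rw [df_co]; fin_cases i <;> fin_cases j <;> simp

theorem df_df_co (i j k : Fin 2) (x : Pt) : |df k (df j (co i)) x| ≤ 0 := by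
  rw [df, df_co, df_co]; simp

theorem nn_co0 {l : ℕ} (hl : 1 ≤ l) : nnL.Au (sq 0 l) (co 0) = (l : ℝ) • (sd l 0 - sd l 1) := by
  funext z
  have h0 : (l : ℝ) ≠ 0 := by positivity
  simp only [Au_nn, df_co, Fin.sum_univ_two, ev0, ev1, co0, gt, ind, mem_sq, sd, col, Pi.smul_apply,
    Pi.sub_apply, smul_eq_mul, Matrix.cons_val_zero, Matrix.cons_val_one, Prod.fst_add,
    Prod.snd_add, Prod.fst_sub, Prod.snd_sub, Prod.fst_zero, Prod.snd_zero, ← sub_div,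
    mul_div_cancel₀ _ h0, Int.cast_zero, Int.cast_one, mul_zero, mul_one, sub_self, add_zero]
  split_ifs <;> first | (exfalso; omega) | simp

theorem nn_co1 {l : ℕ} (hl : 1 ≤ l) : nnL.Au (sq 0 l) (co 1) = (l : ℝ) • (sd l 2 - sd l 3) := by
  funext z
  have h0 : (l : ℝ) ≠ 0 := by positivity
  simp only [Au_nn, df_co, Fin.sum_univ_two, ev0, ev1, co1, gt, mem_sq, sd, row, Pi.smul_apply,
    Pi.sub_apply, smul_eq_mul, Matrix.cons_val, Prod.fst_add,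
    Prod.snd_add, Prod.fst_sub, Prod.snd_sub, Prod.fst_zero, Prod.snd_zero, ← sub_div,
    mul_div_cancel₀ _ h0, Int.cast_zero, Int.cast_one, mul_zero, mul_one, sub_self, zero_add]
  unfold ind
  split_ifs <;> first | (exfalso; omega) | simp

/-- linear cut-off on the edges `(k, k + 1)` of `[0, L)` -/
noncomputable def cut (L r : ℕ) (k : ℤ) : ℝ :=
  max 0 (min 1 (min (((k : ℝ) + 1) / r) (((L : ℝ) - 1 - k) / r)))

theorem cut_nonneg (L r : ℕ) (k : ℤ) : 0 ≤ cut L r k := le_max_left _ _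

theorem cut_le (L r : ℕ) (k : ℤ) : cut L r k ≤ 1 := max_le zero_le_one (min_le_left _ _)

theorem cut_lip (L r : ℕ) (k : ℤ) : |cut L r (k - 1) - cut L r k| ≤ 1 / r := by
  refine (abs_max_sub_max_le_max _ _ _ _).trans (max_le (by simp)
    ((abs_min_sub_min_le_max _ _ _ _).trans (max_le (by simp)
      ((abs_min_sub_min_le_max _ _ _ _).trans (max_le ?_ ?_)))))
  · rw [← sub_div, abs_div, Nat.abs_cast]; push_cast; norm_num
  · rw [← sub_div, abs_div, Nat.abs_cast]; push_cast; norm_num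

theorem cut_ne {L r : ℕ} {k : ℤ} (h : cut L r k ≠ 0) : 0 ≤ k ∧ k + 1 < L := by
  have h1 := lt_of_le_of_ne (cut_nonneg L r k) h.symm
  simp only [cut, lt_max_iff, lt_self_iff_false, false_or, lt_min_iff] at h1
  have a0 : ∀ t : ℝ, 0 < t / r → 0 < t := fun t ht => by
    by_contra hc
    exact ht.not_ge (div_nonpos_of_nonpos_of_nonneg (not_lt.1 hc) (Nat.cast_nonneg r))
  have a1 := a0 _ h1.2.1
  have a2 := a0 _ h1.2.2
  have b1 : (0 : ℤ) < k + 1 := by exact_mod_cast a1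
  have b2 : (0 : ℤ) < L - 1 - k := by exact_mod_cast a2
  omega

theorem cut_one {L r : ℕ} {k : ℤ} (hr : 1 ≤ r) (h1 : (r : ℤ) ≤ k) (h2 : k + r < L) : cut L r k = 1 := by
  have r0 : (0 : ℝ) < r := by exact_mod_cast hr
  have a1 : (r : ℝ) ≤ k := by exact_mod_cast h1
  have a2 : (k : ℝ) + r + 1 ≤ L := by exact_mod_cast h2
  rw [cut, min_eq_left (le_min ((one_le_div r0).2 (by linarith)) ((one_le_div r0).2 (by linarith))),
    max_eq_right zero_le_one]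

/-- smearing the boundary charge of `A^{nn} u` over a layer of width `r` -/
theorem smear {Λ : Lat} (hΛ : Λ.Ok) (L r : ℕ) (hr : 1 ≤ r) {u : Pt → ℝ} {c c' : ℝ}
    (hc : ∀ i x, |df i u x| ≤ c) (hc' : ∀ i j x, |df j (df i u) x| ≤ c') :
    ∃ f : Pt → ℝ, (∀ x, |f x| ≤ 2 * (c / r + c')) ∧
      F2 (Λ.edI (sq 0 L)) (nnL.Au (sq 0 L) u - f) (8 * r * L * c ^ 2) := by
  have c0 : 0 ≤ c := (abs_nonneg _).trans (hc 0 0)
  have c0' : 0 ≤ c' := (abs_nonneg _).trans (hc' 0 0 0)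
  let κ : Fin 2 → Pt → ℤ := fun i z => ![z.1, z.2] i
  let G : Fin 2 → Pt → ℝ := fun i z => gt (sq 0 L) (ev i) z * df i u z
  have key := nn_f2 hΛ (sq 0 L) (fun i z => G i z * (1 - cut L r (κ i z))) fun i z hz =>
    of_gt (left_ne_zero_of_mul hz)
  refine ⟨fun z => ∑ i, (G i (z - ev i) * cut L r (κ i (z - ev i)) - G i z * cut L r (κ i z)),
    fun z => ?_, f2_mono (f2_congr key (funext fun z => ?_)) ?_⟩
  · have b : ∀ i, |G i (z - ev i) * cut L r (κ i (z - ev i)) - G i z * cut L r (κ i z)| ≤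
        c / r + c' := fun i => by
      have e : κ i (z - ev i) = κ i z - 1 := by fin_cases i <;> simp [κ]
      have t1 := cut_lip L r (κ i z)
      have t2 := hc' i i (z - ev i)
      rw [df, sub_add_cancel] at t2
      have t3 := mul_le_mul t1 (hc i (z - ev i)) (abs_nonneg _) (by positivity)
      have t4 := mul_le_mul (abs_le.2 ⟨neg_one_lt_zero.le.trans (cut_nonneg L r (κ i z)),
        cut_le L r (κ i z)⟩) t2 (abs_nonneg _) zero_le_one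
      rw [← abs_mul] at t3 t4
      rw [e]
      by_cases ho : 0 ≤ κ i.rev z ∧ κ i.rev z < L
      · have g1 : ∀ w : Pt, κ i.rev w = κ i.rev z →
            G i w * cut L r (κ i w) = df i u w * cut L r (κ i w) := fun w hw => by
          by_cases h0 : cut L r (κ i w) = 0
          · rw [h0, mul_zero, mul_zero]
          · have := cut_ne h0
            rw [← hw] at ho
            simp only [G]
            rw [gt_one, one_mul] <;> rw [mem_sq] <;> fin_cases i <;> simp [κ, Fin.rev] at this ho ⊢ <;>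
              omega
        have g2 := g1 (z - ev i) (by fin_cases i <;> simp [κ, Fin.rev])
        rw [e] at g2
        rw [g2, g1 z rfl]
        rw [abs_le] at t3 t4 ⊢
        rw [one_div_mul_eq_div] at t3
        constructor <;> linarith [t3.1, t3.2, t4.1, t4.2]
      · have g1 : ∀ w : Pt, κ i.rev w = κ i.rev z → G i w = 0 := fun w hw => by
          rw [← hw] at ho
          simp only [G]
          rw [gt_zero, zero_mul]
          rw [mem_sq]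
          fin_cases i <;> simp [κ, Fin.rev] at ho ⊢ <;> omega
        rw [g1 z rfl, g1 (z - ev i) (by fin_cases i <;> simp [κ, Fin.rev])]
        simp only [zero_mul, sub_self, abs_zero]
        positivity
    beta_reduce
    rw [Fin.sum_univ_two]
    exact (abs_add_le _ _).trans (by linarith [b 0, b 1])
  · simp only [Pi.sub_apply, Au_nn, G, Fin.sum_univ_two]
    ring
  · have b : ∀ i, ∑ z ∈ rc 0 L L, (G i z * (1 - cut L r (κ i z))) ^ 2 ≤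
        L * L * 0 + 2 * r * (L + L) * c ^ 2 := fun i => by
      refine sum_bd_le 0 L L r _ (sq_nonneg c) le_rfl (fun z => ?_) fun z hz => ?_
      · have t1 := (abs_gt_mul (sq 0 L) (ev i) z _).trans (hc i z)
        have t2 : |1 - cut L r (κ i z)| ≤ 1 :=
          abs_le.2 ⟨by linarith [cut_le L r (κ i z)], by linarith [cut_nonneg L r (κ i z)]⟩
        have t3 := mul_le_mul t1 t2 (abs_nonneg _) c0
        rw [← abs_mul, mul_one] at t3
        exact sq_le_sq' (neg_le_of_abs_le t3) (le_of_abs_le t3)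
      · have p1 := mem_rc.1 (hz (x := (z.1 - r, z.2 - r)) (by simp only [mem_bl]; omega))
        have p2 := mem_rc.1 (hz (x := (z.1 + r, z.2 + r)) (by simp only [mem_bl]; omega))
        rw [cut_one hr] <;> fin_cases i <;> simp [κ] at p1 p2 ⊢ <;> omega
    rw [Fin.sum_univ_two]
    exact (add_le_add (b 0) (b 1)).trans (le_of_eq (by ring))

end RJ57

open RJ57

theorem rjStmt : RJStmt := by
  intro F
  obtain ⟨T, hT, hF⟩ := fam_cst F
  refine ⟨320 * T ^ 10, fun Λ hΛ a n₁ n₂ => ?_⟩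
  have ok := mem_ok hΛ
  obtain ⟨h1, h2, h3, -⟩ := hF Λ hΛ
  have m := mono_le hT (Nat.cast_nonneg _) (Nat.cast_nonneg _) (inv_nonneg.2 ok.pos.le) h1 h2 h3
  have T0 : 0 ≤ T ^ 10 := by positivity
  refine ⟨fun Φ c c' hc hc' => f2_mono (rj1 ok a n₁ n₂ Φ (fun y _ => hc y) fun y _ => hc' y)
    (mul_le_mul_of_nonneg_right (by nlinarith [m 2 4 0 (by norm_num)]) (by positivity)),
    fun u v K L hL hu hv => ?_⟩
  have L0 : 0 < L := zero_lt_one.trans_le hL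
  have K0 : 0 ≤ K := by
    have := (abs_nonneg _).trans (hu.1 0 0)
    rwa [le_div_iff₀ L0, zero_mul] at this
  refine ⟨f2_mono (rj2 ok a n₁ n₂ u hu.1 hu.2) ?_, (rj3 ok a n₁ n₂ hu.1 hu.2 hv.1 hv.2).trans ?_,
    (rj4 ok _ hu.1 hv.1).trans ?_, fun x hx => (rj5 ok _ hu.2 hx).trans ?_⟩
  · exact fin_le (by nlinarith [m 2 6 2 (by norm_num)]) (by positivity) (by field_simp)
  · exact fin_le (by nlinarith [m 1 3 1 (by norm_num)]) (by positivity) (by field_simp)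
  · rw [card_rc]
    exact fin_le (by nlinarith [m 1 2 1 (by norm_num)]) (by positivity) (by field_simp)
  · rw [mul_div_assoc]
    exact mul_le_mul_of_nonneg_right (by nlinarith [m 1 2 1 (by norm_num)]) (by positivity)

theorem r2Stmt : R2Stmt := by
  intro F
  obtain ⟨T, hT, hF⟩ := fam_cst F
  refine ⟨10000 * T ^ 14, fun Λ hΛ l hl => ?_⟩
  have ok := mem_ok hΛ
  obtain ⟨h1, h2, h3, h4⟩ := hF Λ hΛ
  have m := mono_le hT (Nat.cast_nonneg _) (Nat.cast_nonneg _) (inv_nonneg.2 ok.pos.le) h1 h2 h3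
  have T0 : 0 < T ^ 10 := by positivity
  have T4 : 1 ≤ T ^ 4 := one_le_pow₀ hT
  have l0 : (0 : ℝ) ≤ l := Nat.cast_nonneg l
  have k : ∀ i, F2 (Λ.edI (sq 0 l)) (Λ.Au (sq 0 l) (co i) - Λ.e0 • nnL.Au (sq 0 l) (co i))
      (640 * T ^ 10 * l) := fun i =>
    f2_mono (rj2 ok 0 l l (co i) (df_co_le i) (df_df_co i)) (by
      have := mul_le_mul_of_nonneg_right (m 2 6 2 (by norm_num)) l0
      nlinarith)
  have b0 : T ^ 10 * l ≤ T ^ 14 * l := by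
    have := mul_le_mul_of_nonneg_left T4 (mul_nonneg T0.le l0)
    nlinarith
  have b1 : 640 * T ^ 10 * l ≤ 10000 * T ^ 14 * l := by nlinarith [mul_nonneg T0.le l0]
  refine ⟨f2_mono (f2_congr (k 0) (by rw [nn_co0 hl, smul_smul])) b1,
    f2_mono (f2_congr (k 1) (by rw [nn_co1 hl, smul_smul])) b1, fun y hy => ?_⟩
  have k0 := rj1 ok 0 l l (fun y' _ => ind (y' = y)) (c := 1) (c' := 0)
    (fun y' _ _ => by unfold ind; split_ifs <;> simp) fun _ _ _ _ => by simp [df]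
  have e0 : 0 < Λ.e0 := div_pos (zero_lt_one.trans_le ok.one_le_a) ok.pos
  have s : ∀ i, (-(co i y / Λ.e0)) ^ 2 ≤ T ^ 4 := fun i => by
    have a1 : |co i y| ≤ T := (co_le hy i).trans h2
    have a2 : Λ.e0⁻¹ ≤ T := by
      rw [Lat.e0, inv_div]
      exact (div_le_self ok.pos.le ok.one_le_a).trans h4
    have a3 := mul_le_mul a1 a2 (inv_nonneg.2 e0.le) (by linarith)
    rw [neg_sq, ← sq_abs, abs_div, abs_of_pos e0, div_eq_mul_inv, show T ^ 4 = (T * T) ^ 2 by ring]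
    exact pow_le_pow_left₀ (by positivity) a3 2
  have k2 := fun i => f2_mono (f2_smul (-(co i y / Λ.e0)) (k i))
    (mul_le_mul_of_nonneg_right (s i) (by positivity))
  refine f2_mono (f2_congr (f2_add k0 (f2_add (k2 0) (k2 1))) (funext fun z => ?_)) ?_
  · have e : ∀ t : Pt → ℝ, ∑ y' ∈ Λ.Jp, t y' * ind (y' = y) = t y := fun t => by
      simp [ind, hy]
    simp only [Pi.add_apply, Pi.sub_apply, Pi.smul_apply, smul_eq_mul, dv_nn, Au_nn, df_co,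
      sub_sub_cancel, add_sub_cancel_left, sum_co_ev, Finset.sum_apply]
    simp only [e, Fin.sum_univ_two, ev0, ev1, co0, co1]
    change _ = dv (Λ.edI (sq 0 l)) _ z - (gt (sq 0 l) _ _ * _ - gt (sq 0 l) _ _ * _ +
      (gt (sq 0 l) _ _ * _ - gt (sq 0 l) _ _ * _)) + _
    field_simp
    push_cast
    ring
  · have := mul_le_mul_of_nonneg_right (m 2 4 0 (by norm_num)) l0
    nlinarith [mul_nonneg T0.le l0]

theorem r3Stmt : R3Stmt := by
  intro F K ε hε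
  obtain ⟨T, hT, hF⟩ := fam_cst F
  obtain ⟨C, hC⟩ := rjStmt F
  have T0 : 0 < T ^ 10 := by positivity
  set δ := ε / (64 * ((T ^ 10) ^ 2 * K ^ 2 + 1)) with hδ
  have δ0 : 0 < δ := by positivity
  refine ⟨T ^ 10 * (2 * (|K| / δ + |K|)), ⌈max (1 / δ) (12 * |C| * K ^ 2 / ε)⌉₊ + 1,
    fun Λ hΛ L hL u hu => ?_⟩
  have ok := mem_ok hΛ
  obtain ⟨h1, h2, h3, h4⟩ := hF Λ hΛ
  have m := mono_le hT (Nat.cast_nonneg _) (Nat.cast_nonneg _) (inv_nonneg.2 ok.pos.le) h1 h2 h3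
  have he : Λ.e0 ≤ T ^ 10 := (e0_le ok).trans (by simpa using m 1 2 1 (by norm_num))
  have he0 := e0_nonneg ok
  have L1 : (1 : ℝ) ≤ L := by exact_mod_cast (by omega : 1 ≤ L)
  have L0 : (0 : ℝ) < L := zero_lt_one.trans_le L1
  have L2 : max (1 / δ) (12 * |C| * K ^ 2 / ε) ≤ L :=
    (Nat.le_ceil _).trans (by exact_mod_cast (by omega))
  have L3 : 1 ≤ δ * L := by rw [mul_comm]; exact (div_le_iff₀ δ0).1 ((le_max_left _ _).trans L2)
  have L4 : 12 * |C| * K ^ 2 ≤ L * ε := (div_le_iff₀ hε).1 ((le_max_right _ _).trans L2)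
  have K0 : 0 ≤ K := by
    have := (abs_nonneg _).trans (hu.1 0 0)
    rwa [le_div_iff₀ L0, zero_mul] at this
  have r1 := Nat.le_ceil (δ * L)
  have r2 := (Nat.ceil_lt_add_one (by positivity : 0 ≤ δ * L)).le
  obtain ⟨f, f1, f2⟩ := smear ok L ⌈δ * L⌉₊ (Nat.ceil_pos.2 (by positivity)) hu.1 hu.2
  have k := ((hC Λ hΛ 0 L L).2 u u K L L1 hu hu).1
  refine ⟨Λ.e0 • f, fun x => ?_, f2_mono (f2_congr (f2_add k (f2_smul Λ.e0 f2)) ?_) ?_⟩
  · rw [Pi.smul_apply, smul_eq_mul, abs_mul, abs_of_nonneg he0, mul_div_assoc, abs_of_nonneg K0]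
    refine mul_le_mul he ((f1 x).trans ?_) (abs_nonneg _) T0.le
    have : K / L / ⌈δ * L⌉₊ ≤ K / L / (δ * L) :=
      div_le_div_of_nonneg_left (by positivity) (by positivity) r1
    calc _ ≤ 2 * (K / L / (δ * L) + K / L ^ 2) := by linarith
      _ = _ := by field_simp
  · rw [smul_sub]
    exact (sub_add_sub_cancel _ _ _).symm
  · have a1 : C * K ^ 2 * ((L : ℝ) * L / L ^ 4 + (L + L) / L ^ 2) ≤ ε / 4 := by
      have b1 : (L : ℝ) * L / L ^ 4 + (L + L) / L ^ 2 ≤ 3 / L := by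
        rw [show (L : ℝ) * L / L ^ 4 + (L + L) / L ^ 2 = (1 / L + 2) / L by field_simp; ring]
        exact div_le_div_of_nonneg_right (by linarith [(div_le_one L0).2 L1]) L0.le
      calc _ ≤ |C| * K ^ 2 * (3 / L) := mul_le_mul
            (mul_le_mul_of_nonneg_right (le_abs_self C) (sq_nonneg K)) b1 (by positivity)
            (by positivity)
        _ ≤ _ := by rw [← mul_div_assoc, div_le_iff₀ L0]; linarith
    have a2 : Λ.e0 ^ 2 * (8 * (⌈δ * L⌉₊ : ℝ) * L * (K / L) ^ 2) ≤ ε / 4 := by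
      calc _ ≤ (T ^ 10) ^ 2 * (8 * (2 * (δ * L)) * L * (K / L) ^ 2) := by
            gcongr
            linarith
        _ = 16 * δ * ((T ^ 10) ^ 2 * K ^ 2) := by field_simp; ring
        _ ≤ 16 * δ * ((T ^ 10) ^ 2 * K ^ 2 + 1) := by gcongr; linarith
        _ = ε / 4 := by rw [hδ]; field_simp; ring
    linarith

end Crest.Agent.T145
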