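import Crest.Agent.T145.MidDef2_76
import Crest.Agent.T145.Sm_58
import Crest.Agent.T145.RJ_57

/-!
# Row 145 (helper29): `Mid.varStmt`
-/

set_option autoImplicit false

namespace Crest.Agent.T145.Mid

open Finset

namespace V29

variable {u G : Pt → ℝ} {R : ℕ}

/-- autocorrelation -/
noncomputable def ac (u : Pt → ℝ) (R : ℕ) (x : Pt) : ℝ := ∑ z ∈ bl 0 R, u z * u (z + x)

theorem mb {z : Pt} {r : ℕ} :
    z ∈ bl 0 r ↔ (-(r : ℤ) ≤ z.1 ∧ z.1 ≤ r) ∧ -(r : ℤ) ≤ z.2 ∧ z.2 ≤ r := by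
  simp [S58.mem_bl]

theorem shift (hu : Sup (bl 0 R) u) (f : Pt → ℝ) {T : Finset Pt} {z : Pt}
    (hT : ∀ w ∈ bl 0 R, w - z ∈ T) :
    ∑ x ∈ T, u (z + x) * f (z + x) = ∑ w ∈ bl 0 R, u w * f w := by
  have := sum_map T (Equiv.addLeft z).toEmbedding fun w => u w * f w
  simp only [Equiv.coe_toEmbedding, Equiv.coe_addLeft] at this
  rw [← this]
  refine (sum_subset (fun w hw => mem_map.2 ⟨w - z, hT w hw, by simp⟩) fun w _ hw => ?_).symm
  rw [hu w hw, zero_mul]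

theorem quad (hu : Sup (bl 0 R) u) {Q : Finset Pt} (hQ : bl 0 (2 * R) ⊆ Q) :
    ∑ z ∈ bl 0 R, ∑ w ∈ bl 0 R, u z * u w * G (w - z) = ∑ x ∈ Q, G x * ac u R x := by
  simp only [ac, mul_sum]
  rw [sum_comm (s := Q)]
  refine sum_congr rfl fun z hz => ?_
  have h := shift hu (fun w => u z * G (w - z)) (T := Q) (z := z) fun w hw => hQ (by
    rw [mb] at hz hw ⊢
    simp only [Prod.fst_sub, Prod.snd_sub]
    push_cast
    omega)
  simp only [add_sub_cancel_left] at h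
  refine Eq.trans (sum_congr rfl fun w _ => by ring) (h.symm.trans (sum_congr rfl fun x _ => by ring))

theorem ac_sub (hu : Sup (bl 0 R) u) {x : Pt} (hx : x ∈ bl 0 R) :
    ac u R 0 - ac u R x = 1 / 2 * ∑ z ∈ bl 0 (2 * R), (u (z + x) - u z) ^ 2 := by
  have hs : bl (0 : Pt) R ⊆ bl 0 (2 * R) := fun w hw => by
    rw [mb] at hw ⊢; push_cast; omega
  have h1 : ∑ z ∈ bl 0 (2 * R), u (x + z) * u (x + z) = ∑ w ∈ bl 0 R, u w * u w :=
    shift hu u fun w hw => by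
      rw [mb] at hx hw ⊢
      simp only [Prod.fst_sub, Prod.snd_sub]
      push_cast
      omega
  have h2 : ∀ y, ∑ z ∈ bl 0 (2 * R), u z * u (z + y) = ac u R y := fun y =>
    (sum_subset hs fun w _ hw => by rw [hu w hw, zero_mul]).symm
  have h3 : ac u R 0 = ∑ w ∈ bl 0 R, u w * u w := by simp [ac]
  have h4 : ∑ z ∈ bl 0 (2 * R), (u (z + x) - u z) ^ 2 = ∑ z ∈ bl 0 (2 * R), u (x + z) * u (x + z) -
      2 * ∑ z ∈ bl 0 (2 * R), u z * u (z + x) + ∑ z ∈ bl 0 (2 * R), u z * u (z + 0) := by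
    rw [mul_sum, ← sum_sub_distrib, ← sum_add_distrib]
    refine sum_congr rfl fun z _ => ?_
    rw [add_comm x z, add_zero]; ring
  rw [h4, h1, h2, h2, ← h3]; ring

theorem en_eq (hu : Sup (bl 0 R) u) (hR : 1 ≤ R) :
    nnL.En (bl 0 (R + 1)) u u = ∑ z ∈ bl 0 (2 * R), (df 0 u z ^ 2 + df 1 u z ^ 2) := by
  rw [RJ57.En_nn]
  have hs : bl (0 : Pt) (R + 1) ⊆ bl 0 (2 * R) := fun w hw => by
    rw [mb] at hw ⊢; push_cast at hw ⊢; omega
  have h0 : ∀ (i : Fin 2) (z : Pt), (z ∉ bl 0 (R + 1) ∨ z + ev i ∉ bl 0 (R + 1)) → df i u z = 0 := by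
    intro i z hz
    have a : z ∉ bl 0 R := fun h => by
      rw [mb, mb] at hz; rw [mb] at h
      fin_cases i <;> simp [ev] at hz <;> omega
    have b : z + ev i ∉ bl 0 R := fun h => by
      rw [mb, mb] at hz; rw [mb] at h
      fin_cases i <;> simp [ev] at hz h <;> omega
    rw [df, hu _ a, hu _ b, sub_zero]
  rw [← sum_subset hs fun z _ hz => by rw [h0 0 z (Or.inl hz), h0 1 z (Or.inl hz)]; ring]
  refine sum_congr rfl fun z hz => ?_
  rw [Fin.sum_univ_two]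
  have h1 : ∀ i, RJ57.gt (bl 0 (R + 1)) (ev i) z * (df i u z * df i u z) = df i u z ^ 2 := fun i => by
    by_cases h : z + ev i ∈ bl 0 (R + 1)
    · rw [RJ57.gt_one hz h]; ring
    · simp [h0 i z (Or.inr h)]
  rw [h1, h1]

theorem sym (h1 : ∀ x, G x.swap = G x) (h2 : ∀ x : Pt, G (-x.1, x.2) = G x) (r : ℕ) (a b : ℝ) :
    ∑ x ∈ bl 0 r, G x * (a * x.1 + b * x.2) ^ 2 = 1 / 2 * (∑ x ∈ bl 0 r, G x * n2 x) * (a ^ 2 + b ^ 2) := by
  have e1 : ∑ x ∈ bl 0 r, G x * (x.1 : ℝ) ^ 2 = ∑ x ∈ bl 0 r, G x * (x.2 : ℝ) ^ 2 := by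
    refine sum_nbij' Prod.swap Prod.swap (fun x hx => ?_) (fun x hx => ?_) (fun _ _ => rfl)
      (fun _ _ => rfl) fun x _ => by rw [h1]; rfl
    all_goals
      rw [mb] at hx ⊢
      simp only [Prod.fst_swap, Prod.snd_swap]
      omega
  have e2 : ∑ x ∈ bl 0 r, G x * ((x.1 : ℝ) * x.2) = ∑ x ∈ bl 0 r, -(G x * ((x.1 : ℝ) * x.2)) := by
    refine sum_nbij' (fun x => (-x.1, x.2)) (fun x => (-x.1, x.2)) (fun x hx => ?_) (fun x hx => ?_)
      (fun _ _ => by simp) (fun _ _ => by simp) fun x _ => by rw [h2]; simp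
    all_goals
      rw [mb] at hx ⊢
      simp only
      omega
  rw [sum_neg_distrib] at e2
  have e3 : ∑ x ∈ bl 0 r, G x * n2 x =
      ∑ x ∈ bl 0 r, G x * (x.1 : ℝ) ^ 2 + ∑ x ∈ bl 0 r, G x * (x.2 : ℝ) ^ 2 := by
    rw [← sum_add_distrib]; exact sum_congr rfl fun x _ => by rw [n2]; ring
  have e4 : ∑ x ∈ bl 0 r, G x * (a * x.1 + b * x.2) ^ 2 = a ^ 2 * ∑ x ∈ bl 0 r, G x * (x.1 : ℝ) ^ 2 +
      2 * a * b * ∑ x ∈ bl 0 r, G x * ((x.1 : ℝ) * x.2) + b ^ 2 * ∑ x ∈ bl 0 r, G x * (x.2 : ℝ) ^ 2 := by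
    rw [mul_sum, mul_sum, mul_sum, ← sum_add_distrib, ← sum_add_distrib]
    exact sum_congr rfl fun x _ => by ring
  have e5 : ∑ x ∈ bl 0 r, G x * ((x.1 : ℝ) * x.2) = 0 := by linarith
  rw [e4, e3, e5, e1]; ring

theorem sn_nonneg (x : Pt) : 0 ≤ sn x := (abs_nonneg _).trans (le_max_left _ _)

theorem l1_le (z x : Pt) : ∑ i, |co i (z + x - z)| ≤ 2 * sn x := by
  rw [add_sub_cancel_left, Fin.sum_univ_two]
  have h1 : |(x.1 : ℝ)| ≤ sn x := le_max_left _ _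
  have h2 : |(x.2 : ℝ)| ≤ sn x := le_max_right _ _
  simp only [co, Matrix.cons_val_zero, Matrix.cons_val_one]
  linarith

theorem mem_of_sn {x : Pt} {n : ℕ} (h : sn x ≤ n) : x ∈ bl 0 n := by
  have h1 : |x.1| ≤ n := by exact_mod_cast (le_max_left _ _).trans h
  have h2 : |x.2| ≤ n := by exact_mod_cast (le_max_right _ _).trans h
  rw [mb]; rw [abs_le] at h1 h2; omega

end V29

open V29 in
theorem varStmt : VarStmt := by
  intro K
  refine ⟨200 * K ^ 4, by positivity, fun G u Q ρ r R g1 g2 g0 hQ hr hρ hR hK hs hb hu => ?_⟩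
  have ρ1 : (1 : ℝ) ≤ ρ := by exact_mod_cast hr.trans hρ
  have ρR : (ρ : ℝ) ≤ R := by exact_mod_cast hR
  have ρ0 : (0 : ℝ) < ρ := by linarith
  have K1 : 1 ≤ K := by nlinarith
  have c2 : ((bl (0 : Pt) (2 * R)).card : ℝ) ≤ 25 * K ^ 2 * ρ ^ 2 := by
    rw [card_bl]; push_cast
    calc (2 * (2 * (R : ℝ)) + 1) ^ 2 ≤ (5 * (K * ρ)) ^ 2 := by gcongr; linarith
      _ = _ := by ring
  have c1 : ((bl (0 : Pt) R).card : ℝ) ≤ 9 * K ^ 2 * ρ ^ 2 := by
    rw [card_bl]; push_cast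
    calc (2 * (R : ℝ) + 1) ^ 2 ≤ (3 * (K * ρ)) ^ 2 := by gcongr; linarith
      _ = _ := by ring
  have d1 : ∀ z x, |u (z + x) - u z| ≤ K / ρ * (2 * sn x) := fun z x =>
    (hs.lip z (z + x)).trans (by gcongr; exact l1_le z x)
  have d2 : ∀ z x : Pt, |u (z + x) - u z - (df 0 u z * x.1 + df 1 u z * x.2)| ≤
      K / ρ ^ 2 * (2 * sn x) ^ 2 := fun z x => by
    have := hs.taylor z (z + x)
    have e : ∑ i, df i u z * co i (z + x - z) = df 0 u z * x.1 + df 1 u z * x.2 := by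
      simp [Fin.sum_univ_two, co]
    rw [e] at this
    refine this.trans ?_
    gcongr
    exact l1_le z x
  have d3 : ∀ z x : Pt, |df 0 u z * x.1 + df 1 u z * x.2| ≤ K / ρ * (2 * sn x) := fun z x => by
    have h1 : |(x.1 : ℝ)| ≤ sn x := le_max_left _ _
    have h2 : |(x.2 : ℝ)| ≤ sn x := le_max_right _ _
    have h3 := hs.1 0 z
    have h4 := hs.1 1 z
    refine (abs_add_le _ _).trans ?_
    rw [abs_mul, abs_mul]
    calc _ ≤ K / ρ * sn x + K / ρ * sn x := by gcongr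
      _ = _ := by ring
  have hsub : bl (0 : Pt) r ⊆ Q := (bl_mono 0 (by omega)).trans hQ
  -- near part
  have near : ∀ x ∈ bl (0 : Pt) r, |ac u R 0 - ac u R x -
      1 / 2 * ∑ z ∈ bl 0 (2 * R), (df 0 u z * x.1 + df 1 u z * x.2) ^ 2| ≤ 200 * K ^ 4 * (sn x ^ 3 / ρ) := by
    intro x hx
    have s0 := sn_nonneg x
    rw [ac_sub hu (bl_mono 0 (by omega) hx), ← mul_sub, ← sum_sub_distrib, abs_mul]
    have : |∑ z ∈ bl 0 (2 * R), ((u (z + x) - u z) ^ 2 - (df 0 u z * x.1 + df 1 u z * x.2) ^ 2)| ≤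
        (bl (0 : Pt) (2 * R)).card • (K / ρ ^ 2 * (2 * sn x) ^ 2 * (2 * (K / ρ * (2 * sn x)))) := by
      refine (abs_sum_le_sum_abs _ _).trans (sum_le_card_nsmul _ _ _ fun z _ => ?_)
      rw [sq_sub_sq, abs_mul, mul_comm]
      refine mul_le_mul (d2 z x) ((abs_add_le _ _).trans ?_) (abs_nonneg _) (by positivity)
      linarith [d1 z x, d3 z x]
    rw [nsmul_eq_mul] at this
    calc _ ≤ 1 / 2 * (25 * K ^ 2 * ρ ^ 2 * (K / ρ ^ 2 * (2 * sn x) ^ 2 * (2 * (K / ρ * (2 * sn x))))) := by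
          rw [abs_of_pos (by norm_num : (0 : ℝ) < 1 / 2)]
          gcongr
          exact this.trans (by gcongr)
      _ = _ := by field_simp; ring
  have far : ∀ x, |ac u R 0 - ac u R x| ≤ 200 * K ^ 4 * min (sn x) ρ ^ 2 := by
    intro x
    have s0 := sn_nonneg x
    rcases le_total (sn x) ρ with h | h
    · rw [min_eq_left h, ac_sub hu (bl_mono 0 hR (mem_of_sn h)),
        abs_of_nonneg (mul_nonneg (by norm_num) (sum_nonneg fun _ _ => sq_nonneg _))]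
      have : ∑ z ∈ bl 0 (2 * R), (u (z + x) - u z) ^ 2 ≤
          (bl (0 : Pt) (2 * R)).card • (K / ρ * (2 * sn x)) ^ 2 :=
        sum_le_card_nsmul _ _ _ fun z _ => by
          rw [← sq_abs]; exact pow_le_pow_left₀ (abs_nonneg _) (d1 z x) 2
      rw [nsmul_eq_mul] at this
      calc _ ≤ 1 / 2 * (25 * K ^ 2 * ρ ^ 2 * (K / ρ * (2 * sn x)) ^ 2) := by
            gcongr
            exact this.trans (by gcongr)
        _ = 50 * K ^ 4 * sn x ^ 2 := by field_simp; ring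
        _ ≤ _ := by gcongr; norm_num
    · rw [min_eq_right h]
      have a : ∀ y, |ac u R y| ≤ 9 * K ^ 2 * ρ ^ 2 * (K * K) := fun y => by
        have : |ac u R y| ≤ (bl (0 : Pt) R).card • (K * K) :=
          (abs_sum_le_sum_abs _ _).trans (sum_le_card_nsmul _ _ _ fun z _ => by
            rw [abs_mul]; exact mul_le_mul (hb _) (hb _) (abs_nonneg _) (by linarith))
        rw [nsmul_eq_mul] at this
        exact this.trans (by gcongr)
      calc _ ≤ |ac u R 0| + |ac u R x| := abs_sub _ _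
        _ ≤ 18 * (K ^ 4 * ρ ^ 2) := by linarith [a 0, a x]
        _ ≤ 200 * (K ^ 4 * ρ ^ 2) := by gcongr; norm_num
        _ = _ := by ring
  have main : -(1 / 4) * (∑ x ∈ bl 0 r, G x * n2 x) * nnL.En (bl 0 (R + 1)) u u =
      -∑ x ∈ bl 0 r, G x * (1 / 2 * ∑ z ∈ bl 0 (2 * R), (df 0 u z * x.1 + df 1 u z * x.2) ^ 2) := by
    rw [en_eq hu (by omega)]
    have : ∑ x ∈ bl 0 r, G x * (1 / 2 * ∑ z ∈ bl 0 (2 * R), (df 0 u z * x.1 + df 1 u z * x.2) ^ 2) =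
        1 / 2 * ∑ z ∈ bl 0 (2 * R), ∑ x ∈ bl 0 r, G x * (df 0 u z * x.1 + df 1 u z * x.2) ^ 2 := by
      rw [sum_comm, mul_sum]
      refine sum_congr rfl fun x _ => ?_
      rw [← mul_sum]; ring
    rw [this]
    simp only [sym g1 g2]
    rw [← mul_sum]; ring
  have tot : ∑ x ∈ Q, G x * ac u R x = -∑ x ∈ Q, G x * (ac u R 0 - ac u R x) := by
    simp only [mul_sub, sum_sub_distrib, ← sum_mul, g0]; ring
  rw [quad hu hQ, tot, main, ← sum_sdiff hsub, neg_sub_neg, ← abs_neg, neg_sub, add_sub_assoc,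
    ← sum_sub_distrib, mul_add, add_comm (200 * K ^ 4 * _), mul_sum, mul_sum]
  refine (abs_add_le _ _).trans (add_le_add ((abs_sum_le_sum_abs _ _).trans (sum_le_sum fun x _ => ?_))
    ((abs_sum_le_sum_abs _ _).trans (sum_le_sum fun x hx => ?_)))
  · rw [abs_mul]
    calc _ ≤ |G x| * (200 * K ^ 4 * min (sn x) ρ ^ 2) := by gcongr; exact far x
      _ = _ := by ring
  · rw [← mul_sub, abs_mul]
    calc _ ≤ |G x| * (200 * K ^ 4 * (sn x ^ 3 / ρ)) := by gcongr; exact near x hx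
      _ = _ := by ring

end Crest.Agent.T145.Mid
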