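import Crest.Agent.T145.EvDer_5
import Crest.Agent.T145.MidVar_29
import Crest.Agent.T145.MidVg_19
import Crest.Agent.T145.MidMo_32
import Crest.Agent.T145.FlKb_14
import Crest.Agent.T145.FlA_51
import Crest.Agent.T145.FlBare_80

/-!
# Row 145, even sector: quadratic forms with a profile bound, non-degeneracy (helper5)
-/

set_option autoImplicit false

namespace Crest.Agent.T145.Ev

open Finset Real Fl Om Tau5 Filter Topology Pot Mid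

/-- profile bound for a kernel on the torus of side `n` -/
def DKp (G : Pt → ℝ) (n L : ℕ) (R Z : ℝ) : Prop :=
  (∀ x ∈ bl 0 L, x ≠ 0 → |G x| * eu x ^ 4 ≤ Z * max (eu x / R) (R / eu x) ^ (1 / 2 : ℝ)) ∧
    ∀ x ∈ Qd n, x ∉ bl 0 L → |G x| * (L : ℝ) ^ 4 ≤ Z * (L / R) ^ (1 / 2 : ℝ)

/-- the second moment of a kernel: `gk ω = gG (KK ω)`, `dg Λ n = gG (dK Λ n)` -/
noncomputable def gG (G : Pt → ℝ) (ρ : ℝ) : ℝ :=
  -(1 / 4) * ∑ x ∈ bl 0 ⌈2 * ρ⌉₊, G x * eu x ^ 2 * Xi.chi ρ x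

namespace N5

theorem sn_le (x : Pt) : sn x ≤ eu x := max_le (abs_fst_le_eu x) (abs_snd_le_eu x)

theorem rp_le {t c : ℝ} (h0 : 0 < t) (hc : 1 ≤ c) (h : t ≤ c) :
    max t t⁻¹ ^ (1 / 2 : ℝ) ≤ c * (t ^ (1 / 2 : ℝ))⁻¹ := by
  rw [← sqrt_eq_rpow, ← sqrt_eq_rpow, ← sqrt_inv, ← sqrt_sq (zero_le_one.trans hc), ← sqrt_mul (sq_nonneg _)]
  refine sqrt_le_sqrt (max_le ?_ (le_mul_of_one_le_left (by positivity) (one_le_pow₀ hc)))
  rw [← div_eq_mul_inv, le_div_iff₀ h0]; nlinarith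

theorem deriv_nonneg_of_right {φ : ℝ → ℝ} {φ' τ : ℝ} (h : HasDerivAt φ φ' τ)
    (hl : ∀ t, τ < t → φ τ ≤ φ t) : 0 ≤ φ' := by
  refine ge_of_tendsto (h.tendsto_slope.mono_left (nhdsGT_le_nhdsNE τ)) ?_
  filter_upwards [self_mem_nhdsWithin] with t (ht : τ < t)
  rw [slope_def_field]
  exact div_nonneg (sub_nonneg.2 (hl t ht)) (sub_nonneg.2 ht.le)

/-- two far currents anywhere in the fundamental domain -/
theorem kk_far {p : Fl.Par} {Λ : Lat} {ω : (Cfg Pt → ℝ) → ℝ} {L N : ℕ} (hE : Env p Λ ω L N) {x : Pt} {a : ℕ}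
    (hx : x ∈ bl 0 (N + N / 4)) (hx' : x ∉ bl 0 L) (ha : p.r₀ ≤ a) (hL : 4 * (p.w * a) ≤ L) :
    |KK ω x| ≤ 16 * nu Λ p.w 0 a (Jz 0) ^ 2 := by
  have h2 := Kb14.two_le_r0 hE.toGs
  have h4 := hE.w4
  have h5 := hE.le
  have h6 : 4 * a ≤ p.w * a := Nat.mul_le_mul_right a h4
  have h7 := hE.gd.2.1
  obtain ⟨m, hm, hω⟩ := hE.amb (x.1 / 2, x.2 / 2)
  have s0 : bl 0 (p.w * a) ⊆ bl (x.1 / 2, x.2 / 2) N := fun y hy => by
    simp only [mem_bl, Prod.fst_zero, Prod.snd_zero] at hx hy ⊢; omega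
  have s1 : bl x (p.w * a) ⊆ bl (x.1 / 2, x.2 / 2) N := fun y hy => by
    simp only [mem_bl, Prod.fst_zero, Prod.snd_zero] at hx hy ⊢; omega
  have hd : Disjoint (bl 0 (p.w * a)) (bl x (p.w * a)) := disjoint_left.2 fun y hy hy' => hx' (by
    simp only [mem_bl, Prod.fst_zero, Prod.snd_zero] at hy hy' ⊢; omega)
  have := (prodStmt p Λ L hE.toGs m _ Bool univ (fun i => cond i 0 x) (fun _ => a)
    (fun i => Jz (cond i 0 x)) (fun _ => 1) hm ⟨by simp, fun i _ => Om.ins_Jz _ (by omega),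
      fun _ _ => ⟨ha, by omega⟩, fun i _ => by cases i; exacts [s1, s0],
      fun i _ j _ hij => by
        cases i <;> cases j
        exacts [absurd rfl hij, hd.symm, hd, absurd rfl hij]⟩ (fun _ _ _ _ _ => rfl) (by simp)).1
  have e := ((semiStmt Λ p.w a x hE.ok (by omega)).2 (Jz 0) (Om.ins_Jz _ (by omega))).2.1
  rw [Om.trl_Jz, zero_add] at e
  simp only [Fintype.prod_bool, cond_true, cond_false, mul_one, e] at this
  rwa [KK, hω _ (Kb14.depJJ ((bl_mono 0 (by omega)).trans s0) ((bl_mono x (by omega)).trans s1)), pow_two]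

variable {G : Pt → ℝ} {n L : ℕ} {R Z : ℝ}

theorem Qd_sub {N : ℕ} (h : n ≤ 2 * N + 1) : Qd n ⊆ bl 0 N := fun x hx => by
  simp only [Qd, mem_sq, mem_bl, Prod.fst_zero, Prod.snd_zero] at hx ⊢; omega

theorem pt (h : DKp G n L R Z) (hZ : 0 ≤ Z) (hR : 0 < R) {x : Pt} (hx : x ∈ bl 0 L) (h0 : x ≠ 0) {c : ℝ}
    (hc : 1 ≤ c) (hxc : eu x ≤ c * R) :
    |G x| * eu x ^ 2 ≤ c * Z * R ^ (1 / 2 : ℝ) * ((eu x ^ (1 / 2 : ℝ))⁻¹ / eu x ^ 2) := by
  have e1 := one_le_eu h0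
  have h1 := h.1 x hx h0
  rw [← inv_div (eu x) R] at h1
  have h2 := rp_le (t := eu x / R) (by positivity) hc ((div_le_iff₀ hR).2 hxc)
  rw [div_rpow (eu_nonneg x) hR.le, inv_div (eu x ^ (1 / 2 : ℝ))] at h2
  rw [← mul_div_assoc, le_div_iff₀ (by positivity)]
  calc _ = |G x| * eu x ^ 4 := by ring
    _ ≤ Z * (c * (R ^ (1 / 2 : ℝ) / eu x ^ (1 / 2 : ℝ))) := h1.trans (mul_le_mul_of_nonneg_left h2 hZ)
    _ = _ := by ring

theorem sdn (hR : 1 ≤ R) {m : ℕ} (hm : ⌊R⌋₊ ≤ m) :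
    R ^ (1 / 2 : ℝ) * ∑ x ∈ bl 0 m \ bl 0 ⌊R⌋₊, (eu x ^ (1 / 2 : ℝ))⁻¹ / eu x ^ 2 ≤ 32 := by
  have r1 : 1 ≤ ⌊R⌋₊ := Nat.le_floor (by simpa using hR)
  have r1' : (1 : ℝ) ≤ ⌊R⌋₊ := by exact_mod_cast r1
  have h := Kb14.sum_dn 0 (ε := 1 / 2) (by norm_num) (by norm_num) r1 hm
  simp only [sub_zero] at h
  refine (mul_le_mul_of_nonneg_left h (by positivity)).trans ?_
  have h2 : R ^ (1 / 2 : ℝ) ≤ 2 * (⌊R⌋₊ : ℝ) ^ (1 / 2 : ℝ) := by
    rw [← sqrt_eq_rpow, ← sqrt_eq_rpow, ← sqrt_sq zero_le_two, ← sqrt_mul (sq_nonneg _)]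
    exact sqrt_le_sqrt (by linarith [Nat.lt_floor_add_one R])
  have h3 : 0 < (⌊R⌋₊ : ℝ) ^ (1 / 2 : ℝ) := by positivity
  calc _ ≤ 2 * (⌊R⌋₊ : ℝ) ^ (1 / 2 : ℝ) * (8 / (1 / 2) * ((⌊R⌋₊ : ℝ) ^ (1 / 2 : ℝ))⁻¹) := by gcongr
    _ = 32 := by field_simp; norm_num

theorem inner (h : DKp G n L R Z) (hZ : 0 ≤ Z) (hR : 1 ≤ R) (hL : R ≤ L) :
    ∑ x ∈ bl 0 ⌊R⌋₊, |G x| * sn x ^ 3 / R ≤ 32 * Z := by
  have R0 : 0 < R := one_pos.trans_le hR
  have h1 := Kb14.sum_up 0 (ε := 1 / 2) (by norm_num) (by norm_num) (Nat.zero_le ⌊R⌋₊)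
  simp only [sub_zero] at h1
  have rp : 0 < R ^ (1 / 2 : ℝ) := by positivity
  rw [← sum_sdiff (bl_mono 0 (Nat.zero_le _)), sum_eq_zero (s := bl 0 0) fun x hx => by
    rw [show x = 0 by
      simp only [mem_bl, Prod.fst_zero, Prod.snd_zero] at hx
      exact Prod.ext (by simp only [Prod.fst_zero]; omega) (by simp only [Prod.snd_zero]; omega)]
    simp [sn], add_zero]
  calc _ ≤ ∑ x ∈ bl 0 ⌊R⌋₊ \ bl 0 0, 2 * Z / R ^ (1 / 2 : ℝ) * (eu x ^ (1 / 2 : ℝ) / eu x ^ 2) := by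
        refine sum_le_sum fun x hx => ?_
        obtain ⟨a, b⟩ := mem_sdiff.1 hx
        have x0 : x ≠ 0 := fun e => b (e ▸ self_mem_bl _ _)
        have e1 := one_le_eu x0
        have k := pt h hZ R0 (bl_mono 0 (Nat.floor_le_of_le hL) a) x0 one_le_two (by
          have := eu_le_of_bl a
          rw [sub_zero] at this; linarith [Nat.floor_le R0.le])
        have e2 : eu x ^ (1 / 2 : ℝ) * eu x ^ (1 / 2 : ℝ) = eu x := by
          rw [← rpow_add (by linarith)]; norm_num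
        have e3 : R ^ (1 / 2 : ℝ) * R ^ (1 / 2 : ℝ) = R := by rw [← rpow_add R0]; norm_num
        have e4 : 0 < eu x ^ (1 / 2 : ℝ) := by positivity
        calc _ ≤ |G x| * eu x ^ 3 / R := by gcongr; exacts [V29.sn_nonneg x, sn_le x]
          _ = |G x| * eu x ^ 2 * (eu x / R) := by ring
          _ ≤ 2 * Z * R ^ (1 / 2 : ℝ) * ((eu x ^ (1 / 2 : ℝ))⁻¹ / eu x ^ 2) * (eu x / R) := by gcongr
          _ = _ := by
            generalize eu x ^ (1 / 2 : ℝ) = a at *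
            generalize R ^ (1 / 2 : ℝ) = b at *
            rw [← e2, ← e3]; field_simp
    _ ≤ 2 * Z / R ^ (1 / 2 : ℝ) * (8 / (1 / 2) * R ^ (1 / 2 : ℝ)) := by
        rw [← mul_sum]
        refine mul_le_mul_of_nonneg_left (h1.trans ?_) (by positivity)
        gcongr; exact Nat.floor_le R0.le
    _ = _ := by field_simp; ring

theorem mid (h : DKp G n L R Z) (hZ : 0 ≤ Z) (hR : 1 ≤ R) (hL : 2 * R ≤ L) :
    ∑ x ∈ bl 0 ⌈2 * R⌉₊ \ bl 0 ⌊R⌋₊, |G x| * eu x ^ 2 ≤ 192 * Z := by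
  have R0 : 0 < R := one_pos.trans_le hR
  have h1 := sdn hR (m := ⌈2 * R⌉₊) ((Nat.floor_le_ceil R).trans (Nat.ceil_mono (by linarith)))
  calc _ ≤ ∑ x ∈ bl 0 ⌈2 * R⌉₊ \ bl 0 ⌊R⌋₊,
        6 * Z * R ^ (1 / 2 : ℝ) * ((eu x ^ (1 / 2 : ℝ))⁻¹ / eu x ^ 2) := sum_le_sum fun x hx => by
        obtain ⟨a, b⟩ := mem_sdiff.1 hx
        refine pt h hZ R0 (bl_mono 0 (Nat.ceil_le.2 hL) a) (fun e => b (e ▸ self_mem_bl _ _)) (by norm_num) ?_
        have := eu_le_of_bl a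
        rw [sub_zero] at this; linarith [Nat.ceil_lt_add_one (show 0 ≤ 2 * R by linarith)]
    _ ≤ _ := by rw [← mul_sum, mul_assoc]; nlinarith

theorem outer (h : DKp G n L R Z) (hZ : 0 ≤ Z) (hR : 1 ≤ R) (hL : R ≤ L) {K : ℝ} (hn : n ≤ K * L) :
    ∑ x ∈ Qd n \ bl 0 ⌊R⌋₊, |G x| * R ^ 2 ≤ (32 + K ^ 2) * Z := by
  have R0 : 0 < R := one_pos.trans_le hR
  have L0 : (0 : ℝ) < L := by linarith
  have h1 := sdn hR (m := L) (Nat.floor_le_of_le hL)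
  have s : Qd n \ bl 0 ⌊R⌋₊ ⊆ (bl 0 L \ bl 0 ⌊R⌋₊) ∪ (Qd n \ bl 0 L) := fun x hx => by
    simp only [mem_union, Finset.mem_sdiff] at hx ⊢; tauto
  refine (sum_le_sum_of_subset_of_nonneg s fun _ _ _ => by positivity).trans ?_
  rw [add_mul, sum_union (disjoint_sdiff_self_right.mono_left sdiff_subset)]
  refine add_le_add ?_ ?_
  · calc _ ≤ ∑ x ∈ bl 0 L \ bl 0 ⌊R⌋₊, Z * R ^ (1 / 2 : ℝ) * ((eu x ^ (1 / 2 : ℝ))⁻¹ / eu x ^ 2) :=
          sum_le_sum fun x hx => by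
          obtain ⟨a, b⟩ := mem_sdiff.1 hx
          have b1 := le_eu_of_not_bl b
          rw [sub_zero] at b1
          have b2 : R ≤ eu x := by linarith [Nat.lt_floor_add_one R]
          have x0 : 0 < eu x := by linarith
          have k := h.1 x a fun e => b (e ▸ self_mem_bl _ _)
          rw [max_eq_left ((div_le_one x0).2 b2 |>.trans ((one_le_div R0).2 b2)),
            div_rpow x0.le R0.le] at k
          have e2 : eu x ^ (1 / 2 : ℝ) * eu x ^ (1 / 2 : ℝ) = eu x := by rw [← rpow_add x0]; norm_num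
          have e3 : R ^ (1 / 2 : ℝ) * R ^ (1 / 2 : ℝ) = R := by rw [← rpow_add R0]; norm_num
          have e4 : 0 < eu x ^ (1 / 2 : ℝ) := by positivity
          have e5 : 0 < R ^ (1 / 2 : ℝ) := by positivity
          calc _ = |G x| * eu x ^ 4 * (R / eu x) * (R / eu x ^ 3) := by field_simp
            _ ≤ Z * (eu x ^ (1 / 2 : ℝ) / R ^ (1 / 2 : ℝ)) * 1 * (R / eu x ^ 3) := by
              gcongr; exact (div_le_one x0).2 b2
            _ = _ := by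
              generalize eu x ^ (1 / 2 : ℝ) = a at *
              generalize R ^ (1 / 2 : ℝ) = b at *
              rw [← e2, ← e3]; field_simp
      _ ≤ _ := by rw [← mul_sum, mul_assoc]; nlinarith
  · have c : ((Qd n \ bl 0 L).card : ℝ) ≤ (K * L) ^ 2 := by
      have := card_le_card (sdiff_subset (s := Qd n) (t := bl 0 L))
      rw [Qd, card_sq] at this
      exact le_trans (by exact_mod_cast this) (pow_le_pow_left₀ n.cast_nonneg hn 2)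
    refine (sum_le_card_nsmul _ _ (Z / (L : ℝ) ^ 2) fun x hx => ?_).trans ?_
    · obtain ⟨a, b⟩ := mem_sdiff.1 hx
      have k := h.2 x a b
      have e : (L / R) ^ (1 / 2 : ℝ) ≤ (L / R) ^ 2 := by
        rw [← rpow_two]; exact rpow_le_rpow_of_exponent_le ((one_le_div R0).2 hL) (by norm_num)
      calc _ = |G x| * (L : ℝ) ^ 4 * (R ^ 2 / L ^ 4) := by field_simp
        _ ≤ Z * (L / R) ^ 2 * (R ^ 2 / L ^ 4) :=
          mul_le_mul_of_nonneg_right (k.trans (mul_le_mul_of_nonneg_left e hZ)) (by positivity)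
        _ = _ := by field_simp
    · rw [nsmul_eq_mul]
      calc _ ≤ (K * L) ^ 2 * (Z / (L : ℝ) ^ 2) := by gcongr
        _ = _ := by field_simp

theorem cut (h : DKp G n L R Z) (hZ : 0 ≤ Z) (hR : 1 ≤ R) (hL : 2 * R ≤ L) :
    |-(1 / 4) * ∑ x ∈ bl 0 ⌊R⌋₊, G x * n2 x - gG G R| ≤ 48 * Z := by
  have R0 : 0 < R := one_pos.trans_le hR
  have s : bl (0 : Pt) ⌊R⌋₊ ⊆ bl 0 ⌈2 * R⌉₊ :=
    bl_mono 0 ((Nat.floor_le_ceil R).trans (Nat.ceil_mono (by linarith)))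
  rw [gG, ← sum_sdiff s, sum_congr rfl fun x (hx : x ∈ bl 0 ⌊R⌋₊) =>
    show G x * eu x ^ 2 * Xi.chi R x = G x * n2 x by
      rw [Xi.chi_one R0 (Nat.floor_le R0.le) hx, mul_one, eu_sq, n2]]
  have := (abs_sum_le_sum_abs _ _).trans ((sum_le_sum fun x _ =>
    show |G x * eu x ^ 2 * Xi.chi R x| ≤ |G x| * eu x ^ 2 by
      rw [abs_mul, abs_mul, abs_pow, abs_of_nonneg (eu_nonneg x)]
      exact mul_le_of_le_one_right (by positivity) (Xi.abs_chi_le _ _)).trans (mid h hZ hR hL))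
  rw [abs_le] at this ⊢
  constructor <;> linarith [this.1, this.2]

theorem en_le {u : Pt → ℝ} {K : ℝ} {ρ R' : ℕ} (hρ : 1 ≤ ρ) (h1 : ρ ≤ R') (h2 : (R' : ℝ) ≤ K * ρ)
    (hs : Sm2 u K ρ) (hu : Sup (bl 0 R') u) : |nnL.En (bl 0 (R' + 1)) u u| ≤ 50 * K ^ 4 := by
  have ρ1 : (1 : ℝ) ≤ ρ := by exact_mod_cast hρ
  have r1 : (1 : ℝ) ≤ R' := by exact_mod_cast hρ.trans h1
  rw [V29.en_eq hu (hρ.trans h1), abs_of_nonneg (sum_nonneg fun _ _ => by positivity)]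
  refine (sum_le_card_nsmul _ _ (2 * (K / ρ) ^ 2) fun x _ => ?_).trans ?_
  · have a := pow_le_pow_left₀ (abs_nonneg _) (hs.1 0 x) 2
    have b := pow_le_pow_left₀ (abs_nonneg _) (hs.1 1 x) 2
    rw [sq_abs] at a b; linarith
  · rw [card_bl, nsmul_eq_mul]
    push_cast
    calc _ ≤ (5 * (K * ρ)) ^ 2 * (2 * (K / ρ) ^ 2) := by gcongr; linarith
      _ = _ := by field_simp; ring

end N5
open N5

/-- VAR with a profile bound -/
theorem varP (K : ℝ) : ∃ C : ℝ, 0 ≤ C ∧ ∀ (G u : Pt → ℝ) (n L ρ R' : ℕ) (R Z : ℝ),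
    (∀ x, G x.swap = G x) → (∀ x : Pt, G (-x.1, x.2) = G x) → ∑ x ∈ Qd n, G x = 0 → DKp G n L R Z →
    0 ≤ Z → 1 ≤ R → 2 * R ≤ L → n ≤ K * L → 4 * R' < n → R ≤ ρ → ρ ≤ K * R → ρ ≤ R' → (R' : ℝ) ≤ K * ρ →
    Sm2 u K ρ → (∀ x, |u x| ≤ K) → Sup (bl 0 R') u →
    |∑ z ∈ bl 0 R', ∑ w ∈ bl 0 R', u z * u w * G (w - z) - gG G R * nnL.En (bl 0 (R' + 1)) u u| ≤ C * Z := by
  obtain ⟨C, C0, H⟩ := varStmt K
  refine ⟨C * (32 + K ^ 2 * (32 + K ^ 2)) + 2400 * K ^ 4, by positivity,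
    fun G u n L ρ R' R Z g1 g2 g0 h hZ hR hL hn hR' h1 h2 h3 h4 hs hb hu => ?_⟩
  have R0 : 0 < R := one_pos.trans_le hR
  have r1 : 1 ≤ ⌊R⌋₊ := Nat.le_floor (by simpa using hR)
  have k := H G u (Qd n) ρ ⌊R⌋₊ R' g1 g2 g0
    (by simpa [Qd] using bl_subset_sq (n := n) 0 (R := 2 * R') (by omega)) r1 (Nat.floor_le_of_le h1) h3 h4
    hs hb hu
  have k1 : ∑ x ∈ bl 0 ⌊R⌋₊, |G x| * sn x ^ 3 / ρ ≤ 32 * Z :=
    le_trans (sum_le_sum fun x _ => by have := V29.sn_nonneg x; gcongr) (inner h hZ hR (by linarith))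
  have k2 : ∑ x ∈ Qd n \ bl 0 ⌊R⌋₊, |G x| * min (sn x) ρ ^ 2 ≤ K ^ 2 * ((32 + K ^ 2) * Z) := by
    refine le_trans ?_ (mul_le_mul_of_nonneg_left (outer h hZ hR (by linarith) hn) (sq_nonneg K))
    rw [mul_sum]
    refine sum_le_sum fun x _ => ?_
    rw [mul_left_comm, ← mul_pow]
    gcongr
    exacts [le_min (V29.sn_nonneg x) ρ.cast_nonneg, (min_le_right _ _).trans h2]
  have k3 := mul_le_mul (cut h hZ hR hL) (en_le (r1.trans (Nat.floor_le_of_le h1)) h3 h4 hs hu)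
    (abs_nonneg _) (by positivity)
  rw [← abs_mul, sub_mul] at k3
  refine (abs_sub_le _ _ _).trans ((add_le_add (k.trans
    (mul_le_mul_of_nonneg_left (add_le_add k1 k2) C0)) k3).trans_eq (by ring))

/-- VAR with a profile bound, two test functions -/
theorem varP2 (K : ℝ) : ∃ C : ℝ, 0 ≤ C ∧ ∀ (G u v : Pt → ℝ) (n L ρ R' : ℕ) (R Z : ℝ),
    (∀ x, G x.swap = G x) → (∀ x : Pt, G (-x.1, x.2) = G x) → ∑ x ∈ Qd n, G x = 0 → DKp G n L R Z →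
    0 ≤ Z → 1 ≤ R → 2 * R ≤ L → n ≤ K * L → 4 * R' < n → R ≤ ρ → ρ ≤ K * R → ρ ≤ R' → (R' : ℝ) ≤ K * ρ →
    Sm2 u K ρ → (∀ x, |u x| ≤ K) → Sup (bl 0 R') u → Sm2 v K ρ → (∀ x, |v x| ≤ K) → Sup (bl 0 R') v →
    |∑ z ∈ bl 0 R', ∑ w ∈ bl 0 R', u z * v w * G (w - z) - gG G R * nnL.En (bl 0 (R' + 1)) u v| ≤ C * Z := by
  obtain ⟨C, C0, H⟩ := varP (2 * K)
  refine ⟨C / 2, by positivity, fun G u v n L ρ R' R Z g1 g2 g0 h hZ hR hL hn hR' h1 h2 h3 h4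
    hs hb hu hs' hb' hv => ?_⟩
  have K0 : 0 ≤ K := (abs_nonneg _).trans (hb 0)
  have g3 : ∀ x, G (-x) = G x := fun x => by
    rw [← g1, ← g2 x, ← g1 (-x.1, x.2), ← g2 (-x.1, x.2).swap]; rfl
  have k : ∀ c : ℝ, |c| = 1 → _ := fun c hc => H G (fun x => u x + c * v x) n L ρ R' R Z g1 g2 g0 h hZ hR hL
    (by nlinarith [mul_nonneg K0 L.cast_nonneg]) hR' h1 (by nlinarith) h3
    (by nlinarith [mul_nonneg K0 ρ.cast_nonneg])
    ⟨fun i x => by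
      rw [show df i (fun x => u x + c * v x) x = df i u x + c * df i v x by simp only [df]; ring]
      refine (abs_add_le _ _).trans ?_
      rw [abs_mul, hc, mul_div_assoc]; linarith [hs.1 i x, hs'.1 i x],
    fun i j x => by
      rw [show df j (df i fun x => u x + c * v x) x = df j (df i u) x + c * df j (df i v) x by
        simp only [df]; ring]
      refine (abs_add_le _ _).trans ?_
      rw [abs_mul, hc, mul_div_assoc]; linarith [hs.2 i j x, hs'.2 i j x]⟩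
    (fun x => (abs_add_le _ _).trans (by rw [abs_mul, hc]; linarith [hb x, hb' x]))
    fun x hx => by simp only [hu x hx, hv x hx, mul_zero, add_zero]
  have e1 : ∀ c : ℝ, ∑ z ∈ bl 0 R', ∑ w ∈ bl 0 R', (u z + c * v z) * (u w + c * v w) * G (w - z) =
      ∑ z ∈ bl 0 R', ∑ w ∈ bl 0 R', (u z * u w + c ^ 2 * (v z * v w)) * G (w - z) +
        2 * c * ∑ z ∈ bl 0 R', ∑ w ∈ bl 0 R', u z * v w * G (w - z) := fun c => by
    have : ∑ z ∈ bl 0 R', ∑ w ∈ bl 0 R', u z * v w * G (w - z) =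
        ∑ z ∈ bl 0 R', ∑ w ∈ bl 0 R', u w * v z * G (w - z) := by
      rw [sum_comm]; exact sum_congr rfl fun z _ => sum_congr rfl fun w _ => by rw [← g3, neg_sub]
    rw [two_mul, add_mul]
    nth_rewrite 2 [this]
    simp only [mul_sum, ← sum_add_distrib]
    exact sum_congr rfl fun z _ => sum_congr rfl fun w _ => by ring
  have e2 : nnL.En (bl 0 (R' + 1)) (fun x => u x + 1 * v x) (fun x => u x + 1 * v x) =
      nnL.En (bl 0 (R' + 1)) (fun x => u x + -1 * v x) (fun x => u x + -1 * v x) +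
        4 * nnL.En (bl 0 (R' + 1)) u v := by
    simp only [Lat.En, mul_sum, ← sum_add_distrib]
    exact sum_congr rfl fun e _ => by ring
  have k1 := abs_le.1 (k 1 abs_one)
  have k2 := abs_le.1 (k (-1) (by simp))
  simp only [e1, e2, neg_one_sq, one_pow] at k1 k2
  rw [abs_le]
  constructor <;> linarith [k1.1, k1.2, k2.1, k2.2]

section dK
variable {Λ : Lat} {n : ℕ}

theorem dK_swap (hΛ : Λ.Ok) (hn : 2 * Λ.rg < n) (x : Pt) : dK Λ n x.swap = dK Λ n x :=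
  dom_congr hΛ hn (depG_JJ 0 _) (tame_JJ _) (depG_JJ 0 x) (tame_JJ x) fun _ h => K_swap h hn x

theorem dK_neg_fst (hΛ : Λ.Ok) (hn : 2 * Λ.rg < n) (x : Pt) : dK Λ n (-x.1, x.2) = dK Λ n x :=
  dom_congr hΛ hn (depG_JJ 0 _) (tame_JJ _) (depG_JJ 0 x) (tame_JJ x) fun _ h => K_neg_fst h hn x

theorem dom_JJ (hΛ : Λ.Ok) (hn : 2 * Λ.rg < n) (z x : Pt) :
    dom Λ n (fun s => Jz z s * Jz x s) = dK Λ n (x - z) :=
  dom_congr hΛ hn (depG_JJ z x) ((tame_Jz z).mul (tame_Jz x)) (depG_JJ 0 _) (tame_JJ _)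
    fun _ h => om_JJ h hn z x

theorem sum_dK (hΛ : Λ.Ok) (hn : 2 * Λ.rg < n) (a : Pt) : ∑ x ∈ sq a n, dK Λ n x = 0 :=
  (HasDerivAt.fun_sum fun x _ => hasDerivAt_K hΛ hn x).unique ((hasDerivAt_const _ 0).congr_of_eventuallyEq
    (by filter_upwards [Ioi_mem_nhds hΛ.pos] with t ht using sum_K (hΛ.at' ht) (by omega) a))

theorem XX_eq {D : Finset Pt} {u v : Pt → ℝ} (hu : Pot.Sup D u) (hv : Pot.Sup D v) :
    (fun s => pr (A0 u) s * pr (A0 v) s) = fun s => ∑ z ∈ D, ∑ w ∈ D, u z * v w * (Jz z s * Jz w s) := by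
  funext s
  rw [Xi.pr_A0 hu, Xi.pr_A0 hv, sum_mul_sum]
  exact sum_congr rfl fun z _ => sum_congr rfl fun w _ => by ring

theorem depG_JJ' {D : Finset Pt} {z w : Pt} (hz : z ∈ D) (hw : w ∈ D) :
    DepG (D.biUnion fun x => bl x 1) fun s => Jz z s * Jz w s :=
  (depG_JJ z w).mono (union_subset (subset_biUnion_of_mem (fun x => bl x 1) hz)
    (subset_biUnion_of_mem (fun x => bl x 1) hw))

theorem om_XX (hΛ : Λ.Ok) (hn : 2 * Λ.rg < n) {D : Finset Pt} {u v : Pt → ℝ} (hu : Pot.Sup D u)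
    (hv : Pot.Sup D v) : om Λ n (fun s => pr (A0 u) s * pr (A0 v) s) =
      ∑ z ∈ D, ∑ w ∈ D, u z * v w * KK (om Λ n) (w - z) := by
  have t : ∀ z w, Tame fun s => u z * v w * (Jz z s * Jz w s) := fun z w =>
    (Tame.const _).mul ((tame_Jz z).mul (tame_Jz w))
  rw [XX_eq hu hv, om_sum hΛ D fun z hz => og_tame hΛ
    (DepG.sum fun w hw => (depG_JJ' hz hw).comp (u z * v w * ·)) (Tame.sum _ fun w _ => t z w)]
  refine sum_congr rfl fun z hz => ?_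
  rw [om_sum hΛ D fun w hw => og_tame hΛ ((depG_JJ' hz hw).comp (u z * v w * ·)) (t z w)]
  exact sum_congr rfl fun w _ => by rw [om_const_mul (depG_JJ z w).dep, om_JJ hΛ hn]; rfl

theorem hasDerivAt_XX (hΛ : Λ.Ok) (hn : 2 * Λ.rg < n) (D : Finset Pt) (u v : Pt → ℝ) :
    HasDerivAt (fun t => ∑ z ∈ D, ∑ w ∈ D, u z * v w * KK (om (Λ.at' t) n) (w - z))
      (∑ z ∈ D, ∑ w ∈ D, u z * v w * dK Λ n (w - z)) Λ.τ :=
  HasDerivAt.fun_sum fun _ _ => HasDerivAt.fun_sum fun _ _ => (hasDerivAt_K hΛ hn _).const_mul _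

theorem dom_XX (hΛ : Λ.Ok) (hn : 2 * Λ.rg < n) {D : Finset Pt} {u v : Pt → ℝ} (hu : Pot.Sup D u)
    (hv : Pot.Sup D v) : dom Λ n (fun s => pr (A0 u) s * pr (A0 v) s) =
      ∑ z ∈ D, ∑ w ∈ D, u z * v w * dK Λ n (w - z) :=
  dom_unique (S := D.biUnion fun x => bl x 1) hΛ hn
    (XX_eq hu hv ▸ DepG.sum fun z hz => DepG.sum fun w hw => (depG_JJ' hz hw).comp (u z * v w * ·))
    ((Tame.hom _).mul (Tame.hom _)) (hasDerivAt_XX hΛ hn D u v) fun _ h => om_XX h hn hu hv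

/-- the derivative form of `Mid.MoStmt` -/
theorem mo_der (hΛ : Λ.Ok) {ρ : ℕ} (hρ : 1 ≤ ρ) (h : 16 * ρ ≤ n) (hn : 2 * Λ.rg + 8 < n) :
    (∑ z ∈ bl 0 (2 * ρ), ∑ w ∈ bl 0 (2 * ρ), Xi.chi ρ z * Xi.chi ρ w * KK (om Λ n) (w - z)) ^ 2 /
      (Ec ρ * Λ.τ ^ 2) ≤
      ∑ z ∈ bl 0 (2 * ρ), ∑ w ∈ bl 0 (2 * ρ), Xi.chi ρ z * Xi.chi ρ w * dK Λ n (w - z) := by
  obtain ⟨C, -, hC⟩ := chiStmt
  obtain ⟨-, hs, h1, -⟩ := hC ρ hρ
  have E0 : 0 < Ec ρ := one_pos.trans_le h1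
  have e : ∀ Λ : Lat, Λ.Ok → 2 * Λ.rg < n → ∑ z ∈ bl 0 (2 * ρ), ∑ w ∈ bl 0 (2 * ρ),
      Xi.chi ρ z * Xi.chi ρ w * KK (om Λ n) (w - z) = Vt Λ n ρ * Ec ρ := fun Λ hΛ hn => by
    rw [Vt, div_mul_cancel₀ _ E0.ne', Vg19.vr_eq hΛ hn (by omega) hs]; rfl
  have d := (hasDerivAt_XX (n := n) hΛ (by omega) (bl 0 (2 * ρ)) (Xi.chi ρ) (Xi.chi ρ)).add
    ((hasDerivAt_inv hΛ.pos.ne').const_mul (Vt Λ n ρ ^ 2 * Ec ρ))
  have k := deriv_nonneg_of_right d (fun t ht => by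
    have m := mul_le_mul_of_nonneg_right (moStmt chiStmt Λ t n ρ hΛ ht.le hρ h hn) E0.le
    simp only [Pi.add_apply]
    rw [e _ (hΛ.at' (hΛ.pos.trans ht)) (show 2 * Λ.rg < n by omega),
      show Λ.at' Λ.τ = Λ from rfl, e Λ hΛ (by omega)]
    linarith)
  rw [e Λ hΛ (by omega)]
  have := hΛ.pos
  calc _ = Vt Λ n ρ ^ 2 * Ec ρ * (Λ.τ ^ 2)⁻¹ := by field_simp
    _ ≤ _ := by linarith

end dK

/-- the profile of `K` on the whole fundamental domain -/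
theorem kpK (p : Fl.Par) : ∃ C : ℝ, 0 ≤ C ∧ ∀ Λ ω L N n, Env p Λ ω L N → n ≤ 2 * (N + N / 4) + 1 → ∀ R Y,
    Maj p Λ L R Y → R ≤ L → DKp (KK ω) n L R (C * Y ^ 2) := by
  obtain ⟨C, C0, H⟩ := Kb14.part1 semiStmt prodStmt Fl.bareStmt p
  refine ⟨C + 16 * (8 * p.w) ^ 5, by positivity, fun Λ ω L N n hE hn R Y hY hL => ⟨fun x hx h0 => ?_,
    fun x hx hx' => ?_⟩⟩
  all_goals
    have w4 := hE.w4
    have e1 := ew_le' (w := p.w) w4
    have e0 := Kb14.ew_pos (w := p.w) (by omega)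
    have R0 : 0 < R := one_pos.trans_le hY.1
  · refine (H Λ ω L N hE R Y hY x hx h0).trans ?_
    have x0 := one_pos.trans_le (one_le_eu h0)
    have : 1 ≤ max (eu x / R) (R / eu x) := (le_total R (eu x)).elim
      (fun h => le_max_of_le_left ((one_le_div R0).2 h)) fun h => le_max_of_le_right ((one_le_div x0).2 h)
    exact mul_le_mul (mul_le_mul_of_nonneg_right (le_add_of_nonneg_right (by positivity)) (sq_nonneg Y))
      (rpow_le_rpow_of_exponent_le this (by linarith)) (by positivity) (by positivity)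
  · have h2 := Kb14.two_le_r0 hE.toGs
    have hb := hE.big
    set a := L / (4 * p.w)
    have a1 : 4 * p.w * a ≤ L := Nat.mul_div_le _ _
    have a2 : L < 4 * p.w * (a + 1) := Nat.lt_mul_div_succ _ (by omega)
    have a3 : p.r₀ ≤ a := (Nat.le_div_iff_mul_le (by omega)).2 (by nlinarith)
    have k1 := kk_far hE (Qd_sub hn hx) hx' a3 (by rwa [← mul_assoc])
    have k2 := hY.2.2 a a3 (by nlinarith)
    have k3 := ((semiStmt Λ p.w a 0 hE.ok (by have := hE.gd.2.1; nlinarith)).1 (Jz 0)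
      (Om.ins_Jz _ (by omega))).1
    have a0 : (1 : ℝ) ≤ a := by exact_mod_cast (by omega : 1 ≤ a)
    have w1 : (1 : ℝ) ≤ 8 * p.w := by exact_mod_cast (by omega : 1 ≤ 8 * p.w)
    have k4 : (L : ℝ) ≤ 8 * p.w * a := by exact_mod_cast (by nlinarith : L ≤ 8 * p.w * a)
    have k5 : (a : ℝ) ≤ L := by exact_mod_cast (by nlinarith : a ≤ L)
    have l1 : 1 ≤ L / R := (one_le_div R0).2 hL
    have k6 : max (a / R) (R / a) ≤ 8 * p.w * (L / R) := max_le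
      ((show a / R ≤ L / R by gcongr).trans (le_mul_of_one_le_left (by positivity) w1))
      (((div_le_iff₀ (by positivity)).2 (hL.trans k4)).trans (le_mul_of_one_le_right (by positivity) l1))
    have k7 : (max (a / R) (R / a) ^ ew p.w) ^ 2 ≤ 8 * p.w * (L / R) ^ (1 / 2 : ℝ) := by
      have : 0 ≤ max (a / R) (R / a) := le_max_of_le_left (by positivity)
      rw [← rpow_two, ← rpow_mul this]
      refine (rpow_le_rpow this k6 (by linarith)).trans ?_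
      rw [mul_rpow (by positivity) (by positivity)]
      exact mul_le_mul ((rpow_le_rpow_of_exponent_le w1 (by linarith)).trans_eq (rpow_one _))
        (rpow_le_rpow_of_exponent_le l1 (by linarith)) (by positivity) (by positivity)
    calc _ ≤ 16 * nu Λ p.w 0 a (Jz 0) ^ 2 * (8 * p.w * a) ^ 4 := by gcongr
      _ = 16 * (8 * p.w) ^ 4 * ((a : ℝ) ^ 2 * nu Λ p.w 0 a (Jz 0)) ^ 2 := by ring
      _ ≤ 16 * (8 * p.w) ^ 4 * (Y * max (a / R) (R / a) ^ ew p.w) ^ 2 := by gcongr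
      _ ≤ 16 * (8 * p.w) ^ 4 * (Y ^ 2 * (8 * p.w * (L / R) ^ (1 / 2 : ℝ))) := by rw [mul_pow Y]; gcongr
      _ = 16 * (8 * p.w) ^ 5 * Y ^ 2 * (L / R) ^ (1 / 2 : ℝ) := by ring
      _ ≤ _ := by gcongr; exact le_add_of_nonneg_left C0

set_option maxHeartbeats 800000 in
/-- NONDEG -/
theorem nondeg (p : Fl.Par) : ∃ c C : ℝ, 0 < c ∧ 0 ≤ C ∧ ∀ Λ L N n, Env p Λ (om Λ n) L N →
    2 * (N + Λ.rg) < n → n ≤ 2 * (N + N / 4) + 1 → ∀ R Y Z, Maj p Λ L R Y → C * Y ≤ 1 → C * R ≤ L →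
    1 / 4 ≤ gk (om Λ n) R → 0 ≤ Z → DKp (dK Λ n) n L R Z → c - C * Z ≤ dg Λ n R := by
  obtain ⟨C₁, C1, H1⟩ := kpK p
  obtain ⟨C₂, C2, H2⟩ := chiStmt
  obtain ⟨C, C0, H⟩ := varP (C₂ + 4 + 4 * p.K)
  have τ0 := p.F.pos
  have K0 : (0 : ℝ) ≤ p.K := p.K.cast_nonneg
  refine ⟨1 / (64 * (|p.F.τ₂| + 1) ^ 2), 32 + C + 8 * C * C₁, by positivity, by positivity,
    fun Λ L N n hE h4 h5 R Y Z hY hY1 hL hg hZ hD => ?_⟩
  have hΛ := hE.ok
  have R1 := hY.1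
  have Y0 : 0 < Y := (rpow_pos_of_pos (by linarith) _).trans_le hY.2.1
  have cc := mul_nonneg C0 C1
  have hL' : 32 * R ≤ L := le_trans (by gcongr; linarith) hL
  have c1 := Nat.le_ceil R
  have c2 := Nat.ceil_lt_add_one (show 0 ≤ R by linarith)
  set ρ := ⌈R⌉₊
  have ρ1 : 1 ≤ ρ := by exact_mod_cast R1.trans c1
  have ρL : 16 * ρ ≤ L := by exact_mod_cast (by push_cast; linarith : ((16 * ρ : ℕ) : ℝ) ≤ L)
  have hN := hE.le
  have hK : (n : ℝ) ≤ 4 * p.K * L := by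
    have := hE.leK
    exact_mod_cast (by rw [mul_assoc]; omega : n ≤ 4 * p.K * L)
  obtain ⟨s1, s2, s3, -⟩ := H2 ρ ρ1
  have ρ0 : (0 : ℝ) ≤ ρ := ρ.cast_nonneg
  have key := fun G Z g1 g2 g0 h hZ => H G (Xi.chi ρ) n L ρ (2 * ρ) R Z g1 g2 g0 h hZ R1 (by linarith)
    (hK.trans (by gcongr; linarith)) (by omega) c1 (by nlinarith) (by omega) (by push_cast; nlinarith)
    ⟨fun i x => (s1.1 i x).trans (by gcongr; linarith), fun i j x => (s1.2 i j x).trans (by gcongr; linarith)⟩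
    (fun x => (Xi.abs_chi_le _ x).trans (by linarith)) s2
  have hn : 2 * Λ.rg < n := by omega
  have k1 := abs_le.1 (key _ _ (K_swap hΛ hn) (K_neg_fst hΛ hn) (sum_K hΛ (by omega) _)
    (H1 Λ _ L N n hE h5 R Y hY (by linarith)) (by positivity))
  have k2 := abs_le.1 (key _ Z (dK_swap hΛ hn) (dK_neg_fst hΛ hn) (sum_dK hΛ hn _) hD hZ)
  have k3 := mo_der hΛ ρ1 (show 16 * ρ ≤ n by omega) (by omega)
  change _ ≤ _ - gk (om Λ n) R * Ec ρ ∧ _ at k1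
  change _ ∧ _ - dg Λ n R * Ec ρ ≤ _ at k2
  have y1 : Y ≤ 1 := by nlinarith
  have y2 : C * (C₁ * Y ^ 2) ≤ 1 / 8 := by nlinarith [mul_nonneg cc Y0.le, mul_nonneg C0 Y0.le]
  have τ1 := hΛ.pos
  have τ2 : Λ.τ ≤ |p.F.τ₂| + 1 := by linarith [hE.mem.2.2.2, le_abs_self p.F.τ₂]
  have k0 : Ec ρ / 8 ≤ ∑ z ∈ bl 0 (2 * ρ), ∑ w ∈ bl 0 (2 * ρ),
      Xi.chi ρ z * Xi.chi ρ w * KK (om Λ n) (w - z) := by
    have := mul_le_mul_of_nonneg_right hg (zero_le_one.trans s3)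
    have k : _ ≤ ∑ z ∈ bl 0 (2 * ρ), ∑ w ∈ bl 0 (2 * ρ), Xi.chi ρ z * Xi.chi ρ w * KK (om Λ n) (w - z) - _ :=
      k1.1
    linarith
  have k4 : Ec ρ * (1 / (64 * (|p.F.τ₂| + 1) ^ 2)) ≤ dg Λ n R * Ec ρ + C * Z := by
    refine le_trans ?_ (k3.trans (by linarith [k2.2]))
    calc _ = (Ec ρ / 8) ^ 2 / (Ec ρ * (|p.F.τ₂| + 1) ^ 2) := by field_simp; ring
      _ ≤ _ := div_le_div₀ (sq_nonneg _) (pow_le_pow_left₀ (by linarith) k0 2) (by positivity) (by gcongr)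
  have k5 : C * Z ≤ (32 + C + 8 * C * C₁) * Z * Ec ρ :=
    le_trans (by gcongr; linarith) (le_mul_of_one_le_right (by positivity) s3)
  refine le_of_mul_le_mul_right ?_ (one_pos.trans_le s3)
  linarith

end Crest.Agent.T145.Ev
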