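import Crest.Agent.T145.EvDef_2
import Crest.Agent.T145.EvNd_5

/-!
# Row 145, even sector: linearity of `ω'` and the quadratic form of `K'` (helper5)
-/

set_option autoImplicit false

namespace Crest.Agent.T145.Ev

open Finset Real Fl Pot Xi

namespace V5

variable {p : Par} {Λ : Lat} {ω ω' : Sta} {D : Finset Pt} {L N : ℕ} {F G : Cfg Pt → ℝ}

theorem rg_le (h : Env p Λ ω L N) : 800 * Λ.rg ≤ N ∧ 800 ≤ N := by
  have h1 := h.gd.2.1
  have h2 := h.big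
  have h3 := h.le
  have h4 := h.w4
  have h5 := h.ok.one_le_rg
  constructor <;> nlinarith

/-- an insertion near the origin and any star fit into one ball -/
theorem ins_Fe (h : Ed p Λ ω ω' D L N) (hF : Ins 0 (N / 4) F) {z : Pt} (hz : z ∈ D) :
    Ins (z.1 / 2, z.2 / 2) N fun s => F s * et Λ ω z s := by
  have h1 := rg_le h.toEnv
  have h2 := h.hi hz
  refine E30.ins_mul (E30.ins_mono hF fun y hy => ?_)
    (E30.ins_mono (E30.ins_sub (Om.ins_est h.toEnv.ok z) (E30.ins_const z Λ.rg _)) fun y hy => ?_)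
  all_goals simp only [mem_bl, Prod.fst_zero, Prod.snd_zero] at h2 hy ⊢; omega

theorem sum_smul' (h : Ed p Λ ω ω' D L N) {ι : Type*} (T : Finset ι) (a : ι → ℝ) {F : ι → Cfg Pt → ℝ}
    (hF : ∀ i ∈ T, Ins 0 (N / 4) (F i)) :
    ω' (fun s => ∑ i ∈ T, a i * F i s) = ∑ i ∈ T, a i * ω' (F i) := by
  rw [h.der _ (E30.ins_sum T fun i hi => E30.ins_smul (hF i hi) _),
    sum_congr (s₁ := T) rfl fun i hi => by rw [h.der _ (hF i hi), mul_sum], sum_comm]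
  refine sum_congr rfl fun z hz => ?_
  rw [← h.toEnv.ex_sum_smul T a fun i hi => ins_Fe h (hF i hi) hz]
  simp only [sum_mul, mul_assoc]

theorem sum' (h : Ed p Λ ω ω' D L N) {ι : Type*} (T : Finset ι) {F : ι → Cfg Pt → ℝ}
    (hF : ∀ i ∈ T, Ins 0 (N / 4) (F i)) : ω' (fun s => ∑ i ∈ T, F i s) = ∑ i ∈ T, ω' (F i) := by
  simpa using sum_smul' h T (fun _ => 1) hF

theorem smul' (h : Ed p Λ ω ω' D L N) (hF : Ins 0 (N / 4) F) (a : ℝ) :
    ω' (fun s => a * F s) = a * ω' F := by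
  simpa using sum_smul' h (univ : Finset Unit) (fun _ => a) fun _ _ => hF

theorem lin' (h : Ed p Λ ω ω' D L N) (hF : Ins 0 (N / 4) F) (hG : Ins 0 (N / 4) G) (a b : ℝ) :
    ω' (fun s => a * F s + b * G s) = a * ω' F + b * ω' G := by
  simpa using sum_smul' h (univ : Finset Bool) (fun i => cond i a b) (F := fun i => cond i F G)
    fun i _ => by cases i; exacts [hG, hF]

theorem add' (h : Ed p Λ ω ω' D L N) (hF : Ins 0 (N / 4) F) (hG : Ins 0 (N / 4) G) :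
    ω' (fun s => F s + G s) = ω' F + ω' G := by simpa using lin' h hF hG 1 1

theorem sub' (h : Ed p Λ ω ω' D L N) (hF : Ins 0 (N / 4) F) (hG : Ins 0 (N / 4) G) :
    ω' (fun s => F s - G s) = ω' F - ω' G := by simpa [sub_eq_add_neg] using lin' h hF hG 1 (-1)

theorem JJ' (h : Ed p Λ ω ω' D L N) {z x : Pt} (hz : z ∈ bl 0 (N / 8)) (hx : x - z ∈ bl 0 (N / 8 - 1)) :
    ω' (fun s => Jz z s * Jz x s) = KK ω' (x - z) := by
  have h1 := rg_le h.toEnv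
  have b := h.trl' z _ (E30.ins_mul (E30.ins_J (bl_mono 0 (by omega))) (E30.ins_J' hx (by omega))) hz
  rw [E30.trl_mul, Om.trl_Jz, Om.trl_Jz, zero_add, sub_add_cancel] at b
  exact b

theorem KK_swap' (h : Ed p Λ ω ω' D L N) {x : Pt} (hx : x ∈ bl 0 (N / 4 - 1)) :
    KK ω' x.swap = KK ω' x := by
  have h1 := rg_le h.toEnv
  have hx' : x.swap ∈ bl 0 (N / 4 - 1) := by
    simp only [mem_bl, Prod.fst_swap, Prod.snd_swap, Prod.fst_zero, Prod.snd_zero] at hx ⊢; omega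
  rw [KK, ← (h.d4' _ (E30.ins_mul (E30.ins_J (bl_mono 0 (by omega))) (E30.ins_J' hx' (by omega)))).2, KK]
  have e : x.swap = swpZ 0 x := by ext <;> simp [swpZ]
  simp only [e, Om.Jz_swp, (Om.d4_Jz 0 _).2]

theorem KK_rot' (h : Ed p Λ ω ω' D L N) {x : Pt} (hx : x ∈ bl 0 (N / 4 - 1)) :
    KK ω' (-x.2, x.1) = KK ω' x := by
  have h1 := rg_le h.toEnv
  have hx' : ((-x.2, x.1) : Pt) ∈ bl 0 (N / 4 - 1) := by
    simp only [mem_bl, Prod.fst_zero, Prod.snd_zero] at hx ⊢; omega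
  rw [KK, ← (h.d4' _ (E30.ins_mul (E30.ins_J (bl_mono 0 (by omega))) (E30.ins_J' hx' (by omega)))).1, KK]
  have e : ((-x.2, x.1) : Pt) = rotZ 0 x := by ext <;> simp [rotZ]
  simp only [e, Om.Jz_rot, (Om.d4_Jz 0 _).1]

theorem KK_neg_fst' (h : Ed p Λ ω ω' D L N) {x : Pt} (hx : x ∈ bl 0 (N / 4 - 1)) :
    KK ω' (-x.1, x.2) = KK ω' x := by
  have hx' : x.swap ∈ bl 0 (N / 4 - 1) := by
    simp only [mem_bl, Prod.fst_swap, Prod.snd_swap, Prod.fst_zero, Prod.snd_zero] at hx ⊢; omega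
  have := KK_rot' h hx'
  rw [Prod.snd_swap, Prod.fst_swap] at this
  rw [this, KK_swap' h hx]

theorem XX' (h : Ed p Λ ω ω' D L N) {n : ℕ} (hn : 2 * n + 1 ≤ N / 8) {u v : Pt → ℝ}
    (hu : Pot.Sup (bl 0 n) u) (hv : Pot.Sup (bl 0 n) v) :
    ω' (fun s => X u s * X v s) = ∑ z ∈ bl 0 n, ∑ w ∈ bl 0 n, u z * v w * KK ω' (w - z) := by
  have i : ∀ z ∈ bl 0 n, ∀ w ∈ bl 0 n, Ins 0 (N / 4) fun s => Jz z s * Jz w s := fun z hz w hw =>
    E30.ins_mul (E30.ins_J' hz (by omega)) (E30.ins_J' hw (by omega))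
  simp only [X]
  rw [XX_eq hu hv, sum' h _ fun z hz => E30.ins_sum _ fun w hw => E30.ins_smul (i z hz w hw) _]
  refine sum_congr rfl fun z hz => ?_
  rw [sum_smul' h _ _ (i z hz)]
  refine sum_congr rfl fun w hw => ?_
  rw [JJ' h (bl_mono 0 (by omega) hz) (by
    simp only [mem_bl, Prod.fst_zero, Prod.snd_zero, Prod.fst_sub, Prod.snd_sub] at hz hw ⊢; omega)]

theorem E1_eq {u v : Pt → ℝ} {n : ℕ} (hu : Pot.Sup D u) (hv : Pot.Sup (bl 0 n) v) :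
    E1 D u v = nnL.En (bl 0 (n + 1)) u v := by
  rw [E1, B80.A0_dv (B80.gb_bl hv), sum_mul_dv u fun e _ => ⟨hu _, hu _⟩, Lat.En]
  exact sum_congr rfl fun e _ => by simp only [nnL, div_one, mul_comm]

theorem eu_le' {x : Pt} {n : ℕ} (h : x ∈ bl 0 n) : eu x ≤ 3 / 2 * n := by
  obtain ⟨h1, h2⟩ : |x.1| ≤ n ∧ |x.2| ≤ n := by simpa [mem_bl_abs] using h
  have h3 : |(x.1 : ℝ)| ≤ n := by exact_mod_cast h1
  have h4 : |(x.2 : ℝ)| ≤ n := by exact_mod_cast h2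
  refine abs_le_of_sq_le_sq' ?_ (by positivity) |>.2
  rw [eu_sq, ← sq_abs (x.1 : ℝ), ← sq_abs (x.2 : ℝ)]
  nlinarith [abs_nonneg (x.1 : ℝ), abs_nonneg (x.2 : ℝ)]

/-- VAR for orthogonal test functions: only the kernel near the origin matters -/
theorem varO : ∃ C : ℝ, 0 ≤ C ∧ ∀ (G u v : Pt → ℝ) (R Z σ : ℝ), 1 ≤ R → 0 ≤ Z →
    (∀ x, eu x ≤ 64 * R → G x.swap = G x ∧ G (-x.1, x.2) = G x) →
    (∀ x, x ≠ 0 → eu x ≤ 64 * R → |G x| * eu x ^ 4 ≤ Z * max (eu x / R) (R / eu x) ^ (1 / 2 : ℝ)) →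
    Pot.Sup (bl 0 ⌈2 * R⌉₊) u → Pot.Sup (bl 0 ⌈32 * R⌉₊) v → Sm 3 Set.univ σ R u → Sm 3 Set.univ σ R v →
    ∑ x ∈ bl 0 ⌈2 * R⌉₊, u x * v x = 0 →
    |∑ z ∈ bl 0 ⌈32 * R⌉₊, ∑ w ∈ bl 0 ⌈32 * R⌉₊, u z * v w * G (w - z) -
      gG G R * E1 (bl 0 ⌈2 * R⌉₊) u v| ≤ C * σ ^ 2 * Z := by
  obtain ⟨C, C0, H⟩ := varP2 40
  refine ⟨C, C0, fun G u v R Z σ hR hZ hs hG hu hv su sv ho => ?_⟩
  have R0 : 0 < R := one_pos.trans_le hR
  rcases ((abs_nonneg _).trans (su.zero (z := 0) trivial)).eq_or_lt with rfl | hσ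
  · have : ∀ x, u x = 0 := fun x => abs_nonpos_iff.1 (su.zero trivial)
    simp [this, E1]
  have c1 := Nat.le_ceil R
  have c2 := Nat.ceil_lt_add_one R0.le
  have c3 := Nat.le_ceil (32 * R)
  have c4 := Nat.ceil_lt_add_one (show 0 ≤ 32 * R by linarith)
  have c5 := Nat.ceil_lt_add_one (show 0 ≤ 2 * R by linarith)
  have c6 := Nat.le_ceil (64 * R)
  have s1 : bl (0 : Pt) ⌈2 * R⌉₊ ⊆ bl 0 ⌈32 * R⌉₊ := bl_mono 0 (Nat.ceil_mono (by linarith))
  set n := 4 * ⌈64 * R⌉₊ + 1 with hn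
  let G₀ : Pt → ℝ := fun x => if eu x ≤ 64 * R then G x else 0
  let G₁ : Pt → ℝ := fun x => G₀ x - if x = 0 then ∑ y ∈ Mid.Qd n, G₀ y else 0
  have g1 : ∀ x, x ≠ 0 → G₁ x = G₀ x := fun x hx => by simp only [G₁, if_neg hx, sub_zero]
  have sm : ∀ {u : Pt → ℝ}, Sm 3 Set.univ σ R u → Sm2 (σ⁻¹ • u) 40 (⌈R⌉₊ : ℕ) ∧ ∀ x, |(σ⁻¹ • u) x| ≤ 40 :=
    fun h => by
    have h1 := (((h.smul σ⁻¹).scale' R0 one_le_two).scale (R0.trans_le c1) (by linarith)).mono le_rfl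
      Set.Subset.rfl (show _ ≤ (40 : ℝ) by
        rw [abs_of_pos (inv_pos.2 hσ), inv_mul_cancel₀ hσ.ne']; norm_num) (R0.trans_le c1)
    exact ⟨h1.sm2 (by norm_num), fun x => h1.zero trivial⟩
  have k := H G₁ (σ⁻¹ • u) (σ⁻¹ • v) n ⌈64 * R⌉₊ ⌈R⌉₊ ⌈32 * R⌉₊ R Z
    (fun x => by
      have e : eu x.swap = eu x := by simp only [eu, Prod.fst_swap, Prod.snd_swap, add_comm]
      simp only [G₁, G₀, e, Prod.swap_eq_iff_eq_swap, Prod.swap_zero]
      split_ifs with h <;> simp only [(hs x ·), h])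
    (fun x => by
      have e : eu (-x.1, x.2) = eu x := by simp [eu]
      have e' : ((-x.1, x.2) : Pt) = 0 ↔ x = 0 := by simp [Prod.ext_iff]
      simp only [G₁, G₀, e, e']
      split_ifs with h <;> simp only [(hs x ·), h])
    (by
      simp only [G₁, sum_sub_distrib, sum_ite_eq', sub_eq_zero]
      rw [if_pos (by simp only [Mid.Qd, mem_sq, Prod.fst_zero, Prod.snd_zero]; omega)])
    ⟨fun x _ h0 => by
      rw [g1 x h0]
      simp only [G₀]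
      split_ifs with h
      · exact hG x h0 h
      · rw [abs_zero, zero_mul]
        exact mul_nonneg hZ (rpow_nonneg (le_max_of_le_left (div_nonneg (eu_nonneg x) R0.le)) _),
    fun x _ hx => by
      have := le_eu_of_not_bl hx
      rw [sub_zero] at this
      rw [g1 x fun e => hx (e ▸ self_mem_bl _ _)]
      simp only [G₀, if_neg (show ¬ eu x ≤ 64 * R by linarith), abs_zero, zero_mul]
      positivity⟩ hZ hR (by linarith) (by rw [hn]; push_cast; linarith)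
    (by have := Nat.ceil_mono (show 32 * R ≤ 64 * R by linarith); omega) c1 (by linarith)
    (Nat.ceil_mono (by linarith)) (by linarith) (sm su).1 (sm su).2
    (fun x hx => by simp [hu x fun h => hx (s1 h)]) (sm sv).1 (sm sv).2 fun x hx => by simp [hv x hx]
  have e1 : gG G₁ R = gG G R := by
    refine congrArg _ (sum_congr rfl fun x hx => ?_)
    rcases eq_or_ne x 0 with rfl | h0
    · simp
    · simp only [g1 x h0, G₀, if_pos (show eu x ≤ 64 * R by linarith [eu_le' hx])]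
  have e2 : ∑ z ∈ bl 0 ⌈32 * R⌉₊, ∑ w ∈ bl 0 ⌈32 * R⌉₊, (σ⁻¹ • u) z * (σ⁻¹ • v) w * G₁ (w - z) =
      σ⁻¹ ^ 2 * ∑ z ∈ bl 0 ⌈32 * R⌉₊, ∑ w ∈ bl 0 ⌈32 * R⌉₊, u z * v w * G (w - z) := by
    have e : ∀ z ∈ bl 0 ⌈32 * R⌉₊, ∑ w ∈ bl 0 ⌈32 * R⌉₊, (σ⁻¹ • u) z * (σ⁻¹ • v) w * G₁ (w - z) =
        σ⁻¹ ^ 2 * (∑ w ∈ bl 0 ⌈32 * R⌉₊, u z * v w * G (w - z) - u z * v z * ∑ y ∈ Mid.Qd n, G₀ y) := by
      intro z hz
      by_cases h : z ∈ bl 0 ⌈2 * R⌉₊
      swap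
      · simp [hu z h]
      simp only [G₁, mul_sub, sum_sub_distrib, sub_eq_zero, mul_ite, mul_zero, sum_ite_eq', if_pos hz,
        mul_sum (bl 0 _), Pi.smul_apply, smul_eq_mul]
      congr 1
      · refine sum_congr rfl fun w hw => ?_
        have : eu (w - z) ≤ 64 * R := by
          have := eu_le' (x := w - z) (n := ⌈2 * R⌉₊ + ⌈32 * R⌉₊) (by
            simp only [mem_bl, Prod.fst_zero, Prod.snd_zero, Prod.fst_sub, Prod.snd_sub] at h hw ⊢; omega)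
          push_cast at this; linarith
        simp only [G₀, if_pos this]; ring
      · ring
    rw [sum_congr rfl e, ← mul_sum, sum_sub_distrib, ← sum_mul, ← sum_subset (f := fun x => u x * v x) s1
      fun x _ hx => by rw [hu x hx, zero_mul], ho, zero_mul, sub_zero]
  have e3 : nnL.En (bl 0 (⌈32 * R⌉₊ + 1)) (σ⁻¹ • u) (σ⁻¹ • v) = σ⁻¹ ^ 2 * E1 (bl 0 ⌈2 * R⌉₊) u v := by
    rw [E1_eq hu hv]
    simp only [Lat.En, mul_sum, Pi.smul_apply, smul_eq_mul]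
    exact sum_congr rfl fun e _ => by ring
  rw [e1, e2, e3, mul_left_comm, ← mul_sub, abs_mul, abs_of_pos (by positivity), inv_pow,
    inv_mul_le_iff₀ (by positivity)] at k
  exact k.trans_eq (by ring)

end V5
open V5

/-- VL -/
theorem vlStmt : VlStmt := fun p W D₀ _ => by
  obtain ⟨C, C0, H⟩ := varO
  refine ⟨C + 1000, by linarith, fun E R Y P h _ hL P' σ u v hK hu hv su sv ho => ?_⟩
  have R1 := h.maj.1
  have Y0 : 0 < Y := (rpow_pos_of_pos (by linarith) _).trans_le h.maj.2.1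
  have P0 := hK.1
  have hN : 1000 * R ≤ E.N :=
    (le_trans (by gcongr; linarith) hL).trans (by exact_mod_cast h.ed.le)
  have c : ∀ (a : ℝ) (k : ℕ), 0 ≤ a → k * (a + 1) ≤ 1000 → k * ⌈a * R⌉₊ ≤ E.N := fun a k ha hk => by
    have := (Nat.ceil_lt_add_one (show 0 ≤ a * R by positivity)).le
    have k0 : (0 : ℝ) ≤ k := k.cast_nonneg
    exact_mod_cast (by push_cast; nlinarith [mul_le_mul_of_nonneg_left this k0] :
      ((k * ⌈a * R⌉₊ : ℕ) : ℝ) ≤ E.N)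
  have c1 := c 32 24 (by norm_num) (by norm_num)
  have c2 := c 64 8 (by norm_num) (by norm_num)
  have c3 := (rg_le h.ed.toEnv).2
  rw [XX' h.ed (n := ⌈32 * R⌉₊) (by omega)
    (fun x hx => hu x fun h => hx (bl_mono 0 (Nat.ceil_mono (by linarith)) h)) hv]
  refine (H (KK E.ω') u v R (Y * P') σ R1 (by positivity) (fun x hx => ?_) hK.2 hu hv su sv ho).trans ?_
  · have : x ∈ bl 0 (E.N / 4 - 1) := bl_mono 0 (show ⌈64 * R⌉₊ ≤ _ by omega)
      (mem_bl_of_eu (by rw [sub_zero]; linarith [Nat.le_ceil (64 * R)]))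
    exact ⟨KK_swap' h.ed this, KK_neg_fst' h.ed this⟩
  · rw [← mul_assoc]; gcongr; linarith

end Crest.Agent.T145.Ev
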