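import Crest.Agent.T145.FlDef_82
import Crest.Agent.T145.Route_51
import Crest.Agent.T145.Soft_23
import Crest.Agent.T145.CE_56
import Crest.Agent.T145.Loc_51

/-!
# Row 145, odd flow, CC (helper87): two odd invariant insertions against an odd charge
-/

set_option autoImplicit false

namespace Crest.Agent.T145.Fl

open Finset Pot Xi Real

namespace Cc87

/-! ## charges -/

theorem pr_shift {U : Finset Pt} {f : Pt → ℝ} (hf : Pot.Sup U f) {s s' : Cfg Pt} {h : ℤ}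
    (e : ∀ x ∈ U, s' x = s x + h) : pr f s' = pr f s + (∑ x ∈ U, f x) * h := by
  rw [pr_of_fsupp f s' hf, pr_of_fsupp f s hf, sum_mul, ← sum_add_distrib]
  exact sum_congr rfl fun x hx => by rw [e x hx]; push_cast; ring

theorem depG_cp {U : Finset Pt} {f : Pt → ℝ} {q : ℤ} (h : Chq U f q) (φ : ℝ) : DepG U (cp f φ) :=
  fun s s' k e => by
    rw [cp, cp, pr_shift h.1 e, h.2, ← cos_add_int_mul_two_pi _ (q * k)]
    congr 1; push_cast; ring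

theorem out_pr {B : Finset Pt} {f : Pt → ℝ} (hf : ∀ y ∈ B, f y = 0) : Out B fun s => pr f s :=
  fun s s' e => by
    have : pr f (s - s') = 0 := by
      rw [pr_eq_sum]
      refine sum_eq_zero fun x _ => ?_
      by_cases hx : x ∈ B
      · rw [hf x hx, zero_mul]
      · rw [Finsupp.sub_apply, e x hx, sub_self, Int.cast_zero, mul_zero]
    rwa [map_sub, sub_eq_zero] at this

theorem out_cp {B : Finset Pt} {f : Pt → ℝ} (hf : ∀ y ∈ B, f y = 0) (φ : ℝ) : Out B (cp f φ) :=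
  (out_pr hf).comp fun t => cos (2 * π * t + φ)

theorem abs_cp_le (f : Pt → ℝ) (φ : ℝ) (s : Cfg Pt) : |cp f φ s| ≤ 1 := abs_cos_le_one _

theorem tame_cp (f : Pt → ℝ) (φ : ℝ) : Tame (cp f φ) := Tame.bdd (abs_cp_le f φ)

theorem Sn_eq (ρ : ℝ) : Sn ρ = cp (xi ρ) (-(π / 2)) := funext fun s => by
  rw [Sn, cp, ← sub_eq_add_neg, cos_sub_pi_div_two]

theorem abs_Sn_le (ρ : ℝ) (s : Cfg Pt) : |Sn ρ s| ≤ 1 := abs_sin_le_one _

theorem chq_xi {ρ : ℝ} {n : ℕ} (h : 0 < ρ) (hn : 2 * ρ ≤ n) : Chq (bl 0 n) (xi ρ) 1 :=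
  ⟨sup_xi h hn, by rw [sum_xi h hn, Int.cast_one]⟩

theorem ins_Sn {ρ : ℝ} {n : ℕ} (h : 0 < ρ) (hn : 2 * ρ ≤ n) : Ins 0 n (Sn ρ) :=
  ⟨Sn_eq ρ ▸ depG_cp (chq_xi h hn) _, Tame.bdd (abs_Sn_le ρ)⟩

theorem odd_Sn (ρ : ℝ) : OddF (Sn ρ) := fun s => by
  simp only [Sn, map_neg, mul_neg, sin_neg]

theorem d4_Sn (ρ : ℝ) : D4 0 (Sn ρ) := by
  have := d4_pr (xi_swap ρ) (xi_neg_fst ρ) 0 fun t => sin (2 * π * t)
  simp only [sub_zero] at this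
  exact this

theorem trl_Sn (z : Pt) (ρ : ℝ) (s : Cfg Pt) :
    trl z (Sn ρ) s = sin (2 * π * pr (fun x => xi ρ (x - z)) s) := by
  simp only [trl, Sn, pr_mapH, Equiv.subRight_apply]

/-- an integer multiple of `ξ_R` plus a flow is an integer charge -/
theorem chq_add {R e : ℝ} {N : ℕ} {f : Pt → ℝ} (hR : 0 < R) (hN : 2 * R ≤ N) (q : ℤ)
    (hf : F2 (nnL.edI (bl 0 N)) f e) : Chq (bl 0 N) ((q : ℝ) • xi R + f) q := by
  have hE : ∀ e ∈ nnL.edI (bl 0 N), e.1 ∈ bl 0 N ∧ e.2 ∈ bl 0 N := fun _ he => (Lat.mem_edI.1 he).2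
  refine ⟨fun x hx => ?_, ?_⟩
  · simp only [Pi.add_apply, Pi.smul_apply, sup_xi hR hN x hx, hf.sup hE x hx, smul_zero, add_zero]
  · simp only [Pi.add_apply, Pi.smul_apply, smul_eq_mul, sum_add_distrib, ← mul_sum, sum_xi hR hN,
      hf.neutral hE, mul_one, add_zero]

theorem Ins.mono' {z : Pt} {a b : ℕ} {F : Cfg Pt → ℝ} (h : Ins z a F) (hab : a ≤ b) : Ins z b F :=
  ⟨h.1.mono (bl_mono z hab), h.2⟩

theorem Ins.sub' {z : Pt} {a : ℕ} {F G : Cfg Pt → ℝ} (h : Ins z a F) (h' : Ins z a G) (c : ℝ) :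
    Ins z a fun s => F s - c * G s :=
  ⟨h.1.sub (h'.1.comp fun t => c * t), h.2.sub (h'.2.const_mul c)⟩

/-! ## two insertions -/

theorem two (hS : SemiStmt) (hP : ProdStmt) {p : Par} {Λ : Lat} {L : ℕ} (hG : Gs p Λ L) {m : Mdl Pt}
    {U : Finset Pt} (hm : Nc.Amb Λ m U) {z : Pt} {b : ℕ} (h0 : p.r₀ ≤ b) (hL : p.w * b ≤ L)
    (hU : bl 0 (p.w * b) ⊆ U) (hU' : bl z (p.w * b) ⊆ U)
    (hd : Disjoint (bl 0 (p.w * b)) (bl z (p.w * b))) {F G B : Cfg Pt → ℝ} (hF : Ins 0 b F)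
    (hG' : Ins 0 b G) (hB : Out (bl 0 b) B) (hB' : Out (bl z b) B) (h1 : ∀ s, |B s| ≤ 1) :
    |Ex (m.W 0) fun s => F s * trl z G s * B s| ≤ 16 * (nu Λ p.w 0 b F * nu Λ p.w 0 b G) := by
  have hb : b + 2 * Λ.rg ≤ p.w * b := by
    have := hG.gd.2.1
    have := Nat.mul_le_mul_right b hG.w4
    omega
  obtain ⟨hz, hn, -⟩ := (hS Λ p.w b z hG.mem.ok hb).2 G hG'
  have := (hP p Λ L hG m U Bool univ (fun i => cond i 0 z) (fun _ => b) (fun i => cond i F (trl z G)) B hm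
    ⟨by simp, fun i _ => by cases i; exacts [hz, hF], fun _ _ => ⟨h0, hL⟩,
      fun i _ => by cases i; exacts [hU', hU],
      fun i _ j _ hij => by
        cases i <;> cases j
        exacts [absurd rfl hij, hd.symm, hd, absurd rfl hij]⟩
    (fun i _ => by cases i; exacts [hB', hB]) h1).1
  simpa only [Fintype.prod_bool, cond_true, cond_false, hn] using this

/-! ## the main term -/

theorem trig (x y u : ℝ) : sin x * sin y * cos u =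
    (1 / 4) * (cos (x - y + u) + cos (-x + y + u) - cos (x + y + u) - cos (-x - y + u)) := by
  simp only [cos_add, cos_sub, sin_add, sin_sub, cos_neg, sin_neg]; ring

theorem four_congr {a b c d a' b' c' d' : ℝ} (h1 : a = a') (h2 : b = b') (h3 : c = c') (h4 : d = d') :
    (1 / 4) * (cos a + cos b - cos c - cos d) = (1 / 4) * (cos a' + cos b' - cos c' - cos d') := by
  rw [h1, h2, h3, h4]

theorem four_le {a b c d D : ℝ} (h1 : |a| ≤ D) (h2 : |b| ≤ D) (h3 : |c| ≤ D) (h4 : |d| ≤ D) :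
    |(1 / 4) * (a + b - c - d)| ≤ D := by
  rw [abs_le] at h1 h2 h3 h4 ⊢
  constructor <;> linarith [h1.1, h1.2, h2.1, h2.2, h3.1, h3.2, h4.1, h4.2]

theorem main {ω : (Cfg Pt → ℝ) → ℝ} {Λ : Lat} {m : Mdl Pt} {N : ℕ} (hm : Rep Λ ω m 0 N)
    {R ρ e A D φ : ℝ} {z : Pt} {ζ : Pt → ℝ} (hR : 0 < R) (hN : 2 * R ≤ N)
    (h1 : F2 (nnL.edI (bl 0 N)) (xi ρ - xi R) e)
    (h2 : F2 (nnL.edI (bl 0 N)) ((fun y => xi ρ (y - z)) - xi R) e)
    (h3 : F2 (nnL.edI (bl 0 N)) (ζ - xi R) A)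
    (hD : ∀ q : ℤ, q ≠ 0 → |q| ≤ 3 → ∀ f, F2 (nnL.edI (bl 0 N)) f (8 * e + 2 * A) →
      |ω (cp ((q : ℝ) • xi R + f) φ)| ≤ D) :
    |Ex (m.W 0) fun s => Sn ρ s * trl z (Sn ρ) s * cp ζ φ s| ≤ D := by
  have hc := hm.1.ctr.cen hm.1.anch
  set a := xi ρ - xi R with ha
  set b := (fun y => xi ρ (y - z)) - xi R with hb
  set c := ζ - xi R with hc'
  have key : ∀ q : ℤ, q ≠ 0 → |q| ≤ 3 → ∀ f, F2 (nnL.edI (bl 0 N)) f (2 * (2 * (e + e) + A)) →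
      |Ex (m.W 0) (cp ((q : ℝ) • xi R + f) φ)| ≤ D := fun q h0 hq f hf => by
    rw [← hm.2 _ (depG_cp (chq_add hR hN q hf) φ)]
    exact hD q h0 hq f (hf.mono (by linarith))
  have k1 := key 1 (by decide) (by decide) _ ((h1.sub h2).add h3)
  have k2 := key 1 (by decide) (by decide) _ ((h1.neg.add h2).add h3)
  have k3 := key 3 (by decide) (by decide) _ ((h1.add h2).add h3)
  have k4 := key (-1) (by decide) (by decide) _ ((h1.neg.sub h2).add h3)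
  have e1 : (fun s => Sn ρ s * trl z (Sn ρ) s * cp ζ φ s) = fun s => (1 / 4) *
      (cp (((1 : ℤ) : ℝ) • xi R + (a - b + c)) φ s + cp (((1 : ℤ) : ℝ) • xi R + (-a + b + c)) φ s -
        cp (((3 : ℤ) : ℝ) • xi R + (a + b + c)) φ s - cp (((-1 : ℤ) : ℝ) • xi R + (-a - b + c)) φ s) := by
    funext s
    rw [trl_Sn, Sn, cp, trig]
    simp only [cp, ha, hb, hc', pr_add, pr_sub, pr_neg, pr_smul, AddMonoidHom.add_apply,
      AddMonoidHom.sub_apply, AddMonoidHom.neg_apply, AddMonoidHom.smul_apply, smul_eq_mul]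
    refine four_congr ?_ ?_ ?_ ?_ <;> push_cast <;> ring
  rw [e1, Ex_const_mul, Ex_sub (hc.ig (((tame_cp _ _).add (tame_cp _ _)).sub (tame_cp _ _)))
    (hc.ig (tame_cp _ _)), Ex_sub (hc.ig ((tame_cp _ _).add (tame_cp _ _))) (hc.ig (tame_cp _ _)),
    Ex_add (hc.ig (tame_cp _ _)) (hc.ig (tame_cp _ _))]
  exact four_le k1 k2 k3 k4

theorem split {W : Cfg Pt → ℝ} (hc : Cen W) {F G S B : Cfg Pt → ℝ} (z : Pt) (α β : ℝ) (hF : Tame F)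
    (hG : Tame G) (hS : Tame S) (hB : Tame B) :
    Ex W (fun s => F s * trl z G s * B s) = α * β * Ex W (fun s => S s * trl z S s * B s) +
      Ex W (fun s => (F s - α * S s) * trl z G s * B s) +
      α * Ex W fun s => S s * trl z (fun t => G t - β * S t) s * B s := by
  have t1 : Tame fun s => S s * trl z S s * B s := (hS.mul (hS.comp _)).mul hB
  have t2 : Tame fun s => (F s - α * S s) * trl z G s * B s :=
    ((hF.sub (hS.const_mul α)).mul (hG.comp _)).mul hB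
  have t3 : Tame fun s => S s * trl z (fun t => G t - β * S t) s * B s :=
    (hS.mul ((hG.sub (hS.const_mul β)).comp _)).mul hB
  rw [← Ex_const_mul, ← Ex_const_mul, ← Ex_add (hc.ig (t1.const_mul _)) (hc.ig t2),
    ← Ex_add (hc.ig ((t1.const_mul _).add t2)) (hc.ig (t3.const_mul _))]
  congr 1; funext s; simp only [trl]; ring

/-! ## numerics -/

theorem ew_pos {w : ℕ} (h : 4 ≤ w) : 0 < ew w ∧ ew w ≤ 1 / 80 := by
  have hw : (4 : ℝ) ≤ w := by exact_mod_cast h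
  have h2 : (2 : ℝ) ≤ 4 * (w : ℝ) ^ 4 := by
    have : (1 : ℝ) ≤ (w : ℝ) ^ 4 := one_le_pow₀ (by linarith)
    linarith
  have l2 : 0 < log 2 := log_pos one_lt_two
  have l3 : log 2 ≤ log (4 * (w : ℝ) ^ 4) := log_le_log two_pos h2
  have : cw w ≤ 1 := (div_le_one (l2.trans_le l3)).2 l3
  have : 0 < cw w := div_pos l2 (l2.trans_le l3)
  rw [ew]; constructor <;> linarith

theorem cross {W l x t c : ℝ} (hW : 1 ≤ W) (hl : 1 ≤ l) (h1 : 1 ≤ l * (W * x)) (hx : 0 ≤ x)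
    (ht : 0 ≤ t) (hxt : x ≤ t ^ 40) (hc : c ≤ -(167 / 40)) : l ^ c ≤ W ^ 5 * x ^ 4 * t ^ 7 := by
  have l0 : 0 < l := by linarith
  calc l ^ c ≤ l ^ (-(167 / 40 : ℝ)) := rpow_le_rpow_of_exponent_le hl hc
    _ = l⁻¹ ^ (167 / 40 : ℝ) := by rw [rpow_neg l0.le, inv_rpow l0.le]
    _ ≤ (W * x) ^ (167 / 40 : ℝ) :=
        rpow_le_rpow (by positivity) (by rw [inv_le_iff_one_le_mul₀' l0]; exact h1) (by norm_num)
    _ = W ^ (167 / 40 : ℝ) * (x ^ 4 * x ^ (7 / 40 : ℝ)) := by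
        rw [mul_rpow (by linarith) hx, ← rpow_natCast x 4, ← rpow_add' hx (by norm_num)]; norm_num
    _ ≤ W ^ 5 * (x ^ 4 * t ^ 7) := by
        have a1 : W ^ (167 / 40 : ℝ) ≤ W ^ 5 := by
          rw [← rpow_natCast W 5]; exact rpow_le_rpow_of_exponent_le hW (by norm_num)
        have a2 : x ^ (7 / 40 : ℝ) ≤ t ^ 7 := by
          refine (rpow_le_rpow hx hxt (by norm_num)).trans_eq ?_
          rw [← rpow_natCast_mul ht, ← rpow_natCast t 7]; norm_num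
        gcongr
    _ = _ := by ring

theorem mainN {l x t y : ℝ} {k : ℕ} (hl : 0 ≤ l) (h1 : l * x ≤ 1) (ht : 0 < t) (hxt : t ^ 41 ≤ x)
    (hy : y ≤ t ^ (253 + 42 * k)) : l * l * (y * (4 / t ^ 42) ^ k) ≤ 4 ^ k * x ^ 4 * t ^ 7 := by
  have hx : 0 ≤ x := (pow_nonneg ht.le _).trans hxt
  calc l * l * (y * (4 / t ^ 42) ^ k) ≤ l * l * (t ^ (253 + 42 * k) * (4 / t ^ 42) ^ k) := by gcongr
    _ = 4 ^ k * (l * l * (t ^ 41) ^ 6) * t ^ 7 := by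
        rw [pow_add, pow_mul, div_pow]; field_simp
    _ ≤ 4 ^ k * (l * l * x ^ 6) * t ^ 7 := by gcongr
    _ = 4 ^ k * ((l * x) ^ 2 * x ^ 4) * t ^ 7 := by ring
    _ ≤ 4 ^ k * (1 ^ 2 * x ^ 4) * t ^ 7 := by gcongr
    _ = _ := by ring

theorem exp_le {a b A M : ℝ} (hM : 1 ≤ M) :
    exp (a * (8 * (b * (1 + log M)) + 2 * A)) ≤ exp (a * (8 * b + 2 * A)) * M ^ ⌈8 * a * b⌉₊ := by
  rw [← exp_log (show 0 < M ^ ⌈8 * a * b⌉₊ by positivity), ← exp_add, log_pow]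
  refine exp_le_exp.2 ?_
  nlinarith [mul_le_mul_of_nonneg_right (Nat.le_ceil (8 * a * b)) (log_nonneg hM)]

theorem prep {R Y e c κ : ℝ} {k : ℕ} (R1 : 1 ≤ R) (e1 : e ≤ 1 / 80) (h : R ^ (-e) ≤ Y) (hc : 4 ≤ c)
    (hY : c * Y ≤ 1) (κ0 : 0 < κ) (κ1 : κ ≤ 1 / (2 * (253 + 42 * k))) :
    ∃ t, 0 < t ∧ t ≤ 1 ∧ Y ^ (41 * κ) = t ^ 41 ∧ Y ^ (40 * κ) = t ^ 40 ∧ Y ^ (7 * κ) = t ^ 7 ∧
      Y ^ (-κ) = t⁻¹ ∧ c ≤ R * t ^ 41 ∧ √Y ≤ t ^ (253 + 42 * k) ∧ 0 < Y ∧ Y ≤ 1 := by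
  have R0 : 0 < R := by linarith
  have Y0 : 0 < Y := (rpow_pos_of_pos R0 _).trans_le h
  have Y1 : Y ≤ 1 := by nlinarith
  have RY : 1 ≤ R * Y ^ 2 := by
    have : R⁻¹ ≤ Y ^ 2 := calc
      R⁻¹ = R ^ (-1 : ℝ) := (rpow_neg_one R).symm
      _ ≤ R ^ (-e * (2 : ℕ)) := rpow_le_rpow_of_exponent_le R1 (by push_cast; linarith)
      _ = (R ^ (-e)) ^ 2 := rpow_mul_natCast R0.le _ _
      _ ≤ Y ^ 2 := by gcongr
    rwa [inv_le_iff_one_le_mul₀' R0] at this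
  have RY' : c ≤ R * Y := by
    refine le_of_mul_le_mul_right ?_ Y0
    nlinarith
  have k0 : (0 : ℝ) ≤ k := Nat.cast_nonneg _
  have κ2 : κ * (253 + 42 * k) ≤ 1 / 2 := by
    rw [le_div_iff₀ (by positivity)] at κ1; linarith
  have pw : ∀ j : ℕ, Y ^ ((j : ℝ) * κ) = (Y ^ κ) ^ j := fun j => by
    rw [mul_comm, rpow_mul_natCast Y0.le]
  have p41 := pw 41
  have p40 := pw 40
  have p7 := pw 7
  have pk := pw (253 + 42 * k)
  push_cast at p41 p40 p7 pk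
  have tY : Y ≤ (Y ^ κ) ^ 41 := by
    rw [← p41]
    exact (rpow_one Y).symm.trans_le (rpow_le_rpow_of_exponent_ge Y0 Y1 (by nlinarith))
  refine ⟨Y ^ κ, rpow_pos_of_pos Y0 _, rpow_le_one Y0.le Y1 κ0.le, p41, p40, p7, rpow_neg Y0.le _,
    RY'.trans (by gcongr), ?_, Y0, Y1⟩
  rw [← pk, sqrt_eq_rpow]
  exact rpow_le_rpow_of_exponent_ge Y0 Y1 (by linarith)

theorem scale {W a ρ : ℕ} (hW : 2 ≤ W) (a0 : 0 < a) (h : a ≤ ρ) : ∃ j : ℕ, W ^ j * a ≤ ρ ∧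
    (W : ℝ) ^ j * (a / ρ) ≤ 1 ∧ 1 ≤ (W : ℝ) ^ j * (W * (a / ρ)) := by
  have ρ0 : (0 : ℝ) < ρ := by exact_mod_cast a0.trans_le h
  have h1 := (Nat.le_div_iff_mul_le a0).1 (Nat.pow_log_le_self W (Nat.div_pos h a0).ne')
  have h2 := (Nat.div_lt_iff_lt_mul a0).1 (Nat.lt_pow_succ_log_self (show 1 < W by omega) (ρ / a))
  refine ⟨_, h1, ?_, ?_⟩
  · rw [← mul_div_assoc, div_le_one ρ0]; exact_mod_cast h1
  · rw [← mul_assoc, ← pow_succ, ← mul_div_assoc, one_le_div ρ0]; exact_mod_cast h2.le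

theorem fin {W l x t y e E C α β nF nG nS u₀ u₁ u₂ f' g g' s : ℝ} {k : ℕ} (W1 : 1 ≤ W) (l1 : 1 ≤ l)
    (lx : l * x ≤ 1) (lx' : 1 ≤ l * (W * x)) (t0 : 0 < t) (x1 : x ≤ t ^ 40) (x2 : t ^ 41 ≤ x)
    (hy : y ≤ t ^ (253 + 42 * k)) (e1 : e ≤ 1 / 80) (E0 : 0 ≤ E)
    (hC : 4 * E * 4 ^ k + 144 * W ^ 5 ≤ C) (nF0 : 0 ≤ nF) (nG0 : 0 ≤ nG) (nS1 : nS ≤ 1)
    (hα : |α| ≤ 2 * l ^ e * nF) (hβ : |β| ≤ 2 * l ^ e * nG) (hf : f' ≤ 3 * l ^ (-(11 / 5) : ℝ) * nF)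
    (g0 : 0 ≤ g) (hg : g ≤ l ^ (-2 + e) * nG) (g0' : 0 ≤ g') (hg' : g' ≤ 3 * l ^ (-(11 / 5) : ℝ) * nG)
    (hs : s ≤ l ^ (-2 + e) * nS) (h0 : |u₀| ≤ E * (y * (4 / t ^ 42) ^ k)) (h1 : |u₁| ≤ 16 * (f' * g))
    (h2 : |u₂| ≤ 16 * (s * g')) : |α * β * u₀ + u₁ + α * u₂| ≤ C * nF * nG * x ^ 4 * t ^ 7 := by
  have x0 : 0 ≤ x := (pow_nonneg t0.le _).trans x2
  have l0 : 0 < l := by linarith
  have le : l ^ e ≤ l := (rpow_le_rpow_of_exponent_le l1 (by linarith)).trans_eq (rpow_one l)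
  have d1 := cross W1 l1 lx' x0 t0.le x1 (c := -(11 / 5) + (-2 + e)) (by linarith)
  have d2 := cross W1 l1 lx' x0 t0.le x1 (c := e + ((-2 + e) + -(11 / 5))) (by linarith)
  have d0 := mainN l0.le lx t0 x2 hy
  rw [rpow_add l0] at d1
  rw [rpow_add l0, rpow_add l0] at d2
  have hs' := hs.trans (mul_le_of_le_one_right (by positivity) nS1)
  refine ((abs_add_le _ _).trans (add_le_add (abs_add_le _ _) le_rfl)).trans ?_
  rw [abs_mul, abs_mul, abs_mul]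
  calc _ ≤ (2 * l * nF) * (2 * l * nG) * (E * (y * (4 / t ^ 42) ^ k)) +
        16 * ((3 * l ^ (-(11 / 5) : ℝ) * nF) * (l ^ (-2 + e) * nG)) +
        (2 * l ^ e * nF) * (16 * (l ^ (-2 + e) * (3 * l ^ (-(11 / 5) : ℝ) * nG))) := by
        refine add_le_add (add_le_add ?_ (h1.trans ?_)) (mul_le_mul hα (h2.trans ?_) (abs_nonneg _)
          (by positivity))
        · have a1 := hα.trans (show _ ≤ 2 * l * nF by gcongr)
          have a2 := hβ.trans (show _ ≤ 2 * l * nG by gcongr)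
          gcongr
        · gcongr
        · gcongr
    _ = nF * nG * (4 * E * (l * l * (y * (4 / t ^ 42) ^ k)) +
        48 * (l ^ (-(11 / 5) : ℝ) * l ^ (-2 + e)) +
        96 * (l ^ e * (l ^ (-2 + e) * l ^ (-(11 / 5) : ℝ)))) := by ring
    _ ≤ nF * nG * (4 * E * (4 ^ k * x ^ 4 * t ^ 7) +
        48 * (W ^ 5 * x ^ 4 * t ^ 7) + 96 * (W ^ 5 * x ^ 4 * t ^ 7)) := by gcongr
    _ = (4 * E * 4 ^ k + 144 * W ^ 5) * (nF * nG * x ^ 4 * t ^ 7) := by ring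
    _ ≤ C * (nF * nG * x ^ 4 * t ^ 7) := by gcongr
    _ = _ := by ring

theorem Gs.two_rg {p : Par} {Λ : Lat} {L b : ℕ} (h : Gs p Λ L) (hb : p.r₀ ≤ b) :
    b + 2 * Λ.rg ≤ p.w * b := by
  have := h.gd.2.1
  have := Nat.mul_le_mul_right b h.w4
  omega

end Cc87

open Cc87 in
/-- CC -/
theorem ccStmt (hS : SemiStmt) (hP : ProdStmt) (hC : CmStmt) (hX : XfStmt) : CcStmt := by
  intro p W A hW
  obtain ⟨Cm, hCm, hC⟩ := hC p
  obtain ⟨Cx, -, hX, -⟩ := hX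
  obtain ⟨k, hk⟩ : ∃ k, k = ⌈8 * Cm * Cx⌉₊ := ⟨_, rfl⟩
  obtain ⟨E, hE⟩ : ∃ E, E = Cm * exp (Cm * (8 * Cx + 2 * A)) := ⟨_, rfl⟩
  have E0 : 0 ≤ E := by rw [hE]; positivity
  refine ⟨1 / (2 * (253 + 42 * k)), by positivity, fun κ κ0 κ1 => ?_⟩
  obtain ⟨C, C4, Cm', Cw, CX⟩ : ∃ C : ℝ, 4 ≤ C ∧ Cm ≤ C ∧ p.w ≤ C ∧ 4 * E * 4 ^ k + 144 * W ^ 5 ≤ C :=
    ⟨max (max 4 Cm) (max p.w (4 * E * 4 ^ k + 144 * W ^ 5)), by simp, by simp, by simp, by simp⟩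
  refine ⟨C, by linarith, ?_⟩
  intro Λ ω r₁ L N hE' hPur R Y hM hCY hCR hg z ρ a n φ ζ F G ha0 ha1 haR haρ hρR hzR hd hzn hnN hRn hzn' hF hFo
    hF4 hG hGo hG4 hζ0 hζz hζ hζA
  have hGs := hE'.toGs
  have e1 := (ew_pos hGs.w4).2
  have R1 := hM.1
  have R0 : 0 < R := by linarith
  obtain ⟨t, t0, t1, p41, p40, p7, pn, hR, sY, Y0, Y1⟩ := prep R1 e1 hM.2.1 C4 hCY κ0 κ1
  rw [p41] at haR
  rw [p40] at haρ
  rw [pn] at hzR
  rw [p7]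
  have a4 : (4 : ℝ) ≤ a := C4.trans (hR.trans haR)
  have aρ : (a : ℝ) ≤ ρ := haρ.trans (mul_le_of_le_one_right (Nat.cast_nonneg _) (pow_le_one₀ t0.le t1))
  have a0 : (0 : ℝ) < a := by linarith
  have ρ0 : (0 : ℝ) < ρ := by linarith
  have aρ' : a ≤ ρ := by exact_mod_cast aρ
  obtain ⟨j, hj, lx, lx'⟩ := scale hW (by exact_mod_cast a0) aρ'
  have hab : a ≤ W ^ j * a := Nat.le_mul_of_pos_left _ (by positivity)
  have wρ : p.w * ρ ≤ L := by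
    have : (p.w : ℝ) * ρ ≤ L := (mul_le_mul Cw hρR ρ0.le (by linarith)).trans hCR
    exact_mod_cast this
  have wb : p.w * (W ^ j * a) ≤ p.w * ρ := Nat.mul_le_mul_left _ hj
  have bL : p.w * (W ^ j * a) ≤ L := wb.trans wρ
  have ρw : a ≤ p.w * ρ := aρ'.trans (Nat.le_mul_of_pos_left _ (by have := hGs.w4; omega))
  have nN : bl (0 : Pt) n ⊆ bl 0 N := bl_mono _ hnN
  have Rn : 2 * R ≤ n := by linarith
  have RN : 2 * R ≤ N := Rn.trans (by exact_mod_cast hnN)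
  obtain ⟨m, hm⟩ := hE'.amb 0
  have hζq : Chq (bl 0 n) ζ 1 := ⟨hζ, by
    have := hζA.neutral fun _ he => (Lat.mem_edI.1 he).2
    simp only [Pi.sub_apply, sum_sub_distrib, sum_xi R0 Rn] at this
    push_cast; linarith⟩
  have hzG := ((hS Λ p.w a z hGs.mem.ok (Gs.two_rg hGs ha0)).2 G hG).1
  rw [hm.2 _ (((hF.1.mono (bl_mono _ (ρw.trans (wρ.trans hE'.le)))).mul (hzG.1.mono
    ((bl_mono _ ρw).trans (hzn.trans nN)))).mul ((depG_cp hζq φ).mono nN))]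
  -- purification
  have hS0 : Ins 0 a (Sn (a / 4)) := ins_Sn (by linarith) (by linarith)
  obtain ⟨α, hα, hF', -⟩ := hPur a j F ha0 ha1 bL hF hFo hF4
  obtain ⟨β, hβ, hG', hGb⟩ := hPur a j G ha0 ha1 bL hG hGo hG4
  obtain ⟨-, -, -, hSb⟩ := hPur a j _ ha0 ha1 bL hS0 (odd_Sn _) (d4_Sn _)
  have sem := (hS Λ p.w a 0 hGs.mem.ok (Gs.two_rg hGs ha0)).1
  have semb := (hS Λ p.w _ 0 hGs.mem.ok (Gs.two_rg hGs (ha0.trans hab))).1
  have W1 : (1 : ℝ) ≤ W := by exact_mod_cast (by omega : 1 ≤ W)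
  have pl : ∀ c : ℝ, (W : ℝ) ^ (c * j) = ((W : ℝ) ^ j) ^ c := fun c => by
    rw [mul_comm, rpow_natCast_mul (Nat.cast_nonneg W)]
  rw [pl] at hα hβ hF' hG' hGb hSb
  have x1 : (a : ℝ) / ρ ≤ t ^ 40 := (div_le_iff₀' ρ0).2 haρ
  have x2 : t ^ 41 ≤ (a : ℝ) / ρ :=
    (le_div_iff₀' ρ0).2 ((mul_le_mul_of_nonneg_right hρR (pow_nonneg t0.le _)).trans haR)
  have two' := fun F G hF hG => two hS hP hGs hm.1 (ha0.trans hab) bL (bl_mono _ (bL.trans hE'.le))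
    ((bl_mono _ wb).trans (hzn.trans nN)) (hd.mono (bl_mono _ wb) (bl_mono _ wb)) (F := F) (G := G) hF hG
    ((out_cp hζ0 φ).mono (bl_mono _ hj)) ((out_cp hζz φ).mono (bl_mono _ hj)) (abs_cp_le ζ φ)
  -- the main term
  have M1 : 1 ≤ 4 / t ^ 42 :=
    (one_le_div (pow_pos t0 _)).2 ((pow_le_one₀ t0.le t1).trans (by norm_num))
  have hT : max R (eu z) ≤ R * t⁻¹ :=
    max_le (le_mul_of_one_le_right R0.le ((one_le_inv₀ t0).2 t1)) hzR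
  have hT1 : max R (eu z) ≤ 4 / t ^ 42 * (a / 4) := hT.trans (by
    rw [show 4 / t ^ 42 * ((a : ℝ) / 4) = a / t ^ 42 by ring, le_div_iff₀ (pow_pos t0 _)]
    exact le_of_eq_of_le (by field_simp) haR)
  have aR : (a : ℝ) / 4 ≤ R := by linarith
  have hXz := fun z' hz' => (hX (4 / t ^ 42) (max R (eu z)) (a / 4) R z' n (by linarith) R1
    (aR.trans (le_max_left _ _)) (le_max_left _ _) hz' hT1
    (hT1.trans (mul_le_mul_of_nonneg_left aR (zero_le_one.trans M1)))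
    (by rw [mul_max_of_nonneg _ _ (by norm_num : (0 : ℝ) ≤ 8)]; exact max_le hRn hzn')).subset
    (Lat.edI_mono nN)
  have h1 := hXz 0 (by rw [eu_zero]; exact R0.le.trans (le_max_left _ _))
  simp only [sub_zero] at h1
  have hCR' : Cm ≤ R := Cm'.trans (hR.trans (mul_le_of_le_one_right R0.le (pow_le_one₀ t0.le t1)))
  have c0 := main (φ := φ) hm R0 RN h1 (hXz z (le_max_right _ _)) (hζA.subset (Lat.edI_mono nN))
    fun q q0 q3 f hf => (hC Λ ω L N hE' R Y hM Y1 hCR'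
      ((mul_le_mul_of_nonneg_right Cm' R0.le).trans hCR) hg
      ((mul_le_mul_of_nonneg_right Cm' Y0.le).trans hCY) q q0 q3).2 0 f _ φ
      (bl_mono _ (Nat.ceil_le.2 RN)) hf
  have c0' := c0.trans (mul_le_mul_of_nonneg_left (exp_le M1) (mul_nonneg hCm (sqrt_nonneg Y)))
  rw [split (hm.1.ctr.cen hm.1.anch) z α β hF.2 hG.2 hS0.2 (tame_cp ζ φ)]
  exact fin W1 (one_le_pow₀ W1) lx lx' t0 x1 x2 sY e1 E0 CX (sem F hF).1 (sem G hG).1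
    ((sem _ hS0).2.2.2.1 1 (abs_Sn_le _)) hα hβ hF' (semb _ (Ins.mono' hG hab)).1 hGb
    (semb _ (Ins.mono' (Ins.sub' hG hS0 β) hab)).1 hG' hSb (c0'.trans_eq (by rw [hE, hk]; ring))
    (two' _ _ (Ins.mono' (Ins.sub' hF hS0 α) hab) (Ins.mono' hG hab))
    (two' _ _ (Ins.mono' hS0 hab) (Ins.mono' (Ins.sub' hG hS0 β) hab))

end Crest.Agent.T145.Fl
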