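import Crest.Agent.T145.VxB_27
import Crest.Agent.T145.FlFus_4
import Crest.Agent.T145.OmB_11
import Crest.Agent.T145.XiB_22
import Crest.Agent.T145.NcT4Def_78
import Crest.Agent.T145.Soft_23

/-!
# Row 145, twisted module: the centred inputs of Lemma B (helper27)
-/

set_option autoImplicit false

namespace Crest.Agent.T145.Vb27

open Finset Filter Pot Nc FlF4

/-- sup norm -/
def sn (x : Pt) : ℕ := max x.1.natAbs x.2.natAbs

theorem mem_bl_sn {z x : Pt} {r : ℕ} : x ∈ bl z r ↔ sn (x - z) ≤ r := by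
  rw [mem_bl, sn]; simp only [Prod.fst_sub, Prod.snd_sub]; omega

theorem sn_neg (x : Pt) : sn (-x) = sn x := by simp [sn]

theorem sn_comm (x y : Pt) : sn (x - y) = sn (y - x) := by rw [← sn_neg, neg_sub]

theorem sn_tri (x y z : Pt) : sn (x - z) ≤ sn (x - y) + sn (y - z) := by
  simp only [sn, Prod.fst_sub, Prod.snd_sub]; omega

theorem eu_le_sn (x : Pt) : eu x ≤ 2 * sn x := by
  simpa using eu_le_of_bl (z := 0) (y := x) (r := sn x) (mem_bl_sn.2 (by simp))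

theorem sn_le_eu (x : Pt) : (sn x : ℝ) ≤ eu x := by
  have a := abs_fst_le_eu x
  have b := abs_snd_le_eu x
  rw [sn, Nat.cast_max, Nat.cast_natAbs, Nat.cast_natAbs]
  push_cast
  exact max_le a b

theorem disj_bl {z w : Pt} {c c' : ℕ} (h : c + c' < sn (w - z)) : Disjoint (bl z c) (bl w c') :=
  disjoint_left.2 fun x h1 h2 => by
    rw [mem_bl_sn] at h1 h2
    have := sn_tri w x z
    rw [sn_comm w x] at this
    omega

theorem bl_sub {z w : Pt} {c c' : ℕ} (h : c + sn (z - w) ≤ c') : bl z c ⊆ bl w c' :=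
  bl_subset_bl (mem_bl_sn.2 le_rfl) h

/-- the centred input -/
structure Ci (Λ : Lat) (W : ℕ) (C c : ℝ) : Prop where
  ok : Λ.Ok
  rg : 2 * Λ.rg + 2 ≤ W
  C1 : 1 ≤ C
  c0 : 0 < c
  gam : ∀ r R, W ≤ r → W * r ≤ R → gam Λ r R ≤ 2
  f1 : ∀ z r R, W ≤ r → W * r ≤ R → nu Λ z r R (Jz z) ≤ C / ((r : ℝ) ^ 2 * Real.log r)
  dec : ∀ (r a R : ℕ) (z : Pt) (X : Cfg Pt → ℝ), 1 ≤ r → W * r ≤ a → W * a ≤ R → DepG (bl z r) X →
    In Λ z a X → ∀ m : Mdl Pt, Amb Λ m (bl z (R + Λ.rg)) →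
      (∀ R', R + Λ.rg ≤ R' →
        Nm Λ z R' (fun s => St Λ z R X s - Ex (m.W 0) X) ≤ W * ((a : ℝ) / R) ^ c * Nm Λ z a X) ∧
      ∀ (q : ℕ) (G : Cfg Pt → ℝ), W * a ≤ q → W * q ≤ R → Out (bl z R) G →
        Ig ((hole m (bl z q)).W 0) G → |Cv (m.W 0) X G| ≤ W * ((a : ℝ) / q) ^ c * Nm Λ z a X *
          Ex ((hole m (bl z q)).W 0) fun s => |G s|

theorem ci_of (hG : GdStmt) (hP : PDecStmt) {Λ : Lat} (hΛ : Λ.Crit) {W₀ : ℕ} {C : ℝ}
    (h : ∀ᶠ r : ℕ in atTop, ∀ (z : Pt) (c : ℕ), W₀ * r ≤ c →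
      Nm Λ z c (St Λ z r (Jz z)) ≤ C / ((r : ℝ) ^ 2 * Real.log r)) : ∃ W C' c, Ci Λ W C' c := by
  have ok := hΛ.1
  have h0 : 0 < Λ.tI := ok.gI_pos_iff.1 (by rw [hΛ.2.1]; positivity)
  let F : Fa := ⟨Λ.J, Λ.xy, Λ.τ, Λ.τ, ok.1, ok.2⟩
  have hF : F.Mem Λ := ⟨rfl, rfl, le_rfl, le_rfl⟩
  obtain ⟨W₁, r₀, c₁, -, hg⟩ := hG F Λ.tI 1 h0 one_pos
  obtain ⟨W₂, c, hc, hp⟩ := hP F Λ.tI h0
  obtain ⟨r₁, h1⟩ := eventually_atTop.1 h
  set W := W₀ + W₁ + W₂ + r₀ + r₁ + 2 * Λ.rg + 2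
  have w2 : (W₂ : ℝ) ≤ W := by exact_mod_cast (by omega : W₂ ≤ W)
  refine ⟨W, max C 1, c, ok, by omega, le_max_right _ _, hc, fun r R hr hR => ?_,
    fun z r R hr hR => ?_, fun r a R z X hr ha hR hX hI m hm => ?_⟩
  · have := gam_le ok ((hg Λ hF).2 le_rfl r) (by omega : r₀ ≤ r) le_rfl le_rfl
      ((Nat.mul_le_mul_right r (by omega : W₁ ≤ W)).trans hR)
    linarith
  · refine (h1 r (by omega) z R ((Nat.mul_le_mul_right r (by omega : W₀ ≤ W)).trans hR)).trans ?_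
    exact div_le_div_of_nonneg_right (le_max_left _ _)
      (mul_nonneg (sq_nonneg _) (Real.log_natCast_nonneg r))
  · have k : ∀ {x y : ℕ}, W * x ≤ y → W₂ * x ≤ y := fun h =>
      (Nat.mul_le_mul_right _ (by omega : W₂ ≤ W)).trans h
    obtain ⟨-, -, a1, a2⟩ := hp Λ hF (W₂ * R) r a R z X (Or.inr le_rfl) hr (k ha) (k hR) le_rfl hX hI m hm
    have n0 := L37.Nm_nonneg ok z a X
    refine ⟨fun R' hR' => (a1 R' hR').2.trans (by gcongr), fun q G h1 h2 h3 h4 =>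
      (a2 q G (k h1) (k h2) h3 h4).trans ?_⟩
    have : 0 ≤ Ex ((hole m (bl z q)).W 0) fun s => |G s| := by
      have hq : Λ.rg ≤ q ∧ q + Λ.rg ≤ R := by
        have : W * 1 ≤ W * r := Nat.mul_le_mul_left _ hr
        have : 1 * a ≤ W * a := Nat.mul_le_mul_right _ (by omega)
        have : 2 * q ≤ W * q := Nat.mul_le_mul_right _ (by omega)
        omega
      obtain ⟨b1, b2⟩ := hole_ca ok hq.1 hq.2 hm
      exact Ex_nonneg (b1.wt b2 0).nonneg fun s _ => abs_nonneg _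
    gcongr

theorem f2_up {ed ed' : Finset (Pt × Pt)} {f : Pt → ℝ} {n : ℝ} (hs : ed ⊆ ed') (h : F2 ed f n) :
    F2 ed' f n := by
  classical
  obtain ⟨φ, h1, h2⟩ := h
  refine ⟨fun e => if e ∈ ed then φ e else 0, ?_, ?_⟩
  · rw [h1]; funext x
    simp only [dv]
    rw [← sum_subset hs fun e _ he => by simp [he]]
    exact sum_congr rfl fun e he => by simp [he]
  · rw [← sum_subset hs fun e _ he => by simp [he]]
    exact (le_of_eq (sum_congr rfl fun e he => by simp [he])).trans h2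

theorem f2_J {Λ : Lat} (h : Λ.Ok) {z : Pt} {D : Finset Pt} (hD : bl z 1 ⊆ D) :
    F2 (Λ.edI D) (A0 (dl z)) (5 ^ 2) := by
  refine f2_up (Lat.edI_mono hD) (RJ57.f2_mono (Xi.f2_A0_bl h (z := z) (b := 0) (c := 0) (K := 1)
    (fun x hx => ?_) fun y _ x _ => ?_) (by norm_num))
  · rw [Xi.dl_apply, if_neg]; rintro rfl; exact hx (self_mem_bl _ _)
  · simp only [dif, Xi.dl_apply]; split_ifs <;> simp

theorem bd_JJ {Λ : Lat} (h : Λ.Ok) {z w : Pt} {D : Finset Pt} (hz : bl z 1 ⊆ D) (hw : bl w 1 ⊆ D) :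
    Bd Λ D (fun s => |Jz z s * Jz w s|) (cB Λ.τ 2 * 25) := by
  have := bd_pow₂ h (by norm_num) (f2_J h hz) (by norm_num) (f2_J h hw) 1 1
  refine (this.congr fun s => ?_).le (le_of_eq (by norm_num))
  rw [pow_one, pow_one, abs_mul, Xi.Jz_eq_pr, Xi.Jz_eq_pr]

theorem one_le_log {q : ℕ} (h : 4 ≤ q) : 1 ≤ Real.log q := by
  have : (4 : ℝ) ≤ q := by exact_mod_cast h
  rw [Real.le_log_iff_exp_le (by linarith)]
  linarith [Real.exp_one_lt_d9]

namespace Ci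
variable {Λ : Lat} {W : ℕ} {C c : ℝ} (h : Ci Λ W C c)
include h

theorem four : 4 ≤ W := by have := h.ok.one_le_rg; have := h.rg; omega

theorem ir {z : Pt} {q R : ℕ} (hq : W ≤ q) (hR : W * q ≤ R) : Ir Λ z q q R (Jz z) := by
  have := h.rg
  have := h.ok.one_le_rg
  have : 2 * q ≤ W * q := Nat.mul_le_mul_right _ (by omega)
  exact ⟨le_rfl, by omega, (Om.depG_Jz z).mono (bl_mono z (by omega)), In_tame h.ok _ _ (Om.tame_Jz z)⟩

theorem f1' {z : Pt} {q R : ℕ} (hq : W ≤ q) (hR : W * q ≤ R) : nu Λ z q R (Jz z) ≤ C / (q : ℝ) ^ 2 := by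
  have h4 := h.four
  have hl := one_le_log (h4.trans hq)
  have hq0 : (0 : ℝ) < q := by exact_mod_cast (by omega : 0 < q)
  refine (h.f1 z q R hq hR).trans (div_le_div_of_nonneg_left (by linarith [h.C1]) (by positivity) ?_)
  nlinarith [sq_nonneg (q : ℝ)]

/-- the norm of `J_z J_w` -/
theorem jj : ∃ C' : ℝ, 0 ≤ C' ∧ ∀ (z x : Pt) (Q R : ℕ), 2 * sn x + 1 ≤ Q → Q + Λ.rg ≤ R →
    In Λ z R (fun s => Jz z s * Jz (z + x) s) ∧
      nu Λ z Q R (fun s => Jz z s * Jz (z + x) s) ≤ C' / ((sn x : ℝ) + 1) ^ 4 := by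
  have h4 := h.four
  have hC := h.C1
  have hb := cB_pos Λ.τ 2
  refine ⟨cB Λ.τ 2 * 25 * (4 * W ^ 2 + 1) ^ 4 + 4 * C ^ 2 * (8 * W) ^ 4, by positivity,
    fun z x Q R hQ hR => ⟨In_tame h.ok _ _ ((Om.tame_Jz _).mul (Om.tame_Jz _)), ?_⟩⟩
  have e : z + x - z = x := add_sub_cancel_left z x
  rw [le_div_iff₀ (by positivity)]
  by_cases hn : sn x ≤ 4 * W ^ 2
  · have s1 : bl z 1 ⊆ bl z R := bl_mono z (by omega)
    have s2 : bl (z + x) 1 ⊆ bl z R := bl_sub (by rw [e]; omega)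
    have a := (m2_nu h.ok hR subset_rfl ((Om.depG_JJ z (z + x)).mono (union_subset s1 s2))
      (bd_JJ h.ok s1 s2) fun _ => le_rfl).2
    have b : ((sn x : ℝ) + 1) ^ 4 ≤ (4 * W ^ 2 + 1) ^ 4 :=
      pow_le_pow_left₀ (by positivity) (by exact_mod_cast Nat.succ_le_succ hn) 4
    have := mul_le_mul a b (by positivity) (by positivity)
    have : 0 ≤ 4 * C ^ 2 * (8 * (W : ℝ)) ^ 4 := by positivity
    linarith
  · set q := (sn x - 1) / (2 * W)
    have q1 : 2 * W * q ≤ sn x - 1 := Nat.mul_div_le _ _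
    have q2 : sn x - 1 < 2 * W * (q + 1) := Nat.lt_mul_div_succ _ (by omega)
    have q3 : W ≤ q := by
      by_contra hq
      have : 2 * W * (q + 1) ≤ 2 * W * W := Nat.mul_le_mul_left _ (by omega)
      have : 2 * W * W = 2 * W ^ 2 := by ring
      omega
    have q5 : q ≤ W * q := Nat.le_mul_of_pos_left _ (by omega)
    have q6 : 2 * (W * q) = 2 * W * q := by ring
    have q4 : sn x + 1 ≤ 8 * W * q := by
      have : W * 1 ≤ W * q := Nat.mul_le_mul_left _ (by omega)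
      have : 2 * W * (q + 1) = 2 * (W * q) + 2 * W := by ring
      have : 8 * W * q = 8 * (W * q) := by ring
      omega
    have a := (fus_nu (Λ := Λ) (Z := fun _ => 1) (univ : Finset Bool)
      (z := fun b => cond b z (z + x)) (q := fun _ => q) (r := fun _ => q) (c := fun _ => W * q)
      (F := fun b => cond b (Jz z) (Jz (z + x))) h.ok (y := z) (P := Q) hR hR (DepG.const _ _)
      (fun i _ j _ hij => by
        have d : Disjoint (bl z (W * q)) (bl (z + x) (W * q)) := disj_bl (by rw [e]; omega)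
        cases i <;> cases j
        exacts [absurd rfl hij, d.symm, d, absurd rfl hij])
      (fun i _ => by
        cases i
        exacts [⟨h.ir q3 le_rfl, bl_sub (by rw [cond_false, e]; omega),
          bl_sub (by rw [cond_false, e]; omega), Out.const _ _⟩,
          ⟨h.ir q3 le_rfl, bl_mono z (by omega), bl_mono z (by omega), Out.const _ _⟩])
      (K := 1) fun _ => by simp).2
    simp only [Fintype.univ_bool, mem_singleton, Bool.true_eq_false, not_false_eq_true, prod_insert,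
      cond_true, prod_singleton, cond_false, one_mul] at a
    have g := h.gam q _ q3 le_rfl
    have n1 := h.f1' (z := z) q3 le_rfl
    have n2 := h.f1' (z := z + x) q3 le_rfl
    have p1 := nu_nonneg h.ok z q (W * q) (Jz z)
    have p2 := nu_nonneg h.ok (z + x) q (W * q) (Jz (z + x))
    have hq0 : (0 : ℝ) < q := by exact_mod_cast (by omega : 0 < q)
    have b : ((sn x : ℝ) + 1) ^ 4 ≤ (8 * W * q) ^ 4 :=
      pow_le_pow_left₀ (by positivity) (by exact_mod_cast q4) 4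
    have a2 : nu Λ z Q R (fun s => Jz z s * Jz (z + x) s) ≤ 2 * (C / q ^ 2) * (2 * (C / q ^ 2)) :=
      a.trans (mul_le_mul (mul_le_mul g n1 p1 (by norm_num)) (mul_le_mul g n2 p2 (by norm_num))
        (mul_nonneg (zero_le_one.trans (one_le_gam h.ok (h.ir (z := z) q3 le_rfl).rc)) p2)
        (by positivity))
    have := mul_le_mul a2 b (by positivity) (by positivity)
    have e2 : 2 * (C / q ^ 2) * (2 * (C / q ^ 2)) * (8 * (W : ℝ) * q) ^ 4 = 4 * C ^ 2 * (8 * W) ^ 4 := by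
      field_simp; ring
    have : 0 ≤ cB Λ.τ 2 * 25 * (4 * (W : ℝ) ^ 2 + 1) ^ 4 := by positivity
    linarith

end Ci

/-- the centred kernel -/
noncomputable def kk (Λ : Lat) (R : ℕ) (x : Pt) : ℝ :=
  Ex ((Λ.D (bl 0 R)).W 0) fun s => Jz 0 s * Jz x s

theorem gJ_kk (Λ : Lat) (R l : ℕ) :
    gJ ((Λ.D (bl 0 R)).W 0) 0 l = -(1 / 4) * ∑ x ∈ bl 0 l, kk Λ R x * n2 x := by
  simp only [gJ, kk, zero_add]

theorem kk_swap {Λ : Lat} (h : Λ.Ok) (R : ℕ) (x : Pt) : kk Λ R x.swap = kk Λ R x := by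
  have e : x.swap = swpZ 0 x := by ext <;> simp [swpZ]
  rw [kk, (Om.sym_swp h 0).ex_D0 h (Om.map_bl_swp 0 R), kk]
  simp only [e, Om.Jz_swp, (Om.d4_Jz 0 _).2]

theorem kk_rot {Λ : Lat} (h : Λ.Ok) (R : ℕ) (x : Pt) : kk Λ R (-x.2, x.1) = kk Λ R x := by
  have e : ((-x.2, x.1) : Pt) = rotZ 0 x := by ext <;> simp [rotZ]
  rw [kk, (Om.sym_rot h 0).ex_D0 h (Om.map_bl_rot 0 R), kk]
  simp only [e, Om.Jz_rot, (Om.d4_Jz 0 _).1]

theorem kk_neg {Λ : Lat} (h : Λ.Ok) (R : ℕ) (x : Pt) : kk Λ R (-x.1, x.2) = kk Λ R x := by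
  rw [← kk_swap h R x]; exact kk_rot h R x.swap

theorem kk_trl {Λ : Lat} (h : Λ.Ok) (R : ℕ) (z x : Pt) :
    Ex ((Λ.D (bl z R)).W 0) (fun s => Jz z s * Jz (z + x) s) = kk Λ R x := by
  have := (Om.sym_sub Λ z).ex_D0 h (Om.map_bl_sub z z R) fun s => Jz 0 s * Jz x s
  rw [sub_self] at this
  rw [kk, this]
  have a := Om.trl_Jz z 0
  have b := Om.trl_Jz z x
  rw [zero_add] at a
  rw [add_comm] at b
  rw [← a, ← b]; rfl

namespace Ci
variable {Λ : Lat} {W : ℕ} {C c : ℝ} (h : Ci Λ W C c)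
include h

/-- size of the kernel; distance of the flowed `J_z J_w` from it -/
theorem ker : ∃ C' : ℝ, 0 ≤ C' ∧ ∀ (x : Pt) (R₀ : ℕ),
    (W * (2 * sn x + 1 + W) ≤ R₀ → |kk Λ R₀ x| ≤ C' / ((sn x : ℝ) + 1) ^ 4) ∧
    ∀ (z : Pt) (a R R' : ℕ), W * (2 * sn x + 1 + Λ.rg) ≤ a → W * a ≤ R → R + Λ.rg ≤ R₀ → R + Λ.rg ≤ R' →
      nu Λ z R R' (fun s => Jz z s * Jz (z + x) s - kk Λ R₀ x) ≤
        C' * ((a : ℝ) / R) ^ c / ((sn x : ℝ) + 1) ^ 4 := by
  obtain ⟨C', h0, hj⟩ := h.jj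
  have h4 := h.four
  have hg := h.rg
  have g1 := h.ok.one_le_rg
  have w1 : (2 : ℝ) ≤ W := by exact_mod_cast (by omega : 2 ≤ W)
  have dep : ∀ (z x : Pt) {p : ℕ}, sn x + 1 ≤ p → DepG (bl z p) fun s => Jz z s * Jz (z + x) s :=
    fun z x p hp => (Om.depG_JJ z (z + x)).mono (union_subset (bl_mono z (by omega))
      (bl_sub (by rw [add_sub_cancel_left]; omega)))
  refine ⟨W * C', by positivity, fun x R₀ => ⟨fun hR => ?_, fun z a R R' ha hR h1 h2 => ?_⟩⟩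
  · set Q := 2 * sn x + 1 + W
    have q2 : 2 * Q ≤ W * Q := Nat.mul_le_mul_right _ (by omega)
    obtain ⟨j1, j2⟩ := hj 0 x Q (W * Q) (by omega) (by omega)
    have hm := L37.amb_D h.ok (bl 0 R₀)
    have a := (fus0 h.ok subset_rfl ⟨le_rfl, by omega, dep 0 x (by omega), j1⟩
      (amb_mono hm (bl_mono 0 hR)) (bl_mono 0 (by omega : Q ≤ R₀))).2
    rw [nc_self hm.ctr hm.anch, kk_trl h.ok] at a
    refine a.trans ((mul_le_mul ((h.gam Q _ (by omega) le_rfl).trans w1) j2 (nu_nonneg h.ok _ _ _ _)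
      (by positivity)).trans (le_of_eq (by ring)))
  · set Q := 2 * sn x + 1
    have q2 : 4 * (Q + Λ.rg) ≤ W * (Q + Λ.rg) := Nat.mul_le_mul_right _ (by omega)
    have q3 : 2 * a ≤ W * a := Nat.mul_le_mul_right _ (by omega)
    obtain ⟨j1, j2⟩ := hj z x Q a le_rfl (by omega)
    have tm := (Om.tame_Jz z).mul (Om.tame_Jz (z + x))
    have hm := L37.amb_D h.ok (bl z R₀)
    have dX := depG_St h.ok (dep z x (p := Q + Λ.rg) (by omega)) le_rfl
    have iX := In_St h.ok (q := Q) (dep z x (p := a) (by omega)) (by omega) j1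
    have a1 := (h.dec (Q + Λ.rg) a R z _ (by omega) ha hR dX iX _ (amb_mono hm (bl_mono z h1))).1 R' h2
    have hQ : Amb Λ (Λ.D (bl z R₀)) (bl z Q) := amb_mono hm (bl_mono z (by omega))
    have e1 : Ex ((Λ.D (bl z R₀)).W 0) (St Λ z Q fun s => Jz z s * Jz (z + x) s) = kk Λ R₀ x := by
      rw [St_cE h.ok hQ, ex_cE hm.ctr hm.anch hQ.sub (ig_tame hm.ctr hm.anch tm), kk_trl h.ok]
    have tm' := tm.sub (Tame.const (kk Λ R₀ x))
    rw [← nu_St h.ok h2 (by omega : Q ≤ R) ((dep z x (by omega)).sub (DepG.const _ _))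
      (In_tame h.ok _ _ tm'), St_sub h.ok tm (Tame.const _), St_const h.ok]
    have ig := ((ld1 Λ h.ok).2 z Q a R _ (by omega) (by omega) dX iX).2.1
    have e2 : St Λ z R (fun s => St Λ z Q (fun s => Jz z s * Jz (z + x) s) s - kk Λ R₀ x) =
        fun s => St Λ z R (St Λ z Q fun s => Jz z s * Jz (z + x) s) s - kk Λ R₀ x :=
      funext fun s => (h.ok.wt_D _ s).ex_sub_const (ig s) _
    rw [nu, e2]
    rw [e1] at a1
    refine a1.trans ((mul_le_mul_of_nonneg_left j2 (by positivity)).trans (le_of_eq (by ring)))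

end Ci

end Crest.Agent.T145.Vb27
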