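import Crest.Agent.T145.EvX1u_11
import Crest.Agent.T145.FlCc_87
import Crest.Agent.T145.FlBare_80
import Crest.Agent.T145.VxBc_27

/-!
# Row 145, even sector: the gradient squared insertion against neutral test functions (helper27)
-/

set_option autoImplicit false
set_option linter.unusedSectionVars false

namespace Crest.Agent.T145.Ev

open Finset Pot Xi Real Fl

namespace X27

/-! ## numerics -/

theorem exp_lip {x y c : ℝ} (hx : -c ≤ x) (hy : -c ≤ y) : |exp (-x) - exp (-y)| ≤ exp c * |x - y| := by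
  have k : ∀ x y : ℝ, -c ≤ x → exp (-x) - exp (-y) ≤ exp c * |x - y| := fun x y hx => by
    have a := add_one_le_exp (x - y)
    have b : exp (-y) = exp (-x) * exp (x - y) := by rw [← exp_add]; congr 1; ring
    have d : exp (-x) ≤ exp c := exp_le_exp.2 (by linarith)
    have e := mul_le_mul_of_nonneg_left (by linarith [neg_abs_le (x - y)] : 1 - exp (x - y) ≤ |x - y|)
      (exp_pos (-x)).le
    have f := mul_le_mul_of_nonneg_right d (abs_nonneg (x - y))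
    rw [b]; linarith
  exact abs_sub_le_iff.2 ⟨k x y hx, abs_sub_comm x y ▸ k y x hy⟩

theorem cosh_tay {y Y : ℝ} (h : |y| ≤ Y) : |cosh y - 1 - y ^ 2 / 2| ≤ exp (Y ^ 2) * y ^ 4 := by
  have a : 1 + y ^ 2 / 2 ≤ cosh y := by
    have := sum_le_hasSum (range 2) (fun n _ => by rw [pow_mul]; positivity) (hasSum_cosh y)
    simpa [sum_range_succ] using this
  have b := cosh_le_exp_half_sq y
  set s := y ^ 2 / 2 with hs
  have s0 : 0 ≤ s := by positivity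
  have c : exp s - 1 ≤ s * exp s := by
    have := mul_le_mul_of_nonneg_right (add_one_le_exp (-s)) (exp_pos s).le
    rw [← exp_add, neg_add_cancel, exp_zero] at this; linarith
  have d : exp s ≤ exp (Y ^ 2) := exp_le_exp.2 (by
    have := pow_le_pow_left₀ (abs_nonneg y) h 2
    rw [sq_abs] at this; linarith)
  have e := mul_le_mul_of_nonneg_left c s0
  have f := mul_le_mul_of_nonneg_left d (sq_nonneg s)
  have g : 0 ≤ exp (Y ^ 2) * s ^ 2 := by positivity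
  rw [abs_of_nonneg (by linarith), show y ^ 4 = 4 * s ^ 2 by rw [hs]; ring]
  nlinarith

theorem phi {κ E e₀ η : ℝ} (k0 : 0 ≤ κ) (k1 : κ ≤ 20) (E0 : 0 ≤ E) (h : |E - 2 * e₀| ≤ η) (η1 : η ≤ 1) :
    exp (-(κ * E)) ≤ 1 ∧ exp (-(κ * (2 * e₀))) ≤ exp 20 ∧
      |exp (-(κ * E)) - exp (-(κ * (2 * e₀)))| ≤ 20 * exp 20 * η := by
  have a := mul_nonneg k0 E0
  have b : -20 ≤ κ * (2 * e₀) := by nlinarith [(abs_le.1 h).2]
  refine ⟨exp_le_one_iff.2 (by linarith), exp_le_exp.2 (by linarith),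
    (exp_lip (by linarith) b).trans ?_⟩
  rw [← mul_sub, abs_mul, abs_of_nonneg k0, mul_comm 20, mul_assoc]
  exact mul_le_mul_of_nonneg_left (mul_le_mul k1 h (abs_nonneg _) (by norm_num)) (exp_pos _).le

/-- the universal constant -/
noncomputable def KK (c : ℝ) : ℝ := 10 ^ 9 * (exp 20 + exp ((40 * (c + 1)) ^ 2)) * (c + 1)

theorem numA {c1 c2 c3 κ E Ev B d t e₀ ε η c : ℝ} (k0 : 0 ≤ κ) (k1 : κ ≤ 20) (E0 : 0 ≤ E) (E1 : 0 ≤ Ev)
    (hE : |E - 2 * e₀| ≤ η) (η1 : η ≤ 1) (hB : |B - d| ≤ η) (hd : |d| ≤ c) (ht : |t| ≤ 6)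
    (h1 : |c1 - (exp (-(κ * (E + Ev + 2 * B))) + exp (-(κ * (E + Ev - 2 * B)))) / 2| ≤ ε)
    (h2 : |c2 - exp (-(κ * E))| ≤ ε) (h3 : |c3 - exp (-(κ * Ev))| ≤ ε) (h4 : |c2| ≤ 1) :
    |c1 - c2 * c3 - exp (-(κ * (2 * e₀))) * ((2 * κ * t) ^ 2 / 2) * exp (-(κ * Ev))| ≤
      3 * ε + KK c * (η + d ^ 4 + |d * d - t * t|) := by
  obtain ⟨p1, -, p3⟩ := phi k0 k1 E0 hE η1
  have p4 : exp (-(κ * Ev)) ≤ 1 := exp_le_one_iff.2 (by linarith [mul_nonneg k0 E1])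
  have η0 := (abs_nonneg _).trans hE
  have c0 := (abs_nonneg _).trans hd
  have e : (exp (-(κ * (E + Ev + 2 * B))) + exp (-(κ * (E + Ev - 2 * B)))) / 2 =
      exp (-(κ * E)) * exp (-(κ * Ev)) * cosh (2 * κ * B) := by
    rw [cosh_eq, mul_div_assoc', mul_add (exp _ * exp _), ← exp_add, ← exp_add, ← exp_add, add_comm]
    congr 2 <;> congr 1 <;> ring
  rw [e] at h1
  set Φ := exp (-(κ * E))
  set Φ₀ := exp (-(κ * (2 * e₀)))
  set Ψ := exp (-(κ * Ev))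
  have Φ0 : 0 ≤ Φ := (exp_pos _).le
  have Ψ0 : 0 ≤ Ψ := (exp_pos _).le
  have b1 : |B| ≤ c + 1 := by linarith [abs_sub_abs_le_abs_sub B d]
  have b2 : |2 * κ * B| ≤ 40 * (c + 1) := by
    rw [abs_mul, abs_of_nonneg (by positivity)]
    exact mul_le_mul (by linarith) b1 (abs_nonneg _) (by norm_num)
  have a1 := cosh_tay b2
  set Z := exp ((40 * (c + 1)) ^ 2)
  have Z0 : 0 ≤ Z := (exp_pos _).le
  have a2 : (2 * κ * B) ^ 4 ≤ 40 ^ 4 * (8 * (d ^ 4 + η)) := by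
    rw [mul_pow]
    refine mul_le_mul (pow_le_pow_left₀ (by positivity) (by linarith) 4) ?_ (by positivity) (by positivity)
    have x1 : (B - d) ^ 2 ≤ η := by
      have := pow_le_pow_left₀ (abs_nonneg _) hB 2
      rw [sq_abs] at this; nlinarith
    have x2 : B ^ 2 ≤ 2 * (d ^ 2 + (B - d) ^ 2) := by nlinarith [sq_nonneg (d - (B - d))]
    have x3 := pow_le_pow_left₀ (sq_nonneg B) x2 2
    have x4 := pow_le_pow_left₀ (sq_nonneg _) x1 2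
    nlinarith [sq_nonneg (d ^ 2 - (B - d) ^ 2)]
  have a3 : |B * B - d * d| ≤ η * (2 * c + 1) := by
    rw [show B * B - d * d = (B - d) * (B + d) by ring, abs_mul]
    exact mul_le_mul hB (by linarith [abs_add_le B d]) (abs_nonneg _) η0
  have k2 : κ ^ 2 ≤ 400 := by nlinarith
  have a4 : |(2 * κ * B) ^ 2 / 2 - (2 * κ * t) ^ 2 / 2| ≤ 800 * (η * (2 * c + 1) + |d * d - t * t|) := by
    rw [show (2 * κ * B) ^ 2 / 2 - (2 * κ * t) ^ 2 / 2 = 2 * κ ^ 2 * (B * B - t * t) by ring, abs_mul,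
      abs_of_nonneg (by positivity)]
    exact mul_le_mul (by linarith) (by linarith [abs_sub_le (B * B) (d * d) (t * t)]) (abs_nonneg _)
      (by norm_num)
  have a5 : |(2 * κ * t) ^ 2 / 2| ≤ 28800 := by
    have := pow_le_pow_left₀ (abs_nonneg _) ht 2
    rw [sq_abs] at this
    rw [abs_of_nonneg (by positivity)]
    nlinarith [mul_le_mul k2 this (sq_nonneg _) (by norm_num)]
  set X := (2 * κ * t) ^ 2 / 2
  set H := cosh (2 * κ * B)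
  have a6 : |H - 1 - X| ≤ Z * (40 ^ 4 * (8 * (d ^ 4 + η))) + 800 * (η * (2 * c + 1) + |d * d - t * t|) := by
    linarith [abs_sub_le (H - 1) ((2 * κ * B) ^ 2 / 2) X, mul_le_mul_of_nonneg_left a2 Z0]
  have e2 : c1 - c2 * c3 - Φ₀ * X * Ψ = (c1 - Φ * Ψ * H) - c2 * (c3 - Ψ) - (c2 - Φ) * Ψ +
      Ψ * (Φ * (H - 1 - X) + (Φ - Φ₀) * X) := by ring
  have f1 : |c2 * (c3 - Ψ)| ≤ ε := by
    rw [abs_mul]; exact (mul_le_of_le_one_left (abs_nonneg _) h4).trans h3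
  have f2 : |(c2 - Φ) * Ψ| ≤ ε := by
    rw [abs_mul, abs_of_nonneg Ψ0]; exact (mul_le_of_le_one_right (abs_nonneg _) p4).trans h2
  have f3 : |Ψ * (Φ * (H - 1 - X) + (Φ - Φ₀) * X)| ≤ |H - 1 - X| + 20 * exp 20 * η * 28800 := by
    rw [abs_mul, abs_of_nonneg Ψ0]
    refine (mul_le_of_le_one_left (abs_nonneg _) p4).trans ((abs_add_le _ _).trans (add_le_add ?_ ?_))
    · rw [abs_mul, abs_of_nonneg Φ0]; exact mul_le_of_le_one_left (abs_nonneg _) p1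
    · rw [abs_mul]; exact mul_le_mul p3 a5 (abs_nonneg _) (by positivity)
  have g1 : 1 ≤ exp 20 := one_le_exp (by norm_num)
  have g2 : Z * (40 ^ 4 * (8 * (d ^ 4 + η))) + 800 * (η * (2 * c + 1) + |d * d - t * t|) +
      20 * exp 20 * η * 28800 ≤ KK c * (η + d ^ 4 + |d * d - t * t|) := by
    have u := abs_nonneg (d * d - t * t)
    have u4 : 0 ≤ d ^ 4 := by positivity
    set w := |d * d - t * t|
    have v1 := mul_nonneg Z0 u; have v2 := mul_nonneg Z0 u4; have v3 := mul_nonneg Z0 η0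
    have v4 := mul_nonneg (sub_nonneg.2 g1) u; have v5 := mul_nonneg (sub_nonneg.2 g1) (mul_nonneg c0 η0)
    have v6 : 0 ≤ exp 20 * η := by positivity
    have v7 : 0 ≤ exp 20 * d ^ 4 := by positivity
    have v8 : 0 ≤ c * (exp 20 * (d ^ 4 + w) + Z * (η + d ^ 4 + w)) := by positivity
    have v9 := mul_nonneg (sub_nonneg.2 g1) η0
    have v10 := mul_nonneg c0 η0
    rw [KK]; linarith
  rw [e2]
  refine (abs_add_le _ _).trans ?_
  linarith [abs_sub (c1 - Φ * Ψ * H - c2 * (c3 - Ψ)) ((c2 - Φ) * Ψ), abs_sub (c1 - Φ * Ψ * H) (c2 * (c3 - Ψ))]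

theorem numB {c1 c2 c3 κ g E E₁ B B' d d' t t' e₀ ε η P l : ℝ} (k0 : 0 ≤ κ) (k1 : κ ≤ 20) (E0 : 0 ≤ E)
    (hE : |E - 2 * e₀| ≤ η) (η1 : η ≤ 1) (hB : |B - d| ≤ η) (hB' : |B' - d'| ≤ η) (P1 : 1 ≤ P)
    (hd : |d| ≤ P) (hd' : |d'| ≤ P) (hP : |g * E₁| ≤ P) (l0 : 0 ≤ l) (l1 : l ≤ 40)
    (h1 : |c1 - (g * E₁ - l * B * B') * exp (-(κ * E))| ≤ ε) (h2 : |c2 - exp (-(κ * E))| ≤ ε)
    (h3 : |c3 - g * E₁| ≤ ε) (h4 : |c2| ≤ 1) :
    |c1 - c2 * c3 + l * exp (-(κ * (2 * e₀))) * (t * t')| ≤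
      3 * P * ε + 1000 * exp 20 * (P ^ 2 * η + |d * d' - t * t'|) := by
  obtain ⟨p1, p2, p3⟩ := phi k0 k1 E0 hE η1
  have η0 := (abs_nonneg _).trans hE
  have ε0 := (abs_nonneg _).trans h1
  set Φ := exp (-(κ * E))
  set Φ₀ := exp (-(κ * (2 * e₀)))
  have Φ0 : 0 ≤ Φ := (exp_pos _).le
  have Φ1 : 0 ≤ Φ₀ := (exp_pos _).le
  have e : c1 - c2 * c3 + l * Φ₀ * (t * t') = (c1 - (g * E₁ - l * B * B') * Φ) - c2 * (c3 - g * E₁) -
      (c2 - Φ) * (g * E₁) - l * (Φ * ((B - d) * B' + d * (B' - d')) + (Φ - Φ₀) * (d * d') +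
        Φ₀ * (d * d' - t * t')) := by ring
  have f1 : |c2 * (c3 - g * E₁)| ≤ ε := by
    rw [abs_mul]; exact (mul_le_of_le_one_left (abs_nonneg _) h4).trans h3
  have f2 : |(c2 - Φ) * (g * E₁)| ≤ ε * P := by
    rw [abs_mul]; exact mul_le_mul h2 hP (abs_nonneg _) ε0
  have f3 : |Φ * ((B - d) * B' + d * (B' - d'))| ≤ η * (P + 1) + P * η := by
    rw [abs_mul, abs_of_nonneg Φ0]
    refine (mul_le_of_le_one_left (abs_nonneg _) p1).trans ((abs_add_le _ _).trans (add_le_add ?_ ?_)) <;>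
      rw [abs_mul]
    · exact mul_le_mul hB (by linarith [abs_sub_abs_le_abs_sub B' d']) (abs_nonneg _) η0
    · exact mul_le_mul hd hB' (abs_nonneg _) (by linarith)
  have f4 : |(Φ - Φ₀) * (d * d')| ≤ 20 * exp 20 * η * (P * P) := by
    rw [abs_mul, abs_mul]
    exact mul_le_mul p3 (mul_le_mul hd hd' (abs_nonneg _) (by linarith)) (by positivity) (by positivity)
  have f5 : |Φ₀ * (d * d' - t * t')| ≤ exp 20 * |d * d' - t * t'| := by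
    rw [abs_mul, abs_of_nonneg Φ1]; exact mul_le_mul_of_nonneg_right p2 (abs_nonneg _)
  have g1 : 1 ≤ exp 20 := one_le_exp (by norm_num)
  have f6 : |l * (Φ * ((B - d) * B' + d * (B' - d')) + (Φ - Φ₀) * (d * d') + Φ₀ * (d * d' - t * t'))| ≤
      40 * (η * (P + 1) + P * η + 20 * exp 20 * η * (P * P) + exp 20 * |d * d' - t * t'|) := by
    rw [abs_mul, abs_of_nonneg l0]
    exact mul_le_mul l1 ((abs_add_three _ _ _).trans (add_le_add_three f3 f4 f5)) (abs_nonneg _)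
      (by norm_num)
  have u1 : η * (2 * P + 1) ≤ 3 * (exp 20 * (P ^ 2 * η)) := by
    have := mul_le_mul_of_nonneg_left (by nlinarith : 2 * P + 1 ≤ 3 * P ^ 2) η0
    have := mul_le_mul_of_nonneg_right g1 (by positivity : 0 ≤ P ^ 2 * η)
    linarith
  have u2 := mul_le_mul_of_nonneg_left P1 ε0
  have u3 : 0 ≤ exp 20 * |d * d' - t * t'| := by positivity
  have u4 : 0 ≤ exp 20 * (P ^ 2 * η) := by positivity
  rw [e]
  refine (abs_sub _ _).trans ?_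
  linarith [abs_sub (c1 - (g * E₁ - l * B * B') * Φ - c2 * (c3 - g * E₁)) ((c2 - Φ) * (g * E₁)),
    abs_sub (c1 - (g * E₁ - l * B * B') * Φ) (c2 * (c3 - g * E₁))]

/-! ## the potential of the dipole -/

/-- half the energy of the dipole -/
noncomputable def e0 (a : ℕ) : ℝ := pk (6 * (a : ℤ), 0) - Xi.cr a - er a

theorem dip (hX : XfStmt) : ∃ C : ℝ, 3 ≤ C ∧ ∀ (a m : ℕ) (z : Pt) (i : Fin 2), C ≤ a → 48 ≤ m →
    ∃ ψ : Pt → ℝ, Pot.Sup (bl z ((m + 3) * a)) ψ ∧ Sm 3 Set.univ (C * m) a ψ ∧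
      |E0 (bl z ((m + 3) * a)) ψ - 2 * e0 a| ≤ C / m ∧
      F2 (nnL.edI (bl z ((m + 3) * a + 1))) ((fun y => fd a i (y - z)) - A0 ψ) ((C / m) ^ 2) := by
  obtain ⟨C, C0, -, -, h⟩ := hX
  refine ⟨6 * C + 6, by linarith, fun a m z i ha hm => ?_⟩
  have a3 : 3 ≤ a := by exact_mod_cast (by linarith : (3 : ℝ) ≤ a)
  have a0 : (0 : ℝ) < a := by linarith
  have m0 : (48 : ℝ) ≤ m := by exact_mod_cast hm
  set x : Pt := -((6 * a : ℤ) • ev i) with hx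
  set c : Pt := z + (3 * a : ℤ) • ev i with hc
  have ex : eu x = 6 * a := by
    rw [hx]; fin_cases i <;> simp [eu, ev]
  have px : pk x = pk (6 * (a : ℤ), 0) := by
    rw [hx, pk_neg]; fin_cases i
    · simp [ev]
    · rw [← pk_swap]; simp [ev]
  obtain ⟨v, h1, h2, h3, h4⟩ := h m a x (m * a) a (by linarith) (by linarith) (by
      rw [show (4 * (a : ℝ) + 4) = ((4 * a + 4 : ℕ) : ℝ) by push_cast; ring, Nat.ceil_natCast, mem_bl, hx]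
      fin_cases i <;> simp [ev] <;> omega)
    (by rw [ex]; push_cast; nlinarith) (by push_cast; rfl) (by omega) le_rfl
  have cz : c ∈ bl z (3 * a) := by rw [mem_bl, hc]; fin_cases i <;> simp [ev] <;> omega
  have sb : ∀ k, bl c (m * a + k) ⊆ bl z ((m + 3) * a + k) := fun k =>
    bl_subset_bl cz (by rw [add_mul]; omega)
  have mp : ∀ (k : ℕ) (y : Pt), y - c ∈ bl 0 k ↔ y ∈ bl c k := fun k y => by
    rw [mem_bl, mem_bl]; simp; omega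
  have s1 : Pot.Sup (bl c (m * a)) fun y => v (y - c) := fun y hy => h1 _ fun k => hy ((mp _ _).1 k)
  have s2 : Pot.Sup (bl z ((m + 3) * a)) fun y => v (y - c) := s1.mono (sb 0)
  have q : eu x / ((m * a : ℕ) : ℝ) = 6 / m := by rw [ex]; push_cast; field_simp
  refine ⟨fun y => v (y - c), s2, ?_, ?_, ?_⟩
  · simp only [sub_eq_add_neg]
    refine (h2.shift (-c) fun _ _ => trivial).mono le_rfl Set.Subset.rfl ?_ a0
    nlinarith [log_le_sub_one_of_pos (by linarith : (0 : ℝ) < m)]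
  · rw [← B80.E0_congr s1 s2, show E0 (bl c (m * a)) (fun y => v (y - c)) = E0 (bl 0 (m * a)) v by
      rw [E0, E0, Vb27.sum_bl_shift]; simp only [A0_shift, add_sub_cancel_left], e0, ← px]
    rw [mul_div_assoc, q] at h3
    refine h3.trans ?_
    rw [← mul_div_assoc]; gcongr; linarith
  · rw [q] at h4
    have h5 := h4.shift c
    refine ((h5.subset (Lat.edI_mono fun y hy => sb 1 ?_)).congr ?_).mono ?_
    · rw [mem_map_equiv] at hy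
      exact (mp _ _).1 (by simpa [sub_eq_add_neg] using hy)
    · funext y
      simp only [Pi.sub_apply, A0_shift, fd, hx, hc]
      congr 3
      · abel
      · rw [show (6 * a : ℤ) = 3 * a + 3 * a by ring, add_smul]; abel
    · rw [div_pow, div_pow, ← mul_div_assoc]; gcongr; nlinarith

/-! ## one dipole -/

theorem E1_comm {n : ℕ} {u v : Pt → ℝ} (hu : Pot.Sup (bl 0 n) u) (hv : Pot.Sup (bl 0 n) v) :
    E1 (bl 0 n) u v = E1 (bl 0 n) v u := by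
  have a := green0 (bl_one_sub (le_refl (n + 1))) u hv
  rw [← sum_subset (bl_mono 0 n.le_succ) fun x _ hx => by rw [hu x hx, zero_mul]] at a
  rw [E1, E1, ← a]
  exact sum_congr rfl fun _ _ => mul_comm _ _

theorem E0_add {n : ℕ} {u v : Pt → ℝ} (hu : Pot.Sup (bl 0 n) u) (hv : Pot.Sup (bl 0 n) v) (c : ℝ) :
    E0 (bl 0 n) (u + c • v) = E0 (bl 0 n) u + c ^ 2 * E0 (bl 0 n) v + 2 * c * E1 (bl 0 n) v u := by
  have a := E1_comm hu hv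
  have : E0 (bl 0 n) (u + c • v) = E0 (bl 0 n) u + c ^ 2 * E0 (bl 0 n) v + c * E1 (bl 0 n) u v +
      c * E1 (bl 0 n) v u := by
    simp only [E0, E1, A0_add, A0_smul, Pi.add_apply, Pi.smul_apply, smul_eq_mul, mul_sum,
      ← sum_add_distrib]
    exact sum_congr rfl fun _ _ => by ring
  rw [this, a]; ring

theorem pair_le {n : ℕ} {h v : Pt → ℝ} {θ Q : ℝ} (hv : Pot.Sup (bl 0 n) v) (θ0 : 0 ≤ θ) (Q0 : 0 ≤ Q)
    (hh : F2 (nnL.edI (bl 0 (n + 1))) h (θ ^ 2)) (hQ : E0 (bl 0 n) v ≤ Q ^ 2) :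
    |∑ x ∈ bl 0 n, v x * h x| ≤ θ * Q := by
  have a := hh.ip_sq_le (B := bl 0 (n + 1)) (fun e he => (Lat.mem_edI.1 he).2) v
  rw [← B80.E0_ed hv (B80.gb_bl hv), T145.ip, ← sum_subset (bl_mono 0 n.le_succ) fun x _ hx => by
    rw [hv x hx, mul_zero]] at a
  simp only [mul_comm (v _)]
  exact abs_le_of_sq_le_sq (a.trans ((mul_le_mul_of_nonneg_left hQ (sq_nonneg _)).trans
    (le_of_eq (by ring)))) (by positivity)

section one
variable {Λ : Lat} {ω : Sta} {m : Mdl Pt} {N n : ℕ} (ok : Λ.Ok) (hm : Rep Λ ω m 0 N) (hn : n + 1 ≤ N)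
include hm

theorem om_add {F G : Cfg Pt → ℝ} (hF : Ins 0 N F) (hG : Ins 0 N G) :
    ω (fun s => (F s + G s) / 2) = (ω F + ω G) / 2 := by
  have c := (FlF4.amb_lat hm.1).cen
  rw [hm.2 _ ((hF.1.add hG.1).comp fun t => t / 2), hm.2 _ hF.1, hm.2 _ hG.1, Ex_div_const,
    Ex_add (c.ig hF.2) (c.ig hG.2)]

include hn

theorem ins_flow {f : Pt → ℝ} {e : ℝ} (h : F2 (nnL.edI (bl 0 (n + 1))) f e) :
    Ins 0 N (fun s => pr f s) ∧ Ins 0 N (cp f 0) :=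
  have d := (FlF4.depG_flow h).mono (bl_mono 0 hn)
  ⟨⟨d, Tame.hom _⟩, d.comp fun t => cos (2 * π * t + 0), Cc87.tame_cp _ _⟩

include ok

theorem rep {f ψ : Pt → ℝ} {θ : ℝ} (hψ : Pot.Sup (bl 0 n) ψ) (θ0 : 0 ≤ θ)
    (hh : F2 (nnL.edI (bl 0 (n + 1))) (f - A0 ψ) (θ ^ 2)) {ι : Type} (T : Finset ι) (g : ι → Pt → ℝ)
    (a : ι → ℝ) (hg : ∀ i ∈ T, 0 ≤ a i ∧ F2 (nnL.edI (bl 0 (n + 1))) (g i) (a i ^ 2)) {G : Cfg Pt → ℝ}
    (hG : Ins 0 N G) (hG' : ∀ s, |G s| ≤ ∏ i ∈ T, |pr (g i) s|) :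
    Ins 0 N (cp f 0) ∧ |ω (fun s => cp f 0 s * G s) - ω (fun s => cp (A0 ψ) 0 s * G s)| ≤
      7 * (FlF4.cB Λ.τ (T.card + 1) * (θ * ∏ i ∈ T, a i)) := by
  classical
  have i1 := (ins_flow hm hn (B80.f2_A0 hψ)).2
  have i2 := (ins_flow hm hn ((hh.add (B80.f2_A0 hψ)).congr (sub_add_cancel f _).symm)).2
  have am := FlF4.amb_lat hm.1
  have up : ∀ {f e}, F2 (nnL.edI (bl 0 (n + 1))) f e → F2 (Λ.edI (bl 0 N)) f e := fun h =>
    h.subset (B80.nn_sub ok (bl_mono 0 hn))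
  have b := FlF4.bd_prod ok (T.insertNone) (f := fun o => o.elim (f - A0 ψ) g) (a := fun o => o.elim θ a)
    (D := bl 0 N) fun o ho => by
      cases o with
      | none => exact ⟨θ0, up hh⟩
      | some i => exact ⟨(hg i (by simpa using ho)).1, up (hg i (by simpa using ho)).2⟩
  simp only [prod_insertNone, card_insertNone, Option.elim] at b
  refine ⟨i2, ?_⟩
  rw [hm.2 _ (i2.1.mul hG.1), hm.2 _ (i1.1.mul hG.1),
    ← Ex_sub (am.cen.ig (i2.2.mul hG.2)) (am.cen.ig (i1.2.mul hG.2))]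
  refine FlF4.m2_ex am (b.smul (by norm_num)) fun s => ?_
  rw [← sub_mul, abs_mul, ← mul_assoc]
  refine mul_le_mul ((abs_cos_sub_cos_le _ _).trans ?_) (hG' s) (abs_nonneg _) (by positivity)
  rw [pr_sub, AddMonoidHom.sub_apply, add_zero, add_zero, ← mul_sub, abs_mul, abs_of_pos two_pi_pos]
  exact mul_le_mul_of_nonneg_right (by linarith [pi_lt_d2]) (abs_nonneg _)

theorem abs_om_cp {f : Pt → ℝ} (h : Ins 0 N (cp f 0)) : |ω (cp f 0)| ≤ 1 := by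
  rw [hm.2 _ h.1]
  exact (FlF4.amb_lat hm.1).cen.wt.abs_ex_le fun s _ => Cc87.abs_cp_le _ _ s

variable {f ψ v v' : Pt → ℝ} {θ Q g ε e₀ cb : ℝ} (hψ : Pot.Sup (bl 0 n) ψ) (θ0 : 0 ≤ θ)
  (hh : F2 (nnL.edI (bl 0 (n + 1))) (f - A0 ψ) (θ ^ 2)) (hv : Pot.Sup (bl 0 n) v) (Q1 : 1 ≤ Q)
  (hQ : E0 (bl 0 n) v ≤ Q ^ 2) (g0 : 0 ≤ g) (g1 : g ≤ 1) (hE : |E0 (bl 0 n) ψ - 2 * e₀| ≤ θ)
  (η1 : θ * Q ≤ 1) (hc : FlF4.cB Λ.τ 3 ≤ cb)
  (n1 : |ω (cp (A0 ψ) 0) - exp (-2 * π ^ 2 * g * E0 (bl 0 n) ψ)| ≤ ε)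
include hψ θ0 hh hv Q1 hQ g0 g1 hE η1 hc n1

theorem base : Ins 0 N (cp f 0) ∧ 0 ≤ 2 * π ^ 2 * g ∧ 2 * π ^ 2 * g ≤ 20 ∧ 0 ≤ cb * θ ∧
    |E0 (bl 0 n) ψ - 2 * e₀| ≤ θ * Q ∧ |E1 (bl 0 n) v ψ - ∑ x ∈ bl 0 n, v x * f x| ≤ θ * Q ∧
    |ω (cp f 0) - exp (-(2 * π ^ 2 * g * E0 (bl 0 n) ψ))| ≤ ε + 7 * (cb * (θ * Q ^ 2)) := by
  obtain ⟨i, r⟩ := rep ok hm hn hψ θ0 hh (∅ : Finset Unit) (fun _ => 0) (fun _ => 0) (by simp)
    (G := fun _ => 1) ⟨DepG.const _ _, Tame.const _⟩ (by simp)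
  have c0 := (FlF4.cB_pos Λ.τ 3).le.trans hc
  have p : π ^ 2 < 10 := by nlinarith [pi_lt_d2, pi_pos]
  refine ⟨i, by positivity, by nlinarith, by positivity,
    hE.trans (le_mul_of_one_le_right θ0 Q1), ?_, ?_⟩
  · rw [abs_sub_comm, E1, ← sum_sub_distrib]
    simpa only [Pi.sub_apply, mul_sub] using pair_le hv θ0 (by linarith) hh hQ
  · simp only [mul_one, card_empty, prod_empty] at r
    simp only [neg_mul] at n1
    have : FlF4.cB Λ.τ (0 + 1) * θ ≤ cb * (θ * Q ^ 2) :=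
      mul_le_mul ((FlF4.cB_mono le_rfl (by norm_num)).trans hc)
        (le_mul_of_one_le_right θ0 (one_le_pow₀ Q1)) θ0 c0
    linarith [abs_sub_le (ω (cp f 0)) (ω (cp (A0 ψ) 0)) (exp (-(2 * π ^ 2 * g * E0 (bl 0 n) ψ)))]

theorem oneA {t c : ℝ} (hd : |∑ x ∈ bl 0 n, v x * f x| ≤ c) (ht : |t| ≤ 6)
    (n2 : |ω (cp (A0 v) 0) - exp (-2 * π ^ 2 * g * E0 (bl 0 n) v)| ≤ ε)
    (n3 : ∀ c : ℝ, c = 1 ∨ c = -1 →
      |ω (cp (A0 (ψ + c • v)) 0) - exp (-2 * π ^ 2 * g * E0 (bl 0 n) (ψ + c • v))| ≤ ε) :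
    |cv ω (cp f 0) (cp (A0 v) 0) - exp (-4 * π ^ 2 * g * e₀) * ((4 * π ^ 2 * g * t) ^ 2 / 2) *
      exp (-2 * π ^ 2 * g * E0 (bl 0 n) v)| ≤ 3 * (ε + 7 * (cb * (θ * Q ^ 2))) + KK c * (θ * Q +
        (∑ x ∈ bl 0 n, v x * f x) ^ 4 +
          |(∑ x ∈ bl 0 n, v x * f x) * (∑ x ∈ bl 0 n, v x * f x) - t * t|) := by
  obtain ⟨i, k0, k1, c0, b1, b2, b3⟩ := base ok hm hn hψ θ0 hh hv Q1 hQ g0 g1 hE η1 hc n1
  have q : 0 ≤ cb * (θ * Q ^ 2) := by rw [← mul_assoc]; positivity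
  have iv := (ins_flow hm hn (B80.f2_A0 hv)).2
  obtain ⟨-, r⟩ := rep ok hm hn hψ θ0 hh (∅ : Finset Unit) (fun _ => 0) (fun _ => 0) (by simp) iv
    (by simpa using Cc87.abs_cp_le _ _)
  have sp : ∀ c : ℝ, Pot.Sup (bl 0 n) (ψ + c • v) := fun c x hx => by simp [hψ x hx, hv x hx]
  have e : ω (fun s => cp (A0 ψ) 0 s * cp (A0 v) 0 s) =
      (ω (cp (A0 (ψ + (1 : ℝ) • v)) 0) + ω (cp (A0 (ψ + (-1 : ℝ) • v)) 0)) / 2 := by
    rw [← om_add hm (ins_flow hm hn (B80.f2_A0 (sp _))).2 (ins_flow hm hn (B80.f2_A0 (sp _))).2]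
    congr 1; funext s
    simp only [cp, A0_add, A0_smul, pr_add, pr_smul, AddMonoidHom.add_apply, AddMonoidHom.smul_apply,
      smul_eq_mul, add_zero, mul_add, one_mul, neg_mul, mul_neg, cos_add, cos_neg, sin_neg]
    ring
  have m1 := n3 1 (Or.inl rfl)
  have m2 := n3 (-1) (Or.inr rfl)
  rw [E0_add hψ hv] at m1 m2
  simp only [card_empty, prod_empty, mul_one] at r
  have r' : FlF4.cB Λ.τ (0 + 1) * θ ≤ cb * (θ * Q ^ 2) :=
    mul_le_mul ((FlF4.cB_mono le_rfl (by norm_num)).trans hc)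
      (le_mul_of_one_le_right θ0 (one_le_pow₀ Q1)) θ0 ((FlF4.cB_pos Λ.τ 3).le.trans hc)
  have := numA (c1 := ω fun s => cp f 0 s * cp (A0 v) 0 s) (c3 := ω (cp (A0 v) 0)) k0 k1
    (B80.E0_nonneg hψ) (B80.E0_nonneg hv) b1 η1 b2 hd ht (by
      rw [e] at r
      rw [show -2 * π ^ 2 * g * (E0 (bl 0 n) ψ + 1 ^ 2 * E0 (bl 0 n) v + 2 * 1 * E1 (bl 0 n) v ψ) =
        -(2 * π ^ 2 * g * (E0 (bl 0 n) ψ + E0 (bl 0 n) v + 2 * E1 (bl 0 n) v ψ)) by ring] at m1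
      rw [show -2 * π ^ 2 * g * (E0 (bl 0 n) ψ + (-1) ^ 2 * E0 (bl 0 n) v + 2 * (-1) * E1 (bl 0 n) v ψ) =
        -(2 * π ^ 2 * g * (E0 (bl 0 n) ψ + E0 (bl 0 n) v - 2 * E1 (bl 0 n) v ψ)) by ring] at m2
      rw [abs_le] at r m1 m2 ⊢
      constructor <;> linarith [r.1, r.2, m1.1, m1.2, m2.1, m2.2]) b3
    (by simp only [neg_mul] at n2; linarith) (abs_om_cp ok hm hn i)
  rw [cv, show -4 * π ^ 2 * g * e₀ = -(2 * π ^ 2 * g * (2 * e₀)) by ring,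
    show 4 * π ^ 2 * g * t = 2 * (2 * π ^ 2 * g) * t by ring]
  simpa only [neg_mul] using this

theorem oneB {t t' P : ℝ} (hv' : Pot.Sup (bl 0 n) v') (hQ' : E0 (bl 0 n) v' ≤ Q ^ 2) (hP : Q ^ 2 ≤ P)
    (hd : |∑ x ∈ bl 0 n, v x * f x| ≤ P) (hd' : |∑ x ∈ bl 0 n, v' x * f x| ≤ P)
    (n2 : |ω (fun s => X v s * X v' s) - g * E1 (bl 0 n) v v'| ≤ ε)
    (n3 : |ω (fun s => X v s * X v' s * cp (A0 ψ) 0 s) - (g * E1 (bl 0 n) v v' -
      4 * π ^ 2 * g ^ 2 * E1 (bl 0 n) v ψ * E1 (bl 0 n) v' ψ) * exp (-2 * π ^ 2 * g * E0 (bl 0 n) ψ)| ≤ ε) :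
    |cv ω (cp f 0) (fun s => X v s * X v' s) + 4 * π ^ 2 * g ^ 2 * exp (-4 * π ^ 2 * g * e₀) * (t * t')| ≤
      3 * P * (ε + 7 * (cb * (θ * Q ^ 2))) + 1000 * exp 20 * (P ^ 2 * (θ * Q) +
        |(∑ x ∈ bl 0 n, v x * f x) * (∑ x ∈ bl 0 n, v' x * f x) - t * t'|) := by
  obtain ⟨i, k0, k1, c0, b1, b2, b3⟩ := base ok hm hn hψ θ0 hh hv Q1 hQ g0 g1 hE η1 hc n1
  obtain ⟨-, -, -, -, -, b2', -⟩ := base ok hm hn hψ θ0 hh hv' Q1 hQ' g0 g1 hE η1 hc n1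
  have q : 0 ≤ cb * (θ * Q ^ 2) := by rw [← mul_assoc]; positivity
  have Q0 : 0 ≤ Q := by linarith
  have f1 := (B80.f2_A0 hv).mono hQ
  have f2 := (B80.f2_A0 hv').mono hQ'
  have i1 := (ins_flow hm hn f1).1
  have i2 := (ins_flow hm hn f2).1
  obtain ⟨-, r⟩ := rep ok hm hn hψ θ0 hh (univ : Finset Bool) (fun b => cond b (A0 v) (A0 v')) (fun _ => Q)
    (fun b _ => ⟨Q0, by cases b; exacts [f2, f1]⟩) (G := fun s => X v s * X v' s)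
    ⟨i1.1.mul i2.1, i1.2.mul i2.2⟩ fun s => by simp [X, abs_mul]
  simp only [prod_const, card_univ, Fintype.card_bool] at r
  have r' : FlF4.cB Λ.τ (2 + 1) * (θ * Q ^ 2) ≤ cb * (θ * Q ^ 2) :=
    mul_le_mul_of_nonneg_right hc (by positivity)
  have p : π ^ 2 < 10 := by nlinarith [pi_lt_d2, pi_pos]
  have := numB (c1 := ω fun s => cp f 0 s * (X v s * X v' s)) (c3 := ω fun s => X v s * X v' s)
    (t := t) (t' := t') (l := 4 * π ^ 2 * g ^ 2) (g := g) (E₁ := E1 (bl 0 n) v v') k0 k1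
    (B80.E0_nonneg hψ) b1 η1 b2 b2' ((one_le_pow₀ Q1).trans hP) hd hd' (by
      rw [abs_mul, abs_of_nonneg g0]
      exact (mul_le_of_le_one_left (abs_nonneg _) g1).trans ((pair_le hv Q0 Q0 f2 hQ).trans
        (by rwa [← pow_two]))) (by positivity) (by nlinarith [mul_le_one₀ g1 g0 g1]) (by
      simp only [mul_comm _ (cp (A0 ψ) 0 _), neg_mul] at n3
      rw [abs_le] at r n3 ⊢
      constructor <;> linarith [r.1, r.2, n3.1, n3.2]) b3 (by linarith) (abs_om_cp ok hm hn i)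
  rwa [cv, show -4 * π ^ 2 * g * e₀ = -(2 * π ^ 2 * g * (2 * e₀)) by ring]

end one

/-! ## two dipoles -/

theorem cv_T1 {Λ : Lat} {ω : Sta} {m : Mdl Pt} {N a : ℕ} {z : Pt} (hm : Rep Λ ω m 0 N)
    (i : ∀ i, Ins 0 N (cp (fun y => fd a i (y - z)) 0)) {G : Cfg Pt → ℝ} (hG : Ins 0 N G) :
    cv ω (trl z (T1 a)) G =
      (cv ω (cp (fun y => fd a 0 (y - z)) 0) G + cv ω (cp (fun y => fd a 1 (y - z)) 0) G) / 2 := by
  have e : trl z (T1 a) = fun s => (cp (fun y => fd a 0 (y - z)) 0 s + cp (fun y => fd a 1 (y - z)) 0 s) / 2 :=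
    funext fun s => by simp only [trl, T1, cp, pr_mapH, Equiv.subRight_apply]
  have := om_add hm (F := fun s => _ * G s) (G := fun s => _ * G s) ⟨(i 0).1.mul hG.1, (i 0).2.mul hG.2⟩
    ⟨(i 1).1.mul hG.1, (i 1).2.mul hG.2⟩
  simp only [← add_mul, mul_div_right_comm] at this
  rw [e, cv, cv, cv, om_add hm (i 0) (i 1), this]; ring

theorem sum_fd {a n : ℕ} {z : Pt} (ha : 1 ≤ a) (h : bl z (5 * a) ⊆ bl 0 n) (i : Fin 2) (v : Pt → ℝ) :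
    ∑ x ∈ bl 0 n, v x * fd a i (x - z) = ∑ y ∈ bl z (5 * a), fd a i (y - z) * v y := by
  have a0 : (0 : ℝ) < a := by exact_mod_cast ha
  have s := sup_xi a0 (n := 2 * a) (by simp)
  rw [← sum_subset h fun y _ hy => by
    rw [fd, s _ fun k => hy ?_, s _ fun k => hy ?_, sub_zero, mul_zero] <;>
      rw [mem_bl] at k ⊢ <;> fin_cases i <;> simp [ev] at k <;> omega]
  exact sum_congr rfl fun _ _ => mul_comm _ _

theorem dd_le {d d' t t' C x y : ℝ} (h1 : |d'| ≤ C * x) (h2 : |d - t| ≤ C * y) (h3 : |d' - t'| ≤ C * y)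
    (h4 : |t| ≤ 6 * x) : |d * d' - t * t'| ≤ (C ^ 2 + 6 * C) * (y * x) := by
  rw [show d * d' - t * t' = (d - t) * d' + t * (d' - t') by ring]
  refine (abs_add_le _ _).trans ?_
  rw [abs_mul, abs_mul]
  have a := mul_le_mul h2 h1 (abs_nonneg _) ((abs_nonneg _).trans h2)
  have b := mul_le_mul h4 h3 (abs_nonneg _) ((abs_nonneg _).trans h4)
  linarith

theorem sv_facts {R M : ℝ} {v : Pt → ℝ} (R1 : 1 ≤ R) (M1 : 1 ≤ M) (h : Sv R M v) :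
    E0 (bl 0 ⌊M * R⌋₊) v ≤ (8 * M ^ 3) ^ 2 ∧ ∀ z n, Lk v z n (M ^ 2 / R) (M / (R / M) ^ 2) := by
  have e : M / (R / M) = M ^ 2 / R := by field_simp
  refine ⟨(B80.E0_le h.1 fun e he x _ => h.2.one (by norm_num) he trivial).trans ?_, fun z n y _ _ he =>
    ⟨(h.2.one (by norm_num) he trivial).trans e.le, fun e' he' =>
      h.2.two (by norm_num) he he' trivial⟩⟩
  have a := Nat.floor_le (by positivity : 0 ≤ M * R)
  have b : 1 ≤ M * R := one_le_mul_of_one_le_of_one_le M1 R1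
  have c : (2 * (⌊M * R⌋₊ : ℝ) + 1) ^ 2 ≤ (3 * (M * R)) ^ 2 := by gcongr; linarith
  rw [e, card_bl]; push_cast
  refine (mul_le_mul_of_nonneg_left c (by positivity)).trans ?_
  rw [show 6 * (M ^ 2 / R) ^ 2 * (3 * (M * R)) ^ 2 = 54 * M ^ 6 by field_simp; ring]
  nlinarith [pow_pos (by linarith : 0 < M) 6]

theorem err {M θ p cb K A CN c y X : ℝ} (M1 : 1 ≤ M) (θ0 : 0 ≤ θ) (hθ : θ ≤ 1 / (48 * M ^ 16)) (p0 : 0 ≤ p)
    (cb0 : 0 ≤ cb) (K0 : 0 ≤ K) (A0 : 0 ≤ A) (CN0 : 0 ≤ CN) (c1 : 1 ≤ c) (y0 : 0 ≤ y)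
    (hX : M ^ 6 * (CN * X) ≤ A * y) :
    3 * (p * M ^ 6) * (CN * (X + 1 / (c * M ^ 17)) + 7 * (cb * (θ * (8 * M ^ 3) ^ 2))) +
      K * ((p * M ^ 6) ^ 2 * (θ * (8 * M ^ 3))) ≤ (3 * p * (A + CN + 14 * cb) + K * p ^ 2) * (y + 1 / M) := by
  have M0 : 0 < M := by linarith
  have t : θ * M ^ 16 ≤ 1 / 48 := by
    rw [← div_div, le_div_iff₀ (by positivity)] at hθ; exact hθ
  have pw : ∀ k l : ℕ, k ≤ l → M ^ k ≤ M ^ l := fun k l h => pow_le_pow_right₀ M1 h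
  have a1 : M ^ 6 * (1 / (c * M ^ 17)) ≤ 1 / M := by
    rw [mul_one_div, div_le_div_iff₀ (by positivity) M0, ← pow_succ, one_mul]
    exact (pw 7 17 (by norm_num)).trans (le_mul_of_one_le_left (by positivity) c1)
  have a2 : M ^ 6 * (θ * (8 * M ^ 3) ^ 2) ≤ 2 * (1 / M) := by
    rw [mul_one_div, le_div_iff₀ M0]
    nlinarith [mul_le_mul_of_nonneg_left (pw 13 16 (by norm_num)) θ0]
  have a3 : M ^ 12 * (θ * (8 * M ^ 3)) ≤ 1 / M := by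
    rw [le_div_iff₀ M0]; nlinarith
  have i0 : 0 ≤ 1 / M := by positivity
  have b1 := mul_le_mul_of_nonneg_left hX p0
  have b2 := mul_le_mul_of_nonneg_left a1 (mul_nonneg p0 CN0)
  have b3 := mul_le_mul_of_nonneg_left a2 (mul_nonneg p0 cb0)
  have b4 := mul_le_mul_of_nonneg_left a3 (by positivity : 0 ≤ K * p ^ 2)
  have b5 : 0 ≤ p * A * (1 / M) := by positivity
  have b6 : 0 ≤ (3 * p * (CN + 14 * cb) + K * p ^ 2) * y := by positivity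
  nlinarith

theorem par {Cx M : ℝ} (Cx3 : 3 ≤ Cx) (M1 : 1 ≤ M) : ∃ μ : ℕ, 48 ≤ μ ∧ (μ + 4) * M ≤ 53 * Cx ^ 2 * M ^ 17 ∧
    Cx * μ + M ≤ 53 * Cx ^ 2 * M ^ 17 ∧ Cx / μ ≤ 1 / (48 * M ^ 16) ∧ Cx / μ * (8 * M ^ 3) ≤ 1 := by
  have pw : ∀ k l : ℕ, k ≤ l → M ^ k ≤ M ^ l := fun k l h => pow_le_pow_right₀ M1 h
  have n2 : M ≤ M ^ 17 := le_self_pow₀ M1 (by norm_num)
  have n3 : 1 ≤ M ^ 16 := one_le_pow₀ M1
  have x1 : 1 ≤ Cx * M ^ 16 := one_le_mul_of_one_le_of_one_le (by linarith) n3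
  have m1 := Nat.le_ceil (48 * Cx * M ^ 16)
  have m2 := Nat.ceil_lt_add_one (by linarith : 0 ≤ 48 * Cx * M ^ 16)
  generalize ⌈48 * Cx * M ^ 16⌉₊ = μ at m1 m2
  have θ1 : Cx / μ ≤ 1 / (48 * M ^ 16) := by
    rw [div_le_div_iff₀ (by linarith) (by positivity)]; linarith
  have c1 : Cx ≤ Cx ^ 2 := by nlinarith
  refine ⟨μ, by exact_mod_cast (by linarith : (48 : ℝ) ≤ μ), ?_, ?_, θ1, ?_⟩
  · rw [pow_succ M 16, ← mul_assoc]
    exact mul_le_mul_of_nonneg_right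
      (by linarith [mul_le_mul_of_nonneg_right c1 (by linarith : 0 ≤ M ^ 16)]) (by linarith)
  · have := mul_le_mul_of_nonneg_left (by linarith : (μ : ℝ) ≤ 49 * Cx * M ^ 16) (by linarith : 0 ≤ Cx)
    have := mul_le_mul_of_nonneg_left (pw 16 17 (by norm_num)) (sq_nonneg Cx)
    have := mul_le_mul_of_nonneg_right (by linarith : 1 ≤ Cx ^ 2) (by linarith : 0 ≤ M ^ 17)
    linarith
  · have θ0 : 0 ≤ Cx / μ := by positivity
    rw [← div_div, le_div_iff₀ (by positivity)] at θ1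
    linarith [mul_le_mul_of_nonneg_left (pw 3 16 (by norm_num)) θ0]

theorem big {R Y e T : ℝ} (R1 : 1 ≤ R) (e1 : e ≤ 1) (h : R ^ (-e) ≤ Y) (T0 : 0 ≤ T) (y1 : T * Y ≤ 1) : T ≤ R := by
  have := (rpow_le_rpow_of_exponent_le R1 (by linarith : -1 ≤ -e)).trans h
  rw [rpow_neg_one, inv_le_iff_one_le_mul₀' (by linarith)] at this
  linarith [mul_le_mul_of_nonneg_left this T0, mul_le_mul_of_nonneg_left y1 (by linarith : 0 ≤ R)]

theorem pP {Cd a M R : ℝ} (C0 : 0 ≤ Cd) (M1 : 1 ≤ M) (R1 : 1 ≤ R) (a0 : 0 ≤ a) (a2 : a ≤ M * R) :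
    (8 * M ^ 3) ^ 2 ≤ 64 * (Cd + 1) * M ^ 6 ∧ Cd * a * (M ^ 2 / R) ≤ 64 * (Cd + 1) * M ^ 6 := by
  refine ⟨by linarith [mul_nonneg C0 (by positivity : 0 ≤ M ^ 6)], ?_⟩
  rw [mul_assoc]
  refine mul_le_mul (by linarith) (le_trans ?_ (pow_le_pow_right₀ M1 (by norm_num : 3 ≤ 6))) (by positivity)
    (by positivity)
  rw [← mul_div_assoc, div_le_iff₀ (by linarith)]
  linarith [mul_le_mul_of_nonneg_right a2 (sq_nonneg M)]

end X27

open X27 in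
theorem x1uStmt (hN : NgStmt) (hX : XfStmt) (hD : DetStmt) : X1uStmt := by
  obtain ⟨Cx, Cx3, hx⟩ := dip hX
  obtain ⟨Cd, Cd0, -, hd, -⟩ := hD
  have K1 : 0 ≤ X27.KK Cd := by rw [X27.KK]; positivity
  obtain ⟨K, hK⟩ : ∃ K, K = X27.KK Cd + 1000 * exp 20 := ⟨_, rfl⟩
  have K2 : X27.KK Cd ≤ K ∧ 1000 * exp 20 ≤ K := by constructor <;> linarith [exp_pos 20]
  have K0 : 0 ≤ K := K1.trans K2.1
  refine ⟨K * (Cd ^ 4 + (Cd ^ 2 + 6 * Cd)), by positivity, fun p => ?_⟩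
  obtain ⟨CN, nN, CN1, hN⟩ := hN p
  obtain ⟨c, hc⟩ : ∃ c, c = 53 * Cx ^ 2 := ⟨_, rfl⟩
  have c1 : Cx ≤ c ∧ 1 ≤ c := by constructor <;> nlinarith
  have c0 : 0 < c := by linarith
  obtain ⟨A, hA⟩ : ∃ A, A = CN * c ^ nN := ⟨_, rfl⟩
  have Ap : 0 ≤ A := by rw [hA]; positivity
  obtain ⟨cb, hb⟩ : ∃ cb, cb = FlF4.cB p.F.τ₂ 3 := ⟨_, rfl⟩
  have cb0 : 0 ≤ cb := hb ▸ (FlF4.cB_pos _ _).le
  obtain ⟨q, hq⟩ : ∃ q, q = 64 * (Cd + 1) := ⟨_, rfl⟩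
  have q0 : 0 ≤ q := by linarith
  obtain ⟨B, hB⟩ : ∃ B, B = 3 * q * (A + CN + 14 * cb) + K * q ^ 2 := ⟨_, rfl⟩
  have B0 : 0 ≤ B := by rw [hB]; positivity
  obtain ⟨C, hC⟩ : ∃ C, C = 2 * c + A + B := ⟨_, rfl⟩
  have C0 : 0 ≤ C := by linarith
  refine ⟨C, 17 * nN + 17, by linarith, fun Λ ω L N hE R Y M hM g1 g2 M2 y1 l1 a z v v'
    k₁ k₂ a1 a2 z1 s1 s2 l2 l3 => ?_⟩
  have ok : Λ.Ok := ⟨hE.mem.1 ▸ p.F.adm, p.F.pos.trans_le hE.mem.2.2.1⟩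
  obtain ⟨m, hm⟩ := hE.amb 0
  have R1 := hM.1
  have M1 : 1 ≤ M := by linarith
  have M0 : 0 < M := by linarith
  have Y0 : 0 ≤ Y := (rpow_nonneg (by linarith) _).trans hM.2.1
  have n1 : M ^ 17 ≤ M ^ (17 * nN + 17) := pow_le_pow_right₀ M1 (by omega)
  have n3 : M ^ (6 + 17 * nN) ≤ M ^ (17 * nN + 17) := pow_le_pow_right₀ M1 (by omega)
  generalize M ^ (17 * nN + 17) = Mn at y1 l1 n1 n3 ⊢
  have n2 : M ≤ Mn := (le_self_pow₀ M1 (by norm_num)).trans n1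
  have n0 : 0 ≤ Mn := by linarith
  have ax : Cx ≤ a := by
    refine le_trans ?_ a1
    rw [le_div_iff₀ M0]
    exact (mul_le_mul (by linarith) n2 M0.le C0).trans
      (big R1 (by linarith [(Cc87.ew_pos hE.w4).2]) hM.2.1 (by positivity) y1)
  have a0 : 1 ≤ a := by exact_mod_cast (by linarith : (1 : ℝ) ≤ a)
  obtain ⟨μ, m3, u1, u2, θ1, η1⟩ := par Cx3 M1
  rw [← hc] at u1 u2
  have θ0 : 0 ≤ Cx / μ := by positivity
  have u0 : 0 ≤ Cx * μ := by positivity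
  have u4 : M ^ 6 * (CN * (c * M ^ 17) ^ nN) ≤ A * Mn := by
    rw [mul_pow, ← pow_mul, ← mul_assoc CN, ← hA, mul_left_comm, ← pow_add]
    exact mul_le_mul_of_nonneg_left n3 Ap
  have u6 : 2 * (c * M ^ 17) ≤ C * Mn := by
    rw [← mul_assoc]; exact mul_le_mul (by linarith) n1 (by positivity) C0
  have er := err M1 θ0 θ1 q0 cb0 K0 Ap (by linarith : 0 ≤ CN) c1.2
    (y := Mn * Y ^ (1 / 4 : ℝ)) (X := (c * M ^ 17) ^ nN * Y ^ (1 / 4 : ℝ)) (by positivity) (by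
      have := mul_le_mul_of_nonneg_right u4 (rpow_nonneg Y0 (1 / 4)); linarith)
  rw [← hB] at er
  have er' := er.trans (mul_le_mul_of_nonneg_right (by linarith : B ≤ C) (by positivity))
  clear er
  generalize c * M ^ 17 = M₂ at u1 u2 u4 u6 er'
  have u3 : M ≤ M₂ := by linarith
  have M20 : 0 < M₂ := by linarith
  have u5 : CN * M₂ ^ nN ≤ C * Mn :=
    ((le_mul_of_one_le_left (by positivity) (one_le_pow₀ M1)).trans u4).trans
      (mul_le_mul_of_nonneg_right (by linarith) n0)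
  have ng := hN Λ ω L N hE R Y M₂ hM g1 g2 (by linarith) ((mul_le_mul_of_nonneg_right u5 Y0).trans y1)
    ((mul_le_mul_of_nonneg_right u5 (by linarith)).trans l1)
  have ε1 : 0 ≤ CN * (M₂ ^ nN * Y ^ (1 / 4 : ℝ) + 1 / M₂) := by positivity
  generalize CN * (M₂ ^ nN * Y ^ (1 / 4 : ℝ) + 1 / M₂) = ε at ng er' ε1
  generalize C * (Mn * Y ^ (1 / 4 : ℝ) + 1 / M) = ε' at er' ⊢
  generalize gk ω R = g at ng g1 g2 ⊢
  have MR : 1 ≤ M * R := one_le_mul_of_one_le_of_one_le M1 R1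
  have MR2 : M * R ≤ M₂ * R := mul_le_mul_of_nonneg_right u3 (by linarith)
  obtain ⟨n, hn⟩ : ∃ n, n = ⌊M₂ * R⌋₊ := ⟨_, rfl⟩
  have nN' : n + 1 ≤ N := by
    have := Nat.floor_le (by linarith : 0 ≤ M₂ * R)
    have := mul_le_mul_of_nonneg_right u6 (by linarith : 0 ≤ R)
    exact (by rw [hn]; exact_mod_cast (by linarith : (⌊M₂ * R⌋₊ : ℝ) + 1 ≤ L) : n + 1 ≤ L).trans hE.le
  have zb : z ∈ bl 0 ⌊M * R⌋₊ := mem_bl_of_eu (by rw [sub_zero]; linarith [Nat.lt_floor_add_one (M * R)])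
  have sb : ∀ k, bl z ((μ + 3) * a + k) ⊆ bl 0 (n + k) := fun k => bl_subset_bl zb (by
    have : ⌊M * R⌋₊ + (μ + 3) * a ≤ ⌊M₂ * R⌋₊ := Nat.le_floor (by
      push_cast
      linarith [Nat.floor_le (by linarith : 0 ≤ M * R), mul_le_mul_of_nonneg_right u1 (by linarith : 0 ≤ R),
        mul_le_mul_of_nonneg_left a2 (by positivity : (0 : ℝ) ≤ μ + 3)])
    omega)
  have sc : R / M₂ ≤ R / M := div_le_div_of_nonneg_left (by linarith) M0 u3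
  have r0 : 0 < R / M₂ := div_pos (by linarith) M20
  have up : ∀ {v}, Sv R M v → Pot.Sup (bl 0 n) v ∧ Sm 3 Set.univ M (R / M₂) v ∧ Sv R M₂ v := fun h =>
    have s := h.1.mono (bl_mono 0 (Nat.floor_mono MR2))
    ⟨hn ▸ s, h.2.scale r0 sc, s, (h.2.scale r0 sc).mono le_rfl Set.Subset.rfl u3 r0⟩
  obtain ⟨v1, v2, v3⟩ := up s1
  obtain ⟨w1, -, w3⟩ := up s2
  obtain ⟨v4, v5⟩ := sv_facts R1 M1 s1
  obtain ⟨w4, w5⟩ := sv_facts R1 M1 s2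
  rw [B80.E0_congr s1.1 v1] at v4 ⊢
  rw [B80.E0_congr s2.1 w1] at w4
  simp only [Sv, ← hn] at ng v3 w3
  have Q1 : 1 ≤ 8 * M ^ 3 := by linarith [one_le_pow₀ (n := 3) M1]
  obtain ⟨P1, P2⟩ := pP Cd0 M1 R1 a.cast_nonneg a2
  rw [← hq] at P1 P2
  generalize q * M ^ 6 = P at P1 P2 er'
  generalize 8 * M ^ 3 = Q at P1 er' Q1 v4 w4 η1
  have P3 : 1 ≤ P := (one_le_pow₀ Q1).trans P1
  have b5 : bl z (5 * a) ⊆ bl 0 n := (bl_mono z (Nat.mul_le_mul_right _ (by omega))).trans (sb 0)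
  have hcb : FlF4.cB Λ.τ 3 ≤ cb := hb ▸ FlF4.cB_mono hE.mem.2.2.2 le_rfl
  have g0 : 0 ≤ g := by linarith
  have zz : z ∈ bl z (6 * a) := self_mem_bl _ _
  have evn : ∀ i, ev i ∈ nn := fun i => by fin_cases i <;> decide
  have tt : ∀ {v}, Lk v z (6 * a) k₁ k₂ → ∀ i, |6 * (a : ℝ) * dif (ev i) v z| ≤ 6 * (a * k₁) := fun h i => by
    rw [abs_mul, abs_of_nonneg (by positivity), mul_assoc, ← mul_assoc]
    exact (mul_le_mul_of_nonneg_left (h z zz _ (evn i)).1 (by positivity)).trans_eq (mul_assoc _ _ _)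
  have k1 : 0 ≤ (a : ℝ) * k₁ := by linarith [abs_nonneg (6 * (a : ℝ) * dif (ev 0) v z), tt l2 0]
  have k2 : 0 ≤ (a : ℝ) ^ 2 * k₂ :=
    mul_nonneg (sq_nonneg _) ((abs_nonneg _).trans ((l2 z zz _ (evn 0)).2 _ (evn 0)))
  have dt : ∀ {v}, Lk v z (6 * a) k₁ k₂ → ∀ i, |∑ x ∈ bl 0 n, v x * fd a i (x - z)| ≤ Cd * (a * k₁) ∧
      |∑ x ∈ bl 0 n, v x * fd a i (x - z) - 6 * a * dif (ev i) v z| ≤ Cd * (a ^ 2 * k₂) := fun h i => by
    rw [sum_fd a0 b5, ← mul_assoc, ← mul_assoc Cd]; exact (hd _ z a _ _ a0 h).1 i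
  have dP : ∀ {v k}, Lk v z (6 * a) (M ^ 2 / R) k → ∀ i,
      |∑ x ∈ bl 0 n, v x * fd a i (x - z)| ≤ P := fun h i => by
    rw [sum_fd a0 b5]; exact ((hd _ z a _ _ a0 h).1 i).1.trans P2
  have ε0 : 0 ≤ ε + 7 * (cb * (Cx / μ * Q ^ 2)) := by positivity
  have η0 : 0 ≤ Cx / μ * Q := by positivity
  have w0 : 0 ≤ (a : ℝ) ^ 2 * k₂ * (a * k₁) := mul_nonneg k2 k1
  have w6 : (a : ℝ) ^ 2 * k₂ * (a * k₁) ≤ a ^ 2 * k₂ * (a * k₁ + a ^ 2 * k₂) :=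
    mul_le_mul_of_nonneg_left (by linarith) k2
  have D0 : 0 ≤ Cd ^ 2 + 6 * Cd := by positivity
  have D4 : 0 ≤ Cd ^ 4 := by positivity
  have key : ∀ i, Ins 0 N (cp (fun y => fd a i (y - z)) 0) ∧
      (a * k₁ ≤ 1 → |cv ω (cp (fun y => fd a i (y - z)) 0) (cp (A0 v) 0) - exp (-4 * π ^ 2 * g * e0 a) *
        ((4 * π ^ 2 * g * (6 * a * dif (ev i) v z)) ^ 2 / 2) * exp (-2 * π ^ 2 * g * E0 (bl 0 n) v)| ≤
        ε' + K * (Cd ^ 4 + (Cd ^ 2 + 6 * Cd)) *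
          ((a * k₁) ^ 4 + (a : ℝ) ^ 2 * k₂ * (a * k₁ + (a : ℝ) ^ 2 * k₂))) ∧
      |cv ω (cp (fun y => fd a i (y - z)) 0) (fun s => X v s * X v' s) + 4 * π ^ 2 * g ^ 2 *
        exp (-4 * π ^ 2 * g * e0 a) * (6 * a * dif (ev i) v z * (6 * a * dif (ev i) v' z))| ≤
        ε' + K * (Cd ^ 4 + (Cd ^ 2 + 6 * Cd)) *
          ((a : ℝ) ^ 2 * k₂ * (a * k₁ + (a : ℝ) ^ 2 * k₂)) := fun i => by
    obtain ⟨ψ, p1, p2, p3, p4⟩ := hx a μ z i ax m3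
    have p5 : Pot.Sup (bl 0 n) ψ := p1.mono (sb 0)
    have p6 := p4.subset (Lat.edI_mono (sb 1))
    rw [B80.E0_congr p1 p5] at p3
    have p7 := p2.scale r0 (sc.trans a1)
    have p8 : Pot.Sup (bl 0 n) ψ ∧ Sm 3 Set.univ M₂ (R / M₂) ψ := ⟨p5, p7.mono le_rfl Set.Subset.rfl (by linarith) r0⟩
    have n1 := (ng ψ v v' p8 v3 w3 _ _ _ rfl rfl rfl).1
    refine ⟨(base ok hm nN' p5 θ0 p6 v1 Q1 v4 g0 g2 p3 η1 hcb n1).1, fun hk => ?_, ?_⟩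
    · refine (oneA ok hm nN' p5 θ0 p6 v1 Q1 v4 g0 g2 p3 η1 hcb n1 (c := Cd)
        ((dt l2 i).1.trans (mul_le_of_le_one_right Cd0 hk)) ((tt l2 i).trans (by linarith))
        (ng v v v' v3 v3 w3 _ _ _ rfl rfl rfl).1 fun c hc => (ng _ v v' ⟨fun x hx => ?_,
          (p7.add (v2.smul c)).mono le_rfl Set.Subset.rfl ?_ r0⟩ v3 w3 _ _ _ rfl rfl rfl).1).trans ?_
      · simp [p5 x hx, v1 x hx]
      · rcases hc with rfl | rfl <;> simpa using u2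
      · have d1 := dd_le (dt l2 i).1 (dt l2 i).2 (dt l2 i).2 (tt l2 i)
        have d2 := pow_le_pow_left₀ (abs_nonneg _) (dt l2 i).1 4
        rw [Even.pow_abs (by decide), mul_pow] at d2
        have d3 := mul_le_mul_of_nonneg_right P3 ε0
        have d4 := le_mul_of_one_le_left η0 (one_le_pow₀ (n := 2) P3)
        have d5 := mul_le_mul K2.1 (add_le_add_three d4 d2 (d1.trans
          (mul_le_mul_of_nonneg_left w6 D0))) (by positivity) K0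
        have d6 := mul_nonneg K0 (mul_nonneg D4 (w0.trans w6))
        have d7 := mul_nonneg K0 (mul_nonneg D0 (pow_nonneg k1 4))
        linarith
    · refine (oneB ok hm nN' p5 θ0 p6 v1 Q1 v4 g0 g2 p3 η1 hcb n1 w1 w4 P1 (dP (v5 _ _) i) (dP (w5 _ _) i)
        ?_ (ng ψ v v' p8 v3 w3 _ _ _ rfl rfl rfl).2.2).trans ?_
      · have := (ng 0 v v' ⟨fun _ _ => rfl, Sm.zero' _ _ (by linarith) r0⟩ v3 w3 _ _ _ rfl rfl rfl).2.2
        simpa [cp, E0, E1, show A0 (0 : Pt → ℝ) = 0 by simpa using A0_smul 0 (0 : Pt → ℝ)] using this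
      · have d1 := dd_le (dt l3 i).1 (dt l2 i).2 (dt l3 i).2 (tt l2 i)
        have d5 := mul_le_mul K2.2 (add_le_add_right (d1.trans (mul_le_mul_of_nonneg_left w6 D0))
          (P ^ 2 * (Cx / μ * Q))) (by positivity) K0
        have d6 := mul_nonneg K0 (mul_nonneg D4 (w0.trans w6))
        linarith
  have iv := ins_flow hm nN' (B80.f2_A0 v1)
  have iw := ins_flow hm nN' (B80.f2_A0 w1)
  refine ⟨fun hk => ?_, ?_⟩
  · have x := abs_le.1 ((key 0).2.1 hk)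
    have b := abs_le.1 ((key 1).2.1 hk)
    rw [cv_T1 hm (fun i => (key i).1) iv.2, kp, gr, Fin.sum_univ_two, ← e0, abs_le]
    constructor <;> linarith [x.1, x.2, b.1, b.2]
  · have x := abs_le.1 (key 0).2.2
    have b := abs_le.1 (key 1).2.2
    rw [cv_T1 hm (fun i => (key i).1) (G := fun s => X v s * X v' s) ⟨iv.1.1.mul iw.1.1, iv.1.2.mul iw.1.2⟩,
      kp, gr, Fin.sum_univ_two, ← e0, show ∀ e x : ℝ, e * (24 * π ^ 2 * g * a) ^ 2 / 4 * x / (2 * π ^ 2) =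
        72 * π ^ 2 * g ^ 2 * a ^ 2 * e * x from fun e x => by field_simp; ring, abs_le]
    constructor <;> linarith [x.1, x.2, b.1, b.2]

theorem x1Stmt (hN : NgStmt) (hX : XfStmt) (hD : DetStmt) : X1Stmt := x1_of_u (x1uStmt hN hX hD)

end Crest.Agent.T145.Ev
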