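import Crest.Agent.T145.EvXp_81

/-! # Row 145, even sector: the covariances with a net charge (helper81) -/

set_option autoImplicit false

namespace Crest.Agent.T145.Ev

open Finset Pot Xi Real Fl

namespace X81

variable {R b e ℓ ε φ : ℝ} {p : Par} {Λ : Lat} {ω : Sta} {L N n a : ℕ} {H : Cfg Pt → ℝ} {ξ ζ f : Pt → ℝ}
  {q q' : ℤ} {z : Pt}

/-- product of cosines -/
theorem half (h : Env p Λ ω L N) (hH : Ins 0 N H) (hξ : Chq (bl 0 N) ξ q) (hζ : Chq (bl 0 N) ζ q') :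
    ω (fun s => cp ξ 0 s * (H s * cp ζ φ s)) =
      (ω (fun s => H s * cp (ζ + ξ) φ s) + ω fun s => H s * cp (ζ - ξ) φ s) / 2 := by
  have a := hH.mul (ins_cp (hζ.add hξ) φ)
  have b := hH.mul (ins_cp (hζ.sub hξ) φ)
  rw [← h.ex_add a b, div_eq_inv_mul, ← h.ex_smul (a.add b).1]
  congr 1
  funext s
  have := cp_mul ζ ξ φ 0 s
  rw [add_zero, sub_zero] at this
  rw [mul_left_comm, mul_comm (cp ξ 0 s), this]
  ring

/-- charged expectations against `H` are small -/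
def Sml (ω : Sta) (H : Cfg Pt → ℝ) (n : ℕ) (R b ε : ℝ) : Prop := ∀ (q : ℤ) (ζ : Pt → ℝ) (φ : ℝ), q ≠ 0 →
  |q| ≤ 3 → F2 (nnL.edI (bl 0 n)) (ζ - (q : ℝ) • xi R) b → |ω fun s => H s * cp ζ φ s| ≤ ε

theorem chq_of (hR : 0 < R) (hN : 2 * R ≤ N) (hn : n ≤ N)
    (hf : F2 (nnL.edI (bl 0 n)) (ζ - (q : ℝ) • xi R) b) : Chq (bl 0 N) ζ q := by
  simpa using (chq hf hn).add ((chq_xi hR hN).zsmul q)

theorem prod (h : Env p Λ ω L N) (hR : 0 < R) (hN : 2 * R ≤ N) (hn : n ≤ N) (hH : Ins 0 N H)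
    (hs : Sml ω H n R b ε) (hξ : F2 (nnL.edI (bl 0 n)) (ξ - (q : ℝ) • xi R) e)
    (hζ : F2 (nnL.edI (bl 0 n)) (ζ - (q' : ℝ) • xi R) ℓ) (hb : 2 * (ℓ + e) ≤ b)
    (h1 : q' + q ≠ 0) (h2 : |q' + q| ≤ 3) (h3 : q' - q ≠ 0) (h4 : |q' - q| ≤ 3) :
    |ω fun s => cp ξ 0 s * (H s * cp ζ φ s)| ≤ ε := by
  rw [half h hH (chq_of hR hN hn hξ) (chq_of hR hN hn hζ)]
  have a := hs _ (ζ + ξ) φ h1 h2 (((hζ.add hξ).mono hb).congr (by push_cast; module))
  have b := hs _ (ζ - ξ) φ h3 h4 (((hζ.sub hξ).mono hb).congr (by push_cast; module))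
  rw [abs_le] at *
  constructor <;> linarith

theorem abs_cv {F G : Cfg Pt → ℝ} {x y u : ℝ} (h1 : |ω fun s => F s * G s| ≤ x) (h2 : |ω F| ≤ y)
    (h3 : |ω G| ≤ u) : |cv ω F G| ≤ x + y * u :=
  (abs_sub _ _).trans (add_le_add h1 ((abs_mul _ _).trans_le
    (mul_le_mul h2 h3 (abs_nonneg _) ((abs_nonneg _).trans h2))))

theorem trl_T1 (z : Pt) (a : ℕ) : trl z (T1 a) = fun s =>
    (cp (fun y => fd a 0 (y - z)) 0 s + cp (fun y => fd a 1 (y - z)) 0 s) / 2 := by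
  rw [← trl_cp, ← trl_cp]; rfl

theorem trl_T2 (z : Pt) (a : ℕ) : trl z (T2 a) = cp (fun y => xi a (y - z)) 0 := trl_cp _ _ _

theorem cvT1 (h : Env p Λ ω L N) (hR : 0 < R) (hN : 2 * R ≤ N) (hn : n ≤ N) (hH : Ins 0 N H)
    (hs : Sml ω H n R b ε) (hd : ∀ i, F2 (nnL.edI (bl 0 n)) (fun y => fd a i (y - z)) e)
    (hζ : F2 (nnL.edI (bl 0 n)) (ζ - (q : ℝ) • xi R) ℓ) (hb : 2 * (ℓ + e) ≤ b) (h1 : q ≠ 0) (h2 : |q| ≤ 3) :
    |cv ω (trl z (T1 a)) fun s => H s * cp ζ φ s| ≤ 2 * ε := by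
  have c := fun i => ins_cp (chq (hd i) hn) 0
  have g := hH.mul (ins_cp (chq_of hR hN hn hζ) φ)
  have k := fun i => prod (φ := φ) (q := 0) (ξ := fun y => fd a i (y - z)) h hR hN hn hH hs
    ((hd i).congr (by simp)) hζ hb (by simpa)
    (by simpa) (by simpa) (by simpa)
  rw [trl_T1, two_mul]
  refine (abs_cv (x := ε) (y := 1) ?_ (h.abs_ex_le (((c 0).add (c 1)).mul_const _).1 fun s => ?_)
    (hs q ζ φ h1 h2 (hζ.mono (by linarith [hζ.nonneg, (hd 0).nonneg])))).trans_eq (by ring)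
  · have e : (fun s => (cp (fun y => fd a 0 (y - z)) 0 s + cp (fun y => fd a 1 (y - z)) 0 s) * 2⁻¹ *
        (H s * cp ζ φ s)) = fun s => 2⁻¹ * (cp (fun y => fd a 0 (y - z)) 0 s * (H s * cp ζ φ s) +
          cp (fun y => fd a 1 (y - z)) 0 s * (H s * cp ζ φ s)) := funext fun s => by ring
    rw [e, h.ex_smul (((c 0).mul g).add ((c 1).mul g)).1, h.ex_add ((c 0).mul g) ((c 1).mul g)]
    have k0 := k 0
    have k1 := k 1
    rw [abs_le] at *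
    constructor <;> linarith
  · have k0 := abs_cp_le (fun y => fd a 0 (y - z)) 0 s
    have k1 := abs_cp_le (fun y => fd a 1 (y - z)) 0 s
    rw [abs_le] at *
    constructor <;> linarith

theorem eu_ev (a : ℕ) (i : Fin 2) : eu ((3 * a : ℤ) • ev i) = 3 * a := by
  fin_cases i <;> simp [eu, ev]

theorem log_two_le {M : ℝ} (hM : 2 ≤ M) : 1 ≤ 2 * log M := by
  linarith [log_two_gt_d9, log_le_log (by norm_num) hM]

/-- moving `ξ_R` to `ξ_a (· - z)` -/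
theorem move (hX : XfStmt) : ∃ C : ℝ, 0 ≤ C ∧ ∀ (R M : ℝ) (a n : ℕ), 1 ≤ R → 2 ≤ M → R / M ≤ a →
    (a : ℝ) ≤ M * R → 32 * (M * R) ≤ n →
    (∀ z, eu z ≤ 4 * (M * R) → F2 (nnL.edI (bl 0 n)) ((fun y => xi a (y - z)) - xi R) (C * log M)) ∧
    ∀ z, eu z ≤ M * R → ∀ i, F2 (nnL.edI (bl 0 n)) (fun y => fd a i (y - z)) (4 * (C * log M)) := by
  obtain ⟨C, C0, h, -⟩ := hX
  refine ⟨6 * C, by positivity, fun R M a n hR hM a1 a2 hn => ?_⟩
  have a0 : (1 : ℝ) ≤ a := by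
    have : (0 : ℝ) < a := (div_pos (by linarith) (by linarith)).trans_le a1
    exact_mod_cast (show 0 < a by exact_mod_cast this)
  rw [div_le_iff₀ (by linarith)] at a1
  have l1 := log_two_le hM
  have l2 : log (4 * M ^ 2) ≤ 4 * log M := by
    have : log (4 * M ^ 2) ≤ log (M ^ 4) := log_le_log (by positivity) (by
      nlinarith [mul_le_mul_of_nonneg_right (pow_le_pow_left₀ (by norm_num) hM 2) (sq_nonneg M)])
    rwa [log_pow] at this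
  have k : ∀ z, eu z ≤ 4 * (M * R) →
      F2 (nnL.edI (bl 0 n)) ((fun y => xi a (y - z)) - xi R) (6 * C * log M) := fun z hz =>
    (h (4 * M ^ 2) (4 * (M * R)) a R z n a0 hR (by nlinarith) (by nlinarith) hz (by nlinarith)
      (by nlinarith [mul_le_mul_of_nonneg_right hM (show 0 ≤ M * R by nlinarith)]) (by linarith)).mono
      (by nlinarith)
  refine ⟨k, fun z hz i => ?_⟩
  have e1 := (eu_add_le z ((3 * a : ℤ) • ev i)).trans_eq (by rw [eu_ev])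
  have e2 := (eu_add_le z (-((3 * a : ℤ) • ev i))).trans_eq (by rw [eu_neg, eu_ev])
  refine (((k _ (e1.trans (by linarith))).sub (k _ (e2.trans (by linarith)))).mono (by linarith)).congr ?_
  funext y
  simp only [fd, Pi.sub_apply, sub_add_eq_sub_sub, sub_neg_eq_add]
  ring

/-- the three clauses of CG -/
theorem sml {M : ℝ} {v v' : Pt → ℝ} (hv : Sv R M v) (hv' : Sv R M v')
    (h : ∀ (q : ℤ) (f v v' : Pt → ℝ) (φ : ℝ), q ≠ 0 → |q| ≤ 3 →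
      F2 (nnL.edI (bl 0 ⌊M * R⌋₊)) f (log M) → Sv R M v → Sv R M v' →
      |ω (cp ((q : ℝ) • xi R + f) φ)| ≤ ε ∧ |ω fun s => X v s * cp ((q : ℝ) • xi R + f) φ s| ≤ ε ∧
      |ω fun s => X v s * X v' s * cp ((q : ℝ) • xi R + f) φ s| ≤ ε) :
    Sml ω (fun _ => 1) ⌊M * R⌋₊ R (log M) ε ∧ Sml ω (X v) ⌊M * R⌋₊ R (log M) ε ∧
      Sml ω (fun s => X v s * X v' s) ⌊M * R⌋₊ R (log M) ε := by
  refine ⟨fun q ζ φ h1 h2 h3 => ?_, fun q ζ φ h1 h2 h3 => ?_, fun q ζ φ h1 h2 h3 => ?_⟩ <;>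
    have := h q _ v v' φ h1 h2 h3 hv hv' <;> rw [add_sub_cancel] at this
  exacts [by simpa only [one_mul] using this.1, this.2.1, this.2.2]

end X81

open X81 in
theorem x2Stmt (hC : CgStmt) (hX : XfStmt) : X2Stmt := by
  obtain ⟨C, C0, hX⟩ := move hX
  obtain ⟨K, hK⟩ := exists_nat_ge (8 * C + 6)
  have K6 : 6 ≤ K := by exact_mod_cast (show (6 : ℝ) ≤ K by linarith)
  refine Xp.lift hC fun p => ⟨K, 2 + 54 * |p.F.τ₂|, by linarith [abs_nonneg p.F.τ₂],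
    fun Λ ω L N h R M _ ε' _ ε hR hM _ l1 _ _ e0 e1 _ _ _ hf a z v v' a1 a2 a3 sv sv' => ?_⟩
  have τ0 := τ_pos h
  rw [abs_of_pos τ0] at l1 e1
  have M1 : 1 ≤ M := by linarith
  have R0 : 0 < R := by linarith
  obtain ⟨n1, n2⟩ := floor_lt (K := K + 1) hR hM (by omega)
  have mm : M ≤ M ^ (K + 1) := le_self_pow₀ M1 (by omega)
  have nN : ⌊M ^ (K + 1) * R⌋₊ ≤ N := Nat.floor_le_of_le (by
    have : (L : ℝ) ≤ N := by exact_mod_cast h.le
    nlinarith [mul_pos τ0 (show 0 < M ^ (K + 1) * R by positivity)])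
  have hN : 2 * R ≤ N := by
    have : (⌊M ^ (K + 1) * R⌋₊ : ℝ) ≤ N := by exact_mod_cast nN
    nlinarith
  obtain ⟨s1, s2, s3⟩ := sml (sv_mono sv R0 (by linarith) mm) (sv_mono sv' R0 (by linarith) mm) hf
  obtain ⟨d1, d2⟩ := hX R M a _ hR hM a1 a2 n1
  have d1 := (d1 z (by nlinarith)).congr
    (show (fun y => xi a (y - z)) - ((1 : ℤ) : ℝ) • xi R = _ by simp)
  have d2 := d2 z a3
  have l0 : 0 ≤ log M := log_nonneg M1
  have lb : 2 * (log M + 4 * (C * log M)) ≤ log (M ^ (K + 1)) := by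
    rw [log_pow]; push_cast; nlinarith
  have lb' : 2 * (log M + C * log M) ≤ log (M ^ (K + 1)) := by nlinarith
  have m6 : M ^ 6 ≤ M ^ K := pow_le_pow_right₀ M1 K6
  have m0 : 1 ≤ M ^ 6 := one_le_pow₀ M1
  have e2 : 2 * ε' ≤ ε := by
    nlinarith [mul_nonneg τ0.le (mul_nonneg (show 0 ≤ M ^ K by positivity) e0),
      mul_le_mul_of_nonneg_right (m0.trans m6) e0]
  have t2 : |ω (cp (fun y => xi a (y - z)) 0)| ≤ ε' := by
    simpa only [one_mul] using s1 1 _ 0 one_ne_zero (by norm_num) (d1.mono (by nlinarith))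
  have i1 := Ins.const 0 N 1
  have T : ∀ (q : ℤ) (ζ : Pt → ℝ) (φ : ℝ), q = 0 ∨ q = 2 →
      F2 (nnL.edI (bl 0 ⌊M ^ (K + 1) * R⌋₊)) (ζ - (q : ℝ) • xi R) (log M) →
      |cv ω (trl z (T2 a)) (cp ζ φ)| ≤ ε := fun q ζ φ hq hζ => by
    rw [trl_T2]
    refine (abs_cv (x := ε') ?_ t2 (h.ex_cp_le_one (chq_of R0 hN nN hζ) φ)).trans (by linarith)
    simpa only [one_mul] using prod (φ := φ) h R0 hN nN i1 s1 d1 hζ lb' (by omega)
      (by rcases hq with rfl | rfl <;> norm_num) (by omega) (by rcases hq with rfl | rfl <;> norm_num)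
  refine ⟨fun hE => T 0 _ 0 (Or.inl rfl) ((f2_up (B80.f2_A0 sv.1) n2 hE).congr (by simp)), ?_,
    fun f φ hf => ?_⟩
  · rw [trl_T2]
    refine (abs_cv (x := ε') ?_ t2 (XX_le h sv sv' hR M1 (n2.trans nN))).trans ?_
    · simpa only [mul_comm] using s3 1 _ 0 one_ne_zero (by norm_num) (d1.mono (by nlinarith))
    · nlinarith [mul_le_mul_of_nonneg_right (m0.trans m6) e0,
        mul_le_mul_of_nonneg_left (mul_le_mul_of_nonneg_right m6 e0) τ0.le]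
  have hf := f2_up hf (show _ ≤ ⌊M ^ (K + 1) * R⌋₊ by omega) le_rfl
  have f1 := hf.congr (show xi R + f - ((1 : ℤ) : ℝ) • xi R = f by simp)
  have f2 := hf.congr (show (2 : ℝ) • xi R + f - ((2 : ℤ) : ℝ) • xi R = f by simp)
  refine ⟨?_, (cvT1 h R0 hN nN (ins_X sv (n2.trans nN)) s2 d2 f1 lb one_ne_zero (by norm_num)).trans e2,
    ?_, T 2 _ φ (Or.inr rfl) f2⟩
  · simpa only [one_mul] using (cvT1 (φ := φ) h R0 hN nN i1 s1 d2 f1 lb one_ne_zero (by norm_num)).trans e2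
  · simpa only [one_mul] using (cvT1 (φ := φ) h R0 hN nN i1 s1 d2 f2 lb two_ne_zero (by norm_num)).trans e2

end Crest.Agent.T145.Ev
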