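import Crest.Agent.T145.EvDef_2
import Crest.Agent.T145.FlSXa_44
import Crest.Agent.T145.FlBare_80

/-!
# Row 145, the even sector, X4: `T2` against a linear factor times a unit charge (helper40)
-/

set_option autoImplicit false

namespace Crest.Agent.T145.Ev

open Finset Pot Xi Real Fl

namespace X40

/-- a potential against a charge with a flow -/
theorem pair {m n : ℕ} {v f : Pt → ℝ} {e b : ℝ} (hv : Pot.Sup (bl 0 m) v) (hn : m + 1 ≤ n)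
    (hf : F2 (nnL.edI (bl 0 n)) f (b ^ 2)) (he : E0 (bl 0 m) v ≤ e ^ 2) (e0 : 0 ≤ e) (b0 : 0 ≤ b) :
    |∑ x ∈ bl 0 m, v x * f x| ≤ e * b := by
  obtain ⟨φ, rfl, hφ⟩ := hf
  rw [sum_mul_dv v fun e _ => ⟨hv _, hv _⟩]
  rw [B80.E0_ed hv ((B80.gb_bl hv).mono (bl_mono 0 hn))] at he
  refine abs_le_of_sq_le_sq' ?_ (mul_nonneg e0 b0) |> abs_le.2
  refine (sum_mul_sq_le_sq_mul_sq _ _ _).trans ?_
  rw [mul_pow, mul_comm (e ^ 2)]
  exact mul_le_mul hφ he (sum_nonneg fun _ _ => sq_nonneg _) (sq_nonneg _)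

theorem f2_up {m n : ℕ} (h : m ≤ n) {f : Pt → ℝ} {a b : ℝ} (hf : F2 (nnL.edI (bl 0 m)) f a)
    (hab : a ≤ b) : F2 (nnL.edI (bl 0 n)) f b :=
  RJ57.f2_mono (hf.subset (Lat.edI_mono (bl_mono 0 h))) hab

theorem sum_sup {D D' : Finset Pt} {v : Pt → ℝ} (hD : Pot.Sup D v) (h : D ⊆ D') (f : Pt → ℝ) :
    ∑ x ∈ D', v x * f x = ∑ x ∈ D, v x * f x :=
  (sum_subset h fun x _ hx => by rw [hD x hx, zero_mul]).symm

/-- the energy of a smooth function in the hole -/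
theorem E0_hole {R M : ℝ} {v : Pt → ℝ} (hR : 4 ≤ R) (hM : 0 < M) (hv : Sm 3 Set.univ M (R / M) v)
    (hs : Pot.Sup (bl 0 ⌊R / 4⌋₊) v) : E0 (bl 0 ⌊R / 4⌋₊) v ≤ (3 * M ^ 2) ^ 2 := by
  refine (B80.E0_le hs (k := M / (R / M)) fun e he x _ => hv.one (by norm_num) he trivial).trans ?_
  have h1 : (⌊R / 4⌋₊ : ℝ) ≤ R / 4 := Nat.floor_le (by linarith)
  have h2 : ((bl (0 : Pt) ⌊R / 4⌋₊).card : ℝ) ≤ R ^ 2 := by
    rw [card_bl]; push_cast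
    exact pow_le_pow_left₀ (by positivity) (by linarith) 2
  have h3 : 0 < R := by linarith
  calc _ ≤ 6 * (M / (R / M)) ^ 2 * R ^ 2 := by gcongr
    _ = 6 * M ^ 4 := by field_simp
    _ ≤ _ := by nlinarith [pow_pos hM 4]

section state
variable {p : Par} {Λ : Lat} {N : ℕ} {ω : Sta} {m : Mdl Pt}

theorem up (hΛ : Λ.Ok) {n : ℕ} (hn : n ≤ N) {f : Pt → ℝ} {a : ℝ}
    (hf : F2 (nnL.edI (bl 0 n)) f a) : F2 (Λ.edI (bl 0 N)) f a := hf.subset fun e he => by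
  rw [Lat.mem_edI] at he ⊢
  exact ⟨nn_subset hΛ he.1, bl_mono _ hn he.2.1, bl_mono _ hn he.2.2⟩

theorem dep {f ξ : Pt → ℝ} {q : ℤ} (hf : Chq (bl 0 N) f 0) (h : Chq (bl 0 N) ξ q) (φ : ℝ) :
    DepG (bl 0 N) fun s => pr f s * cp ξ φ s := (ins_pr hf).1.mul (depG_cp h φ)

/-- product of two charges with a linear factor -/
theorem split (hm : Rep Λ ω m 0 N) {f ξ ζ : Pt → ℝ} {q q' : ℤ} (hf : Chq (bl 0 N) f 0)
    (h1 : Chq (bl 0 N) ξ q) (h2 : Chq (bl 0 N) ζ q') (φ : ℝ) :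
    ω (fun s => cp ζ 0 s * (pr f s * cp ξ φ s)) =
      (ω (fun s => pr f s * cp (ξ + ζ) φ s) + ω fun s => pr f s * cp (ξ - ζ) φ s) / 2 := by
  have hc := hm.1.ctr.cen hm.1.anch
  rw [hm.2 _ ((depG_cp h2 0).mul (dep hf h1 φ)), hm.2 _ (dep hf (h1.add h2) φ),
    hm.2 _ (dep hf (h1.sub h2) φ), ← Ex_add (hc.ig ((tame_pr _).mul (tame_cp _ _)))
      (hc.ig ((tame_pr _).mul (tame_cp _ _))), ← Ex_div_const]
  congr 1; funext s
  have := cp_mul ξ ζ φ 0 s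
  rw [add_zero, sub_zero] at this
  linear_combination pr f s * this

/-- moving the charge by a small flow -/
theorem lip (hΛ : p.F.Mem Λ) (hm : Rep Λ ω m 0 N) {f ξ ζ : Pt → ℝ} {q : ℤ} (h1 : Chq (bl 0 N) ξ q)
    {e a : ℝ} (he : 0 ≤ e) (ha : 0 ≤ a) (hf : F2 (Λ.edI (bl 0 N)) f (e ^ 2))
    (hr : F2 (Λ.edI (bl 0 N)) (ξ - ζ) (a ^ 2)) (φ : ℝ) :
    |ω (fun s => pr f s * cp ξ φ s) - ω fun s => pr f s * cp ζ φ s| ≤
      2 * π * (FlF4.cB p.F.τ₂ 2 * (e * a)) := by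
  have hc := hm.1.ctr.cen hm.1.anch
  have h2 : Chq (bl 0 N) ζ (q - 0) := by simpa using h1.sub (chq_flow hr)
  rw [hm.2 _ (dep (chq_flow hf) h1 φ), hm.2 _ (dep (chq_flow hf) h2 φ),
    ← Ex_sub (hc.ig ((tame_pr _).mul (tame_cp _ _))) (hc.ig ((tame_pr _).mul (tame_cp _ _)))]
  refine (FlF4.m2_ex (FlF4.amb_lat hm.1) ((FlF4.bd_pow₂ hΛ.ok he hf ha hr 1 1).smul
    (a := 2 * π) (by positivity)) fun s => ?_).trans ?_
  · rw [← mul_sub, abs_mul, pow_one, pow_one, mul_left_comm]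
    exact mul_le_mul_of_nonneg_left (abs_cp_sub_le _ _ _ s) (abs_nonneg _)
  · have := FlF4.cB_mono hΛ.tau_le (le_refl 2)
    rw [pow_one, pow_one]
    gcongr

end state

theorem one_le_log {M : ℝ} (hM : 2 ≤ M) : 1 ≤ 2 * log M := by
  have := log_le_log two_pos hM
  linarith [log_two_gt_d9]

theorem lift {C C' M y : ℝ} {k j n : ℕ} (hM : 2 ≤ M) (hy : 0 ≤ y) (h0 : 0 ≤ C') (hC : C' ≤ C)
    (hk : 1 ≤ k) (hn : k * j ≤ n) :
    C' * ((M ^ k) ^ j * y + 1 / M ^ k) ≤ C * (M ^ n * y + 1 / M) := by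
  have h1 : (1 : ℝ) ≤ M := by linarith
  have h2 : (M ^ k) ^ j ≤ M ^ n := by rw [← pow_mul]; exact pow_le_pow_right₀ h1 hn
  have h3 : M ≤ M ^ k := le_self_pow₀ h1 (by omega)
  have := h0.trans hC
  gcongr

theorem lift' {C C' M y t : ℝ} {k j n : ℕ} (hM : 2 ≤ M) (hy : 0 ≤ y) (h0 : 0 ≤ C') (hC : C' ≤ C)
    (hn : k * j ≤ n) (h : C * M ^ n * y ≤ t) : C' * (M ^ k) ^ j * y ≤ t := by
  have h1 : (1 : ℝ) ≤ M := by linarith
  have h2 : (M ^ k) ^ j ≤ M ^ n := by rw [← pow_mul]; exact pow_le_pow_right₀ h1 hn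
  have := h0.trans hC
  exact le_trans (by gcongr) h

/-- the final bookkeeping -/
theorem fin {a₁ a₂ a₃ t b g w δ Φ ψ ε₁ ε₂ u₁ u₂ u₃ : ℝ} (h1 : |a₁| ≤ ε₁) (h2 : |a₂ - a₃| ≤ u₁)
    (h3 : |a₃ - 2 * π * g * (-w - δ) * Φ| ≤ ε₂) (ht : |t| ≤ 1) (hb : |b| ≤ ε₁) (g0 : 0 ≤ g) (g1 : g ≤ 1)
    (hδ : |δ| ≤ u₂) (Φ0 : 0 ≤ Φ) (Φ1 : Φ ≤ 1) (hw : |w * (ψ - Φ)| ≤ u₃) :
    |(a₁ + a₂) / 2 - t * b + π * g * w * ψ| ≤ 2 * ε₁ + ε₂ + u₁ + 4 * u₂ + 4 * u₃ := by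
  have e : (a₁ + a₂) / 2 - t * b + π * g * w * ψ = (a₁ + (a₂ - a₃) +
      (a₃ - 2 * π * g * (-w - δ) * Φ)) / 2 - t * b + π * g * (w * (ψ - Φ)) - π * g * (δ * Φ) := by ring
  have p0 : 0 ≤ π * g := by positivity
  have p4 : π * g ≤ 4 := by nlinarith [pi_le_four, pi_pos]
  have k1 : |t * b| ≤ ε₁ := by
    rw [abs_mul]; exact (mul_le_of_le_one_left (abs_nonneg _) ht).trans hb
  have k2 : |π * g * (w * (ψ - Φ))| ≤ 4 * u₃ := by
    rw [abs_mul, abs_of_nonneg p0]; exact mul_le_mul p4 hw (abs_nonneg _) (by norm_num)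
  have k3 : |π * g * (δ * Φ)| ≤ 4 * u₂ := by
    rw [abs_mul, abs_of_nonneg p0, abs_mul, abs_of_nonneg Φ0]
    exact mul_le_mul p4 ((mul_le_of_le_one_right (abs_nonneg _) Φ1).trans hδ) (by positivity)
      (by norm_num)
  have := abs_nonneg a₁
  have := abs_nonneg (a₂ - a₃)
  have := abs_nonneg (a₃ - 2 * π * g * (-w - δ) * Φ)
  rw [e]
  rw [abs_le] at h1 h2 h3 k1 k2 k3 ⊢
  constructor <;> linarith [h1.1, h1.2, h2.1, h2.2, h3.1, h3.2, k1.1, k1.2, k2.1, k2.2, k3.1, k3.2]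

theorem expo {g E E' B δ : ℝ} (g0 : 0 ≤ g) (g1 : g ≤ 1) (E0 : 0 ≤ E) (h : |E - E'| ≤ δ) (hB : δ ≤ B) :
    |exp (-2 * π ^ 2 * g * E') - exp (-2 * π ^ 2 * g * E)| ≤ exp (20 * B) * (20 * δ) := by
  have p2 : π ^ 2 ≤ 10 := by nlinarith [pi_lt_d2, pi_pos]
  have p0 : 0 ≤ π ^ 2 * g := by positivity
  have p1 : π ^ 2 * g ≤ 10 := by nlinarith
  have d0 : 0 ≤ δ := (abs_nonneg _).trans h
  have h' := abs_le.1 h
  refine (SX44.abs_exp_sub (B := 20 * B) (by nlinarith [h'.1, h'.2]) (by nlinarith)).trans ?_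
  refine mul_le_mul_of_nonneg_left ?_ (exp_pos _).le
  rw [show -2 * π ^ 2 * g * E' - -2 * π ^ 2 * g * E = 2 * (π ^ 2 * g) * (E - E') by ring, abs_mul,
    abs_of_nonneg (by positivity)]
  exact mul_le_mul (by linarith) h (abs_nonneg _) (by norm_num)

theorem sv_up {R M M' : ℝ} {v : Pt → ℝ} (h : Sv R M v) (hR : 0 < R) (hM : 0 < M) (hM' : M ≤ M') :
    Sv R M' v :=
  ⟨h.1.mono (bl_mono 0 (Nat.floor_le_floor (by gcongr))),
    (h.2.scale (by have := hM.trans_le hM'; positivity) (by gcongr)).mono le_rfl subset_rfl hM'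
      (by have := hM.trans_le hM'; positivity)⟩

/-- the scales -/
structure Sc (R M : ℝ) (j n n' N : ℕ) : Prop where
  t8 : 8 * (M * R) ≤ n
  nM : (n : ℝ) ≤ M ^ 5 * R
  tn : M * R / n ≤ 2 / M ^ 4
  nn : n + 1 ≤ n'
  mn : ⌊M * R⌋₊ + 1 ≤ n
  qn : ⌊R / 4⌋₊ ≤ ⌊M * R⌋₊
  nN : n' + 1 ≤ N
  jM : (j : ℝ) * M ≤ M ^ (j + 1)

theorem sc {R M : ℝ} {j N : ℕ} (hR : 1 ≤ R) (hM : 2 ≤ M) (hj : 5 ≤ j) (hN : M ^ (j + 2) * R ≤ N) :
    Sc R M j ⌊M ^ 5 * R⌋₊ ⌊M ^ (j + 1) * R⌋₊ N := by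
  have M1 : (1 : ℝ) ≤ M := by linarith
  have h1 : (16 : ℝ) ≤ M ^ 4 := le_trans (by norm_num) (pow_le_pow_left₀ (by norm_num) hM 4)
  have h2 : 1 ≤ M * R := by nlinarith
  have h3 : 16 * (M * R) ≤ M ^ 5 * R := by nlinarith
  have h4 := Nat.lt_floor_add_one (M ^ 5 * R)
  have h5 : (⌊M ^ 5 * R⌋₊ : ℝ) ≤ M ^ 5 * R := Nat.floor_le (by positivity)
  have h6 : M ^ 6 * R ≤ M ^ (j + 1) * R := by gcongr; omega
  have h7 : (⌊M ^ (j + 1) * R⌋₊ : ℝ) ≤ M ^ (j + 1) * R := Nat.floor_le (by positivity)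
  have h8 : (⌊M * R⌋₊ : ℝ) ≤ M * R := Nat.floor_le (by positivity)
  have h9 : 2 * (M ^ 5 * R) ≤ M ^ 6 * R := by nlinarith
  refine ⟨by linarith, h5, ?_, Nat.le_floor (by push_cast; linarith),
    Nat.le_floor (by push_cast; linarith), Nat.floor_le_floor (by nlinarith), ?_, ?_⟩
  · rw [div_le_div_iff₀ (by linarith) (by positivity)]; nlinarith
  · have : ((⌊M ^ (j + 1) * R⌋₊ + 1 : ℕ) : ℝ) ≤ N := by
      push_cast; rw [pow_succ _ (j + 1)] at hN; nlinarith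
    exact_mod_cast this
  · rw [pow_succ]
    refine mul_le_mul_of_nonneg_right (le_trans ?_ (pow_le_pow_left₀ (by norm_num) hM j)) (by linarith)
    exact_mod_cast Nat.lt_two_pow_self.le

theorem num1 {C M l : ℝ} (C0 : 0 ≤ C) (M1 : 1 ≤ M) (h' : l ≤ M) :
    C * (1 + 2 * l) ≤ ((1 + 4 * C) * M) ^ 2 :=
  le_trans (by nlinarith) (le_self_pow₀ (a := (1 + 4 * C) * M) (by nlinarith) (by norm_num))

theorem num2 {C t M : ℝ} (C0 : 0 ≤ C) (t0 : 0 ≤ t) (h : t ≤ 2 / M ^ 4) :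
    C * t ^ 2 ≤ ((1 + C) * (2 / M ^ 4)) ^ 2 := by
  rw [mul_pow]
  exact mul_le_mul (by nlinarith) (pow_le_pow_left₀ t0 h 2) (by positivity) (by positivity)

theorem num3 {C C' M l j : ℝ} (C0 : 0 ≤ C) (C0' : 0 ≤ C') (M1 : 1 ≤ M) (h : l ≤ M)
    (hj : 8 * C' + 7 * C + 5 ≤ j) : C * (1 + 6 * l) + M ≤ j * M := by
  nlinarith [mul_nonneg C0 (sub_nonneg.2 M1), mul_nonneg C0 (sub_nonneg.2 h)]

theorem num4 {C l t j : ℝ} (C0 : 0 ≤ C) (h : 1 ≤ 2 * l) (ht : 8 * C + 2 ≤ j) (hj : t = (j + 1) * l) :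
    2 * (C * (1 + 2 * l) + l) ≤ t ∧ l ≤ t := by
  constructor <;> nlinarith

theorem num5 {CC CN CX CF cB A M e₁ e₂ x : ℝ} (CX0 : 0 ≤ CX) (cB0 : 0 < cB) (A0' : 0 ≤ A) (M1 : 1 ≤ M)
    (x0 : 0 ≤ x) (hA : A = 48 * cB * (1 + CX) + 24 * (1 + CX) + 480 * (1 + 4 * CF) * CX * exp (20 * CX))
    (l1 : e₂ ≤ CN * (x + 1 / M)) (l2 : e₁ ≤ CC * (x + 1 / M)) :
    2 * e₁ + e₂ + 2 * π * (cB * (3 * M ^ 2 * ((1 + CX) * (2 / M ^ 4)))) +
      4 * (3 * M ^ 2 * ((1 + CX) * (2 / M ^ 4))) +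
      4 * (3 * M ^ 2 * ((1 + 4 * CF) * M) * (exp (20 * CX) * (20 * (CX * (2 / M ^ 4))))) ≤
      (2 * CC + CN + A + CX) * (x + 1 / M) := by
  have M0 : 0 < M := by linarith
  have l3 : 3 * M ^ 2 * ((1 + CX) * (2 / M ^ 4)) ≤ 6 * (1 + CX) * (1 / M) := by
    rw [show 3 * M ^ 2 * ((1 + CX) * (2 / M ^ 4)) = 6 * (1 + CX) * (1 / M ^ 2) by field_simp; ring]
    gcongr; exact le_self_pow₀ M1 (by norm_num)
  have l4 : 2 * π * (cB * (3 * M ^ 2 * ((1 + CX) * (2 / M ^ 4)))) ≤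
      2 * 4 * (cB * (6 * (1 + CX) * (1 / M))) := by gcongr; exact pi_le_four
  have l5 : 3 * M ^ 2 * ((1 + 4 * CF) * M) * (exp (20 * CX) * (20 * (CX * (2 / M ^ 4)))) =
      120 * (1 + 4 * CF) * CX * exp (20 * CX) * (1 / M) := by field_simp; ring
  have l6 : 0 ≤ (A + CX) * x + CX * (1 / M) := by positivity
  have l7 : A * (1 / M) = _ := congrArg (· * (1 / M)) hA
  rw [l5]
  linarith

theorem big {p : Par} {Λ : Lat} {L n a : ℕ} {R Y M C : ℝ} (hY : Maj p Λ L R Y) (hC : 1 ≤ C) (hM : 2 ≤ M)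
    (hn : n ≠ 0) (h : C * M ^ n * Y ≤ 1) (ha : R / M ≤ a) : C ≤ a := by
  have M1 : 1 ≤ M := by linarith
  have Y0 := SX44.Y_pos hY
  have hMn : M ≤ M ^ n := le_self_pow₀ M1 hn
  have e1 : C * M ≤ 1 / Y := by rw [le_div_iff₀ Y0]; exact le_trans (by gcongr) h
  refine le_trans ?_ ha
  rw [le_div_iff₀ (by linarith)]
  exact e1.trans ((le_self_pow₀ (le_trans (by nlinarith) e1) (by norm_num)).trans (SX44.R_ge hY))

theorem hole {R : ℝ} {a : ℕ} {z y : Pt} (hR : 4 ≤ R) (ha : 16 * (a : ℝ) ≤ R) (h1 : y ∈ bl z (2 * a))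
    (h2 : y ∈ bl 0 ⌊R / 4⌋₊) : bl z ⌈2 * (a : ℝ) + 1⌉₊ ⊆ bl 0 ⌊R - 1⌋₊ := by
  have h3 : (⌊R / 4⌋₊ : ℝ) ≤ R / 4 := Nat.floor_le (by linarith)
  have h4 : ⌈2 * (a : ℝ) + 1⌉₊ ≤ 2 * a + 1 := Nat.ceil_le.2 (by push_cast; exact le_rfl)
  have h5 : 4 * a + 1 + ⌊R / 4⌋₊ ≤ ⌊R - 1⌋₊ := Nat.le_floor (by push_cast; linarith)
  refine bl_subset_bl (d := 2 * a + ⌊R / 4⌋₊) ?_ (by omega)
  rw [mem_bl] at h1 h2 ⊢
  simp only [Prod.fst_zero, Prod.snd_zero] at h2 ⊢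
  push_cast at h1 ⊢
  omega

end X40

open X40 in
theorem x4Stmt (hN : NgStmt) (hC : CgStmt) (hG : XgStmt) (hF : XfStmt) : X4Stmt := fun p => by
  obtain ⟨CN, nN, CN1, hN⟩ := hN p
  obtain ⟨CC, nC, CC1, hC⟩ := hC p
  obtain ⟨CX, CX0, hG⟩ := hG
  obtain ⟨CF, CF0, hF, -⟩ := hF
  obtain ⟨j, hj⟩ := exists_nat_ge (8 * CF + 7 * CX + 5)
  have cB0 := FlF4.cB_pos p.F.τ₂ 2
  obtain ⟨A, hA⟩ : ∃ A, A = 48 * FlF4.cB p.F.τ₂ 2 * (1 + CX) + 24 * (1 + CX) +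
    480 * (1 + 4 * CF) * CX * exp (20 * CX) := ⟨_, rfl⟩
  have A0' : 0 ≤ A := by rw [hA]; positivity
  obtain ⟨n₀, k1, k2, k3⟩ : ∃ n₀, (j + 1) * nN ≤ n₀ ∧ (j + 1) * nC ≤ n₀ ∧ j + 2 ≤ n₀ :=
    ⟨(j + 1) * nN + (j + 1) * nC + (j + 2), by omega, by omega, by omega⟩
  obtain ⟨C, hCe⟩ : ∃ C, C = 2 * CC + CN + A + CX := ⟨_, rfl⟩
  have C1 : 1 ≤ C := by linarith
  have C2 : CN ≤ C := by linarith
  have C3 : CC ≤ C := by linarith
  have C4 : CX ≤ C := by linarith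
  have j5 : 5 ≤ j := by exact_mod_cast (by linarith : (5 : ℝ) ≤ j)
  have j8 : 8 * CF + 2 ≤ j := by linarith
  have CN0 := zero_le_one.trans CN1
  have CC0 := zero_le_one.trans CC1
  refine ⟨C, n₀, C1, ?_⟩
  intro Λ ω L N hE R Y M hY g0 g1 hM h1 h2 a z v v'' w₁ ha ha' hz hv hs hv'' hE'' hw hc
  have M1 : 1 ≤ M := one_le_two.trans hM
  have M0 : 0 < M := one_pos.trans_le M1
  have Y0 := SX44.Y_pos hY
  have R1 := hY.1
  have R0 : 0 < R := one_pos.trans_le R1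
  have hl := one_le_log hM
  have hl' : log M ≤ M := (log_le_sub_one_of_pos M0).trans (sub_le_self _ zero_le_one)
  have haC := big hY C1 hM (by omega) h1 ha
  have a1 : (1 : ℝ) ≤ a := C1.trans haC
  have R4 : 4 ≤ R := by linarith only [a1, ha']
  have aR : (a : ℝ) ≤ R := by linarith only [a1, ha']
  have haM : R ≤ M * a := by rwa [div_le_iff₀' M0] at ha
  have S := sc (N := N) R1 hM j5 (by
    have := lift' (k := j + 2) (j := 1) hM R0.le zero_le_one C1 (by omega) h2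
    rw [pow_one, one_mul] at this
    exact this.trans (by exact_mod_cast hE.le))
  have hM' : M ≤ M ^ (j + 1) := le_self_pow₀ M1 (by omega)
  have hRM : R ≤ M * R := le_mul_of_one_le_left R0.le M1
  replace hN := hN Λ ω L N hE R Y (M ^ (j + 1)) hY g0 g1 (hM.trans hM')
    (lift' hM Y0.le CN0 C2 k1 h1) (lift' hM R0.le CN0 C2 k1 h2)
  replace hC := hC Λ ω L N hE R Y (M ^ (j + 1)) hY g0 g1 (hM.trans hM')
    (lift' hM Y0.le CC0 C3 k2 h1) (lift' hM R0.le CC0 C3 k2 h2)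
  generalize ⌊M ^ 5 * R⌋₊ = n at S
  obtain ⟨n', hn'⟩ : ∃ n', n' = ⌊M ^ (j + 1) * R⌋₊ := ⟨_, rfl⟩
  simp only [Sv, X, ← hn'] at hN hC S
  have s1 := S.nn
  have s2 := S.mn
  have s3 := S.qn
  have s4 := S.nN
  have n8 : 8 * (M * R) ≤ n' := S.t8.trans (by exact_mod_cast (by omega : n ≤ n'))
  obtain ⟨u, us, um, uf, ue⟩ := hG (M ^ 6) a R (M * R) z n a (one_le_pow₀ M1) (C4.trans haC) aR
    hRM hz S.t8 (S.nM.trans (by rw [pow_succ M 5, mul_assoc]; gcongr)) (by exact_mod_cast a1) le_rfl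
  replace hF := hF (M ^ 2) (M * R) a R z n' a1 R1 (aR.trans hRM) hRM hz
    (by rw [pow_two, mul_assoc]; gcongr) (by rw [pow_two, mul_assoc]; gcongr) n8
  clear hG
  obtain ⟨ζ, hζ⟩ : ∃ ζ : Pt → ℝ, ζ = fun y => xi a (y - z) := ⟨_, rfl⟩
  rw [log_pow] at hF um
  push_cast at hF um
  rw [← hζ] at hF uf
  obtain ⟨m, hm⟩ := hE.amb 0
  have ok := hE.mem.ok
  have hvk := sv_up hv R0 M0 hM'
  rw [Sv, ← hn'] at hvk
  have f1 := B80.f2_A0 hv''.1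
  have f2 := f2_up le_rfl uf (num2 CX0 (by positivity) S.tn)
  have f3 := f2_up le_rfl hF (num1 CF0 M1 hl')
  have eh := E0_hole R4 M0 hv.2 hs
  have c1 : Chq (bl 0 N) (xi R) 1 := chq_xi R0 (by
    have : (n' : ℝ) ≤ N := by exact_mod_cast (by omega : n' ≤ N)
    linarith only [this, n8, hRM, R0])
  have c2 : Chq (bl 0 N) ζ (0 + 1) := by
    simpa using (chq_flow (up ok (by omega) hF)).add c1
  have c3 : Chq (bl 0 N) (xi R - A0 v'') (1 - 0) := c1.sub (chq_A0 hv''.1 (by omega))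
  have c4 : Chq (bl 0 N) (A0 v) 0 := chq_A0 hs (by omega)
  have lg := num4 (t := log (M ^ (j + 1))) CF0 hl j8 (by rw [log_pow]; push_cast; rfl)
  -- the charged terms
  have t1 := (hC 2 (ζ - xi R - A0 v'') v v (-(π / 2)) (by norm_num) (by norm_num)
    (f2_up le_rfl (hF.sub (f2_up (by omega) f1 hE'')) lg.1) hvk hvk).2.1
  have t2 := (hC 1 (-A0 v'') v v (-(π / 2)) (by norm_num) (by norm_num)
    (f2_up (by omega) f1.neg (hE''.trans lg.2)) hvk hvk).2.1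
  -- the neutral term
  have su : Pot.Sup (bl 0 n') (u - v'') := fun x hx => by
    rw [Pi.sub_apply, us x fun h => hx (bl_mono 0 (by omega) h),
      hv''.1 x fun h => hx (bl_mono 0 (by omega) h), sub_zero]
  have sm : Sm 3 Set.univ (M ^ (j + 1)) (R / M ^ (j + 1)) (u - v'') := by
    have e0 : 0 < R / M ^ (j + 1) := by positivity
    have e1 : R / M ^ (j + 1) ≤ R / M := by gcongr
    exact ((um.scale e0 (e1.trans ha)).sub (hv''.2.scale e0 e1)).mono le_rfl subset_rfl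
      ((num3 CX0 CF0 M1 hl' hj).trans S.jM) e0
  have t3 := (hN (u - v'') v v ⟨su, sm⟩ hvk hvk _ _ _ rfl rfl rfl).2.1
  clear hN hC
  have t4 := lip (ζ := A0 (u - v'')) (a := (1 + CX) * (2 / M ^ 4)) hE.mem hm (c3.sub c2)
    (by positivity) (by positivity) (up ok (by omega) (f2_up le_rfl (B80.f2_A0 hs) eh))
    (by rw [A0_sub, show xi R - A0 v'' - ζ - (A0 u - A0 v'') = xi R - ζ - A0 u by ring]
        exact up ok (by omega) f2) (-(π / 2))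
  have w1 : ∑ x ∈ bl 0 ⌊R / 4⌋₊, v x * ζ x = w₁ := by
    rw [hw, hζ, ← sum_sup hs subset_union_left, ← sum_sup (D' := bl 0 ⌊R / 4⌋₊ ∪ bl z (2 * a))
      (chq_xi' (one_pos.trans_le a1) (by push_cast; exact le_rfl) z).1 subset_union_right]
    exact sum_congr rfl fun _ _ => mul_comm _ _
  have w2 : ∑ x ∈ bl 0 ⌊R / 4⌋₊, v x * xi R x = 0 := sum_eq_zero fun x hx => by
    rw [xi_in R0 (by linarith only [R4, Nat.floor_le (by positivity : 0 ≤ R / 4)]) hx, mul_zero]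
  have w3 : ∑ x ∈ bl 0 ⌊R / 4⌋₊, v x * A0 v'' x = 0 := by
    rcases hc with rfl | h
    · simp [A0]
    · rw [← sum_sup hs (bl_mono 0 s3)]; exact h.2
  have w4 : E1 (bl 0 n') v (u - v'') =
      -w₁ - ∑ x ∈ bl 0 ⌊R / 4⌋₊, v x * (xi R - ζ - A0 u) x := by
    rw [E1, sum_sup hs (bl_mono 0 (by omega)), A0_sub]
    simp only [Pi.sub_apply, mul_sub, sum_sub_distrib]
    rw [w1, w2, w3]; ring
  have w5 := pair hs (by omega) f2 eh (by positivity) (by positivity)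
  have w6 := pair hs (by omega) f3 eh (by positivity) (by positivity)
  simp only [Pi.sub_apply, mul_sub, sum_sub_distrib] at w6
  rw [w1, w2, sub_zero] at w6
  have g0' : 0 ≤ gk ω R := le_trans (by norm_num) g0
  have e0 := B80.E0_nonneg su
  have t5 : |w₁ * (ph (gk ω R) a R - exp (-2 * π ^ 2 * gk ω R * E0 (bl 0 n') (u - v'')))| ≤
      3 * M ^ 2 * ((1 + 4 * CF) * M) * (exp (20 * CX) * (20 * (CX * (2 / M ^ 4)))) := by
    by_cases h0 : w₁ = 0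
    · rw [h0, zero_mul, abs_zero]; positivity
    obtain rfl : v'' = 0 := hc.resolve_right fun h => h0 h.1
    obtain ⟨y, y1, y2⟩ := exists_ne_zero_of_sum_ne_zero (hw ▸ h0)
    have := ue (hole R4 ha' y1 (by_contra fun h => y2 (by rw [hs y h, mul_zero])))
    rw [sub_zero] at e0 su ⊢
    rw [B80.E0_congr us su, mul_div_assoc] at this
    rw [abs_mul]
    refine mul_le_mul w6 (expo g0' g1 e0 (this.trans (mul_le_mul_of_nonneg_left S.tn CX0)) ?_)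
      (abs_nonneg _) (by positivity)
    refine mul_le_of_le_one_right CX0 ((div_le_one (by positivity)).2 ?_)
    exact hM.trans (le_self_pow₀ M1 (by norm_num))
  rw [w4] at t3
  rw [show ((2 : ℤ) : ℝ) • xi R + (ζ - xi R - A0 v'') = xi R - A0 v'' + ζ by
    funext x; simp only [Pi.add_apply, Pi.sub_apply, Pi.smul_apply, smul_eq_mul]; push_cast; ring] at t1
  rw [Int.cast_one, one_smul, ← sub_eq_add_neg] at t2
  have t6 : |ω (cp ζ 0)| ≤ 1 := by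
    rw [hm.2 _ (depG_cp c2 0)]
    exact (hm.1.ctr.wt hm.1.anch 0).abs_ex_le fun s _ => abs_cp_le _ _ s
  rw [cv, T2, trl_cp, ← hζ]
  simp only [X]
  rw [split hm c4 c3 c2, hCe]
  have y0 : 0 ≤ Y ^ (1 / 4 : ℝ) := rpow_nonneg Y0.le _
  have e1 : 0 ≤ π ^ 2 * gk ω R * E0 (bl 0 n') (u - v'') := by positivity
  exact (fin t1 t4 t3 t6 t2 g0' g1 w5 (exp_pos _).le (exp_le_one_iff.2 (by linarith only [e1])) t5).trans
    (num5 CX0 cB0 A0' M1 (by positivity) hA (lift hM y0 CN0 le_rfl (by omega) k1)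
      (lift hM y0 CC0 le_rfl (by omega) k2))

end Crest.Agent.T145.Ev
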