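import Crest.Agent.T145.EvDef_2
import Crest.Agent.T145.FlXf_91

/-!
# Row 145, the even sector: two centres, two scales (`XgStmt`, helper91)
-/

set_option autoImplicit false

namespace Crest.Agent.T145.Ev

open Finset Pot Pot.Ha91 Xi Real Fl Fl.Xf91

namespace Xg91

/-- the potential of `ξ_R - ξ_a (· - z)` -/
noncomputable def vg (a R : ℝ) (z y : Pt) : ℝ := psi a (y - z) - psi R y

theorem A0_vg (a R : ℝ) (z y : Pt) : A0 (vg a R z) y = xi R y - xi a (y - z) := by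
  rw [show vg a R z = (fun y => psi a (y - z)) - psi R from rfl, A0_sub, Pi.sub_apply, A0_psi_sub, A0_psi,
    Pi.neg_apply]
  ring

theorem eu_le_bl {y : Pt} {r : ℕ} (h : y ∈ bl 0 r) : eu y ≤ 3 / 2 * r := by
  obtain ⟨h1, h2⟩ : |y.1| ≤ r ∧ |y.2| ≤ r := by simpa [mem_bl_abs] using h
  have a1 : |(y.1 : ℝ)| ≤ r := by exact_mod_cast h1
  have a2 : |(y.2 : ℝ)| ≤ r := by exact_mod_cast h2
  have b1 := sq_le_sq' (abs_le.1 a1).1 (abs_le.1 a1).2
  have b2 := sq_le_sq' (abs_le.1 a2).1 (abs_le.1 a2).2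
  exact sqrt_le_iff.2 ⟨by positivity, by nlinarith [sq_nonneg (r : ℝ)]⟩

theorem rad_add {z : Pt} {k L : ℕ} (h : bl z k ⊆ bl 0 L) : k + rad z ≤ L := by
  have h1 := h (add_mem_bl.2 (show ((k : ℤ), (k : ℤ)) ∈ bl 0 k by simp [mem_bl]))
  have h2 := h (add_mem_bl.2 (show (-(k : ℤ), -(k : ℤ)) ∈ bl 0 k by simp [mem_bl]))
  rw [mem_bl] at h1 h2
  simp only [Prod.fst_add, Prod.snd_add, Prod.fst_zero, Prod.snd_zero] at h1 h2
  unfold rad
  omega

theorem vg_pair {a R : ℝ} (ha : 0 < a) (hR : 1 ≤ R) {z : Pt} {D : Finset Pt} (h0 : bl 0 ⌈2 * R⌉₊ ⊆ D)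
    (hz : bl z ⌈2 * a⌉₊ ⊆ D) (h : bl z ⌈2 * a + 1⌉₊ ⊆ bl 0 ⌊R - 1⌋₊) :
    ∑ y ∈ D, vg a R z y * (xi R y - xi a (y - z)) = log (R / a) / (2 * π) - er a - er R := by
  have hR0 : 0 < R := by linarith
  have h1 := pp_eq a hR0 z h0
  have h2 := pp_eq' a ha z z hz
  have h3 := pp_eq R hR0 0 h0
  have h4 := pp_eq' R ha 0 z hz
  have h5 : pp R a z = Xi.cr R := by
    refine pp_in hR0 ha (n := ⌈2 * a + 1⌉₊) (by linarith [Nat.le_ceil (2 * a + 1)]) ?_ (mem_bl_rad z)
    have b1 : ((⌈2 * a + 1⌉₊ + rad z : ℕ) : ℝ) ≤ ⌊R - 1⌋₊ := by exact_mod_cast rad_add h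
    have b2 := Nat.floor_le (show 0 ≤ R - 1 by linarith)
    push_cast at b1
    linarith
  rw [pp_comm ha hR0, h5] at h1
  simp only [sub_zero, sub_self, zero_sub, pp_neg, pp_self ha, pp_self hR0, h5] at h2 h3 h4
  simp only [vg, sub_mul, mul_sub, sum_sub_distrib, h1, h2, h3, h4, ← cr_sub ha hR0]
  ring

theorem main : ∃ C : ℝ, 0 ≤ C ∧ ∀ (a R T : ℝ) (z : Pt) (n : ℕ), 16 ≤ a → a ≤ R → R ≤ T → eu z ≤ T →
    8 * T ≤ n → F2 (nnL.edI (bl 0 (n + 1)))
      (xi R - (fun y => xi a (y - z)) - A0 fun y => vg a R z y * Xi.chi (n / 2) y) (C * (T / n) ^ 2) ∧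
    (bl z ⌈2 * a + 1⌉₊ ⊆ bl 0 ⌊R - 1⌋₊ → |E0 (bl 0 n) (fun y => vg a R z y * Xi.chi (n / 2) y) -
      (log (R / a) / (2 * π) - er a - er R)| ≤ C * T / n) := by
  obtain ⟨C1, h1, hC1⟩ := sm_tc 2
  obtain ⟨C2, h2, hC2⟩ := tail
  refine ⟨4 * C2 * C1 ^ 2, by positivity, fun a R T z n ha haR hRT hz hn => ?_⟩
  have ha0 : 0 < a := by linarith
  have hR0 : 0 < R := by linarith
  have hT0 : 0 < T := by linarith
  have a0 := eu_nonneg z
  have a3 := Nat.ceil_lt_add_one (by linarith : 0 ≤ 2 * R)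
  have a3' := Nat.le_ceil (2 * R)
  have a4 := Nat.ceil_lt_add_one (by linarith : 0 ≤ 3 * T + 1)
  have a5 := Nat.le_ceil (3 * T + 1)
  have hn0 : (0 : ℝ) < n := by linarith
  have b0 : Sm 2 {w | (n : ℝ) / 2 - 8 ≤ eu w} (C1 * T / (n / 2)) (n / 2) (vg a R z) :=
    ((hC1 a (n / 2) z (by linarith) (by linarith) (by linarith)).mono le_rfl
      (fun w hw => by simp only [Set.mem_ofPred_eq] at hw ⊢; linarith) (by gcongr) (by linarith)).congr
      fun w hw w' hw' => by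
        have c1 := (eu_near hw').2
        have c2 : w' ∉ bl 0 ⌈2 * R⌉₊ := fun h => by
          have := eu_le_bl h
          simp only [Set.mem_ofPred_eq] at hw
          push_cast at c1
          linarith
        rw [vg, tc, psi_out hR0 (by linarith) c2, psi_out ha0 (by linarith) c2]
  obtain ⟨-, b1, b2⟩ := hC2 (vg a R z) (n / 2) _ (by linarith) (by positivity) b0
  obtain ⟨s0, s1, s2⟩ := shifted ha0 (z := z) (m := ⌈3 * T + 1⌉₊) (by linarith)
  set m := ⌈3 * T + 1⌉₊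
  have s3 : 2 * R ≤ m := by linarith
  have hA : A0 (vg a R z) = xi R - fun y => xi a (y - z) := funext (A0_vg a R z)
  have hs : Pot.Sup (bl 0 m) (A0 (vg a R z)) := fun y hy => by
    rw [A0_vg, s1 y hy, sup_xi hR0 s3 y hy, sub_zero]
  have e : C2 * (C1 * T / (n / 2)) ^ 2 = 4 * C2 * C1 ^ 2 * (T / n) ^ 2 := by field_simp; ring
  constructor
  · have c1 := b2 m (n + 1) (by linarith) (by push_cast; linarith) hs
      (by simp only [A0_vg, sum_sub_distrib, s2, sum_xi hR0 s3, sub_self])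
    rwa [A0_tl, hA, e] at c1
  · intro h
    have c1 := b1 n (by linarith) (by linarith)
    have c2 := vg_pair ha0 (by linarith) (bl_mono 0 (Nat.ceil_le.2 s3)) s0 h
    have c3 : ∑ y ∈ bl 0 n, vg a R z y * Xi.chi (n / 2) y * A0 (vg a R z) y =
        ∑ y ∈ bl 0 m, vg a R z y * (xi R y - xi a (y - z)) := by
      rw [← sum_subset (bl_mono 0 (show m ≤ n by exact_mod_cast (by linarith : (m : ℝ) ≤ n)))
        fun y _ hy => by rw [hs y hy, mul_zero]]
      exact sum_congr rfl fun y hy => by rw [chi_one (by linarith) (by linarith) hy, mul_one, A0_vg]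
    simp only [A0_tl, Pi.sub_apply, mul_sub, sum_sub_distrib] at c1
    rw [c3, c2, abs_sub_comm, e] at c1
    refine c1.trans ?_
    rw [mul_div_assoc, pow_two (T / n)]
    gcongr
    exact mul_le_of_le_one_left (by positivity) (by rw [div_le_one hn0]; linarith)

end Xg91

open Xg91

theorem xgStmt : XgStmt := by
  obtain ⟨C2, h2, hC2⟩ := sm_two 3
  obtain ⟨C3, h3, hC3⟩ := Xg91.main
  obtain ⟨C4, h4, hC4⟩ := sm_chi 3
  have h5 : 0 ≤ 16 * C2 * C4 := by positivity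
  refine ⟨C3 + 16 * C2 * C4 + 16, by positivity, fun M a R T z n r a1 a2 a3 a4 a5 a6 a7 a8 a9 => ?_⟩
  have hl := log_nonneg a1
  have hr : (0 : ℝ) < r := by exact_mod_cast a8
  obtain ⟨c1, c2⟩ := hC3 a R T z n (by linarith) a3 a4 a5 a6
  have hT : 0 < T := by linarith
  refine ⟨_, fun y hy => by simp only [sup_chi (by linarith : (0 : ℝ) < n / 2) (by linarith) y hy, mul_zero],
    ?_, RJ57.f2_mono c1 (by gcongr; linarith), fun h => (c2 h).trans (by gcongr; linarith)⟩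
  have c3 := (hC2 a R r (2 * M) z 0 Set.univ (by linarith) (by linarith) hr (by linarith) fun w _ => by
    have c1 := eu_add_le (w - z) z
    have c2 := eu_add_le w (-z)
    have c3 := eu_nonneg w
    have c4 := eu_nonneg (w - z)
    have c5 : M * a ≤ M * R := by gcongr
    have c6 : R ≤ M * R := by nlinarith
    rw [sub_add_cancel] at c1
    rw [eu_neg, ← sub_eq_add_neg] at c2
    rw [sub_zero]
    exact ⟨by linarith, by linarith, by nlinarith, by nlinarith⟩).mul_univ hr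
    ((hC4 (n / 2) (by linarith)).scale hr (by linarith))
  simp only [sub_zero] at c3
  refine c3.mono le_rfl Set.Subset.rfl ?_ hr
  rw [log_mul two_ne_zero (by linarith)]
  calc _ ≤ 2 ^ 3 * (C2 * (2 * (1 + log M))) * C4 := by
        gcongr; linarith [log_le_sub_one_of_pos two_pos]
    _ = 16 * C2 * C4 * (1 + log M) := by ring
    _ ≤ _ := by gcongr; linarith

end Crest.Agent.T145.Ev
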