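import Crest.Agent.T145.FlDef_82
import Crest.Agent.T145.XiC_22
import Crest.Agent.T145.FlFus_4
import Crest.Agent.T145.AFac_66
import Crest.Agent.T145.Route_51

/-!
# Row 145, flow: charged expectations are small, `CmStmt` (helper62)
-/

set_option autoImplicit false

namespace Crest.Agent.T145.Fl

open Finset Pot Xi Real

namespace Cm62

theorem cw_pos {w : ℕ} (hw : 4 ≤ w) : 0 < cw w ∧ cw w ≤ 1 := by
  have h1 : (1 : ℝ) ≤ (w : ℝ) ^ 4 := one_le_pow₀ (by exact_mod_cast (by omega : 1 ≤ w))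
  have h2 : log 2 ≤ log (4 * (w : ℝ) ^ 4) := log_le_log (by norm_num) (by linarith)
  have h3 : 0 < log 2 := log_pos (by norm_num)
  exact ⟨div_pos h3 (by linarith), (div_le_one (by linarith)).2 h2⟩

theorem ew_pos {w : ℕ} (hw : 4 ≤ w) : 0 < ew w ∧ ew w ≤ 1 / 100 := by
  obtain ⟨h1, h2⟩ := cw_pos hw
  unfold ew
  constructor <;> linarith

theorem rpow_le {M e : ℝ} (hM : 1 ≤ M) (he : e ≤ 1) : M ^ e ≤ M := by
  simpa using rpow_le_rpow_of_exponent_le hM he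

theorem abs_cp (ξ : Pt → ℝ) (φ : ℝ) (s : Cfg Pt) : |cp ξ φ s| ≤ 1 := abs_cos_le_one _

theorem tame_cp (ξ : Pt → ℝ) (φ : ℝ) : Tame (cp ξ φ) := Tame.bdd (abs_cp ξ φ)

theorem depG_cp {U : Finset Pt} {ξ : Pt → ℝ} {q : ℤ} (h : Chq U ξ q) (φ : ℝ) : DepG U (cp ξ φ) :=
  fun s s' k e => by
    have h1 : pr ξ s' = pr ξ s + q * k := by
      rw [pr_of_fsupp ξ s' h.1, pr_of_fsupp ξ s h.1, ← h.2, sum_mul, ← sum_add_distrib]
      exact sum_congr rfl fun x hx => by rw [e x hx]; push_cast; ring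
    unfold cp
    rw [h1, show 2 * π * (pr ξ s + q * k) + φ = 2 * π * pr ξ s + φ + ((q * k : ℤ) : ℝ) * (2 * π) by
      push_cast; ring, cos_add_int_mul_two_pi]

theorem Chq.mono {U U' : Finset Pt} {ξ : Pt → ℝ} {q : ℤ} (h : Chq U ξ q) (hU : U ⊆ U') : Chq U' ξ q :=
  ⟨h.1.mono hU, by rw [← h.2]; exact (sum_subset hU fun x _ hx => h.1 x hx).symm⟩

theorem chq_xi {R : ℝ} (hR : 0 < R) {n : ℕ} (hn : 2 * R ≤ n) (q : ℤ) :
    Chq (bl 0 n) ((q : ℝ) • xi R) q :=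
  ⟨fun x hx => by simp [sup_xi hR hn x hx], by simp [← mul_sum, sum_xi hR hn]⟩

theorem Chq.add_flow {c : Pt} {N : ℕ} {ξ f : Pt → ℝ} {q : ℤ} {n : ℝ} (h : Chq (bl c N) ξ q)
    (hf : F2 (nnL.edI (bl c N)) f n) : Chq (bl c N) (ξ + f) q := by
  have hE : ∀ e ∈ nnL.edI (bl c N), e.1 ∈ bl c N ∧ e.2 ∈ bl c N := fun e he => (Lat.mem_edI.1 he).2
  refine ⟨fun x hx => ?_, ?_⟩
  · rw [Pi.add_apply, h.1 x hx, hf.sup hE x hx, add_zero]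
  · simp only [Pi.add_apply, sum_add_distrib, h.2, hf.neutral hE, add_zero]

/-- in a centred model the phase comes out -/
theorem ex_cp {W : Cfg Pt → ℝ} (h : Cen W) (ξ : Pt → ℝ) (φ : ℝ) :
    Ex W (cp ξ φ) = cos φ * Ph W ((2 * π) • pr ξ) := by
  have h1 : cp ξ φ = fun s => cos φ * cos (((2 * π) • pr ξ) s) - sin φ * sin (((2 * π) • pr ξ) s) := by
    funext s
    simp only [cp, cos_add, AddMonoidHom.smul_apply, smul_eq_mul]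
    ring
  rw [h1, Ex_sub (h.ig ((Tame.cos _).const_mul _)) (h.ig ((Tame.sin _).const_mul _)), Ex_const_mul,
    Ex_const_mul, h.ex_odd (F := fun s => sin (((2 * π) • pr ξ) s)) fun s => by rw [map_neg, sin_neg]]
  simp [Ph]

theorem nn_sub {Λ : Lat} (h : Λ.Ok) (B : Finset Pt) : nnL.edI B ⊆ Λ.edI B := fun e he => by
  rw [Lat.mem_edI] at *; exact ⟨Pot.nn_subset h he.1, he.2⟩

/-- CH: adding a neutral charge with a flow -/
theorem ch {Λ : Lat} {ω : (Cfg Pt → ℝ) → ℝ} {m : Mdl Pt} {c : Pt} {N : ℕ} (hΛ : Λ.Ok)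
    (hm : Rep Λ ω m c N) {ξ f : Pt → ℝ} {q : ℤ} {n : ℝ} (h : Chq (bl c N) ξ q)
    (hf : F2 (nnL.edI (bl c N)) f n) (φ : ℝ) :
    ω (cp (ξ + f) φ) ^ 2 ≤ exp (4 * π ^ 2 * (Λ.τ * n)) * |ω (cp ξ 0)| := by
  have ha := FlF4.amb_lat hm.1
  have hc := ha.cen
  rw [hm.2 _ (depG_cp (Chq.add_flow h hf) φ), hm.2 _ (depG_cp h 0), ex_cp hc, ex_cp hc, cos_zero, one_mul,
    pr_add, smul_add, mul_pow]
  have h1 := (AF66.part2 0 ((2 * π) • pr ξ) ((2 * π) • pr f) hc).1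
  have h2 := ha.vr_le hΛ (hf.subset (nn_sub hΛ _))
  rw [Vr_smul_smul] at h1
  have h3 : exp ((2 * π) ^ 2 * Vr (m.W 0) (pr f) (pr f)) ≤ exp (4 * π ^ 2 * (Λ.τ * n)) :=
    exp_le_exp.2 (by nlinarith [pi_pos, mul_pos pi_pos pi_pos])
  calc _ ≤ 1 * Ph (m.W 0) ((2 * π) • pr ξ + (2 * π) • pr f) ^ 2 :=
        mul_le_mul_of_nonneg_right (cos_sq_le_one φ) (sq_nonneg _)
    _ ≤ exp ((2 * π) ^ 2 * Vr (m.W 0) (pr f) (pr f)) * |Ph (m.W 0) ((2 * π) • pr ξ)| := by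
        rw [one_mul]
        exact h1.trans (mul_le_mul_of_nonneg_left (le_abs_self _) (exp_pos _).le)
    _ ≤ _ := mul_le_mul_of_nonneg_right h3 (abs_nonneg _)

/-- the potential of `q ξ_R` is smooth at every scale below `R` -/
theorem lr_xi : ∃ C : ℝ, 0 ≤ C ∧ ∀ (R : ℝ) (r : ℕ) (q : ℝ) (z : Pt), 1 ≤ r → (r : ℝ) ≤ R →
    Lr (q • xi R) ((-q) • psi R) z r (|q| * C) := by
  obtain ⟨C, h0, hC⟩ := difs_psi' 3
  refine ⟨C, h0, fun R r q z hr hR => ⟨mul_nonneg (abs_nonneg _) h0, fun y _ => ?_⟩⟩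
  have hr' : (1 : ℝ) ≤ r := by exact_mod_cast hr
  have key : ∀ ys : List Pt, 1 ≤ ys.length → ys.length ≤ 3 → (∀ y ∈ ys, y ∈ nn) →
      |difs ys ((-q) • psi R) y| ≤ |q| * C / (r : ℝ) ^ ys.length := fun ys h1 h3 hn => by
    rw [difs_smul, Pi.smul_apply, smul_eq_mul, abs_mul, abs_neg, mul_div_assoc]
    refine mul_le_mul_of_nonneg_left ((hC R (by linarith) ys h1 h3 hn y).trans ?_) (abs_nonneg _)
    exact div_le_div_of_nonneg_left h0 (by positivity)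
      (pow_le_pow_left₀ (by linarith) (by linarith [eu_nonneg y]) _)
  refine ⟨by rw [A0_smul, A0_psi]; simp, fun e he e' he' => ⟨key [e, e'] (by simp) (by simp) ?_,
    fun e'' he'' => key [e, e', e''] (by simp) (by simp) ?_⟩⟩
  · simp [he, he']
  · simp [he, he', he'']

/-- the scales of the argument -/
structure Sc (w r₀ L N : ℕ) (R : ℝ) (a r b : ℕ) : Prop where
  R1 : 1200 ≤ R
  a1 : 2 * R ≤ a
  a2 : (a : ℝ) ≤ 3 * R
  r1 : (r : ℝ) ≤ R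
  r2 : R / 2 ≤ r
  hb : b = 16 * w * a
  b2 : 2 * (b : ℝ) + 1 ≤ 100 * w * R
  ab : a ≤ b
  bL : b ≤ L
  wr : w * r ≤ L
  bN : w * r + b ≤ N
  a4 : a ≤ N / 4
  a0 : r₀ ≤ a
  RL : 2 * R + 1 ≤ L

theorem sc {w r₀ L N : ℕ} {R : ℝ} (w4 : 4 ≤ w) (R1 : 1200 ≤ R) (h0 : (r₀ : ℝ) ≤ R)
    (hL : (50 * w + 1200) * R ≤ L) (hN : L ≤ N) : Sc w r₀ L N R ⌈2 * R⌉₊ ⌊R⌋₊ (16 * w * ⌈2 * R⌉₊) := by
  have a1 : 2 * R ≤ ⌈2 * R⌉₊ := Nat.le_ceil _
  have a2 : (⌈2 * R⌉₊ : ℝ) ≤ 3 * R := by linarith [Nat.ceil_lt_add_one (by linarith : 0 ≤ 2 * R)]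
  have r1 : (⌊R⌋₊ : ℝ) ≤ R := Nat.floor_le (by linarith)
  have r2 : R / 2 ≤ ⌊R⌋₊ := by linarith [Nat.lt_floor_add_one R]
  generalize ⌈2 * R⌉₊ = a at *
  generalize ⌊R⌋₊ = r at *
  have w4' : (4 : ℝ) ≤ w := by exact_mod_cast w4
  have hN' : (L : ℝ) ≤ N := by exact_mod_cast hN
  have h1 : (w : ℝ) * a ≤ w * (3 * R) := mul_le_mul_of_nonneg_left a2 (by linarith)
  have h2 : (w : ℝ) * r ≤ w * R := mul_le_mul_of_nonneg_left r1 (by linarith)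
  have h3 : 4 * R ≤ w * R := mul_le_mul_of_nonneg_right w4' (by linarith)
  refine ⟨R1, a1, a2, r1, r2, rfl, by push_cast; linarith, by nlinarith, ?_, ?_, ?_, ?_, ?_, by linarith⟩
  · exact_mod_cast (by push_cast; linarith : ((16 * w * a : ℕ) : ℝ) ≤ L)
  · exact_mod_cast (by push_cast; linarith : ((w * r : ℕ) : ℝ) ≤ L)
  · exact_mod_cast (by push_cast; linarith : ((w * r + 16 * w * a : ℕ) : ℝ) ≤ N)
  · rw [Nat.le_div_iff_mul_le (by norm_num)]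
    exact_mod_cast (by push_cast; linarith : ((a * 4 : ℕ) : ℝ) ≤ N)
  · exact_mod_cast (by linarith : (r₀ : ℝ) ≤ a)

theorem g_low {CK Y e g g' : ℝ} (CK0 : 0 ≤ CK) (Y0 : 0 < Y) (Y1 : Y ≤ 1) (e1 : e ≤ 1 / 100)
    (h : |g - g'| ≤ CK * Y ^ 2 * 1200 ^ (2 * e)) (hg : 1 / 4 ≤ g) (hY : 9600 * CK * Y ≤ 1) : 1 / 8 ≤ g' := by
  have h2 : (1200 : ℝ) ^ (2 * e) ≤ 1200 := rpow_le (by norm_num) (by linarith)
  have h3 : CK * Y ^ 2 * 1200 ^ (2 * e) ≤ CK * Y * 1200 :=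
    mul_le_mul (mul_le_mul_of_nonneg_left (by nlinarith) CK0) h2 (by positivity) (by positivity)
  linarith [(abs_le.1 h).2]

theorem far_le {w r₀ L N a r b : ℕ} {R CF ν Y e c : ℝ} (h : Sc w r₀ L N R a r b) (CF0 : 0 ≤ CF)
    (_ : 0 ≤ ν) (ν1 : ν ≤ 1) (Y0 : 0 < Y) (e1 : e ≤ 1 / 100) (c0 : 0 < c) :
    CF * ν * Y * ((a : ℝ) / R) ^ e * (((a : ℝ) / b) ^ (c / 2) + ((a : ℝ) / L) ^ (c / 2)) ≤ 6 * CF * Y := by
  have R0 : 0 < R := by linarith [h.R1]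
  have h4 : ((a : ℝ) / R) ^ e ≤ 3 :=
    (rpow_le ((le_div_iff₀ R0).2 (by linarith [h.a1])) (by linarith)).trans ((div_le_iff₀ R0).2 h.a2)
  have h5 : ((a : ℝ) / b) ^ (c / 2) ≤ 1 := rpow_le_one (by positivity)
    (div_le_one_of_le₀ (by exact_mod_cast h.ab) (Nat.cast_nonneg _)) (by linarith)
  have h6 : ((a : ℝ) / L) ^ (c / 2) ≤ 1 := rpow_le_one (by positivity)
    (div_le_one_of_le₀ (by exact_mod_cast h.ab.trans h.bL) (Nat.cast_nonneg _)) (by linarith)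
  calc _ ≤ CF * 1 * Y * 3 * (1 + 1) := by gcongr
    _ = _ := by ring

theorem near_le {R r CL Cp Y e q : ℝ} (R0 : 0 < R) (r2 : R / 2 ≤ r) (CL0 : 0 ≤ CL) (Cp0 : 0 ≤ Cp)
    (Y0 : 0 < Y) (Y1 : Y ≤ 1) (e1 : e ≤ 1 / 100) (q3 : |q| ≤ 3) :
    CL * (1 + |q| * Cp) ^ 2 * 2 ^ (2 * e) * (Y + Y ^ 2) / r ^ 2 ≤
      16 * (CL * (1 + 3 * Cp) ^ 2) * Y / R ^ 2 := by
  have h2 : (2 : ℝ) ^ (2 * e) ≤ 2 := rpow_le (by norm_num) (by linarith)
  have h3 : Y + Y ^ 2 ≤ 2 * Y := by nlinarith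
  calc _ ≤ CL * (1 + 3 * Cp) ^ 2 * 2 * (2 * Y) / (R / 2) ^ 2 := by gcongr
    _ = _ := by field_simp; ring

theorem fin_le {x y g q A B B' : ℝ} (h : x + y = 0) (hx : |x| ≤ B) (hy : |y - 2 * π * g * q * A| ≤ B')
    (hg : 1 / 8 ≤ g) (q1 : 1 ≤ |q|) : |A| ≤ 2 * (B + B') := by
  have h1 : |2 * π * g * q * A| ≤ B + B' := by
    rw [abs_le] at hx hy ⊢
    constructor <;> linarith [hx.1, hx.2, hy.1, hy.2]
  have h3 : 1 / 2 ≤ 2 * π * g := by nlinarith [pi_gt_three]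
  rw [abs_mul, abs_mul, abs_of_pos (by linarith : 0 < 2 * π * g)] at h1
  have h2 : 1 / 2 ≤ 2 * π * g * |q| := by nlinarith
  nlinarith [abs_nonneg A]

theorem ch_le {x A C Y τ t n : ℝ} (h : x ^ 2 ≤ exp (4 * π ^ 2 * (τ * n)) * |A|) (hA : |A| ≤ C * Y)
    (Y0 : 0 < Y) (C1 : 1 ≤ C) (_ : 0 < τ) (ht : τ ≤ t) (hC : 20 * t ≤ C) (n0 : 0 ≤ n) :
    |x| ≤ C * √Y * exp (C * n) := by
  have h2 : 4 * π ^ 2 * (τ * n) ≤ C * n + C * n := by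
    have h3 : π ^ 2 ≤ 10 := by nlinarith [pi_lt_d2, pi_pos]
    have h4 : 4 * π ^ 2 * τ ≤ C + C := by nlinarith
    nlinarith
  refine abs_le_of_sq_le_sq (h.trans ?_) (by positivity)
  rw [mul_pow, mul_pow, sq_sqrt Y0.le, pow_two (exp _), ← exp_add, mul_comm]
  exact mul_le_mul (hA.trans (mul_le_mul_of_nonneg_right (by nlinarith) Y0.le)) (exp_le_exp.2 h2)
    (exp_pos _).le (by positivity)

end Cm62

open Cm62

theorem cmStmt (hL : LjStmt) (hK : KbStmt) (hF : FarStmt) (hS : SemiStmt) : CmStmt := by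
  intro p
  obtain ⟨CL, CL0, hL⟩ := hL p
  obtain ⟨CK, CK0, hK⟩ := hK p
  obtain ⟨CF, CF0, hF⟩ := hF p
  obtain ⟨Cp, Cp0, hp⟩ := lr_xi
  obtain ⟨C₂, hC₂⟩ : ∃ C₂, C₂ = CL * (1 + 3 * Cp) ^ 2 := ⟨_, rfl⟩
  have C₂0 : 0 ≤ C₂ := by rw [hC₂]; positivity
  obtain ⟨C, c1, c2, c3, c4, c5, c6⟩ : ∃ C : ℝ, 2 * (6 * CF + 160000 * (p.w : ℝ) ^ 2 * C₂) ≤ C ∧
      9600 * CK ≤ C ∧ 2 * CL ≤ C ∧ 50 * (p.w : ℝ) + 1200 ≤ C ∧ (p.r₀ : ℝ) ≤ C ∧ 20 * p.F.τ₂ ≤ C :=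
    ⟨_, le_max_left _ _, le_max_of_le_right (le_max_left _ _),
      le_max_of_le_right (le_max_of_le_right (le_max_left _ _)),
      le_max_of_le_right (le_max_of_le_right (le_max_of_le_right (le_max_left _ _))),
      le_max_of_le_right (le_max_of_le_right (le_max_of_le_right (le_max_of_le_right (le_max_left _ _)))),
      le_max_of_le_right (le_max_of_le_right (le_max_of_le_right (le_max_of_le_right (le_max_right _ _))))⟩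
  have w0 : (0 : ℝ) ≤ p.w := Nat.cast_nonneg _
  refine ⟨C, by linarith, fun Λ ω L N hE R Y hM hY1 hCR hRL hg hCY q hq0 hq3 => ?_⟩
  have hΛ : Λ.Ok := ⟨hE.mem.1 ▸ p.F.adm, p.F.pos.trans_le hE.mem.2.2.1⟩
  have e1 := (ew_pos hE.w4).2
  have R1 : 1200 ≤ R := by linarith
  have R0 : 0 < R := by linarith
  have Y0 : 0 < Y := (rpow_pos_of_pos R0 _).trans_le hM.2.1
  have h := sc hE.w4 R1 (c5.trans hCR) ((mul_le_mul_of_nonneg_right c4 R0.le).trans hRL) hE.le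
  have hch : ∀ c, bl 0 ⌈2 * R⌉₊ ⊆ bl c N → Chq (bl c N) ((q : ℝ) • xi R) q := fun c hc =>
    Chq.mono (chq_xi R0 h.a1 q) hc
  generalize ⌊R⌋₊ = r at h
  generalize 16 * p.w * ⌈2 * R⌉₊ = b at h
  generalize ⌈2 * R⌉₊ = a at h hch ⊢
  have cha := chq_xi R0 h.a1 q
  have r1 := h.r1
  have r2 := h.r2
  have r3 : 1 ≤ r := by exact_mod_cast (by linarith : (1 : ℝ) ≤ r)
  have hlr := fun z => hp R r q z r3 r1
  generalize (q : ℝ) • xi R = ξ at cha hch hlr ⊢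
  have hins : Ins 0 a (cp ξ (-(π / 2))) := ⟨depG_cp cha _, tame_cp _ _⟩
  have q1 : (1 : ℝ) ≤ |(q : ℝ)| := by exact_mod_cast Int.one_le_abs hq0
  have q3 : |(q : ℝ)| ≤ 3 := by exact_mod_cast hq3
  have hg' : 1 / 8 ≤ gk ω (r / 600) := g_low CK0 Y0 hY1 e1
    ((hK Λ ω L N hE R Y hM).2.2 (r / 600) R 1200 (by norm_num) (by linarith) (by linarith)
      (by linarith) (by linarith) h.RL) hg ((mul_le_mul_of_nonneg_right c2 Y0.le).trans hCY)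
  obtain ⟨D, D1, D2, hD⟩ := hE.flux
  have hfl := hD _ (⟨hins.1.mono (bl_mono _ h.a4), hins.2⟩ : Ins 0 (N / 4) (cp ξ (-(π / 2))))
  have hbN : b ≤ N := le_of_add_le_right h.bN
  have hbD : bl 0 b ⊆ D := (bl_mono _ hbN).trans D1
  rw [← sum_sdiff hbD] at hfl
  have hfar : |∑ z ∈ D \ bl 0 b, ω fun s => cp ξ (-(π / 2)) s * Jz z s| ≤ 6 * CF * Y := by
    have h1 := hF Λ ω L N hE R Y hM a b _ h.a0 (by linarith [h.a1]) h.hb.ge (h.hb ▸ h.bL) hins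
    have h2 := (hS Λ p.w a 0 hΛ (by
      have := hE.gd.2.1
      have := h.a0
      have : 2 * a ≤ p.w * a := Nat.mul_le_mul_right _ hE.gd.1
      omega)).1 _ hins
    exact (abs_sum_le_sum_abs _ _).trans ((sum_le_sum_of_subset_of_nonneg
      (sdiff_subset_sdiff D2 subset_rfl) fun _ _ _ => abs_nonneg _).trans (h1.trans
        (far_le h CF0 h2.1 (h2.2.2.2.1 1 (abs_cp _ _)) Y0 e1 (cw_pos hE.w4).1)))
  have hnear : ∀ z ∈ bl 0 b, |ω (fun s => cp ξ (-(π / 2)) s * Jz z s) -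
      2 * π * gk ω (r / 600) * ξ z * ω (cp ξ 0)| ≤ 16 * C₂ * Y / R ^ 2 := fun z hz => by
    have h1 := (hL Λ ω L N hE R Y 2 hM (by norm_num) 0 Unit ∅ (fun _ => 0) (fun _ => 0) (fun _ _ => 1) z r
      (|(q : ℝ)| * Cp) (-(π / 2)) ξ _ q ⟨by simp, by simp, by simp, by simp, by simp⟩ (by simp)
      (Chq.mono cha (bl_mono _ (h.ab.trans hbN))) h.wr (bl_subset_bl hz h.bN) (by simp) (hlr z)
      (by linarith)).2 (by linarith) r2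
    simp only [prod_empty, one_mul, mul_one, neg_add_cancel] at h1
    rw [show (fun s => cp ξ (-(π / 2)) s * Jz z s) = fun s => Jz z s * cp ξ (-(π / 2)) s from
      funext fun s => mul_comm _ _, hC₂]
    exact h1.trans (near_le R0 r2 CL0 Cp0 Y0 hY1 e1 q3)
  have hsum : |∑ z ∈ bl 0 b, ω (fun s => cp ξ (-(π / 2)) s * Jz z s) -
      2 * π * gk ω (r / 600) * q * ω (cp ξ 0)| ≤ 160000 * (p.w : ℝ) ^ 2 * C₂ * Y := by
    rw [← (Chq.mono cha (bl_mono _ h.ab)).2, mul_sum, sum_mul, ← sum_sub_distrib]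
    refine (abs_sum_le_sum_abs _ _).trans ((sum_le_card_nsmul _ _ _ hnear).trans ?_)
    rw [card_bl, nsmul_eq_mul]
    push_cast
    calc _ ≤ (100 * p.w * R) ^ 2 * (16 * C₂ * Y / R ^ 2) := by
          have := h.b2
          gcongr
      _ = _ := by field_simp; ring
  have hA : |ω (cp ξ 0)| ≤ C * Y := (fin_le hfl hfar hsum hg' q1).trans (by
    rw [← add_mul, ← mul_assoc]; exact mul_le_mul_of_nonneg_right c1 Y0.le)
  refine ⟨hA, fun c f n φ hc hf => ?_⟩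
  obtain ⟨m, hm⟩ := hE.amb c
  exact ch_le (ch hΛ hm (hch c hc) hf φ) hA Y0 (by linarith) hΛ.pos hE.mem.2.2.2 c6 hf.nonneg

end Crest.Agent.T145.Fl
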