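import Crest.Agent.T145.EvAmb_49
import Crest.Agent.T145.EvB1_65
import Crest.Agent.T145.EvBas_9
import Crest.Agent.T145.EvCg_51
import Crest.Agent.T145.EvCl1_14
import Crest.Agent.T145.EvCloK_19
import Crest.Agent.T145.EvCone_93
import Crest.Agent.T145.EvCr3_60
import Crest.Agent.T145.EvDc_82
import Crest.Agent.T145.EvDk_4
import Crest.Agent.T145.EvEd_82
import Crest.Agent.T145.EvEnv_30
import Crest.Agent.T145.EvFarE_58
import Crest.Agent.T145.EvHf_89
import Crest.Agent.T145.EvKeW_90
import Crest.Agent.T145.EvLn_58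
import Crest.Agent.T145.EvLocN_94
import Crest.Agent.T145.EvNdd_68
import Crest.Agent.T145.EvPu_51
import Crest.Agent.T145.EvSh_87
import Crest.Agent.T145.EvT2_17
import Crest.Agent.T145.EvTDer_12
import Crest.Agent.T145.EvTLin_70
import Crest.Agent.T145.EvTg_91
import Crest.Agent.T145.EvVl_5
import Crest.Agent.T145.EvX1_27
import Crest.Agent.T145.EvX2_81
import Crest.Agent.T145.EvX4_40
import Crest.Agent.T145.EvNg_75
import Crest.Agent.T145.EvLow_11
import Crest.Agent.T145.EvS3_74
import Crest.Agent.T145.EvV_29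
import Crest.Agent.T145.EvXg_91
import Crest.Agent.T145.FlBeta_3
import Crest.Agent.T145.FlCm_62
import Crest.Agent.T145.FlNeu_31

/-!
# Row 145, the even sector: assembly (helper2)
-/

set_option autoImplicit false

namespace Crest.Agent.T145.Ev.U

open Fl

theorem loc : LocStmt := locStmt rateStmt
theorem kb : KbStmt := kbStmt semiStmt prodStmt Fl.bareStmt
theorem lj : LjStmt := ljStmt semiStmt prodStmt Fl.bareStmt loc swStmt (betaStmt kb)
theorem neu : NeuStmt := neuStmt lj kb
theorem cm : CmStmt := cmStmt lj kb (farStmt semiStmt prodStmt rateStmt) semiStmt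
theorem ap : ApStmt := apStmt semiStmt fusStmt
theorem amb : AmbStmt := ambStmt basStmt farEStmt ap
theorem cr3 : Cr3Stmt := cr3Stmt semiStmt prodStmt fusStmt loc swStmt basStmt farEStmt
theorem locN : LocNStmt := locNStmt rateStmt
theorem cg : CgStmt := cgStmt cm
theorem epur : EpurStmt := epurStmt tgStmt
theorem sh : ShStmt := shStmt basStmt
theorem dk : DkStmt := dkStmt sh cr3 kb basStmt

theorem ng : NgStmt := ngStmt neu Fl.bareStmt
theorem x1 : X1Stmt := x1Stmt ng xfStmt detStmt
theorem x2 : X2Stmt := x2Stmt cg xfStmt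
theorem x4 : X4Stmt := x4Stmt ng cg xgStmt xfStmt
theorem low : Ev.LowStmt := Ev.lowStmt tgStmt xfStmt (x1uStmt ng xfStmt detStmt) x2 ng cg
theorem s3 : S3Stmt := s3Stmt loc x2 farEStmt basStmt tgStmt

theorem lin_of (s1 : S1Stmt) (s2 : S2Stmt) (s4 : S4Stmt)
    (hC : CoreStmt) (hO : Leaf Mid.Odd) (hS : Leaf OStep) (hL : LinkStmt)
    (hK : Kr.KEvenStmt) (hT : T1mStmt) : Mid.LinStmt :=
  have dc := dcStmt low basStmt
  have b1 := b1Stmt s1 vlStmt
  have env := envStmt edStmt epur (keWStmt hK hT) hL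
  linStmt hC hO tDerStmt
    (tLinStmt env (lnStmt dc (uStmt4 dk) (vStmt sh cr3 s2 s3 detStmt neu cm kb) b1 (ndStmt dc s1 vlStmt ng))
      (closeStmt (cl1Stmt tgStmt basStmt dc b1 (t2Stmt s4 basStmt dk cr3)) dk ap amb) hS)
    (tAmbStmt env amb)

end Crest.Agent.T145.Ev.U
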