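import Crest.Agent.T145.EvDef_2
import Crest.Agent.T145.FlSw_22

/-!
# Row 145, the even sector: the deterministic leaf `DetStmt` (helper46)
-/

set_option autoImplicit false

namespace Crest.Agent.T145.Ev

open Finset Pot Pot.Ha91 Xi Real Fl Fl.Sw22

namespace D46

/-- re-indexing a sum against a translated kernel -/
theorem shift {K : Pt → ℝ} {S D : Finset Pt} (hK : Pot.Sup S K) (c : Pt) (hD : ∀ w ∈ S, c + w ∈ D)
    (f : Pt → ℝ) : ∑ y ∈ D, K (y - c) * f y = ∑ w ∈ S, K w * f (c + w) :=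
  (sum_of_injOn (c + ·) (fun _ _ _ _ h => add_left_cancel h) hD
    (fun y _ hy => by rw [hK _ fun h => hy ⟨_, h, add_sub_cancel c y⟩, zero_mul])
    fun w _ => by rw [add_sub_cancel_left]).symm

/-- summation by parts -/
theorem sbp (u u' : Pt → ℝ) (c : Pt) (n : ℕ) (D : Finset Pt) (hu : Pot.Sup (bl c n) u)
    (hD : bl c (n + 1) ⊆ D) : ∑ z ∈ D, gr u u' z = E1 (bl c n) u u' := by
  have key : ∀ e ∈ nn, ∑ z ∈ D, dif e u z * dif e u' z =
      ∑ x ∈ bl c n, u x * (dif e u' (-e + x) - dif e u' x) := fun e he => by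
    have h1 := shift hu (-e) (D := D) (fun w hw => hD (bl_subset_bl (r := 1) hw (by omega)
      (by rw [add_comm]; exact nn_bl (neg_nn he) w))) (dif e u')
    have h2 := shift hu 0 (D := D) (fun w hw => hD (bl_mono c n.le_succ (by rwa [zero_add]))) (dif e u')
    simp only [sub_neg_eq_add, sub_zero, zero_add] at h1 h2
    simp only [mul_sub, sum_sub_distrib, ← h1, ← h2]
    rw [← sum_sub_distrib]
    exact sum_congr rfl fun _ _ => sub_mul _ _ _
  rw [E1]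
  simp only [gr]
  rw [sum_comm, Fin.sum_univ_two, key _ (ev_nn 0), key _ (ev_nn 1), ← sum_add_distrib]
  refine sum_congr rfl fun ⟨a, b⟩ _ => ?_
  simp [dif, A0, ev, add_comm]
  ring

theorem abs_dif_aff {v : Pt → ℝ} {z : Pt} {k : ℝ} (h : ∀ e ∈ nn, |dif e v z| ≤ k) {e : Pt} (he : e ∈ nn)
    (y : Pt) : |dif e (Fl.aff v z) y| ≤ k := by
  rw [Sw22.dif_aff]
  rcases mem_nn.1 he with rfl | rfl | rfl | rfl <;> simp [h _ e1_nn, h _ e2_nn]

theorem difs_aff (e e' : Pt) (ys : List Pt) (v : Pt → ℝ) (z y : Pt) :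
    difs (e :: e' :: ys) (Fl.aff v z) y = 0 := by rw [difs_cons', Sw22.dif_aff, difs_const]

theorem aff_self (v : Pt → ℝ) (z : Pt) : Fl.aff v z z = v z := by simp [Fl.aff]

theorem sm_aff {v : Pt → ℝ} {σ ρ : ℝ} (h : Sm 3 Set.univ σ ρ v) (hρ : 0 < ρ) (z : Pt) {n : ℕ}
    (hn : (n : ℝ) ≤ 9 * ρ) : Sm 3 (bl z n) (19 * σ) ρ (Fl.aff v z) := by
  intro ys _ h2 x hx
  have h0 := h.zero (Set.mem_univ z)
  have hσ : 0 ≤ σ := (abs_nonneg _).trans h0
  have h1 : ∀ e ∈ nn, ∀ y, |dif e (Fl.aff v z) y| ≤ σ / ρ := fun e he =>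
    abs_dif_aff (fun e he => h.one (by norm_num) he trivial) he
  match ys, h2 with
  | [], _ =>
    obtain ⟨w, rfl⟩ : ∃ w, x = z + w := ⟨x - z, by simp⟩
    have h3 := tay1 (u := Fl.aff v z) (z := z) (add_mem_bl.1 hx) fun _ _ => ⟨h1 _ e1_nn _, h1 _ e2_nn _⟩
    have h4 : 2 * n * (σ / ρ) ≤ 18 * σ := by
      rw [← mul_div_assoc, div_le_iff₀ hρ]; nlinarith
    rw [aff_self] at h3
    simp only [difs, List.length_nil, pow_zero, div_one]
    rw [abs_le] at *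
    constructor <;> linarith [h3.1, h3.2, h0.1, h0.2]
  | [y], h2 =>
    simp only [List.length_singleton, pow_one]
    exact (h1 y (h2 y (by simp)) x).trans (by gcongr; linarith)
  | y :: y' :: ys, _ => rw [difs_aff, abs_zero]; positivity

theorem sw_in {v : Pt → ℝ} {z y : Pt} {ρ : ℝ} (hρ : 0 < ρ) {n : ℕ} (hn : (n : ℝ) ≤ ρ) (hy : y ∈ bl z n) :
    (v - sw v z ρ) y = Fl.aff v z y := by rw [Pi.sub_apply, sw, lc_in hρ hn hy, sub_sub_cancel]

theorem sm_sw : ∃ C : ℝ, 1 ≤ C ∧ ∀ (v : Pt → ℝ) (z : Pt) (σ ρ : ℝ), Sm 3 Set.univ σ ρ v → 1 ≤ ρ →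
    Sm 3 Set.univ (C * σ) ρ (sw v z ρ) := by
  obtain ⟨C, h0, hC⟩ := sm_chi 3
  refine ⟨160 * C + 1, by linarith, fun v z σ ρ h hρ => ?_⟩
  have hρ0 : 0 < ρ := by linarith
  have hσ : 0 ≤ σ := (abs_nonneg _).trans (h.zero (Set.mem_univ z))
  have h1 := (Nat.ceil_lt_add_one (show 0 ≤ 2 * ρ by linarith)).le
  have h2 := ((h.mono le_rfl (Set.subset_univ _) le_rfl hρ0).sub
    (sm_aff h hρ0 z (n := ⌈2 * ρ⌉₊ + 6) (by push_cast; linarith))).mul hρ0
    ((hC ρ hρ0).shift (-z) fun _ _ => trivial) (S := bl z (⌈2 * ρ⌉₊ + 3))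
    fun x hx w hw => bl_subset_bl hx (by omega) hw
  have h3 : Sm 3 (bl z (⌈2 * ρ⌉₊ + 3) : Set Pt)ᶜ ((160 * C + 1) * σ) ρ (sw v z ρ) :=
    (Sm.zero' 3 _ (by positivity) hρ0).congr fun x hx w hw =>
      sup_lc _ z hρ0 ((Nat.le_ceil _).trans (le_add_of_nonneg_right zero_le_one)) w fun h =>
        hx (bl_subset_bl h (by omega) (mem_bl_comm.1 hw))
  exact (Sm.union (h2.mono le_rfl subset_rfl (by nlinarith) hρ0) h3).mono le_rfl
    (Set.union_compl_self _).ge le_rfl hρ0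

theorem pair_le {K f : Pt → ℝ} {S : Finset Pt} {C B : ℝ} (hK : ∑ w ∈ S, |K w| ≤ C)
    (hf : ∀ w ∈ S, |f w| ≤ B) (hB : 0 ≤ B) : |∑ w ∈ S, K w * f w| ≤ C * B :=
  (abs_sum_le_sum_abs _ _).trans ((sum_le_sum fun w hw => (abs_mul _ _).trans_le
    (mul_le_mul_of_nonneg_left (hf w hw) (abs_nonneg _))).trans
      (by rw [← sum_mul]; exact mul_le_mul_of_nonneg_right hK hB))

theorem fd_pair {a : ℕ} (ha : 1 ≤ a) (i : Fin 2) (z : Pt) (v : Pt → ℝ) :
    ∑ y ∈ bl z (5 * a), fd a i (y - z) * v y = ∑ w ∈ bl 0 (2 * a),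
      xi a w * (v (z + ((3 * a : ℤ) • ev i + w)) - v (z + (-((3 * a : ℤ) • ev i) + w))) := by
  have h0 : (0 : ℝ) < a := by exact_mod_cast ha
  have hs := sup_xi h0 (n := 2 * a) (by push_cast; rfl)
  simp only [fd, sub_mul, mul_sub, sum_sub_distrib, sub_sub, ← add_assoc, ← sub_neg_eq_add _ (_ • ev i)]
  rw [shift hs, shift hs] <;> intro w <;> fin_cases i <;> simp [mem_bl, ev] <;> omega

theorem mem5 {a : ℕ} (i : Fin 2) {w : Pt} (hw : w ∈ bl 0 (2 * a)) :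
    (3 * a : ℤ) • ev i + w ∈ bl 0 (6 * a) ∧ -((3 * a : ℤ) • ev i) + w ∈ bl 0 (6 * a) := by
  revert hw; fin_cases i <;> simp [mem_bl, ev] <;> omega

end D46

open D46 in
theorem detStmt46 : DetStmt := by
  obtain ⟨C₁, h1, hC₁⟩ := sm_sw
  obtain ⟨C₂, h2, hC₂⟩ := sum_abs_xi
  refine ⟨C₁ + 432 * C₂, by positivity, fun v z σ ℓ ρ h hρ hℓ => ?_, fun v z a k₁ k₂ ha h => ?_, sbp⟩
  · have hρ0 : 0 < ρ := by linarith
    have hσ : 0 ≤ σ := (abs_nonneg _).trans (h.zero (Set.mem_univ z))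
    have hd : ∀ i, dif (ev i) (v - sw v z ρ) z = dif (ev i) v z := fun i => by
      rw [dif, sw_in hρ0 (n := 1) (by simpa using hρ) (nn_bl (ev_nn i) z),
        sw_in hρ0 (n := 1) (by simpa using hρ) (self_mem_bl _ _)]
      fin_cases i <;> simp [Fl.aff, ev]
    refine ⟨(hC₁ v z σ ρ (h.scale hρ0 (by linarith)) hρ).mono le_rfl subset_rfl (by nlinarith) hρ0,
      fun u' => by simp only [gr, hd, and_self], by
        rw [sw_in hρ0 (n := 1) (by simpa using hρ) (self_mem_bl _ _), aff_self], fun n hn y hy e he => ?_⟩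
    have hc : ∀ ys : List Pt, ys.length ≤ 2 → (∀ y ∈ ys, y ∈ nn) →
        difs ys (v - sw v z ρ) y = difs ys (Fl.aff v z) y := fun ys h3 h4 => difs_congr h4 fun w hw =>
      sw_in hρ0 (n := n + 2) (by exact_mod_cast hn) (bl_subset_bl hy (by omega) hw)
    refine ⟨?_, fun e' he' => by rw [hc _ le_rfl (by simp [he, he']), difs_aff, abs_zero]⟩
    refine (congrArg abs (hc [e] (by simp) (by simpa using he))).trans_le
      ((abs_dif_aff (fun e he => h.one (by norm_num) he trivial) he y).trans ?_)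
    have : 0 < ℓ := by linarith
    gcongr; nlinarith
  have a0 : (1 : ℝ) ≤ a := by exact_mod_cast ha
  have k1 : 0 ≤ k₁ := (abs_nonneg _).trans (h z (self_mem_bl _ _) _ e1_nn).1
  have k2 : 0 ≤ k₂ := (abs_nonneg _).trans ((h z (self_mem_bl _ _) _ e1_nn).2 _ e1_nn)
  have hs := sum_xi (r := a) (by linarith) (n := 2 * a) (by push_cast; rfl)
  have t1 : ∀ w ∈ bl 0 (6 * a), |v (z + w) - v z| ≤ 12 * a * k₁ := fun w hw =>
    (tay1 hw fun x hx => ⟨(h _ (add_mem_bl.2 hx) _ e1_nn).1, (h _ (add_mem_bl.2 hx) _ e2_nn).1⟩).trans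
      (by push_cast; linarith)
  have t2 : ∀ w ∈ bl 0 (6 * a), |v (z + w) - Fl.aff v z (z + w)| ≤ 216 * (a : ℝ) ^ 2 * k₂ := fun w hw =>
    (flat_abs (v := fun y => v y - Fl.aff v z y) (til_self v z)
      (dif_til fun e he => (h z (self_mem_bl _ _) e he).2) (fun x hx e he e' he' => by
        rw [difs_til (by simp)]; exact (h x hx e he).2 e' he') (add_mem_bl.2 hw)).trans
      (by push_cast; linarith)
  refine ⟨fun i => ⟨?_, ?_⟩, ?_⟩
  · rw [fd_pair ha]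
    refine (pair_le (B := 24 * a * k₁) (hC₂ a a0 _) (fun w hw => ?_) (by positivity)).trans
      (by nlinarith [mul_nonneg (Nat.cast_nonneg (α := ℝ) a) k1])
    have b1 := abs_le.1 (t1 _ (mem5 i hw).1)
    have b2 := abs_le.1 (t1 _ (mem5 i hw).2)
    rw [abs_le]; constructor <;> linarith
  · rw [fd_pair ha, ← one_mul (6 * (a : ℝ) * _), ← hs, sum_mul, ← sum_sub_distrib]
    simp only [← mul_sub]
    refine (pair_le (B := 432 * (a : ℝ) ^ 2 * k₂) (hC₂ a a0 _) (fun w hw => ?_) (by positivity)).trans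
      (by nlinarith [mul_nonneg (sq_nonneg (a : ℝ)) k2])
    have b1 := abs_le.1 (t2 _ (mem5 i hw).1)
    have b2 := abs_le.1 (t2 _ (mem5 i hw).2)
    have b3 : Fl.aff v z (z + ((3 * a : ℤ) • ev i + w)) - Fl.aff v z (z + (-((3 * a : ℤ) • ev i) + w)) =
        6 * a * dif (ev i) v z := by fin_cases i <;> simp [Fl.aff, ev] <;> ring
    rw [abs_le]; constructor <;> linarith
  · have e : v z = ∑ w ∈ bl 0 (2 * a), xi a w * Xi.aff v z (z + w) := by
      rw [(sy4_xi a).sum_aff, hs, one_mul]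
    rw [shift (sup_xi (by linarith) (n := 2 * a) (by push_cast; rfl)) z fun w hw => add_mem_bl.2 hw, e,
      ← sum_sub_distrib]
    simp only [← mul_sub]
    refine (pair_le (B := 216 * (a : ℝ) ^ 2 * k₂) (hC₂ a a0 _) (fun w hw => ?_) (by positivity)).trans
      (by nlinarith [mul_nonneg (sq_nonneg (a : ℝ)) k2])
    exact (abs_rem (fun x hx e he => (h x hx e he).2) (add_mem_bl.2 (bl_mono 0 (by omega) hw))).trans
      (by push_cast; linarith)

end Crest.Agent.T145.Ev
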