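import Crest.Agent.T145.EvS4D_36
import Crest.Agent.T145.EvDet_46
import Crest.Agent.T145.FlXf_91

/-!
# Row 145, even sector: the deterministic piece `AdmS` of S4 (helper46)
-/

set_option autoImplicit false

namespace Crest.Agent.T145.Ev.S4

open Finset Pot Xi Real Fl Fl.Sw22

namespace A46

theorem A0_le {u : Pt → ℝ} {σ ℓ : ℝ} (h : Sm 3 Set.univ σ ℓ u) (x : Pt) : |A0 u x| ≤ 2 * (σ / ℓ ^ 2) :=
  abs_A0_two fun _ he _ he' => h.two (by norm_num) he he' trivial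

theorem sumA0 {u : Pt → ℝ} {σ ℓ M : ℝ} (h : Sm 3 Set.univ σ ℓ u) (hℓ : 0 < ℓ) {c : Pt} {n : ℕ}
    (hs : Pot.Sup (bl c n) u) (hn : 2 * (n : ℝ) + 3 ≤ M * ℓ) (D : Finset Pt) :
    ∑ x ∈ D, |A0 u x| ≤ 2 * M ^ 2 * σ := by
  have hσ : 0 ≤ σ := (abs_nonneg _).trans (h.zero (z := c) trivial)
  rw [← sum_subset (inter_subset_left (s₂ := bl c (n + 1))) fun x hx hx' => by
    rw [sup_A0 hs x fun h => hx' (mem_inter.2 ⟨hx, h⟩), abs_zero]]
  refine (sum_le_sum_of_subset_of_nonneg inter_subset_right fun _ _ _ => abs_nonneg _).trans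
    ((sum_le_card_nsmul _ _ _ fun x _ => A0_le h x).trans ?_)
  rw [card_bl, nsmul_eq_mul]
  push_cast
  calc _ ≤ (M * ℓ) ^ 2 * (2 * (σ / ℓ ^ 2)) := by gcongr; linarith
    _ = _ := by field_simp

theorem E0_le {v : Pt → ℝ} {D : Finset Pt} {a b : ℝ} (h : ∀ x, |v x| ≤ a) (hb : ∑ x ∈ D, |A0 v x| ≤ b) :
    E0 D v ≤ a * b := by
  have ha : 0 ≤ a := (abs_nonneg _).trans (h 0)
  refine (sum_le_sum fun x _ => (le_abs_self _).trans ((abs_mul _ _).trans_le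
    (mul_le_mul_of_nonneg_right (h x) (abs_nonneg _)))).trans ?_
  rw [← mul_sum]; gcongr

theorem A0_zero : A0 (0 : Pt → ℝ) = 0 := A0_const 0

theorem A0_of_lk {v : Pt → ℝ} {z y : Pt} {n : ℕ} {k : ℝ} (h : Lk v z n k 0) (hy : y ∈ bl z n) :
    A0 v y = 0 := abs_nonpos_iff.1 (by simpa using abs_A0_two fun e he => (h y hy e he).2)

theorem lk_zero {v : Pt → ℝ} {z : Pt} {n : ℕ} {k : ℝ} (hk : 0 ≤ k) (h : ∀ y ∈ bl z (n + 2), v y = 0) :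
    Lk v z n k 0 := fun y hy e he => by
  have hc : ∀ ys : List Pt, ys.length ≤ 2 → (∀ y ∈ ys, y ∈ nn) → difs ys v y = difs ys (fun _ => 0) y :=
    fun ys h3 h4 => difs_congr h4 fun w hw => h w (bl_subset_bl hy (by omega) hw)
  refine ⟨(congrArg abs (hc [e] (by simp) (by simpa using he))).trans_le (by simpa [difs, dif] using hk),
    fun e' he' => by rw [hc _ le_rfl (by simp [he, he'])]; simp [difs, dif]⟩

theorem sup_sw (u : Pt → ℝ) (z : Pt) {ρ : ℝ} (hρ : 0 < ρ) : Pot.Sup (bl z ⌈2 * ρ⌉₊) (sw u z ρ) :=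
  sup_lc _ z hρ ((Nat.le_ceil _).trans (le_add_of_nonneg_right zero_le_one))

end A46

open A46 in
theorem admS : AdmS := by
  intro w hw
  obtain ⟨Cχ, h0, hχ⟩ := sm_chi 3
  obtain ⟨Cd, hd0, hd, -⟩ := detStmt46
  obtain ⟨Cs, hs1, hs⟩ := D46.sm_sw
  obtain ⟨Cx, hx0, -, hx, -⟩ := xfStmt
  have hw' : (4 : ℝ) ≤ w := by exact_mod_cast hw
  have hl : 0 ≤ log 8 := log_nonneg (by norm_num)
  obtain ⟨a, ha⟩ : ∃ a : ℝ, a = Cχ + Cd * Cχ + Cs * (Cx * (1 + log 8)) := ⟨_, rfl⟩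
  have a1 : 0 ≤ Cd * Cχ := by positivity
  have a2 : 0 ≤ Cs * (Cx * (1 + log 8)) := by positivity
  have a0 : 0 ≤ a := by linarith
  obtain ⟨b, hb⟩ : ∃ b : ℝ, b = 2 * (16 * w) ^ 2 * a := ⟨_, rfl⟩
  have b1 : 162 * a ≤ b := by rw [hb]; gcongr; nlinarith
  have b2 : 16 * w * a ≤ b := hb ▸ mul_le_mul_of_nonneg_right (by nlinarith) a0
  refine ⟨64 * w + Cx, 1 + b + 2 * (a * b), by linarith, by nlinarith, fun R ρ z hρ hR => ?_⟩
  have ab : 0 ≤ a * b := by nlinarith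
  have hρ1 : 256 ≤ ρ := by linarith
  have hρ0 : 0 < ρ := by linarith
  have hR1 : 64 * w * ρ ≤ R := by nlinarith
  have hR2 : 256 * ρ ≤ R := by nlinarith
  have hR0 : 0 < R := by linarith
  obtain ⟨ℓ, hℓ⟩ : ∃ ℓ : ℝ, ℓ = R / (16 * w) := ⟨_, rfl⟩
  have l1 : 16 * w * ℓ = R := by rw [hℓ]; field_simp
  have l2 : 4 * ρ ≤ ℓ := by rw [hℓ, le_div_iff₀ (by positivity)]; linarith
  have l0 : 0 < ℓ := by linarith
  have l3 : 64 * ℓ ≤ R := by nlinarith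
  have c1 := (Nat.ceil_lt_add_one (show 0 ≤ 2 * ρ by linarith)).le
  have c2 := (Nat.ceil_lt_add_one (show 0 ≤ 2 * ℓ by linarith)).le
  have c3 := (Nat.ceil_lt_add_one (show 0 ≤ 3 * R by linarith)).le
  have c4 := (Nat.ceil_lt_add_one (show 0 ≤ 2 * R by linarith)).le
  have c5 := Nat.floor_le (show 0 ≤ R / 5 by linarith)
  have hv : vv w R = Xi.chi ℓ := by rw [hℓ, vv]
  rw [hv]
  have v1 := hχ ℓ l0
  have v2 : Pot.Sup (bl 0 ⌈2 * ℓ⌉₊) (Xi.chi ℓ) :=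
    sup_chi l0 ((Nat.le_ceil _).trans (le_add_of_nonneg_right zero_le_one))
  have v3 : Pot.Sup (bl 0 ⌊R / 4⌋₊) (Xi.chi ℓ) := sup_chi l0 (by linarith [Nat.lt_floor_add_one (R / 4)])
  have v4 : ∀ D, ∑ x ∈ D, |A0 (Xi.chi ℓ) x| ≤ b := fun D =>
    (sumA0 v1 l0 v2 (M := 16 * w) (by linarith) D).trans (by rw [hb]; gcongr; linarith)
  have v5 : Sm 3 Set.univ (1 + b + 2 * (a * b)) ρ (Xi.chi ℓ) :=
    (v1.scale hρ0 (by linarith)).mono le_rfl subset_rfl (by linarith) hρ0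
  have v6 : E0 (bl 0 ⌊R / 4⌋₊) (Xi.chi ℓ) ≤ 1 + b + 2 * (a * b) :=
    (E0_le (a := 1) (abs_chi_le ℓ) (v4 _)).trans (by linarith)
  have v7 : z ∉ bl 0 ⌊R / 5⌋₊ → ∀ k : ℕ, (k : ℝ) ≤ 4 * ρ → ∀ y ∈ bl z k, Xi.chi ℓ y = 0 :=
    fun hz k hk y hy => v2 y fun h => hz (bl_subset_bl h (Nat.le_floor (by push_cast; linarith))
      (mem_bl_comm.1 hy))
  have v8 : z ∉ bl 0 ⌊R / 5⌋₊ → ∀ n : ℕ, (n : ℝ) + 2 ≤ ρ →
      Lk (Xi.chi ℓ) z n ((1 + b + 2 * (a * b)) / R) 0 := fun hz n hn =>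
    lk_zero (div_nonneg (by linarith) hR0.le) (v7 hz _ (by push_cast; linarith))
  have z1 : Sm 3 Set.univ (1 + b + 2 * (a * b)) ρ (0 : Pt → ℝ) := Sm.zero' 3 _ (by linarith) hρ0
  have z2 : E0 (bl 0 ⌊4 * R⌋₊) 0 ≤ 1 + b + 2 * (a * b) := by
    simp only [E0, Pi.zero_apply, zero_mul, sum_const_zero]; linarith
  refine ⟨fun hz => ?_, fun hz hz' => ?_, fun hz => ?_⟩
  · obtain ⟨d1, -, d2, d3⟩ := hd _ z _ _ ρ v1 (by linarith) l2
    have d4 := (v1.scale hρ0 (by linarith)).sub d1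
    refine ⟨⟨fun x hx => ?_, fun _ _ => rfl, d4.mono le_rfl subset_rfl (by linarith) hρ0, z1, ?_, z2,
      fun n hn => ?_, Or.inl rfl⟩, d2⟩
    · rw [Pi.sub_apply, v3 x hx, sup_sw _ z hρ0 x fun h => hx
        (bl_subset_bl hz (Nat.le_floor (by push_cast; linarith)) h), sub_zero]
    · refine (E0_le (a := a) (b := 2 * b) (fun x => (d4.zero trivial).trans (by linarith)) ?_).trans
        (by linarith)
      rw [A0_sub]
      refine (sum_le_sum fun x _ => abs_sub (A0 _ x) (A0 _ x)).trans ?_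
      rw [sum_add_distrib]
      linarith [v4 (bl 0 ⌊R / 4⌋₊), sumA0 d1 hρ0 (sup_sw _ z hρ0) (M := 9) (by linarith) (bl 0 ⌊R / 4⌋₊)]
    · refine ⟨fun y hy e he => ⟨(d3 n hn y hy e he).1.trans ?_, (d3 n hn y hy e he).2⟩,
        fun y hy => ⟨A0_of_lk (d3 n hn) hy, ?_⟩⟩
      · rw [div_le_div_iff₀ l0 hR0, ← l1, ← mul_assoc]
        gcongr
        nlinarith
      · rw [A0_zero, sub_zero]
        exact xi_in hR0 (n := n + ⌊R / 5⌋₊) (by push_cast; linarith) (bl_subset_bl hz le_rfl hy)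
  · have c6 := (Nat.ceil_lt_add_one hρ0.le).le
    have u1 := hs _ z _ ρ (((hx 8 R (8 * R) ⌈2 * (8 * R)⌉₊ ⌈ρ⌉₊ (by norm_num) (by linarith) le_rfl
      (by linarith) (Nat.le_ceil _) (Nat.ceil_pos.2 hρ0) (by linarith)).2).scale hρ0 (Nat.le_ceil _))
      (by linarith)
    refine ⟨v3, fun x hx => sup_sw _ z hρ0 x fun h => hx
      (bl_subset_bl hz (Nat.le_floor (by push_cast; linarith)) h), v5,
      u1.mono le_rfl subset_rfl (by linarith) hρ0, v6, ?_, fun n hn => ⟨v8 hz' n hn, fun y hy =>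
        ⟨A0_of_lk (v8 hz' n hn) hy, ?_⟩⟩, Or.inr ⟨v7 hz' 0 (by simpa using hρ0.le) z (self_mem_bl _ _),
          fun x => ?_⟩⟩
    · refine (E0_le (a := a) (b := b) (fun x => (u1.zero trivial).trans (by linarith))
        ((sumA0 u1 hρ0 (sup_sw _ z hρ0) (M := 9) (by linarith) _).trans (by linarith))).trans (by linarith)
    · rw [Pi.sub_apply, sw, A0_lc hρ0 (by linarith) hy, A0_til, uu, ← xi_sub, Pi.sub_apply, sub_sub_cancel]
      exact xi_in (by linarith) (n := n + ⌈3 * R⌉₊) (by push_cast; linarith) (bl_subset_bl hz le_rfl hy)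
    · by_cases h : x ∈ bl z (⌈2 * ρ⌉₊ + 1)
      · rw [v7 hz' _ (by push_cast; linarith) x h, zero_mul]
      · rw [sup_A0 (sup_sw _ z hρ0) x h, mul_zero]
  · have hz' : z ∉ bl 0 ⌊R / 5⌋₊ := fun h => hz (bl_mono 0 (by
      exact_mod_cast (show (⌊R / 5⌋₊ : ℝ) ≤ ⌈3 * R⌉₊ by linarith [Nat.le_ceil (3 * R)])) h)
    refine ⟨v3, fun _ _ => rfl, v5, z1, v6, z2, fun n hn => ⟨v8 hz' n hn, fun y hy =>
      ⟨A0_of_lk (v8 hz' n hn) hy, ?_⟩⟩, Or.inl rfl⟩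
    rw [A0_zero, sub_zero]
    exact sup_xi hR0 (Nat.le_ceil _) y fun h => hz (bl_subset_bl h (by
      exact_mod_cast (show (n : ℝ) + ⌈2 * R⌉₊ ≤ ⌈3 * R⌉₊ by linarith [Nat.le_ceil (3 * R)]))
        (mem_bl_comm.1 hy))

end Crest.Agent.T145.Ev.S4
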