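import Crest.Agent.T145.EvDef_2

/-!
# Row 145, even sector: the pieces of S4 (helper36)
-/

set_option autoImplicit false

namespace Crest.Agent.T145.Ev.S4

open Finset Pot Xi Real Fl

/-- the bump inside the hole -/
noncomputable def vv (w : ℕ) (R : ℝ) : Pt → ℝ := Xi.chi (R / (16 * w))

/-- a potential of `ξ_R` on `bl 0 (8 R - 1)` -/
noncomputable def uu (R : ℝ) : Pt → ℝ := Phi R - Phi (8 * R)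

/-- A: inner sites, the swept part of the bump -/
def AS : Prop := Lam fun p _ E R _ P t _ => ∀ z ∈ bl 0 ⌊R / 5⌋₊,
  |E.ω fun s => X (sw (vv p.w R) z (R * t ^ nr p.w)) s * cp (xi R) (-(π / 2)) s * E.e z s| ≤
    P * t ^ 8 / R ^ 2

/-- B: middle sites, sweeping the charge -/
def BS : Prop := Lam fun p _ E R _ P t _ => ∀ z ∈ bl 0 ⌈3 * R⌉₊, z ∉ bl 0 ⌊R / 5⌋₊ →
  |E.ω (fun s => X (vv p.w R) s * cp (xi R) (-(π / 2)) s * E.e z s) -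
    E.ω fun s => X (vv p.w R) s * cp (xi R - A0 (sw (uu R) z (R * t ^ nr p.w))) (-(π / 2)) s * E.e z s| ≤
    P * t ^ 8 / R ^ 2

/-- F: far sites -/
def FS : Prop := Lam fun p _ E R _ P t _ =>
  ∑ z ∈ E.D \ bl 0 ⌈R * t⁻¹ ^ nr p.w⌉₊,
    |E.ω fun s => X (vv p.w R) s * cp (xi R) (-(π / 2)) s * E.e z s| ≤ P * t ^ 7

/-- a pair (linear factor, swept potential) without charge near `z` -/
structure Adm (R ρ σ : ℝ) (z : Pt) (v v'' : Pt → ℝ) : Prop where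
  s1 : Pot.Sup (bl 0 ⌊R / 4⌋₊) v
  s2 : Pot.Sup (bl 0 ⌊4 * R⌋₊) v''
  m1 : Sm 3 Set.univ σ ρ v
  m2 : Sm 3 Set.univ σ ρ v''
  e1 : E0 (bl 0 ⌊R / 4⌋₊) v ≤ σ
  e2 : E0 (bl 0 ⌊4 * R⌋₊) v'' ≤ σ
  h0 : ∀ n : ℕ, (n : ℝ) + 2 ≤ ρ →
    Lk v z n (σ / R) 0 ∧ ∀ y ∈ bl z n, A0 v y = 0 ∧ (xi R - A0 v'') y = 0
  alt : v'' = 0 ∨ (v z = 0 ∧ ∀ x, v x * A0 v'' x = 0)

/-- ADM (deterministic): the three zones -/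
def AdmS : Prop := ∀ w : ℕ, 4 ≤ w → ∃ C σ : ℝ, 1 ≤ C ∧ 1 ≤ σ ∧ ∀ (R ρ : ℝ) (z : Pt), C ≤ ρ → C * ρ ≤ R →
  (z ∈ bl 0 ⌊R / 5⌋₊ →
    Adm R ρ σ z (vv w R - sw (vv w R) z ρ) 0 ∧ (vv w R - sw (vv w R) z ρ) z = vv w R z) ∧
  (z ∈ bl 0 ⌈3 * R⌉₊ → z ∉ bl 0 ⌊R / 5⌋₊ → Adm R ρ σ z (vv w R) (sw (uu R) z ρ)) ∧
  (z ∉ bl 0 ⌈3 * R⌉₊ → Adm R ρ σ z (vv w R) 0)

/-- REP: one site, after sweeping -/
def RepS : Prop := ∀ σ : ℝ, 1 ≤ σ → LamD fun p _ E R _ P t _ a₁ _ α₂ => ∀ (z : Pt) (v v'' : Pt → ℝ),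
  z ∈ bl 0 ⌈R * t⁻¹ ^ nr p.w⌉₊ → Adm R (R * t ^ nr p.w) σ z v v'' →
  |E.ω (fun s => X v s * cp (xi R - A0 v'') (-(π / 2)) s * E.e z s) +
    α₂ * π * gk E.ω R * ph (gk E.ω R) a₁ R * v z| ≤ P * t ^ (2 * nr p.w + 8) / R ^ 2

end Crest.Agent.T145.Ev.S4
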