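import Crest.Agent.T145.EvS4m_60
import Crest.Agent.T145.EvS4D_36

/-!
# Row 145, even sector: S4, sweeping the charge at the middle sites (helper60)
-/

set_option autoImplicit false

namespace Crest.Agent.T145.Ev.S4

open Finset Pot Xi Real Fl Le60 Lj36 Si60 M60

namespace B60

set_option maxHeartbeats 400000 in
/-- sweeping the charge at the scale `R t ^ nr` -/
theorem swp (hS : SemiStmt) (hP : ProdStmt) (hL : LocStmt) (hW : SwStmt) (hB : BasStmt)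
    (p : Par) : ∃ C : ℝ, 1 ≤ C ∧ ∀ (W : ℕ) (E : Dt) (D₀ R Y P t : ℝ),
    E.Bs p W D₀ R Y P → 0 < t → C * t ≤ 1 → Y ≤ t ^ nr p.w →
    ∀ (c : Pt) (ι : Type) (I : Finset ι) (x : ι → Pt) (rr : ι → ℕ) (H : ι → Cfg Pt → ℝ) (z : Pt) (r : ℕ)
      (σ φ : ℝ) (ξ u : Pt → ℝ) (q : ℤ), Far p E.L (bl c E.N) I x rr H →
      (∀ i ∈ I, ∀ y ∈ bl (x i) (rr i), ξ y = 0) → Chq (bl c E.N) ξ q → p.w * r ≤ E.L →
      bl z (p.w * r) ⊆ bl c E.N → (∀ i ∈ I, Disjoint (bl (x i) (p.w * rr i)) (bl z (p.w * r))) →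
      Lr ξ u z r σ → R * t ^ 2 ≤ r → r * t ^ 2 ≤ R →
      |E.ω (fun s => (∏ i ∈ I, H i s) * cp ξ φ s * E.e z s) - E.ω fun s =>
        (∏ i ∈ I, H i s) * cp (ξ - A0 (sw u z (R * t ^ nr p.w))) φ s * E.e z s| ≤
        (∏ i ∈ I, nu E.Λ p.w (x i) (rr i) (H i)) * (σ * (1 + σ)) * (P * t ^ 20 / R ^ 2) := by
  obtain ⟨C₁, hC₁, h1⟩ := leStmt hS hP hL hW p
  obtain ⟨P₀, hP₀, hB'⟩ := hB p
  have hK : (0 : ℝ) ≤ (p.w : ℝ) ^ 2 * p.r₀ := by positivity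
  have hK' : 0 ≤ C₁ * (1 + P₀ * (p.r₀ : ℝ) ^ 2) := by positivity
  refine ⟨600 + 8 * ((p.w : ℝ) ^ 2 * p.r₀) + C₁ * (1 + P₀ * (p.r₀ : ℝ) ^ 2), by linarith, ?_⟩
  intro W E D₀ R Y P t h t0 hC hY c ι I x rr H z r σ φ ξ u q hF hξ hq hrL hz hd hLr r1 r2
  have hE := h.ed.toEnv
  have hG := hE.toGs
  have hw := hG.w4
  have hn : 4 ≤ nr p.w := le_trans (by norm_num) (N3.nr_ge hw)
  have hσ := hLr.1
  have P1 := h.P1
  have R1 := h.maj.1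
  have t1 : 600 * t ≤ 1 := le_trans (by gcongr; linarith) hC
  have t2 : 8 * ((p.w : ℝ) ^ 2 * p.r₀) * t ≤ 1 := le_trans (by gcongr; linarith) hC
  have t3 : C₁ * (1 + P₀ * (p.r₀ : ℝ) ^ 2) * t ≤ 1 := le_trans (by gcongr; linarith) hC
  have t4 : t ≤ 1 := by linarith
  have hw' : (4 : ℝ) ≤ p.w := by exact_mod_cast hw
  have h2' : (2 : ℝ) ≤ p.r₀ := by exact_mod_cast gs_two hG
  have h16 : 16 * (p.r₀ : ℝ) ≤ (p.w : ℝ) ^ 2 * p.r₀ := by gcongr; nlinarith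
  have ρ1 : 1 ≤ R * t ^ nr p.w * t := by
    rw [mul_assoc, ← pow_succ]; exact N3.one_le_R hw h.maj t0 t4 hY (by linarith)
  have ρ2 : R * t ^ nr p.w ≤ r * t ^ (nr p.w - 2) := by
    rw [show nr p.w = 2 + (nr p.w - 2) by omega, pow_add, ← mul_assoc, Nat.add_sub_cancel_left]; gcongr
  have ρ0 : 0 < R * t ^ nr p.w := by positivity
  generalize R * t ^ nr p.w = ρ at *
  have r0 : (0 : ℝ) < r := lt_of_lt_of_le (by positivity) r1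
  have ρ4 : 8 * (p.w : ℝ) ^ 2 * p.r₀ ≤ ρ := by nlinarith [mul_le_mul_of_nonneg_left ρ1 hK]
  have ρ5 : 600 * ρ ≤ r := by
    have := ρ2.trans (mul_le_mul_of_nonneg_left (pow_le_of_le_one t0.le t4 (by omega)) r0.le)
    nlinarith
  have hrg : E.Λ.rg ≤ p.r₀ := by have := gs_rg hG; omega
  obtain ⟨-, -, b1, b2, -, -, b3⟩ := hB' _ _ _ _ hE 0
  have M1 : 1 ≤ t⁻¹ ^ 2 := one_le_pow₀ (one_le_inv₀ t0 |>.2 t4)
  have k1 := (h1 _ _ _ _ hE (E.e 0) p.r₀ R P P₀ (t⁻¹ ^ 2) le_rfl (E30.ins_le b1 hrg) b2 (by linarith)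
    (by linarith) h.prof (by linarith) (fun c hc => (b3 0 c (bl_mono 0 (hrg.trans hc))).1) M1 c ι I x rr H
    z r σ φ ξ u q hF hξ hq hrL hz hd hLr (by rwa [inv_pow, div_inv_eq_mul])
    (by rwa [inv_pow, le_inv_mul_iff₀' (by positivity)])).1 ρ ρ4 ρ5
  rw [Dt.e, (hB' _ _ _ _ hE z).2.1] at k1
  simp only [mul_right_comm _ (et E.Λ E.ω z _)] at k1
  have hPi := prod_nonneg hS hG hF
  generalize ∏ i ∈ I, nu E.Λ p.w (x i) (rr i) (H i) = PP at *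
  have c0 := cw_pos hw
  have e1 : (ρ / r) ^ (cw p.w / 4) ≤ t ^ 26 := calc
    _ ≤ (t ^ (nr p.w - 2)) ^ (cw p.w / 4) := by gcongr; rwa [div_le_iff₀' r0]
    _ = t ^ (((nr p.w : ℝ) - 2) * (cw p.w / 4)) := by
      rw [← rpow_natCast, ← rpow_mul t0.le, Nat.cast_sub (by omega), Nat.cast_two]
    _ ≤ t ^ ((26 : ℕ) : ℝ) := rpow_le_rpow_of_exponent_ge t0 t4 (by push_cast; linarith [N3.nr_cw hw])
    _ = _ := rpow_natCast _ _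
  have e2 : (t⁻¹ ^ 2) ^ ew p.w ≤ t⁻¹ := calc
    _ ≤ (t⁻¹ ^ 2) ^ (1 / 2 : ℝ) := rpow_le_rpow_of_exponent_le M1 (by linarith [N3.ew_le hw])
    _ = _ := by rw [← sqrt_eq_rpow, sqrt_sq (by positivity)]
  have e3 : 1 / (r : ℝ) ^ 2 ≤ 1 / (R * t ^ 2) ^ 2 := by gcongr
  have e4 : ((p.r₀ : ℝ) / r) ^ (2 + cw p.w / 2) ≤ (p.r₀ : ℝ) ^ 2 * (P * t⁻¹ * t ^ 26 * (1 / (r : ℝ) ^ 2)) := by
    rw [rpow_add (by positivity), rpow_two]
    have : ((p.r₀ : ℝ) / r) ^ (cw p.w / 2) ≤ t ^ 26 :=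
      (rpow_le_rpow_of_exponent_ge (by positivity) (by rw [div_le_one r0]; linarith)
        (by linarith : cw p.w / 4 ≤ _)).trans (le_trans (by gcongr; linarith) e1)
    calc _ ≤ ((p.r₀ : ℝ) / r) ^ 2 * (1 * 1 * t ^ 26) := by gcongr; linarith
      _ ≤ ((p.r₀ : ℝ) / r) ^ 2 * (P * t⁻¹ * t ^ 26) := by gcongr; exact (one_le_inv₀ t0).2 t4
      _ = _ := by ring
  have e5 : P * (t⁻¹ ^ 2) ^ ew p.w * (ρ / r) ^ (cw p.w / 4) / (r : ℝ) ^ 2 +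
      P₀ * ((p.r₀ : ℝ) / r) ^ (2 + cw p.w / 2) ≤ (1 + P₀ * (p.r₀ : ℝ) ^ 2) * t * (P * t ^ 20 / R ^ 2) := calc
    _ ≤ P * t⁻¹ * t ^ 26 * (1 / (r : ℝ) ^ 2) +
        P₀ * ((p.r₀ : ℝ) ^ 2 * (P * t⁻¹ * t ^ 26 * (1 / (r : ℝ) ^ 2))) := by
      rw [div_eq_mul_one_div]; gcongr
    _ = (1 + P₀ * (p.r₀ : ℝ) ^ 2) * (P * t⁻¹ * t ^ 26 * (1 / (r : ℝ) ^ 2)) := by ring
    _ ≤ (1 + P₀ * (p.r₀ : ℝ) ^ 2) * (P * t⁻¹ * t ^ 26 * (1 / (R * t ^ 2) ^ 2)) := by gcongr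
    _ = _ := by field_simp
  refine k1.trans ?_
  calc _ ≤ C₁ * PP * (σ * (1 + σ)) * ((1 + P₀ * (p.r₀ : ℝ) ^ 2) * t * (P * t ^ 20 / R ^ 2)) := by gcongr
    _ = C₁ * (1 + P₀ * (p.r₀ : ℝ) ^ 2) * t * (PP * (σ * (1 + σ)) * (P * t ^ 20 / R ^ 2)) := by ring
    _ ≤ 1 * (PP * (σ * (1 + σ)) * (P * t ^ 20 / R ^ 2)) := by gcongr
    _ = _ := one_mul _

end B60

set_option maxHeartbeats 400000 in
/-- B: middle sites, sweeping the charge -/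
theorem bS60 (hS : SemiStmt) (hP : ProdStmt) (hL : LocStmt) (hW : SwStmt) (hX : XfStmt) (hB : BasStmt) :
    BS := by
  refine fun w => ⟨0, fun p W D₀ _ _ => ?_⟩
  obtain ⟨C₁, c1, k1⟩ := B60.swp hS hP hL hW hB p
  obtain ⟨C₂, c2, -, k2, -⟩ := hX
  obtain ⟨C₅, c5, k5⟩ := nu_chi hS p
  have l8 : 0 ≤ log 8 := log_nonneg (by norm_num)
  obtain ⟨σ, σ0, hσ⟩ : ∃ σ : ℝ, 0 ≤ σ ∧ σ = C₂ * (1 + log 8) := ⟨_, by positivity, rfl⟩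
  have w0 : (0 : ℝ) ≤ p.w := p.w.cast_nonneg
  have r0 : (0 : ℝ) ≤ p.r₀ := p.r₀.cast_nonneg
  have wr : (0 : ℝ) ≤ p.w * p.r₀ := by positivity
  have q1 : 0 ≤ C₅ * (σ * (1 + σ)) := by positivity
  obtain ⟨C, d1, d2, d4, d5, d7⟩ : ∃ C : ℝ, C₁ ≤ C ∧ C₂ ≤ C ∧ 200 * (p.w + 1) ≤ C ∧
      8 * (p.w * p.r₀) ≤ C ∧ C₅ * (σ * (1 + σ)) ≤ C :=
    ⟨C₁ + C₂ + 200 * (p.w + 1) + 8 * (p.w * p.r₀) + C₅ * (σ * (1 + σ)), by linarith, by linarith,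
      by linarith, by linarith, by linarith⟩
  refine ⟨C, nr p.w + 1, c1.trans d1, fun E R Y P t h t0 hC hY hRL z z2 z1 => ?_⟩
  have hE := h.ed.toEnv
  have hG := hE.toGs
  have hw := hG.w4
  have C1 := c1.trans d1
  have t1 := N3.t_le_one C1 t0 hC
  have ct : ∀ A : ℝ, A ≤ C → A * t ≤ 1 := fun A hA => le_trans (by gcongr) hC
  have tt : t ^ (nr p.w + 1) ≤ t := pow_le_of_le_one t0.le t1 (by omega)
  have P1 := h.P1
  have RC : C ≤ R := X81.big hw h.maj (le_trans (by gcongr; exact hY.trans tt) hC) (by linarith)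
  have R0 : 0 < R := by linarith
  have hw' : (4 : ℝ) ≤ p.w := by exact_mod_cast hw
  have L0 : (0 : ℝ) ≤ E.L := E.L.cast_nonneg
  have L3 : 8 * R ≤ E.L := by
    have : R ≤ t * E.L := hRL.trans (by gcongr)
    nlinarith only [this, ct 8 (by linarith), L0]
  have k1 := k1 W E D₀ R Y P t h t0 (ct _ d1) (hY.trans (N3.pow_anti t0 t1 (by omega)))
  have wt := ct _ d4
  have Rt : 0 < R * t := by positivity
  have wRt : 200 * (p.w * (R * t)) + 200 * (R * t) ≤ R := by nlinarith only [wt, R0]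
  have wRt0 : 0 ≤ p.w * (R * t) := by positivity
  have hχ1 : 1 ≤ R / (16 * p.w) := by rw [le_div_iff₀ (by positivity)]; linarith
  have hχ2 : p.w * (R / (16 * p.w)) = R / 16 := by field_simp
  have hχ4 : (p.r₀ : ℝ) ≤ 2 * (R / (16 * p.w)) := by
    rw [← mul_div_assoc, le_div_iff₀ (by positivity)]; linarith
  rw [vv]
  generalize R / (16 * p.w) = κ at *
  obtain ⟨g, g1, g2⟩ : ∃ g : ℕ, 2 * κ ≤ g ∧ (g : ℝ) ≤ 2 * κ + 1 :=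
    ⟨_, Nat.le_ceil _, (Nat.ceil_lt_add_one (by linarith)).le⟩
  obtain ⟨r, r1, r2⟩ : ∃ r : ℕ, R * t ≤ r ∧ (r : ℝ) ≤ R * t + 1 :=
    ⟨_, Nat.le_ceil _, (Nat.ceil_lt_add_one Rt.le).le⟩
  have gr : p.r₀ ≤ g := by exact_mod_cast hχ4.trans g1
  obtain ⟨s1, s2, s3⟩ := k5 E.Λ E.L hG κ g hχ1 g1 (by linarith) gr
  have f4 := Nat.lt_floor_add_one (R / 5)
  have wg : (p.w : ℝ) * g ≤ R / 8 + p.w := by nlinarith only [g2, hχ2, w0]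
  have wr' : (p.w : ℝ) * r ≤ p.w * (R * t) + p.w := by nlinarith only [r2, w0]
  have n1 : p.w * g + p.w * r ≤ ⌊R / 5⌋₊ := by
    exact_mod_cast (show (p.w : ℝ) * g + p.w * r ≤ ⌊R / 5⌋₊ by linarith)
  have f5 : (⌊R / 5⌋₊ : ℝ) ≤ R / 5 := Nat.floor_le (by positivity)
  have f6 := Nat.ceil_lt_add_one (show 0 ≤ 3 * R by linarith)
  have n2 : ⌈3 * R⌉₊ + ⌊R / 5⌋₊ ≤ E.L := by
    exact_mod_cast (show (⌈3 * R⌉₊ : ℝ) + ⌊R / 5⌋₊ ≤ E.L by linarith)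
  have hN := hE.le
  have n4 := le_wmul hG g
  have n6 : 2 * R ≤ E.N := le_trans (by linarith) (L3.trans (by exact_mod_cast hN))
  have κ4 : 4 * κ ≤ R / 16 := by nlinarith only [hχ2, hw', hχ1]
  have rp : (0 : ℝ) < r := by linarith
  have ρ5 : R * t ^ 2 ≤ r := by nlinarith only [r1, t1, Rt]
  have ρ6 : r * t ^ 2 ≤ R := (mul_le_of_le_one_right rp.le (pow_le_one₀ t0.le t1)).trans (by linarith)
  have hF : Far p E.L (bl 0 E.N) ({()} : Finset Unit) (fun _ => 0) (fun _ => g) fun _ => X (Xi.chi κ) :=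
    ⟨by simp, fun _ _ => s2, fun _ _ => ⟨gr, by omega⟩, fun _ _ => bl_mono 0 (by omega),
      fun _ _ _ _ h => absurd rfl h⟩
  have u1 := (k2 8 R (8 * R) ⌈2 * (8 * R)⌉₊ r (by norm_num) (by linarith) le_rfl (by linarith) (Nat.le_ceil _)
    (by exact_mod_cast rp) (by linarith)).2
  rw [← hσ] at u1
  have lr : Lr (xi R) (uu R) z r σ := Lr.of_sm u1 (fun _ _ => trivial) fun y hy => by
    rw [uu, ← xi_sub, Pi.sub_apply, xi_in (r := 8 * R) (by linarith) (n := r + 2 + ⌈3 * R⌉₊)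
      (by push_cast; linarith) (bl_subset_bl z2 le_rfl hy), sub_zero]
  have k := k1 0 Unit _ _ _ _ z r σ (-(π / 2)) (xi R) (uu R) 1 hF
    (fun _ _ y hy => xi_in R0 (n := g) (by linarith) hy) (E30.chq_xi R0 n6) (by omega)
    (bl_subset_bl z2 (by omega)) (fun _ _ => disj z1 n1) lr ρ5 ρ6
  simp only [prod_singleton] at k
  refine k.trans ?_
  calc _ ≤ C₅ * (σ * (1 + σ)) * (P * t ^ 9 / R ^ 2) := by
        gcongr ?_ * _ * (P * ?_ / _); exact N3.pow_anti t0 t1 (by omega)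
    _ = C₅ * (σ * (1 + σ)) * t * (P * t ^ 8 / R ^ 2) := by ring
    _ ≤ 1 * (P * t ^ 8 / R ^ 2) := by gcongr; exact ct _ d7
    _ = _ := one_mul _

end Crest.Agent.T145.Ev.S4
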