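import Crest.Agent.T145.EvDef_2
import Crest.Agent.T145.FlAmb_4
import Crest.Agent.T145.FlEnv_30
import Crest.Agent.T145.FlOBas_98
import Crest.Agent.T145.FlFar_57

/-!
# Row 145, even sector: dependence on the environment (`Ev.ambStmt`, `Ev.tAmbStmt`, helper49)
-/

set_option autoImplicit false

namespace Crest.Agent.T145.Ev

open Finset Pot Xi Real Fl Filter Topology

namespace A49

variable {p : Par} {Λ : Lat} {L N r W : ℕ} {ω : Sta} {F G : Cfg Pt → ℝ} {z : Pt} {A B : ℝ}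

theorem nm_mul (hΛ : Λ.Ok) (c : Pt) (n : ℕ) (hF : Tame F) (hG : Tame G) :
    Nc.Nm Λ c n (fun s => F s * G s) ≤
      (Nc.Nm Λ c n (fun s => F s ^ 2) + Nc.Nm Λ c n fun s => G s ^ 2) / 2 := by
  have hW := hΛ.cen_Nr_bl (self_mem_bl c n)
  have i1 := hW.ig (hF.pow 2).abs
  have i2 := hW.ig (hG.pow 2).abs
  have k := Ex_mono hW.nonneg (hW.ig ((hF.mul hG).abs.const_mul 2)) (i1.add i2) fun s => by
    rw [abs_mul, abs_pow, abs_pow]; nlinarith [sq_nonneg (|F s| - |G s|)]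
  rw [Ex_const_mul, Ex_add i1 i2] at k
  simp only [Nc.Nm, Nc.EN]
  linarith

theorem nm_bdd (hΛ : Λ.Ok) (c : Pt) (n : ℕ) (h : ∀ s, |F s| ≤ B) : Nc.Nm Λ c n F ≤ B :=
  (le_abs_self _).trans ((hΛ.cen_Nr_bl (self_mem_bl c n)).wt.abs_ex_le fun s _ => by
    rw [abs_abs]; exact h s)

theorem nu_le (h : Gs p Λ L) (h0 : p.r₀ ≤ r) (hF : Ins z r F) :
    nu Λ p.w z r F ≤ Nc.Nm Λ z (p.w * r) F :=
  ((semiStmt Λ p.w r z h.mem.ok (by have := A51.four_le h r; have := h.gd.2.1; omega)).1 F hF).2.1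

theorem nu_mul (h : Gs p Λ L) (h0 : p.r₀ ≤ r) (hF : Ins z r F) (hG : Ins z r G)
    (h1 : Nc.Nm Λ z (p.w * r) (fun s => F s ^ 2) ≤ A) (h2 : Nc.Nm Λ z (p.w * r) (fun s => G s ^ 2) ≤ B) :
    nu Λ p.w z r (fun s => F s * G s) ≤ (A + B) / 2 :=
  (nu_le h h0 (hF.mul hG)).trans ((nm_mul h.mem.ok _ _ hF.2 hG.2).trans (by linarith))

theorem nu_one (h : Gs p Λ L) (h0 : p.r₀ ≤ r) (hF : Ins z r F)
    (h1 : Nc.Nm Λ z (p.w * r) (fun s => F s ^ 2) ≤ A) : nu Λ p.w z r F ≤ (A + 1) / 2 := by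
  simpa only [mul_one] using nu_mul h h0 hF (Ins.const z r 1) h1
    (nm_bdd h.mem.ok _ _ fun _ => by norm_num)

theorem abs_om_le (h : Env p Λ ω L N) (h0 : p.r₀ ≤ r) (hL : p.w * r ≤ L) (hF : Ins 0 r F) :
    |ω F| ≤ 2 * nu Λ p.w 0 r F := by
  obtain ⟨m, hm, e⟩ := h.amb 0
  have := A51.four_le h.toGs r
  have := h.le
  rw [e F (hF.mono (by omega)).1]
  exact Amb4.abs_ex_le h.toGs h0 hL (FlF4.amb_mono hm (bl_mono 0 (by omega))) hF

theorem tend (t : ℝ) {c : ℝ} (hc : 0 < c) (K : ℝ) :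
    Tendsto (fun L : ℕ => K * (t / L) ^ c) atTop (𝓝 0) := by
  have h := ((tendsto_const_nhds (x := t).div_atTop tendsto_natCast_atTop_atTop).rpow_const (p := c)
    (Or.inr hc.le)).const_mul K
  rwa [zero_rpow hc.ne', mul_zero] at h

/-- the far part of the derivative -/
theorem far (hF : FarEStmt) (hA : ApStmt) (p : Par) {W : ℕ} (hW : 2 ≤ W) (a : ℕ) (B : ℝ) :
    ∃ C : ℝ, 0 ≤ C ∧ ∀ E : Dt, E.Ok p W → E.r₁ ≤ a → ∀ b, 16 * p.w * a ≤ b → b ≤ E.L → ∀ F, Ins 0 a F →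
      (∀ c, a ≤ c → Nc.Nm E.Λ 0 c (fun s => F s ^ 2) ≤ B ^ 2) →
      |E.ω' F - ∑ z ∈ bl 0 b, E.ω fun s => F s * E.e z s| ≤
        C * ((a : ℝ) / b) ^ (cw p.w / 2) + C * ((a : ℝ) / E.L) ^ (cw p.w / 2) := by
  obtain ⟨C₁, c1, h1⟩ := hF p
  obtain ⟨C₂, c2, h2⟩ := hA p W hW
  refine ⟨C₁ * ((B ^ 2 + 1) / 2) * (C₂ * (a : ℝ) ^ 2), by positivity, fun E ok ha b hb hL F i hB => ?_⟩
  have env := ok.ed.toEnv
  have h4 := A51.four_le env.toGs a
  have h5 := env.le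
  have h6 := ok.r8
  have h7 : 16 * (p.w * a) ≤ b := by rwa [← mul_assoc]
  have a0 : (0 : ℝ) < a := by exact_mod_cast (by omega : 0 < a)
  have H := h1 _ _ _ _ env a _ a0 (by positivity) ((h2 E ok).2.2 a (by exact_mod_cast ha)) a b F
    (ok.r0.trans ha) hb (hb.trans hL) i
  rw [div_self a0.ne', max_self, one_rpow, mul_one] at H
  have n := nu_one env.toGs (ok.r0.trans ha) i (hB _ (by omega))
  rw [ok.ed.der F (i.mono (by omega)), ← sum_sdiff ((bl_mono 0 (hL.trans h5)).trans ok.ed.lo),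
    add_sub_cancel_right, ← mul_add]
  refine (abs_sum_le_sum_abs _ _).trans ((sum_le_sum_of_subset_of_nonneg
    (sdiff_subset_sdiff ok.ed.hi subset_rfl) fun _ _ _ => abs_nonneg _).trans (H.trans ?_))
  gcongr

end A49

open A49

theorem ambStmt (hB : BasStmt) (hF : FarEStmt) (hA : ApStmt) : AmbStmt := by
  intro p W a B hW
  obtain ⟨C, c0, hf⟩ := far hF hA p hW a B
  obtain ⟨P₀, p1, hb⟩ := hB p
  refine ⟨⟨(2 * (16 * p.w * a : ℕ) + 1) ^ 2 * (√(2 * B ^ 2) * √(P₀ ^ 2)) + 2 * C,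
    fun E ok ha hL F i hN => ?_⟩, fun ε hε => ?_⟩
  · have env := ok.ed.toEnv
    have h4 := A51.four_le env.toGs a
    have h5 := env.le
    have h6 := ok.r8
    have h7 : 16 * (p.w * a) ≤ E.L := by rwa [← mul_assoc]
    have h8 := env.gd.2.1
    have h9 := ok.r0
    have H := hf E ok ha _ le_rfl hL F i hN
    have c1 := half_pos (Far57.cw_pos (show 1 ≤ p.w by have := env.w4; omega))
    have r1 : ∀ n : ℕ, a ≤ n → C * ((a : ℝ) / n) ^ (cw p.w / 2) ≤ C := fun n hn =>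
      mul_le_of_le_one_right c0 (rpow_le_one (by positivity)
        (div_le_one_of_le₀ (by exact_mod_cast hn) (by positivity)) c1.le)
    have s1 : E.ω (fun s => F s ^ 2) ≤ 2 * B ^ 2 := (le_abs_self _).trans
      ((abs_om_le env (h9.trans ha) (by omega) (i.pow 2)).trans (by
        linarith [nu_le env.toGs (h9.trans ha) (i.pow 2), hN (p.w * a) (by omega)]))
    have s2 := sum_le_card_nsmul (bl (0 : Pt) (16 * p.w * a)) (fun z => |E.ω fun s => F s * E.e z s|)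
      (√(2 * B ^ 2) * √(P₀ ^ 2)) fun z hz => by
        obtain ⟨-, -, i', -, -, b1, -⟩ := hb _ _ _ _ env z
        rw [mul_assoc] at hz
        refine (env.abs_ex_mul_le (c := (z.1 / 2, z.2 / 2)) (i.of_subset fun x hx => ?_)
          (i'.of_subset fun x hx => ?_)).trans (by gcongr) <;>
        simp only [mem_bl, Prod.fst_zero, Prod.snd_zero] at hz hx ⊢ <;> omega
    rw [card_bl, nsmul_eq_mul] at s2
    have s3 := (abs_sum_le_sum_abs _ _).trans s2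
    have s4 := abs_sub_abs_le_abs_sub (E.ω' F) (∑ z ∈ bl 0 (16 * p.w * a), E.ω fun s => F s * E.e z s)
    push_cast at s3 s4 ⊢
    linarith [r1 (16 * p.w * a) (by rw [mul_assoc]; omega), r1 E.L (by omega)]
  by_cases hw : 4 ≤ p.w
  swap
  · exact ⟨0, fun E _ ok => absurd ok.ed.w4 hw⟩
  have c1 := Far57.cw_pos (show 1 ≤ p.w by omega)
  obtain ⟨C₂, c2, h2⟩ := Amb4.gk_amb p
  obtain ⟨b, b1, b2⟩ := (((tend a (half_pos c1) C).eventually
    (ge_mem_nhds (show 0 < ε / 8 by positivity))).and (eventually_ge_atTop (16 * p.w * a))).exists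
  set K : ℝ := (B ^ 2 + P₀ ^ 2) / 2 + (P₀ ^ 2 + 1) / 2 * (B ^ 2 + 1) with hK
  obtain ⟨L₀, hL₀⟩ := eventually_atTop.1 ((((tend a (half_pos c1) C).eventually
    (ge_mem_nhds (show 0 < ε / 8 by positivity))).and (eventually_ge_atTop (p.w * (b + a)))).and
    ((tend (b + a : ℕ) c1 ((2 * b + 1) ^ 2 * (C₂ * K))).eventually (ge_mem_nhds (half_pos hε))))
  have key : ∀ E E' : Dt, E.Ok p W → E'.Ok p W → E'.Λ = E.Λ → E.r₁ ≤ a → E'.r₁ ≤ a → L₀ ≤ E.L →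
      E.L ≤ E'.L → ∀ F, Ins 0 a F → (∀ c, a ≤ c → Nc.Nm E.Λ 0 c (fun s => F s ^ 2) ≤ B ^ 2) →
      |E'.ω F - E.ω F| ≤ ε ∧ |E'.ω' F - E.ω' F| ≤ ε := fun E E' ok ok' e ha ha' hL hL' F i hN => by
    obtain ⟨⟨t1, t2⟩, t3⟩ := hL₀ _ hL
    have t4 := (hL₀ _ (hL.trans hL')).1.1
    have env := ok.ed.toEnv
    have env' := ok'.ed.toEnv
    have h4 := A51.four_le env.toGs (b + a)
    have h5 := env'.le
    have h8 := env.gd.2.1
    have h9 := ok.r0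
    have f1 := hf E ok ha b b2 (by omega) F i hN
    have f2 := hf E' ok' ha' b b2 (by omega) F i (e ▸ hN)
    simp only [Dt.e, e] at env' f1 f2
    have H := fun G => (h2 _ _ _ _ _ _ _ env env' (by omega)).1 (b + a) G (by omega) t2
    set θ := (((b + a : ℕ) : ℝ) / E.L) ^ cw p.w with hθ
    have θ0 : 0 ≤ θ := by positivity
    have i1 : Ins 0 (b + a) F := i.mono (by omega)
    have n1 := nu_one env.toGs (by omega) i1 (hN _ (by omega))
    have n2 := abs_om_le env' (by omega) (t2.trans hL') i1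
    have K1 : (B ^ 2 + 1) / 2 ≤ K := by nlinarith [sq_nonneg B, sq_nonneg P₀]
    have one : ∀ z ∈ bl (0 : Pt) b, |E'.ω (fun s => F s * et E.Λ E'.ω z s) -
        E.ω fun s => F s * et E.Λ E.ω z s| ≤ C₂ * K * θ := fun z hz => by
      obtain ⟨z0, -, i', -, -, -, b3⟩ := hb _ _ _ _ env z
      have i2 : Ins 0 (b + a) (et E.Λ E.ω z) := i'.move hz (by omega)
      have b4 := (b3 0 (p.w * (b + a)) (bl_subset_bl hz (by omega))).1
      have d1 := (H _ (i1.mul i2)).trans (mul_le_mul_of_nonneg_left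
        (nu_mul env.toGs (by omega) i1 i2 (hN _ (by omega)) b4) (by positivity))
      have d2 := (H _ i2).trans (mul_le_mul_of_nonneg_left (nu_one env.toGs (by omega) i2 b4)
        (by positivity))
      have j1 : Ins 0 E'.N F := i.mono (by omega)
      have j2 : Ins 0 E'.N (et E.Λ E.ω z) := i2.mono (by omega)
      have e1 : E'.ω (Om.est E.Λ z) = E'.ω (et E.Λ E.ω z) + E.ω (Om.est E.Λ z) := by
        rw [← env'.ex_const (E.ω (Om.est E.Λ z)), ← env'.ex_add j2 (Ins.const _ _ _)]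
        simp only [et, sub_add_cancel]
      have e2 : E'.ω (fun s => F s * et E.Λ E'.ω z s) =
          E'.ω (fun s => F s * et E.Λ E.ω z s) - E'.ω (et E.Λ E.ω z) * E'.ω F := by
        rw [← env'.ex_smul j1.1, ← env'.ex_sub (j1.mul j2) (j1.smul _)]
        exact congrArg _ (funext fun s => by rw [et, e1]; simp only [et]; ring)
      rw [z0, sub_zero] at d2
      rw [e2, sub_right_comm]
      refine (abs_sub _ _).trans ?_
      rw [abs_mul]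
      refine (add_le_add d1 (mul_le_mul d2 (show |E'.ω F| ≤ B ^ 2 + 1 by linarith) (abs_nonneg _)
        (by positivity))).trans_eq ?_
      rw [hK]; ring
    have s2 := (abs_sum_le_sum_abs _ _).trans (sum_le_card_nsmul _ _ _ one)
    rw [card_bl, nsmul_eq_mul, sum_sub_distrib] at s2
    push_cast at s2
    have s3 : C₂ * K * θ ≤ (2 * b + 1) ^ 2 * (C₂ * K) * θ := by
      rw [mul_assoc ((2 * (b : ℝ) + 1) ^ 2)]
      exact le_mul_of_one_le_left (by positivity) (one_le_pow₀ (by linarith [Nat.cast_nonneg (α := ℝ) b]))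
    refine ⟨(H F i1).trans ?_, ?_⟩
    · linarith [mul_le_mul_of_nonneg_left (n1.trans K1) (mul_nonneg c2 θ0)]
    · rw [← mul_assoc] at s2
      rw [abs_le] at f1 f2 s2 ⊢
      constructor <;> linarith [f1.1, f1.2, f2.1, f2.2, s2.1, s2.2]
  refine ⟨L₀, fun E E' ok ok' e ha ha' hL hL' F i hN => ?_⟩
  rcases le_total E.L E'.L with h | h
  · rw [abs_sub_comm, abs_sub_comm (E.ω' F)]; exact key E E' ok ok' e ha ha' hL h F i hN
  · exact key E' E ok' ok e.symm ha' ha hL' h F i (e ▸ hN)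

namespace A49

theorem nm4 (F : Fa) : ∃ C : ℝ, 0 ≤ C ∧ ∀ Λ, F.Mem Λ → ∀ (y : Pt) (n c : ℕ), y ∈ bl 0 n → n + 1 ≤ c →
    Nc.Nm Λ 0 c (fun s => (Jz y s ^ 2) ^ 2) ≤ C := by
  obtain ⟨C, hC, h⟩ := Fl.bareStmt F
  refine ⟨C * 4 ^ 2, by positivity, fun Λ hΛ y n c hy hc => ?_⟩
  have := ((h Λ hΛ 0 n (dl y) (sup_dl hy)).2.2 c hc).2.1
  simp only [← Jz_eq_pr] at this
  rw [E0, show ∑ x ∈ bl 0 n, dl y x * A0 (dl y) x = _ from ip_dl hy _,
    show A0 (dl y) y = 4 by simp [A0, Prod.ext_iff]] at this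
  refine le_of_eq_of_le (congrArg (Nc.EN Λ 0 c) (funext fun s => ?_)) this
  exact (abs_of_nonneg (sq_nonneg _)).trans (pow_mul _ 2 2).symm

theorem gk_sub (ω ω' : Sta) (R : ℝ) {t : ℝ} (h : ∀ x ∈ bl 0 ⌈2 * R⌉₊, |KK ω x - KK ω' x| ≤ t) :
    |gk ω R - gk ω' R| ≤ (∑ x ∈ bl 0 ⌈2 * R⌉₊, eu x ^ 2) * t := by
  rw [gk, gk, ← mul_sub, ← sum_sub_distrib, abs_mul, sum_mul]
  refine le_trans (mul_le_of_le_one_left (abs_nonneg _) (by rw [abs_le]; constructor <;> norm_num))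
    ((abs_sum_le_sum_abs _ _).trans (sum_le_sum fun x hx => ?_))
  rw [← sub_mul, ← sub_mul, abs_mul, abs_mul, abs_of_nonneg (sq_nonneg (eu x)), mul_comm _ t]
  exact (mul_le_of_le_one_right (by positivity) (abs_chi_le R x)).trans
    (mul_le_mul_of_nonneg_right (h x hx) (sq_nonneg _))

theorem gk_le (ω : Sta) (R : ℝ) {t : ℝ} (h : ∀ x ∈ bl 0 ⌈2 * R⌉₊, |KK ω x| ≤ t) :
    |gk ω R| ≤ (∑ x ∈ bl 0 ⌈2 * R⌉₊, eu x ^ 2) * t := by
  simpa [gk, KK] using gk_sub ω (fun _ => 0) R (t := t) (by simpa [KK] using h)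

/-- `q` as a function of `l`, `g`, `l'`, `g'` -/
noncomputable def Φ (K e : ℝ) (u : ℝ × ℝ × ℝ × ℝ) : ℝ :=
  K * |u.1| * exp (-2 * π ^ 2 * u.2.1 * e) * (u.2.2.1 / u.1 - 2 * π ^ 2 * e * u.2.2.2)

theorem unif (K e M : ℝ) {c ε : ℝ} (hc : 0 < c) (hε : 0 < ε) : ∃ η, 0 < η ∧ ∀ u v : ℝ × ℝ × ℝ × ℝ,
    c ≤ |u.1| → c ≤ |v.1| → ‖u‖ ≤ M → ‖v‖ ≤ M → ‖u - v‖ < η → |Φ K e u - Φ K e v| ≤ ε := by
  have h1 : IsCompact (Metric.closedBall (0 : ℝ × ℝ × ℝ × ℝ) M ∩ {u | c ≤ |u.1|}) :=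
    (isCompact_closedBall _ _).inter_right (isClosed_le continuous_const (by fun_prop))
  obtain ⟨η, h0, h⟩ := Metric.uniformContinuousOn_iff.1 (h1.uniformContinuousOn_of_continuous
    (f := Φ K e) (ContinuousOn.mul (by fun_prop) (ContinuousOn.sub (ContinuousOn.div (by fun_prop)
      (by fun_prop) fun u hu => abs_pos.1 (hc.trans_le hu.2)) (by fun_prop)))) ε hε
  exact ⟨η, h0, fun u v a b a' b' d => (h u ⟨mem_closedBall_zero_iff.2 a', a⟩ v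
    ⟨mem_closedBall_zero_iff.2 b', b⟩ (by rwa [dist_eq_norm])).le⟩

end A49

set_option maxHeartbeats 800000 in
theorem tAmbStmt (hE : EnvStmt) (hA : AmbStmt) : TAmbStmt := by
  intro F θ₀ w r₀ hθ
  obtain ⟨v₀, h0⟩ := hE F θ₀ w r₀ hθ
  refine ⟨v₀, fun q e1 e2 e3 c => ?_⟩
  obtain ⟨p, s, -, h1⟩ := h0 q e1 e2 e3 c
  obtain ⟨δ, s', δ0, -, h2⟩ := h1 1
  refine ((evp_δ δ0).and (evp_s s')).mono fun P ⟨pδ, ps⟩ l _ => ?_
  obtain ⟨r₁, k₀, h3⟩ := h2 l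
  refine ⟨k₀, fun k hk ε hε => ?_⟩
  obtain ⟨C, C0, h4⟩ := nm4 p.F
  set R := q.R k with hR
  have R1 : 1 ≤ R := q.one_le_R k
  set a := ⌈2 * R⌉₊ + 1 with ha
  obtain ⟨⟨B', h5⟩, h6⟩ := hA p q.W a (C + 1) c.two_le_W
  set S := ∑ x ∈ bl (0 : Pt) ⌈2 * R⌉₊, eu x ^ 2 with hS
  have S0 : 0 ≤ S := sum_nonneg fun _ _ => sq_nonneg _
  set M := (1 + S) * ((C + 1) ^ 2 + 1 + |B'|) with hM
  set K := √(π * log q.W * Ak q.W R / 2) * R ^ 2 with hK
  set X := q.D * K * exp (2 * π ^ 2 * M * |er R|) with hX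
  have X0 : 0 ≤ X := by have := zero_le_one.trans c.D1; positivity
  obtain ⟨η, η0, U⟩ := A49.unif K (er R) M (c := R ^ (-ew p.w) / (X + 1)) (by positivity) (half_pos hε)
  have k0 : 0 ≤ π * log q.W := mul_nonneg pi_pos.le (log_nonneg q.one_le_W')
  set t := min (η / (2 * (1 + S))) (ε / (2 * (π * log q.W * S + 1))) with ht
  have t0 : 0 < t := by positivity
  obtain ⟨L₀, h7⟩ := h6 t t0
  have iJ : ∀ x ∈ bl (0 : Pt) ⌈2 * R⌉₊, Ins 0 a fun s => Jz 0 s * Jz x s := fun x hx =>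
    (ins_Jz 0 (by omega)).mul ((ins_Jz x le_rfl).move hx (by omega))
  have iS : Ins 0 a fun s => Jz 0 s * Sn R s := (ins_Jz 0 (by omega)).mul
    (E30.ins_Sn (by linarith) (by rw [ha]; push_cast; linarith [Nat.le_ceil (2 * R)]))
  have nJ : ∀ Λ, p.F.Mem Λ → ∀ x ∈ bl (0 : Pt) ⌈2 * R⌉₊, ∀ n, a ≤ n →
      Nc.Nm Λ 0 n (fun s => (Jz 0 s * Jz x s) ^ 2) ≤ (C + 1) ^ 2 := fun Λ hΛ x hx n hn => by
    simp only [mul_pow]
    refine (nm_mul hΛ.ok 0 n ((tame_Jz 0).pow 2) ((tame_Jz x).pow 2)).trans ?_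
    nlinarith [h4 Λ hΛ 0 _ n (self_mem_bl _ _) hn, h4 Λ hΛ x _ n hx hn]
  have nS : ∀ Λ, p.F.Mem Λ → ∀ n, a ≤ n →
      Nc.Nm Λ 0 n (fun s => (Jz 0 s * Sn R s) ^ 2) ≤ (C + 1) ^ 2 := fun Λ hΛ n hn => by
    simp only [mul_pow]
    refine (nm_mul hΛ.ok 0 n ((tame_Jz 0).pow 2) ((Tame.bdd (E30.abs_Sn_le R)).pow 2)).trans ?_
    nlinarith [h4 Λ hΛ 0 _ n (self_mem_bl _ _) hn, nm_bdd (F := fun s => (Sn R s ^ 2) ^ 2) (B := 1)
      hΛ.ok 0 n fun s => by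
        rw [← pow_mul, abs_pow]; exact pow_le_one₀ (abs_nonneg _) (E30.abs_Sn_le R s)]
  -- one torus
  have one : ∀ Λ N, q.fw.V F θ₀ P Λ l N k → max L₀ (16 * p.w * a) + s ≤ N →
      (tE Λ N r₁ s).Ok p q.W ∧ r₁ ≤ a ∧ L₀ ≤ (tE Λ N r₁ s).L ∧
      R ^ (-ew p.w) / (X + 1) ≤ |ell (tor Λ N) R (Jz 0)| ∧ ‖(ell (tor Λ N) R (Jz 0), gk (tor Λ N) R,
        ell (tor' Λ N) R (Jz 0), gk (tor' Λ N) R)‖ ≤ M := fun Λ N ⟨v1, v2, v3⟩ hN => by
    obtain ⟨ok, lv, -⟩ := h3 Λ N k v1 ⟨v2.1.mono_d pδ, v2.2.trans pδ⟩ hk (by rw [Dat.fw_w] at v3; omega)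
    have env := ok.ed.toEnv
    have r8 : 8 ≤ r₁ := ok.r8
    have ra : r₁ ≤ a := by
      have h := (le_self_pow₀ (show (1 : ℝ) ≤ r₁ by exact_mod_cast (by omega : 1 ≤ r₁))
        (by norm_num)).trans lv.r1
      exact_mod_cast h.trans (by rw [ha]; push_cast; linarith [Nat.le_ceil (2 * R)] : R ≤ a)
    have hL : max L₀ (16 * p.w * a) ≤ (tE Λ N r₁ s).L :=
      (by omega : _ ≤ N - s).trans (Nat.lt_two_pow_self (n := N - s)).le
    have hL1 := le_of_max_le_right hL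
    have b0 : ∀ G, Ins 0 a G → (∀ n, a ≤ n → Nc.Nm Λ 0 n (fun s => G s ^ 2) ≤ (C + 1) ^ 2) →
        |tor Λ N G| ≤ (C + 1) ^ 2 + 1 + |B'| ∧ |tor' Λ N G| ≤ (C + 1) ^ 2 + 1 + |B'| := fun G i hG => by
      have a1 := abs_om_le env (ok.r0.trans ra) (by rw [mul_assoc] at hL1; omega) i
      have a2 := nu_one env.toGs (ok.r0.trans ra) i
        (hG _ (by have := A51.four_le env.toGs a; omega))
      have a3 := (h5 _ ok ra hL1 G i hG).trans (le_abs_self _)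
      exact ⟨a1.trans (by linarith [abs_nonneg B']), a3.trans (by nlinarith [sq_nonneg (C + 1)])⟩
    have m1 : (C + 1) ^ 2 + 1 + |B'| ≤ M := le_mul_of_one_le_left (by positivity) (by linarith)
    have m2 : S * ((C + 1) ^ 2 + 1 + |B'|) ≤ M :=
      mul_le_mul_of_nonneg_right (by linarith) (by positivity)
    have g1 := (gk_le (tor Λ N) R fun x hx => (b0 _ (iJ x hx) (nJ Λ env.mem x hx)).1).trans m2
    refine ⟨ok, ra, le_of_max_le_left hL, ?_, ?_⟩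
    · have y := lv.maj.2.1
      have y2 : exp (-2 * π ^ 2 * gk (tor Λ N) R * er R) ≤ exp (2 * π ^ 2 * M * |er R|) := by
        refine exp_le_exp.2 ((le_abs_self _).trans ?_)
        rw [abs_mul, abs_mul, abs_mul, abs_neg, abs_two, abs_of_nonneg (sq_nonneg π)]
        gcongr
      rw [div_le_iff₀ (by positivity)]
      refine y.trans ?_
      have D0 := zero_le_one.trans c.D1
      calc _ = q.D * K * exp (-2 * π ^ 2 * gk (tor Λ N) R * er R) * |ell (tor Λ N) R (Jz 0)| := by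
            rw [Dat.y, yk]; ring
        _ ≤ X * |ell (tor Λ N) R (Jz 0)| := by rw [hX]; gcongr
        _ ≤ _ := by
            rw [mul_comm]; exact mul_le_mul_of_nonneg_left (by linarith) (abs_nonneg _)
    · simp only [Prod.norm_def, max_le_iff, Real.norm_eq_abs]
      exact ⟨(b0 _ iS (nS Λ env.mem)).1.trans m1, g1, (b0 _ iS (nS Λ env.mem)).2.trans m1,
        (gk_le (tor' Λ N) R fun x hx => (b0 _ (iJ x hx) (nJ Λ env.mem x hx)).2).trans m2⟩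
  refine ⟨max L₀ (16 * p.w * a) + s, fun Λ N N' v v' _ _ hN hN' => ?_⟩
  obtain ⟨ok, ra, a1, a2, a3⟩ := one Λ N v hN
  obtain ⟨ok', -, b1, b2, b3⟩ := one Λ N' v' hN'
  have mem := ok.ed.mem
  have d := h7 _ _ ok ok' rfl ra ra a1 b1
  have d1 := d _ iS (nS Λ mem)
  have d2 := gk_sub (tor Λ N) (tor Λ N') R fun x hx => (d _ (iJ x hx) (nJ Λ mem x hx)).1
  have d3 := gk_sub (tor' Λ N) (tor' Λ N') R fun x hx => (d _ (iJ x hx) (nJ Λ mem x hx)).2
  have t1 : (1 + S) * t < η := by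
    have := (le_div_iff₀ (by positivity)).1 (min_le_left _ _ : t ≤ _)
    linarith
  have t2 : (π * log q.W * S + 1) * t ≤ ε / 2 := by
    have := (le_div_iff₀ (by positivity)).1 (min_le_right _ _ : t ≤ _)
    linarith
  have st : 0 ≤ S * t := by positivity
  have u := U _ _ a2 b2 a3 b3 (by
    simp only [Prod.mk_sub_mk, Prod.norm_def, max_lt_iff, Real.norm_eq_abs]
    exact ⟨d1.1.trans_lt (by linarith), d2.trans_lt (by linarith), d1.2.trans_lt (by linarith),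
      d3.trans_lt (by linarith)⟩)
  have e : |pT q Λ N k - pT q Λ N' k| ≤ ε / 2 := by
    rw [pT, pT, pd, pd, ← mul_sub, abs_mul, abs_of_nonneg k0]
    linarith [mul_le_mul_of_nonneg_left d3 k0]
  have e' : |qT q Λ N k - qT q Λ N' k| ≤ ε / 2 := u
  linarith

end Crest.Agent.T145.Ev
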