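import Crest.Agent.T145.EvS4D_36
import Crest.Agent.T145.EvNum_3
import Crest.Agent.T145.EvAmb_49

/-!
# Row 145, even sector (helper14): the far sites of S4
-/

set_option autoImplicit false

namespace Crest.Agent.T145.Ev.S4

open Finset Pot Xi Real Fl

theorem E0_chi14 : ∃ C : ℝ, 0 ≤ C ∧ ∀ r : ℝ, 1 ≤ r → E0 (bl 0 ⌈2 * r⌉₊) (Xi.chi r) ≤ C := by
  obtain ⟨C, hC, h⟩ := sm_chi 1
  refine ⟨6 * C ^ 2 * 49, by positivity, fun r hr => ?_⟩
  have r0 : 0 < r := by linarith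
  have h1 := (Nat.ceil_lt_add_one (show 0 ≤ 2 * r by linarith)).le
  refine (B80.E0_le (k := C / r) (sup_chi r0 ((Nat.le_ceil _).trans (by linarith))) fun e he x _ =>
    (h r r0).one le_rfl he trivial).trans ?_
  rw [card_bl]; push_cast
  calc _ ≤ 6 * (C / r) ^ 2 * (7 * r) ^ 2 := by gcongr; linarith
    _ = _ := by field_simp; norm_num

theorem fS (hB : Fl.BareStmt) (hF : FarEStmt) : FS := fun w => ⟨0, fun p W D₀ _ _ => by
  obtain ⟨C₁, c1, hF⟩ := hF p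
  obtain ⟨C₂, c2, hB⟩ := hB p.F
  obtain ⟨C₃, c3, h3⟩ := E0_chi14
  have pw : (0 : ℝ) ≤ p.w := Nat.cast_nonneg _
  have k0 : 0 ≤ 16 * C₁ * (C₂ * C₃ + 1) := by positivity
  refine ⟨1 + 64 * p.w + 16 * C₁ * (C₂ * C₃ + 1), nr p.w, by linarith,
    fun E R Y P t hE t0 hC hY hR => ?_⟩
  have ht : ∀ x : ℝ, x ≤ 1 + 64 * p.w + 16 * C₁ * (C₂ * C₃ + 1) → x * t ≤ 1 := fun x hx =>
    (mul_le_mul_of_nonneg_right hx t0.le).trans hC
  have t1 : t ≤ 1 := by linarith [ht 1 (by linarith)]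
  have hG := hE.ed.toEnv.toGs
  have hn := N3.nr_ge hG.w4
  have w4 : (4 : ℝ) ≤ p.w := by exact_mod_cast hG.w4
  have R1 := hE.maj.one_le
  have R0 : 0 < R := by linarith
  have P1 := hE.P1
  have tw := ht (64 * p.w) (by linarith)
  have tn : t ^ nr p.w ≤ t := pow_le_of_le_one t0.le t1 (by omega)
  have tn0 : 0 < t ^ nr p.w := by positivity
  have hr : 1 ≤ R / (16 * p.w) := by
    have := N3.one_le_R hG.w4 hE.maj t0 t1 hY (k := 1) (by omega)
    rw [one_le_div (by positivity)]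
    refine le_of_mul_le_mul_right ?_ t0
    have h4 : 0 ≤ (p.w : ℝ) * t := by positivity
    rw [pow_one] at this
    linarith
  have hr' : R / (16 * p.w) ≤ R := div_le_self R0.le (by linarith)
  obtain ⟨a, ha⟩ : ∃ a, a = ⌈2 * R⌉₊ + 1 := ⟨_, rfl⟩
  have a1 : 2 * R ≤ a := by rw [ha]; push_cast; linarith [Nat.le_ceil (2 * R)]
  have a2 : (a : ℝ) ≤ 4 * R := by
    rw [ha]; push_cast; linarith [Nat.ceil_lt_add_one (show 0 ≤ 2 * R by linarith)]
  have a3 : ⌈2 * (R / (16 * p.w))⌉₊ + 1 ≤ a := by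
    rw [ha]; exact Nat.succ_le_succ (Nat.ceil_mono (by linarith))
  have a4 : p.r₀ ≤ a := by
    have h1 := N3.r1_le hG.w4 hE.maj t0 t1 hY hE.r1 (k := 0) (by omega)
    have h2 : (E.r₁ : ℝ) ≤ a := by linarith
    exact hE.r0.trans (by exact_mod_cast h2)
  have L0 : (0 : ℝ) < E.L := (mul_pos_iff_of_pos_left tn0).1 (R0.trans_le hR)
  have b0 := Nat.le_ceil (R * t⁻¹ ^ nr p.w)
  beta_reduce
  generalize ⌈R * t⁻¹ ^ nr p.w⌉₊ = b at b0 ⊢
  have b2 : R ≤ t ^ nr p.w * b := by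
    rw [inv_pow, ← div_eq_mul_inv, div_le_iff₀' tn0] at b0; exact b0
  have key : ∀ n : ℕ, R ≤ t ^ nr p.w * n → 16 * p.w * a ≤ n ∧ ((a : ℝ) / n) ^ (cw p.w / 2) ≤ 4 * t ^ 8 :=
    fun n h => by
    have n0 : (0 : ℝ) < n := (mul_pos_iff_of_pos_left tn0).1 (R0.trans_le h)
    constructor
    · have : (16 * p.w * a : ℝ) ≤ n := calc
        _ ≤ (16 * p.w * (4 * (t * n)) : ℝ) := by gcongr; exact a2.trans (by gcongr; exact h.trans (by gcongr))
        _ = 64 * p.w * t * n := by ring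
        _ ≤ 1 * n := by gcongr
        _ = _ := one_mul _
      exact_mod_cast this
    · have c0 := N3.cw_pos hG.w4
      have c1 := N3.cw_le hG.w4
      calc _ ≤ (4 * t ^ nr p.w) ^ (cw p.w / 2) := by
            gcongr; rw [div_le_iff₀ n0]; linarith
        _ = 4 ^ (cw p.w / 2) * t ^ (nr p.w * (cw p.w / 2)) := by
            rw [mul_rpow (by norm_num) tn0.le, rpow_natCast_mul t0.le]
        _ ≤ 4 ^ (1 : ℝ) * t ^ ((8 : ℕ) : ℝ) := by
            refine mul_le_mul (rpow_le_rpow_of_exponent_le (by norm_num) (by linarith))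
              (rpow_le_rpow_of_exponent_ge t0 t1 ?_) (by positivity) (by positivity)
            push_cast; linarith [N3.nr_cw hG.w4]
        _ = _ := by rw [rpow_one, rpow_natCast]
  have hs : Pot.Sup (bl 0 ⌈2 * (R / (16 * p.w))⌉₊) (vv p.w R) :=
    sup_chi (by linarith) ((Nat.le_ceil _).trans (by linarith))
  have i1 : Ins 0 a (X (vv p.w R)) := ins_A0 hs a3
  have i2 : Ins 0 a (cp (xi R) (-(π / 2))) := ins_cp (chq_xi R0 a1) _
  have n1 : nu E.Λ p.w 0 a (fun s => X (vv p.w R) s * cp (xi R) (-(π / 2)) s) ≤ (C₂ * C₃ + 1) / 2 := by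
    refine A49.nu_mul hG a4 i1 i2 ?_ (A49.nm_bdd hG.mem.ok _ _ fun s => ?_)
    · have := ((hB _ hG.mem 0 _ _ hs).2.2 (p.w * a) (by have := A51.four_le hG a; omega)).1
      refine le_of_eq_of_le (congrArg (Nc.EN E.Λ 0 _) (funext fun s => abs_of_nonneg (sq_nonneg _)))
        (this.trans (mul_le_mul_of_nonneg_left (h3 _ hr) c2))
    · rw [abs_pow]; exact pow_le_one₀ (abs_nonneg _) (abs_cp_le _ _ _)
  have m1 : max (a / R) (R / a) ^ ew p.w ≤ 4 := by
    have a0 : (0 : ℝ) < a := by linarith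
    refine (rpow_le_rpow (max_ratio_nonneg a0.le R0.le)
      (max_ratio_le a0 R0 (M := 4) (by norm_num) (by linarith) a2) (ew_nonneg _)).trans ?_
    exact (rpow_le_rpow_of_exponent_le (by norm_num) (by linarith [ew_le' hG.w4])).trans_eq (rpow_one _)
  refine (sum_le_sum_of_subset_of_nonneg (sdiff_subset_sdiff hE.ed.hi subset_rfl)
    fun _ _ _ => abs_nonneg _).trans ((hF _ _ _ _ hE.ed.toEnv R P R0 (by linarith) hE.prof a b _ a4
      (key b b2).1 (key _ hR).1 (i1.mul i2)).trans ?_)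
  calc _ ≤ C₁ * ((C₂ * C₃ + 1) / 2) * P * 4 * (4 * t ^ 8 + 4 * t ^ 8) := by
        gcongr
        exacts [(key b b2).2, (key _ hR).2]
    _ = P * t ^ 7 * (16 * C₁ * (C₂ * C₃ + 1) * t) := by ring
    _ ≤ P * t ^ 7 * 1 := by gcongr; exact ht _ (by linarith)
    _ = _ := mul_one _⟩

end Crest.Agent.T145.Ev.S4
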