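import Crest.Agent.T145.EvS4R_36

/-!
# Row 145, even sector: S4 from its pieces (helper36)
-/

set_option autoImplicit false

namespace Crest.Agent.T145.Ev

open Finset Pot Xi Real Fl S436 Lj36

set_option maxHeartbeats 800000 in
theorem S4.s4_of (hB : BasStmt) (hA : S4.AS) (hM : S4.BS) (hF : S4.FS) (hD : S4.AdmS) (hR : S4.RepS) :
    S4Stmt := by
  intro w
  by_cases hw : 4 ≤ w
  swap
  · exact ⟨0, fun p W D₀ hp _ => ⟨1, 0, le_rfl, fun E R Y P t h =>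
      absurd (hp ▸ h.ed.toEnv.toGs.w4) hw⟩⟩
  obtain ⟨CD, σ, hCD, hσ, hD⟩ := hD w hw
  obtain ⟨W1, hA⟩ := hA w
  obtain ⟨W2, hM⟩ := hM w
  obtain ⟨W3, hF⟩ := hF w
  obtain ⟨W4, hR⟩ := hR σ hσ w
  refine ⟨max (max W1 W2) (max W3 W4), fun p W D₀ hp hW => ?_⟩
  simp only [max_le_iff] at hW
  subst hp
  obtain ⟨C1, n1, c1, hA⟩ := hA p W D₀ rfl hW.1.1
  obtain ⟨C2, n2, c2, hM⟩ := hM p W D₀ rfl hW.1.2
  obtain ⟨C3, n3, c3, hF⟩ := hF p W D₀ rfl hW.2.1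
  obtain ⟨C4, n4, c4, hR⟩ := hR p W D₀ rfl hW.2.2
  obtain ⟨_, -, hB⟩ := hB p
  obtain ⟨C, hC⟩ : ∃ C, C = C1 + C2 + C3 + C4 + CD + 200 := ⟨_, rfl⟩
  obtain ⟨n, hn⟩ : ∃ n, n = n1 + n2 + n3 + n4 + 4 * (80 * nr p.w * (0 + 1)) := ⟨_, rfl⟩
  refine ⟨C, n, by linarith, fun E R Y P t h t0 hCt hY hL a₁ a₂ α₁ α₂ hc => ?_⟩
  beta_reduce
  have c0 : 200 ≤ C := by linarith
  have t1 : t ≤ 1 := N3.t_le_one (by linarith) t0 hCt
  have hE := h.ed.toEnv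
  have hG := hE.toGs
  have mY : ∀ {m : ℕ}, m ≤ n → Y ≤ t ^ m := fun hm => hY.trans (N3.pow_anti t0 t1 hm)
  have mL : ∀ {m : ℕ}, m ≤ n → R ≤ t ^ m * E.L := fun hm =>
    hL.trans (mul_le_mul_of_nonneg_right (N3.pow_anti t0 t1 hm) (Nat.cast_nonneg _))
  have mC : ∀ {c : ℝ}, c ≤ C → c * t ≤ 1 := fun hm => (mul_le_mul_of_nonneg_right hm t0.le).trans hCt
  have S := sc (k := 0) (by linarith) t0 hCt (le_trans (by norm_num) (N3.nr_ge hw)) h.maj.1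
    (by linarith [N3.ew_le hw]) h.maj.2.1 (mY (by omega)) (mL (by omega))
  replace hA := hA E R Y P t h t0 (mC (by linarith)) (mY (by omega)) (mL (by omega))
  replace hM := hM E R Y P t h t0 (mC (by linarith)) (mY (by omega)) (mL (by omega))
  replace hF := hF E R Y P t h t0 (mC (by linarith)) (mY (by omega)) (mL (by omega))
  replace hR := hR E R Y P t h t0 (mC (by linarith)) (mY (by omega)) (mL (by omega)) _ _ _ _ hc
  beta_reduce at hA hM hF hR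
  have R0 := S.R0
  have P1 := h.P1
  have hρ0 : 0 < R * t ^ nr p.w := by positivity
  replace hD := fun z => hD R _ z (le_trans (by linarith) S.r1) (le_trans (by gcongr; linarith) S.r2)
  have ρ1 : 200 ≤ R * t ^ nr p.w := c0.trans S.r1
  have ρ2 : 200 * (R * t ^ nr p.w) ≤ R := le_trans (by gcongr) S.r2
  have RB : 200 * R ≤ R * t⁻¹ ^ nr p.w := le_trans (by gcongr) S.b1
  have BL : 200 * (R * t⁻¹ ^ nr p.w) ≤ E.L := le_trans (by gcongr) S.b2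
  have Bt : (R * t⁻¹ ^ nr p.w) ^ 2 * t ^ (2 * nr p.w + 8) = R ^ 2 * t ^ 8 := by
    rw [mul_pow, ← pow_mul, mul_comm (nr p.w) 2, mul_assoc, ← N3.inv_pow_mul t0 (2 * nr p.w) 1 8,
      pow_one, mul_one]
  have hb' := (Nat.ceil_lt_add_one (show 0 ≤ R * t⁻¹ ^ nr p.w by positivity)).le
  have hb'' := Nat.le_ceil (R * t⁻¹ ^ nr p.w)
  generalize ⌈R * t⁻¹ ^ nr p.w⌉₊ = b at *
  generalize R * t⁻¹ ^ nr p.w = B at *
  generalize R * t ^ nr p.w = ρ at *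
  have LN : (E.L : ℝ) ≤ E.N := by exact_mod_cast hE.le
  have hw' : (4 : ℝ) ≤ p.w := by exact_mod_cast hw
  have k1 := (Nat.ceil_lt_add_one (show 0 ≤ 3 * R by positivity)).le
  have k2 := Nat.le_ceil (3 * R)
  have k3 := Nat.floor_le (show 0 ≤ R / 5 by positivity)
  have k4 := Nat.floor_le (show 0 ≤ R / 4 by positivity)
  have k5 := (Nat.lt_floor_add_one (R / 4)).le
  have hL0 : (100 : ℝ) * E.Λ.rg ≤ E.L := by
    have h1 := hE.big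
    have h2 := gs_rg hG
    have h3 : 100 * 4 * p.r₀ ≤ 100 * p.w * p.r₀ := by gcongr
    exact_mod_cast (show 100 * E.Λ.rg ≤ E.L by omega)
  have n1' : 4 * ⌈3 * R⌉₊ ≤ E.N := by exact_mod_cast (show 4 * (⌈3 * R⌉₊ : ℝ) ≤ E.N by linarith)
  have n2' : ⌊R / 4⌋₊ + 1 ≤ ⌈3 * R⌉₊ := by
    exact_mod_cast (show (⌊R / 4⌋₊ : ℝ) + 1 ≤ ⌈3 * R⌉₊ by linarith)
  have n3' : E.Λ.rg + ⌊R / 5⌋₊ ≤ E.N := by
    exact_mod_cast (show (E.Λ.rg : ℝ) + ⌊R / 5⌋₊ ≤ E.N by linarith)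
  have n4' : b ≤ E.N := by exact_mod_cast (show (b : ℝ) ≤ E.N by linarith)
  have n5' : ⌈3 * R⌉₊ ≤ b := by exact_mod_cast (show (⌈3 * R⌉₊ : ℝ) ≤ b by linarith)
  have n6' : ⌊R / 5⌋₊ ≤ ⌈3 * R⌉₊ := by exact_mod_cast (show (⌊R / 5⌋₊ : ℝ) ≤ ⌈3 * R⌉₊ by linarith)
  have sv : Pot.Sup (bl 0 ⌊R / 4⌋₊) (S4.vv p.w R) := sup_chi (by positivity) (by
    have : R / (16 * p.w) ≤ R / 64 := by gcongr; linarith
    linarith)
  have iX : ∀ {u : Pt → ℝ}, Pot.Sup (bl 0 ⌊R / 4⌋₊) u →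
      Ins 0 ⌈3 * R⌉₊ fun s => X u s * cp (xi R) (-(π / 2)) s := fun hu =>
    E30.ins_mul (E30.ins_prA0 hu n2') (E30.ins_cp (E30.chq_xi R0 (by linarith)) _)
  obtain ⟨κ, hκ⟩ : ∃ κ, κ = α₂ * π * gk E.ω R * ph (gk E.ω R) a₁ R := ⟨_, rfl⟩
  obtain ⟨f, hf⟩ : ∃ f : Pt → ℝ, f = fun z =>
    E.ω fun s => X (S4.vv p.w R) s * cp (xi R) (-(π / 2)) s * E.e z s := ⟨_, rfl⟩
  rw [← hκ] at hR ⊢
  have z0 : xi R - A0 0 = xi R := by funext x; simp [A0]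
  have site : ∀ z ∈ bl 0 b, |f z + κ * S4.vv p.w R z| ≤ P * t ^ (2 * nr p.w + 8) / R ^ 2 +
      if z ∈ bl 0 ⌈3 * R⌉₊ then P * t ^ 8 / R ^ 2 else 0 := fun z hz => by
    rw [hf]
    by_cases h1 : z ∈ bl 0 ⌊R / 5⌋₊
    · obtain ⟨a, e⟩ := (hD z).1 h1
      have k := hR z _ _ hz a
      have k' := hA z h1
      have iz : Ins 0 E.N (E.e z) := E30.ins_mono (hB _ _ _ _ hE z).2.2.1 (bl_subset_bl h1 n3')
      have su : Pot.Sup (bl 0 ⌊R / 4⌋₊) (sw (S4.vv p.w R) z ρ) := by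
        simpa only [sub_sub_cancel] using sv.sub a.s1
      rw [z0, e] at k
      have xs : ∀ (u u' : Pt → ℝ) s, X (u - u') s = X u s - X u' s := fun u u' s => by
        simp only [X, A0_sub, pr_sub, AddMonoidHom.sub_apply]
      simp only [xs, sub_mul] at k
      rw [hE.ex_sub (E30.ins_mul (E30.ins_le (iX sv) (by omega)) iz)
        (E30.ins_mul (E30.ins_le (iX su) (by omega)) iz)] at k
      rw [if_pos (bl_mono 0 n6' h1)]
      rw [abs_le] at k k' ⊢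
      exact ⟨by linarith [k.1, k'.1], by linarith [k.2, k'.2]⟩
    by_cases h2 : z ∈ bl 0 ⌈3 * R⌉₊
    · have k := hR z _ _ hz ((hD z).2.1 h2 h1)
      have k' := hM z h2 h1
      rw [if_pos h2]
      rw [abs_le] at k k' ⊢
      exact ⟨by linarith [k.1, k'.1], by linarith [k.2, k'.2]⟩
    · have k := hR z _ _ hz ((hD z).2.2 h2)
      rw [z0] at k
      rw [if_neg h2, add_zero]
      exact k
  have e1 : E.ω' (fun s => X (Xi.chi (R / (16 * p.w))) s * Sn R s) = ∑ z ∈ E.D, f z := by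
    rw [hf, E30.Sn_eq]; exact h.ed.der _ (E30.ins_le (iX sv) (by omega))
  have e2 : ∑ x ∈ bl 0 ⌊R / 4⌋₊, Xi.chi (R / (16 * p.w)) x = ∑ x ∈ bl 0 b, S4.vv p.w R x :=
    sum_subset (bl_mono 0 (by omega)) fun x _ hx => sv x hx
  have s1 : |∑ z ∈ E.D \ bl 0 b, f z| ≤ P * t ^ 7 := (abs_sum_le_sum_abs _ _).trans (by rw [hf]; exact hF)
  have s2 := (abs_sum_le_sum_abs _ _).trans (sum_le_sum site)
  rw [sum_add_distrib, sum_add_distrib, sum_const, ← mul_sum, ← sum_filter, sum_const, nsmul_eq_mul,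
    nsmul_eq_mul, filter_mem_eq_inter, inter_eq_right.2 (bl_mono 0 n5'), card_bl, card_bl] at s2
  have s3 : (((2 * b + 1) ^ 2 : ℕ) : ℝ) * (P * t ^ (2 * nr p.w + 8) / R ^ 2) ≤ 9 * (P * t ^ 8) := by
    calc _ ≤ (3 * B) ^ 2 * (P * t ^ (2 * nr p.w + 8) / R ^ 2) := by push_cast; gcongr; linarith
      _ = 9 * P * (B ^ 2 * t ^ (2 * nr p.w + 8)) / R ^ 2 := by ring
      _ = _ := by rw [Bt]; field_simp
  have s4 : (((2 * ⌈3 * R⌉₊ + 1) ^ 2 : ℕ) : ℝ) * (P * t ^ 8 / R ^ 2) ≤ 49 * (P * t ^ 8) := by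
    calc _ ≤ (7 * R) ^ 2 * (P * t ^ 8 / R ^ 2) := by push_cast; gcongr; linarith
      _ = _ := by field_simp; norm_num
  have s5 : P * t ^ 8 ≤ P * t ^ 7 := by gcongr _ * ?_; exact N3.pow_anti t0 t1 (by norm_num)
  have s6 : 200 * (P * t ^ 7) ≤ P * t ^ 6 := by
    calc _ = 200 * t * (P * t ^ 6) := by ring
      _ ≤ _ := mul_le_of_le_one_left (by positivity) (mC c0)
  have s7 : 0 ≤ P * t ^ 7 := by positivity
  rw [e1, e2, ← sum_sdiff ((bl_mono 0 n4').trans h.ed.lo), add_assoc]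
  linarith [abs_add_le (∑ z ∈ E.D \ bl 0 b, f z) (∑ z ∈ bl 0 b, f z + κ * ∑ x ∈ bl 0 b, S4.vv p.w R x)]

end Crest.Agent.T145.Ev
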