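import Crest.Agent.T145.EvS4D_36
import Crest.Agent.T145.EvLe_60
import Crest.Agent.T145.EvNum_3
import Crest.Agent.T145.FlA_51
import Crest.Agent.T145.FlBas_4
import Crest.Agent.T145.FlSw_22

/-!
# Row 145, even sector: S4, the swept part of the bump at the inner sites (helper94)
-/

set_option autoImplicit false

namespace Crest.Agent.T145.Ev.S4

open Finset Pot Xi Real Fl

set_option maxHeartbeats 400000 in
theorem aS (hN : LocNStmt) (hB : BasStmt) : AS := fun w => ⟨0, fun p W D₀ _ _ => by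
  obtain ⟨CN, hCN, hN⟩ := hN p
  obtain ⟨CS, hCS, hW⟩ := swStmt
  obtain ⟨σ, hσ, hχ⟩ := sm_chi 3
  obtain ⟨P₀, hP₀, hB⟩ := hB p
  have hK : (0 : ℝ) ≤ (p.w : ℝ) ^ 2 * p.r₀ := by positivity
  obtain ⟨K, hK', eK⟩ : ∃ K : ℝ, 0 ≤ K ∧ K = 16 * (CN * (CS * σ) * (1 + P₀ * (p.r₀ : ℝ) ^ 2)) :=
    ⟨_, by positivity, rfl⟩
  have hw0 : (0 : ℝ) ≤ p.w := Nat.cast_nonneg _
  refine ⟨600 + 8 * ((p.w : ℝ) ^ 2 * p.r₀) + 32 * p.w + K, nr p.w, by linarith, ?_⟩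
  intro E R Y P t h t0 hC hY hRL z hz
  have hE := h.ed.toEnv
  have hG := hE.toGs
  have hw := hG.w4
  have hn : 4 ≤ nr p.w := le_trans (by norm_num) (N3.nr_ge hw)
  have P1 := h.P1
  have R1 := h.maj.1
  have t1 : 600 * t ≤ 1 := le_trans (by gcongr; linarith) hC
  have t2 : 8 * ((p.w : ℝ) ^ 2 * p.r₀) * t ≤ 1 := le_trans (by gcongr; linarith) hC
  have t3 : K * t ≤ 1 := le_trans (by gcongr; linarith) hC
  have t5 : 32 * p.w * t ≤ 1 := le_trans (by gcongr; linarith) hC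
  have t4 : t ≤ 1 := by linarith
  have hw' : (4 : ℝ) ≤ p.w := by exact_mod_cast hw
  have h2' : (2 : ℝ) ≤ p.r₀ := by exact_mod_cast Lj36.gs_two hG
  have h16 : 16 * (p.r₀ : ℝ) ≤ (p.w : ℝ) ^ 2 * p.r₀ := by gcongr; nlinarith only [hw']
  have ρ1 : 1 ≤ R * t ^ nr p.w * t := by
    rw [mul_assoc, ← pow_succ]; exact N3.one_le_R hw h.maj t0 t4 hY (by omega)
  have Rt : 1 ≤ R * t * t := by
    rw [mul_assoc, ← pow_two]; exact N3.one_le_R hw h.maj t0 t4 hY (by omega)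
  have RL : R ≤ t * E.L := hRL.trans (mul_le_mul_of_nonneg_right
    (pow_le_of_le_one t0.le t4 (by omega)) (Nat.cast_nonneg _))
  have r1 : R * t ≤ ⌈R * t⌉₊ := Nat.le_ceil _
  have Rt0 : 0 < R * t := by positivity
  have Rt1 : 600 ≤ R * t := by nlinarith only [Rt, mul_le_mul_of_nonneg_left t1 Rt0.le]
  have r2 : (⌈R * t⌉₊ : ℝ) ≤ 2 * (R * t) := by linarith [Nat.ceil_lt_add_one Rt0.le]
  generalize ⌈R * t⌉₊ = r at r1 r2
  have ρ2 : R * t ^ nr p.w ≤ r * t ^ (nr p.w - 1) := by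
    rw [show nr p.w = 1 + (nr p.w - 1) by omega, pow_add, ← mul_assoc, Nat.add_sub_cancel_left, pow_one]
    gcongr
  have ρ0 : 0 < R * t ^ nr p.w := by positivity
  generalize R * t ^ nr p.w = ρ at *
  have r0 : (0 : ℝ) < r := by linarith
  have ρ4 : 8 * (p.w : ℝ) ^ 2 * p.r₀ ≤ ρ := by
    nlinarith only [mul_le_mul_of_nonneg_left ρ1 hK, mul_le_mul_of_nonneg_left t2 ρ0.le]
  have ρ5 : 600 * ρ ≤ r := by
    have := ρ2.trans (mul_le_mul_of_nonneg_left (pow_le_of_le_one t0.le t4 (by omega)) r0.le)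
    nlinarith only [this, mul_le_mul_of_nonneg_left t1 r0.le]
  have r3 : 16 * p.w * (r : ℝ) ≤ R := by
    nlinarith only [mul_le_mul_of_nonneg_left r2 hw0, mul_le_mul_of_nonneg_left t5 (zero_le_one.trans R1)]
  have L0 : (0 : ℝ) ≤ E.L := Nat.cast_nonneg _
  have RL' : 600 * R ≤ E.L := by nlinarith only [RL, mul_le_mul_of_nonneg_left t1 L0]
  have hwr : 4 * (r : ℝ) ≤ p.w * r := by gcongr
  have hL : p.w * r ≤ E.L := by exact_mod_cast (show (p.w : ℝ) * r ≤ E.L by linarith)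
  have hr1 : p.r₀ ≤ r := by exact_mod_cast (show (p.r₀ : ℝ) ≤ r by linarith)
  have hrg : E.Λ.rg ≤ p.r₀ := by have := Lj36.gs_rg hG; omega
  obtain ⟨-, -, b1, -⟩ := hB _ _ _ _ hE 0
  obtain ⟨-, c0, c1, c2, -, -, c3⟩ := hB _ _ _ _ hE z
  have M1 : 1 ≤ t⁻¹ := (one_le_inv₀ t0).2 t4
  have hPr := Le60.prof_trl semiStmt hG le_rfl (E30.ins_le b1 hrg) (Le60.prof_rescale hw h.prof
    (by linarith) (by linarith) M1 (r := r) (by rwa [div_inv_eq_mul])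
    (by linarith [mul_le_mul_of_nonneg_right M1 (zero_le_one.trans R1)])) z
  rw [show trl z (E.e 0) = _ from c0] at hPr
  obtain ⟨hQ, -, hsw⟩ := hW _ _ z r σ (Lr.of_univ ((hχ (R / (16 * p.w)) (by positivity)).scale r0
    (by rw [le_div_iff₀' (by positivity)]; exact r3)) z) (by have := Lj36.gs_two hG; omega)
  have hn2 : ⌈2 * ρ⌉₊ + 1 ≤ r := by
    have := Nat.ceil_lt_add_one (show 0 ≤ 2 * ρ by linarith)
    exact_mod_cast (show ((⌈2 * ρ⌉₊ : ℝ) + 1) ≤ r by linarith)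
  obtain ⟨hsup, -, -⟩ := hsw ρ _ (by linarith) (Nat.le_ceil _) hn2
  have k1 := hN _ _ hG z r p.r₀ ρ (CS * σ) _ P₀ _ _ hL le_rfl (E30.ins_le c1 hrg) c2 (by positivity) hPr
    (by linarith) (fun c hc => (c3 z c (bl_mono z (hrg.trans hc))).1) (by positivity) hQ ρ4 ρ5
  change nu E.Λ p.w z r (fun s => et E.Λ E.ω z s * X (sw (vv p.w R) z ρ) s) ≤ _ at k1
  have iG : Ins z r fun s => et E.Λ E.ω z s * X (sw (vv p.w R) z ρ) s :=
    E30.ins_mul (E30.ins_le c1 (hrg.trans hr1)) (ins_A0 hsup hn2)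
  have f5 : (⌊R / 5⌋₊ : ℝ) ≤ R / 5 := Nat.floor_le (by positivity)
  have hN' := hE.le
  have h4 := A51.four_le hG r
  obtain ⟨m, hm, hω⟩ := hE.amb z
  have k2 := (prodStmt p _ _ hG m _ Unit univ (fun _ => z) (fun _ => r) _ (cp (xi R) (-(π / 2))) hm
    ⟨by simp, fun _ _ => iG, fun _ _ => ⟨hr1, hL⟩, fun _ _ => bl_mono z (by omega),
      fun _ _ _ _ hne => (hne rfl).elim⟩ (fun _ _ => E30.out_cp (fun y hy => xi_in (n := r + ⌊R / 5⌋₊)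
        (by linarith) (by push_cast; linarith) (bl_subset_bl hz le_rfl hy)) _) (E30.abs_cp_le _ _)).1
  simp only [univ_unique, prod_singleton] at k2
  rw [← hω _ ((iG.1.mono (bl_mono z (by omega))).mul ((E30.depG_cp (E30.chq_xi (by linarith)
    (Nat.le_ceil (2 * R))) _).mono (bl_subset_bl (mem_bl_comm.1 hz) (le_trans (by
      have := Nat.ceil_lt_add_one (show 0 ≤ 2 * R by linarith)
      exact_mod_cast (show ((⌈2 * R⌉₊ : ℝ) + ⌊R / 5⌋₊) ≤ E.L by linarith)) hN'))))] at k2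
  refine le_trans (le_of_eq ?_) (k2.trans ?_)
  · exact congrArg _ (congrArg E.ω (funext fun s => by simp only [Dt.e]; ring))
  have c0 := N3.cw_pos hw
  have e1 : (ρ / r) ^ (cw p.w / 4) ≤ t ^ 26 := calc
    _ ≤ (t ^ (nr p.w - 1)) ^ (cw p.w / 4) := by gcongr; rwa [div_le_iff₀' r0]
    _ = t ^ (((nr p.w : ℝ) - 1) * (cw p.w / 4)) := by
      rw [← rpow_natCast, ← rpow_mul t0.le, Nat.cast_sub (by omega), Nat.cast_one]
    _ ≤ t ^ ((26 : ℕ) : ℝ) := rpow_le_rpow_of_exponent_ge t0 t4 (by push_cast; linarith [N3.nr_cw' hw])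
    _ = _ := rpow_natCast _ _
  have e2 : t⁻¹ ^ ew p.w ≤ t⁻¹ := by
    simpa using rpow_le_rpow_of_exponent_le M1 (show ew p.w ≤ 1 by linarith [N3.ew_le hw])
  have e3 : 1 / (r : ℝ) ^ 2 ≤ 1 / (R * t) ^ 2 := by gcongr
  have e4 : ((p.r₀ : ℝ) / r) ^ (2 + cw p.w / 2) ≤
      (p.r₀ : ℝ) ^ 2 * (P * t⁻¹ * t ^ 26 * (1 / (r : ℝ) ^ 2)) := by
    rw [rpow_add (by positivity), rpow_two]
    have : ((p.r₀ : ℝ) / r) ^ (cw p.w / 2) ≤ t ^ 26 :=
      (rpow_le_rpow_of_exponent_ge (by positivity) (by rw [div_le_one r0]; linarith)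
        (by linarith : cw p.w / 4 ≤ _)).trans (le_trans (by gcongr; linarith) e1)
    calc _ ≤ ((p.r₀ : ℝ) / r) ^ 2 * (1 * 1 * t ^ 26) := by gcongr; linarith
      _ ≤ ((p.r₀ : ℝ) / r) ^ 2 * (P * t⁻¹ * t ^ 26) := by gcongr
      _ = _ := by ring
  have e5 : P * t⁻¹ ^ ew p.w * (ρ / r) ^ (cw p.w / 4) / (r : ℝ) ^ 2 +
      P₀ * ((p.r₀ : ℝ) / r) ^ (2 + cw p.w / 2) ≤ (1 + P₀ * (p.r₀ : ℝ) ^ 2) * t * (P * t ^ 22 / R ^ 2) := calc
    _ ≤ P * t⁻¹ * t ^ 26 * (1 / (r : ℝ) ^ 2) +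
        P₀ * ((p.r₀ : ℝ) ^ 2 * (P * t⁻¹ * t ^ 26 * (1 / (r : ℝ) ^ 2))) := by
      rw [div_eq_mul_one_div]; gcongr
    _ = (1 + P₀ * (p.r₀ : ℝ) ^ 2) * (P * t⁻¹ * t ^ 26 * (1 / (r : ℝ) ^ 2)) := by ring
    _ ≤ (1 + P₀ * (p.r₀ : ℝ) ^ 2) * (P * t⁻¹ * t ^ 26 * (1 / (R * t) ^ 2)) := by gcongr
    _ = _ := by field_simp
  have e6 : P * t ^ 22 / R ^ 2 ≤ P * t ^ 8 / R ^ 2 := div_le_div_of_nonneg_right
    (mul_le_mul_of_nonneg_left (N3.pow_anti t0 t4 (by norm_num)) (by linarith)) (sq_nonneg _)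
  calc _ ≤ 16 * (CN * (CS * σ) * ((1 + P₀ * (p.r₀ : ℝ) ^ 2) * t * (P * t ^ 22 / R ^ 2))) :=
        mul_le_mul_of_nonneg_left (k1.trans (mul_le_mul_of_nonneg_left e5 (by positivity))) (by norm_num)
    _ = K * t * (P * t ^ 22 / R ^ 2) := by rw [eK]; ring
    _ ≤ 1 * (P * t ^ 8 / R ^ 2) := mul_le_mul t3 e6 (by positivity) zero_le_one
    _ = _ := one_mul _⟩

end Crest.Agent.T145.Ev.S4
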