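import Crest.Agent.T145.Fin_76
import Crest.Agent.T145.EvAll_2
import Crest.Agent.T145.EvS2_48
import Crest.Agent.T145.EvS4_36
import Crest.Agent.T145.EvS4Adm_46
import Crest.Agent.T145.EvS4B_60
import Crest.Agent.T145.EvS4F_14
import Crest.Agent.T145.EvS4a_94
import Crest.Agent.T145.EvHf_89
import Crest.Agent.T145.EvPu_51

/-!
# Row 145: the last glue, the scale statement from S1 (helper1)
-/

set_option autoImplicit false

namespace Crest.Agent.T145.Ev.U

open Fl

theorem s2 : S2Stmt := s2Stmt semiStmt prodStmt loc swStmt x1 x2 farEStmt detStmt basStmt tgStmt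
theorem s4 : S4Stmt :=
  S4.s4_of basStmt (S4.aS locN basStmt) (S4.bS60 semiStmt prodStmt loc swStmt xfStmt basStmt)
    (S4.fS Fl.bareStmt farEStmt) S4.admS
    (S4.repS semiStmt puStmt hfStmt x2 x4 detStmt basStmt tgStmt)

theorem scale_of (s1 : S1Stmt) : Top.ScaleStmt :=
  Fin.scale (lin_of s1 s2 s4 Fin.core Fin.lOdd Fin.oStep Fin.link Kr.U.kEven All.t1m)

end Crest.Agent.T145.Ev.U
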