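import Crest.Agent.T145.GffDef_8
import Crest.Agent.T145.GeoB_51
import Crest.Agent.T145.CorB_59

/-!
# Row 145, module (b): positive stiffness is rough (helper74)
-/

set_option autoImplicit false

namespace Crest.Agent.T145

open Finset

namespace R74

/-- summation by parts for flows -/
theorem sum_dv_mul {V : Type*} (ed : Finset (V × V)) (φ : V × V → ℝ) (u : V → ℝ) (U : Finset V)
    (hu : ∀ e ∈ ed, (e.1 ∉ U → u e.1 = 0) ∧ (e.2 ∉ U → u e.2 = 0)) :
    ∑ x ∈ U, dv ed φ x * u x = ∑ e ∈ ed, φ e * (u e.2 - u e.1) := by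
  have h : ∀ y, (y ∉ U → u y = 0) → ∑ x ∈ U, ind (y = x) * u x = u y := fun y hy' => by
    by_cases hy : y ∈ U
    · rw [sum_eq_single_of_mem y hy fun x _ hx => by rw [ind_neg (Ne.symm hx), zero_mul]]
      rw [ind_pos rfl, one_mul]
    · rw [hy' hy]
      exact sum_eq_zero fun x hx => by rw [ind_neg (fun h : y = x => hy (h ▸ hx)), zero_mul]
  simp only [dv, sum_mul]
  rw [sum_comm]
  refine sum_congr rfl fun e he => ?_
  rw [← h e.2 (hu e he).2, ← h e.1 (hu e he).1, ← sum_sub_distrib, mul_sum]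
  exact sum_congr rfl fun x _ => by ring

/-- every charge of a Dirichlet domain has a flow -/
theorem exists_F2A {Λ : Lat} (h : Λ.Ok) (D : Finset Pt) (f : Pt → ℝ) :
    ∃ n, F2A (Λ.edT D) D f n := by
  classical
  let g : Pt → ℝ := fun p => ∑ q ∈ D.filter (fun q => q.2 = p.2 ∧ q.1 ≤ p.1), f q
  let φ : Pt × Pt → ℝ := fun e => if e.2 = e.1 + (1, 0) then -g e.1 else 0
  refine ⟨_, φ, fun x hx => ?_, le_rfl⟩
  have h1 : ∑ e ∈ Λ.edT D, φ e * ind (e.2 = x) = -g (x - (1, 0)) := by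
    rw [sum_eq_single_of_mem (x - (1, 0), x) (Lat.mem_edT.2 ⟨by simpa using h.e1, Or.inr hx⟩)]
    · simp [φ]
    · rintro ⟨a, b⟩ _ hne
      by_cases hb : b = x
      · subst hb
        have : ¬ b = a + (1, 0) := fun h' => hne (by rw [h']; simp)
        simp [φ, this]
      · simp [ind_neg hb]
  have h2 : ∑ e ∈ Λ.edT D, φ e * ind (e.1 = x) = -g x := by
    rw [sum_eq_single_of_mem (x, x + (1, 0)) (Lat.mem_edT.2 ⟨by simpa using h.e1, Or.inl hx⟩)]
    · simp [φ]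
    · rintro ⟨a, b⟩ _ hne
      by_cases ha : a = x
      · subst ha
        have : ¬ b = a + (1, 0) := fun h' => hne (by rw [h'])
        simp [φ, this]
      · simp [ind_neg ha]
  have h3 : D.filter (fun q => q.2 = x.2 ∧ q.1 ≤ x.1) =
      insert x (D.filter fun q => q.2 = (x - (1, 0)).2 ∧ q.1 ≤ (x - (1, 0)).1) := by
    ext q
    simp only [mem_filter, mem_insert, Prod.fst_sub, Prod.snd_sub, Prod.ext_iff]
    constructor
    · rintro ⟨a, b, c⟩
      by_cases hq : q.1 = x.1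
      · exact Or.inl ⟨hq, b⟩
      · exact Or.inr ⟨a, by omega, by omega⟩
    · rintro (⟨a, b⟩ | ⟨a, b, c⟩)
      · exact ⟨by rw [show q = x from Prod.ext a b]; exact hx, b, a.le⟩
      · exact ⟨a, by omega, by omega⟩
  simp only [dv, mul_sub, sum_sub_distrib, h1, h2]
  have h4 : g x = f x + g (x - (1, 0)) := by
    simp only [g]
    rw [h3, sum_insert (by simp)]
  rw [h4]; ring

/-- sup distance -/
def ds (z x : Pt) : ℤ := max |x.1 - z.1| |x.2 - z.2|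

theorem mem_bl_ds {z x : Pt} {r : ℕ} : x ∈ bl z r ↔ ds z x ≤ r := by
  rw [mem_bl_abs, ds, max_le_iff]

theorem ds_lip (z : Pt) {x y : Pt} {r : ℕ} (h : y ∈ bl x r) : |ds z y - ds z x| ≤ r := by
  rw [mem_bl] at h
  simp only [ds, abs_eq_max_neg]
  omega

/-- cutoff: `1` on `bl z R`, `0` at distance `≥ 2 R` -/
noncomputable def ct (z : Pt) (R : ℕ) (x : Pt) : ℝ := max 0 (min 1 (2 - (ds z x : ℝ) / R))

theorem ct_one {z x : Pt} {R : ℕ} (hR : 0 < R) (h : ds z x ≤ R) : ct z R x = 1 := by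
  have h1 : (ds z x : ℝ) ≤ R := by exact_mod_cast h
  have h2 : (ds z x : ℝ) / R ≤ 1 := by rwa [div_le_one (by positivity)]
  rw [ct, min_eq_left (by linarith), max_eq_right zero_le_one]

theorem ct_zero {z x : Pt} {R : ℕ} (hR : 0 < R) (h : 2 * (R : ℤ) ≤ ds z x) : ct z R x = 0 := by
  have h1 : (2 * R : ℝ) ≤ ds z x := by exact_mod_cast h
  have h2 : (2 : ℝ) ≤ (ds z x : ℝ) / R := by rwa [le_div_iff₀ (by positivity)]
  exact max_eq_left (min_le_of_right_le (by linarith))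

theorem ct_lip (z : Pt) {R : ℕ} (hR : 0 < R) {x y : Pt} {r : ℕ} (h : y ∈ bl x r) :
    |ct z R y - ct z R x| ≤ r / R := by
  have h1 : |(ds z y : ℝ) - ds z x| ≤ r := by exact_mod_cast ds_lip z h
  rw [ct, ct, max_comm, max_comm 0, min_comm, min_comm 1]
  refine (abs_max_sub_max_le_abs _ _ _).trans ((abs_min_sub_min_le_max _ _ _ _).trans ?_)
  rw [sub_self, abs_zero, max_eq_left (abs_nonneg _), sub_sub_sub_cancel_left, ← sub_div, abs_div,
    abs_sub_comm, abs_of_pos (show (0 : ℝ) < R by positivity)]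
  gcongr

/-- the edges of the annulus of radius `R` -/
noncomputable def an (Λ : Lat) (D : Finset Pt) (c : Pt) (R : ℕ) : Finset (Pt × Pt) :=
  (Λ.edT D).filter fun e => (R : ℤ) - Λ.rg < ds c e.1 ∧ ds c e.1 < 2 * R + Λ.rg

/-- a unit flux through an annulus costs energy -/
theorem one_annulus {Λ : Lat} {D : Finset Pt} {c : Pt} {r R : ℕ} {f : Pt → ℝ} {φ : Pt × Pt → ℝ}
    (hR : 0 < R) (hr : r ≤ R) (hrg : Λ.rg ≤ R) (hD : bl c (2 * R) ⊆ D) (hf : Sup (bl c r) f)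
    (h1 : ∑ x ∈ bl c r, f x = 1) (hφ : ∀ x ∈ D, f x = dv (Λ.edT D) φ x) :
    1 ≤ 98 * Λ.Jp.card * (Λ.rg : ℝ) ^ 2 * ∑ e ∈ an Λ D c R, φ e ^ 2 := by
  have h0 : ∀ x, x ∉ D → ct c R x = 0 := fun x hx =>
    ct_zero hR (by
      have := mt mem_bl_ds.2 fun h => hx (hD h)
      push_cast at this; omega)
  have e1 : ∑ x ∈ D, f x * ct c R x = 1 := by
    rw [← h1, ← sum_subset ((bl_mono c (by omega)).trans hD : bl c r ⊆ D)
      fun x _ hx => by rw [hf x hx, zero_mul]]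
    exact sum_congr rfl fun x hx => by
      rw [ct_one hR ((mem_bl_ds.1 hx).trans (by exact_mod_cast hr)), mul_one]
  have e2 : ∑ e ∈ an Λ D c R, φ e * (ct c R e.2 - ct c R e.1) = 1 := by
    rw [← e1, show ∑ x ∈ D, f x * ct c R x = ∑ x ∈ D, dv (Λ.edT D) φ x * ct c R x from
      sum_congr rfl fun x hx => by rw [hφ x hx], sum_dv_mul _ _ _ _ fun e _ => ⟨h0 _, h0 _⟩]
    refine sum_subset (filter_subset _ _) fun e he hne => ?_
    have hl := abs_le.1 (ds_lip c (Lat.edge_near (Lat.mem_edT.1 he).1))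
    rw [an, mem_filter, not_and_or, not_and_or] at hne
    rcases hne with h | h | h
    · exact absurd he h
    · rw [ct_one hR (by omega), ct_one hR (by omega), sub_self, mul_zero]
    · rw [ct_zero hR (by omega), ct_zero hR (by omega), sub_self, mul_zero]
  have e3 : ∑ e ∈ an Λ D c R, (ct c R e.2 - ct c R e.1) ^ 2 ≤
      98 * Λ.Jp.card * (Λ.rg : ℝ) ^ 2 := by
    have hc : ((an Λ D c R).card : ℝ) ≤ 98 * Λ.Jp.card * (R : ℝ) ^ 2 := by
      have hs : an Λ D c R ⊆ Λ.edT (bl c (3 * R)) := fun e he => by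
        rw [an, mem_filter] at he
        exact Lat.mem_edT.2 ⟨(Lat.mem_edT.1 he.1).1, Or.inl (mem_bl_ds.2 (by push_cast; omega))⟩
      have h2 := (card_le_card hs).trans (Lat.card_edT_le _)
      rw [card_bl] at h2
      have h3 : (2 * (3 * R) + 1) ^ 2 ≤ 49 * R ^ 2 := by nlinarith
      have h4 : (an Λ D c R).card ≤ 98 * Λ.Jp.card * R ^ 2 := by nlinarith
      exact_mod_cast h4
    have hR' : (0 : ℝ) < R := by positivity
    calc _ ≤ ∑ e ∈ an Λ D c R, ((Λ.rg : ℝ) / R) ^ 2 := sum_le_sum fun e he => by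
          rw [← sq_abs]
          exact pow_le_pow_left₀ (abs_nonneg _)
            (ct_lip c hR (Lat.edge_near (Lat.mem_edT.1 (mem_filter.1 he).1).1)) 2
      _ = (an Λ D c R).card * ((Λ.rg : ℝ) / R) ^ 2 := by rw [sum_const, nsmul_eq_mul]
      _ ≤ 98 * Λ.Jp.card * (R : ℝ) ^ 2 * ((Λ.rg : ℝ) / R) ^ 2 := by gcongr
      _ = _ := by field_simp
  have e4 := sum_mul_sq_le_sq_mul_sq (an Λ D c R) φ fun e => ct c R e.2 - ct c R e.1
  rw [e2] at e4
  have e5 : 0 ≤ ∑ e ∈ an Λ D c R, φ e ^ 2 := sum_nonneg fun _ _ => sq_nonneg _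
  nlinarith

/-- logarithmic lower bound of the free field variance -/
theorem gr_ge {Λ : Lat} (h : Λ.Ok) {D : Finset Pt} {c : Pt} {r k : ℕ} {f : Pt → ℝ}
    (hr : Λ.rg ≤ r) (hD : bl c (4 ^ k * r) ⊆ D) (hf : Sup (bl c r) f)
    (h1 : ∑ x ∈ bl c r, f x = 1) :
    Λ.τ * (k / (98 * Λ.Jp.card * (Λ.rg : ℝ) ^ 2)) ≤ (Λ.D D).gr Λ.τ f := by
  classical
  have hrg := h.one_le_rg
  have hJ : 0 < Λ.Jp.card := card_pos.2 ⟨_, h.e1⟩
  have hC : (0 : ℝ) < 98 * Λ.Jp.card * (Λ.rg : ℝ) ^ 2 := by positivity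
  refine mul_le_mul_of_nonneg_left (le_csInf (exists_F2A h D f) ?_) h.pos.le
  rintro n ⟨φ, hφ, hn⟩
  have hp : ∀ i, r ≤ 4 ^ i * r := fun i => Nat.le_mul_of_pos_left _ (by positivity)
  have hq : ∀ i j, i < j → 4 * (4 ^ i * r) ≤ 4 ^ j * r := fun i j hij => by
    rw [← mul_assoc, ← pow_succ']
    exact Nat.mul_le_mul_right _ (Nat.pow_le_pow_right (by norm_num) hij)
  have e1 : ∀ i ∈ range k, 1 ≤ 98 * Λ.Jp.card * (Λ.rg : ℝ) ^ 2 *
      ∑ e ∈ an Λ D c (4 ^ i * r), φ e ^ 2 := fun i hi =>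
    one_annulus (by have := hp i; omega) (hp i) (hr.trans (hp i))
      ((bl_mono c (by have := hq i k (mem_range.1 hi); omega)).trans hD) hf h1 hφ
  have hd : ∀ i j, i < j → Disjoint (an Λ D c (4 ^ i * r)) (an Λ D c (4 ^ j * r)) := fun i j hij =>
    disjoint_left.2 fun e he he' => by
      have a := (mem_filter.1 he).2.2
      have b := (mem_filter.1 he').2.1
      have c := hq i j hij
      have d := hp i
      omega
  have e2 : ∑ i ∈ range k, ∑ e ∈ an Λ D c (4 ^ i * r), φ e ^ 2 ≤ n := by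
    rw [← sum_biUnion fun i _ j _ hij => by
      rcases lt_or_gt_of_ne hij with h | h
      exacts [hd i j h, (hd j i h).symm]]
    exact (sum_le_sum_of_subset_of_nonneg (biUnion_subset.2 fun i _ => filter_subset _ _)
      fun _ _ _ => sq_nonneg _).trans hn
  have e3 := sum_le_sum e1
  rw [← mul_sum, sum_const, card_range, nsmul_eq_mul, mul_one] at e3
  rw [div_le_iff₀ hC]
  nlinarith

/-- the variance of an average -/
theorem vr_avg_le {W : Cfg Pt → ℝ} (hW : Cen W) {B : ℝ} (hB : ∀ x, Vr W (evH x) (evH x) ≤ B)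
    {U : Finset Pt} {f : Pt → ℝ} (hf : Sup U f) (h0 : ∀ x, 0 ≤ f x) (h1 : ∑ x ∈ U, f x = 1) :
    Vr W (pr f) (pr f) ≤ B := by
  have hB0 : 0 ≤ B := (hW.wt.Vr_nonneg hW.se _).trans (hB 0)
  have hxy : ∀ x y, Vr W (evH x) (evH y) ≤ B := fun x y =>
    (abs_le_of_sq_le_sq' ((hW.wt.Vr_sq_le hW.se _ _).trans (by
      rw [pow_two]
      exact mul_le_mul (hB x) (hB y) (hW.wt.Vr_nonneg hW.se _) hB0)) hB0).2
  rw [pr_eq_sum_evH f hf, hW.se.Vr_sum_left]
  calc _ ≤ ∑ x ∈ U, f x * B := sum_le_sum fun x _ => by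
        rw [Vr_smul_left, hW.se.Vr_sum_right]
        refine mul_le_mul_of_nonneg_left ?_ (h0 x)
        calc _ ≤ ∑ y ∈ U, f y * B := sum_le_sum fun y _ => by
              rw [Vr_smul_right]; exact mul_le_mul_of_nonneg_left (hxy x y) (h0 y)
          _ = B := by rw [← sum_mul, h1, one_mul]
    _ = B := by rw [← sum_mul, h1, one_mul]

end R74

open R74 in
/-- positive stiffness is rough -/
theorem rghStmt (hm : T1mStmt) (hG : GffDStmt) : RghStmt := by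
  intro Λ h hg
  by_contra hn
  obtain ⟨B, hB⟩ := h.bdd_of_not_rough hn
  have hτ := h.pos
  have he : 0 < Λ.e0 := div_pos (by linarith [h.one_le_a]) hτ
  have hθ : 0 < Λ.tI := (div_pos_iff_of_pos_right he).1 hg
  have hrg := h.one_le_rg
  have hJ : 0 < Λ.Jp.card := card_pos.2 ⟨_, h.e1⟩
  set C : ℝ := 98 * Λ.Jp.card * (Λ.rg : ℝ) ^ 2 with hCd
  have hC : 0 < C := by positivity
  obtain ⟨k, hk⟩ := exists_nat_gt ((B + 1) * C / (Λ.tI / 2 * Λ.τ))
  obtain ⟨δ, hδ, H⟩ := hG ⟨Λ.J, Λ.xy, Λ.τ, Λ.τ, h.1, hτ⟩ (Λ.tI / 2) (16 ^ (k + 1)) 1 (by positivity)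
    (one_le_pow₀ (by norm_num)) one_pos
  obtain ⟨hT, -, -, -, -, hW⟩ := hm.1 Λ h
  obtain ⟨l, hl, hl'⟩ := ((hW hθ δ hδ).and
    (hT.eventually (lt_mem_nhds (show Λ.tI / 2 < Λ.tI by linarith)))).exists
  obtain ⟨j, hj, hj'⟩ := (hl.and (Filter.eventually_ge_atTop (2 * (k + 1) + Λ.rg))).exists
  obtain ⟨i, rfl⟩ := Nat.exists_eq_add_of_le (show 2 * (k + 1) ≤ j by omega)
  set r : ℕ := 2 ^ i with hr
  have hr1 : Λ.rg ≤ r := (show Λ.rg ≤ i by omega).trans Nat.lt_two_pow_self.le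
  have hL : 2 ^ (2 * (k + 1) + i) = 4 * (4 ^ k * r) := by
    rw [pow_add, pow_mul, pow_succ]; ring
  rw [hL] at hj
  set c : Pt := ((2 * (4 ^ k * r) : ℕ), (2 * (4 ^ k * r) : ℕ)) with hc
  have hp : r ≤ 4 ^ k * r := Nat.le_mul_of_pos_left _ (by positivity)
  have hD : bl c (4 ^ k * r) ⊆ sq 0 (4 * (4 ^ k * r)) := fun x hx => by
    rw [mem_bl] at hx
    rw [mem_sq]
    simp only [hc, Prod.fst_zero, Prod.snd_zero] at hx ⊢
    omega
  let f : Pt → ℝ := fun x => ind (x ∈ bl c r) / ((2 * r + 1 : ℕ) : ℝ) ^ 2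
  have hf : Sup (bl c r) f := fun x hx => by simp only [f, ind_neg hx, zero_div]
  have h0 : ∀ x, 0 ≤ f x := fun x => div_nonneg (ind_nonneg _) (by positivity)
  have h1 : ∑ x ∈ bl c r, f x = 1 := by
    rw [sum_congr rfl fun x hx => show f x = 1 / ((2 * r + 1 : ℕ) : ℝ) ^ 2 by
      simp only [f, ind_pos hx], sum_const, card_bl, nsmul_eq_mul]
    push_cast
    field_simp
  have hK : ∀ x, |f x| ≤ 16 ^ (k + 1) / ((4 * (4 ^ k * r) : ℕ) : ℝ) ^ 2 := fun x => by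
    have hr0 : (0 : ℝ) < r := by positivity
    have : (16 : ℝ) ^ (k + 1) / ((4 * (4 ^ k * r) : ℕ) : ℝ) ^ 2 = 1 / (r : ℝ) ^ 2 := by
      push_cast
      rw [show (16 : ℝ) = 4 ^ 2 by norm_num, ← pow_mul, mul_comm 2, pow_mul, pow_succ 4 k]
      field_simp
    rw [this, abs_of_nonneg (h0 x)]
    refine div_le_div₀ zero_le_one (ind_le_one _) (by positivity) ?_
    push_cast
    nlinarith
  have e1 := (abs_le.1 (H Λ ⟨rfl, rfl, le_rfl, le_rfl⟩ l _ hj f
    (fun x hx => hf x fun h => hx (hD (bl_mono c hp h))) hK).1).1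
  have e2 := vr_avg_le (h.cen_D _) (hB (sq 0 (4 * (4 ^ k * r)))) hf h0 h1
  have e3 := gr_ge h hr1 hD hf h1
  rw [← hCd] at e3
  have e4 : Λ.tI / 2 * (Λ.τ * (k / C)) ≤ Λ.tN l * (Λ.D (sq 0 (4 * (4 ^ k * r)))).gr Λ.τ f :=
    mul_le_mul hl'.le e3 (by positivity) (by linarith)
  rw [div_lt_iff₀ (by positivity)] at hk
  have e5 : B + 1 < Λ.tI / 2 * (Λ.τ * (k / C)) := by
    rw [show Λ.tI / 2 * (Λ.τ * (k / C)) = k * (Λ.tI / 2 * Λ.τ) / C by ring, lt_div_iff₀ hC]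
    exact hk
  linarith

end Crest.Agent.T145
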