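import Crest.Agent.T145.EsL_28
import Crest.Agent.T145.Br_73
import Crest.Agent.T145.Rgh_74
import Crest.Agent.T145.PotD_17
import Crest.Agent.T145.PotPo_44

/-!
# Row 145: in a window the cluster of the pins misses a small ball with probability `≥ 1 / 12` (helper28)
-/

set_option autoImplicit false

namespace Crest.Agent.T145.Es28

open Finset

variable {Λ : Lat} {D : Finset Pt}

/-- the pins of the Dirichlet model -/
noncomputable def pins (Λ : Lat) (D : Finset Pt) : Finset Pt :=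
  ((Λ.edT D).image Prod.fst ∪ (Λ.edT D).image Prod.snd) \ D

theorem pins_D (Λ : Lat) (D : Finset Pt) : Pins (Λ.D D) (pins Λ D) :=
  ⟨sdiff_disjoint, fun _ he =>
    ⟨fun h => mem_sdiff.2 ⟨mem_union_left _ (mem_image_of_mem _ he), h⟩,
      fun h => mem_sdiff.2 ⟨mem_union_right _ (mem_image_of_mem _ he), h⟩⟩⟩

/-- uniform density on a ball -/
noncomputable def un (z : Pt) (r : ℕ) (x : Pt) : ℝ := ind (x ∈ bl z r) / ((2 * r + 1 : ℕ) : ℝ) ^ 2

theorem un_nonneg (z : Pt) (r : ℕ) (x : Pt) : 0 ≤ un z r x :=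
  div_nonneg (ind_nonneg _) (by positivity)

theorem un_off {z x : Pt} {r : ℕ} (h : x ∉ bl z r) : un z r x = 0 := by
  simp only [un, ind_neg h, zero_div]

theorem un_on {z x : Pt} {r : ℕ} (h : x ∈ bl z r) : un z r x = 1 / ((2 * r + 1 : ℕ) : ℝ) ^ 2 := by
  simp only [un, ind_pos h]

theorem sum_un (z : Pt) (r : ℕ) : ∑ x ∈ bl z r, un z r x = 1 := by
  rw [sum_congr rfl fun x hx => un_on hx, sum_const, card_bl, nsmul_eq_mul]
  push_cast
  field_simp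

theorem conn_cl {P : Finset Pt} {ω : Finset (Pt × Pt)} (hω : ω ⊆ Λ.edT D) {x y : Pt} (hy : y ∈ P)
    (h : Conn ω y x) : Conn (Λ.edI (cl P ω)) y x := by
  induction h with
  | refl => exact Conn.refl _ _
  | @tail u v hu huv ih =>
    have a : u ∈ cl P ω := Md.mem_cl.2 ⟨y, hy, hu⟩
    have b : v ∈ cl P ω := Md.mem_cl.2 ⟨y, hy, .tail hu huv⟩
    exact .tail ih (huv.imp (fun k => Lat.mem_edI.2 ⟨(Lat.mem_edT.1 (hω k)).1, a, b⟩)
      fun k => Lat.mem_edI.2 ⟨(Lat.mem_edT.1 (hω k)).1, b, a⟩)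

/-- a crossing cluster pins the average -/
theorem pinned_var : ∃ C : ℝ, 0 ≤ C ∧ ∀ (Λ : Lat) (D : Finset Pt) (z : Pt) (ρ : ℕ), Λ.Ok →
    bl z (2 * ρ) ⊆ D → ∀ ω, ω ⊆ Λ.edT D → Cross (pins Λ D) (bl z ρ) ω →
      Vr (((Λ.D D).free (D \ cl (pins Λ D) ω)).W 0) (pr (un z (2 * ρ))) (pr (un z (2 * ρ))) ≤
        Λ.τ * (C * Λ.rg) := by
  obtain ⟨C, hC⟩ := Pot.poinStmt
  refine ⟨4 * |C|, by positivity, fun Λ D z ρ h hD ω hω ⟨y, hy, x, hx, c⟩ => ?_⟩
  set K := cl (pins Λ D) ω with hK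
  have hQ : bl x ρ ⊆ bl z (2 * ρ) := bl_subset_bl hx (by omega)
  have hr := Pot.rowStmt Λ h K x y ρ (Md.mem_cl.2 ⟨y, hy, c⟩)
    (fun k => (mem_sdiff.1 hy).2 (hD (hQ k))) (conn_cl hω hy c).symm
  have hco : Pot.Co (D \ K) (Pot.edF (Λ.edT D)) := (Pot.co_eD h D).mono sdiff_subset
  refine F2A.vr_le h.pos ((h.ctr_D D).free sdiff_subset) ((h.anch_D D).free sdiff_subset)
    subset_rfl (fun _ _ => rfl) ((hco.f2A_iff _ _).2 (hco.G_le_of (by positivity) fun u hu => ?_))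
  set n : ℕ := 2 * (2 * ρ) + 1 with hn
  have n0 : (0 : ℝ) < n := by positivity
  have e1 : Pot.ip (D \ K) (un z (2 * ρ)) u = ∑ x ∈ bl z (2 * ρ), 1 / (n : ℝ) ^ 2 * u x := by
    rw [← Pot.ip_of_sup sdiff_subset _ hu, Pot.ip, ← sum_subset hD fun x _ k => by
      rw [un_off k, zero_mul]]
    exact sum_congr rfl fun x k => by rw [un_on k]
  have e2 : (∑ x ∈ bl z (2 * ρ), 1 / (n : ℝ) ^ 2 * u x) ^ 2 ≤
      (∑ x ∈ bl z (2 * ρ), u x ^ 2) / (n : ℝ) ^ 2 := by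
    refine (sum_mul_sq_le_sq_mul_sq _ _ _).trans_eq ?_
    rw [sum_const, card_bl, nsmul_eq_mul, ← hn]
    push_cast
    field_simp
  have e3 : Pot.eN Pot.nL (bl z (2 * ρ)) u u ≤ Pot.edF (Λ.edT D) u u :=
    Pot.edF_mono (fun e he => by
      obtain ⟨a, b, -⟩ := Lat.mem_edI.1 he
      rw [Pot.nL_Jp, mem_insert, mem_singleton] at a
      exact Lat.mem_edT.2 ⟨a.elim (fun k => k ▸ h.e1) fun k => k ▸ h.e2, .inl (hD b)⟩) u
  have e4 := (hC (z.1 - (2 * ρ : ℕ), z.2 - (2 * ρ : ℕ)) n u).2.1 (K ∩ bl x ρ)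
    (by rw [← bl_eq_sq]; exact inter_subset_right.trans hQ)
    fun w k => hu w fun k' => (mem_sdiff.1 k').2 (mem_inter.1 k).1
  rw [← bl_eq_sq] at e4
  set S := ∑ x ∈ bl z (2 * ρ), u x ^ 2
  set E := Pot.eN Pot.nL (bl z (2 * ρ)) u u
  have S0 : 0 ≤ S := sum_nonneg fun _ _ => sq_nonneg _
  have E0 : 0 ≤ E := (Pot.sy_edF _).nonneg _
  have g0 : (0 : ℝ) ≤ Λ.rg := by positivity
  have key : ∀ c : ℕ, ρ + 1 ≤ Λ.rg * c → c * S ≤ C * (n : ℝ) ^ 3 * E →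
      S / (n : ℝ) ^ 2 ≤ 4 * |C| * Λ.rg * E := fun c h1 h2 => by
    have h3 : (n : ℝ) ≤ 4 * (Λ.rg * c) := by exact_mod_cast (by omega : n ≤ 4 * (Λ.rg * c))
    have h4 : C * (n : ℝ) ^ 3 * E ≤ |C| * (n : ℝ) ^ 3 * E := by gcongr; exact le_abs_self C
    rw [div_le_iff₀ (by positivity)]
    refine le_of_mul_le_mul_left ?_ n0
    calc (n : ℝ) * S ≤ 4 * (Λ.rg * c) * S := mul_le_mul_of_nonneg_right h3 S0
      _ = 4 * Λ.rg * (c * S) := by ring
      _ ≤ 4 * Λ.rg * (|C| * (n : ℝ) ^ 3 * E) := mul_le_mul_of_nonneg_left (h2.trans h4) (by positivity)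
      _ = _ := by ring
  rw [e1]
  exact e2.trans ((hr.elim (fun k => key _ k e4.1) fun k => key _ k e4.2).trans
    (mul_le_mul_of_nonneg_left e3 (by positivity)))

theorem gr_smul_ge (h : Λ.Ok) (D : Finset Pt) (f : Pt → ℝ) {c : ℝ} (hc : c ≠ 0) :
    c ^ 2 * (Λ.D D).gr Λ.τ f ≤ (Λ.D D).gr Λ.τ (c • f) := by
  obtain ⟨n, hn⟩ := R74.exists_F2A h D (c • f)
  refine (Λ.D D).le_gr h.pos hn fun n' h' => ?_
  have := (Λ.D D).gr_le h.pos.le (h'.smul c⁻¹)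
  rw [smul_smul, inv_mul_cancel₀ hc, one_smul] at this
  refine (mul_le_mul_of_nonneg_left this (sq_nonneg c)).trans_eq ?_
  field_simp

/-- the local bound in a window -/
def LocStmt : Prop := ∀ (F : Fa) (θ₀ : ℝ), 0 < θ₀ → ∃ (k : ℕ) (δ : ℝ), 0 < δ ∧ ∀ Λ, F.Mem Λ →
  ∀ l i : ℕ, Λ.Win θ₀ δ l (2 ^ (k + i)) → ∀ (D : Finset Pt) (z : Pt), bl z (2 ^ (k + i)) ⊆ D →
    1 / 12 ≤ Ex ((Λ.D D).W 0)
      (ph (Λ.D D) (-1) fun ω => ind (¬ Cross (pins Λ D) (bl z (2 ^ i)) ω))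

theorem locStmt (hG : GffDStmt) (hm : T1mStmt) : LocStmt := fun F θ₀ h0 => by
  obtain ⟨C, C0, hC⟩ := pinned_var
  obtain ⟨B, B1, hB⟩ := F.exists_bound
  set v : ℝ := B * (C * B) with hv
  have v0 : 0 ≤ v := by positivity
  set t : ℝ := 12 * v + 1 with ht
  have t0 : 0 < t := by positivity
  set c : ℝ := 1 / (2 * (1 + t)) with hc
  have c0 : 0 < c := by positivity
  have c1 : c ≤ 1 := by rw [hc, div_le_one (by positivity)]; linarith
  obtain ⟨k, hk⟩ := exists_nat_ge (6 * (98 * B ^ 4) / (θ₀ / 2 * c ^ 2))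
  obtain ⟨δ₁, p1, H1⟩ := hG F θ₀ (16 ^ (k + 1)) (1 / 10) h0 (one_le_pow₀ (by norm_num)) (by norm_num)
  obtain ⟨δ₂, p2, H2⟩ := hm.2.2 F θ₀ 1 0 h0 one_pos
  have p3 : (0 : ℝ) < 1 / (F.base.rg * 2 ^ (2 * k + 3) + 1) := by positivity
  refine ⟨2 * k + 3, min δ₁ (min δ₂ (1 / (F.base.rg * 2 ^ (2 * k + 3) + 1))), by positivity,
    fun Λ hΛ l i hw D z hD => ?_⟩
  have h := hΛ.ok
  obtain ⟨b1, b2, -, -, -, b3, -, b4⟩ := hB Λ hΛ
  have τ0 := h.pos
  have hθ := (H2 Λ hΛ l _ (hw.mono le_rfl ((min_le_right _ _).trans (min_le_left _ _)))).2.1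
  have hw1 := hw.mono le_rfl (min_le_left _ _)
  have hrg : Λ.rg ≤ 2 * 2 ^ i := by
    have s := hw.sep.mono ((min_le_right _ _).trans (min_le_right _ _))
    have a := (s.large (n := F.base.rg * 2 ^ (2 * k + 3)) (by
      push_cast
      rw [mul_one_div, div_le_one (by positivity)]
      linarith)).2
    have b := Nat.le_mul_of_pos_right (F.base.rg * 2 ^ (2 * k + 3)) s.one_le_l
    have := b.trans a
    rw [pow_add 2 (2 * k + 3), mul_comm, Nat.mul_le_mul_left_iff (by positivity)] at this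
    rw [hΛ.rg_eq]; omega
  set r : ℕ := 2 * 2 ^ i with hr
  have hL : 2 ^ (2 * k + 3 + i) = 4 * (4 ^ k * r) := by
    rw [hr, pow_add, pow_add, pow_mul]; ring
  rw [hL] at hw1 hD
  set o : Pt := ((2 * (4 ^ k * r) : ℕ), (2 * (4 ^ k * r) : ℕ)) with ho
  have hp : r ≤ 4 ^ k * r := Nat.le_mul_of_pos_left _ (by positivity)
  have r0 : 0 < r := by positivity
  have hD0 : bl o (4 ^ k * r) ⊆ sq 0 (4 * (4 ^ k * r)) := fun x hx => by
    rw [mem_bl] at hx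
    rw [mem_sq]
    simp only [ho, Prod.fst_zero, Prod.snd_zero] at hx ⊢
    omega
  have hK : ∀ x, |(c • un o r) x| ≤ 16 ^ (k + 1) / ((4 * (4 ^ k * r) : ℕ) : ℝ) ^ 2 := fun x => by
    have hr0 : (0 : ℝ) < r := by positivity
    have : (16 : ℝ) ^ (k + 1) / ((4 * (4 ^ k * r) : ℕ) : ℝ) ^ 2 = 1 / (r : ℝ) ^ 2 := by
      push_cast
      rw [show (16 : ℝ) = 4 ^ 2 by norm_num, ← pow_mul, mul_comm 2, pow_mul, pow_succ 4 k]
      field_simp
    rw [this, Pi.smul_apply, smul_eq_mul, abs_of_nonneg (mul_nonneg c0.le (un_nonneg _ _ _))]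
    refine (mul_le_of_le_one_left (un_nonneg _ _ _) c1).trans
      (div_le_div₀ zero_le_one (ind_le_one _) (by positivity) ?_)
    push_cast
    nlinarith
  have e1 := (abs_le.1 (H1 Λ hΛ l _ hw1 (c • un o r) (fun x hx => by
    rw [Pi.smul_apply, un_off fun k => hx (hD0 (bl_mono o hp k)), smul_zero]) hK).2.2).2
  have e3 := R74.gr_ge h hrg hD0 (f := un o r) (fun x hx => un_off hx) (sum_un o r)
  have e4 := gr_smul_ge h (sq 0 (4 * (4 ^ k * r))) (un o r) c0.ne'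
  have e5 : 6 ≤ Λ.tN l * (Λ.D (sq 0 (4 * (4 ^ k * r)))).gr Λ.τ (c • un o r) := by
    have g1 : (1 : ℝ) ≤ Λ.rg := by exact_mod_cast h.one_le_rg
    have g2 : (0 : ℝ) < Λ.Jp.card := by exact_mod_cast card_pos.2 ⟨_, h.e1⟩
    have g3 : (k : ℝ) / (98 * B ^ 4) ≤ Λ.τ * (k / (98 * Λ.Jp.card * (Λ.rg : ℝ) ^ 2)) := by
      rw [mul_div_assoc', div_le_div_iff₀ (by positivity) (by positivity)]
      have q1 : 1 ≤ Λ.τ * B := by rwa [div_le_iff₀' τ0] at b2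
      have q2 : (Λ.Jp.card : ℝ) * (Λ.rg : ℝ) ^ 2 ≤ B * B ^ 2 := by gcongr
      have q3 : B * B ^ 2 ≤ Λ.τ * B * (B * B ^ 2) := le_mul_of_one_le_left (by positivity) q1
      nlinarith [mul_le_mul_of_nonneg_left (q2.trans q3) (by positivity : (0 : ℝ) ≤ 98 * k)]
    rw [div_le_iff₀ (by positivity)] at hk
    calc (6 : ℝ) ≤ θ₀ / 2 * (c ^ 2 * (k / (98 * B ^ 4))) := by
          rw [mul_div_assoc', mul_div_assoc', le_div_iff₀ (by positivity)]; linarith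
      _ ≤ _ := mul_le_mul hθ ((mul_le_mul_of_nonneg_left (g3.trans e3) (sq_nonneg c)).trans e4)
          (by positivity) (by linarith)
  have e6 : Real.exp (-(Λ.tN l * (Λ.D (sq 0 (4 * (4 ^ k * r)))).gr Λ.τ (c • un o r)) / 2) ≤
      1 / 10 := by
    refine (Real.exp_le_exp.2 (show _ ≤ -3 by linarith)).trans ?_
    rw [Real.exp_neg, one_div, inv_le_inv₀ (Real.exp_pos _) (by norm_num)]
    have := Real.add_one_le_exp (3 / 2 : ℝ)
    have := Real.add_one_le_exp (1 : ℝ)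
    have e : Real.exp 3 = Real.exp 1 * Real.exp 1 * Real.exp 1 := by
      rw [← Real.exp_add, ← Real.exp_add]; norm_num
    have := Real.exp_one_gt_d9
    rw [e]; nlinarith
  have hb : sq (0 + (z - o)) (4 * (4 ^ k * r)) ⊆ D := fun x hx => hD (by
    rw [mem_sq] at hx
    rw [mem_bl]
    simp only [ho, zero_add, Prod.fst_sub, Prod.snd_sub] at hx ⊢
    omega)
  have e7 : Ph ((Λ.D D).W 0) (c • pr (un z r)) ≤ 1 / 5 := by
    refine ((h.loc_D_D hb).Ph_le _).trans ?_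
    rw [← pr_smul, (Λ.sym_add (z - o)).Ph_D h (map_sq_add 0 (z - o) _)]
    have : (fun x => (c • un z r) (Equiv.addRight (z - o) x)) = c • un o r := funext fun x => by
      simp only [Pi.smul_apply, un, Equiv.coe_addRight]
      congr 2
      refine ind_congr ?_
      simp only [mem_bl, Prod.fst_add, Prod.snd_add, Prod.fst_sub, Prod.snd_sub]
      omega
    rw [this]
    linarith
  have e8 := spread (h.wt_D D 0) (h.cen_D D).even (pr (un z r)) (a := 1 + t) (by positivity) e7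
  have hz : bl z r ⊆ D := (bl_mono z (by omega)).trans hD
  have e9 := loc_bound (h.ctr_D D) (h.anch_D D) (fun _ _ => rfl) (K := bl z (2 ^ i)) (pins_D Λ D)
    (un_nonneg z r) (fun x hx => un_off hx) (sum_un z r) hz t0 v0 fun ω hω x =>
      (hC Λ D z (2 ^ i) h hz ω hω x).trans (by rw [hv]; gcongr)
  have e10 : v / t ^ 2 ≤ 1 / 12 := by
    rw [div_le_div_iff₀ (by positivity) (by norm_num)]; nlinarith
  simp only [neg_add'] at e8
  linarith

end Crest.Agent.T145.Es28
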