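import Crest.Agent.T145.FsBas_70

/-! # Row 145 (e): the logarithmic profile (`LogStmt`) (helper70) -/

set_option autoImplicit false

namespace Crest.Agent.T145.FS

namespace Log70

open Real

theorem abs_log_sub {s t m : ℝ} (hm : 0 < m) (hs : m ≤ s) (ht : m ≤ t) :
    |log s - log t| ≤ |s - t| / m := by
  have key : ∀ s t : ℝ, m ≤ s → m ≤ t → log s - log t ≤ |s - t| / m := by
    intro s t hs ht
    have h1 : 0 < s := by linarith
    have h2 : 0 < t := by linarith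
    rw [← log_div h1.ne' h2.ne']
    have h3 := log_le_sub_one_of_pos (div_pos h1 h2)
    have h4 : s / t - 1 = (s - t) / t := by field_simp
    have h5 : (s - t) / t ≤ |s - t| / t := by gcongr; exact le_abs_self _
    have h6 : |s - t| / t ≤ |s - t| / m := by gcongr
    linarith
  rw [abs_le]
  have := key t s ht hs
  rw [abs_sub_comm] at this
  exact ⟨by linarith, key s t hs ht⟩

/-- Clamp to `[r, R]`. -/
noncomputable def cl (r R t : ℝ) : ℝ := max r (min t R)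

theorem cl_lip (r R s t : ℝ) : |cl r R s - cl r R t| ≤ |s - t| := by
  unfold cl
  refine (abs_max_sub_max_le_max _ _ _ _).trans ?_
  rw [sub_self, abs_zero]
  refine max_le (abs_nonneg _) ((abs_min_sub_min_le_max _ _ _ _).trans ?_)
  rw [sub_self, abs_zero]
  exact max_le le_rfl (abs_nonneg _)

theorem log_cl {r R s t m : ℝ} (hm : 0 < m) (hrR : r ≤ R) (h : m ≤ r ∨ (m ≤ s ∧ m ≤ t)) :
    |log (cl r R s) - log (cl r R t)| ≤ |s - t| / m := by
  by_cases hR : m ≤ R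
  · have key : ∀ v : ℝ, m ≤ r ∨ m ≤ v → m ≤ cl r R v := by
      intro v hv
      unfold cl
      rcases hv with hv | hv
      · exact hv.trans (le_max_left _ _)
      · exact (le_min hv hR).trans (le_max_right _ _)
    refine (abs_log_sub hm (key s (h.imp id And.left)) (key t (h.imp id And.right))).trans ?_
    exact div_le_div_of_nonneg_right (cl_lip r R s t) hm.le
  · have h' : m ≤ s ∧ m ≤ t := h.resolve_left fun h => hR (h.trans hrR)
    push Not at hR
    have e : ∀ v : ℝ, m ≤ v → cl r R v = R := fun v hv => by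
      unfold cl; rw [min_eq_right (by linarith), max_eq_right hrR]
    rw [e s h'.1, e t h'.2, sub_self, abs_zero]
    positivity

/-- Euclidean norm. -/
noncomputable def nr (a c : ℝ) : ℝ := sqrt (a ^ 2 + c ^ 2)

theorem nr_nonneg (a c : ℝ) : 0 ≤ nr a c := sqrt_nonneg _

theorem nr_sq (a c : ℝ) : nr a c ^ 2 = a ^ 2 + c ^ 2 := sq_sqrt (by positivity)

theorem nr_comm (a c : ℝ) : nr a c = nr c a := by unfold nr; rw [add_comm]

theorem abs_le_nr (a c : ℝ) : |a| ≤ nr a c := abs_le_sqrt (by nlinarith [sq_nonneg c])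

theorem nr_mul (a c : ℝ) :
    |nr (a + 1) c - nr a c| * (nr (a + 1) c + nr a c) = |2 * a + 1| := by
  have h := add_nonneg (nr_nonneg (a + 1) c) (nr_nonneg a c)
  rw [← abs_of_nonneg h, ← abs_mul]
  congr 1
  have h1 := nr_sq (a + 1) c
  have h2 := nr_sq a c
  nlinarith

theorem nr_lip (a c : ℝ) : |nr (a + 1) c - nr a c| ≤ 1 := by
  have h := nr_mul a c
  have h1 := abs_le_nr a c
  have h2 := abs_le_nr (a + 1) c
  have h3 : |2 * a + 1| ≤ |a + 1| + |a| := by
    have := abs_add_le (a + 1) a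
    rwa [show a + 1 + a = 2 * a + 1 by ring] at this
  by_contra hc
  push Not at hc
  rcases (add_nonneg (nr_nonneg (a + 1) c) (nr_nonneg a c)).eq_or_lt with h4 | h4
  · have h5 := nr_nonneg (a + 1) c
    have h6 := nr_nonneg a c
    have h7 : nr (a + 1) c = 0 := by linarith
    have h8 : nr a c = 0 := by linarith
    rw [h7, h8] at hc; norm_num at hc
  · nlinarith

/-- One squared difference, far from the centre. -/
theorem step_far {r R a c : ℝ} (hrR : r ≤ R) (h2 : 2 ≤ nr a c) :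
    (log (cl r R (nr (a + 1) c)) - log (cl r R (nr a c))) ^ 2 ≤
      (2 * a + 1) ^ 2 / (4 * (nr a c - 1) ^ 4) := by
  have h1 := abs_le.1 (nr_lip a c)
  have hm : 0 < nr a c - 1 := by linarith
  have h3 := log_cl (r := r) (R := R) (s := nr (a + 1) c) (t := nr a c) hm hrR
    (Or.inr ⟨by linarith, by linarith⟩)
  have h4 : |nr (a + 1) c - nr a c| ≤ |2 * a + 1| / (2 * (nr a c - 1)) := by
    rw [le_div_iff₀ (by positivity), ← nr_mul a c]
    exact mul_le_mul_of_nonneg_left (by linarith) (abs_nonneg _)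
  have h5 : |log (cl r R (nr (a + 1) c)) - log (cl r R (nr a c))| ≤
      |2 * a + 1| / (2 * (nr a c - 1) ^ 2) := by
    refine h3.trans ?_
    rw [div_le_iff₀ hm]
    refine h4.trans (le_of_eq ?_)
    field_simp
  rw [← sq_abs, ← sq_abs (2 * a + 1)]
  refine (pow_le_pow_left₀ (abs_nonneg _) h5 2).trans (le_of_eq ?_)
  field_simp; ring

theorem two_far {a c : ℝ} (h2 : 2 ≤ nr a c) :
    (2 * a + 1) ^ 2 / (4 * (nr a c - 1) ^ 4) + (2 * c + 1) ^ 2 / (4 * (nr a c - 1) ^ 4) ≤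
      1 / nr a c ^ 2 + 100 / nr a c ^ 3 := by
  have h1 := nr_sq a c
  have h3 := (le_abs_self a).trans (abs_le_nr a c)
  have h4 := (le_abs_self c).trans (abs_le_nr c a)
  rw [nr_comm c a] at h4
  set ρ := nr a c
  have hm : 0 < ρ - 1 := by linarith
  have hρ : 0 < ρ := by linarith
  have e1 : (2 * a + 1) ^ 2 / (4 * (ρ - 1) ^ 4) + (2 * c + 1) ^ 2 / (4 * (ρ - 1) ^ 4) ≤
      (ρ + 1) ^ 2 / (ρ - 1) ^ 4 := by
    rw [← add_div, div_le_div_iff₀ (by positivity) (by positivity)]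
    have : (2 * a + 1) ^ 2 + (2 * c + 1) ^ 2 ≤ 4 * (ρ + 1) ^ 2 := by nlinarith
    nlinarith [pow_pos hm 4]
  refine e1.trans ?_
  have e2 : 1 / ρ ^ 2 + 100 / ρ ^ 3 = (ρ + 100) / ρ ^ 3 := by field_simp
  rw [e2, div_le_div_iff₀ (by positivity) (by positivity)]
  obtain ⟨t, ht, hρt⟩ : ∃ t, 0 ≤ t ∧ ρ = t + 2 := ⟨ρ - 2, by linarith, by ring⟩
  rw [hρt]
  have : (t + 2 + 100) * (t + 2 - 1) ^ 4 - (t + 2 + 1) ^ 2 * (t + 2) ^ 3 =
      94 * t ^ 4 + 357 * t ^ 3 + 482 * t ^ 2 + 253 * t + 30 := by ring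
  nlinarith [pow_nonneg ht 4, pow_nonneg ht 3, pow_nonneg ht 2]

theorem arctan_step {k j : ℝ} (hk : 0 < k) (hj : 0 ≤ j) :
    1 / (k ^ 2 + (j + 1) ^ 2) ≤ (arctan ((j + 1) / k) - arctan (j / k)) / k := by
  have hlt : j / k < (j + 1) / k := by gcongr; linarith
  obtain ⟨x, hx, e⟩ := exists_hasDerivAt_eq_slope arctan (fun x => 1 / (1 + x ^ 2)) hlt
    continuous_arctan.continuousOn fun x _ => hasDerivAt_arctan x
  have e1 : (j + 1) / k - j / k = 1 / k := by ring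
  rw [e1] at e
  have e2 : arctan ((j + 1) / k) - arctan (j / k) = 1 / (1 + x ^ 2) / k := by
    rw [e]; field_simp
  rw [e2]
  have h0 : 0 ≤ x := (div_nonneg hj hk.le).trans hx.1.le
  have h1 : x * k ≤ j + 1 := (le_div_iff₀ hk).1 hx.2.le
  have h2 : (x * k) ^ 2 ≤ (j + 1) ^ 2 := pow_le_pow_left₀ (by positivity) h1 2
  have e3 : 1 / (1 + x ^ 2) / k / k = 1 / (k ^ 2 + (x * k) ^ 2) := by field_simp
  rw [e3]
  gcongr

theorem side_sum {k : ℝ} (hk : 0 < k) (n : ℕ) :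
    ∑ j ∈ Finset.Icc (-(n : ℤ)) n, 1 / (k ^ 2 + (j : ℝ) ^ 2) ≤
      1 / k ^ 2 + 2 * (arctan (n / k) / k) := by
  induction n with
  | zero => simp
  | succ n ih =>
    have e : Finset.Icc (-((n + 1 : ℕ) : ℤ)) ((n + 1 : ℕ) : ℤ) =
        insert (-((n : ℤ) + 1)) (insert ((n : ℤ) + 1) (Finset.Icc (-(n : ℤ)) n)) := by
      ext x; simp only [Finset.mem_Icc, Finset.mem_insert]; push_cast; omega
    rw [e, Finset.sum_insert (by simp only [Finset.mem_Icc, Finset.mem_insert]; omega),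
      Finset.sum_insert (by simp only [Finset.mem_Icc]; omega)]
    have h := arctan_step hk (Nat.cast_nonneg n)
    push_cast
    rw [neg_sq]
    rw [sub_div] at h
    linarith

/-- The bound for one lattice point, in terms of the coordinates. -/
noncomputable def bnd (y : P) : ℝ :=
  1 / ((y.1 : ℝ) ^ 2 + (y.2 : ℝ) ^ 2) + 100 / ((max y.1.natAbs y.2.natAbs : ℕ) : ℝ) ^ 3

theorem bnd_nonneg (y : P) : 0 ≤ bnd y := by unfold bnd; positivity

theorem sum_union_le {s t : Finset P} : ∑ y ∈ s ∪ t, bnd y ≤ ∑ y ∈ s, bnd y + ∑ y ∈ t, bnd y := by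
  rw [← Finset.sum_union_inter]
  linarith [Finset.sum_nonneg fun y (_ : y ∈ s ∩ t) => bnd_nonneg y]

theorem side (k : ℕ) (hk : 1 ≤ k) (f : ℤ → P)
    (hf : ∀ j, ((f j).1 : ℝ) ^ 2 + ((f j).2 : ℝ) ^ 2 = (k : ℝ) ^ 2 + (j : ℝ) ^ 2)
    (hf' : ∀ j, k ≤ max (f j).1.natAbs (f j).2.natAbs) :
    ∑ y ∈ (Finset.Icc (-(k : ℤ)) k).image f, bnd y ≤ π / 2 / k + 301 / (k : ℝ) ^ 2 := by
  have hk' : (1 : ℝ) ≤ k := by exact_mod_cast hk
  refine (Finset.sum_image_le_of_nonneg fun y _ => bnd_nonneg y).trans ?_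
  have h1 : ∀ j ∈ Finset.Icc (-(k : ℤ)) k,
      bnd (f j) ≤ 1 / ((k : ℝ) ^ 2 + (j : ℝ) ^ 2) + 100 / (k : ℝ) ^ 3 := by
    intro j _
    unfold bnd
    rw [hf j]
    have : (k : ℝ) ≤ ((max (f j).1.natAbs (f j).2.natAbs : ℕ) : ℝ) := by exact_mod_cast hf' j
    gcongr
  refine (Finset.sum_le_sum h1).trans ?_
  rw [Finset.sum_add_distrib, Finset.sum_const, Int.card_Icc, nsmul_eq_mul]
  have h2 := side_sum (k := (k : ℝ)) (by linarith) k
  rw [div_self (by linarith), arctan_one] at h2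
  have h3 : (((k : ℤ) + 1 - -(k : ℤ)).toNat : ℝ) = 2 * k + 1 := by
    have : ((k : ℤ) + 1 - -(k : ℤ)).toNat = 2 * k + 1 := by omega
    rw [this]; push_cast; ring
  rw [h3]
  have h4 : (2 * (k : ℝ) + 1) * (100 / (k : ℝ) ^ 3) ≤ 300 / (k : ℝ) ^ 2 := by
    rw [← mul_div_assoc, div_le_div_iff₀ (by positivity) (by positivity)]
    nlinarith [pow_pos (show (0 : ℝ) < k by linarith) 2]
  have h5 : 2 * (π / 4 / (k : ℝ)) = π / 2 / k := by ring
  have h6 : 301 / (k : ℝ) ^ 2 = 1 / (k : ℝ) ^ 2 + 300 / (k : ℝ) ^ 2 := by ring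
  linarith

theorem shell (k : ℕ) (hk : 1 ≤ k) (Y : Finset P)
    (hY : ∀ y ∈ Y, max y.1.natAbs y.2.natAbs = k) :
    ∑ y ∈ Y, bnd y ≤ 2 * π / k + 1204 / (k : ℝ) ^ 2 := by
  have s1 := side k hk (fun j => ((k : ℤ), j)) (fun j => by simp) fun j => by simp
  have s2 := side k hk (fun j => (-(k : ℤ), j)) (fun j => by simp) fun j => by simp
  have s3 := side k hk (fun j => (j, (k : ℤ))) (fun j => by simp [add_comm]) fun j => by simp
  have s4 := side k hk (fun j => (j, -(k : ℤ))) (fun j => by simp [add_comm]) fun j => by simp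
  have hsub : Y ⊆ ((Finset.Icc (-(k : ℤ)) k).image (fun j => ((k : ℤ), j)) ∪
      (Finset.Icc (-(k : ℤ)) k).image (fun j => (-(k : ℤ), j))) ∪
      ((Finset.Icc (-(k : ℤ)) k).image (fun j => (j, (k : ℤ))) ∪
      (Finset.Icc (-(k : ℤ)) k).image (fun j => (j, -(k : ℤ)))) := by
    rintro ⟨a, c⟩ hy
    have := hY _ hy
    simp only [Finset.mem_union, Finset.mem_image, Finset.mem_Icc, Prod.mk.injEq] at this ⊢
    have h : a = k ∨ a = -k ∨ c = k ∨ c = -k := by omega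
    rcases h with h | h | h | h
    · exact Or.inl (Or.inl ⟨c, by omega, h.symm, rfl⟩)
    · exact Or.inl (Or.inr ⟨c, by omega, h.symm, rfl⟩)
    · exact Or.inr (Or.inl ⟨a, by omega, rfl, h.symm⟩)
    · exact Or.inr (Or.inr ⟨a, by omega, rfl, h.symm⟩)
  refine (Finset.sum_le_sum_of_subset_of_nonneg hsub fun y _ _ => bnd_nonneg y).trans ?_
  refine sum_union_le.trans ((add_le_add sum_union_le sum_union_le).trans ?_)
  have : 2 * π / k + 1204 / (k : ℝ) ^ 2 = 4 * (π / 2 / k + 301 / (k : ℝ) ^ 2) := by ring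
  linarith

theorem harm (k₀ : ℕ) (hk : 1 ≤ k₀) (n : ℕ) :
    ∑ k ∈ Finset.Icc k₀ (k₀ + n), (2 * π / k + 1204 / (k : ℝ) ^ 2) ≤
      2 * π * (1 + log ((k₀ + n : ℕ) : ℝ) - log k₀) + 1204 * (2 - 1 / ((k₀ + n : ℕ) : ℝ)) := by
  have hk' : (1 : ℝ) ≤ k₀ := by exact_mod_cast hk
  induction n with
  | zero =>
    simp only [add_zero, Finset.Icc_self, Finset.sum_singleton, add_sub_cancel_right, mul_one]
    have h1 : 2 * π / k₀ ≤ 2 * π := div_le_self (by positivity) hk'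
    have h2 : 1204 / (k₀ : ℝ) ^ 2 ≤ 1204 := div_le_self (by positivity) (by nlinarith)
    have h3 : 1 / (k₀ : ℝ) ≤ 1 := div_le_self (by positivity) hk'
    linarith
  | succ n ih =>
    rw [← add_assoc, Finset.sum_Icc_succ_top (by omega)]
    set m : ℝ := ((k₀ + n : ℕ) : ℝ) with hm
    have hm1 : 1 ≤ m := by rw [hm]; push_cast; linarith [Nat.cast_nonneg (α := ℝ) n]
    have e : ((k₀ + n + 1 : ℕ) : ℝ) = m + 1 := by rw [hm]; push_cast; ring
    rw [e]
    have h1 : 1 / (m + 1) ≤ log (m + 1) - log m := by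
      have := log_le_sub_one_of_pos (show 0 < m / (m + 1) by positivity)
      rw [log_div (by positivity) (by positivity)] at this
      have e2 : m / (m + 1) - 1 = -(1 / (m + 1)) := by field_simp; ring
      linarith
    have h2 : 1 / (m + 1) ^ 2 ≤ 1 / m - 1 / (m + 1) := by
      have e2 : 1 / m - 1 / (m + 1) = 1 / (m * (m + 1)) := by field_simp; ring
      rw [e2]
      apply one_div_le_one_div_of_le (by positivity); nlinarith
    have h3 := mul_le_mul_of_nonneg_left h1 (show 0 ≤ 2 * π by positivity)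
    have e3 : 2 * π / (m + 1) = 2 * π * (1 / (m + 1)) := by ring
    have e4 : 1204 / (m + 1) ^ 2 = 1204 * (1 / (m + 1) ^ 2) := by ring
    rw [e3, e4]
    nlinarith

theorem annulus (k₀ k₁ : ℕ) (hk : 1 ≤ k₀) (hk' : k₀ ≤ k₁) (Y : Finset P)
    (hY : ∀ y ∈ Y, k₀ ≤ max y.1.natAbs y.2.natAbs ∧ max y.1.natAbs y.2.natAbs ≤ k₁) :
    ∑ y ∈ Y, bnd y ≤ 2 * π * (1 + log k₁ - log k₀) + 2408 := by
  obtain ⟨n, rfl⟩ := Nat.exists_eq_add_of_le hk'
  rw [← Finset.sum_fiberwise_of_maps_to (t := Finset.Icc k₀ (k₀ + n))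
    (g := fun y : P => max y.1.natAbs y.2.natAbs) fun y hy => Finset.mem_Icc.2 (hY y hy)]
  refine (Finset.sum_le_sum fun k hk2 => shell k (hk.trans (Finset.mem_Icc.1 hk2).1) _
    fun y hy => (Finset.mem_filter.1 hy).2).trans ((harm k₀ hk n).trans ?_)
  have : 0 ≤ 1 / ((k₀ + n : ℕ) : ℝ) := by positivity
  linarith

theorem max_le_nr (y : P) : ((max y.1.natAbs y.2.natAbs : ℕ) : ℝ) ≤ nr y.1 y.2 := by
  have h1 := abs_le_nr (y.1 : ℝ) y.2
  have h2 := abs_le_nr (y.2 : ℝ) y.1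
  rw [nr_comm] at h2
  push_cast
  simp only [Nat.cast_natAbs, Int.cast_abs]
  exact max_le h1 h2

theorem nr_le_max (y : P) : nr y.1 y.2 ≤ 2 * ((max y.1.natAbs y.2.natAbs : ℕ) : ℝ) := by
  push_cast
  simp only [Nat.cast_natAbs, Int.cast_abs]
  have h1 := le_max_left |(y.1 : ℝ)| |(y.2 : ℝ)|
  have h2 := le_max_right |(y.1 : ℝ)| |(y.2 : ℝ)|
  have h3 := abs_nonneg (y.1 : ℝ)
  have h4 := abs_nonneg (y.2 : ℝ)
  apply sqrt_le_iff.2
  refine ⟨by linarith, ?_⟩
  rw [← sq_abs (y.1 : ℝ), ← sq_abs (y.2 : ℝ)]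
  nlinarith

end Log70

open Log70 Real in
theorem logStmt70 : LogStmt := by
  refine ⟨2 * π * 8 + 2408, by positivity, fun z r R hr hrR => ?_⟩
  have hr0 : 0 < r := by linarith
  have hR0 : 0 < R := by linarith
  let ρ : P → ℝ := fun x => nr ((x.1 - z.1 : ℤ) : ℝ) ((x.2 - z.2 : ℤ) : ℝ)
  let a : P → ℝ := fun x => log R - log (cl r R (ρ x))
  have e1 : ∀ x : P, ρ (x + (1, 0)) = nr (((x.1 - z.1 : ℤ) : ℝ) + 1) ((x.2 - z.2 : ℤ) : ℝ) := by
    intro x; simp only [ρ, Prod.fst_add, Prod.snd_add]; push_cast; congr 1 <;> ring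
  have e2 : ∀ x : P, ρ (x + (0, 1)) = nr (((x.2 - z.2 : ℤ) : ℝ) + 1) ((x.1 - z.1 : ℤ) : ℝ) := by
    intro x; rw [nr_comm]; simp only [ρ, Prod.fst_add, Prod.snd_add]; push_cast; congr 1 <;> ring
  have ew : ∀ x : P, w a x = (log (cl r R (ρ (x + (1, 0)))) - log (cl r R (ρ x))) ^ 2 +
      (log (cl r R (ρ (x + (0, 1)))) - log (cl r R (ρ x))) ^ 2 := by
    intro x; unfold w; simp only [a]; ring
  have l1 : ∀ x : P, |ρ (x + (1, 0)) - ρ x| ≤ 1 := fun x => by rw [e1]; exact nr_lip _ _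
  have l2 : ∀ x : P, |ρ (x + (0, 1)) - ρ x| ≤ 1 := fun x => by
    rw [e2]; simp only [ρ]; rw [nr_comm ((x.1 - z.1 : ℤ) : ℝ)]; exact nr_lip _ _
  have c1 : ∀ t, t ≤ r → cl r R t = r := fun t ht => by
    unfold cl; exact max_eq_left ((min_le_left _ _).trans ht)
  have c2 : ∀ t, R ≤ t → cl r R t = R := fun t ht => by
    unfold cl; rw [min_eq_right ht, max_eq_right hrR]
  refine ⟨a, fun x hx => ?_, fun x hx => ?_, fun x => ?_, fun X => ?_⟩
  · simp only [a]
    rw [c1 (ρ x) (sqrt_le_iff.2 ⟨hr0.le, hx⟩), log_div hR0.ne' hr0.ne']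
  · simp only [a]
    rw [c2 (ρ x) (le_sqrt_of_sq_le hx), sub_self]
  · rw [ew]
    have key : ∀ s t : ℝ, |s - t| ≤ 1 → (log (cl r R s) - log (cl r R t)) ^ 2 ≤ 1 / r ^ 2 := by
      intro s t h
      have h1 := log_cl (s := s) (t := t) hr0 hrR (Or.inl le_rfl)
      have h2 : |s - t| / r ≤ 1 / r := by gcongr
      rw [← sq_abs]
      refine (pow_le_pow_left₀ (abs_nonneg _) (h1.trans h2) 2).trans (le_of_eq ?_)
      rw [div_pow, one_pow]
    have := key _ _ (l1 x)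
    have := key _ _ (l2 x)
    have e : 2 / r ^ 2 = 1 / r ^ 2 + 1 / r ^ 2 := by ring
    linarith
  · classical
    set Y := X.filter fun x => r - 1 ≤ ρ x ∧ ρ x ≤ R + 1 with hY
    have h1 : En X a = ∑ x ∈ Y, w a x := by
      unfold En
      symm
      refine Finset.sum_subset (Finset.filter_subset _ _) fun x hx hx' => ?_
      rw [hY, Finset.mem_filter, not_and, not_and_or] at hx'
      have a1 := abs_le.1 (l1 x)
      have a2 := abs_le.1 (l2 x)
      rw [ew]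
      rcases hx' hx with h | h
      · push Not at h
        rw [c1 _ (by linarith), c1 _ (by linarith), c1 _ (by linarith)]; ring
      · push Not at h
        rw [c2 _ (by linarith), c2 _ (by linarith), c2 _ (by linarith)]; ring
    have h2 : ∀ x ∈ Y, w a x ≤ bnd (x - z) := by
      intro x hx
      have hx1 := (Finset.mem_filter.1 hx).2.1
      have h3 : 2 ≤ nr ((x.1 - z.1 : ℤ) : ℝ) ((x.2 - z.2 : ℤ) : ℝ) := by
        simp only [ρ] at hx1; linarith
      have h4 := step_far (r := r) hrR h3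
      have h5 := step_far (r := r) hrR (a := ((x.2 - z.2 : ℤ) : ℝ)) (c := ((x.1 - z.1 : ℤ) : ℝ))
        (by rwa [nr_comm])
      rw [nr_comm ((x.2 - z.2 : ℤ) : ℝ) ((x.1 - z.1 : ℤ) : ℝ)] at h5
      have h6 := two_far h3
      rw [ew, e1, e2]
      refine (add_le_add h4 h5).trans (h6.trans ?_)
      unfold bnd
      rw [nr_sq]
      have h7 := max_le_nr (x - z)
      have h8 := nr_le_max (x - z)
      simp only [Prod.fst_sub, Prod.snd_sub] at h7 h8 ⊢
      have h9 : (0 : ℝ) < ((max (x.1 - z.1).natAbs (x.2 - z.2).natAbs : ℕ) : ℝ) := by linarith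
      gcongr
    have h3 : ∑ x ∈ Y, bnd (x - z) = ∑ y ∈ Y.image (fun x => x - z), bnd y := by
      rw [Finset.sum_image fun x _ y _ h => sub_left_injective h]
    have hk0 : 1 ≤ ⌈(r - 1) / 2⌉₊ := Nat.one_le_iff_ne_zero.2 (by
      rw [ne_eq, Nat.ceil_eq_zero]; push Not; linarith)
    have hk1 : ⌈(r - 1) / 2⌉₊ ≤ ⌈R + 1⌉₊ := Nat.ceil_mono (by linarith)
    have h4 := annulus _ _ hk0 hk1 (Y.image fun x => x - z) fun y hy => by
      obtain ⟨x, hx, rfl⟩ := Finset.mem_image.1 hy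
      have hx' := (Finset.mem_filter.1 hx).2
      have h7 := max_le_nr (x - z)
      have h8 := nr_le_max (x - z)
      simp only [Prod.fst_sub, Prod.snd_sub, ρ] at h7 h8 hx' ⊢
      constructor
      · exact Nat.ceil_le.2 (by linarith)
      · exact_mod_cast (h7.trans hx'.2).trans (Nat.le_ceil _)
    have h5 : log (⌈R + 1⌉₊ : ℝ) - log (⌈(r - 1) / 2⌉₊ : ℝ) ≤ log (R / r) + 7 := by
      have a1 : (⌈R + 1⌉₊ : ℝ) ≤ 2 * R := by
        have := Nat.ceil_lt_add_one (show 0 ≤ R + 1 by linarith); linarith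
      have a2 : r / 4 ≤ (⌈(r - 1) / 2⌉₊ : ℝ) := by
        have := Nat.le_ceil ((r - 1) / 2); linarith
      have a3 : (0 : ℝ) < ⌈R + 1⌉₊ := by
        have := Nat.le_ceil (R + 1); linarith
      have b1 := log_le_log a3 a1
      have b2 := log_le_log (by positivity) a2
      rw [log_mul (by norm_num) hR0.ne'] at b1
      rw [log_div hr0.ne' (by norm_num)] at b2
      rw [log_div hR0.ne' hr0.ne']
      have b3 := log_le_sub_one_of_pos (show (0 : ℝ) < 2 by norm_num)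
      have b4 := log_le_sub_one_of_pos (show (0 : ℝ) < 4 by norm_num)
      linarith
    rw [h1]
    refine (Finset.sum_le_sum h2).trans (h3.le.trans (h4.trans ?_))
    nlinarith [pi_pos]

end Crest.Agent.T145.FS
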