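import Crest.Agent.T145.FsAll_70
import Crest.Agent.T145.FsLog_70

/-! # Row 145 (e): the unconditional outputs (helper70) -/

set_option autoImplicit false

namespace Crest.Agent.T145.FS

theorem fs : FSStmt := fs_of logStmt70
theorem e0 : E0Stmt := e0_of logStmt70
theorem rough : RoughStmt := rough_of logStmt70
theorem e1 : E1Stmt := e1_of logStmt70
theorem e2 : E2Stmt := e2_of logStmt70
theorem e3 : E3Stmt := e3_of logStmt70

end Crest.Agent.T145.FS
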