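import Crest.Agent.T145.MbDef_25
import Crest.Agent.T145.Route_51
import Crest.Agent.T145.CutC_7

/-!
# Row 145, module MB, leaf LOW (helper37): a mass kills the stiffness of the free box
-/

set_option autoImplicit false

namespace Crest.Agent.T145.Mb

open Finset

namespace W37

theorem tele (f : ℤ → ℝ) (n : ℕ) : ∑ i ∈ Ico (0 : ℤ) n, (f (i + 1) - f i) = f n - f 0 := by
  induction n with
  | zero => simp
  | succ n ih =>
    rw [Nat.cast_succ, ← insert_Ico_right_eq_Ico_add_one (by omega), sum_insert (by simp), ih]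
    ring

theorem walk (f : ℤ → ℝ) {ε : ℝ} (n : ℕ) (h : ∀ i : ℤ, 0 ≤ i → i < n → |f (i + 1) - f i| ≤ ε) :
    |f n - f 0| ≤ n * ε := by
  rw [← tele]
  refine (abs_sum_le_sum_abs _ _).trans ((sum_le_card_nsmul _ _ ε fun i hi => ?_).trans ?_)
  · rw [mem_Ico] at hi; exact h i hi.1 hi.2
  · simp

theorem mem_ed {b : ℝ} {l : ℕ} {e : Pt × Pt} : e ∈ (xyL b).edI (sq 0 l) ↔
    (e.2 = e.1 + (1, 0) ∨ e.2 = e.1 + (0, 1)) ∧ e.1 ∈ sq (0 : Pt) l ∧ e.2 ∈ sq (0 : Pt) l := by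
  rw [Lat.mem_edI, xyL_Jp, mem_insert, mem_singleton, sub_eq_iff_eq_add', sub_eq_iff_eq_add']

/-- the two dual ends of an edge are named by points next to its base point -/
theorem ends {l : ℕ} (e : Ed l) (c : Pl l) (hc : c = ws l e ∨ c = wg l e) :
    ∃ p : Pt, c = pl l p ∧ e.1.1.1 - 1 ≤ p.1 ∧ p.1 ≤ e.1.1.1 ∧ e.1.1.2 - 1 ≤ p.2 ∧ p.2 ≤ e.1.1.2 := by
  rcases hc with rfl | rfl
  · unfold ws; split_ifs
    · exact ⟨_, rfl, by omega⟩
    · exact ⟨_, rfl, by simp⟩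
  · unfold wg; split_ifs
    · exact ⟨_, rfl, by simp⟩
    · exact ⟨_, rfl, by omega⟩

theorem pl_ne {l : ℕ} {p q : Pt} (hq : q ∈ sq (0 : Pt) (l - 1)) (h : p ≠ q) : pl l p ≠ pl l q := by
  unfold pl
  rw [dif_pos hq]
  split_ifs
  · simpa using h
  · simp

/-- base points in the bulk -/
def Bulk (l s : ℕ) (x : Pt) : Prop :=
  (s + 2 : ℤ) ≤ x.1 ∧ x.1 + (s + 3) ≤ l ∧ (s + 2 : ℤ) ≤ x.2 ∧ x.2 + (s + 3) ≤ l

/-- base points on the left side, the bottom side or the right side -/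
def Ring (l : ℕ) (x : Pt) : Prop := x.1 ≤ 0 ∨ x.2 ≤ 0 ∨ (l : ℤ) - 1 ≤ x.1

variable {b m : ℝ} {C : ℕ → ℝ} {l s : ℕ}

theorem G_le (hD : DecStmt) (hb : 0 < b) (hL : Lim b C m) {e e' : Ed l} (he : Bulk l s e.1.1)
    (he' : Ring l e'.1.1) {c c' : Pl l} (hc : c = ws l e ∨ c = wg l e)
    (hc' : c' = ws l e' ∨ c' = wg l e') :
    G (ws l) (wg l) (fun _ => b) c c' ≤ 2 * b * (2 * s + 1) ^ 2 * Real.exp (-(m * s)) := by
  obtain ⟨p, rfl, hp⟩ := ends e c hc
  obtain ⟨p', rfl, hp'⟩ := ends e' c' hc'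
  unfold Bulk at he
  unfold Ring at he'
  have hsub : bl p s ⊆ sq 0 (l - 1) := fun q hq => by
    rw [mem_bl] at hq; rw [mem_sq0]; omega
  refine hD b C m hb hL l s p _ hsub fun q hq => pl_ne (hsub hq) ?_
  rintro rfl
  rw [mem_bl] at hq
  omega

/-- covariance of a bulk gradient and a ring gradient -/
theorem cov_le (hC : CovStmt) (hW : WirStmt) (hD : DecStmt) (hb : 0 < b) (hL : Lim b C m)
    (hl : 1 ≤ l) {e e' : Pt × Pt} (h : e ∈ (xyL b).edI (sq 0 l)) (h' : e' ∈ (xyL b).edI (sq 0 l))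
    (he : Bulk l s e.1) (he' : Ring l e'.1) :
    |Vr ((xyL b).WN l) (dR e) (dR e')| ≤ 4 * b ^ 3 * (2 * s + 1) ^ 2 * Real.exp (-(m * s)) := by
  have hc : Cen ((xyL b).WN l) := (xyL_ok hb).cen_Nr (self_mem_sq _ hl)
  let a : Ed l := ⟨e, h⟩
  let a' : Ed l := ⟨e', h'⟩
  have hne : a ≠ a' := fun hh => by
    have : e = e' := congrArg Subtype.val hh
    subst this
    unfold Bulk at he
    unfold Ring at he'
    omega
  have h1 := hW b l hl fun k => (k a : ℝ) * (k a' : ℝ)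
  have h0 := hW b l hl fun _ => 1
  have hZ : Zs ((xyL b).WN l) = Xy48.cur (ws l) (wg l) (fun _ => b) 0 := by
    rw [Xy48.cur_eq]
    simpa only [mul_one, zero_add, Zs] using h0
  have h2 := hC _ _ (ws l) (wg l) (fun _ => b) (fun _ => hb.le) a a' hne
  have g := fun c c' => G_le (s := s) hD hb hL (e := a) (e' := a') he he' (c := c) (c' := c')
  have g1 := g _ _ (Or.inl rfl) (Or.inl rfl)
  have g2 := g _ _ (Or.inl rfl) (Or.inr rfl)
  have g3 := g _ _ (Or.inr rfl) (Or.inl rfl)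
  have g4 := g _ _ (Or.inr rfl) (Or.inr rfl)
  rw [← h1, ← hZ] at h2
  rw [hc.Vr_eq, Ex_def, abs_div, abs_of_pos hc.wt.pos, div_le_iff₀ hc.wt.pos]
  refine le_trans (le_of_eq rfl) (h2.trans (mul_le_mul_of_nonneg_right ?_ hc.wt.pos.le))
  have hb2 : 0 ≤ b * b / 2 := by positivity
  refine (mul_le_mul_of_nonneg_left (add_le_add (add_le_add (add_le_add g1 g2) g3) g4) hb2).trans
    (le_of_eq ?_)
  ring

/-- indicator of the horizontal edges -/
def hz : Pt × Pt → ℝ := nnF (fun _ => 1) fun _ => 0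

theorem hz_mem (e : Pt × Pt) : 0 ≤ hz e ∧ hz e ≤ 1 := by
  unfold hz nnF; split_ifs <;> simp

theorem hz_eq {e : Pt × Pt} (h : e ∈ (xyL b).edI (sq 0 l)) : co 0 e.2 - co 0 e.1 = hz e := by
  obtain ⟨x, y⟩ := e
  rcases (mem_ed.1 h).1 with h | h <;> dsimp only at h <;> subst h
  · rw [hz, nnF_h]; simp [co]
  · rw [hz, nnF_v]; simp [co]

theorem sum_hz (hb : 0 < b) (n : ℕ) (c : Pt → ℝ) :
    ∑ e ∈ (xyL b).edI (sq 0 (n + 1)), hz e * (c e.2 - c e.1) =
      ∑ j ∈ Ico (0 : ℤ) (n + 1 : ℕ), (c (n, j) - c (0, j)) := by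
  have : (sq (0 : Pt) (n + 1)).filter (fun x => x + (1, 0) ∈ sq (0 : Pt) (n + 1)) =
      Ico (0 : ℤ) n ×ˢ Ico (0 : ℤ) (n + 1 : ℕ) := by
    ext x
    simp only [mem_filter, mem_sq0, mem_product, mem_Ico, Prod.fst_add, Prod.snd_add]
    omega
  rw [hz, (xyL_ok hb).sum_nnF, this, sum_product_right]
  simp only [zero_mul, sum_const_zero, add_zero, one_mul]
  refine sum_congr rfl fun j _ => ?_
  rw [← tele (fun i => c (i, j)) n]
  refine sum_congr rfl fun i _ => ?_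
  simp

/-- a function with small increments on the ring has a small total horizontal increment -/
theorem ring_le (hb : 0 < b) (hl : 1 ≤ l) (c : Pt → ℝ) {ε : ℝ} (hε : 0 ≤ ε)
    (h : ∀ e ∈ (xyL b).edI (sq 0 l), Ring l e.1 → |c e.2 - c e.1| ≤ ε) :
    |∑ e ∈ (xyL b).edI (sq 0 l), hz e * (c e.2 - c e.1)| ≤ 3 * (l : ℝ) ^ 2 * ε := by
  obtain ⟨n, rfl⟩ : ∃ n, l = n + 1 := ⟨l - 1, by omega⟩
  rw [sum_hz hb]
  refine (abs_sum_le_sum_abs _ _).trans ((sum_le_card_nsmul _ _ (3 * (n + 1 : ℝ) * ε)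
    fun j hj => ?_).trans (le_of_eq ?_))
  · rw [mem_Ico] at hj
    obtain ⟨j, rfl⟩ := Int.eq_ofNat_of_zero_le hj.1
    have v : ∀ a : ℤ, a = 0 ∨ a = n → |c (a, j) - c (a, 0)| ≤ j * ε := fun a ha =>
      walk (fun i => c (a, i)) j fun i h0 hi => by
        refine h ((a, i), (a, i + 1)) (mem_ed.2 ⟨Or.inr (by simp), ?_, ?_⟩) ?_
        · rw [mem_sq0]; simp only; omega
        · rw [mem_sq0]; simp only; omega
        · unfold Ring; simp only; omega
    have w : |c (n, 0) - c (0, 0)| ≤ n * ε :=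
      walk (fun i => c (i, 0)) n fun i h0 hi => by
        refine h ((i, 0), (i + 1, 0)) (mem_ed.2 ⟨Or.inl (by simp), ?_, ?_⟩) ?_
        · rw [mem_sq0]; simp only; omega
        · rw [mem_sq0]; simp only; omega
        · unfold Ring; simp only; omega
    have v0 := abs_le.1 (v 0 (Or.inl rfl))
    have v1 := abs_le.1 (v n (Or.inr rfl))
    have w' := abs_le.1 w
    have hj' : (j : ℝ) ≤ n := by exact_mod_cast (by omega : j ≤ n)
    have := mul_le_mul_of_nonneg_right hj' hε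
    rw [abs_le]
    constructor <;> nlinarith
  · simp only [Int.card_Ico, sub_zero, Int.toNat_natCast, nsmul_eq_mul]
    push_cast; ring

theorem bare (hb : 0 < b) (hl : 1 ≤ l) (φ : Pt × Pt → ℝ) :
    Vr ((xyL b).WN l) (Sl46.fl ((xyL b).edI (sq 0 l)) φ) (Sl46.fl ((xyL b).edI (sq 0 l)) φ) ≤
      b * ∑ e ∈ (xyL b).edI (sq 0 l), φ e ^ 2 := by
  rw [← pr_dv_eq_fl, mul_sum]
  exact bare_Vr ((xyL_ok hb).ctr_Nr _ _) ((xyL_ok hb).anch_Nr (self_mem_sq _ hl))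
    (fun s _ => pr_dv _ φ s) (τ := fun _ => b) fun _ _ => ⟨hb, true, rfl⟩

theorem card_ed (B : Finset Pt) (E : Finset (Pt × Pt))
    (h : ∀ e ∈ E, (e.2 = e.1 + (1, 0) ∨ e.2 = e.1 + (0, 1)) ∧ e.1 ∈ B) : E.card ≤ 2 * B.card := by
  have : E ⊆ B.image (fun x => (x, x + (1, 0))) ∪ B.image fun x => (x, x + (0, 1)) := by
    rintro ⟨x, y⟩ he
    obtain ⟨h1 | h1, h2⟩ := h _ he
    · exact mem_union_left _ (mem_image.2 ⟨x, h2, Prod.ext rfl h1.symm⟩)
    · exact mem_union_right _ (mem_image.2 ⟨x, h2, Prod.ext rfl h1.symm⟩)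
  refine (card_le_card this).trans ((card_union_le _ _).trans ?_)
  have := card_image_le (s := B) (f := fun x : Pt => (x, x + (1, 0)))
  have := card_image_le (s := B) (f := fun x : Pt => (x, x + (0, 1)))
  omega

open Classical in
theorem card_bd (l s : ℕ) :
    ((sq (0 : Pt) l).filter fun x => ¬ Bulk l s x).card ≤ 4 * ((s + 2) * l) := by
  have : (sq (0 : Pt) l).filter (fun x => ¬ Bulk l s x) ⊆
      (rc 0 (s + 2) l ∪ rc (l - (s + 2), 0) (s + 2) l) ∪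
        (rc 0 l (s + 2) ∪ rc (0, l - (s + 2)) l (s + 2)) := fun x hx => by
    rw [mem_filter, mem_sq0, Bulk] at hx
    simp only [mem_union, mem_rc, Prod.fst_zero, Prod.snd_zero]
    omega
  refine (card_le_card this).trans ((card_union_le _ _).trans ?_)
  refine (add_le_add (card_union_le _ _) (card_union_le _ _)).trans (le_of_eq ?_)
  simp only [card_rc]
  ring

theorem gN_eq (hb : 0 < b) (l : ℕ) : (xyL b).gN l =
    Vr ((xyL b).WN l) (Sl46.fl ((xyL b).edI (sq 0 l)) hz) (Sl46.fl ((xyL b).edI (sq 0 l)) hz) /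
      (l : ℝ) ^ 2 := by
  have hX : (xyL b).X l (co 0) = b⁻¹ • Sl46.fl ((xyL b).edI (sq 0 l)) hz := by
    rw [Lat.X, Lat.Au, pr_dv_eq_fl, ← Sl46.fl_smul]
    refine Sl46.fl_congr fun e he => ?_
    rw [hz_eq he, div_eq_inv_mul]; rfl
  have he : (xyL b).e0 = b⁻¹ := by rw [Lat.e0, xyL_a, one_div]; rfl
  rw [Lat.gN, Lat.tN, hX, he, Vr_smul_left, Vr_smul_right]
  field_simp

end W37

open W37 in
theorem lowStmt (hC : CovStmt) (hW : WirStmt) (hD : DecStmt) : LowStmt := by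
  classical
  refine ⟨24, fun b C m hb hL l s hl => ?_⟩
  have hc : Cen ((xyL b).WN l) := (xyL_ok hb).cen_Nr (self_mem_sq _ hl)
  have hl0 : (0 : ℝ) < l := by exact_mod_cast hl
  rw [gN_eq hb, div_le_iff₀ (by positivity)]
  set E := (xyL b).edI (sq 0 l) with hE
  set W := (xyL b).WN l with hWd
  set ε := 4 * b ^ 3 * (2 * s + 1) ^ 2 * Real.exp (-(m * s)) with hε
  have hε0 : 0 ≤ ε := by positivity
  have hEc : (E.card : ℝ) ≤ 2 * (l : ℝ) ^ 2 := by
    have := card_ed (sq 0 l) E fun e he => ⟨(mem_ed.1 he).1, (mem_ed.1 he).2.1⟩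
    rw [card_sq] at this
    exact_mod_cast this
  have hBc : ((E.filter fun e => ¬ Bulk l s e.1).card : ℝ) ≤ 16 * ((s + 1) * l) := by
    have h1 := card_ed ((sq (0 : Pt) l).filter fun x => ¬ Bulk l s x)
      (E.filter fun e => ¬ Bulk l s e.1) fun e he => by
        rw [mem_filter] at he
        exact ⟨(mem_ed.1 he.1).1, mem_filter.2 ⟨(mem_ed.1 he.1).2.1, he.2⟩⟩
    have h2 := card_bd l s
    have h3 : (E.filter fun e => ¬ Bulk l s e.1).card ≤ 16 * ((s + 1) * l) := by nlinarith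
    exact_mod_cast h3
  have hsq : ∀ e, hz e ^ 2 ≤ 1 := fun e => pow_le_one₀ (hz_mem e).1 (hz_mem e).2
  -- bulk edges
  have h1 : ∀ e ∈ E, Bulk l s e.1 → |Vr W (dR e) (Sl46.fl E hz)| ≤ 3 * (l : ℝ) ^ 2 * ε := by
    intro e he hB
    have hd : ∀ e' : Pt × Pt, Vr W (dR e) (dR e') =
        Vr W (dR e) (evH e'.2) - Vr W (dR e) (evH e'.1) := fun e' => by
      rw [dR_eq e', hc.se.Vr_sub_right]
    rw [Sl46.fl, hc.se.Vr_sum_right]
    simp only [Vr_smul_right, hd]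
    refine ring_le hb hl (fun P => Vr W (dR e) (evH P)) hε0 fun e' he' hR => ?_
    rw [← hd]
    exact cov_le hC hW hD hb hL hl he he' hB hR
  set ψ : Pt × Pt → ℝ := fun e => if Bulk l s e.1 then hz e else 0 with hψ
  set φ : Pt × Pt → ℝ := fun e => if Bulk l s e.1 then 0 else hz e with hφ
  have hsp : Sl46.fl E hz = Sl46.fl E ψ + Sl46.fl E φ := by
    rw [← Sl46.fl_add]
    refine Sl46.fl_congr fun e _ => ?_
    simp only [hψ, hφ]; split_ifs <;> simp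
  have h2 : Vr W (Sl46.fl E ψ) (Sl46.fl E hz) ≤ 2 * (l : ℝ) ^ 2 * (3 * (l : ℝ) ^ 2 * ε) := by
    rw [Sl46.fl, hc.se.Vr_sum_left]
    refine (sum_le_card_nsmul _ _ (3 * (l : ℝ) ^ 2 * ε) fun e he => ?_).trans ?_
    · rw [Vr_smul_left]
      simp only [hψ]
      split_ifs with hB
      · have := (abs_le.1 (h1 e he hB)).2
        have h0 : 0 ≤ 3 * (l : ℝ) ^ 2 * ε := by positivity
        nlinarith [hz_mem e]
      · rw [zero_mul]; positivity
    · rw [nsmul_eq_mul]; exact mul_le_mul_of_nonneg_right hEc (by positivity)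
  have h3 : Vr W (Sl46.fl E φ) (Sl46.fl E φ) ≤ b * (16 * ((s + 1) * l)) := by
    refine (bare hb hl φ).trans (mul_le_mul_of_nonneg_left (le_trans ?_ hBc) hb.le)
    rw [card_filter, Nat.cast_sum]
    refine sum_le_sum fun e _ => ?_
    simp only [hφ]
    split_ifs <;> simp [hsq]
  have h4 : Vr W (Sl46.fl E hz) (Sl46.fl E hz) ≤ b * (2 * (l : ℝ) ^ 2) := by
    refine (bare hb hl hz).trans (mul_le_mul_of_nonneg_left (le_trans ?_ hEc) hb.le)
    simpa using sum_le_card_nsmul E _ 1 fun e _ => hsq e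
  have h5 : Vr W (Sl46.fl E φ) (Sl46.fl E hz) ≤
      6 * (b * Real.sqrt (((s : ℝ) + 1) / l)) * (l : ℝ) ^ 2 := by
    refine (le_abs_self _).trans (abs_le_of_sq_le_sq ?_ (by positivity))
    refine (hc.wt.Vr_sq_le hc.se _ _).trans
      ((mul_le_mul h3 h4 (hc.wt.Vr_nonneg hc.se _) (by positivity)).trans ?_)
    rw [mul_pow, mul_pow, mul_pow, Real.sq_sqrt (by positivity)]
    have : b * (16 * ((s + 1) * l)) * (b * (2 * (l : ℝ) ^ 2)) =
        32 * (b ^ 2 * ((s + 1) / l) * ((l : ℝ) ^ 2) ^ 2) := by field_simp; norm_num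
    rw [this]
    have : 0 ≤ b ^ 2 * ((s + 1) / l) * ((l : ℝ) ^ 2) ^ 2 := by positivity
    nlinarith
  have h6 : Vr W (Sl46.fl E hz) (Sl46.fl E hz) =
      Vr W (Sl46.fl E ψ) (Sl46.fl E hz) + Vr W (Sl46.fl E φ) (Sl46.fl E hz) := by
    rw [← hc.se.Vr_add_left, ← hsp]
  have h7 : 0 ≤ b * Real.sqrt (((s : ℝ) + 1) / l) * (l : ℝ) ^ 2 := by positivity
  rw [h6]
  refine (add_le_add h2 h5).trans ?_
  rw [hε]
  nlinarith

end Crest.Agent.T145.Mb
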