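import Crest.Agent.T145.MbAll_25
import Crest.Agent.T145.MbLow_37

/-!
# Row 145, module MB (helper25): P4, unconditional
-/

set_option autoImplicit false

namespace Crest.Agent.T145.Mb

/-- **P4** -/
theorem p4 : Top.MassUpStmt := p4_of lowStmt

end Crest.Agent.T145.Mb
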