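import Crest.Agent.T145.MxDef_9
import Crest.Agent.T145.MxC_31
import Crest.Agent.T145.BrB_73
import Crest.Agent.T145.RJa_57

/-!
# Row 145, module Mx: the bumps of the tiles (CEL) and the tiles hit by a long cluster (HIT) (helper53)
-/

set_option autoImplicit false

namespace Crest.Agent.T145.Mx

open Finset

namespace C53

variable {Λ : Lat}

theorem mem_nb {ρ r : ℕ} {i x : Pt} : x ∈ nb ρ i r ↔
    (ρ * i.1 - r ≤ x.1 ∧ x.1 < ρ * i.1 + ρ + r) ∧ ρ * i.2 - r ≤ x.2 ∧ x.2 < ρ * i.2 + ρ + r := by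
  rw [nb, mem_sq]; push_cast; omega

theorem nb_mono (ρ : ℕ) (i : Pt) {r r' : ℕ} (h : r ≤ r') : nb ρ i r ⊆ nb ρ i r' := fun x => by
  rw [mem_nb, mem_nb]; omega

theorem card_nb (ρ : ℕ) (i : Pt) (r : ℕ) : #(nb ρ i r) = (ρ + 2 * r) ^ 2 := card_sq _ _

theorem mem_nb_tileOf {ρ : ℕ} (hρ : 0 < ρ) (z : Pt) : z ∈ nb ρ (tileOf 0 ρ z) 0 := by
  have := mem_sq.1 ((mem_tile_iff (a := 0) (x := z) hρ).2 rfl)
  simp only [tile, Prod.fst_zero, Prod.snd_zero, zero_add] at this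
  rw [mem_nb]; omega

/-- `A u` at a point of the domain, as a sum over all steps -/
theorem Au_eq (h : Λ.Ok) {B : Finset Pt} (u : Pt → ℝ) {z : Pt} (hz : z ∈ B) :
    Λ.Au B u z = (∑ y ∈ Λ.J, ind (z + y ∈ B) * (u z - u (z + y))) / Λ.τ := by
  rw [Lat.Au, RJ57.dv_edI, h.sum_J, sum_div]
  refine sum_congr rfl fun y _ => ?_
  rw [RJ57.gt, RJ57.gt, sub_add_cancel, ind_congr (and_iff_left hz), ind_congr (and_iff_right hz),
    ← sub_eq_add_neg]
  ring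

/-- second order bound on `A u`, also at the boundary if the first order term vanishes -/
theorem abs_Au_le (h : Λ.Ok) {B : Finset Pt} {u : Pt → ℝ} {K L : ℝ} (hu : Sm2 u K L) {z : Pt}
    (hz : z ∈ B) (h0 : ∀ i, df i u z = 0 ∨ ∑ y ∈ Λ.J, ind (z + y ∈ B) * co i y = 0) :
    |Λ.Au B u z| ≤ #Λ.J * (K / L ^ 2 * (2 * Λ.rg) ^ 2) / Λ.τ := by
  have hc : 0 ≤ K / L ^ 2 := (abs_nonneg _).trans (hu.2 0 0 0)
  have e : ∑ y ∈ Λ.J, ind (z + y ∈ B) * (u z - u (z + y)) =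
      -∑ y ∈ Λ.J, ind (z + y ∈ B) * (u (z + y) - u z - ∑ i, df i u z * co i y) -
        ∑ i, df i u z * ∑ y ∈ Λ.J, ind (z + y ∈ B) * co i y := by
    simp only [Fin.sum_univ_two, mul_sum, ← sum_neg_distrib, ← sum_add_distrib, ← sum_sub_distrib]
    exact sum_congr rfl fun y _ => by ring
  rw [Au_eq h u hz, e, sum_eq_zero (s := univ) fun i _ => mul_eq_zero.2 (h0 i), sub_zero, abs_div,
    abs_neg, abs_of_pos h.pos]
  refine div_le_div_of_nonneg_right ((abs_sum_le_sum_abs _ _).trans ?_) h.pos.le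
  rw [← nsmul_eq_mul]
  refine sum_le_card_nsmul _ _ _ fun y hy => ?_
  have h1 := hu.taylor z (z + y)
  have h2 := Lat.le_rg hy
  have h3 : ∑ i, |co i y| ≤ 2 * Λ.rg := by
    have a1 : |(y.1 : ℝ)| ≤ Λ.rg := by exact_mod_cast h2.1
    have a2 : |(y.2 : ℝ)| ≤ Λ.rg := by exact_mod_cast h2.2
    simp only [Fin.sum_univ_two, co, Matrix.cons_val_zero, Matrix.cons_val_one]
    linarith
  rw [add_sub_cancel_left] at h1
  rw [abs_mul]
  refine (mul_le_of_le_one_left (abs_nonneg _) (abs_ind_le _)).trans (h1.trans ?_)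
  have : 0 ≤ ∑ i, |co i y| := by positivity
  gcongr

theorem sum_sym0 (h : Λ.Ok) {L : ℕ} {z : Pt} (h1 : (Λ.rg : ℤ) ≤ z.1) (h2 : z.1 + Λ.rg < L) :
    ∑ y ∈ Λ.J, ind (z + y ∈ sq 0 L) * co 0 y = 0 := by
  refine sum_involution (fun y _ => (-y.1, y.2)) (fun y hy => ?_) (fun y _ hy e => hy ?_)
    (fun y hy => h.fl1 hy) fun y _ => by simp
  · have := abs_le.1 (Lat.le_rg hy).1
    rw [ind_congr (p := z + (-y.1, y.2) ∈ sq 0 L) (q := z + y ∈ sq 0 L) (by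
      simp only [mem_sq0, Prod.fst_add, Prod.snd_add]; omega)]
    simp [co]
  · have : y.1 = 0 := by have := congrArg Prod.fst e; simp only at this; omega
    simp [co, this]

theorem sum_sym1 (h : Λ.Ok) {L : ℕ} {z : Pt} (h1 : (Λ.rg : ℤ) ≤ z.2) (h2 : z.2 + Λ.rg < L) :
    ∑ y ∈ Λ.J, ind (z + y ∈ sq 0 L) * co 1 y = 0 := by
  refine sum_involution (fun y _ => (y.1, -y.2)) (fun y hy => ?_) (fun y _ hy e => hy ?_)
    (fun y hy => h.fl2 hy) fun y _ => by simp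
  · have := abs_le.1 (Lat.le_rg hy).2
    rw [ind_congr (p := z + (y.1, -y.2) ∈ sq 0 L) (q := z + y ∈ sq 0 L) (by
      simp only [mem_sq0, Prod.fst_add, Prod.snd_add]; omega)]
    simp [co]
  · have : y.2 = 0 := by have := congrArg Prod.snd e; simp only at this; omega
    simp [co, this]

/-- the one-dimensional profile -/
noncomputable def p1 (ρ : ℕ) (i t : ℤ) : ℝ :=
  plat ((ρ * i - ρ / 4) / (ρ / 8)) ((ρ * (i + 1) + ρ / 8 - 1) / (ρ / 8)) (t / (ρ / 8))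

theorem ub_eq (ρ : ℕ) (i x : Pt) : ub ρ i x = p1 ρ i.1 x.1 * p1 ρ i.2 x.2 := rfl

theorem p1_one {k : ℕ} (hk : 0 < k) {i t : ℤ} (h1 : (8 * k : ℕ) * i - k ≤ t)
    (h2 : t < (8 * k : ℕ) * i + (8 * k : ℕ) + k) : p1 (8 * k) i t = 1 := by
  have a0 : (0 : ℝ) < k := by exact_mod_cast hk
  have a1 : (8 * k : ℝ) * i - k ≤ t := by exact_mod_cast h1
  have a2 : (t : ℝ) + 1 ≤ 8 * k * i + 8 * k + k := by exact_mod_cast h2
  refine plat_one ?_ ?_ <;> push_cast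
  · rw [div_add_one (by positivity)]; gcongr; linarith
  · gcongr; linarith

theorem p1_zero {k : ℕ} (hk : 0 < k) {i t : ℤ} (h : t ≤ (8 * k : ℕ) * i - 2 * k ∨
    (8 * k : ℕ) * i + (8 * k : ℕ) + 2 * k ≤ t + 1) : p1 (8 * k) i t = 0 := by
  have a0 : (1 : ℝ) ≤ k := by exact_mod_cast hk
  by_contra h0
  have h1 := plat_ne (div_le_div_of_nonneg_right (by push_cast; linarith) (by positivity)) h0
  push_cast at h1
  rw [div_add_one (by positivity), div_lt_div_iff_of_pos_right (by positivity),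
    div_lt_div_iff_of_pos_right (by positivity)] at h1
  rcases h with h | h
  · have : (t : ℝ) ≤ 8 * k * i - 2 * k := by exact_mod_cast h
    linarith [h1.1]
  · have : (8 * k : ℝ) * i + 8 * k + 2 * k ≤ t + 1 := by exact_mod_cast h
    linarith [h1.2]

/-- the profile is constant near the sides of the box -/
theorem p1_side {k P g : ℕ} (hk : 0 < k) (hg : g ≤ k) {i t : ℤ} (hi : 0 ≤ i) (hP : i < P)
    (h0 : 0 ≤ t) (hL : t < (P * (8 * k) : ℕ)) (h : t < g ∨ (P * (8 * k) : ℕ) ≤ t + g) :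
    p1 (8 * k) i (t + 1) = p1 (8 * k) i t := by
  have hk' : (0 : ℤ) ≤ (8 * k : ℕ) := by positivity
  rcases h with h | h
  · rcases hi.eq_or_lt with rfl | hi
    · rw [p1_one hk (by omega) (by omega), p1_one hk (by omega) (by omega)]
    · have := mul_le_mul_of_nonneg_left (show 1 ≤ i from hi) hk'
      rw [p1_zero hk (by omega), p1_zero hk (by omega)]
  · rcases (show i + 1 ≤ P from hP).eq_or_lt with e | hP
    · have : ((P * (8 * k) : ℕ) : ℤ) = (8 * k : ℕ) * i + (8 * k : ℕ) := by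
        rw [Nat.cast_mul P, ← e]; ring
      rw [p1_one hk (by omega) (by omega), p1_one hk (by omega) (by omega)]
    · have : ((8 * k : ℕ) : ℤ) * i + 2 * (8 * k : ℕ) ≤ (P * (8 * k) : ℕ) := by
        have := mul_le_mul_of_nonneg_left (show i + 2 ≤ P by omega) hk'
        rw [Nat.cast_mul P]; linarith
      rw [p1_zero hk (by omega), p1_zero hk (by omega)]

theorem ub_one {k : ℕ} (hk : 0 < k) {i x : Pt} (hx : x ∈ nb (8 * k) i k) : ub (8 * k) i x = 1 := by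
  rw [mem_nb] at hx
  rw [ub_eq, p1_one hk hx.1.1 hx.1.2, p1_one hk hx.2.1 hx.2.2, mul_one]

theorem ub_zero {k : ℕ} (hk : 0 < k) {i x : Pt} (hx : x ∉ nb (8 * k) i (2 * k)) :
    ub (8 * k) i x = 0 := by
  rw [mem_nb] at hx
  rw [ub_eq, mul_eq_zero]
  by_cases h : (8 * k : ℕ) * i.1 - (2 * k : ℕ) ≤ x.1 ∧ x.1 < (8 * k : ℕ) * i.1 + (8 * k : ℕ) + (2 * k : ℕ)
  · exact Or.inr (p1_zero hk (by omega))
  · exact Or.inl (p1_zero hk (by omega))

theorem ub_sm2 {ρ : ℕ} (hρ : 0 < ρ) (i : Pt) : Sm2 (ub ρ i) (576 * 8 ^ 2) ρ :=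
  bump_sm2' _ _ _ _ (by positivity) (by positivity) (by norm_num) (by linarith)

theorem ub_nonneg {ρ : ℕ} (hρ : 0 < ρ) (i x : Pt) : 0 ≤ ub ρ i x := by
  have : (1 : ℝ) ≤ ρ := by exact_mod_cast hρ
  exact bump_nonneg (by positivity) (by linarith) (by linarith) x

theorem Au_ub_zero (h : Λ.Ok) {k : ℕ} (hk : 0 < k) (hg : Λ.rg ≤ k) (B : Finset Pt) {i x : Pt}
    (hx : ¬ (x ∈ nb (8 * k) i (4 * k) ∧ x ∈ B)) : Λ.Au B (ub (8 * k) i) x = 0 := by
  by_cases hB : x ∈ B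
  · have hx' : x ∉ nb (8 * k) i (4 * k) := fun h => hx ⟨h, hB⟩
    rw [Au_eq h _ hB, sum_eq_zero fun y hy => ?_, zero_div]
    have h1 := Lat.le_rg hy
    rw [abs_le, abs_le] at h1
    rw [ub_zero hk fun h => hx' (nb_mono _ _ (by omega) h), ub_zero hk fun h => hx' ?_, sub_zero,
      mul_zero]
    rw [mem_nb] at h ⊢
    simp only [Prod.fst_add, Prod.snd_add] at h
    omega
  · exact Λ.sup_Au _ _ x hB

theorem abs_Au_ub (h : Λ.Ok) {k P : ℕ} (hk : 0 < k) (hg : Λ.rg ≤ k) {i x : Pt} (hi : i ∈ sq 0 P)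
    (hx : x ∈ sq 0 (P * (8 * k))) : |Λ.Au (sq 0 (P * (8 * k))) (ub (8 * k) i) x| ≤
      #Λ.J * (576 * 8 ^ 2 / ((8 * k : ℕ) : ℝ) ^ 2 * (2 * Λ.rg) ^ 2) / Λ.τ := by
  refine abs_Au_le h (ub_sm2 (by omega) i) hx (Fin.forall_fin_two.2 ⟨?_, ?_⟩) <;>
    rw [mem_sq0] at hi hx
  · by_cases hb : (Λ.rg : ℤ) ≤ x.1 ∧ x.1 + Λ.rg < (P * (8 * k) : ℕ)
    · exact Or.inr (sum_sym0 h hb.1 hb.2)
    · refine Or.inl ?_
      have := p1_side hk hg hi.1 hi.2.1 hx.1 hx.2.1 (by omega)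
      simp [df, ev, ub_eq, this]
  · by_cases hb : (Λ.rg : ℤ) ≤ x.2 ∧ x.2 + Λ.rg < (P * (8 * k) : ℕ)
    · exact Or.inr (sum_sym1 h hb.1 hb.2)
    · refine Or.inl ?_
      have := p1_side hk hg hi.2.2.1 hi.2.2.2 hx.2.2.1 hx.2.2.2 (by omega)
      simp [df, ev, ub_eq, this]

/-- tiles of one colour are far apart -/
theorem nb_disjoint {ρ r r' : ℕ} (h : r + r' ≤ ρ) {i j : Pt} (hij : i ≠ j) (hc : cls i = cls j) :
    Disjoint (nb ρ i r) (nb ρ j r') := by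
  have key : ∀ u v x : ℤ, u % 2 = v % 2 → ρ * u - r ≤ x → x < ρ * u + ρ + r → ρ * v - r' ≤ x →
      x < ρ * v + ρ + r' → u = v := fun u v x h0 h1 h2 h3 h4 => by
    by_contra hne
    rcases (show u + 2 ≤ v ∨ v + 2 ≤ u by omega) with h5 | h5 <;>
      have h6 := mul_le_mul_of_nonneg_left h5 (Int.natCast_nonneg ρ) <;>
      rw [mul_add] at h6 <;> omega
  refine disjoint_left.2 fun x hi hj => hij ?_
  rw [mem_nb] at hi hj
  exact Prod.ext (key _ _ _ (congrArg Prod.fst hc) hi.1.1 hi.1.2 hj.1.1 hj.1.2)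
    (key _ _ _ (congrArg Prod.snd hc) hi.2.1 hi.2.2 hj.2.1 hj.2.2)

/-- first exit from a set along a bond path -/
theorem exit {V : Type*} {ω : Finset (V × V)} {p : V → Prop} {x y : V} (h : Conn ω x y) (hx : p x)
    (hy : ¬ p y) : ∃ u v, Conn ω x v ∧ ((u, v) ∈ ω ∨ (v, u) ∈ ω) ∧ p u ∧ ¬ p v := by
  induction h with
  | refl => exact absurd hx hy
  | @tail a b hxa hab ih =>
    by_cases ha : p a
    · exact ⟨a, b, hxa.tail hab, hab, ha, hy⟩
    · exact ih ha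

theorem lip {d : Pt → ℝ} (hd : ∀ z z', |d z - d z'| ≤ max |co 0 (z - z')| |co 1 (z - z')|)
    {z z' : Pt} {c : ℤ} (h1 : |z.1 - z'.1| ≤ c) (h2 : |z.2 - z'.2| ≤ c) : |d z - d z'| ≤ c := by
  refine (hd z z').trans (max_le ?_ ?_)
  · simpa [co] using (by exact_mod_cast h1 : |(z.1 : ℝ) - z'.1| ≤ c)
  · simpa [co] using (by exact_mod_cast h2 : |(z.2 : ℝ) - z'.2| ≤ c)

end C53

open C53

theorem celStmt : CelStmt := fun F => by
  obtain ⟨T, hT, hF⟩ := F.exists_bound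
  obtain ⟨g, hg⟩ := exists_nat_ge T
  refine ⟨4 * (576 * 8 ^ 2 * 4 * T ^ 4), 8 * (g + 1), fun Λ hΛ ρ P hρ h8 i hi => ?_⟩
  obtain ⟨k, rfl⟩ := h8
  obtain ⟨-, b1, -, -, -, b2, b3, -⟩ := hF Λ hΛ
  have h := hΛ.ok
  have hk : 0 < k := by omega
  have hk' : (0 : ℝ) < (8 * k : ℕ) := by positivity
  have hr : Λ.rg ≤ k := by
    have : Λ.rg ≤ g := by exact_mod_cast b2.trans hg
    omega
  have hT4 : 1 ≤ T ^ 4 := one_le_pow₀ hT
  have hA : ∀ x, |Λ.Au (sq 0 (P * (8 * k))) (ub (8 * k) i) x| ≤ 576 * 8 ^ 2 * 4 * T ^ 4 /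
      ((8 * k : ℕ) : ℝ) ^ 2 * ind (x ∈ nb (8 * k) i (4 * k) ∧ x ∈ sq 0 (P * (8 * k))) := fun x => by
    by_cases hx : x ∈ nb (8 * k) i (4 * k) ∧ x ∈ sq 0 (P * (8 * k))
    · rw [ind_pos hx, mul_one]
      refine (abs_Au_ub h hk hr hi hx.2).trans ?_
      rw [div_eq_mul_one_div _ Λ.τ]
      have := h.pos
      calc _ ≤ T * (576 * 8 ^ 2 / ((8 * k : ℕ) : ℝ) ^ 2 * (2 * T) ^ 2) * T := by gcongr
        _ = _ := by ring
    · rw [Au_ub_zero h hk hr _ hx, ind_neg hx, abs_zero, mul_zero]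
  rw [show 8 * k / 8 = k by omega, show 8 * k / 4 = 2 * k by omega, show 8 * k / 2 = 4 * k by omega]
  refine ⟨(ub_sm2 (by omega) i).mono hk' (by linarith), fun x => ⟨ub_nonneg (by omega) i x, bump_le_one x⟩,
    fun x => ub_one hk, fun x => ub_zero hk, fun x => (hA x).trans ?_, ?_, fun j _ hij hc => ⟨?_, ?_⟩⟩
  · exact mul_le_mul_of_nonneg_right (div_le_div_of_nonneg_right (by linarith) (by positivity))
      (ind_nonneg _)
  · rw [← Lat.ip_Au, ip]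
    calc _ ≤ ∑ x ∈ sq 0 (P * (8 * k)), 576 * 8 ^ 2 * 4 * T ^ 4 / ((8 * k : ℕ) : ℝ) ^ 2 *
          ind (x ∈ nb (8 * k) i (4 * k)) := sum_le_sum fun x hx => by
          refine (le_abs_self _).trans ?_
          rw [abs_mul, ← ind_congr (and_iff_left hx)]
          exact (mul_le_of_le_one_right (abs_nonneg _) (abs_bump_le x)).trans (hA x)
      _ ≤ 576 * 8 ^ 2 * 4 * T ^ 4 / ((8 * k : ℕ) : ℝ) ^ 2 * #(nb (8 * k) i (4 * k)) := by
          rw [← mul_sum]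
          gcongr
          simp only [ind_eq_ite, sum_boole, Nat.cast_le]
          exact card_le_card fun x hx => (mem_filter.1 hx).2
      _ = _ := by rw [card_nb]; push_cast; field_simp; ring
  · rw [← Lat.ip_Au]
    refine sum_eq_zero fun x _ => ?_
    by_cases hx : x ∈ nb (8 * k) i (4 * k)
    · rw [ub_zero hk (disjoint_left.1 (nb_disjoint (by omega) hij hc) hx), mul_zero]
    · rw [Au_ub_zero h hk hr _ fun h => hx h.1, zero_mul]
  · refine sum_eq_zero fun x _ => ?_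
    by_cases hx : x ∈ nb (8 * k) i (2 * k)
    · rw [ub_zero hk (disjoint_left.1 (nb_disjoint (by omega) hij hc) hx), mul_zero]
    · rw [ub_zero hk hx, zero_mul]

theorem hitStmt : HitStmt := fun Λ ρ P n d d₀ ω x y K h hr hd hω hxy hx hy hK => by
  have h1 := h.one_le_rg
  have hρ : 0 < ρ := by omega
  have hρ' : (2 : ℝ) ≤ ρ := by exact_mod_cast (by omega : 2 ≤ ρ)
  have hr' : (Λ.rg : ℝ) ≤ ρ / 2 := (Nat.cast_le.2 hr).trans Nat.cast_div_le
  have he : ∀ e ∈ ω, (|e.2.1 - e.1.1| ≤ Λ.rg ∧ |e.2.2 - e.1.2| ≤ Λ.rg) ∧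
      e.1 ∈ sq 0 (P * ρ) ∧ e.2 ∈ sq 0 (P * ρ) := fun e he =>
    ⟨Lat.le_rg (Lat.mem_Jp.1 (Lat.mem_edI.1 (hω he)).1).1, (Lat.mem_edI.1 (hω he)).2⟩
  have hz : ∀ k ∈ range (4 * n), ∃ z, Conn ω x z ∧ d₀ + 2 * ρ * (k + 1) ≤ d z ∧
      d z < d₀ + 2 * ρ * (k + 1) + Λ.rg ∧ z ∈ sq 0 (P * ρ) := fun k hk => by
    have hk' : (k : ℝ) ≤ 4 * n := by exact_mod_cast (mem_range.1 hk).le
    have : (0 : ℝ) < 2 * ρ * (k + 1) := by positivity
    obtain ⟨z, a1, -, a2, a3, e, a4, a5⟩ := Mx31.conn_mid (t := d₀ + 2 * ρ * (k + 1))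
      (fun e h => by
        rw [abs_sub_comm]; exact_mod_cast lip hd (he e h).1.1 (he e h).1.2) hxy (by linarith)
      (le_trans (by gcongr) hy)
    exact ⟨z, a1, a2, a3, a5.elim (fun e' => e' ▸ (he e a4).2.1) fun e' => e' ▸ (he e a4).2.2⟩
  choose! z z1 z2 z3 z4 using hz
  have hn : ∀ w, ∀ w' ∈ nb ρ (tileOf 0 ρ w) (ρ / 2), |d w' - d w| ≤ ρ + ρ / 2 - 1 := fun w w' hw => by
    have a1 := mem_nb_tileOf hρ w
    rw [mem_nb] at a1 hw
    have a2 := lip hd (z := w') (z' := w) (c := ρ + (ρ / 2 : ℕ) - 1) (abs_le.2 ⟨by omega, by omega⟩)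
      (abs_le.2 ⟨by omega, by omega⟩)
    have a3 : ((ρ / 2 : ℕ) : ℝ) ≤ ρ / 2 := Nat.cast_div_le
    rw [Int.cast_sub, Int.cast_add, Int.cast_natCast, Int.cast_natCast, Int.cast_one] at a2
    linarith
  have hinj : Set.InjOn (fun k => tileOf 0 ρ (z k)) (range (4 * n) : Finset ℕ) := by
    have key : ∀ k ∈ range (4 * n), ∀ k' ∈ range (4 * n), tileOf 0 ρ (z k) = tileOf 0 ρ (z k') →
        k' ≤ k := fun k hk k' hk' e => by
      by_contra hlt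
      have a1 : (k : ℝ) + 1 ≤ k' := by exact_mod_cast not_le.1 hlt
      have a2 := (abs_le.1 (hn (z k) (z k') (e ▸ nb_mono _ _ (Nat.zero_le _) (mem_nb_tileOf hρ _)))).2
      have a3 := mul_le_mul_of_nonneg_left a1 (by positivity : (0 : ℝ) ≤ 2 * ρ)
      linarith [z2 k' hk', z3 k hk]
    exact fun k hk k' hk' e => le_antisymm (key k' hk' k hk e.symm) (key k hk k' hk' e)
  obtain ⟨c, hc, hcard⟩ := exists_le_card_fiber_of_mul_le_card_of_maps_to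
    (s := (range (4 * n)).image fun k => tileOf 0 ρ (z k)) (t := sq 0 2) (f := cls) (n := n)
    (fun i _ => by rw [mem_sq0, cls]; simp only; omega) ⟨0, self_mem_sq _ two_pos⟩
    (by rw [card_image_of_injOn hinj, card_range, card_sq]; omega)
  refine ⟨c, hc, _, fun i hi => ?_, hcard, fun i hi => ?_⟩ <;>
    obtain ⟨k, hk, rfl⟩ := mem_image.1 (mem_filter.1 hi).1
  · exact (tileOf_mem hρ).2 (z4 k hk)
  have hk' : (k : ℝ) + 1 ≤ 4 * n := by exact_mod_cast mem_range.1 hk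
  have a0 : (0 : ℝ) ≤ ρ * k := by positivity
  have a1 := mul_le_mul_of_nonneg_left hk' (by positivity : (0 : ℝ) ≤ 2 * ρ)
  have hw : ∀ w ∈ nb ρ (tileOf 0 ρ (z k)) (ρ / 2), d₀ < d w ∧ d w ≤ d₀ + 2 * ρ * (4 * n + 1) :=
    fun w hw => by
      have := abs_le.1 (hn _ w hw)
      constructor <;> linarith [z2 k hk, z3 k hk]
  refine ⟨(mem_filter.1 hi).2, fun r hr => ?_, fun w h => ⟨(hw w h).1.le, (hw w h).2⟩⟩
  obtain ⟨u, v, b1, b2, b3, b4⟩ := exit (p := (· ∈ nb ρ (tileOf 0 ρ (z k)) r)) (z1 k hk).symm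
    (nb_mono _ _ (Nat.zero_le _) (mem_nb_tileOf hρ _))
    fun h => (hw x (nb_mono _ _ (by omega) h)).1.not_ge hx
  refine ⟨v, hK v ((z1 k hk).trans b1), b2.elim (fun h => (he _ h).2.2) fun h => (he _ h).2.1, ?_, b4⟩
  rw [mem_nb] at b3 ⊢
  rcases b2 with b2 | b2 <;> have := (he _ b2).1 <;> simp only [abs_le] at this <;> push_cast <;> omega

end Crest.Agent.T145.Mx
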