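import Crest.Agent.T145.Def_97

/-!
# Row 145, T0 toolbox (helper7): `detStmt : DetStmt` (Hubbard-Stratonovich)
-/

set_option autoImplicit false

namespace Crest.Agent.T145

open Finset MeasureTheory Matrix

namespace Det7

variable {ι : Type} [Fintype ι]

/-- the standard Gaussian density, not normalised -/
noncomputable def g (z : ι → ℝ) : ℝ := Real.exp (-(z ⬝ᵥ z) / 2)

theorem g_pos (z : ι → ℝ) : 0 < g z := Real.exp_pos _

theorem cexp_eq (x z : ι → ℝ) :
    (Complex.exp (-∑ i, (1 / 2 : ℂ) * (z i : ℂ) ^ 2 + ∑ i, ((x i : ℂ) * Complex.I) * z i)).re =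
      g z * Real.cos (z ⬝ᵥ x) := by
  have h : -∑ i, (1 / 2 : ℂ) * (z i : ℂ) ^ 2 + ∑ i, ((x i : ℂ) * Complex.I) * z i =
      ((-(z ⬝ᵥ z) / 2 : ℝ) : ℂ) + ((z ⬝ᵥ x : ℝ) : ℂ) * Complex.I := by
    simp only [dotProduct]
    push_cast
    rw [Finset.sum_mul, neg_div, Finset.sum_div]
    congr 1
    · congr 1
      exact Finset.sum_congr rfl fun i _ => by ring
    · exact Finset.sum_congr rfl fun i _ => by ring
  rw [h, Complex.exp_re]
  simp [g]

theorem int_cos (x : ι → ℝ) : Integrable fun z : ι → ℝ => g z * Real.cos (z ⬝ᵥ x) := by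
  have h := (GaussianFourier.integrable_cexp_neg_sum_mul_add (b := fun _ : ι => (1 / 2 : ℂ))
    (fun _ => by norm_num) fun i => (x i : ℂ) * Complex.I).re
  simpa only [RCLike.re_to_complex, cexp_eq] using h

theorem int_g : Integrable fun z : ι → ℝ => g z := by
  simpa using int_cos (0 : ι → ℝ)

theorem integral_gcos' (x : ι → ℝ) : ∫ z : ι → ℝ, g z * Real.cos (z ⬝ᵥ x) =
    (∏ _i : ι, ((Real.pi : ℂ) / (1 / 2)) ^ (1 / 2 : ℂ)).re * Real.exp (-(x ⬝ᵥ x) / 2) := by
  have h := integral_re (GaussianFourier.integrable_cexp_neg_sum_mul_add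
    (b := fun _ : ι => (1 / 2 : ℂ)) (fun _ => by norm_num) fun i => (x i : ℂ) * Complex.I)
  simp only [RCLike.re_to_complex, cexp_eq] at h
  rw [h, GaussianFourier.integral_cexp_neg_sum_mul_add (fun _ => by norm_num),
    Finset.prod_mul_distrib, ← Complex.exp_sum]
  have h2 : ∑ i, ((x i : ℂ) * Complex.I) ^ 2 / (4 * (1 / 2)) = ((-(x ⬝ᵥ x) / 2 : ℝ) : ℂ) := by
    simp only [dotProduct]
    push_cast
    rw [neg_div, Finset.sum_div, ← Finset.sum_neg_distrib]
    refine Finset.sum_congr rfl fun i _ => ?_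
    rw [mul_pow, Complex.I_sq]; ring
  rw [h2, ← Complex.ofReal_exp, Complex.re_mul_ofReal]

/-- the normalisation -/
noncomputable def K (ι : Type) [Fintype ι] : ℝ := ∫ z : ι → ℝ, g z

theorem K_pos : 0 < K ι := integral_exp_pos int_g

theorem integral_gcos (x : ι → ℝ) : ∫ z : ι → ℝ, g z * Real.cos (z ⬝ᵥ x) =
    K ι * Real.exp (-(x ⬝ᵥ x) / 2) := by
  have h := integral_gcos' (0 : ι → ℝ)
  simp only [dotProduct_zero, Real.cos_zero, mul_one, neg_zero, zero_div, Real.exp_zero] at h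
  rw [integral_gcos', K, h]

theorem g_exp (x z : ι → ℝ) : g z * Real.exp (z ⬝ᵥ x) = Real.exp (x ⬝ᵥ x / 2) * g (z - x) := by
  unfold g
  rw [← Real.exp_add, ← Real.exp_add]
  congr 1
  simp only [sub_dotProduct, dotProduct_sub, dotProduct_comm x z]
  ring

theorem int_exp (x : ι → ℝ) : Integrable fun z : ι → ℝ => g z * Real.exp (z ⬝ᵥ x) := by
  simp only [g_exp]
  exact (int_g.comp_sub_right x).const_mul _

theorem integral_gexp (x : ι → ℝ) : ∫ z : ι → ℝ, g z * Real.exp (z ⬝ᵥ x) =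
    K ι * Real.exp (x ⬝ᵥ x / 2) := by
  simp only [g_exp]
  rw [integral_const_mul, integral_sub_right_eq_self (fun z => g z) x, mul_comm, K]

variable [DecidableEq ι]

open scoped MatrixOrder in
/-- the Gaussian integral of a positive definite form -/
theorem gauss {A : Matrix ι ι ℝ} (hA : A.PosDef) :
    Integrable (fun z : ι → ℝ => Real.exp (-(z ⬝ᵥ A.mulVec z) / 2)) ∧
      ∫ z : ι → ℝ, Real.exp (-(z ⬝ᵥ A.mulVec z) / 2) = K ι / Real.sqrt A.det := by
  obtain ⟨B, rfl⟩ := CStarAlgebra.nonneg_iff_eq_star_mul_self.mp hA.posSemidef.nonneg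
  have hd : (star B * B).det = B.det ^ 2 := by
    rw [det_mul, star_eq_conjTranspose, det_conjTranspose, star_trivial, sq]
  have hB : B.det ≠ 0 := by
    intro h
    have := hA.det_pos
    rw [hd, h] at this
    simp at this
  have he : ∀ z : ι → ℝ, Real.exp (-(z ⬝ᵥ (star B * B).mulVec z) / 2) = g (toLin' B z) := by
    intro z
    unfold g
    rw [toLin'_apply, ← mulVec_mulVec, dotProduct_mulVec, star_eq_conjTranspose,
      conjTranspose_eq_transpose_of_trivial, vecMul_transpose]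
  have hm := Real.map_matrix_volume_pi_eq_smul_volume_pi hB
  have hc : Continuous (g : (ι → ℝ) → ℝ) := by unfold g; fun_prop
  have hl : Measurable (toLin' B) := (LinearMap.continuous_on_pi _).measurable
  simp only [he]
  constructor
  · have h1 : Integrable g (Measure.map (toLin' B) volume) := by
      rw [hm]; exact int_g.smul_measure ENNReal.ofReal_ne_top
    exact (integrable_map_measure hc.aestronglyMeasurable hl.aemeasurable).1 h1
  · rw [← integral_map hl.aemeasurable hc.aestronglyMeasurable, hm, integral_smul_measure,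
      ENNReal.toReal_ofReal (abs_nonneg _), hd, Real.sqrt_sq_eq_abs, abs_inv, smul_eq_mul,
      div_eq_inv_mul, K]

theorem g_mul (C : Matrix ι ι ℝ) (z : ι → ℝ) :
    Real.exp (-(z ⬝ᵥ (1 + C).mulVec z) / 2) = g z * Real.exp (-(z ⬝ᵥ C.mulVec z) / 2) := by
  unfold g
  rw [← Real.exp_add, add_mulVec, one_mulVec, dotProduct_add]
  congr 1; ring

theorem g_mul' (C : Matrix ι ι ℝ) (z : ι → ℝ) :
    Real.exp (-(z ⬝ᵥ (1 - C).mulVec z) / 2) = g z * Real.exp ((z ⬝ᵥ C.mulVec z) / 2) := by
  unfold g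
  rw [← Real.exp_add, sub_mulVec, one_mulVec, dotProduct_sub]
  congr 1; ring

omit [DecidableEq ι] in
theorem lin_apply {L : Type} [AddCommGroup L] (ℓ : ι → L →+ ℝ) (z : ι → ℝ) (s : L) :
    (∑ j, z j • ℓ j) s = z ⬝ᵥ fun j => ℓ j s := by
  rw [AddMonoidHom.finsetSum_apply]; rfl

omit [DecidableEq ι] in
theorem gq_eq {L : Type} [AddCommGroup L] (ℓ : ι → L →+ ℝ) (s : L) :
    gq univ ℓ s = Real.exp (-((fun j => ℓ j s) ⬝ᵥ fun j => ℓ j s) / 2) := by
  simp only [gq, dotProduct, sq]

end Det7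

open Det7 in
/-- determinant bounds for Gaussian observables -/
theorem detStmt : DetStmt := by
  intro L ι _ _ _ W ℓ C hW hC
  have hK := K_pos (ι := ι)
  have hZ := hW.pos
  have hE : ∀ F : L → ℝ, Ex W F = (∑' s, W s * F s) / Zs W := fun _ => rfl
  have hb : ∀ F : L → ℝ, (∀ s, |F s| ≤ 1) → Summable fun s => W s * F s := fun F hF =>
    Summable.of_norm_bounded hW.summ fun s => by
      rw [norm_mul, Real.norm_of_nonneg (hW.nonneg s)]
      exact mul_le_of_le_one_right (hW.nonneg s) (hF s)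
  constructor
  · intro h
    obtain ⟨h1, h2⟩ := gauss (Matrix.PosDef.one.add_posSemidef hC)
    simp only [g_mul] at h1 h2
    have hq : ∀ s, |gq univ ℓ s| ≤ 1 := fun s => by
      rw [gq, abs_of_pos (Real.exp_pos _), Real.exp_le_one_iff, neg_div, neg_nonpos]
      positivity
    have h3 : ∀ T : Finset L, ∑ s ∈ T, (W s - W s * gq univ ℓ s) ≤
        Zs W - Zs W / Real.sqrt (1 + C).det := by
      intro T
      refine le_of_mul_le_mul_left ?_ hK
      have e1 : K ι * ∑ s ∈ T, (W s - W s * gq univ ℓ s) =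
          ∫ z : ι → ℝ, ∑ s ∈ T, W s * (g z - g z * Real.cos (z ⬝ᵥ fun j => ℓ j s)) := by
        rw [integral_finsetSum (f := fun s z => W s * (g z - g z * Real.cos (z ⬝ᵥ fun j => ℓ j s)))
          _ fun s _ => (int_g.sub (int_cos _)).const_mul _, Finset.mul_sum]
        refine Finset.sum_congr rfl fun s _ => ?_
        rw [integral_const_mul, integral_sub int_g (int_cos _), integral_gcos, gq_eq, ← K]
        ring
      have e2 : K ι * (Zs W - Zs W / Real.sqrt (1 + C).det) =
          ∫ z : ι → ℝ, Zs W * (g z - g z * Real.exp (-(z ⬝ᵥ C.mulVec z) / 2)) := by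
        rw [integral_const_mul, integral_sub int_g h1, h2, ← K]
        ring
      rw [e1, e2]
      refine integral_mono (integrable_finsetSum _ fun s _ =>
        (int_g.sub (int_cos _)).const_mul _) ((int_g.sub h1).const_mul _) fun z => ?_
      have h4 := h z
      have hs := hb (fun s => Real.cos ((∑ j, z j • ℓ j) s)) fun s => Real.abs_cos_le_one _
      rw [Ph, hE, le_div_iff₀ hZ] at h4
      have h5 : ∑ s ∈ T, (W s - W s * Real.cos ((∑ j, z j • ℓ j) s)) ≤
          Zs W - ∑' s, W s * Real.cos ((∑ j, z j • ℓ j) s) := by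
        rw [Zs, ← hW.summ.tsum_sub hs]
        exact (hW.summ.sub hs).sum_le_tsum T fun s _ => sub_nonneg.2
          (mul_le_of_le_one_right (hW.nonneg s) (Real.cos_le_one _))
      simp only [lin_apply] at h4 h5
      calc ∑ s ∈ T, W s * (g z - g z * Real.cos (z ⬝ᵥ fun j => ℓ j s))
          = g z * ∑ s ∈ T, (W s - W s * Real.cos (z ⬝ᵥ fun j => ℓ j s)) := by
            rw [Finset.mul_sum]; exact Finset.sum_congr rfl fun s _ => by ring
        _ ≤ g z * (Zs W - Real.exp (-(z ⬝ᵥ C.mulVec z) / 2) * Zs W) :=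
            mul_le_mul_of_nonneg_left (h5.trans (sub_le_sub_left h4 _)) (g_pos z).le
        _ = _ := by ring
    have h6 := (hW.summ.sub (hb _ hq)).tsum_le_of_sum_le h3
    rw [hW.summ.tsum_sub (hb _ hq)] at h6
    rw [hE, le_div_iff₀ hZ]
    change Zs W - _ ≤ _ at h6
    rw [one_div_mul_eq_div]
    linarith
  · intro hse hp h
    obtain ⟨h1, h2⟩ := gauss hp
    simp only [g_mul'] at h1 h2
    have h0 : ∀ s, 0 ≤ W s * (gq univ ℓ s)⁻¹ := fun s =>
      mul_nonneg (hW.nonneg s) (inv_nonneg.2 (Real.exp_pos _).le)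
    have h3 : ∀ T : Finset L, ∑ s ∈ T, W s * (gq univ ℓ s)⁻¹ ≤ Zs W / Real.sqrt (1 - C).det := by
      intro T
      refine le_of_mul_le_mul_left ?_ hK
      have e1 : K ι * ∑ s ∈ T, W s * (gq univ ℓ s)⁻¹ =
          ∫ z : ι → ℝ, ∑ s ∈ T, W s * (g z * Real.exp (z ⬝ᵥ fun j => ℓ j s)) := by
        rw [integral_finsetSum _ fun s _ => (int_exp _).const_mul _, Finset.mul_sum]
        refine Finset.sum_congr rfl fun s _ => ?_
        rw [integral_const_mul, integral_gexp, gq_eq, ← Real.exp_neg, neg_div, neg_neg]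
        ring
      have e2 : K ι * (Zs W / Real.sqrt (1 - C).det) =
          ∫ z : ι → ℝ, Zs W * (g z * Real.exp ((z ⬝ᵥ C.mulVec z) / 2)) := by
        rw [integral_const_mul, h2]
        ring
      rw [e1, e2]
      refine integral_mono (integrable_finsetSum _ fun s _ => (int_exp _).const_mul _)
        (h1.const_mul _) fun z => ?_
      have h4 := (Real.le_exp_log _).trans (Real.exp_le_exp.2 (h z))
      rw [hE, div_le_iff₀ hZ] at h4
      have h5 := (hse (∑ j, z j • ℓ j)).sum_le_tsum T fun s _ =>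
        mul_nonneg (hW.nonneg s) (Real.exp_pos _).le
      simp only [lin_apply] at h4 h5
      calc ∑ s ∈ T, W s * (g z * Real.exp (z ⬝ᵥ fun j => ℓ j s))
          = g z * ∑ s ∈ T, W s * Real.exp (z ⬝ᵥ fun j => ℓ j s) := by
            rw [Finset.mul_sum]; exact Finset.sum_congr rfl fun s _ => by ring
        _ ≤ g z * (Real.exp ((z ⬝ᵥ C.mulVec z) / 2) * Zs W) :=
            mul_le_mul_of_nonneg_left (h5.trans h4) (g_pos z).le
        _ = _ := by ring
    refine ⟨summable_of_sum_le h0 h3, ?_⟩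
    rw [hE, div_le_iff₀ hZ, one_div_mul_eq_div]
    exact Real.tsum_le_of_sum_le h0 h3

end Crest.Agent.T145
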