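import Crest.Agent.T145.MxDef_9
import Crest.Agent.T145.MxA_9
import Crest.Agent.T145.Soft_23
import Crest.Agent.T145.Bes_66

/-!
# Row 145, module Mx: exponential decay of covariances in the massive box (helper86)
-/

set_option autoImplicit false

namespace Crest.Agent.T145.Mx

open Finset

namespace Ff86

theorem ctr_ms {Λ : Lat} (h : Λ.Ok) (B : Finset Pt) {μ : ℝ} (hμ : 0 < μ) :
    (ms Λ B μ).Ctr ∧ (ms Λ B μ).Anch := by
  have k := (gauStmt μ⁻¹ (inv_pos.2 hμ)).1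
  have e : ∀ x, (ms Λ B μ).site x = gau μ⁻¹ := fun x => funext fun j => one_mul _
  refine ⟨⟨fun _ _ => h.fam, fun x _ => ?_⟩, fun x _ => ⟨x, .refl, Or.inr ?_⟩⟩
  · rw [e]; exact ⟨k.cen.toRSD, k.pd, k.cen.pos0⟩
  · rw [e]; exact k.cen.se

/-- `A u` at a point, as a sum over the steps -/
theorem Au_apply {Λ : Lat} (h : Λ.Ok) {B : Finset Pt} (u : Pt → ℝ) {x : Pt} (hx : x ∈ B) :
    Λ.Au B u x = (∑ y ∈ Λ.J, ind (x + y ∈ B) * (u x - u (x + y))) / Λ.τ := by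
  rw [h.sum_J, sum_div, Lat.Au, dv, Lat.sum_edI]
  refine sum_congr rfl fun y _ => ?_
  simp only [mul_sub, sum_sub_distrib, ind_eq_ite, mul_ite, mul_one, mul_zero,
    ← eq_sub_iff_add_eq, sum_ite_eq', mem_filter, sub_add_cancel, hx, and_true, true_and,
    ← sub_eq_add_neg]
  split_ifs <;> ring

theorem c11_exp {g : ℝ → ℝ} {K : ℝ} (hg : C11 g K) (h0 : ∀ t, 0 ≤ g t) :
    C11 (fun t => Real.exp (-g t)) (K + K ^ 2) := by
  have hK := hg.nonneg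
  have e1 : ∀ t, Real.exp (-g t) ≤ 1 := fun t => Real.exp_le_one_iff.2 (neg_nonpos.2 (h0 t))
  have hd : ∀ t, HasDerivAt (fun t => Real.exp (-g t)) (Real.exp (-g t) * -deriv g t) t :=
    fun t => (hg.1 t).hasDerivAt.neg.exp
  have b : ∀ t, |Real.exp (-g t) * -deriv g t| ≤ K := fun t => by
    rw [abs_mul, abs_neg, abs_of_pos (Real.exp_pos _)]
    exact (mul_le_of_le_one_left (abs_nonneg _) (e1 t)).trans (hg.2.1 t)
  refine C11.of_hasDerivAt hd (fun t => (b t).trans (by nlinarith)) fun t t' => ?_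
  have l := S58.mvt (fun t => (hd t).differentiableAt) (fun t => by rw [(hd t).deriv]; exact b t) t t'
  have e : Real.exp (-g t) * -deriv g t - Real.exp (-g t') * -deriv g t' =
      -(Real.exp (-g t) * (deriv g t - deriv g t')) -
        (Real.exp (-g t) - Real.exp (-g t')) * deriv g t' := by ring
  rw [e]
  refine (abs_sub _ _).trans ?_
  rw [abs_neg, abs_mul, abs_mul, abs_of_pos (Real.exp_pos _)]
  have a1 := (mul_le_of_le_one_left (abs_nonneg _) (e1 t)).trans (hg.2.2 t t')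
  have a2 := mul_le_mul l (hg.2.1 t') (abs_nonneg _) (by positivity)
  nlinarith

/-- the profile -/
noncomputable def ψ (lam t w s : ℝ) : ℝ := 2 * Real.exp (-(lam * stp ((s - t) / w)))

variable {lam t w : ℝ}

theorem ψ_pos (s : ℝ) : 0 < ψ lam t w s := by unfold ψ; positivity

theorem ψ_le (hl : 0 ≤ lam) (s : ℝ) : ψ lam t w s ≤ 2 := by
  have := Real.exp_le_one_iff.2 (neg_nonpos.2 (mul_nonneg hl (stp_nonneg ((s - t) / w))))
  unfold ψ; linarith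

theorem ψ_left (hw : 0 < w) {s : ℝ} (h : s ≤ t) : ψ lam t w s = 2 := by
  rw [ψ, stp_zero (div_nonpos_of_nonpos_of_nonneg (by linarith) hw.le)]; simp

theorem ψ_right (hw : 0 < w) {s : ℝ} (h : t + w ≤ s) : ψ lam t w s = 2 * Real.exp (-lam) := by
  rw [ψ, stp_one ((one_le_div hw).2 (by linarith)), mul_one]

theorem ψ_anti (hl : 0 ≤ lam) (hw : 0 < w) {s s' : ℝ} (h : s ≤ s') : ψ lam t w s' ≤ ψ lam t w s := by
  have := stp_mono (show (s - t) / w ≤ (s' - t) / w by gcongr)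
  unfold ψ
  gcongr

theorem ψ_dd (hl : 0 ≤ lam) (hw : 0 < w) (s : ℝ) {h : ℝ} (hh : 6 * lam * |h| ≤ w) :
    ψ lam t w (s + h) + ψ lam t w (s - h) - 2 * ψ lam t w s ≤
      (6 * lam + 72 * lam ^ 2) * (h / w) ^ 2 * ψ lam t w s := by
  set p := (s - t) / w
  set k := h / w with hk
  have e1 : (s + h - t) / w = p + k := by rw [hk]; ring
  have e2 : (s - h - t) / w = p - k := by rw [hk]; ring
  have hk1 : 6 * lam * |k| ≤ 1 := by
    rw [hk, abs_div, abs_of_pos hw, ← mul_div_assoc, div_le_one hw]; exact hh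
  have m1 := S58.mvt stp_c11.1 stp_c11.2.1 (p + k) p
  have m2 := S58.mvt stp_c11.1 stp_c11.2.1 (p - k) p
  have m3 := S58.abs_dd_le stp_c11.1 stp_c11.2.2 (p - k) k k
  rw [add_sub_cancel_left] at m1
  rw [sub_sub_cancel_left, abs_neg] at m2
  rw [sub_add_cancel, mul_assoc, abs_mul_abs_self] at m3
  set a := -(lam * (stp (p + k) - stp p)) with ha
  set b := -(lam * (stp (p - k) - stp p)) with hb
  have a1 : |a| ≤ 6 * lam * |k| := by
    rw [ha, abs_neg, abs_mul, abs_of_nonneg hl]; nlinarith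
  have b1 : |b| ≤ 6 * lam * |k| := by
    rw [hb, abs_neg, abs_mul, abs_of_nonneg hl]; nlinarith
  have a2 := (abs_le.1 (Real.abs_exp_sub_one_sub_id_le (a1.trans hk1))).2
  have b2 := (abs_le.1 (Real.abs_exp_sub_one_sub_id_le (b1.trans hk1))).2
  have q : (6 * lam * |k|) ^ 2 = 36 * lam ^ 2 * k ^ 2 := by rw [mul_pow, sq_abs]; ring
  have a3 : a ^ 2 ≤ 36 * lam ^ 2 * k ^ 2 := by
    rw [← q, ← sq_abs]; exact pow_le_pow_left₀ (abs_nonneg _) a1 2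
  have b3 : b ^ 2 ≤ 36 * lam ^ 2 * k ^ 2 := by
    rw [← q, ← sq_abs]; exact pow_le_pow_left₀ (abs_nonneg _) b1 2
  have ab : a + b ≤ 6 * lam * k ^ 2 := by
    have := mul_le_mul_of_nonneg_left (abs_le.1 m3).1 hl
    rw [ha, hb]; nlinarith
  have f1 : ψ lam t w (s + h) = Real.exp a * ψ lam t w s := by
    rw [ψ, ψ, e1, mul_left_comm, ← Real.exp_add, ha]; congr 2; ring
  have f2 : ψ lam t w (s - h) = Real.exp b * ψ lam t w s := by
    rw [ψ, ψ, e2, mul_left_comm, ← Real.exp_add, hb]; congr 2; ring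
  rw [f1, f2]
  have := mul_le_mul_of_nonneg_right (show Real.exp a + Real.exp b - 2 ≤
    (6 * lam + 72 * lam ^ 2) * k ^ 2 by nlinarith) (ψ_pos (lam := lam) (t := t) (w := w) s).le
  linarith

/-- reflection of the `i`-th coordinate -/
def rf (i : Fin 2) (y : Pt) : Pt := ![(-y.1, y.2), (y.1, -y.2)] i

/-- the other coordinate -/
def oc (i : Fin 2) (y : Pt) : ℤ := ![y.2, y.1] i

theorem rf_rf (i : Fin 2) (y : Pt) : rf i (rf i y) = y := by fin_cases i <;> simp [rf]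

theorem rf_mem {Λ : Lat} (h : Λ.Ok) (i : Fin 2) {y : Pt} (hy : y ∈ Λ.J) : rf i y ∈ Λ.J := by
  fin_cases i
  exacts [h.fl1 hy, h.fl2 hy]

theorem co_rf (i : Fin 2) (y : Pt) : co i (rf i y) = -co i y := by fin_cases i <;> simp [rf, co]

theorem oc_rf (i : Fin 2) (x y : Pt) : oc i (x + rf i y) = oc i (x + y) := by
  fin_cases i <;> simp [rf, oc]

theorem mem_box (i : Fin 2) (L : ℕ) (x : Pt) :
    x ∈ sq 0 L ↔ (0 ≤ oc i x ∧ oc i x < L) ∧ -1 < co i x ∧ co i x < L := by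
  have e : ∀ k : ℤ, (-1 < (k : ℝ) ∧ (k : ℝ) < L) ↔ (-1 < k ∧ k < L) := fun k => by norm_cast
  fin_cases i <;> simp only [oc, co, mem_sq] <;> simp [e] <;> omega

theorem co_le {Λ : Lat} (i : Fin 2) {y : Pt} (hy : y ∈ Λ.J) : |co i y| ≤ Λ.rg := by
  have := Lat.le_rg hy
  fin_cases i
  · show |(y.1 : ℝ)| ≤ _
    exact_mod_cast this.1
  · show |(y.2 : ℝ)| ≤ _
    exact_mod_cast this.2

/-- supersolution -/
theorem sup {Λ : Lat} (h : Λ.Ok) (hl : 0 ≤ lam) (hw : 0 < w) (i : Fin 2) {L : ℕ}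
    (h1 : 6 * lam * Λ.rg ≤ w) (h2 : t + w + Λ.rg ≤ L) {x : Pt} (hx : x ∈ sq 0 L) :
    -(#Λ.J * ((6 * lam + 72 * lam ^ 2) * (Λ.rg / w) ^ 2 * ψ lam t w (co i x)) / 2 / Λ.τ) ≤
      Λ.Au (sq 0 L) (fun z => ψ lam t w (co i z)) x := by
  rw [Au_apply h _ hx, ← neg_div]
  refine div_le_div_of_nonneg_right ?_ h.pos.le
  set c := (6 * lam + 72 * lam ^ 2) * (Λ.rg / w) ^ 2 * ψ lam t w (co i x)
  set G : Pt → ℝ := fun y => ind (0 ≤ oc i (x + y) ∧ oc i (x + y) < L) *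
    (ψ lam t w (co i x) - ψ lam t w (co i x + co i y)) with hG
  have hx' := (mem_box i L x).1 hx
  have s1 : ∑ y ∈ Λ.J, G y ≤
      ∑ y ∈ Λ.J, ind (x + y ∈ sq 0 L) * (ψ lam t w (co i x) - ψ lam t w (co i (x + y))) := by
    refine sum_le_sum fun y hy => ?_
    rw [hG, S58.co_add]
    by_cases a : x + y ∈ sq 0 L
    · simp only [ind_pos a, ind_pos ((mem_box i L _).1 a).1, le_refl]
    by_cases b : 0 ≤ oc i (x + y) ∧ oc i (x + y) < L
    swap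
    · simp only [ind_neg a, ind_neg b, le_refl]
    simp only [ind_neg a, ind_pos b, zero_mul, one_mul, sub_nonpos]
    rw [mem_box i, S58.co_add] at a
    have hy' := abs_le.1 (co_le i hy)
    by_cases d : -1 < co i x + co i y
    · have d' : (L : ℝ) ≤ co i x + co i y := not_lt.1 fun d' => a ⟨b, d, d'⟩
      have r0 : (0 : ℝ) ≤ Λ.rg := Nat.cast_nonneg _
      rw [ψ_right hw (by linarith), ψ_right hw (by linarith)]
    · exact ψ_anti hl hw (by linarith [not_lt.1 d])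
  have s2 : ∑ y ∈ Λ.J, G y = ∑ y ∈ Λ.J, G (rf i y) :=
    sum_bij' (fun y _ => rf i y) (fun y _ => rf i y) (fun y hy => rf_mem h i hy)
      (fun y hy => rf_mem h i hy) (fun y _ => rf_rf i y) (fun y _ => rf_rf i y)
      fun y _ => by rw [rf_rf]
  have s3 : ∑ y ∈ Λ.J, -c ≤ ∑ y ∈ Λ.J, (G y + G (rf i y)) := by
    refine sum_le_sum fun y hy => ?_
    have hy' := co_le i hy
    have d := ψ_dd (t := t) hl hw (co i x) (h := co i y)
      ((mul_le_mul_of_nonneg_left hy' (by positivity)).trans h1)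
    have p := ψ_pos (lam := lam) (t := t) (w := w) (co i x)
    have q : (co i y / w) ^ 2 ≤ (Λ.rg / w) ^ 2 := by
      rw [div_pow, div_pow, ← sq_abs (co i y)]; gcongr
    have d' : (6 * lam + 72 * lam ^ 2) * (co i y / w) ^ 2 * ψ lam t w (co i x) ≤ c := by
      simp only [c]; gcongr
    have c0 : 0 ≤ c := by positivity
    simp only [hG, oc_rf, co_rf, ← sub_eq_add_neg]
    by_cases b : 0 ≤ oc i (x + y) ∧ oc i (x + y) < L
    · rw [ind_pos b]; linarith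
    · rw [ind_neg b]; linarith
  rw [sum_add_distrib, ← s2, sum_const, nsmul_eq_mul] at s3
  linarith

theorem sm_ψ {K α : ℝ} (hl : 0 ≤ lam) (hK : lam ≤ K) (hα : 0 < α) (i : Fin 2) {L : ℝ} (hL : 0 < L) :
    Sm2 (fun z => ψ lam t (α * L / 2) (co i z))
      (2 * (K * (6 * (1 + 2 / α) ^ 2) + (K * (6 * (1 + 2 / α) ^ 2)) ^ 2)) L := by
  have hα' : 0 < 2 / α := by positivity
  have c1 := (stp_c11.comp_affine (2 / α) 0 (m := 1 + 2 / α) (by linarith)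
    (by rw [abs_of_pos hα']; linarith)).const_mul lam
  rw [abs_of_nonneg hl] at c1
  have c2 := (c11_exp (c1.mono (K' := K * (6 * (1 + 2 / α) ^ 2)) (by gcongr))
    fun s => mul_nonneg hl (stp_nonneg _)).const_mul 2
  rw [abs_two] at c2
  convert sm2_coord c2 hL i (-t / L) using 2 with z
  rw [ψ]
  congr 5
  field_simp
  ring

theorem num {κ R μ L α N J r τ τ₁ θ θ₀ p : ℝ} (κ0 : 0 < κ) (κ1 : κ ≤ 1) (R1 : 1 ≤ R)
    (R2 : R ^ 2 = μ * L ^ 2) (L0 : 0 < L) (hα : 0 < α) (μ0 : 0 < μ) (J0 : 0 ≤ J) (b2 : J * r ^ 2 ≤ N)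
    (κ2 : κ * (624 * N) ≤ θ₀ * τ₁ * α ^ 2) (h1 : 0 < τ₁) (h2 : τ₁ ≤ τ) (h3 : 0 < θ₀) (h4 : θ₀ / 2 ≤ θ)
    (hp : 0 < p) :
    J * ((6 * (κ * R) + 72 * (κ * R) ^ 2) * (r / (α * L / 2)) ^ 2 * p) / 2 / τ ≤ θ * (μ * p / 2) := by
  have b1 : 6 * (κ * R) + 72 * (κ * R) ^ 2 ≤ 78 * κ * (μ * L ^ 2) := by
    have a1 : κ * R ≤ κ * R ^ 2 := mul_le_mul_of_nonneg_left (by nlinarith) κ0.le
    have a2 : κ * (κ * R ^ 2) ≤ κ * R ^ 2 := mul_le_of_le_one_left (by positivity) κ1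
    rw [← R2]; nlinarith
  have θ0 : 0 < θ := by linarith
  rw [div_le_iff₀ (h1.trans_le h2)]
  calc _ ≤ J * (78 * κ * (μ * L ^ 2) * (r / (α * L / 2)) ^ 2 * p) / 2 := by gcongr
    _ = J * r ^ 2 * (κ * 624) / α ^ 2 * (μ * p / 4) := by field_simp; ring
    _ ≤ N * (κ * 624) / α ^ 2 * (μ * p / 4) := by gcongr
    _ ≤ θ₀ * τ₁ * (μ * p / 4) := by
        refine mul_le_mul_of_nonneg_right ?_ (by positivity)
        rw [div_le_iff₀ (by positivity)]; linarith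
    _ = θ₀ / 2 * (μ * p / 2) * τ₁ := by ring
    _ ≤ _ := by gcongr

/-- comparison with a supersolution -/
theorem cmp {Λ : Lat} (ok : Λ.Ok) {B : Finset Pt} {μ : ℝ} (μ0 : 0 < μ) {f f' g : Pt → ℝ}
    (h : ∀ x ∈ B, f x ≤ f' x) (hg : ∀ x, 0 ≤ g x) :
    Vr ((ms Λ B μ).W 0) (pr f) (pr g) ≤ Vr ((ms Λ B μ).W 0) (pr f') (pr g) := by
  obtain ⟨hc, hA⟩ := ctr_ms ok B μ0
  have off : ∀ s, (ms Λ B μ).W 0 s ≠ 0 → ∀ x, s x ≠ 0 → x ∈ B := fun s hs x hx => by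
    by_contra h'; exact hx (Mdl.W_ne_zero hs h')
  have V := vr_nonneg hc hA (φ := fun x => ind (x ∈ B) * (f' x - f x)) (ψ := g) (fun x => by
    by_cases hx : x ∈ B
    · rw [ind_pos hx, one_mul, sub_nonneg]; exact h x hx
    · rw [ind_neg hx, zero_mul]) hg
  rw [Vr_congr (f' := pr f' - pr f) (g' := pr g) (fun s hs => by
    rw [← pr_sub]; exact pr_congr fun x hx => by simp [ind_pos (off s hs x hx)]) fun _ _ => rfl,
    (Md.ctr_cen hc hA).se.Vr_sub_left] at V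
  linarith

theorem num2 {κ R K r a : ℝ} (κ1 : κ ≤ 1) (R1 : 1 ≤ R) (RK : R ^ 2 ≤ K) (r0 : 0 ≤ r)
    (h : 12 * K * r ≤ a) : κ * R ≤ K ∧ 6 * (κ * R) * r ≤ a / 2 ∧ r ≤ a / 2 := by
  have a1 : κ * R ≤ K := by nlinarith
  have a2 : 1 ≤ K := by nlinarith
  exact ⟨a1, by nlinarith, by nlinarith⟩

end Ff86

open Ff86 in
theorem ffStmt (hG : GmStmt) (hm : T1mStmt) : FfStmt := by
  intro F θ₀ α hθ hα
  have hτ := F.pos
  obtain ⟨N, N0, hN⟩ : ∃ N : ℝ, 0 < N ∧ #F.base.J * (F.base.rg : ℝ) ^ 2 ≤ N :=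
    ⟨#F.base.J * (F.base.rg : ℝ) ^ 2 + 1, by positivity, by linarith⟩
  obtain ⟨κ, κ0, κ1, κ2⟩ : ∃ κ : ℝ, 0 < κ ∧ κ ≤ 1 ∧ κ * (624 * N) ≤ θ₀ * F.τ₁ * α ^ 2 :=
    ⟨min 1 (θ₀ * F.τ₁ * α ^ 2 / (624 * N)), by positivity, min_le_left _ _,
      (le_div_iff₀ (by positivity)).1 (min_le_right _ _)⟩
  refine ⟨κ, κ0, fun K ε hK hε => ?_⟩
  obtain ⟨K₁, K0, hK₁⟩ : ∃ K₁ : ℝ, 0 ≤ K₁ ∧
      2 * (K * (6 * (1 + 2 / α) ^ 2) + (K * (6 * (1 + 2 / α) ^ 2)) ^ 2) ≤ K₁ :=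
    ⟨_, by positivity, le_rfl⟩
  obtain ⟨δ₁, d1, H1⟩ := hG F θ₀ (K₁ + K + 2) ε hθ (by linarith) hε
  obtain ⟨δ₂, d2, H2⟩ := hm.2.2 F θ₀ 1 0 hθ one_pos
  obtain ⟨c, c0, hc⟩ : ∃ c : ℝ, 0 < c ∧ 12 * K * F.base.rg / α ≤ c :=
    ⟨12 * K * F.base.rg / α + 1, by positivity, by linarith⟩
  refine ⟨min (min δ₁ δ₂) c⁻¹, by positivity,
    fun Λ hΛ l L hW μ t i f g hμ1 hμ2 hf hg hft hgt => ?_⟩
  have ok := hΛ.ok
  have L0 := hW.L_pos'
  have hθ' := (H2 Λ hΛ l L (hW.mono_d ((min_le_left _ _).trans (min_le_right _ _)))).2.1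
  have H := H1 Λ hΛ l L (hW.mono_d ((min_le_left _ _).trans (min_le_left _ _)))
  have hL : c ≤ L := by
    have := hW.sep.inv_L_le.trans (min_le_right _ _)
    rwa [one_div, inv_le_inv₀ L0 c0] at this
  have hL' : 12 * K * Λ.rg ≤ α * L := by
    rw [hΛ.rg_eq, mul_comm α, ← div_le_iff₀ hα]; exact hc.trans hL
  clear H1 H2 hc hL hW
  have μ0 : 0 < μ := (pos_iff_pos_of_mul_pos (one_pos.trans_le hμ1)).2 (by positivity)
  obtain ⟨R, hR, R2, R1⟩ : ∃ R, Real.sqrt (μ * (L : ℝ) ^ 2) = R ∧ R ^ 2 = μ * (L : ℝ) ^ 2 ∧ 1 ≤ R :=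
    ⟨_, rfl, Real.sq_sqrt (by linarith), Real.one_le_sqrt.2 hμ1⟩
  rw [hR]
  by_cases hy : ∃ y ∈ sq 0 L, g y ≠ 0
  swap
  · have := cmp ok (B := sq 0 L) μ0 (f := g) (f' := (0 : ℝ) • g) (g := f) (fun x hx => by
      have : g x = 0 := by by_contra h'; exact hy ⟨x, hx, h'⟩
      simp [this]) fun x => (hf x).1
    rw [pr_smul, Vr_smul_left, zero_mul, Vr_comm] at this
    exact this.trans (by positivity)
  obtain ⟨y, hy, hy'⟩ := hy
  have y1 := hgt y hy'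
  have y2 := ((mem_box i L y).1 hy).2.2
  obtain ⟨lK, n1, n2⟩ := num2 κ1 R1 (R2.trans_le hμ2) (Nat.cast_nonneg Λ.rg) hL'
  have l0 : 0 ≤ κ * R := by positivity
  have w0 : 0 < α * L / 2 := by positivity
  have θ0 : 0 < Λ.tN l := by linarith
  have key : ∀ x ∈ sq 0 L,
      f x ≤ fu Λ L (Λ.tN l) μ (fun z => ψ (κ * R) t (α * L / 2) (co i z)) x := fun x hx => by
    have s := sup (lam := κ * R) (t := t) ok l0 w0 i (L := L) n1 (by linarith) hx
    have p := ψ_pos (lam := κ * R) (t := t) (w := α * L / 2) (co i x)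
    have b := num (J := #Λ.J) (r := Λ.rg) κ0 κ1 R1 R2 L0 hα μ0 (Nat.cast_nonneg _)
      (by rw [hΛ.J_eq, hΛ.rg_eq]; exact hN) κ2 hτ hΛ.le_tau hθ hθ' p
    have a : -(μ * ψ (κ * R) t (α * L / 2) (co i x) / 2) ≤
        Λ.Au (sq 0 L) (fun z => ψ (κ * R) t (α * L / 2) (co i z)) x / Λ.tN l := by
      rw [le_div_iff₀ θ0]; linarith
    have a' : f x ≤ μ * ψ (κ * R) t (α * L / 2) (co i x) / 2 := by
      by_cases h0 : f x = 0
      · rw [h0]; positivity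
      · rw [ψ_left w0 (hft x h0)]; linarith [(hf x).2]
    rw [fu, ind_pos hx, one_mul]; linarith
  have gg : ip (sq 0 L) g g ≤ (K₁ + K + 2) * μ := by
    calc _ ≤ ∑ x ∈ sq (0 : Pt) L, μ * μ :=
          sum_le_sum fun x _ => mul_le_mul (hg x).2 (hg x).2 (hg x).1 μ0.le
      _ = μ * (L : ℝ) ^ 2 * μ := by rw [sum_const, card_sq, nsmul_eq_mul]; push_cast; ring
      _ ≤ _ := mul_le_mul_of_nonneg_right (by linarith) μ0.le
  have G := (abs_le.1 (H μ _ g hμ1 (by linarith)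
    ((sm_ψ (t := t) l0 lK hα i L0).mono L0 (by linarith))
    (fun x _ => by rw [abs_of_pos (ψ_pos _)]; linarith [ψ_le (t := t) (w := α * L / 2) l0 (co i x)])
    gg).2).2
  have ug : ip (sq 0 L) (fun z => ψ (κ * R) t (α * L / 2) (co i z)) g ≤
      2 * (μ * (L : ℝ) ^ 2) * Real.exp (-κ * R) := by
    calc _ ≤ ∑ x ∈ sq (0 : Pt) L, 2 * Real.exp (-(κ * R)) * μ := sum_le_sum fun x _ => by
          by_cases h0 : g x = 0
          · rw [h0, mul_zero]; positivity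
          · beta_reduce
            rw [ψ_right (t := t) (s := co i x) w0 (by linarith [hgt x h0])]
            exact mul_le_mul_of_nonneg_left (hg x).2 (by positivity)
      _ = _ := by rw [sum_const, card_sq, nsmul_eq_mul, neg_mul]; push_cast; ring
  linarith [cmp ok μ0 key fun x => (hg x).1]

end Crest.Agent.T145.Mx
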