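import Crest.Agent.T145.BrB_73
import Crest.Agent.T145.MxDef_9

/-!
# Row 145, module Mx: `rowStmt`, `tvStmt` (the variance gain of a hit cell) (helper58)
-/

set_option autoImplicit false

namespace Crest.Agent.T145.Mx

open Finset

namespace Hit58

/-- a bond path meets every shell of width `g` of a function that is `g`-Lipschitz along the bonds -/
theorem shells {V : Type*} {ω : Finset (V × V)} {d : V → ℤ} {g : ℤ}
    (hd : ∀ e ∈ ω, |d e.1 - d e.2| ≤ g) {x y : V} (h : Conn ω x y) {t : ℤ} (hx : d x ≤ t)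
    (hy : t < d y) : ∃ z, Conn ω x z ∧ t < d z ∧ d z ≤ t + g := by
  induction h with
  | refl => omega
  | @tail b c hb hbc ih =>
    by_cases hb' : t < d b
    · exact ih hb'
    · refine ⟨c, hb.tail hbc, hy, ?_⟩
      rcases hbc with h | h
      · have := abs_le.1 (hd _ h); simp only at this; omega
      · have := abs_le.1 (hd _ h); simp only at this; omega

/-- at most one point in each column, or at most one point in each row -/
def Thin (P : Finset Pt) : Prop := Set.InjOn Prod.fst (P : Set Pt) ∨ Set.InjOn Prod.snd (P : Set Pt)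

/-- `2 N` shells contain a thin set of `N` points -/
theorem thin_of_shells (d₁ d₂ : ℤ → ℤ) (p : Pt → Prop) (α : ℤ) (g N : ℕ)
    (h : ∀ j : ℕ, j < 2 * N → ∃ z : Pt, p z ∧ α + j * g < max (d₁ z.1) (d₂ z.2) ∧
      max (d₁ z.1) (d₂ z.2) ≤ α + j * g + g) :
    ∃ P : Finset Pt, P.card = N ∧ Thin P ∧ ∀ z ∈ P, p z ∧ α < max (d₁ z.1) (d₂ z.2) ∧
      max (d₁ z.1) (d₂ z.2) ≤ α + 2 * N * g := by
  classical
  choose! z hz using h
  have sep : ∀ i j, i < 2 * N → j < 2 * N →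
      max (d₁ (z i).1) (d₂ (z i).2) = max (d₁ (z j).1) (d₂ (z j).2) → i = j := by
    intro i j hi hj e
    have a := hz i hi
    have b := hz j hj
    by_contra hne
    rcases lt_or_gt_of_ne hne with hlt | hlt
    · have : ((i : ℤ) + 1) * g ≤ j * g := by gcongr; omega
      linarith [a.2.2, b.2.1]
    · have : ((j : ℤ) + 1) * g ≤ i * g := by gcongr; omega
      linarith [b.2.2, a.2.1]
  have key : ∀ S ⊆ range (2 * N), N ≤ S.card → (∀ i ∈ S, ∀ j ∈ S, (z i).1 = (z j).1 → i = j) ∨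
      (∀ i ∈ S, ∀ j ∈ S, (z i).2 = (z j).2 → i = j) →
      ∃ P : Finset Pt, P.card = N ∧ Thin P ∧ ∀ z ∈ P, p z ∧ α < max (d₁ z.1) (d₂ z.2) ∧
        max (d₁ z.1) (d₂ z.2) ≤ α + 2 * N * g := by
    intro S hS hN hinj
    obtain ⟨T, hT, hc⟩ := exists_subset_card_eq hN
    refine ⟨T.image z, ?_, ?_, ?_⟩
    · rw [card_image_of_injOn, hc]
      intro i hi j hj e
      exact sep i j (mem_range.1 (hS (hT hi))) (mem_range.1 (hS (hT hj))) (by rw [e])
    · refine hinj.imp (fun hi => ?_) fun hi => ?_ <;>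
      · intro x hx y hy e
        obtain ⟨i, hi', rfl⟩ := mem_image.1 hx
        obtain ⟨j, hj', rfl⟩ := mem_image.1 hy
        rw [hi i (hT hi') j (hT hj') e]
    · intro x hx
      obtain ⟨i, hi, rfl⟩ := mem_image.1 hx
      have hi' := mem_range.1 (hS (hT hi))
      have a := hz i hi'
      have b : ((i : ℤ) + 1) * g ≤ 2 * N * g := by gcongr; omega
      have c : (0 : ℤ) ≤ i * g := by positivity
      exact ⟨a.1, by linarith [a.2.1], by linarith [a.2.2]⟩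
  set S := (range (2 * N)).filter fun j => d₂ (z j).2 ≤ d₁ (z j).1 with hS
  set S' := (range (2 * N)).filter fun j => ¬ d₂ (z j).2 ≤ d₁ (z j).1 with hS'
  have hc : S.card + S'.card = 2 * N := by rw [hS, hS', card_filter_add_card_filter_not, card_range]
  by_cases hN : N ≤ S.card
  · refine key S (filter_subset _ _) hN (Or.inl fun i hi j hj e => ?_)
    have a := mem_filter.1 hi
    have b := mem_filter.1 hj
    exact sep i j (mem_range.1 a.1) (mem_range.1 b.1) (by rw [max_eq_left a.2, max_eq_left b.2, e])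
  · refine key S' (filter_subset _ _) (by omega) (Or.inr fun i hi j hj e => ?_)
    have a := mem_filter.1 hi
    have b := mem_filter.1 hj
    exact sep i j (mem_range.1 a.1) (mem_range.1 b.1) (by
      rw [max_eq_right (not_le.1 a.2).le, max_eq_right (not_le.1 b.2).le, e])

/-- uniform density on `P` -/
noncomputable def un (P : Finset Pt) (x : Pt) : ℝ := ind (x ∈ P) / P.card

theorem un_nonneg (P : Finset Pt) (x : Pt) : 0 ≤ un P x :=
  div_nonneg (ind_nonneg _) (Nat.cast_nonneg _)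

theorem sup_un (P : Finset Pt) : Sup P (un P) := fun x hx => by rw [un, ind_neg hx, zero_div]

theorem sum_un_mul {P B : Finset Pt} (h : P ⊆ B) (u : Pt → ℝ) :
    ∑ x ∈ B, un P x * u x = (∑ x ∈ P, u x) / P.card := by
  rw [← sum_subset h fun x _ hx => by rw [sup_un P x hx, zero_mul], sum_div]
  exact sum_congr rfl fun x hx => by rw [un, ind_pos hx]; ring

theorem sum_un {P B : Finset Pt} (h : P ⊆ B) (hP : P.Nonempty) : ∑ x ∈ B, un P x = 1 := by
  have := sum_un_mul h fun _ => 1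
  have hc : (P.card : ℝ) ≠ 0 := by exact_mod_cast hP.card_pos.ne'
  simpa [div_self hc] using this

theorem sum_un_le (P T : Finset Pt) {k : ℕ} (h : (T.filter (· ∈ P)).card ≤ k) :
    ∑ x ∈ T, un P x ≤ k / P.card := by
  classical
  simp only [un, ← sum_div, ind_eq_ite, sum_boole]
  gcongr

/-- a thin set is routed to the uniform density -/
theorem fs_un {Λ : Lat} (hΛ : Λ.Ok) {a : Pt} {n : ℕ} {P : Finset Pt} (hP : P ⊆ sq a n)
    (hne : P.Nonempty) (ht : Thin P) :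
    Fs (Λ.edI (sq a n)) (un P - un (sq a n)) (3 * (1 / P.card + 1 / n)) := by
  classical
  have hB : (sq a n).Nonempty := hne.mono hP
  have hn : 0 < n := by
    obtain ⟨x, hx⟩ := hB
    rw [mem_sq] at hx; omega
  have hn' : (0 : ℝ) < n := by exact_mod_cast hn
  have hs : Sup (rc a n n) (un P - un (sq a n)) := fun x hx => by
    rw [Pi.sub_apply, sup_un P x fun h => hx (hP h), sup_un (sq a n) x hx, sub_self]
  have h0 : ∑ x ∈ rc a n n, (un P - un (sq a n)) x = 0 := by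
    simp only [Pi.sub_apply, sum_sub_distrib]
    rw [← sq_eq_rc, sum_un hP hne, sum_un Subset.rfl hB, sub_self]
  have hcard : ((sq a n).card : ℝ) = n * n := by rw [sq_eq_rc, card_rc]; push_cast; ring
  have key : ∀ T : Finset Pt, (T.filter (· ∈ P)).card ≤ 1 → T.card ≤ n →
      ∑ x ∈ T, |(un P - un (sq a n)) x| ≤ 1 / P.card + 1 / n := by
    intro T h1 h2
    have a1 := sum_un_le P T h1
    have a2 := sum_un_le (sq a n) T ((card_filter_le _ _).trans h2)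
    rw [hcard] at a2
    have e : (n : ℝ) / (n * n) = 1 / n := by field_simp
    rw [e] at a2
    rw [Nat.cast_one] at a1
    refine le_trans (sum_le_sum fun x _ => ?_) ((sum_add_distrib).le.trans (add_le_add a1 a2))
    refine (abs_sub _ _).trans ?_
    rw [abs_of_nonneg (un_nonneg _ _), abs_of_nonneg (un_nonneg _ _)]
  have e3 : ∀ c : ℝ, c * (2 + (n : ℝ) / n) = 3 * c := fun c => by rw [div_self hn'.ne']; ring
  rw [← e3]
  rcases ht with ht | ht
  · refine hΛ.r1_cols hs h0 fun t => key _ (card_le_one.2 fun x hx y hy => ?_) (card_col_le _ _ _ _)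
    have a := mem_filter.1 hx
    have b := mem_filter.1 hy
    exact ht a.2 b.2 ((mem_filter.1 a.1).2.trans (mem_filter.1 b.1).2.symm)
  · refine hΛ.r1_rows hs h0 fun t => key _ (card_le_one.2 fun x hx y hy => ?_) (card_row_le _ _ _ _)
    have a := mem_filter.1 hx
    have b := mem_filter.1 hy
    exact ht a.2 b.2 ((mem_filter.1 a.1).2.trans (mem_filter.1 b.1).2.symm)

/-- the set `p` meets, inside the cell `B`, every shell of width `g` between the levels `α` and `α + w` -/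
def Meets (B : Finset Pt) (p : Pt → Prop) (d : Pt → ℤ) (g : ℕ) (α : ℤ) (w : ℕ) : Prop :=
  ∀ t, α ≤ t → t < α + w → ∃ z ∈ B, p z ∧ t < d z ∧ d z ≤ t + g

theorem Meets.thin {B : Finset Pt} {p : Pt → Prop} {d₁ d₂ : ℤ → ℤ} {g w : ℕ} {α : ℤ}
    (h : Meets B p (fun x => max (d₁ x.1) (d₂ x.2)) g α w) (hg : 1 ≤ g) (hw : 2 * g ≤ w) :
    ∃ P : Finset Pt, P ⊆ B ∧ P.Nonempty ∧ (w : ℝ) ≤ 4 * g * P.card ∧ Thin P ∧
      ∀ z ∈ P, p z ∧ α < max (d₁ z.1) (d₂ z.2) ∧ max (d₁ z.1) (d₂ z.2) ≤ α + w := by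
  set N := w / (2 * g) with hN
  have h1 : 1 ≤ N := (Nat.one_le_div_iff (by omega)).2 hw
  have h2 : N * (2 * g) ≤ w := Nat.div_mul_le_self _ _
  have h3 : w < (N + 1) * (2 * g) := by
    rw [mul_comm]; exact Nat.lt_mul_div_succ _ (by omega)
  have h2' : 2 * (N : ℤ) * g ≤ w := by
    have : ((N * (2 * g) : ℕ) : ℤ) ≤ w := by exact_mod_cast h2
    push_cast at this; linarith
  obtain ⟨P, hc, ht, hP⟩ := thin_of_shells d₁ d₂ (fun z => z ∈ B ∧ p z) α g N fun j hj => by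
    have a : ((j : ℤ) + 1) * g ≤ 2 * N * g := by gcongr; omega
    have b : (0 : ℤ) ≤ j * g := by positivity
    obtain ⟨z, hz, h4, h5, h6⟩ := h (α + j * g) (by linarith) (by
      have : (1 : ℤ) ≤ g := by exact_mod_cast hg
      linarith)
    exact ⟨z, ⟨hz, h4⟩, h5, h6⟩
  refine ⟨P, fun z hz => (hP z hz).1.1, card_pos.1 (by omega), ?_, ht, fun z hz =>
    ⟨(hP z hz).1.2, (hP z hz).2.1, by linarith [(hP z hz).2.2]⟩⟩
  rw [hc]
  have : w ≤ 4 * g * N := by nlinarith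
  exact_mod_cast this

/-- ROWS: a neutral charge on `p`, spread at the scale of the cell, that sees the jump of `u` -/
theorem rows {Λ : Lat} (hΛ : Λ.Ok) {a : Pt} {n g w M : ℕ} {p : Pt → Prop} {d₁ d₂ : ℤ → ℤ} {α β : ℤ}
    (hg : 1 ≤ g) (hw : 2 * g ≤ w) (hM : n ≤ M * w)
    (h₁ : Meets (sq a n) p (fun x => max (d₁ x.1) (d₂ x.2)) g α w)
    (h₂ : Meets (sq a n) p (fun x => max (d₁ x.1) (d₂ x.2)) g β w) :
    ∃ η : Pt → ℝ, (∀ x, η x ≠ 0 → p x) ∧ Fs (Λ.edI (sq a n)) η (6 * (4 * g * M + 1) / n) ∧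
      ∀ u : Pt → ℝ,
        (∀ x ∈ sq a n, α < max (d₁ x.1) (d₂ x.2) → max (d₁ x.1) (d₂ x.2) ≤ α + w → u x = 1) →
        (∀ x ∈ sq a n, β < max (d₁ x.1) (d₂ x.2) → max (d₁ x.1) (d₂ x.2) ≤ β + w → u x = 0) →
        ip (sq a n) η u = 1 := by
  obtain ⟨P, hP, pne, pc, pt, pz⟩ := h₁.thin hg hw
  obtain ⟨Q, hQ, qne, qc, qt, qz⟩ := h₂.thin hg hw
  have hn : 0 < n := by
    obtain ⟨x, hx⟩ := pne.mono hP
    rw [mem_sq] at hx; omega
  have hn' : (0 : ℝ) < n := by exact_mod_cast hn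
  have hM' : (n : ℝ) ≤ M * w := by exact_mod_cast hM
  have bd : ∀ R : Finset Pt, R.Nonempty → (w : ℝ) ≤ 4 * g * R.card →
      1 / (R.card : ℝ) ≤ 4 * g * M / n := fun R hR hc => by
    have : (0 : ℝ) < R.card := by exact_mod_cast hR.card_pos
    rw [div_le_div_iff₀ this hn']
    have := mul_le_mul_of_nonneg_left hc (Nat.cast_nonneg M : (0 : ℝ) ≤ M)
    nlinarith
  refine ⟨un P - un Q, fun x hx => ?_, ?_, fun u h1 h0 => ?_⟩
  · by_cases h : x ∈ P
    · exact (pz x h).1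
    · by_cases h' : x ∈ Q
      · exact (qz x h').1
      · exact absurd (by rw [Pi.sub_apply, sup_un P x h, sup_un Q x h', sub_self]) hx
  · refine (((fs_un hΛ hP pne pt).sub (fs_un hΛ hQ qne qt)).congr (by abel)).mono ?_
    have := bd P pne pc
    have := bd Q qne qc
    have e : 6 * (4 * (g : ℝ) * M + 1) / n = 6 * (4 * g * M / n + 1 / n) := by ring
    rw [e]; linarith
  · have hc : (P.card : ℝ) ≠ 0 := by exact_mod_cast pne.card_pos.ne'
    simp only [ip, Pi.sub_apply, sub_mul, sum_sub_distrib]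
    rw [sum_un_mul hP, sum_un_mul hQ, sum_congr rfl fun x hx => h1 x (hP hx) (pz x hx).2.1 (pz x hx).2.2,
      sum_congr rfl fun x hx => h0 x (hQ hx) (qz x hx).2.1 (qz x hx).2.2]
    simp [div_self hc]

/-- forces on pinned sites are not seen -/
theorem vr_off {V : Type*} [DecidableEq V] (m : Mdl V) {f g : V → ℝ} (h : ∀ x ∈ m.A, f x = g x) :
    Vr (m.W 0) (pr f) (pr f) = Vr (m.W 0) (pr g) (pr g) := by
  have e : ∀ s, m.W 0 s ≠ 0 → pr f s = pr g s := fun s hs =>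
    pr_congr fun x hx => h x (by_contra fun h' => hx (by simpa using Mdl.W_ne_zero hs h'))
  exact Vr_congr e e

theorem mem_nb {ρ r : ℕ} {i x : Pt} : x ∈ nb ρ i r ↔
    max (max (ρ * i.1 - x.1) (x.1 - (ρ * i.1 + ρ - 1))) (max (ρ * i.2 - x.2) (x.2 - (ρ * i.2 + ρ - 1))) ≤ r := by
  rw [nb, mem_sq]
  simp only [max_le_iff]
  push_cast
  omega

/-- a square inside the box that contains the part of the cell inside the box -/
theorem exists_cell {ρ P : ℕ} {i : Pt} (hi : i ∈ sq 0 P) : ∃ (a : Pt) (n : ℕ), ρ ≤ n ∧ n ≤ 2 * ρ ∧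
    sq a n ⊆ sq 0 (P * ρ) ∧ ∀ x ∈ sq 0 (P * ρ), x ∈ nb ρ i (ρ / 2) → x ∈ sq a n := by
  rw [mem_sq] at hi
  simp only [Prod.fst_zero, Prod.snd_zero, zero_add] at hi
  have hP : 1 ≤ P := by omega
  have h0 : ρ ≤ P * ρ := Nat.le_mul_of_pos_left _ hP
  refine ⟨(max 0 (min (ρ * i.1 - (ρ / 2 : ℕ)) ((P * ρ : ℕ) - (min (2 * ρ) (P * ρ) : ℕ))),
    max 0 (min (ρ * i.2 - (ρ / 2 : ℕ)) ((P * ρ : ℕ) - (min (2 * ρ) (P * ρ) : ℕ)))),
    min (2 * ρ) (P * ρ), by omega, by omega, fun x => ?_, fun x => ?_⟩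
  · simp only [mem_sq, Prod.fst_zero, Prod.snd_zero]
    generalize P * ρ = N at *
    generalize (ρ : ℤ) * i.1 = A
    generalize (ρ : ℤ) * i.2 = B
    omega
  · simp only [nb, mem_sq, Prod.fst_zero, Prod.snd_zero]
    generalize P * ρ = N at *
    generalize (ρ : ℤ) * i.1 = A
    generalize (ρ : ℤ) * i.2 = B
    omega

theorem ms_ctr {Λ : Lat} (h : Λ.Ok) (B : Finset Pt) {μ : ℝ} (hμ : 0 < μ) : (ms Λ B μ).Ctr :=
  (h.ctr_N B).mulSite fun _ _ =>
    ⟨(gauStmt _ (inv_pos.2 hμ)).1.cen.toRSD, (gauStmt _ (inv_pos.2 hμ)).1.pd, gau_pos _ _⟩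

theorem ms_anch (Λ : Lat) (B : Finset Pt) {μ : ℝ} (hμ : 0 < μ) : (ms Λ B μ).Anch := fun x _ =>
  ⟨x, Relation.ReflTransGen.refl, Or.inr (by
    have : (ms Λ B μ).site x = gau μ⁻¹ := funext fun k => by simp [ms]
    rw [this]; exact (gauStmt _ (inv_pos.2 hμ)).1.cen.se)⟩

theorem pr_fu (Λ : Lat) (L : ℕ) (θ μ : ℝ) (u : Pt → ℝ) : pr (fu Λ L θ μ u) =
    Λ.X L (θ⁻¹ • u) + pr fun x => μ * (ind (x ∈ sq 0 L) * u x) := by
  rw [Lat.X, Lat.Au_smul, ← pr_add]
  congr 1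
  funext x
  simp only [fu, Pi.add_apply, Pi.smul_apply, smul_eq_mul]
  ring

theorem fu_sum {ι : Type*} (Λ : Lat) (L : ℕ) (θ μ : ℝ) (T : Finset ι) (z : ι → ℝ) (u : ι → Pt → ℝ) :
    pr (fu Λ L θ μ (∑ j ∈ T, z j • u j)) = zl T (fun j => pr (fu Λ L θ μ (u j))) z := by
  simp only [zl, ← pr_smul, ← pr_sum]
  congr 1
  funext x
  simp only [fu, Lat.Au_sum, Lat.Au_smul, Finset.sum_apply, Pi.smul_apply, smul_eq_mul, sum_div,
    mul_sum, ← sum_add_distrib]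
  exact sum_congr rfl fun j _ => by ring

theorem vu_sum {ι : Type*} (Λ : Lat) (L : ℕ) (θ μ : ℝ) (T : Finset ι) (z : ι → ℝ) (u : ι → Pt → ℝ)
    (h : ∀ i ∈ T, ∀ j ∈ T, i ≠ j → Λ.En (sq 0 L) (u i) (u j) = 0 ∧ ip (sq 0 L) (u i) (u j) = 0) :
    vu Λ L θ μ (∑ j ∈ T, z j • u j) = ∑ j ∈ T, vu Λ L θ μ (u j) * z j ^ 2 := by
  have key : ∀ {α : Type} (E : Finset α) (a : ι → α → ℝ) (c : ℝ),
      ∑ e ∈ E, (∑ j ∈ T, z j * a j e) * (∑ j ∈ T, z j * a j e) / c =
        ∑ i ∈ T, ∑ j ∈ T, z i * z j * ∑ e ∈ E, a i e * a j e / c := by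
    intro α E a c
    simp only [sum_mul_sum, sum_div]
    rw [sum_comm]
    refine sum_congr rfl fun i _ => ?_
    rw [sum_comm]
    refine sum_congr rfl fun j _ => ?_
    rw [mul_sum]
    exact sum_congr rfl fun e _ => by ring
  have e1 : Λ.En (sq 0 L) (∑ j ∈ T, z j • u j) (∑ j ∈ T, z j • u j) =
      ∑ i ∈ T, ∑ j ∈ T, z i * z j * Λ.En (sq 0 L) (u i) (u j) := by
    simp only [Lat.En, Finset.sum_apply, Pi.smul_apply, smul_eq_mul, ← sum_sub_distrib, ← mul_sub]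
    exact key (Λ.edI (sq 0 L)) (fun i (e : Pt × Pt) => u i e.2 - u i e.1) Λ.τ
  have e2 : ip (sq 0 L) (∑ j ∈ T, z j • u j) (∑ j ∈ T, z j • u j) =
      ∑ i ∈ T, ∑ j ∈ T, z i * z j * ip (sq 0 L) (u i) (u j) := by
    simp only [ip, Finset.sum_apply, Pi.smul_apply, smul_eq_mul]
    simpa only [div_one] using key (sq 0 L) u 1
  rw [vu, e1, e2, sum_div, mul_sum, ← sum_add_distrib]
  refine sum_congr rfl fun i hi => ?_
  rw [sum_eq_single_of_mem i hi fun j hj hne => by rw [(h i hi j hj hne.symm).1, mul_zero],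
    sum_eq_single_of_mem i hi fun j hj hne => by rw [(h i hi j hj hne.symm).2, mul_zero], vu]
  ring

theorem vu_nonneg {Λ : Lat} (h : Λ.Ok) (L : ℕ) {θ μ : ℝ} (hθ : 0 ≤ θ) (hμ : 0 ≤ μ) (u : Pt → ℝ) :
    0 ≤ vu Λ L θ μ u :=
  add_nonneg (div_nonneg (h.En_nonneg _ _) hθ)
    (mul_nonneg hμ (sum_nonneg fun _ _ => mul_self_nonneg _))

/-- the variance form of MUP, after pinning a set that carries the charge of the flow -/
theorem mup_vr {Λ : Lat} (hΛ : Λ.Ok) {L : ℕ} {θ μ ε : ℝ} (hθ : 0 < θ) (hμ : 0 < μ) {u : Pt → ℝ}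
    {φ : Pt × Pt → ℝ} {S : Finset Pt} (hS : Sup S (dv (Λ.edI (sq 0 L)) φ))
    (h : M ((ms Λ (sq 0 L) μ).W 0) (Λ.X L (θ⁻¹ • u) + pr (dv (Λ.edI (sq 0 L)) φ) +
        pr fun x => μ * (ind (x ∈ sq 0 L) * u x)) ≤
      (θ * Λ.En (sq 0 L) (θ⁻¹ • u) (θ⁻¹ • u) +
        2 * θ * ∑ e ∈ Λ.edI (sq 0 L), φ e * ((θ⁻¹ • u) e.2 - (θ⁻¹ • u) e.1) +
        Λ.τ * ∑ e ∈ Λ.edI (sq 0 L), φ e ^ 2 +
        ip (sq 0 L) (fun x => μ * (ind (x ∈ sq 0 L) * u x)) (fun x => μ * (ind (x ∈ sq 0 L) * u x)) / μ) /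
        2 + ε) :
    Vr (((ms Λ (sq 0 L) μ).free ((ms Λ (sq 0 L) μ).A \ S)).W 0) (pr (fu Λ L θ μ u)) (pr (fu Λ L θ μ u)) ≤
      vu Λ L θ μ u + 2 * ∑ e ∈ Λ.edI (sq 0 L), φ e * (u e.2 - u e.1) +
        Λ.τ * ∑ e ∈ Λ.edI (sq 0 L), φ e ^ 2 + 2 * ε := by
  have hc := ms_ctr hΛ (sq 0 L) hμ
  have ha := ms_anch Λ (sq 0 L) hμ
  set m := ms Λ (sq 0 L) μ
  rw [vr_off (m.free (m.A \ S)) (g := fu Λ L θ μ u + dv (Λ.edI (sq 0 L)) φ) fun x hx => by
    rw [Pi.add_apply, hS x (mem_sdiff.1 hx).2, add_zero]]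
  refine ((loc_free hc ha sdiff_subset).vr_le'
    ((hc.free sdiff_subset).cen (ha.free sdiff_subset)) (hc.cen ha) _).trans ?_
  have h1 := (hc.cen ha).vr_le_M (pr (fu Λ L θ μ u + dv (Λ.edI (sq 0 L)) φ))
  have e0 : pr (fu Λ L θ μ u + dv (Λ.edI (sq 0 L)) φ) = Λ.X L (θ⁻¹ • u) + pr (dv (Λ.edI (sq 0 L)) φ) +
      pr fun x => μ * (ind (x ∈ sq 0 L) * u x) := by rw [pr_add, pr_fu, add_right_comm]
  rw [← e0] at h
  have e1 : θ * Λ.En (sq 0 L) (θ⁻¹ • u) (θ⁻¹ • u) = Λ.En (sq 0 L) u u / θ := by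
    rw [Lat.En_smul_smul]; field_simp
  have e2 : 2 * θ * ∑ e ∈ Λ.edI (sq 0 L), φ e * ((θ⁻¹ • u) e.2 - (θ⁻¹ • u) e.1) =
      2 * ∑ e ∈ Λ.edI (sq 0 L), φ e * (u e.2 - u e.1) := by
    rw [mul_assoc, mul_sum]
    congr 1
    refine sum_congr rfl fun e _ => ?_
    simp only [Pi.smul_apply, smul_eq_mul]
    field_simp
  have e3 : ip (sq 0 L) (fun x => μ * (ind (x ∈ sq 0 L) * u x))
      (fun x => μ * (ind (x ∈ sq 0 L) * u x)) / μ = μ * ip (sq 0 L) u u := by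
    simp only [ip, sum_div, mul_sum]
    refine sum_congr rfl fun x hx => ?_
    rw [ind_pos hx]
    field_simp
  rw [e1, e2, e3] at h
  unfold vu
  linarith

end Hit58

open Hit58

theorem rowStmt : RowStmt := by
  intro F
  set K₁ : ℝ := 6 * (4 * F.base.rg * (32 : ℕ) + 1) with hK₁
  have k1 : 0 < K₁ := by positivity
  refine ⟨K₁ + F.base.Jp.card * K₁ ^ 2, 16 * F.base.rg + 8,
    fun Λ hΛ ρ P hρ i hi K u u1 u0 hit => ?_⟩
  obtain ⟨a, n, n1, n2, hsub, hin⟩ := exists_cell (ρ := ρ) hi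
  rw [← hΛ.rg_eq] at hρ
  have meets : ∀ α : ℕ, α ≤ ρ / 4 → Meets (sq a n) (· ∈ K) (fun x =>
      max (max (ρ * i.1 - x.1) (x.1 - (ρ * i.1 + ρ - 1)))
        (max (ρ * i.2 - x.2) (x.2 - (ρ * i.2 + ρ - 1)))) Λ.rg α (ρ / 8) := by
    intro α hα t h1 h2
    lift t to ℕ using by omega
    obtain ⟨x, hK, hx, h3, h4⟩ := hit t (by omega)
    refine ⟨x, hin x hx (mem_nb.2 ((mem_nb.1 h3).trans (by omega))), hK,
      not_le.1 fun h => h4 (mem_nb.2 h), by exact_mod_cast mem_nb.1 h3⟩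
  obtain ⟨η, hη, hf, hip⟩ := rows (d₁ := fun t => max (ρ * i.1 - t) (t - (ρ * i.1 + ρ - 1)))
    (d₂ := fun t => max (ρ * i.2 - t) (t - (ρ * i.2 + ρ - 1))) (M := 32) hΛ.ok hΛ.ok.one_le_rg
    (by omega) (by omega) (meets 0 (by omega)) (meets (ρ / 4) le_rfl)
  rw [hΛ.rg_eq, ← hK₁] at hf
  obtain ⟨φ, rfl, hφ⟩ := hf
  have hE := Lat.edI_mono (Λ := Λ) hsub
  have hρ0 : (0 : ℝ) < ρ := by exact_mod_cast (by omega : 0 < ρ)
  have hn0 : (0 : ℝ) < n := by exact_mod_cast (by omega : 0 < n)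
  have n1' : (ρ : ℝ) ≤ n := by exact_mod_cast n1
  have hA : (0 : ℝ) ≤ F.base.Jp.card * K₁ ^ 2 := by positivity
  refine ⟨fun e => if e ∈ Λ.edI (sq a n) then φ e else 0, fun e _ => ?_, ?_, ?_, ?_⟩
  · dsimp only
    split_ifs with h
    · exact (hφ e h).trans (by gcongr; linarith)
    · rw [abs_zero]; positivity
  · simp only [ite_pow, ne_eq, OfNat.ofNat_ne_zero, not_false_eq_true, zero_pow, sum_ite_mem,
      inter_eq_right.2 hE]
    refine (sum_le_card_nsmul _ _ ((K₁ / n) ^ 2) fun e he =>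
      sq_le_sq' (abs_le.1 (hφ e he)).1 (abs_le.1 (hφ e he)).2).trans ?_
    have h4 : ((Λ.edI (sq a n)).card : ℝ) ≤ n * n * F.base.Jp.card := by
      have := card_edI_le Λ (sq a n)
      rw [sq_eq_rc, card_rc, hΛ.Jp_eq] at this
      exact_mod_cast this
    rw [nsmul_eq_mul]
    refine (mul_le_mul_of_nonneg_right h4 (sq_nonneg _)).trans ?_
    have e : (n : ℝ) * n * F.base.Jp.card * (K₁ / n) ^ 2 = F.base.Jp.card * K₁ ^ 2 := by field_simp
    rw [e]; linarith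
  · rw [← dv_extend hE]
    exact fun x hx => by_contra fun h => hx (hη x h)
  · simp only [ite_mul, zero_mul, sum_ite_mem, inter_eq_right.2 hE]
    rw [← ip_dv φ (Lat.edI_ends _)]
    refine hip u (fun x _ _ h => u1 x (mem_nb.2 (by simpa using h))) fun x _ h _ =>
      u0 x fun h' => absurd (mem_nb.1 h') (not_le.2 h)

theorem tvStmt (hR : RowStmt) (hC : CelStmt) (hM : MupStmt) (hP : PhmStmt) (hH : HsStmt)
    (hT : T1mStmt) : TvStmt := by
  intro F
  obtain ⟨C₁, ρ₁, hR⟩ := hR F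
  obtain ⟨C₂, ρ₂, hC⟩ := hC F
  set A : ℝ := |F.τ₂| * |C₁| + 1 with hA
  have A0 : 0 < A := by positivity
  refine ⟨1 / (2 * A), by positivity, fun θ₀ K ε hθ hK hε => ?_⟩
  have K0 : 0 < K := by linarith
  obtain ⟨R, η, R0, η0, hH⟩ := hH (⌈K⌉₊ ^ 2) K ε hε
  obtain ⟨δ₁, d1, hT⟩ := hT.2.2 F θ₀ 1 0 hθ one_pos
  set ε' : ℝ := min ε (1 / (2 * A)) / 2 with hε'
  have e0 : 0 < ε' := by rw [hε']; exact half_pos (lt_min hε (by positivity))
  set K₁ : ℝ := 2 / θ₀ * (|C₂| * K ^ 2) + |C₁| * K / A with hK₁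
  set K₂ : ℝ := K + K ^ 2 * (R * (|C₂| * K ^ 2)) + K ^ 2 * R with hK₂
  have hK₂1 : 1 ≤ K₂ := by
    have : 0 ≤ K ^ 2 * (R * (|C₂| * K ^ 2)) + K ^ 2 * R := by positivity
    linarith
  refine exists_of_ev ?_
  filter_upwards [ev_sep_mem (hM F K₁ ε' e0), Soft.ev hP F hθ hK₂1 η0, ev_le d1,
    ev_large' (K * (ρ₁ + ρ₂ + 8))] with δ hM hP hδ hL Λ hΛ l L hw μ ρ P hLP hPK μ1 μ2
  have L0 := hw.L_pos'
  have θ1 : θ₀ / 2 ≤ Λ.tN l := (hT Λ hΛ l L (hw.mono_d hδ)).2.1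
  have θ0 : 0 < Λ.tN l := by linarith
  have μ0 : 0 < μ := by
    by_contra h
    have : μ * (L : ℝ) ^ 2 ≤ 0 := mul_nonpos_of_nonpos_of_nonneg (not_lt.1 h) (sq_nonneg _)
    linarith
  have hLP' : (L : ℝ) = P * ρ := by exact_mod_cast hLP
  have ρ0 : (0 : ℝ) ≤ ρ := Nat.cast_nonneg ρ
  have hLK : (L : ℝ) ≤ K * ρ := hLP'.le.trans (by gcongr)
  have hρ : ρ₁ + ρ₂ + 8 ≤ ρ := by
    have := le_of_mul_le_mul_left ((hL l L hw.sep).2.2.trans hLK) K0
    exact_mod_cast this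
  have ρp : (0 : ℝ) < ρ := by exact_mod_cast (by omega : 0 < ρ)
  have h8 : 8 ∣ ρ := by
    obtain ⟨j, hj⟩ := hw.dyadic
    obtain ⟨k, -, rfl⟩ := (Nat.dvd_prime_pow Nat.prime_two).1 (⟨P, by rw [← hj, hLP, mul_comm]⟩ : ρ ∣ 2 ^ j)
    have : 3 ≤ k := by
      by_contra h
      have : 2 ^ k ≤ 2 ^ 2 := Nat.pow_le_pow_right two_pos (by omega)
      omega
    exact pow_dvd_pow 2 this
  have cel := hC Λ hΛ ρ P (by omega) h8
  have sm : ∀ i ∈ sq 0 P, Sm2 (ub ρ i) (|C₂| * K ^ 2) L := fun i hi =>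
    ((cel i hi).1.mono ρp (le_abs_self _)).scale_up ρp L0 hK hLK
  subst hLP
  refine ⟨fun i hi S => ?_, fun g hg hcl => ?_⟩
  · have a1 : 0 ≤ 2 / θ₀ * (|C₂| * K ^ 2) := by positivity
    have a2 : 0 ≤ |C₁| * K / A := by positivity
    have smθ : Sm2 ((Λ.tN l)⁻¹ • ub ρ i) K₁ (P * ρ : ℕ) := ((sm i hi).smul _).mono L0 (by
      have : |(Λ.tN l)⁻¹| ≤ 2 / θ₀ := by
        rw [abs_of_pos (inv_pos.2 θ0), inv_le_comm₀ θ0 (by positivity), inv_div]; exact θ1
      have := mul_le_mul_of_nonneg_right this (by positivity : 0 ≤ |C₂| * K ^ 2)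
      linarith)
    have e1 : 2 * ε' ≤ ε := by rw [hε']; linarith [min_le_left ε (1 / (2 * A))]
    have e2 : 2 * ε' ≤ 1 / (2 * A) := by rw [hε']; linarith [min_le_right ε (1 / (2 * A))]
    refine ⟨?_, fun hit => ?_⟩
    · have := mup_vr (S := S) hΛ.ok θ0 μ0 (by rw [dv_zero]; exact fun _ _ => rfl)
        (hM Λ hΛ l _ hw.sep μ _ _ (fun _ => 0) μ0 smθ fun e _ => by
          rw [abs_zero]; exact div_nonneg (by linarith) L0.le)
      simp only [zero_mul, sum_const_zero, mul_zero, add_zero, ne_eq, OfNat.ofNat_ne_zero,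
        not_false_eq_true, zero_pow] at this
      exact this.trans (by linarith)
    · obtain ⟨φ, h1, h2, h3, h4⟩ := hR Λ hΛ ρ P (by omega) i hi S (ub ρ i) (cel i hi).2.2.1
        (cel i hi).2.2.2.1 hit
      have := mup_vr (S := S) (φ := fun e => -(1 / A) * φ e) hΛ.ok θ0 μ0 (by
          rw [dv_smul]; intro x hx; simp [h3 x hx])
        (hM Λ hΛ l _ hw.sep μ _ _ _ μ0 smθ fun e he => by
          rw [abs_mul, abs_neg, abs_of_pos (by positivity)]
          have b1 : |φ e| ≤ |C₁| * K / (P * ρ : ℕ) := (h1 e he).trans (by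
            rw [div_le_div_iff₀ ρp L0]
            have := mul_le_mul (le_abs_self C₁) hLK L0.le (abs_nonneg _)
            linarith)
          refine (mul_le_mul_of_nonneg_left b1 (by positivity)).trans ?_
          have : 1 / A * (|C₁| * K / (P * ρ : ℕ)) = |C₁| * K / A / (P * ρ : ℕ) := by ring
          rw [this]
          gcongr
          linarith)
      simp only [mul_assoc, ← mul_sum, h4, mul_pow, neg_sq] at this
      refine this.trans ?_
      have b2 : Λ.τ * ∑ e ∈ Λ.edI (sq 0 (P * ρ)), φ e ^ 2 ≤ A := by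
        have := mul_le_mul (hΛ.tau_le.trans (le_abs_self _)) (h2.trans (le_abs_self _))
          (sum_nonneg fun _ _ => sq_nonneg _) (abs_nonneg _)
        linarith
      have b3 : Λ.τ * ((1 / A) ^ 2 * ∑ e ∈ Λ.edI (sq 0 (P * ρ)), φ e ^ 2) ≤ 1 / A := by
        have := mul_le_mul_of_nonneg_left b2 (sq_nonneg (1 / A))
        have e : (1 / A) ^ 2 * A = 1 / A := by field_simp
        linarith
      have e3 : 1 / A = 2 * (1 / (2 * A)) := by field_simp
      linarith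
  · have hcard : g.card ≤ P * P := by
      have := card_le_card hg
      rwa [sq_eq_rc, card_rc] at this
    have hPK' : P ≤ ⌈K⌉₊ := by exact_mod_cast hPK.trans (Nat.le_ceil K)
    have hcard' : (g.card : ℝ) ≤ K ^ 2 := by
      have : (g.card : ℝ) ≤ P * P := by exact_mod_cast hcard
      nlinarith [mul_le_mul hPK hPK (Nat.cast_nonneg P) K0.le]
    refine (hH (Cfg Pt) Pt _ g _ ((ms_ctr hΛ.ok _ μ0).cen (ms_anch Λ _ μ0))
      (hcard.trans (by rw [pow_two]; exact Nat.mul_le_mul hPK' hPK'))).2.1 _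
      (fun j _ => vu_nonneg hΛ.ok _ θ0.le μ0.le _) fun z hz => ?_
    rw [← fu_sum, ← vu_sum Λ _ _ _ g z _ fun i hi j hj hne =>
      (cel i (hg hi)).2.2.2.2.2.2 j (hg hj) hne (hcl i hi j hj)]
    have a1 : 0 ≤ K ^ 2 * (R * (|C₂| * K ^ 2)) := by positivity
    have a2 : 0 ≤ K ^ 2 * R := by positivity
    refine hP Λ hΛ l _ hw μ _ μ1 (by linarith) ?_ fun x _ => ?_
    · have := Sm2.sum g (f := fun j => z j • ub ρ j) (k := fun _ => R * (|C₂| * K ^ 2)) L0.le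
        fun j hj => ((sm j (hg hj)).smul _).mono L0 (by gcongr; exact hz j hj)
      rw [sum_const, nsmul_eq_mul] at this
      have e : (fun x => ∑ j ∈ g, (z j • ub ρ j) x) = ∑ j ∈ g, z j • ub ρ j :=
        funext fun x => (Finset.sum_apply _ _ _).symm
      rw [e] at this
      refine this.mono L0 ?_
      have := mul_le_mul_of_nonneg_right hcard' (by positivity : 0 ≤ R * (|C₂| * K ^ 2))
      linarith
    · rw [Finset.sum_apply]
      refine (abs_sum_le_sum_abs _ _).trans ((sum_le_card_nsmul _ _ R fun j hj => ?_).trans ?_)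
      · have := (cel j (hg hj)).2.1 x
        rw [Pi.smul_apply, smul_eq_mul, abs_mul, abs_of_nonneg this.1]
        exact (mul_le_of_le_one_right (abs_nonneg _) this.2).trans (hz j hj)
      · rw [nsmul_eq_mul]
        have := mul_le_mul_of_nonneg_right hcard' R0.le
        linarith

end Crest.Agent.T145.Mx
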