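import Crest.Agent.T145.MxDef_9
import Crest.Agent.T145.GsR_85
import Crest.Agent.T145.CorB_59

/-!
# Row 145, module Mx (helper41): Hubbard-Stratonovich bounds and the integrated Stein identity
-/

set_option autoImplicit false

namespace Crest.Agent.T145.Mx

open Finset Matrix MeasureTheory

namespace H41

/-- Fubini for `Ex` on an arbitrary type -/
theorem ex_integral {α β : Type*} [MeasurableSpace β] {W : α → ℝ} (hW : Wt W) (μ : Measure β)
    [IsProbabilityMeasure μ] {F : α → β → ℝ} (hF : ∀ a, Measurable (F a)) (h1 : ∀ a b, |F a b| ≤ 1) :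
    Ex W (fun a => ∫ b, F a b ∂μ) = ∫ b, Ex W (fun a => F a b) ∂μ := by
  have hc : Countable (Function.support W) := hW.summ.countable_support.to_subtype
  have hs : ∀ G : α → ℝ, ∑' a, W a * G a = ∑' a : Function.support W, W a * G a := fun G =>
    (tsum_subtype_eq_of_support_subset (f := fun a => W a * G a) fun a ha =>
      left_ne_zero_of_mul ha).symm
  have hi : ∀ a : Function.support W, Integrable (fun b => W a * F a b) μ := fun a =>
    (Gs.int_bdd (hF a) (h1 a)).const_mul _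
  simp only [Ex_def, hs]
  rw [integral_div, ← integral_tsum_of_summable_integral_norm hi]
  · simp only [integral_const_mul]
  · refine Summable.of_nonneg_of_le (fun a => integral_nonneg fun b => norm_nonneg _) (fun a => ?_)
      (hW.summ.subtype _)
    have := norm_integral_le_of_norm_le_const (μ := μ) (C := W a) (f := fun b => ‖W a * F a b‖)
      (Filter.Eventually.of_forall fun b => by
        rw [norm_norm, norm_mul, Real.norm_of_nonneg (hW.nonneg a)]
        exact mul_le_of_le_one_right (hW.nonneg a) (h1 a b))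
    simp only [probReal_univ, mul_one] at this
    exact (le_abs_self _).trans this

variable {L ι : Type} [AddCommGroup L] {W : L → ℝ}

open Classical in
/-- extension by zero -/
noncomputable def ex0 (T : Finset ι) (z : T → ℝ) (j : ι) : ℝ := if h : j ∈ T then z ⟨j, h⟩ else 0

theorem ex0_coe (T : Finset ι) (z : T → ℝ) (j : T) : ex0 T z j = z j := by simp [ex0]

theorem abs_ex0 {T : Finset ι} {z : T → ℝ} {R : ℝ} (h : ‖z‖ ≤ R) : ∀ j ∈ T, |ex0 T z j| ≤ R :=
  fun j hj => by rw [ex0_coe T z ⟨j, hj⟩]; exact (norm_le_pi_norm z ⟨j, hj⟩).trans h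

theorem sum_ex0 (T : Finset ι) (z : T → ℝ) (φ : ι → ℝ → ℝ) :
    ∑ j ∈ T, φ j (ex0 T z j) = ∑ j : T, φ j (z j) := by
  rw [← sum_coe_sort T]; simp only [ex0_coe]

theorem zl_ex0 (T : Finset ι) (ℓ : ι → L →+ ℝ) (z : T → ℝ) (s : L) :
    zl T ℓ (ex0 T z) s = (fun j : T => ℓ j s) ⬝ᵥ z := by
  rw [zl, AddMonoidHom.finsetSum_apply]
  simp only [AddMonoidHom.smul_apply, smul_eq_mul]
  rw [sum_ex0 T z fun j x => x * ℓ j s, dotProduct_comm]; rfl

theorem cont_ph (hW : Wt W) (T : Finset ι) (ℓ : ι → L →+ ℝ) (X : L →+ ℝ) :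
    Continuous fun z : T → ℝ => Ph W (X + zl T ℓ (ex0 T z)) := by
  simp only [Ph, Ex_def, AddMonoidHom.add_apply, zl_ex0]
  refine (continuous_tsum (fun s => ?_) hW.summ fun s z => ?_).div_const _
  · exact continuous_const.mul (Real.continuous_cos.comp (continuous_const.add (Gs.cont_dot _)))
  · rw [norm_mul, Real.norm_of_nonneg (hW.nonneg s)]
    exact mul_le_of_le_one_right (hW.nonneg s) (Real.abs_cos_le_one _)

/-- Hubbard-Stratonovich -/
theorem hs_eq [DecidableEq ι] (hW : Wt W) (T : Finset ι) (ℓ : ι → L →+ ℝ) (X : L →+ ℝ) :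
    Ex W (fun s => Real.cos (X s) * gq T ℓ s) =
      ∫ z, Ph W (X + zl T ℓ (ex0 T z)) ∂(Gs.gm (1 : Matrix T T ℝ)) := by
  simp only [Ph, AddMonoidHom.add_apply, zl_ex0]
  rw [← ex_integral hW _ (F := fun s z => Real.cos (X s + (fun j : T => ℓ j s) ⬝ᵥ z))
    (fun s => (Real.continuous_cos.comp (continuous_const.add (Gs.cont_dot _))).measurable)
    fun _ _ => Real.abs_cos_le_one _]
  congr 1
  funext s
  simp_rw [add_comm (X s)]
  rw [Gs.integral_cos PosSemidef.one, mul_comm, one_mulVec, gq, ← sum_coe_sort T]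
  simp only [dotProduct, pow_two]

theorem exp_half : Real.exp (1 / 2) ≤ 2 := by
  have := Real.exp_one_lt_d9
  have h3 : Real.exp (1 / 2) * Real.exp (1 / 2) = Real.exp 1 := by rw [← Real.exp_add]; norm_num
  nlinarith [Real.exp_pos (1 / 2)]

/-- truncation of a standard Gaussian integral -/
theorem trunc {κ : Type} [Fintype κ] [DecidableEq κ] {G B : (κ → ℝ) → ℝ} {R η : ℝ} (hη : 0 ≤ η)
    (hG : Continuous G) (h1 : ∀ z, |G z| ≤ 1) (hB : Integrable B (Gs.gm (1 : Matrix κ κ ℝ)))
    (h0 : ∀ z, 0 ≤ B z) (h : ∀ z, ‖z‖ ≤ R → G z ≤ B z + η) :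
    ∫ z, G z ∂(Gs.gm (1 : Matrix κ κ ℝ)) ≤
      ∫ z, B z ∂(Gs.gm (1 : Matrix κ κ ℝ)) + η + Real.exp (-R) * (1 + 4 * Fintype.card κ) := by
  have i3 := (Gs.int_exp_norm (1 : Matrix κ κ ℝ) 1).const_mul (Real.exp (-R))
  have h4 := integral_mono (Gs.int_bdd hG.measurable h1) ((hB.add (integrable_const η)).add i3)
    fun z => by
      simp only [Pi.add_apply]
      rcases le_or_gt ‖z‖ R with hz | hz
      · exact (h z hz).trans (le_add_of_nonneg_right (by positivity))
      · have h3 : 1 ≤ Real.exp (-R) * Real.exp (1 * ‖z‖) := by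
          rw [← Real.exp_add]; exact Real.one_le_exp (by linarith)
        linarith [h0 z, (abs_le.1 (h1 z)).2]
  rw [integral_add' (hB.add (integrable_const η)) i3, integral_add' hB (integrable_const η),
    integral_const_mul] at h4
  have h5 := Gs.integral_exp_norm_le (B := (1 : Matrix κ κ ℝ)) PosSemidef.one (K := 1)
    (fun i => by simp) 1
  simp only [integral_const, probReal_univ, smul_eq_mul, one_mul, one_pow] at h4 h5
  refine h4.trans (add_le_add_right (mul_le_mul_of_nonneg_left (h5.trans ?_) (Real.exp_pos _).le) _)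
  have : (0 : ℝ) ≤ Fintype.card κ := Nat.cast_nonneg _
  nlinarith [exp_half]

theorem int_diag [DecidableEq ι] (T : Finset ι) {v : ι → ℝ} (hv : ∀ j ∈ T, 0 ≤ v j) :
    Integrable (Gs.gw (diagonal fun j : T => v j)) (Gs.gm (1 : Matrix T T ℝ)) ∧
      ∫ z, Gs.gw (diagonal fun j : T => v j) z ∂(Gs.gm (1 : Matrix T T ℝ)) =
        ∏ j ∈ T, 1 / Real.sqrt (1 + v j) := by
  have hC : (diagonal fun t : T => v t).PosSemidef := PosSemidef.diagonal fun t => hv t t.2
  refine ⟨Gs.int_gw_gm PosSemidef.one (Gs.tOk_of_psd _ hC), ?_⟩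
  rw [Gs.integral_gw_gm PosSemidef.one (Gs.tOk_of_psd _ hC), Matrix.mul_one, ← diagonal_one,
    diagonal_add, det_diagonal, prod_coe_sort T fun t => 1 + v t,
    Real.sqrt_prod _ fun t ht => add_nonneg zero_le_one (hv t ht), prod_div_distrib, prod_const_one,
    one_div]

theorem gw_diag [DecidableEq ι] (T : Finset ι) (v : ι → ℝ) (z : T → ℝ) :
    Gs.gw (diagonal fun j : T => v j) z = Real.exp (-(∑ j ∈ T, v j * ex0 T z j ^ 2) / 2) := by
  rw [sum_ex0 T z fun j x => v j * x ^ 2, Gs.gw]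
  simp only [dotProduct, mulVec_diagonal]
  congr 3
  exact sum_congr rfl fun t _ => by ring

end H41

open H41 in
theorem hsStmt : HsStmt := by
  intro n K ε hε
  obtain ⟨R, hR0, hR⟩ : ∃ R : ℝ, 0 < R ∧ Real.exp (-R) * (1 + 4 * n) ≤ ε / 2 := by
    refine ⟨2 * (1 + 4 * n) / ε, by positivity, ?_⟩
    have h1 := Real.add_one_le_exp (2 * (1 + 4 * n) / ε)
    have h2 : 2 * (1 + 4 * n) / ε ≤ Real.exp (2 * (1 + 4 * n) / ε) := by linarith
    rw [div_le_iff₀ hε] at h2
    rw [Real.exp_neg, inv_mul_le_iff₀ (Real.exp_pos _)]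
    linarith
  refine ⟨R + |K|, ε / 2, by positivity, half_pos hε, fun L ι _ _ ρ T ℓ hc hT => ?_⟩
  classical
  have hW := hc.wt
  have hRK : R ≤ R + |K| := le_add_of_nonneg_right (abs_nonneg _)
  have tail : Real.exp (-R) * (1 + 4 * Fintype.card T) ≤ ε / 2 := by
    refine le_trans ?_ hR
    rw [Fintype.card_coe]
    have : (T.card : ℝ) ≤ n := by exact_mod_cast hT
    gcongr
  have e0 : Ex ρ (gq T ℓ) = ∫ z, Ph ρ (zl T ℓ (ex0 T z)) ∂(Gs.gm (1 : Matrix T T ℝ)) := by
    simpa using hs_eq hW T ℓ 0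
  have c0 : Continuous fun z : T → ℝ => Ph ρ (zl T ℓ (ex0 T z)) := by simpa using cont_ph hW T ℓ 0
  refine ⟨fun X h => ?_, fun v hv h => ?_, fun X h E hh H => ?_⟩
  · have := trunc (B := fun _ => 0) (R := R) (half_pos hε).le (cont_ph hW T ℓ X)
      (fun _ => hW.abs_Ph_le _) (integrable_const _) (fun _ => le_rfl) fun z hz => by
        rw [zero_add]; exact h _ (abs_ex0 (hz.trans hRK))
    rw [hs_eq hW]
    rw [integral_zero] at this
    linarith
  · have := trunc (R := R) (half_pos hε).le c0 (fun _ => hW.abs_Ph_le _) (int_diag T hv).1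
      (fun _ => (Gs.gw_pos _ _).le) fun z hz => by
        rw [gw_diag]; exact h _ (abs_ex0 (hz.trans hRK))
    rw [(int_diag T hv).2, ← e0] at this
    linarith
  · set k : T → ℝ := fun j => h j with hk
    have hkK : ‖k‖ ≤ |K| :=
      (pi_norm_le_iff_of_nonneg (abs_nonneg _)).2 fun j => (hh j j.2).trans (le_abs_self _)
    set B : (T → ℝ) → ℝ := fun x => Real.exp (-E / 2 - k ⬝ᵥ x) * Ph ρ (zl T ℓ (ex0 T x)) with hB
    have eB : ∀ x, Gs.cmd (1 : Matrix T T ℝ) k x • B x =
        Real.exp (-(E + ∑ j ∈ T, h j ^ 2) / 2) * Ph ρ (zl T ℓ (ex0 T x)) := by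
      intro x
      rw [smul_eq_mul, hB, Gs.cmd, ← mul_assoc, ← Real.exp_add, one_mulVec, ← sum_coe_sort T]
      congr 2
      simp only [dotProduct, hk, pow_two]
      ring
    have iB : Integrable (fun x => B (x + (1 : Matrix T T ℝ) *ᵥ k)) (Gs.gm (1 : Matrix T T ℝ)) := by
      rw [Gs.int_shift PosSemidef.one]
      simp only [eB]
      exact (Gs.int_bdd c0.measurable fun _ => hW.abs_Ph_le _).const_mul _
    have e1 : ∀ z : T → ℝ, X + zl T ℓ h + zl T ℓ (ex0 T z) = X + zl T ℓ (ex0 T (z + k)) := by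
      intro z
      ext s
      have : zl T ℓ h = zl T ℓ (ex0 T k) := sum_congr rfl fun j hj => by rw [ex0_coe T k ⟨j, hj⟩]
      simp only [AddMonoidHom.add_apply, this, zl_ex0, dotProduct_add]
      ring
    have := trunc (R := R) (half_pos hε).le (cont_ph hW T ℓ (X + zl T ℓ h))
      (fun _ => hW.abs_Ph_le _) iB
      (fun _ => mul_nonneg (Real.exp_pos _).le (hc.ph_pos _).le) fun z hz => by
        rw [e1, one_mulVec]
        have h2 := H _ (abs_ex0 (z := z + k) ((norm_add_le _ _).trans (add_le_add hz hkK)))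
        rw [sum_ex0 T (z + k) fun j x => x * h j] at h2
        simp only [hB]
        rw [dotProduct_comm]
        exact h2
    rw [Gs.integral_shift PosSemidef.one] at this
    simp only [eB] at this
    rw [integral_const_mul, ← e0] at this
    rw [hs_eq hW]
    linarith

theorem odeStmt : OdeStmt := by
  intro L _ _ ρ X ζ E c ε hc hE h
  have hW := hc.wt
  have hX : Ig ρ fun s => |X s| := (hc.se.ig (Tame.hom X)).abs hW.nonneg
  have hφ : ∀ t : ℝ, HasDerivAt (fun y : ℝ => Ph ρ (y • X + ζ))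
      (-Ex ρ fun s => X s * Real.sin ((t • X + ζ) s)) t := by
    intro t
    rw [← Ex_neg]
    refine hasDerivAt_Ex (Φ := fun y s => Real.cos ((y • X + ζ) s))
      (Φ' := fun y s => -(X s * Real.sin ((y • X + ζ) s))) hW.nonneg one_pos hX
      (hW.ig_bdd fun _ => Real.abs_cos_le_one _) (fun s y _ => ?_) fun s y _ => ?_
    · have := (((hasDerivAt_id y).mul_const (X s)).add_const (ζ s)).cos
      simp only [AddMonoidHom.add_apply, AddMonoidHom.smul_apply, smul_eq_mul]
      exact this.congr_deriv (by simp only [id]; ring)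
    · rw [abs_neg, abs_mul]
      exact mul_le_of_le_one_right (abs_nonneg _) (Real.abs_sin_le_one _)
  have hg : ∀ t : ℝ, HasDerivAt (fun y : ℝ => Ph ρ (y • X + ζ) * Real.exp (y ^ 2 * E / 2 + c * y))
      (-((Ex ρ fun s => X s * Real.sin ((t • X + ζ) s)) - (t * E + c) * Ph ρ (t • X + ζ)) *
        Real.exp (t ^ 2 * E / 2 + c * t)) t := by
    intro t
    have h1 := (((((hasDerivAt_pow 2 t).mul_const E).div_const 2).add
      ((hasDerivAt_id t).const_mul c))).exp
    exact ((hφ t).mul h1).congr_deriv (by simp only [Pi.add_apply, id]; push_cast; ring)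
  have hε : 0 ≤ ε := (abs_nonneg _).trans (h 0 le_rfl zero_le_one)
  have key := norm_image_sub_le_of_norm_deriv_le_segment_01'
    (C := ε * Real.exp (E / 2 + c + |c|)) (fun t _ => (hg t).hasDerivWithinAt) fun t ht => by
      rw [Real.norm_eq_abs, abs_mul, abs_neg, abs_of_pos (Real.exp_pos _)]
      refine mul_le_mul (h t ht.1 ht.2.le) (Real.exp_le_exp.2 ?_) (Real.exp_pos _).le hε
      have h1 : t ^ 2 ≤ 1 := pow_le_one₀ ht.1 ht.2.le
      have h2 : 0 ≤ c + |c| := by linarith [neg_abs_le c]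
      nlinarith [mul_le_mul_of_nonneg_right h1 hE, mul_nonneg (sub_nonneg.2 ht.2.le) h2,
        mul_nonneg ht.1 (abs_nonneg c)]
  simp only [one_smul, zero_smul, zero_add, one_pow, one_mul, mul_one, mul_zero, add_zero,
    Real.norm_eq_abs] at key
  have e : Ph ρ (X + ζ) - Real.exp (-E / 2 - c) * Ph ρ ζ =
      Real.exp (-E / 2 - c) * (Ph ρ (X + ζ) * Real.exp (E / 2 + c) - Ph ρ ζ) := by
    have : Real.exp (-E / 2 - c) * Real.exp (E / 2 + c) = 1 := by
      rw [← Real.exp_add, ← Real.exp_zero]; congr 1; ring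
    linear_combination (-Ph ρ (X + ζ)) * this
  have e2 : ε * Real.exp |c| = Real.exp (-E / 2 - c) * (ε * Real.exp (E / 2 + c + |c|)) := by
    rw [mul_left_comm, ← Real.exp_add]; congr 2; ring
  rw [e, e2, abs_mul, abs_of_pos (Real.exp_pos _)]
  refine mul_le_mul_of_nonneg_left ?_ (Real.exp_pos _).le
  simpa using key

end Crest.Agent.T145.Mx
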