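import Crest.Agent.T145.MxDef_9
import Crest.Agent.T145.MxA_9
import Crest.Agent.T145.Soft_23

/-!
# Row 145, module Mx: MIX0 from the abstract assembly and the cell lemmas (helper30)
-/

set_option autoImplicit false

namespace Crest.Agent.T145.Mx

open Finset

namespace M30

theorem unif {Q : ℕ → ℝ → Prop} {P₀ : ℕ} (h : ∀ P, P₀ ≤ P → ∃ η, 0 < η ∧ Q P η) (N : ℕ) :
    ∃ η₀ : ℝ, 0 < η₀ ∧ ∀ P, P₀ ≤ P → P < N → ∃ η, η₀ ≤ η ∧ Q P η := by
  induction N with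
  | zero => exact ⟨1, one_pos, fun P _ h => absurd h (Nat.not_lt_zero _)⟩
  | succ N ih =>
    obtain ⟨η₀, h0, h1⟩ := ih
    by_cases hN : P₀ ≤ N
    · obtain ⟨η, h2, h3⟩ := h N hN
      refine ⟨min η₀ η, lt_min h0 h2, fun P a b => ?_⟩
      rcases (Nat.lt_succ_iff.1 b).eq_or_lt with rfl | b
      · exact ⟨η, min_le_right _ _, h3⟩
      · obtain ⟨η', c, d⟩ := h1 P a b
        exact ⟨η', (min_le_left _ _).trans c, d⟩
    · exact ⟨η₀, h0, fun P a b => h1 P a (by omega)⟩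

/-- sup norm -/
noncomputable def nm (x : Pt) : ℝ := max |co 0 x| |co 1 x|

theorem co_sub' (i : Fin 2) (x y : Pt) : co i (x - y) = co i x - co i y := by
  fin_cases i <;> simp [co]

theorem nm_tri (x y z : Pt) : nm (x - z) ≤ nm (x - y) + nm (y - z) := by
  simp only [nm, co_sub']
  refine max_le ?_ ?_
  · exact (abs_sub_le _ _ _).trans (add_le_add (le_max_left _ _) (le_max_left _ _))
  · exact (abs_sub_le _ _ _).trans (add_le_add (le_max_right _ _) (le_max_right _ _))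

theorem nm_comm (x y : Pt) : nm (x - y) = nm (y - x) := by
  simp only [nm, co_sub', abs_sub_comm]

/-- sup distance to a set -/
noncomputable def ds {S : Finset Pt} (h : S.Nonempty) (z : Pt) : ℝ := S.inf' h fun y => nm (z - y)

theorem ds_le {S : Finset Pt} (h : S.Nonempty) (z z' : Pt) : ds h z ≤ ds h z' + nm (z - z') := by
  obtain ⟨y, hy, e⟩ := exists_mem_eq_inf' h fun y => nm (z' - y)
  have : ds h z ≤ nm (z - y) := inf'_le _ hy
  have := nm_tri z z' y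
  rw [ds, ds, e] at *
  linarith

theorem ds_lip {S : Finset Pt} (h : S.Nonempty) (z z' : Pt) : |ds h z - ds h z'| ≤ nm (z - z') := by
  have a := ds_le h z z'
  have b := ds_le h z' z
  rw [nm_comm] at b
  rw [abs_le]; constructor <;> linarith

theorem ds_self {S : Finset Pt} (h : S.Nonempty) {y : Pt} (hy : y ∈ S) : ds h y ≤ 0 :=
  (inf'_le _ hy).trans (by simp [nm, co])

theorem le_ds {S S' : Finset Pt} (h : S'.Nonempty) {d : ℝ} (hF : Far d S S') {x : Pt} (hx : x ∈ S) :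
    d ≤ ds h x := le_inf' _ _ fun y hy => le_max_iff.2 (hF x hx y hy)

theorem sep1 (a a' : ℤ) {s : ℕ} (hs : 0 < s) {β : ℝ} (hβ : 0 < β) :
    ((a + s - 1 : ℤ) + β ≤ a' ∨ (a' + s - 1 : ℤ) + β ≤ a) ∨
      ∃ z z' : ℤ, (a ≤ z ∧ z < a + s) ∧ (a' ≤ z' ∧ z' < a' + s) ∧ |(z : ℝ) - z'| < β := by
  by_contra hc
  push Not at hc
  obtain ⟨⟨h1, h2⟩, h3⟩ := hc
  rcases le_total a a' with h | h
  · rcases le_total a' (a + s - 1) with k | k
    · have := h3 a' a' ⟨h, by omega⟩ ⟨le_rfl, by omega⟩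
      rw [sub_self, abs_zero] at this; linarith
    · have := h3 (a + s - 1) a' ⟨by omega, by omega⟩ ⟨le_rfl, by omega⟩
      have k' : ((a + s - 1 : ℤ) : ℝ) ≤ a' := by exact_mod_cast k
      rw [abs_sub_comm, abs_of_nonneg (by linarith)] at this; linarith
  · rcases le_total a (a' + s - 1) with k | k
    · have := h3 a a ⟨le_rfl, by omega⟩ ⟨h, by omega⟩
      rw [sub_self, abs_zero] at this; linarith
    · have := h3 a (a' + s - 1) ⟨le_rfl, by omega⟩ ⟨by omega, by omega⟩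
      have k' : ((a' + s - 1 : ℤ) : ℝ) ≤ a := by exact_mod_cast k
      rw [abs_of_nonneg (by linarith)] at this; linarith

/-- `B` lies to the left of `B'` in some coordinate -/
def Lf (β : ℝ) (B B' : Finset Pt) : Prop :=
  ∃ (i : Fin 2) (t : ℝ), (∀ x ∈ B, co i x ≤ t) ∧ ∀ y ∈ B', t + β ≤ co i y

theorem lf0 {a a' : Pt} {s : ℕ} {β : ℝ} (h : (a.1 + s - 1 : ℤ) + β ≤ a'.1) :
    Lf β (sq a s) (sq a' s) := by
  refine ⟨0, (a.1 + s - 1 : ℤ), fun x hx => ?_, fun y hy => h.trans ?_⟩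
  · rw [mem_sq] at hx
    show (x.1 : ℝ) ≤ _
    exact_mod_cast (by omega : x.1 ≤ a.1 + s - 1)
  · show _ ≤ (y.1 : ℝ)
    exact_mod_cast (mem_sq.1 hy).1.1

theorem lf1 {a a' : Pt} {s : ℕ} {β : ℝ} (h : (a.2 + s - 1 : ℤ) + β ≤ a'.2) :
    Lf β (sq a s) (sq a' s) := by
  refine ⟨1, (a.2 + s - 1 : ℤ), fun x hx => ?_, fun y hy => h.trans ?_⟩
  · rw [mem_sq] at hx
    show (x.2 : ℝ) ≤ _
    exact_mod_cast (by omega : x.2 ≤ a.2 + s - 1)
  · show _ ≤ (y.2 : ℝ)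
    exact_mod_cast (mem_sq.1 hy).2.1

theorem sep2 {a a' : Pt} {s : ℕ} (hs : 0 < s) {β : ℝ} (hβ : 0 < β)
    (h : ∀ z ∈ sq a s, ∀ z' ∈ sq a' s, β ≤ nm (z - z')) :
    Lf β (sq a s) (sq a' s) ∨ Lf β (sq a' s) (sq a s) := by
  rcases sep1 a.1 a'.1 hs hβ with k | ⟨z, z', k1, k2, k3⟩
  · exact k.imp lf0 lf0
  rcases sep1 a.2 a'.2 hs hβ with k | ⟨w, w', j1, j2, j3⟩
  · exact k.imp lf1 lf1
  have := h (z, w) (mem_sq.2 ⟨k1, j1⟩) (z', w') (mem_sq.2 ⟨k2, j2⟩)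
  rw [nm, co_sub', co_sub'] at this
  exact absurd (max_lt k3 j3) (not_lt.2 this)

/-- translation to the origin -/
theorem pr_trl {Λ : Lat} (hΛ : Λ.Ok) (a : Pt) (L : ℕ) (μ : ℝ) (hc : (ms Λ (sq a L) μ).Ctr)
    (hA : (ms Λ (sq a L) μ).Anch) (S S' : Finset Pt) :
    Pr ((ms Λ (sq a L) μ).J 0 0) (fun p => Cross S S' p.2) ≤
      Pr ((ms Λ (sq 0 L) μ).J 0 0) fun p => Cross (S.map (Equiv.addRight (-a)).toEmbedding)
        (S'.map (Equiv.addRight (-a)).toEmbedding) p.2 := by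
  have hI := ((Λ.sym_add (-a)).iso_N hΛ (sq a L)).mulSite fun _ => gau μ⁻¹
  rw [map_sq_add, add_neg_cancel] at hI
  have e := Md.exJ_iso (m := ms Λ (sq a L) μ) (m' := ms Λ (sq 0 L) μ) hc.1 hI 0 0 fun p =>
    ind (Cross (S.map (Equiv.addRight (-a)).toEmbedding) (S'.map (Equiv.addRight (-a)).toEmbedding) p.2)
  rw [Finsupp.equivMapDomain_zero] at e
  rw [Pr, Pr, e]
  exact (wtJ hc hA).pr_mono fun p _ ⟨x, hx, y, hy, h⟩ =>
    ⟨_, mem_map_of_mem _ hx, _, mem_map_of_mem _ hy, Md.conn_iso hI.2.2.1 h⟩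

theorem far_trl {d : ℝ} {S S' : Finset Pt} (h : Far d S S') (t : Pt) :
    Far d (S.map (Equiv.addRight t).toEmbedding) (S'.map (Equiv.addRight t).toEmbedding) := by
  intro x hx y hy
  obtain ⟨x, hx', rfl⟩ := mem_map.1 hx
  obtain ⟨y, hy', rfl⟩ := mem_map.1 hy
  simpa using h x hx' y hy'

theorem decay {B κ P : ℝ} (hκ : 0 < κ) (hP0 : 0 < P)
    (hP : B * (Nat.factorial 23 : ℕ) / (κ / 2) ^ 23 ≤ P) :
    B * P ^ 2 * Real.exp (-κ * (P / 2)) ≤ 1 / P ^ 20 := by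
  have h1 := Real.pow_div_factorial_le_exp (κ * (P / 2)) (by positivity) 23
  have hf : (0 : ℝ) < (Nat.factorial 23 : ℕ) := by exact_mod_cast Nat.factorial_pos _
  rw [div_le_iff₀ (by positivity)] at hP
  rw [div_le_iff₀ hf] at h1
  rw [neg_mul, Real.exp_neg, ← div_eq_mul_inv, div_le_div_iff₀ (Real.exp_pos _) (by positivity),
    one_mul]
  refine le_of_mul_le_mul_right (le_trans ?_ h1) hf
  calc B * P ^ 2 * P ^ 20 * (Nat.factorial 23 : ℕ) = B * (Nat.factorial 23 : ℕ) * P ^ 22 := by ring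
    _ ≤ P * (κ / 2) ^ 23 * P ^ 22 := mul_le_mul_of_nonneg_right hP (by positivity)
    _ = _ := by ring

theorem nb_mono {ρ r r' : ℕ} (h : r ≤ r') (i : Pt) : nb ρ i r ⊆ nb ρ i r' := fun x hx => by
  rw [nb, mem_sq] at *
  push_cast at *
  omega

theorem card_nb {ρ r : ℕ} (h : 2 * r ≤ ρ) (i : Pt) : (#(nb ρ i r) : ℝ) ≤ 4 * (ρ : ℝ) ^ 2 := by
  rw [nb, card_sq]
  have : (ρ + 2 * r) ^ 2 ≤ (2 * ρ) ^ 2 := Nat.pow_le_pow_left (by omega) 2
  calc _ ≤ (((2 * ρ) ^ 2 : ℕ) : ℝ) := by exact_mod_cast this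
    _ = _ := by push_cast; ring

theorem ip_le {B D : Finset Pt} {u : Pt → ℝ} {b : ℝ} (h : ∀ x, |u x| ≤ b) (h0 : ∀ x, x ∉ D → u x = 0) :
    ip B u u ≤ #D * b ^ 2 := by
  classical
  calc ip B u u = ∑ x ∈ B ∩ D, u x * u x := (sum_subset inter_subset_left fun x hx hx' => by
        rw [h0 x fun k => hx' (mem_inter.2 ⟨hx, k⟩), mul_zero]).symm
    _ ≤ ∑ x ∈ D, u x * u x := sum_le_sum_of_subset_of_nonneg inter_subset_right
        fun _ _ _ => mul_self_nonneg _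
    _ ≤ #D • b ^ 2 := sum_le_card_nsmul _ _ _ fun x _ => by
        rw [← pow_two, ← sq_abs]; exact pow_le_pow_left₀ (abs_nonneg _) (h x) 2
    _ = _ := nsmul_eq_mul _ _

end M30

open M30

set_option maxHeartbeats 400000 in
/-- MIX0 -/
theorem mix0Stmt (hAs : AsmStmt) (hCel : CelStmt) (hHit : HitStmt) (hTv : TvStmt) (hFf : FfStmt)
    (hSi : SiteStmt) (hT1 : T1mStmt) : Mix0Stmt := by
  intro F θ₀ α hθ₀ hα
  obtain ⟨C₀, ρ₀, hCel⟩ := hCel F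
  obtain ⟨c, hc, hTv⟩ := hTv F
  obtain ⟨κ, hκ, hFf⟩ := hFf F θ₀ (α / 2) hθ₀ (by positivity)
  obtain ⟨δ₁, hδ₁, hT1⟩ := hT1.2.2 F θ₀ 1 0 hθ₀ one_pos
  obtain ⟨C', hC'1, hC'⟩ : ∃ C' : ℝ, 1 ≤ C' ∧ |C₀| / (θ₀ / 2) + 1 ≤ C' :=
    ⟨_, le_add_of_nonneg_left (by positivity), le_rfl⟩
  obtain ⟨P₀, hAs⟩ := hAs (8 * C' ^ 2 + 4) c (α / 80) hc (by positivity)
  obtain ⟨Q, hQ⟩ := exists_nat_ge (max (max (P₀ : ℝ) 1) (max (80 / α)
    (64 * C' ^ 2 * (Nat.factorial 23 : ℕ) / (κ / 2) ^ 23)))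
  simp only [max_le_iff] at hQ
  obtain ⟨⟨hQ0, hQ1⟩, hQ2, hQ3⟩ := hQ
  refine ⟨(Q : ℝ) ^ 2, one_le_pow₀ hQ1, fun K => ?_⟩
  obtain ⟨N, hN⟩ := exists_nat_gt (4 * |K| + 1)
  have hN1 : (1 : ℝ) ≤ N := by linarith [abs_nonneg K]
  obtain ⟨η₀, hη₀, hAs⟩ := unif hAs N
  obtain ⟨δ₂, hδ₂, hTv⟩ := hTv θ₀ N η₀ hθ₀ hN1 hη₀
  obtain ⟨δ₃, hδ₃, hFf⟩ := hFf N (1 / (32 * C' ^ 2 * (N : ℝ) ^ 20)) hN1 (by positivity)
  set ρ₁ : ℕ := ρ₀ + 8 + 2 * Crest.ProbabilityR.HeightModel.interactionRange F.J with hρ₁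
  have hn0 : (0 : ℝ) < (N * ρ₁ : ℕ) := by
    have : 0 < N := by exact_mod_cast one_pos.trans_le hN1
    exact_mod_cast Nat.mul_pos this (by omega)
  refine ⟨min (min δ₁ δ₂) (min δ₃ (1 / (N * ρ₁ : ℕ))), by positivity, fun Λ hΛ l L hW μ a S S' h1 h2 hF => ?_⟩
  have ok := hΛ.ok
  have hθ := (hT1 Λ hΛ l L (hW.mono_d ((min_le_left _ _).trans (min_le_left _ _)))).2.1
  replace hTv := hTv Λ hΛ l L (hW.mono_d ((min_le_left _ _).trans (min_le_right _ _)))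
  replace hFf := hFf Λ hΛ l L (hW.mono_d ((min_le_right _ _).trans (min_le_left _ _)))
  have hL : N * ρ₁ ≤ L := by
    have k := hW.sep.mono ((min_le_right _ _).trans (min_le_right _ _))
    exact (Nat.le_mul_of_pos_right _ k.one_le_l).trans (k.large (by rw [mul_one_div_cancel hn0.ne'])).2
  have hL0 := hW.L_pos'
  have hx1 : 1 ≤ μ * (L : ℝ) ^ 2 := (one_le_pow₀ hQ1).trans h1
  have hμ : 0 < μ := (mul_pos_iff_of_pos_right (by positivity)).1 (one_pos.trans_le hx1)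
  have hxN : μ * (L : ℝ) ^ 2 ≤ N := by linarith [le_abs_self K, abs_nonneg K]
  refine (pr_trl ok a L μ (hSi Λ _ μ ok hμ).1.1 (hSi Λ _ μ ok hμ).1.2.1 S S').trans ?_
  replace hF := far_trl hF (-a)
  generalize S.map (Equiv.addRight (-a)).toEmbedding = S, S'.map (Equiv.addRight (-a)).toEmbedding = S' at hF
  rcases S'.eq_empty_or_nonempty with rfl | hne
  · rw [Pr_of_forall_not fun p _ ⟨x, _, y, hy, _⟩ => absurd hy (notMem_empty _)]
    positivity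
  -- the number of tiles
  obtain ⟨p, hp1, hp2⟩ := exists_nat_pow_near hx1 (by norm_num : (1 : ℝ) < 4)
  obtain ⟨j, hj⟩ := hW.dyadic
  set P : ℕ := 2 ^ (p + 1) with hP
  have hP2 : (P : ℝ) ^ 2 = 4 ^ (p + 1) := by
    rw [hP]; push_cast; rw [← pow_mul, mul_comm, pow_mul]; norm_num
  have hP0 : (1 : ℝ) ≤ P := by exact_mod_cast Nat.one_le_two_pow
  have hPx : μ * (L : ℝ) ^ 2 ≤ (P : ℝ) ^ 2 := hP2 ▸ hp2.le
  have hxP : (P : ℝ) ^ 2 ≤ 4 * (μ * (L : ℝ) ^ 2) := by rw [hP2, pow_succ]; linarith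
  have hQP : (Q : ℝ) ≤ P := le_of_sq_le_sq (h1.trans hPx) (by positivity)
  have hPN : (P : ℝ) < N := by nlinarith only [le_abs_self K, hP0, hxP, h2, hN]
  have hPN' : P < N := by exact_mod_cast hPN
  have hPL : P * ρ₁ ≤ 2 ^ j := hj ▸ (Nat.mul_le_mul_right _ hPN'.le).trans hL
  have hpj : p + 1 + 3 ≤ j := by
    refine (Nat.pow_le_pow_iff_right one_lt_two).1 (le_trans ?_ hPL)
    rw [pow_add]; exact Nat.mul_le_mul_left _ (by omega)
  set ρ : ℕ := 2 ^ (j - (p + 1)) with hρ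
  have hLP : L = P * ρ := by rw [hj, hP, hρ, ← pow_add]; congr 1; omega
  have hρ1 : ρ₁ ≤ ρ := Nat.le_of_mul_le_mul_left (by rw [← hLP, hj]; exact hPL) (by positivity)
  have h8 : 8 ∣ ρ := pow_dvd_pow 2 (by omega : 3 ≤ j - (p + 1))
  have hrg : Λ.rg ≤ ρ / 2 := by rw [Lat.rg, hΛ.1]; omega
  have hρ0 : (0 : ℝ) < ρ := by positivity
  have hLr : (L : ℝ) = P * ρ := by exact_mod_cast hLP
  have hm1 : μ * (ρ : ℝ) ^ 2 ≤ 1 := by
    rw [hLr] at hPx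
    exact le_of_mul_le_mul_left (by linarith only [hPx]) (by positivity : (0 : ℝ) < (P : ℝ) ^ 2)
  have hm2 : 1 ≤ 4 * (μ * (ρ : ℝ) ^ 2) := by
    rw [hLr] at hxP
    exact le_of_mul_le_mul_left (by linarith only [hxP]) (by positivity : (0 : ℝ) < (P : ℝ) ^ 2)
  clear_value P ρ
  obtain ⟨η, hη, hAs⟩ := hAs P (by exact_mod_cast hQ0.trans hQP) hPN'
  obtain ⟨hV, hG⟩ := hTv μ ρ P hLP hPN.le hx1 hxN
  replace hCel := hCel Λ hΛ ρ P (by omega) h8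
  rw [← hLP] at hCel
  obtain ⟨hAmb, hM, -⟩ := hSi Λ (sq 0 L) μ ok hμ
  have hαP : 80 ≤ α * P := by
    have := hQ2.trans hQP
    rwa [div_le_iff₀' hα] at this
  set n : ℕ := ⌊α * P / 40⌋₊ with hn
  have hn1 : (n : ℝ) ≤ α * P / 40 := Nat.floor_le (by positivity)
  have hn2 : α * P / 40 < n + 1 := Nat.lt_floor_add_one _
  set D : ℝ := 2 * ρ * (4 * n + 1) with hD
  have hDL : D ≤ α * L / 4 := by
    have : 2 * (4 * (n : ℝ) + 1) ≤ α * P / 4 := by linarith only [hn1, hαP]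
    calc D = ρ * (2 * (4 * (n : ℝ) + 1)) := by rw [hD]; ring
      _ ≤ ρ * (α * P / 4) := mul_le_mul_of_nonneg_left this hρ0.le
      _ = _ := by rw [hLr]; ring
  have hαL : 0 < α * L := by positivity
  set d := ds hne with hd
  set ψ : Pt → Pt → ℝ := fun i x => C' / (ρ : ℝ) ^ 2 * ind (x ∈ nb ρ i (ρ / 2) ∧ x ∈ sq 0 L) with hψ
  have hψ0 : ∀ i x, ψ i x ≠ 0 → x ∈ nb ρ i (ρ / 2) := fun i x h =>
    (ind_ne_zero.1 (right_ne_zero_of_mul h)).1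
  have hψ1 : ∀ i x, 0 ≤ ψ i x ∧ ψ i x ≤ C' / (ρ : ℝ) ^ 2 := fun i x =>
    ⟨mul_nonneg (by positivity) (ind_nonneg _), mul_le_of_le_one_right (by positivity) (ind_le_one _)⟩
  have hθ0 : 0 < Λ.tN l := (half_pos hθ₀).trans_le hθ
  have hCθ : |C₀| / Λ.tN l + 1 ≤ C' := le_trans (by gcongr) hC'
  have hit := fun d₀ ω x y K' => hHit Λ ρ P n d d₀ ω x y K' ok hrg (ds_lip hne)
  rw [← hLP] at hit
  obtain ⟨Tz, hTz⟩ : ∃ Tz : ℝ → Finset Pt, ∀ d₀ i, i ∈ Tz d₀ ↔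
      i ∈ sq 0 P ∧ ∀ z ∈ nb ρ i (ρ / 2), d₀ ≤ d z ∧ d z ≤ d₀ + D := by
    classical
    exact ⟨fun d₀ => (sq 0 P).filter fun i => ∀ z ∈ nb ρ i (ρ / 2), d₀ ≤ d z ∧ d z ≤ d₀ + D,
      fun _ _ => by simp only [mem_filter]⟩
  have hTs : ∀ d₀, Tz d₀ ⊆ sq 0 P := fun d₀ i hi => ((hTz d₀ i).1 hi).1
  refine (hAs Pt Pt Pt (ms Λ (sq 0 L) μ) S S'
    (Tz 0) (Tz (α * L - D))
    (sq 0 2) cls (fun i => fu Λ L (Λ.tN l) μ (ub ρ i)) ψ (fun i => vu Λ L (Λ.tN l) μ (ub ρ i))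
    (Hit Λ.rg L ρ) n hAmb.1 hAmb.2.1 ((card_le_card (hTs _)).trans (card_sq _ _).le)
    ((card_le_card (hTs _)).trans (card_sq _ _).le) (card_sq _ _).le (by linarith only [hn2, hαP])
    (fun t ht => ?_) (fun g hg hcol => ?_) (fun t ht t' ht' => ?_) (fun ω hω hX => ?_)
    (fun t ht x _ hx ω hω hS => ?_)).trans ?_
  · have ht' : t ∈ sq 0 P := ht.elim (fun h => hTs _ h) fun h => hTs _ h
    obtain ⟨-, u01, -, u0, uA, uE, -⟩ := hCel t ht'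
    have hip : ip (sq 0 L) (ub ρ t) (ub ρ t) ≤ 4 * (ρ : ℝ) ^ 2 * 1 ^ 2 :=
      (ip_le (b := 1) (fun x => by rw [abs_of_nonneg (u01 x).1]; exact (u01 x).2) u0).trans
        (mul_le_mul_of_nonneg_right (card_nb (by omega) t) (by positivity))
    refine ⟨fun y => ?_, ?_, ?_, fun b => ?_, fun K' => ⟨(hV t ht' K').1.trans (by linarith only [hη]),
      (hV t ht' K').2⟩⟩
    · have i0 := ind_nonneg (y ∈ nb ρ t (ρ / 2) ∧ y ∈ sq 0 L)
      have a1 : |Λ.Au (sq 0 L) (ub ρ t) y / Λ.tN l| ≤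
          |C₀| / Λ.tN l / (ρ : ℝ) ^ 2 * ind (y ∈ nb ρ t (ρ / 2) ∧ y ∈ sq 0 L) := by
        rw [abs_div, abs_of_pos hθ0, div_right_comm, div_mul_eq_mul_div]
        gcongr
        exact (uA y).trans (by gcongr; exact le_abs_self _)
      have a2 : |μ * (ind (y ∈ sq 0 L) * ub ρ t y)| ≤
          1 / (ρ : ℝ) ^ 2 * ind (y ∈ nb ρ t (ρ / 2) ∧ y ∈ sq 0 L) := by
        by_cases k : y ∈ nb ρ t (ρ / 2) ∧ y ∈ sq 0 L
        · rw [ind_pos k, ind_pos k.2, one_mul, mul_one, abs_of_nonneg (mul_nonneg hμ.le (u01 y).1),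
            le_div_iff₀ (by positivity)]
          linarith only [hm1, mul_le_mul_of_nonneg_left (u01 y).2 (by positivity : 0 ≤ μ * (ρ : ℝ) ^ 2)]
        · rw [ind_neg k, mul_zero]
          by_cases k' : y ∈ sq 0 L
          · rw [u0 y fun h => k ⟨nb_mono (by omega) t h, k'⟩]; simp
          · rw [ind_neg k']; simp
      refine (abs_add_le _ _).trans ((add_le_add a1 a2).trans ?_)
      rw [← add_mul, ← add_div]
      exact mul_le_mul_of_nonneg_right (div_le_div_of_nonneg_right hCθ (by positivity)) i0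
    · exact add_nonneg (div_nonneg (sum_nonneg fun e _ => div_nonneg (mul_self_nonneg _) ok.2.le)
        hθ0.le) (mul_nonneg hμ.le (sum_nonneg fun x _ => mul_self_nonneg _))
    · have a1 : Λ.En (sq 0 L) (ub ρ t) (ub ρ t) / Λ.tN l ≤ |C₀| / Λ.tN l := by
        gcongr; exact uE.trans (le_abs_self _)
      have a2 := mul_le_mul_of_nonneg_left hip hμ.le
      rw [vu]; nlinarith only [a1, a2, hm1, hCθ, hC'1]
    · rw [← pr_smul]
      refine (hM _).1.trans ?_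
      have a1 : ip (sq 0 L) (b • ψ t) (b • ψ t) ≤ 4 * (ρ : ℝ) ^ 2 * (|b| * (C' / (ρ : ℝ) ^ 2)) ^ 2 :=
        (ip_le (D := nb ρ t (ρ / 2)) (fun x => by
          rw [Pi.smul_apply, smul_eq_mul, abs_mul, abs_of_nonneg (hψ1 t x).1]
          exact mul_le_mul_of_nonneg_left (hψ1 t x).2 (abs_nonneg _)) fun x hx => by
          rw [Pi.smul_apply, not_not.1 (mt (hψ0 t x) hx), smul_zero]).trans
          (mul_le_mul_of_nonneg_right (card_nb (by omega) t) (by positivity))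
      rw [div_le_iff₀ (by positivity)]
      refine a1.trans ?_
      rw [mul_pow, sq_abs, show 4 * (ρ : ℝ) ^ 2 * (b ^ 2 * (C' / (ρ : ℝ) ^ 2) ^ 2) =
        4 * C' ^ 2 * b ^ 2 / (ρ : ℝ) ^ 2 by field_simp, div_le_iff₀ (by positivity)]
      linarith only [mul_le_mul_of_nonneg_left hm2 (by positivity : 0 ≤ 4 * C' ^ 2 * b ^ 2),
        (by positivity : 0 ≤ b ^ 2 * (μ * (ρ : ℝ) ^ 2))]
  · exact (hG g (hg.elim (fun h => h.trans (hTs _)) fun h => h.trans (hTs _))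
      hcol).trans (by linarith only [hη])
  · have hs := sep2 (a := (ρ * t.1 - (ρ / 2 : ℕ), ρ * t.2 - (ρ / 2 : ℕ)))
      (a' := (ρ * t'.1 - (ρ / 2 : ℕ), ρ * t'.2 - (ρ / 2 : ℕ))) (s := ρ + 2 * (ρ / 2)) (by omega)
      (β := α / 2 * L) (by positivity) fun z hz z' hz' => by
        have a1 := (((hTz _ _).1 ht).2 z hz).2
        have a2 := (((hTz _ _).1 ht').2 z' hz').1
        have a3 := ds_le hne z' z
        rw [nm_comm] at a3
        linarith only [a1, a2, a3, hDL]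
    have hb : ∀ i x, 0 ≤ ((4 * C')⁻¹ • ψ i) x ∧ ((4 * C')⁻¹ • ψ i) x ≤ μ := fun i x => by
      rw [Pi.smul_apply, smul_eq_mul]
      refine ⟨mul_nonneg (by positivity) (hψ1 i x).1,
        (mul_le_mul_of_nonneg_left (hψ1 i x).2 (by positivity)).trans ?_⟩
      rw [show (4 * C')⁻¹ * (C' / (ρ : ℝ) ^ 2) = 1 / (4 * (ρ : ℝ) ^ 2) by field_simp,
        div_le_iff₀ (by positivity)]
      linarith only [hm2]
    have hz : ∀ i x, ((4 * C')⁻¹ • ψ i) x ≠ 0 → x ∈ nb ρ i (ρ / 2) := fun i x h =>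
      hψ0 i x (right_ne_zero_of_mul h)
    have key : ∀ i i', Lf (α / 2 * L) (nb ρ i (ρ / 2)) (nb ρ i' (ρ / 2)) →
        Vr ((ms Λ (sq 0 L) μ).W 0) (pr (ψ i)) (pr (ψ i')) ≤ 1 / (P : ℝ) ^ 20 := by
      rintro i i' ⟨k, t₀, b1, b2⟩
      have e := hFf μ t₀ k _ _ hx1 hxN (hb i) (hb i') (fun x h => b1 x (hz i x h))
        fun x h => b2 x (hz i' x h)
      rw [pr_smul, pr_smul, Vr_smul_left, Vr_smul_right] at e
      have e1 := decay hκ (one_pos.trans_le hP0) (hQ3.trans hQP)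
      have e2 : Real.exp (-κ * Real.sqrt (μ * (L : ℝ) ^ 2)) ≤ Real.exp (-κ * (P / 2)) := by
        have : (P : ℝ) / 2 ≤ Real.sqrt (μ * (L : ℝ) ^ 2) := Real.le_sqrt_of_sq_le (by linarith only [hxP])
        exact Real.exp_le_exp.2 (by linarith only [mul_le_mul_of_nonneg_left this hκ.le])
      have e3 : μ * (L : ℝ) ^ 2 * Real.exp (-κ * Real.sqrt (μ * (L : ℝ) ^ 2)) ≤
          (P : ℝ) ^ 2 * Real.exp (-κ * (P / 2)) := by gcongr
      have e4 : 1 / (N : ℝ) ^ 20 ≤ 1 / (P : ℝ) ^ 20 := by gcongr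
      have e5 := mul_le_mul_of_nonneg_left e (by positivity : 0 ≤ 16 * C' ^ 2)
      rw [show ∀ v : ℝ, 16 * C' ^ 2 * ((4 * C')⁻¹ * ((4 * C')⁻¹ * v)) = v from fun v => by
        field_simp; ring, mul_add, show 16 * C' ^ 2 * (1 / (32 * C' ^ 2 * (N : ℝ) ^ 20)) =
          1 / (N : ℝ) ^ 20 / 2 by field_simp; ring] at e5
      linarith only [e5, e4, e1, mul_le_mul_of_nonneg_left e3 (by positivity : 0 ≤ 32 * C' ^ 2)]
    exact hs.elim (key t t') fun h => (Vr_comm _ _ _).trans_le (key t' t h)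
  · obtain ⟨x, hx, y, hy, hxy⟩ := hX
    obtain ⟨k, hk, g, hg, g1, g2⟩ := hit 0 ω y x (cl S ω) hω (Md.conn_symm hxy) (ds_self hne hy)
      (by linarith only [le_ds hne hF hx, hDL, hαL]) fun z hz => Md.mem_cl.2 ⟨x, hx, Md.conn_trans hxy hz⟩
    exact ⟨k, hk, g, fun i hi => (hTz _ _).2 ⟨hg hi, (g2 i hi).2.2⟩, g1,
      fun i hi => ⟨(g2 i hi).1, (g2 i hi).2.1⟩⟩
  · obtain ⟨y, hy, hyx⟩ := Md.mem_cl.1 hS
    obtain ⟨k, hk, g, hg, g1, g2⟩ := hit (α * L - D) ω x y (cl {x} ω) hω (Md.conn_symm hyx)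
      (by linarith only [(((hTz _ _).1 ht).2 x (hψ0 t x hx)).2, hDL, hαL])
      (by linarith only [le_ds hne hF hy]) fun z hz => mem_cl_one.2 hz
    exact ⟨k, hk, g, fun i hi => (hTz _ _).2 ⟨hg hi, (g2 i hi).2.2⟩, g1,
      fun i hi => ⟨(g2 i hi).1, (g2 i hi).2.1⟩⟩
  · rw [show (P : ℝ) ^ 8 = ((P : ℝ) ^ 2) ^ 4 by ring]
    gcongr

end Crest.Agent.T145.Mx
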