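import Crest.Agent.T145.MxDef_9
import Crest.Agent.T145.BrB_73

/-!
# Row 145, module Mx: PHM, the characteristic function of `f_u` in the massive box (helper66)
-/

set_option autoImplicit false

namespace Crest.Agent.T145.Mx

open Finset Uv Filter Topology

namespace Phm66

/-- the normalised Haar function -/
noncomputable def hg (μ : ℝ) (t : Ix) : Pt → ℝ := (Real.sqrt μ * 2 ^ t.2.1) • hf t.1 t.2.1 t.2.2

theorem pr_hg (μ : ℝ) (t : Ix) : pr (hg μ t) = hl μ t := pr_smul _ _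

theorem hc_ip (μ : ℝ) (L : ℕ) (v : Pt → ℝ) (t : Ix) : hc μ L v t = ip (sq 0 L) (hg μ t) v := by
  simp only [hc, hg, ip, mul_sum, Pi.smul_apply, smul_eq_mul, mul_assoc]

theorem hc_add (μ : ℝ) (L : ℕ) (v w : Pt → ℝ) (t : Ix) :
    hc μ L (v + w) t = hc μ L v t + hc μ L w t := by
  simp only [hc_ip, ip, Pi.add_apply, mul_add, sum_add_distrib]

theorem mn_add' (a : Pt) (n : ℕ) (v w : Pt → ℝ) : mn a n (v + w) = mn a n v + mn a n w := by
  simp only [mn, Pi.add_apply, sum_add_distrib, add_div]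

variable {μ : ℝ} {c : ℕ}

theorem par_sub {t : Ix} (ht : t ∈ terms {0} c (range c)) :
    sq (tile t.1 (2 ^ (t.2.1 + 1)) (par t.2.2)) (2 ^ (t.2.1 + 1)) ⊆ sq 0 (2 ^ c) := by
  obtain ⟨h1, h2, h3⟩ := mem_terms.1 ht
  rw [mem_singleton.1 h1]
  exact par_sub_top (mem_range.1 h2) h3

theorem terms_mono {J J' : Finset ℕ} (h : J ⊆ J') : terms {0} c J ⊆ terms {0} c J' := fun _ ht =>
  mem_terms.2 ⟨(mem_terms.1 ht).1, h (mem_terms.1 ht).2.1, (mem_terms.1 ht).2.2⟩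

theorem hg_off {t : Ix} (ht : t ∈ terms {0} c (range c)) {x : Pt} (hx : x ∉ sq 0 (2 ^ c)) :
    hg μ t x = 0 := by
  rw [hg, Pi.smul_apply, hf_off fun h => hx (par_sub ht h), smul_zero]

theorem sum_hg {t : Ix} (ht : t ∈ terms {0} c (range c)) : ∑ x ∈ sq 0 (2 ^ c), hg μ t x = 0 := by
  simp only [hg, Pi.smul_apply, smul_eq_mul, ← mul_sum, sum_hf (par_sub ht), mul_zero]

theorem hc_eq (v : Pt → ℝ) {t : Ix} (ht : t ∈ terms {0} c (range c)) : hc μ (2 ^ c) v t =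
    Real.sqrt μ * 2 ^ t.2.1 * (mn (tile t.1 (2 ^ t.2.1) t.2.2) (2 ^ t.2.1) v -
      mn (tile t.1 (2 ^ (t.2.1 + 1)) (par t.2.2)) (2 ^ (t.2.1 + 1)) v) := by
  simp only [hc, ip, hf, Pi.sub_apply, sub_mul, sum_sub_distrib]
  rw [sum_ua_mul (par_sub ht), sum_ua_mul ((child_sub_par _ _ _).trans (par_sub ht))]

theorem hi_eq (hμ : 0 ≤ μ) (v : Pt → ℝ) {J : ℕ} (hJ : J ≤ c) :
    ∑ t ∈ terms {0} c (range J), hc μ (2 ^ c) v t ^ 2 =
      μ * ∑ x ∈ sq 0 (2 ^ c), (v x - pj 0 J v x) ^ 2 := by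
  rw [haar_aux 0 c v hJ,
    sum_congr rfl fun t ht => by rw [hc_eq v (terms_mono (range_subset_range.2 hJ) ht)]]
  simp only [terms, sum_sigma, sum_singleton, mul_pow, Real.sq_sqrt hμ, mul_sum, mul_assoc]

theorem pars (hμ : 0 ≤ μ) (v : Pt → ℝ) : μ * ip (sq 0 (2 ^ c)) v v =
    μ * ((2 ^ c : ℕ) : ℝ) ^ 2 * mn 0 (2 ^ c) v ^ 2 +
      ∑ t ∈ terms {0} c (range c), hc μ (2 ^ c) v t ^ 2 := by
  have h := sq_split 0 (n := 2 ^ c) (by positivity) v 0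
  simp only [sub_zero] at h
  rw [hi_eq hμ v le_rfl, sum_congr rfl fun x hx => by rw [pj_top hx]]
  simp only [ip, ← pow_two]
  rw [h]; ring

theorem pol (hμ : 0 ≤ μ) (v w : Pt → ℝ) : μ * ip (sq 0 (2 ^ c)) v w =
    μ * ((2 ^ c : ℕ) : ℝ) ^ 2 * (mn 0 (2 ^ c) v * mn 0 (2 ^ c) w) +
      ∑ t ∈ terms {0} c (range c), hc μ (2 ^ c) v t * hc μ (2 ^ c) w t := by
  have h1 := pars (c := c) hμ (v + w)
  have h2 := pars (c := c) hμ v
  have h3 := pars (c := c) hμ w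
  have e1 : ip (sq 0 (2 ^ c)) (v + w) (v + w) =
      ip (sq 0 (2 ^ c)) v v + 2 * ip (sq 0 (2 ^ c)) v w + ip (sq 0 (2 ^ c)) w w := by
    simp only [ip, mul_sum, ← sum_add_distrib, Pi.add_apply]
    exact sum_congr rfl fun x _ => by ring
  simp only [hc_add, mn_add', add_sq, sum_add_distrib, mul_assoc, ← mul_sum] at h1
  rw [e1] at h1
  linarith

theorem rep (hμ : 0 ≤ μ) (v : Pt → ℝ) (x : Pt) : μ * (ind (x ∈ sq 0 (2 ^ c)) * v x) =
    μ * ((2 ^ c : ℕ) : ℝ) ^ 2 * mn 0 (2 ^ c) v * ua 0 (2 ^ c) x +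
      ∑ t ∈ terms {0} c (range c), hc μ (2 ^ c) v t * hg μ t x := by
  by_cases hx : x ∈ sq 0 (2 ^ c)
  · have e : ∀ f : Pt → ℝ, ip (sq 0 (2 ^ c)) f (Pi.single x 1) = f x := fun f => by
      rw [ip, sum_eq_single_of_mem x hx fun y _ hy => by rw [Pi.single_eq_of_ne hy, mul_zero]]
      simp
    have h := pol (c := c) hμ v (Pi.single x 1)
    simp only [hc_ip μ _ (Pi.single x 1), e] at h
    rw [← sum_ua_mul subset_rfl (Pi.single x 1)] at h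
    rw [ind_pos hx, one_mul, h, ← e (ua 0 (2 ^ c)), ip, mul_assoc _ (mn _ _ _)]
  · rw [ind_neg hx, ua_off hx, sum_eq_zero fun t ht => by rw [hg_off ht hx, mul_zero]]
    simp

theorem bessel (hμ : 0 ≤ μ) {T : Finset Ix} (hT : T ⊆ terms {0} c (range c)) (z : Ix → ℝ) :
    ip (sq 0 (2 ^ c)) (∑ t ∈ T, z t • hg μ t) (∑ t ∈ T, z t • hg μ t) ≤ μ * ∑ t ∈ T, z t ^ 2 := by
  set ν := ∑ t ∈ T, z t • hg μ t with hν
  have e : ip (sq 0 (2 ^ c)) ν ν = ∑ t ∈ T, z t * hc μ (2 ^ c) ν t := by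
    have e0 : ∀ x, ν x * ν x = ∑ t ∈ T, (z t • hg μ t) x * ν x := fun x => by
      rw [← sum_mul, ← Finset.sum_apply]
    rw [ip, sum_congr rfl fun x _ => e0 x, sum_comm]
    simp only [hc_ip, ip, mul_sum, Pi.smul_apply, smul_eq_mul, mul_assoc]
  have h0 : 0 ≤ ip (sq 0 (2 ^ c)) ν ν := sum_nonneg fun _ _ => mul_self_nonneg _
  have h1 := sum_mul_sq_le_sq_mul_sq T z (hc μ (2 ^ c) ν)
  have h2 : ∑ t ∈ T, hc μ (2 ^ c) ν t ^ 2 ≤ μ * ip (sq 0 (2 ^ c)) ν ν := by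
    rw [pars hμ]
    exact (sum_le_sum_of_subset_of_nonneg hT fun _ _ _ => sq_nonneg _).trans
      (le_add_of_nonneg_left (by positivity))
  have h3 : 0 ≤ ∑ t ∈ T, z t ^ 2 := sum_nonneg fun _ _ => sq_nonneg _
  rw [← e] at h1
  by_contra hn
  have h4 := h1.trans (mul_le_mul_of_nonneg_left h2 h3)
  nlinarith [mul_nonneg hμ h3]

theorem abs_mn_le {a : Pt} {n : ℕ} (hn : 0 < n) {v : Pt → ℝ} {K : ℝ} (h : ∀ x ∈ sq a n, |v x| ≤ K) :
    |mn a n v| ≤ K := by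
  have h0 : (0 : ℝ) < (n : ℝ) ^ 2 := by positivity
  rw [mn, abs_div, abs_of_pos h0, div_le_iff₀ h0]
  refine (abs_sum_le_sum_abs _ _).trans ((sum_le_card_nsmul _ _ _ h).trans_eq ?_)
  rw [card_sq, nsmul_eq_mul]; push_cast; ring

theorem abs_sub_pj {u : Pt → ℝ} {K L : ℝ} (hu : Sm2 u K L) (hL : 0 < L) (J : ℕ) (x : Pt) :
    |u x - pj 0 J u x| ≤ K / L * (2 * 2 ^ J) := by
  have hK := hu.nonneg hL
  have hx : x ∈ sq (tile 0 (2 ^ J) (tileOf 0 (2 ^ J) x)) (2 ^ J) := (mem_tile_iff (by positivity)).2 rfl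
  rw [abs_sub_comm, pj, sub_eq_add_neg, ← mn_add (by positivity)]
  refine abs_mn_le (by positivity) fun y hy => ?_
  rw [← sub_eq_add_neg]
  refine (hu.lip x y).trans (mul_le_mul_of_nonneg_left ?_ (by positivity))
  rw [S58.l1_eq]
  rw [mem_sq] at hx hy
  have h1 : |(y - x).1| ≤ ((2 ^ J : ℕ) : ℤ) := by rw [Prod.fst_sub, abs_le]; omega
  have h2 : |(y - x).2| ≤ ((2 ^ J : ℕ) : ℤ) := by rw [Prod.snd_sub, abs_le]; omega
  have h3 : |((y - x).1 : ℝ)| ≤ 2 ^ J := by exact_mod_cast h1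
  have h4 : |((y - x).2 : ℝ)| ≤ 2 ^ J := by exact_mod_cast h2
  linarith

theorem hi_le (hμ : 0 ≤ μ) {u : Pt → ℝ} {K : ℝ} (hu : Sm2 u K ((2 ^ c : ℕ) : ℝ))
    (hK : μ * ((2 ^ c : ℕ) : ℝ) ^ 2 ≤ K) (c₀ : ℕ) :
    ∑ t ∈ terms {0} c (range (c - c₀)), hc μ (2 ^ c) u t ^ 2 ≤ 4 * K ^ 3 / 2 ^ c₀ := by
  have hL : (0 : ℝ) < ((2 ^ c : ℕ) : ℝ) := by positivity
  have hK0 := hu.nonneg hL
  rcases le_or_gt c c₀ with h | h
  · rw [Nat.sub_eq_zero_of_le h]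
    simp only [terms, range_zero, sum_sigma, sum_empty, sum_const_zero]; positivity
  rw [hi_eq hμ u (Nat.sub_le _ _)]
  have e : ((2 ^ c : ℕ) : ℝ) = 2 ^ (c - c₀) * 2 ^ c₀ := by
    rw [← pow_add, Nat.sub_add_cancel h.le]; push_cast; rfl
  have h1 : ∀ x ∈ sq 0 (2 ^ c), (u x - pj 0 (c - c₀) u x) ^ 2 ≤ 4 * K ^ 2 / 2 ^ c₀ := fun x _ => by
    have h2 := abs_sub_pj hu hL (c - c₀) x
    refine (sq_le_sq' (abs_le.1 h2).1 (abs_le.1 h2).2).trans ?_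
    have h3 : (1 : ℝ) ≤ 2 ^ c₀ := one_le_pow₀ one_le_two
    rw [e, show K / (2 ^ (c - c₀) * 2 ^ c₀) * (2 * 2 ^ (c - c₀)) = 2 * K / 2 ^ c₀ by field_simp,
      div_pow, pow_two ((2 : ℝ) ^ c₀)]
    refine (div_le_div_of_nonneg_left (by positivity) (by positivity)
      (le_mul_of_one_le_left (by positivity) h3)).trans_eq (by ring)
  have h2 := sum_le_card_nsmul _ _ _ h1
  rw [card_sq, nsmul_eq_mul, Nat.cast_pow _ 2] at h2
  refine (mul_le_mul_of_nonneg_left h2 hμ).trans ?_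
  rw [← mul_assoc]
  exact (mul_le_mul_of_nonneg_right hK (by positivity)).trans_eq (by ring)

/-- the clean part of the rooted box -/
noncomputable def cu (Λ : Lat) (L : ℕ) : Finset Pt := (sq 0 L).filter fun x => bl x Λ.rg ⊆ sq 0 L

theorem amb_cu {Λ : Lat} (h : Λ.Ok) {L : ℕ} (hL : 1 ≤ L) : Nc.Amb Λ (Λ.Nr (sq 0 L) 0) (cu Λ L) := by
  refine ⟨(h.amb_WN hL).1, (h.amb_WN hL).2.1, fun x hx => ?_,
    Lat.near_Nr (Lat.edT_subset_edI fun x hx => (mem_filter.1 hx).2) 0⟩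
  refine mem_erase.2 ⟨?_, (mem_filter.1 hx).1⟩
  rintro rfl
  have h1 := h.one_le_rg
  have := mem_sq.1 ((mem_filter.1 hx).2 (mem_bl.2 (show _ from ?_) : ((-1, 0) : Pt) ∈ _))
  · simp at this
  · simp; omega

theorem thn_cu (Λ : Lat) (L : ℕ) : Thn (sq 0 L) (cu Λ L) (4 * (1 + Λ.rg) * L) := fun ρ hρ => by
  have h := (reg_rc 0 (n₁ := L) (n₂ := L) (ρ + Λ.rg) L le_rfl (by simp) (by simp)).2
  have hs : ((sq 0 L).filter fun x => ¬ bl x ρ ⊆ cu Λ L) ⊆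
      (rc 0 L L).filter fun x => ¬ bl x (ρ + Λ.rg) ⊆ rc 0 L L := fun x hx => by
    refine mem_filter.2 ⟨(mem_filter.1 hx).1, fun h' => (mem_filter.1 hx).2 fun y hy => ?_⟩
    have h2 : bl y Λ.rg ⊆ sq 0 L := (bl_subset_bl hy (by omega)).trans h'
    exact mem_filter.2 ⟨h2 (self_mem_bl _ _), h2⟩
  refine ((Nat.cast_le.2 (card_le_card hs)).trans h).trans ?_
  have h1 : (1 : ℝ) ≤ ρ := by exact_mod_cast hρ
  have h2 : (0 : ℝ) ≤ (Λ.rg : ℝ) * L := by positivity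
  push_cast
  nlinarith

theorem exp_lip {x y : ℝ} (hx : 0 ≤ x) (h : x ≤ y) : Real.exp (-x) ≤ Real.exp (-y) + (y - x) := by
  have h1 := Real.add_one_le_exp (x - y)
  have h2 : Real.exp (-x) ≤ 1 := Real.exp_le_one_iff.2 (by linarith)
  have h3 : Real.exp (-y) = Real.exp (-x) * Real.exp (x - y) := by rw [← Real.exp_add]; ring_nf
  nlinarith [Real.exp_pos (-x)]

end Phm66

open Phm66

set_option maxHeartbeats 400000 in
/-- **PHM** -/
theorem phmStmt (hP : PloStmt) (hU : UnfStmt) (hZ : ZmStmt) (hV : UvStmt) (hG : GdStmt)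
    (hS : SiteStmt) (hA : AFacStmt) (hm : T1mStmt) : PhmStmt := by
  refine Soft.of_ev fun F θ₀ K ε h1 h2 h3 => ?_
  obtain ⟨W, r₀, δG, hδG, hG⟩ := hG F θ₀ h1
  obtain ⟨C, hV⟩ := hV F W r₀ (K + 4 * (1 + F.base.rg))
  obtain ⟨Q, η, hη, hZ⟩ := hZ (Real.exp C + K ^ 2 + 2) (ε / 4) (by positivity)
  obtain ⟨δU, L₀, hδU, hV⟩ := hV (Real.log (1 + η)) (Real.log_pos (by linarith))
  obtain ⟨c₀, hc₁, hc₂, hc₃⟩ : ∃ c₀ : ℕ, 1 / δU ≤ 2 ^ c₀ ∧ 4 * K ^ 3 / (ε / 4) ^ 2 ≤ 2 ^ c₀ ∧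
      4 * K ^ 3 / (ε / 4) ≤ 2 ^ c₀ := by
    have t := tendsto_pow_atTop_atTop_of_one_lt (one_lt_two (α := ℝ))
    exact ((t.eventually_ge_atTop _).and ((t.eventually_ge_atTop _).and
      (t.eventually_ge_atTop _))).exists
  set ε₁ := min (min η (ε / 4)) 1 with hε₁
  have he₁ : ε₁ ≤ η := (min_le_left _ _).trans (min_le_left _ _)
  have he₂ : ε₁ ≤ ε / 4 := (min_le_left _ _).trans (min_le_right _ _)
  have he₃ : ε₁ ≤ 1 := min_le_right _ _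
  have he₀ : 0 < ε₁ := by positivity
  have hKK : K ≤ K + 2 ^ c₀ + Q := by rw [add_assoc]; exact le_add_of_nonneg_right (by positivity)
  filter_upwards [Soft.ev hP F (K := K + 2 ^ c₀ + Q) h1 (h2.trans hKK) he₀, ev_le hδG, ev_large L₀,
    ev_win hm F h1 one_pos] with δ hP hδ hL₀ hθ Λ hΛ l L hw μ u ha1 haK hu huK
  have hθ : 0 < Λ.tN l := (half_pos h1).trans_le (hθ Λ hΛ l L hw).2
  have hok := hΛ.ok
  have hL := hw.one_le_L
  have hL' := hw.L_pos'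
  have hμ : 0 < μ := (mul_pos_iff_of_pos_right (by positivity)).1 (one_pos.trans_le ha1)
  obtain ⟨c, rfl⟩ := hw.dyadic
  have cen := hok.cen_WN hL
  obtain ⟨hP1, hP2⟩ := hP Λ hΛ l _ hw μ u c c₀ rfl (by linarith [Q.cast_nonneg (α := ℝ)]) hμ.le
    (haK.trans hKK) (hu.mono hL' hKK) fun x hx => (huK x hx).trans hKK
  have hrg : (0 : ℝ) ≤ 4 * (1 + F.base.rg) := by positivity
  have hV := fun J hJ => hV Λ hΛ _ (hL₀ l _ hw.sep).2.2 (hG Λ hΛ l _ (hw.mono_d hδ))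
    (Λ.Nr (sq 0 (2 ^ c)) 0) (cu Λ (2 ^ c)) {0} c J μ
    (amb_cu hok hL) (fun a ha => by rw [mem_singleton.1 ha]; exact hok.amb_WN hL)
    (fun a ha a' ha' hn => (hn ((mem_singleton.1 ha).trans (mem_singleton.1 ha').symm)).elim) hJ hμ.le
    (by linarith) le_rfl
    (by
      rw [card_singleton, show (4 : ℝ) ^ c = ((2 ^ c : ℕ) : ℝ) ^ 2 by
        push_cast; rw [← pow_mul, mul_comm, pow_mul]; norm_num, Nat.cast_one]
      exact mul_le_mul_of_nonneg_right (by linarith) (by positivity))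
    (by
      rw [singleton_biUnion]
      refine fun ρ hρ => (thn_cu Λ _ ρ hρ).trans ?_
      rw [hΛ.rg_eq]
      gcongr; linarith)
  set L := 2 ^ c with hLc
  set Tm := terms {0} c (Ico (c - c₀) c) with hTm
  set Th := terms {0} c (range (c - c₀)) with hTh
  have hJm : Ico (c - c₀) c ⊆ range c := fun j hj => mem_range.2 (mem_Ico.1 hj).2
  have hJh : range (c - c₀) ⊆ range c := range_subset_range.2 (Nat.sub_le _ _)
  have hsp : ∀ f : Ix → ℝ, ∑ t ∈ terms {0} c (range c), f t = ∑ t ∈ Tm, f t + ∑ t ∈ Th, f t :=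
    fun f => by
      rw [← terms_union _ _ (disjoint_left.2 fun j hj hj' => by
        rw [mem_Ico] at hj; rw [mem_range] at hj'; omega)]
      congr 2
      ext j; simp only [mem_union, mem_Ico, mem_range]; omega
  set a := μ * (L : ℝ) ^ 2 with ha
  set ω := a * mn 0 L u with hω
  set ν := ∑ t ∈ Th, hc μ L u t • hg μ t with hν
  set ξ : Pt → ℝ := (Λ.tN l)⁻¹ • Λ.Au (sq 0 L) u + ω • ua 0 L + ∑ t ∈ Tm, hc μ L u t • hg μ t with hξ
  have hf : fu Λ L (Λ.tN l) μ u = ξ + ν := by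
    ext x
    simp only [fu, hξ, hν, Pi.add_apply, Pi.smul_apply, Finset.sum_apply, smul_eq_mul]
    rw [rep hμ.le, hsp]; ring
  have hsup : Sup (sq 0 L) ξ := fun x hx => by
    simp only [hξ, Pi.add_apply, Pi.smul_apply, Finset.sum_apply, smul_eq_mul]
    rw [Λ.sup_Au _ u x hx, ua_off hx,
      sum_eq_zero fun t ht => by rw [hg_off (terms_mono hJm ht) hx, mul_zero]]
    simp
  have hsum : ∑ x ∈ sq 0 L, ξ x = ω := by
    simp only [hξ, Pi.add_apply, Pi.smul_apply, Finset.sum_apply, smul_eq_mul, sum_add_distrib]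
    rw [sum_comm]
    simp only [← mul_sum]
    rw [Λ.sum_Au, sum_ua hL subset_rfl,
      sum_eq_zero fun t ht => by rw [sum_hg (terms_mono hJm ht), mul_zero]]
    simp
  have hpr : pr ξ = (Λ.tN l)⁻¹ • Λ.X L u + zl Tm (hl μ) (hc μ L u) + ω • pr (ua 0 L) := by
    simp only [hξ, pr_add, pr_smul, pr_sum, pr_hg, zl, Lat.X]; abel
  have hex : ∀ (s : Cfg Pt) (k : ℤ), Real.exp (-(μ * ∑ x ∈ sq 0 L, ((s x : ℝ) + k) ^ 2) / 2) =
      Real.exp (-a * (pr (ua 0 L) s + k) ^ 2 / 2) * (gq Tm (hl μ) s * gq Th (hl μ) s) := fun s k => by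
    have := haar hμ.le {0} c s k
    simp only [sum_singleton] at this
    rw [this, hsp, gq, gq, ← Real.exp_add, ← Real.exp_add, ha, hLc]
    push_cast; ring_nf
  have hS0 : 0 ≤ ∑ t ∈ Th, hc μ L u t ^ 2 := sum_nonneg fun _ _ => sq_nonneg _
  have hS1 : ∑ t ∈ Th, hc μ L u t ^ 2 ≤ 4 * K ^ 3 / 2 ^ c₀ := hi_le hμ.le hu haK c₀
  have hS2 : ∑ t ∈ Th, hc μ L u t ^ 2 ≤ (ε / 4) ^ 2 :=
    hS1.trans ((div_le_comm₀ (by positivity) (by positivity)).1 hc₂)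
  have hS3 : ∑ t ∈ Th, hc μ L u t ^ 2 ≤ ε / 4 :=
    hS1.trans ((div_le_comm₀ (by positivity) (by positivity)).1 hc₃)
  set E := Λ.En (sq 0 L) u u / Λ.tN l + ∑ t ∈ Tm, hc μ L u t ^ 2 with hE
  have hE0 : 0 ≤ E := add_nonneg (div_nonneg (hok.En_nonneg _ u) hθ.le)
    (sum_nonneg fun _ _ => sq_nonneg _)
  have hE1 : Real.exp (-E / 2) ≤ 1 := Real.exp_le_one_iff.2 (by linarith)
  have hK2 : K ≤ K ^ 2 := by nlinarith
  have hC := Real.exp_pos C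
  have hG0 : 0 ≤ Ex (Λ.WN L) (gq Tm (hl μ)) := Ex_nonneg cen.nonneg fun s _ => (gq_pos _ _ s).le
  have hZ := hZ _ (Λ.WN L) (gq Tm (hl μ)) (gq Th (hl μ))
    (((Λ.tN l)⁻¹ • Λ.X L u + zl Tm (hl μ) (hc μ L u) : Cfg Pt →+ ℝ)) (pr (ua 0 L)) a ω
    (Real.exp (-E / 2) + ε₁) cen.wt (fun s => ⟨gq_pos _ _ s, gq_le_one _ _ s⟩)
    (fun s => ⟨gq_pos _ _ s, gq_le_one _ _ s⟩) ha1 (by linarith)
    (by
      rw [hω, abs_mul, abs_of_pos (one_pos.trans_le ha1)]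
      nlinarith [mul_le_mul haK (abs_mn_le hL huK) (abs_nonneg _) (by linarith)])
    (by positivity) (by linarith)
    ((hV _ hJm).1.trans (mul_le_mul_of_nonneg_right (by nlinarith) (sq_nonneg _)))
    (by
      have := (hV _ hJh).2 fun j hj => by
        have h4 : (2 : ℝ) ^ j * 2 ^ c₀ ≤ (L : ℝ) := by
          rw [mem_range] at hj
          rw [hLc, ← pow_add]; push_cast
          exact pow_le_pow_right₀ one_le_two (by omega)
        rw [div_le_iff₀ hδU] at hc₁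
        nlinarith [pow_pos (two_pos (α := ℝ)) j]
      rwa [Real.exp_log (by linarith)] at this)
    hP1
    (fun q hq hQ => (hP2 q hq (le_trans (by exact_mod_cast hQ)
      (le_add_of_nonneg_left (by positivity)))).trans (mul_le_mul_of_nonneg_right he₁ hG0))
    (fun q => cen.ex_pd_nonneg ((pd_cos ((2 * Real.pi * q) • pr (ua 0 L))).mul (pd_gq _ _)))
  obtain ⟨hamb, hsite, -⟩ := hS Λ (sq 0 L) μ hok hμ
  have cm := hamb.1.cen hamb.2.1
  have k1 : Ph ((ms Λ (sq 0 L) μ).W 0) (pr ξ) ≤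
      Real.exp (-ω ^ 2 / (2 * a)) * (Real.exp (-E / 2) + ε₁) + ε / 4 := by
    rw [hU Λ L μ ξ hok hL hμ hsup]
    simp only [hex, ← mul_assoc, tsum_mul_right, hsum, hpr]
    simp only [mul_assoc]
    refine div_le_of_le_mul₀ (Ex_nonneg cen.nonneg fun s _ => mul_nonneg
      (tsum_nonneg fun k => (Real.exp_pos _).le) (mul_pos (gq_pos _ _ s) (gq_pos _ _ s)).le)
      (by positivity) (le_of_eq_of_le ?_ hZ)
    refine congrArg _ (funext fun s => congrArg (· * _) (tsum_congr fun k => ?_))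
    simp only [AddMonoidHom.add_apply, AddMonoidHom.smul_apply, smul_eq_mul]
    ring_nf
  have k2 := (abs_le.1 (hA.2.1 _ _ 0 (pr ξ) (pr ν) cm).2.2).2
  have k3 : Real.sqrt (Vr ((ms Λ (sq 0 L) μ).W 0) (pr ν) (pr ν)) ≤ ε / 4 := by
    refine Real.sqrt_le_iff.2 ⟨by positivity, (hsite ν).2.trans (le_trans ?_ hS2)⟩
    rw [div_le_iff₀' hμ]
    exact bessel hμ.le (terms_mono hJh) _
  have k4 : vu Λ L (Λ.tN l) μ u / 2 =
      (ω ^ 2 / (2 * a) + E / 2) + (∑ t ∈ Th, hc μ L u t ^ 2) / 2 := by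
    have : a ≠ 0 := (one_pos.trans_le ha1).ne'
    rw [vu, pars hμ.le, hsp, hE, hω, ← hLc, ← ha]
    field_simp
    ring
  have hω0 : 0 ≤ ω ^ 2 / (2 * a) := by have := one_pos.trans_le ha1; positivity
  have k5 := exp_lip (x := ω ^ 2 / (2 * a) + E / 2) (y := vu Λ L (Λ.tN l) μ u / 2) (by linarith)
    (by linarith)
  have k6 : Real.exp (-ω ^ 2 / (2 * a)) ≤ 1 := Real.exp_le_one_iff.2 (by rw [neg_div]; linarith)
  rw [hf, pr_add, neg_div]
  rw [mul_add, ← Real.exp_add, neg_div, neg_div, ← neg_add] at k1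
  rw [neg_div] at k6
  nlinarith

end Crest.Agent.T145.Mx
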