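import Crest.Agent.T145.GffDef_8
import Crest.Agent.T145.GeoB_51
import Crest.Agent.T145.CorB_59

/-!
# Row 145 (b): `T3aStmt` from J, HI, LO, FAC (helper84)
-/

set_option autoImplicit false

namespace Crest.Agent.T145
namespace T84

open Finset

/-! ## small tools -/

theorem ip_dv {V : Type*} {B : Finset V} {ed : Finset (V × V)} (h : ∀ e ∈ ed, e.1 ∈ B ∧ e.2 ∈ B)
    (φ : V × V → ℝ) (u : V → ℝ) : ip B (dv ed φ) u = ∑ e ∈ ed, φ e * (u e.2 - u e.1) := by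
  classical
  unfold ip dv
  simp only [sum_mul]
  rw [sum_comm]
  refine sum_congr rfl fun e he => ?_
  have h1 : ∀ z ∈ B, ∑ x ∈ B, ind (z = x) * u x = u z := fun z hz => by
    rw [sum_eq_single z]
    · simp [ind]
    · intro b _ hb; simp [ind, hb.symm]
    · intro h'; exact absurd hz h'
  rw [← h1 _ (h e he).2, ← h1 _ (h e he).1, ← sum_sub_distrib, mul_sum]
  exact sum_congr rfl fun x _ => by ring

theorem sum_dv {V : Type*} {B : Finset V} {ed : Finset (V × V)} (h : ∀ e ∈ ed, e.1 ∈ B ∧ e.2 ∈ B)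
    (φ : V × V → ℝ) : ∑ x ∈ B, dv ed φ x = 0 := by
  have := ip_dv h φ fun _ => 1
  simpa [ip] using this

theorem ends (Λ : Lat) (B : Finset Pt) : ∀ e ∈ Λ.edI B, e.1 ∈ B ∧ e.2 ∈ B := fun _ he =>
  (Lat.mem_edI.1 he).2

theorem ip_Au (Λ : Lat) (B : Finset Pt) (u v : Pt → ℝ) : ip B (Λ.Au B u) v = Λ.En B u v := by
  rw [Lat.Au, ip_dv (ends Λ B), Lat.En]
  exact sum_congr rfl fun e _ => by ring

theorem sum_Au (Λ : Lat) (B : Finset Pt) (u : Pt → ℝ) : ∑ x ∈ B, Λ.Au B u x = 0 :=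
  sum_dv (ends Λ B) _

theorem En_nonneg {Λ : Lat} (h : Λ.Ok) (B : Finset Pt) (u : Pt → ℝ) : 0 ≤ Λ.En B u u :=
  sum_nonneg fun _ _ => div_nonneg (mul_self_nonneg _) h.pos.le

theorem sqrt_tri {a b c : ℝ} (ha : 0 ≤ a) (hb : 0 ≤ b) (h : c ^ 2 ≤ a * b) :
    Real.sqrt (a + 2 * c + b) ≤ Real.sqrt a + Real.sqrt b := by
  have h1 : c ≤ Real.sqrt a * Real.sqrt b := by
    rw [← Real.sqrt_mul ha]; exact Real.le_sqrt_of_sq_le h
  refine Real.sqrt_le_iff.2 ⟨by positivity, ?_⟩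
  nlinarith [Real.sq_sqrt ha, Real.sq_sqrt hb]

theorem Vr_tri {L : Type*} [AddCommGroup L] {W : L → ℝ} (h : Cen W) (f g : L →+ ℝ) :
    Real.sqrt (Vr W (f + g) (f + g)) ≤ Real.sqrt (Vr W f f) + Real.sqrt (Vr W g g) := by
  have e : Vr W (f + g) (f + g) = Vr W f f + 2 * Vr W f g + Vr W g g := by
    rw [h.se.Vr_add_left, h.se.Vr_add_right, h.se.Vr_add_right, Vr_comm W g f]; ring
  rw [e]
  exact sqrt_tri (h.wt.Vr_nonneg h.se f) (h.wt.Vr_nonneg h.se g) (h.wt.Vr_sq_le h.se f g)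

theorem qf_tri {B : Finset Pt} {J : B → B → ℝ} {μ : ℝ} (h : Ker J μ) (m m' : Pt → ℝ) :
    Real.sqrt (qf J (m + m')) ≤ Real.sqrt (qf J m) + Real.sqrt (qf J m') := by
  set c := ∑ x : B, ∑ y : B, m x * J x y * m' y with hc
  have hc' : ∑ x : B, ∑ y : B, m' x * J x y * m y = c := by
    rw [hc, sum_comm]
    exact sum_congr rfl fun x _ => sum_congr rfl fun y _ => by rw [h.1 y x]; ring
  have e : ∀ t : ℝ, qf J (m + t • m') = qf J m' * (t * t) + 2 * c * t + qf J m := fun t => by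
    have : qf J (m + t • m') = qf J m' * (t * t) +
        (c + ∑ x : B, ∑ y : B, m' x * J x y * m y) * t + qf J m := by
      simp only [qf, hc, sum_mul, add_mul, ← sum_add_distrib, Pi.add_apply, Pi.smul_apply,
        smul_eq_mul]
      exact sum_congr rfl fun x _ => sum_congr rfl fun y _ => by ring
    rw [this, hc']; ring
  have d := discrim_le_zero (a := qf J m') (b := 2 * c) (c := qf J m) fun t => by
    rw [← e]; exact (h.2.2 _).1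
  have e1 := e 1
  rw [one_smul] at e1
  rw [e1, show qf J m' * (1 * 1) + 2 * c * 1 + qf J m = qf J m + 2 * c + qf J m' by ring]
  refine sqrt_tri (h.2.2 _).1 (h.2.2 _).1 ?_
  unfold discrim at d
  nlinarith

theorem sqrt_le_of {Q η v : ℝ} (hQ : 0 ≤ Q) (hη : 0 ≤ η) (hv : 0 ≤ v)
    (h : Q ≤ η + Real.sqrt Q * v) : Real.sqrt Q ≤ v + Real.sqrt η := by
  by_contra hc
  push Not at hc
  have h1 := Real.sq_sqrt hQ
  have h2 := Real.sq_sqrt hη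
  have h3 := Real.sqrt_nonneg η
  nlinarith

theorem Sep.mono {δ δ' : ℝ} {l L : ℕ} (h : Sep δ l L) (hδ : δ ≤ δ') : Sep δ' l L :=
  ⟨h.1.trans (by gcongr), h.2.trans (by gcongr)⟩

theorem Win.mono {Λ : Lat} {θ δ δ' : ℝ} {l L : ℕ} (h : Λ.Win θ δ l L) (hδ : δ ≤ δ') :
    Λ.Win θ δ' l L := ⟨h.1, Sep.mono h.2.1 hδ, h.2.2.1, h.2.2.2.trans hδ⟩

/-- in a window `L` is large -/
theorem Sep.le {δ C : ℝ} {l L : ℕ} (h : Sep δ l L) (h0 : 0 < δ) (h1 : δ ≤ 1) (hC : δ * C ≤ 1) :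
    C ≤ L := by
  have h2 : (l : ℝ) ≤ L := h.2.trans (by nlinarith [(Nat.cast_nonneg L : (0 : ℝ) ≤ L)])
  have h3 : δ * C ≤ δ * L := hC.trans (h.1.trans (by gcongr))
  exact le_of_mul_le_mul_left h3 h0

theorem Sm2.mono {u : Pt → ℝ} {K K' L : ℝ} (h : Sm2 u K L) (hK : K ≤ K') (hL : 0 ≤ L) :
    Sm2 u K' L :=
  ⟨fun i x => (h.1 i x).trans (by gcongr), fun i j x => (h.2 i j x).trans (by gcongr)⟩

theorem Stein.mono {Λ : Lat} {L : ℕ} {θ K K' ε : ℝ} {u : Pt → ℝ} (h : Λ.Stein L θ u K ε)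
    (hK : K' ≤ K) : Λ.Stein L θ u K' ε := fun q η hq hη => by
  obtain ⟨φ, h1, h2⟩ := hη
  exact h q η (hq.trans hK) ⟨φ, h1, fun e he => (h2 e he).trans (by gcongr)⟩

theorem ok_of {F : Fa} {Λ : Lat} (h : F.Mem Λ) : Λ.Ok := ⟨h.1 ▸ F.adm, F.pos.trans_le h.2.2.1⟩

theorem cen_WN {Λ : Lat} (h : Λ.Ok) {L : ℕ} (hL : 1 ≤ L) : Cen (Λ.WN L) :=
  h.cen_Nr (self_mem_sq 0 hL)

theorem F2.f2A {ed : Finset (Pt × Pt)} {f : Pt → ℝ} {n : ℝ} (h : F2 ed f n) (A : Finset Pt) :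
    F2A ed A f n := by
  obtain ⟨φ, h1, h2⟩ := h
  exact ⟨φ, fun x _ => by rw [h1], h2⟩

/-- bare bounds in the free square -/
theorem bare_WN (hB : BrStmt) {Λ : Lat} (h : Λ.Ok) {L : ℕ} (hL : 1 ≤ L) {f : Pt → ℝ} {n : ℝ}
    (hf : F2 (Λ.edI (sq 0 L)) f n) : Vr (Λ.WN L) (pr f) (pr f) ≤ Λ.τ * n ∧
      Ex (Λ.WN L) (fun s => pr f s ^ 4) ≤ 24 * Real.exp Λ.τ * n ^ 2 := by
  have := hB.2.1 Λ (Λ.Nr (sq 0 L) 0) f n h (h.ctr_Nr _ _) (h.anch_Nr (self_mem_sq 0 hL))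
    (Λ.edI (sq 0 L)) subset_rfl (fun _ _ => rfl) (F2.f2A hf _)
  exact ⟨this.1, this.2.2⟩

/-! ## block averages -/

theorem blk_eq (r : ℕ) (x : Pt) :
    ((r * (x.1 / r), r * (x.2 / r)) : Pt) = tile 0 r (tileOf 0 r x) := by
  simp [tile, tileOf]

theorem Plo_sub_le {r : ℕ} (hr : 0 < r) {u : Pt → ℝ} {x : Pt} {a C : ℝ}
    (h : ∀ y ∈ sq (tile 0 r (tileOf 0 r x)) r, |u y - a| ≤ C) : |Plo r u x - a| ≤ C := by
  have h0 : (0 : ℝ) < (r : ℝ) ^ 2 := by positivity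
  have e : Plo r u x - a = (∑ y ∈ sq (tile 0 r (tileOf 0 r x)) r, (u y - a)) / (r : ℝ) ^ 2 := by
    rw [Plo, blk_eq, sum_sub_distrib, sum_const, card_sq, nsmul_eq_mul]
    push_cast
    field_simp
  rw [e, abs_div, abs_of_pos h0, div_le_iff₀ h0]
  refine (abs_sum_le_sum_abs _ _).trans ((sum_le_sum h).trans_eq ?_)
  rw [sum_const, card_sq, nsmul_eq_mul]; push_cast; ring

theorem Plo_abs_le {r k : ℕ} (hr : 0 < r) {u : Pt → ℝ} {K : ℝ}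
    (h : ∀ y ∈ sq 0 (k * r), |u y| ≤ K) {x : Pt} (hx : x ∈ sq 0 (k * r)) : |Plo r u x| ≤ K := by
  have := Plo_sub_le hr (u := u) (x := x) (a := 0) (C := K) fun y hy => by
    rw [sub_zero]; exact h y (tile_subset 0 r ((tileOf_mem hr).2 hx) hy)
  rwa [sub_zero] at this

theorem co_sum (x : Pt) : ∑ i, |co i x| = |(x.1 : ℝ)| + |(x.2 : ℝ)| := by
  simp [co, Fin.sum_univ_two]

theorem osc_sq (hS : SmStmt) {u : Pt → ℝ} {K L : ℝ} (h : Sm2 u K L) {a x y : Pt} {r : ℕ}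
    (hx : x ∈ sq a r) (hy : y ∈ sq a r) : |u y - u x| ≤ K / L * (2 * r) := by
  refine (hS.2.2.1 u K L x y h).1.trans ?_
  have h0 : 0 ≤ K / L := (abs_nonneg _).trans (h.1 0 0)
  rw [mem_sq] at hx hy
  have h1 : |(y - x).1| ≤ r := by rw [abs_le, Prod.fst_sub]; omega
  have h2 : |(y - x).2| ≤ r := by rw [abs_le, Prod.snd_sub]; omega
  have h1' : |((y - x).1 : ℝ)| ≤ r := by exact_mod_cast h1
  have h2' : |((y - x).2 : ℝ)| ≤ r := by exact_mod_cast h2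
  rw [co_sum]
  exact mul_le_mul_of_nonneg_left (by linarith) h0

theorem Plo_near (hS : SmStmt) {r : ℕ} (hr : 0 < r) {u : Pt → ℝ} {K L : ℝ} (h : Sm2 u K L)
    (x : Pt) : |Plo r u x - u x| ≤ K / L * (2 * r) :=
  Plo_sub_le hr fun _ hy => osc_sq hS h ((mem_tile_iff hr).2 rfl) hy

theorem ip_le {B : Finset Pt} {f : Pt → ℝ} {C : ℝ} (h : ∀ x ∈ B, |f x| ≤ C) :
    ip B f f ≤ B.card * C ^ 2 := by
  rw [ip, ← nsmul_eq_mul]
  refine sum_le_card_nsmul _ _ _ fun x hx => ?_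
  rw [← pow_two, ← sq_abs]
  exact pow_le_pow_left₀ (abs_nonneg _) (h x hx) 2

/-- a uniform bound for the energy -/
theorem En_le (hR : RJStmt) (F : Fa) : ∃ C : ℝ, 0 ≤ C ∧ ∀ Λ, F.Mem Λ → ∀ L : ℕ, 1 ≤ L →
    ∀ (u : Pt → ℝ) (K : ℝ), Sm2 u K L → Λ.En (sq 0 L) u u ≤ C * K ^ 2 ∧
      |Λ.En (sq 0 L) u u - Λ.e0 * nnL.En (sq 0 L) u u| ≤ C * K ^ 2 / L ∧
      ∀ x, bl x Λ.rg ⊆ sq 0 L → |Λ.Au (sq 0 L) u x| ≤ C * K / (L : ℝ) ^ 2 := by
  obtain ⟨C, hC⟩ := hR F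
  refine ⟨3 * max C 0, by positivity, fun Λ hΛ L hL u K hu => ?_⟩
  have hL' : (1 : ℝ) ≤ L := by exact_mod_cast hL
  have hL0 : (0 : ℝ) < L := by linarith
  obtain ⟨-, h2, h3, h4⟩ := (hC Λ hΛ 0 L L).2 u u K L hL' hu hu
  have hK : 0 ≤ K := by
    have := (abs_nonneg _).trans (hu.1 0 0)
    exact (div_nonneg_iff.1 this).elim (·.1) fun h => absurd h.2 (by linarith)
  have hm : C ≤ max C 0 := le_max_left _ _
  have hm0 : 0 ≤ max C 0 := le_max_right _ _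
  refine ⟨(le_abs_self _).trans (h3.trans ?_), h2.trans ?_, fun x hx => (h4 x hx).trans ?_⟩
  · have : (L : ℝ) * L / L ^ 2 = 1 := by field_simp
    rw [this]; nlinarith [sq_nonneg K]
  · have : (L : ℝ) * L / L ^ 3 + (L + L) / L ^ 2 = 3 / L := by field_simp; ring
    rw [this, show C * K ^ 2 * (3 / L) = 3 * C * K ^ 2 / L by ring]
    gcongr
  · gcongr; linarith

/-! ## T3a -/

theorem fin_alg {E B e₁ e₂ q ε : ℝ} (hE : 0 ≤ E) (hB : E ≤ B) (h1 : 0 ≤ e₁) (h1' : e₁ ≤ 1)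
    (h2 : 0 ≤ e₂) (h2' : e₂ ≤ 1) (hq : 0 ≤ q) (h : Real.sqrt q ≤ Real.sqrt (E + e₁) + e₂)
    (hε : e₁ + e₂ * (2 * (B + 2) + 1) ≤ ε) : q ≤ E + ε := by
  have h3 := Real.sq_sqrt hq
  have h4 := Real.sq_sqrt (add_nonneg hE h1)
  have h5 : Real.sqrt (E + e₁) ≤ B + 2 := Real.sqrt_le_iff.2 ⟨by linarith, by nlinarith⟩
  have h6 := Real.sqrt_nonneg q
  have h7 := Real.sqrt_nonneg (E + e₁)
  have h8 : Real.sqrt q ^ 2 ≤ (Real.sqrt (E + e₁) + e₂) ^ 2 := pow_le_pow_left₀ h6 h 2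
  nlinarith

theorem t3a_fix (hJ : JStmt) (hH : HiStmt) (hL : LoStmt) (hF : FacStmt) (hB : BrStmt)
    (hM : T1mStmt) (hR : RJStmt) (hS : SmStmt) (F : Fa) {θ₀ K ε : ℝ} (h0 : 0 < θ₀) (hK : 1 ≤ K)
    (hε : 0 < ε) (a : ℕ) : ∃ δ : ℝ, 0 < δ ∧ ∀ Λ, F.Mem Λ → ∀ l L, Λ.Win θ₀ δ l L →
      ∀ u : Pt → ℝ, Sm2 u K L → (∀ x ∈ sq 0 L, |u x| ≤ K) →
      Λ.tN l * Λ.En (sq 0 L) u u - δ ≤ Vr (Λ.WN L) (Λ.X L u) (Λ.X L u) →
      qf (Λ.Jm L ((2 ^ a / (L : ℝ)) ^ 2)) u ≤ Λ.En (sq 0 L) u u / Λ.tN l + ε := by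
  obtain ⟨C, hC0, hC⟩ := En_le hR F
  have hτ₁ := F.pos
  -- constants
  set t : ℝ := θ₀ / 2 with ht
  have ht0 : 0 < t := by positivity
  set B : ℝ := C * K ^ 2 / t with hBd
  have hB0 : 0 ≤ B := by positivity
  set e : ℝ := min 1 (ε / (2 * (B + 2) + 2)) with he
  have he0 : 0 < e := by positivity
  have he1 : e ≤ 1 := min_le_left _ _
  have heε : e + e * (2 * (B + 2) + 1) ≤ ε := by
    have : e * (2 * (B + 2) + 2) ≤ ε := (le_div_iff₀ (by positivity)).1 (min_le_right _ _)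
    linarith
  set K₁ : ℝ := max K (C * K ^ 2 / (F.τ₁ * t ^ 2)) with hK₁
  set A : ℝ := max (4 ^ a * K ^ 2) (5 * Real.exp F.τ₂ * K₁) with hA
  have hA0 : 0 ≤ A := le_max_of_le_left (by positivity)
  set η : ℝ := (e / 2) ^ 2 with hη
  have hη0 : 0 < η := by positivity
  set N : ℝ := (8 * (A + 1) ^ 2 / η) ^ 2 with hN
  have hN0 : 0 < N := by positivity
  set ε' : ℝ := η / (4 * N) with hε'
  have hε'0 : 0 < ε' := by positivity
  obtain ⟨b₀, hb₀⟩ := hH F K₁ ε' a hε'0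
  obtain ⟨b₁, hb₁⟩ := pow_unbounded_of_one_lt (4 * K / e) (one_lt_two : (1 : ℝ) < 2)
  set b := max b₀ b₁ with hb
  obtain ⟨K', ε₁, hK', hε₁, hLo⟩ := hL F t K ε' a b ht0 hε'0
  obtain ⟨δ₁, hδ₁, hFac⟩ := hF F θ₀ (max K K') (min ε₁ (e * t ^ 2)) h0 (le_max_of_le_left hK)
    (by positivity)
  obtain ⟨δ₂, hδ₂, hT⟩ := hM.2.2 F θ₀ 1 0 h0 one_pos
  refine ⟨min (min δ₁ δ₂) (1 / 2 ^ (a + b)), by positivity, fun Λ hΛ l L hW u hu hub hV => ?_⟩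
  have hΛo := ok_of hΛ
  have hτ := hΛo.pos
  have hδa : min (min δ₁ δ₂) (1 / 2 ^ (a + b)) ≤ δ₁ := (min_le_left _ _).trans (min_le_left _ _)
  have hθ : t ≤ Λ.tN l := (hT Λ hΛ l L (Win.mono hW ((min_le_left _ _).trans (min_le_right _ _)))).2.1
  have hθ0 : 0 < Λ.tN l := ht0.trans_le hθ
  have hLge : (2 : ℝ) ^ (a + b) ≤ L := by
    refine Sep.le (Sep.mono hW.2.1 (min_le_right _ _)) (by positivity) ?_ (by field_simp; rfl)
    rw [div_le_one (by positivity)]; exact one_le_pow₀ one_le_two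
  obtain ⟨j, hj⟩ := hW.1
  have hjab : a + b ≤ j := by
    rw [hj] at hLge; push_cast at hLge
    exact (pow_le_pow_iff_right₀ one_lt_two).1 hLge
  obtain ⟨c, rfl⟩ := Nat.exists_eq_add_of_le hjab
  have hL1 : 1 ≤ L := hj ▸ Nat.one_le_two_pow
  have hL0 : (0 : ℝ) < L := by exact_mod_cast hL1
  have hLr : (L : ℝ) = 2 ^ a * 2 ^ b * 2 ^ c := by rw [hj]; push_cast; ring
  obtain ⟨hSt, hGs⟩ := hFac Λ hΛ l L (Win.mono hW hδa) u (Sm2.mono hu (le_max_left _ _) hL0.le)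
    (fun x hx => (hub x hx).trans (le_max_left _ _)) (by linarith)
  obtain ⟨hE, -, -⟩ := hC Λ hΛ L hL1 u K hu
  have hE0 := En_nonneg hΛo (sq 0 L) u
  set θ := Λ.tN l with hθd
  set E := Λ.En (sq 0 L) u u with hEd
  set μ : ℝ := (2 ^ a / (L : ℝ)) ^ 2 with hμ
  have hμ0 : 0 < μ := by positivity
  obtain ⟨hKer, -, hc⟩ := hJ Λ L μ hΛo hL1 hμ0
  set T : Pt → ℝ := θ⁻¹ • Λ.Au (sq 0 L) u with hTd
  have hprT : pr T = θ⁻¹ • Λ.X L u := pr_smul _ _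
  have hF2 : F2 (Λ.edI (sq 0 L)) T K₁ := by
    refine ⟨fun e => θ⁻¹ * ((u e.2 - u e.1) / Λ.τ), ?_, ?_⟩
    · funext x
      simp only [hTd, Pi.smul_apply, smul_eq_mul, Lat.Au, dv, mul_sum, mul_assoc]
    · have : ∑ e ∈ Λ.edI (sq 0 L), (θ⁻¹ * ((u e.2 - u e.1) / Λ.τ)) ^ 2 = E / (Λ.τ * θ ^ 2) := by
        rw [hEd, Lat.En, sum_div]
        exact sum_congr rfl fun e _ => by field_simp
      rw [this]
      refine le_trans ?_ (le_max_right _ _)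
      have := hΛ.2.2.1
      gcongr
  have hr : 0 < 2 ^ c := by positivity
  have hLk : L = 2 ^ (a + b) * 2 ^ c := by rw [hj, pow_add]
  have hcard : ((sq (0 : Pt) L).card : ℝ) = (L : ℝ) ^ 2 := by rw [card_sq]; push_cast; rfl
  have hQ := hc (Plo (2 ^ c) u) T (2 * ε') A N hN0 hA0
    (by simp only [hTd, Pi.smul_apply, smul_eq_mul, ← mul_sum, sum_Au, mul_zero])
    (fun G hG => by
      have h1 := hb₀ Λ hΛ b c (le_max_left _ _)
      have h2 := hLo Λ hΛ c θ hθ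
      dsimp only at h1 h2
      rw [← hj] at h1 h2
      have h3 := h1 u T G (fun x hx => (hub x hx).trans (le_max_left _ _)) hF2 hG
      have h4 := h2 u G hub hu
        (fun q η hq hη => (Stein.mono hSt (le_max_right _ _) q η hq hη).trans (min_le_left _ _)) hG
      rw [← hprT] at h4
      have h5 := abs_add_le _ _ |>.trans (add_le_add h3 h4)
      rw [sub_add_cancel] at h5
      linarith)
    (by
      have h1 := ip_le (B := sq 0 L) (f := Plo (2 ^ c) u) (C := K) fun x hx =>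
        Plo_abs_le (k := 2 ^ (a + b)) hr (hLk ▸ hub) (hLk ▸ hx)
      refine (mul_le_mul_of_nonneg_left h1 hμ0.le).trans (le_trans (le_of_eq ?_) (le_max_left _ _))
      rw [hcard, hμ, show (4 : ℝ) ^ a = (2 ^ a) ^ 2 by rw [← pow_mul, mul_comm, pow_mul]; norm_num]
      field_simp)
    (by
      refine (bare_WN hB hΛo hL1 hF2).2.trans ?_
      have h1 : 5 * Real.exp F.τ₂ * K₁ ≤ A := le_max_right _ _
      have h2 : Real.exp Λ.τ ≤ Real.exp F.τ₂ := Real.exp_le_exp.2 hΛ.2.2.2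
      have h3 : 1 ≤ Real.exp F.τ₂ := Real.one_le_exp (hτ.le.trans hΛ.2.2.2)
      have h4 : 0 ≤ K₁ := le_max_of_le_left (by linarith)
      calc 24 * Real.exp Λ.τ * K₁ ^ 2 ≤ 25 * (Real.exp F.τ₂ * Real.exp F.τ₂) * K₁ ^ 2 := by
            gcongr ?_ * _; nlinarith
        _ = (5 * Real.exp F.τ₂ * K₁) ^ 2 := by ring
        _ ≤ A ^ 2 := by gcongr)
  have hηe : N * (2 * ε') + 4 * (A + 1) ^ 2 / Real.sqrt N = η := by
    rw [hε', hN, Real.sqrt_sq (by positivity)]; field_simp; ring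
  rw [hηe] at hQ
  have h1 := sqrt_le_of (hKer.2.2 _).1 hη0.le (Real.sqrt_nonneg _) hQ
  rw [hη, Real.sqrt_sq (by positivity)] at h1
  have h2 : Vr (Λ.WN L) (pr T) (pr T) ≤ E / θ + e := by
    rw [hprT, Vr_smul_left, Vr_smul_right]
    have h3 := (abs_le.1 hGs.1).2
    have h4 : Vr (Λ.WN L) (Λ.X L u) (Λ.X L u) ≤ θ * E + e * θ ^ 2 := by
      have : e * t ^ 2 ≤ e * θ ^ 2 := by gcongr
      linarith [min_le_right ε₁ (e * t ^ 2)]
    calc θ⁻¹ * (θ⁻¹ * Vr (Λ.WN L) (Λ.X L u) (Λ.X L u)) ≤ θ⁻¹ * (θ⁻¹ * (θ * E + e * θ ^ 2)) := by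
          gcongr
      _ = E / θ + e := by field_simp
  have h3 : Real.sqrt (qf (Λ.Jm L μ) (u - Plo (2 ^ c) u)) ≤ e / 2 := by
    refine Real.sqrt_le_iff.2 ⟨by positivity, (hKer.2.2 _).2.trans ?_⟩
    have h4 := ip_le (B := sq 0 L) (f := u - Plo (2 ^ c) u) (C := K / L * (2 * (2 ^ c : ℕ)))
      fun x _ => by rw [Pi.sub_apply, abs_sub_comm]; exact Plo_near hS hr hu x
    refine (mul_le_mul_of_nonneg_left h4 hμ0.le).trans ?_
    have h5 : μ * ((sq (0 : Pt) L).card * (K / L * (2 * (2 ^ c : ℕ))) ^ 2) = (2 * K / 2 ^ b) ^ 2 := by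
      rw [hcard, hμ]; push_cast; rw [hLr]; field_simp
    rw [h5]
    have h6 : (2 : ℝ) ^ b₁ ≤ 2 ^ b := pow_le_pow_right₀ one_le_two (le_max_right _ _)
    have h7 : 4 * K ≤ 2 ^ b * e := (div_le_iff₀ he0).1 (hb₁.le.trans h6)
    refine pow_le_pow_left₀ (by positivity) ?_ 2
    rw [div_le_iff₀ (by positivity)]; linarith
  have h4 := qf_tri hKer (Plo (2 ^ c) u) (u - Plo (2 ^ c) u)
  rw [add_sub_cancel] at h4
  have h5 := Real.sqrt_le_sqrt h2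
  refine fin_alg (B := B) (by positivity) ?_ he0.le he1 he0.le he1 (hKer.2.2 _).1 (by linarith) heε
  rw [hBd]; gcongr

end T84

open T84 in
theorem t3aStmt (hJ : JStmt) (hH : HiStmt) (hL : LoStmt) (hF : FacStmt) (hB : BrStmt)
    (hM : T1mStmt) (hR : RJStmt) (hS : SmStmt) : T3aStmt := fun F θ₀ K ε h0 hK hε => by
  choose δ hδ H using t3a_fix hJ hH hL hF hB hM hR hS F h0 hK hε
  have hne : (Finset.range (⌈K⌉₊ + 1)).Nonempty := ⟨0, by simp⟩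
  refine ⟨(Finset.range (⌈K⌉₊ + 1)).inf' hne δ, (Finset.lt_inf'_iff _).2 fun a _ => hδ a,
    fun Λ hΛ l L hW a u ha hu hub hV => ?_⟩
  have h1 : a ∈ Finset.range (⌈K⌉₊ + 1) := by
    have h2 : (a : ℝ) ≤ 2 ^ a := by exact_mod_cast Nat.lt_two_pow_self.le
    have h3 : (a : ℝ) ≤ (⌈K⌉₊ : ℕ) := (h2.trans ha).trans (Nat.le_ceil K)
    exact Finset.mem_range.2 (Nat.lt_succ_of_le (by exact_mod_cast h3))
  have h2 := Finset.inf'_le δ h1
  exact H a Λ hΛ l L (Win.mono hW h2) u hu hub (by linarith)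

end Crest.Agent.T145
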