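import Crest.Agent.T145.MxDef_9
import Crest.Agent.T145.T3A_84
import Crest.Agent.T145.Route_51

/-!
# Row 145, module Mx: `PloStmt` (helper84)
-/

set_option autoImplicit false

namespace Crest.Agent.T145.Mx
namespace P84

open Finset Uv

/-- the density of `z · hl` -/
noncomputable def gz (μ : ℝ) (T : Finset Ix) (z : Ix → ℝ) : Pt → ℝ :=
  ∑ t ∈ T, (z t * (Real.sqrt μ * 2 ^ t.2.1)) • hf t.1 t.2.1 t.2.2

theorem gz_apply (μ : ℝ) (T : Finset Ix) (z : Ix → ℝ) (x : Pt) :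
    gz μ T z x = ∑ t ∈ T, z t * (Real.sqrt μ * 2 ^ t.2.1) * hf t.1 t.2.1 t.2.2 x := by
  simp only [gz, Finset.sum_apply, Pi.smul_apply, smul_eq_mul]

theorem pr_fsum {ι : Type*} (T : Finset ι) (f : ι → Pt → ℝ) : pr (∑ i ∈ T, f i) = ∑ i ∈ T, pr (f i) := by
  classical
  induction T using Finset.induction_on with
  | empty => simp
  | insert a s ha ih => rw [sum_insert ha, sum_insert ha, pr_add, ih]

theorem pr_gz (μ : ℝ) (T : Finset Ix) (z : Ix → ℝ) : pr (gz μ T z) = zl T (hl μ) z := by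
  rw [gz, pr_fsum, zl]
  exact sum_congr rfl fun t _ => by rw [pr_smul, hl, smul_smul]

theorem zl_add {L ι : Type*} [AddCommGroup L] (T : Finset ι) (ℓ : ι → L →+ ℝ) (z z' : ι → ℝ) :
    zl T ℓ (z + z') = zl T ℓ z + zl T ℓ z' := by
  simp only [zl, Pi.add_apply, add_smul, sum_add_distrib]

theorem ip_gz (μ : ℝ) (L : ℕ) (T : Finset Ix) (z : Ix → ℝ) (u : Pt → ℝ) :
    ip (sq 0 L) (gz μ T z) u = ∑ t ∈ T, z t * hc μ L u t := by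
  simp only [ip, gz_apply, hc, sum_mul, mul_sum]
  rw [sum_comm]
  exact sum_congr rfl fun t _ => sum_congr rfl fun x _ => by ring

/-- the bands used in `PloStmt` -/
noncomputable abbrev Tm (c c₀ : ℕ) : Finset Ix := terms {0} c (Ico (c - c₀) c)

theorem mem_Tm {c c₀ : ℕ} {t : Ix} (h : t ∈ Tm c c₀) : c - c₀ ≤ t.2.1 ∧ t.2.1 < c ∧
    sq (tile t.1 (2 ^ (t.2.1 + 1)) (par t.2.2)) (2 ^ (t.2.1 + 1)) ⊆ sq 0 (2 ^ c) := by
  obtain ⟨h1, h2, h3⟩ := mem_terms.1 h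
  rw [mem_Ico] at h2
  rw [mem_singleton] at h1
  refine ⟨h2.1, h2.2, ?_⟩
  have := par_sub_top (a := t.1) h2.2 h3
  rwa [h1] at this ⊢

theorem card_Tm {c c₀ : ℕ} {K : ℝ} (h : (2 : ℝ) ^ c₀ ≤ K) : (#(Tm c c₀) : ℝ) ≤ K ^ 3 := by
  have h1 : #(Tm c c₀) ≤ c₀ * (2 ^ c₀) ^ 2 := by
    simp only [Tm, terms, card_sigma, sum_singleton, card_sq]
    refine (sum_le_card_nsmul _ _ ((2 ^ c₀) ^ 2) fun j hj => ?_).trans ?_
    · rw [mem_Ico] at hj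
      exact Nat.pow_le_pow_left (Nat.pow_le_pow_right (by norm_num) (by omega)) 2
    · rw [smul_eq_mul, Nat.card_Ico]
      exact Nat.mul_le_mul_right _ (by omega)
  have h2 : (c₀ : ℝ) ≤ 2 ^ c₀ := by exact_mod_cast (Nat.lt_two_pow_self (n := c₀)).le
  have h3 : (#(Tm c c₀) : ℝ) ≤ c₀ * ((2 : ℝ) ^ c₀) ^ 2 := by exact_mod_cast h1
  have h4 : (0 : ℝ) ≤ 2 ^ c₀ := by positivity
  calc _ ≤ _ := h3
    _ ≤ K * K ^ 2 :=
      mul_le_mul (h2.trans h) (pow_le_pow_left₀ h4 h 2) (by positivity) (h4.trans h)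
    _ = _ := by ring

section
variable {c c₀ : ℕ} {K μ : ℝ}

theorem sqrt_le (hK : 1 ≤ K) (h0 : 0 ≤ μ) (hμ : μ * ((2 : ℝ) ^ c) ^ 2 ≤ K) :
    Real.sqrt μ * 2 ^ c ≤ K := by
  have : (Real.sqrt μ * 2 ^ c) ^ 2 ≤ K ^ 2 := by
    rw [mul_pow, Real.sq_sqrt h0]; nlinarith
  exact le_of_sq_le_sq this (by linarith)

theorem amp_le (hK : 1 ≤ K) (h0 : 0 ≤ μ) (hμ : μ * ((2 : ℝ) ^ c) ^ 2 ≤ K) {t : Ix}
    (ht : t ∈ Tm c c₀) : Real.sqrt μ * 2 ^ t.2.1 ≤ K :=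
  le_trans (by gcongr; exacts [one_le_two, (mem_Tm ht).2.1.le]) (sqrt_le hK h0 hμ)

theorem abs_mn {a : Pt} {n : ℕ} (hn : 0 < n) {u : Pt → ℝ} (h : ∀ x ∈ sq a n, |u x| ≤ K) :
    |mn a n u| ≤ K := by
  have h0 : (0 : ℝ) < (n : ℝ) ^ 2 := by positivity
  rw [mn, abs_div, abs_of_pos h0, div_le_iff₀ h0]
  refine (abs_sum_le_sum_abs _ _).trans ((sum_le_sum h).trans_eq ?_)
  rw [sum_const, card_sq, nsmul_eq_mul]; push_cast; ring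

theorem abs_hc (hK : 1 ≤ K) (h0 : 0 ≤ μ) (hμ : μ * ((2 : ℝ) ^ c) ^ 2 ≤ K) {u : Pt → ℝ}
    (hu : ∀ x ∈ sq 0 (2 ^ c), |u x| ≤ K) {t : Ix} (ht : t ∈ Tm c c₀) :
    |hc μ (2 ^ c) u t| ≤ 2 * K ^ 2 := by
  have hp := (mem_Tm ht).2.2
  have hch := (child_sub_par t.1 t.2.1 t.2.2).trans hp
  have e : ip (sq 0 (2 ^ c)) (hf t.1 t.2.1 t.2.2) u =
      mn (tile t.1 (2 ^ t.2.1) t.2.2) (2 ^ t.2.1) u -
        mn (tile t.1 (2 ^ (t.2.1 + 1)) (par t.2.2)) (2 ^ (t.2.1 + 1)) u := by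
    simp only [ip, hf, Pi.sub_apply, sub_mul, sum_sub_distrib]
    rw [sum_ua_mul hch, sum_ua_mul hp]
  have h1 := abs_mn (K := K) (by positivity) fun x hx => hu x (hch hx)
  have h2 := abs_mn (K := K) (by positivity) fun x hx => hu x (hp hx)
  have h3 : |ip (sq 0 (2 ^ c)) (hf t.1 t.2.1 t.2.2) u| ≤ 2 * K := by
    rw [e]; exact (abs_sub _ _).trans (by linarith)
  rw [hc, abs_mul, abs_of_nonneg (by positivity)]
  calc _ ≤ K * (2 * K) := mul_le_mul (amp_le hK h0 hμ ht) h3 (abs_nonneg _) (by linarith)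
    _ = _ := by ring

theorem sup_gz (μ : ℝ) (z : Ix → ℝ) : Sup (sq 0 (2 ^ c)) (gz μ (Tm c c₀) z) := fun x hx => by
  rw [gz_apply]
  exact sum_eq_zero fun t ht => by rw [hf_off fun h => hx ((mem_Tm ht).2.2 h), mul_zero]

theorem sum_gz (μ : ℝ) (z : Ix → ℝ) : ∑ x ∈ sq 0 (2 ^ c), gz μ (Tm c c₀) z x = 0 := by
  simp only [gz_apply]
  rw [sum_comm]
  exact sum_eq_zero fun t ht => by rw [← mul_sum, sum_hf (mem_Tm ht).2.2, mul_zero]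

theorem abs_gz (hK : 1 ≤ K) (hc₀ : (2 : ℝ) ^ c₀ ≤ K) (h0 : 0 ≤ μ) (hμ : μ * ((2 : ℝ) ^ c) ^ 2 ≤ K)
    {z : Ix → ℝ} {R : ℝ} (hR : 0 ≤ R) (hz : ∀ t ∈ Tm c c₀, |z t| ≤ R) (x : Pt) :
    |gz μ (Tm c c₀) z x| ≤ K ^ 6 * R / ((2 : ℝ) ^ c) ^ 2 := by
  have hK0 : 0 ≤ K := by linarith
  have h1 : ∀ t ∈ Tm c c₀, |z t * (Real.sqrt μ * 2 ^ t.2.1) * hf t.1 t.2.1 t.2.2 x| ≤
      R * K * (K ^ 2 / ((2 : ℝ) ^ c) ^ 2) := fun t ht => by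
    rw [abs_mul, abs_mul, abs_of_nonneg (show 0 ≤ Real.sqrt μ * 2 ^ t.2.1 by positivity)]
    refine mul_le_mul (mul_le_mul (hz t ht) (amp_le hK h0 hμ ht) (by positivity) hR)
      ((abs_hf _ _ _ _).trans ?_) (abs_nonneg _) (by positivity)
    have h2 : (2 : ℝ) ^ c ≤ K * 2 ^ t.2.1 := by
      have h3 : (2 : ℝ) ^ c ≤ 2 ^ (c₀ + t.2.1) :=
        pow_le_pow_right₀ one_le_two (by have := (mem_Tm ht).1; omega)
      rw [pow_add] at h3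
      exact h3.trans (by gcongr)
    rw [div_le_div_iff₀ (by positivity) (by positivity), one_mul, ← mul_pow]
    gcongr
  rw [gz_apply]
  refine (abs_sum_le_sum_abs _ _).trans ((sum_le_card_nsmul _ _ _ h1).trans ?_)
  rw [nsmul_eq_mul]
  calc _ ≤ K ^ 3 * (R * K * (K ^ 2 / ((2 : ℝ) ^ c) ^ 2)) := by gcongr; exact card_Tm hc₀
    _ = _ := by ring

/-- lower bound of the Gaussian factor -/
theorem gq_low (hR : R1Stmt) (hB : BrStmt) {Λ : Lat} (hΛ : Λ.Ok) (hK : 1 ≤ K)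
    (hc₀ : (2 : ℝ) ^ c₀ ≤ K) (h0 : 0 ≤ μ) (hμ : μ * ((2 : ℝ) ^ c) ^ 2 ≤ K) {τ₂ : ℝ} (hτ : Λ.τ ≤ τ₂) :
    Real.exp (-(16 * τ₂ * K ^ 5)) ≤ Ex (Λ.WN (2 ^ c)) (gq (Tm c c₀) (hl μ)) := by
  have hL : 1 ≤ 2 ^ c := Nat.one_le_two_pow
  have cen := T84.cen_WN hΛ hL
  have hτ0 := hΛ.pos
  have hK0 : 0 ≤ K := by linarith
  have h1 : ∀ t ∈ Tm c c₀, Vr (Λ.WN (2 ^ c)) (hl μ t) (hl μ t) ≤ K ^ 2 * (τ₂ * 32) := fun t ht => by
    have h2 := (T84.bare_WN hB hΛ hL ((hf_flow hR hΛ t.1 t.2.1 t.2.2).subset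
      (Lat.edI_mono (mem_Tm ht).2.2))).1
    rw [hl, Vr_smul_left, Vr_smul_right, ← mul_assoc, ← pow_two]
    refine mul_le_mul (pow_le_pow_left₀ (by positivity) (amp_le hK h0 hμ ht) 2)
      (h2.trans (by gcongr)) (cen.wt.Vr_nonneg cen.se _) (by positivity)
  have h2 := (sum_le_card_nsmul _ _ _ h1)
  rw [nsmul_eq_mul] at h2
  have h3 : (#(Tm c c₀) : ℝ) * (K ^ 2 * (τ₂ * 32)) ≤ K ^ 3 * (K ^ 2 * (τ₂ * 32)) :=
    mul_le_mul_of_nonneg_right (card_Tm hc₀) (by have := hτ0.le.trans hτ; positivity)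
  rw [← Real.le_log_iff_exp_le (cen.wt.ex_pos' (cen.ig (Tame.gq _ _)) fun s => gq_pos _ _ s)]
  refine le_trans ?_ (le_log_gq cen _ _)
  nlinarith

end

/-- the flow of `A u` is small -/
theorem fs_Au {Λ : Lat} (hΛ : Λ.Ok) (B : Finset Pt) {u : Pt → ℝ} {K L : ℝ} (hu : Sm2 u K L) :
    Fs (Λ.edI B) (Λ.Au B u) (K / L * (2 * Λ.rg) / Λ.τ) := by
  refine ⟨_, rfl, fun e he => ?_⟩
  have h0 : 0 ≤ K / L := (abs_nonneg _).trans (hu.1 0 0)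
  have h1 := Lat.le_rg (Lat.mem_Jp.1 (Lat.mem_edI.1 he).1).1
  have h2 : |((e.2 - e.1).1 : ℝ)| ≤ Λ.rg := by exact_mod_cast h1.1
  have h3 : |((e.2 - e.1).2 : ℝ)| ≤ Λ.rg := by exact_mod_cast h1.2
  rw [abs_div, abs_of_pos hΛ.pos]
  refine div_le_div_of_nonneg_right ((hu.lip _ _).trans ?_) hΛ.pos.le
  rw [T84.co_sum]
  exact mul_le_mul_of_nonneg_left (by linarith) h0

/-- the test densities -/
noncomputable def eta (Λ : Lat) (c c₀ : ℕ) (μ a : ℝ) (u : Pt → ℝ) (z : Ix → ℝ) (q : ℤ) : Pt → ℝ :=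
  a • Λ.Au (sq 0 (2 ^ c)) u + (gz μ (Tm c c₀) z + (2 * Real.pi * q) • ua 0 (2 ^ c))

theorem pr_eta (Λ : Lat) (c c₀ : ℕ) (μ a : ℝ) (u : Pt → ℝ) (z : Ix → ℝ) (q : ℤ) :
    pr (eta Λ c c₀ μ a u z q) = a • Λ.X (2 ^ c) u +
      (zl (Tm c c₀) (hl μ) z + (2 * Real.pi * q) • pr (ua 0 (2 ^ c))) := by
  rw [eta, pr_add, pr_add, pr_smul, pr_smul, pr_gz, Lat.X]

theorem ip_eta (Λ : Lat) (c c₀ : ℕ) (μ a : ℝ) (u : Pt → ℝ) (z : Ix → ℝ) :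
    ip (sq 0 (2 ^ c)) (eta Λ c c₀ μ a u z 0) u =
      a * Λ.En (sq 0 (2 ^ c)) u u + ∑ t ∈ Tm c c₀, z t * hc μ (2 ^ c) u t := by
  rw [← ip_gz, ← T84.ip_Au]
  simp only [ip, eta, Pi.add_apply, Pi.smul_apply, smul_eq_mul, Int.cast_zero, mul_zero, zero_mul,
    add_zero, mul_sum, ← sum_add_distrib]
  exact sum_congr rfl fun x _ => by ring

theorem chg_eta (hC : R1cStmt) {Λ : Lat} (hΛ : Λ.Ok) {c c₀ : ℕ} {K μ a A R P : ℝ} (hK : 1 ≤ K)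
    (hc₀ : (2 : ℝ) ^ c₀ ≤ K) (h0 : 0 ≤ μ) (hμ : μ * ((2 : ℝ) ^ c) ^ 2 ≤ K) {u : Pt → ℝ}
    (hu : Sm2 u K ((2 ^ c : ℕ) : ℝ)) (ha : |a| ≤ A) {z : Ix → ℝ} (hR : 0 ≤ R)
    (hz : ∀ t ∈ Tm c c₀, |z t| ≤ R) {q : ℤ} (hq : |(q : ℝ)| ≤ K) (hP : 2 * Λ.rg / Λ.τ ≤ P) :
    Λ.Chg (2 ^ c) (A * K * P + 100 * (K ^ 6 * R + 8 * K)) q (eta Λ c c₀ μ a u z q) := by
  have hL : 1 ≤ 2 ^ c := Nat.one_le_two_pow
  have hK0 : 0 ≤ K := by linarith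
  have hA : 0 ≤ A := (abs_nonneg _).trans ha
  have hL0 : (0 : ℝ) < ((2 ^ c : ℕ) : ℝ) := by positivity
  have hπ : |2 * Real.pi * q| ≤ 8 * K := by
    rw [abs_mul, abs_of_pos (by positivity)]
    have := Real.pi_le_four
    exact mul_le_mul (by linarith) hq (abs_nonneg _) (by norm_num)
  have h1 := hC Λ (2 ^ c) (K ^ 6 * R + 8 * K) q
    (gz μ (Tm c c₀) z + (2 * Real.pi * q) • ua 0 (2 ^ c)) 0 hΛ hL
    (fun x hx => by rw [Pi.add_apply, sup_gz μ z x hx, Pi.smul_apply, ua_off hx]; simp)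
    (fun x => by
      have h2 := abs_gz hK hc₀ h0 hμ hR hz x
      have h3 : |ua 0 (2 ^ c) x| ≤ 1 / ((2 ^ c : ℕ) : ℝ) ^ 2 := by
        rw [abs_of_nonneg (ua_nonneg _ _ _)]; exact ua_le _ _ _
      rw [Pi.add_apply, Pi.smul_apply, smul_eq_mul, add_div]
      refine (abs_add_le _ _).trans (add_le_add (by exact_mod_cast h2) ?_)
      rw [abs_mul, div_eq_mul_one_div]
      exact mul_le_mul hπ h3 (abs_nonneg _) (by positivity))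
    (fun d => by simp only [Pi.zero_apply, abs_zero]; positivity)
    (by
      simp only [Pi.add_apply, Pi.smul_apply, smul_eq_mul, sum_add_distrib, sum_gz, ← mul_sum,
        sum_ua hL subset_rfl, Pi.zero_apply, sum_const_zero]
      ring)
  have h2 := ((fs_Au hΛ (sq 0 (2 ^ c)) hu).smul a).add h1
  refine (h2.mono ?_).congr (funext fun x => ?_)
  · rw [add_div]
    refine add_le_add ?_ le_rfl
    have : K / ((2 ^ c : ℕ) : ℝ) * (2 * Λ.rg) / Λ.τ = K * (2 * Λ.rg / Λ.τ) / ((2 ^ c : ℕ) : ℝ) := by ring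
    rw [this, ← mul_div_assoc, mul_assoc]
    have := hΛ.pos
    gcongr
  · simp only [eta, side, Pi.add_apply, Pi.smul_apply, smul_eq_mul, Pi.zero_apply, zero_mul,
      sum_const_zero]
    ring

theorem f2_of_chg {Λ : Lat} {L : ℕ} (hL : 1 ≤ L) {K J : ℝ} {q : ℤ} {η : Pt → ℝ} (h : Λ.Chg L K q η)
    (hJ : (Λ.J.card : ℝ) ≤ J) :
    F2 (Λ.edI (sq 0 L)) (fun x => η x - 2 * Real.pi * q * sd L 0 x) (J * K ^ 2) := by
  refine (Fs.f2 h).mono ?_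
  have hL0 : (0 : ℝ) < L := by exact_mod_cast hL
  have h1 : (Λ.edI (sq 0 L)).card ≤ L ^ 2 * Λ.J.card := by
    refine (card_edI_le Λ _).trans ?_
    rw [card_sq]
    exact Nat.mul_le_mul_left _ (card_filter_le _ _)
  have h2 : ((Λ.edI (sq 0 L)).card : ℝ) ≤ (L : ℝ) ^ 2 * Λ.J.card := by exact_mod_cast h1
  calc _ ≤ (L : ℝ) ^ 2 * J * (K / L) ^ 2 := by gcongr; exact h2.trans (by gcongr)
    _ = _ := by field_simp

end P84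

open Finset Uv P84

theorem ploStmt (hS : SdStmt) (hP : T2pStmt) (hH : HsStmt) (hO : OdeStmt) (hC : R1cStmt) (hR : R1Stmt)
    (hB : BrStmt) (_hJ : RJStmt) (hM : T1mStmt) : PloStmt := by
  intro F θ₀ K ε h0 hK hε
  have hτ₁ := F.pos
  have hK0 : 0 ≤ K := by linarith
  set g₀ : ℝ := Real.exp (-(16 * F.τ₂ * K ^ 5)) with hg₀
  have hg : 0 < g₀ := Real.exp_pos _
  obtain ⟨R, η, hR0, hη, hHs⟩ := hH ⌈K ^ 3⌉₊ (2 * K ^ 2) (ε * g₀) (by positivity)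
  set P : ℝ := 2 * (Crest.ProbabilityR.HeightModel.interactionRange F.J : ℝ) / F.τ₁ with hPd
  have hP0 : 0 ≤ P := by positivity
  set K' : ℝ := 2 / θ₀ * K * P + 100 * (K ^ 6 * (R + 2 * K ^ 2) + 8 * K) with hK'
  have hKK : K ≤ K' := by
    have : 0 ≤ 2 / θ₀ * K * P := by positivity
    have : 0 ≤ K ^ 6 * (R + 2 * K ^ 2) := by positivity
    linarith
  set c₁ : ℝ := K ^ 3 * (R * (2 * K ^ 2)) with hc₁
  set ε₁ : ℝ := η * (θ₀ / 2) / Real.exp c₁ with hε₁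
  have hε₁0 : 0 < ε₁ := by positivity
  obtain ⟨δ₁, hδ₁, hSd⟩ := hS F θ₀ K' ε₁ h0 (hK.trans hKK) hε₁0
  obtain ⟨δ₂, hδ₂, hT2⟩ := hP F θ₀ (max K (F.J.card * K' ^ 2)) η h0 (le_max_of_le_left hK) hη
  obtain ⟨δ₃, hδ₃, hT⟩ := hM.2.2 F θ₀ 1 0 h0 one_pos
  refine ⟨min δ₁ (min δ₂ δ₃), by positivity, fun Λ hΛ l L hW μ u c c₀ hL hc₀ hμ0 hμ hu hub => ?_⟩
  subst hL
  have hΛo := T84.ok_of hΛ
  have hτ := hΛo.pos
  have hL : 1 ≤ 2 ^ c := Nat.one_le_two_pow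
  have hL0 : (0 : ℝ) ≤ ((2 ^ c : ℕ) : ℝ) := by positivity
  have hμ' : μ * ((2 : ℝ) ^ c) ^ 2 ≤ K := by exact_mod_cast hμ
  have hθ : θ₀ / 2 ≤ Λ.tN l :=
    (hT Λ hΛ l _ (T84.Win.mono hW ((min_le_right _ _).trans (min_le_right _ _)))).2.1
  have hθ0 : 0 < Λ.tN l := lt_of_lt_of_le (by positivity) hθ
  have hθi : |(Λ.tN l)⁻¹| ≤ 2 / θ₀ := by
    rw [abs_of_pos (inv_pos.2 hθ0), ← inv_div]
    exact inv_anti₀ (by positivity) hθ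
  have hPP : 2 * Λ.rg / Λ.τ ≤ P := by
    rw [hPd, Lat.rg, hΛ.1]
    exact div_le_div_of_nonneg_left (by positivity) hτ₁ hΛ.2.2.1
  have cen := T84.cen_WN hΛo hL
  have St := (hSd Λ hΛ l _ (T84.Win.mono hW (min_le_left _ _)) u (T84.Sm2.mono hu hKK hL0)
    fun x hx => (hub x hx).trans hKK).1
  have T2 := hT2 Λ hΛ l _ (T84.Win.mono hW ((min_le_right _ _).trans (min_le_left _ _)))
  have hlow := gq_low hR hB hΛo hK hc₀ hμ0 hμ' hΛ.2.2.2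
  have hh : ∀ t ∈ Tm c c₀, |hc μ (2 ^ c) u t| ≤ 2 * K ^ 2 := fun t ht => abs_hc hK hμ0 hμ' hub ht
  obtain ⟨Ha, -, Hc⟩ := hHs (Cfg Pt) Ix (Λ.WN (2 ^ c)) (Tm c c₀) (hl μ) cen
    (by exact_mod_cast (card_Tm hc₀).trans (Nat.le_ceil _))
  have hεg : ε * g₀ ≤ ε * Ex (Λ.WN (2 ^ c)) (gq (Tm c c₀) (hl μ)) := by gcongr
  intro T ξ
  constructor
  · have := Hc ((Λ.tN l)⁻¹ • Λ.X (2 ^ c) u) (hc μ (2 ^ c) u) (Λ.En (sq 0 (2 ^ c)) u u / Λ.tN l) hh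
      fun z hz => ?_
    · rw [add_mul]
      exact this.trans (add_le_add le_rfl hεg)
    have hcz : |∑ t ∈ Tm c c₀, z t * hc μ (2 ^ c) u t| ≤ c₁ := by
      refine (abs_sum_le_sum_abs _ _).trans ((sum_le_card_nsmul _ _ (R * (2 * K ^ 2))
        fun t ht => ?_).trans ?_)
      · rw [abs_mul]; exact mul_le_mul (hz t ht) (hh t ht) (abs_nonneg _) hR0.le
      · rw [nsmul_eq_mul, hc₁]; gcongr; exact card_Tm hc₀
    have h1 := hO (Cfg Pt) (Λ.WN (2 ^ c)) ((Λ.tN l)⁻¹ • Λ.X (2 ^ c) u) (zl (Tm c c₀) (hl μ) z)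
      (Λ.En (sq 0 (2 ^ c)) u u / Λ.tN l) (∑ t ∈ Tm c c₀, z t * hc μ (2 ^ c) u t) (ε₁ * (2 / θ₀)) cen
      (div_nonneg (T84.En_nonneg hΛo _ _) hθ0.le) fun t ht0 ht1 => by
        have h2 := St 0 (eta Λ c c₀ μ (t * (Λ.tN l)⁻¹) u z 0) (by simp; linarith)
          (chg_eta hC hΛo hK hc₀ hμ0 hμ' hu (A := 2 / θ₀) (R := R + 2 * K ^ 2)
            (by rw [abs_mul, abs_of_nonneg ht0]; nlinarith [abs_nonneg (Λ.tN l)⁻¹]) (by positivity)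
            (fun j hj => (hz j hj).trans (by nlinarith)) (by simpa using hK0) hPP)
        rw [ip_eta, pr_eta, Int.cast_zero, mul_zero, zero_smul, add_zero, ← smul_smul] at h2
        have e : Ex (Λ.WN (2 ^ c)) (fun s => ((Λ.tN l)⁻¹ • Λ.X (2 ^ c) u) s *
            Real.sin ((t • (Λ.tN l)⁻¹ • Λ.X (2 ^ c) u + zl (Tm c c₀) (hl μ) z) s)) =
            (Λ.tN l)⁻¹ * Ex (Λ.WN (2 ^ c)) (fun s => Λ.X (2 ^ c) u s *
            Real.sin ((t • (Λ.tN l)⁻¹ • Λ.X (2 ^ c) u + zl (Tm c c₀) (hl μ) z) s)) := by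
          rw [← Ex_const_mul]
          simp only [AddMonoidHom.smul_apply, smul_eq_mul, mul_assoc]
        rw [e]
        set a := Ex (Λ.WN (2 ^ c)) (fun s => Λ.X (2 ^ c) u s *
            Real.sin ((t • (Λ.tN l)⁻¹ • Λ.X (2 ^ c) u + zl (Tm c c₀) (hl μ) z) s))
        set p := Ph (Λ.WN (2 ^ c)) (t • (Λ.tN l)⁻¹ • Λ.X (2 ^ c) u + zl (Tm c c₀) (hl μ) z)
        set b := ∑ t ∈ Tm c c₀, z t * hc μ (2 ^ c) u t
        set E := Λ.En (sq 0 (2 ^ c)) u u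
        have e2 : (Λ.tN l)⁻¹ * a - (t * (E / Λ.tN l) + b) * p =
            (Λ.tN l)⁻¹ * (a - Λ.tN l * (t * (Λ.tN l)⁻¹ * E + b) * p) := by
          field_simp
        rw [e2, abs_mul, mul_comm]
        exact mul_le_mul h2 hθi (abs_nonneg _) hε₁0.le
    have h2 : ε₁ * (2 / θ₀) * Real.exp |∑ t ∈ Tm c c₀, z t * hc μ (2 ^ c) u t| ≤ η := by
      calc _ ≤ ε₁ * (2 / θ₀) * Real.exp c₁ := by gcongr
        _ = η := by rw [hε₁]; field_simp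
    linarith [(abs_le.1 (h1.trans h2)).2]
  · intro q hq hqK
    have := Ha (ξ + (2 * Real.pi * q) • pr (ua 0 (2 ^ c))) fun z hz => ?_
    · exact this.trans hεg
    have h1 := chg_eta hC hΛo hK hc₀ hμ0 hμ' hu (A := 2 / θ₀) (R := R + 2 * K ^ 2) hθi
      (z := hc μ (2 ^ c) u + z) (by positivity)
      (fun j hj => (abs_add_le _ _).trans (by linarith [hz j hj, hh j hj])) hqK hPP
    have h2 := T2 q _ hq (hqK.trans (le_max_left _ _))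
      ((f2_of_chg hL h1 (J := F.J.card) (by rw [hΛ.1])).mono (le_max_right _ _))
    rw [pr_eta, zl_add] at h2
    refine le_of_eq_of_le (congrArg _ ?_) h2
    simp only [ξ, T]
    abel

end Crest.Agent.T145.Mx
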