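import Crest.Agent.T145.MxDef_9
import Crest.Agent.T145.ExplU_56
import Crest.Agent.T145.GfSpr_80
import Crest.Agent.T145.GeoB_51

/-!
# Row 145, module Mx: unfolding of the zero mode (`unfStmt`) and its Poisson resummation (`zmStmt`)
(helper15)
-/

set_option autoImplicit false

namespace Crest.Agent.T145.Mx

open Finset

namespace Un15

/-- unfolding: a free model without site weights against the same model pinned at the root -/
theorem unf {V : Type} [DecidableEq V] {m : Mdl V} {r : V} (hr : r ∈ m.A)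
    (he : ∀ e ∈ m.ed, e.1 ∈ m.A ∧ e.2 ∈ m.A) (h1 : ∀ x k, m.site x k = 1)
    (hW : Wt ((m.free (m.A.erase r)).W 0)) {Φ : Cfg V → ℝ} {C : ℝ}
    (s1 : ∀ t, Summable fun k : ℤ => |Φ (t + cst m.A k)|)
    (s2 : ∀ t, ∑' k : ℤ, |Φ (t + cst m.A k)| ≤ C) :
    HasSum (fun s => m.W 0 s * Φ s)
      (∑' t, (m.free (m.A.erase r)).W 0 t * ∑' k : ℤ, Φ (t + cst m.A k)) := by
  set u := (m.free (m.A.erase r)).W 0 with hu
  have hs : Summable fun p : Cfg V × ℤ => u p.1 * Φ (p.1 + cst m.A p.2) := by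
    refine Summable.of_abs ((summable_prod_of_nonneg fun p => abs_nonneg _).2 ⟨fun a => ?_, ?_⟩)
    · simpa only [abs_mul] using (s1 a).mul_left |u a|
    · refine Summable.of_nonneg_of_le (fun a => tsum_nonneg fun i => abs_nonneg _) (fun a => ?_)
        (hW.summ.mul_right C)
      simp only [abs_mul, tsum_mul_left, abs_of_nonneg (hW.nonneg a)]
      exact mul_le_mul_of_nonneg_left (s2 a) (hW.nonneg a)
  have h4 : ∑' p : Cfg V × ℤ, u p.1 * Φ (p.1 + cst m.A p.2) =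
      ∑' t, u t * ∑' k : ℤ, Φ (t + cst m.A k) := by
    rw [hs.tsum_prod]
    exact tsum_congr fun a => tsum_mul_left (a := u a) (f := fun k : ℤ => Φ (a + cst m.A k))
  rw [← h4]
  let i : Cfg V → Cfg V × ℤ := fun s => (s - cst m.A (s r), s r)
  have hi : Function.Injective i := fun s s' h => by
    simp only [i, Prod.mk.injEq] at h
    have := h.1
    rw [h.2] at this
    exact sub_left_injective this
  have h3 := (hi.hasSum_iff (f := fun p : Cfg V × ℤ => u p.1 * Φ (p.1 + cst m.A p.2)) fun p hp => by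
    by_contra h0
    have h4 : p.1 r = 0 := Md.W_off (left_ne_zero_of_mul h0) r (Finset.notMem_erase r m.A)
    refine hp ⟨p.1 + cst m.A p.2, ?_⟩
    simp [i, Md.cst_mem hr, h4]).2 hs.hasSum
  refine h3.congr_fun fun s => ?_
  simp only [Function.comp, i, sub_add_cancel, hu, X56.W_shift hr he h1]

theorem v_summ : Summable fun q : ℤ => Real.exp (-|(q : ℝ)| / 2) := by
  have h : Summable fun n : ℕ => Real.exp (-(n : ℝ) / 2) :=
    (summable_geometric_of_lt_one (Real.exp_pos (-1 / 2)).le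
      (Real.exp_lt_one_iff.2 (by norm_num))).congr fun n => by
        rw [← Real.exp_nat_mul]; congr 1; ring
  refine Summable.of_nat_of_neg (h.congr fun n => ?_) (h.congr fun n => ?_) <;> simp

/-- the Fourier coefficients decay uniformly -/
theorem gam_le {K a ω : ℝ} (ha : 1 ≤ a) (hK : a ≤ K) (hω : |ω| ≤ K) (q : ℤ) :
    Real.exp (-(2 * Real.pi * q - ω) ^ 2 / (2 * a)) ≤
      Real.exp (-|(q : ℝ)| / 2) * (Real.exp (3 * K / 2) * Real.exp (-|(q : ℝ)| / 2)) := by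
  rw [← Real.exp_add, ← Real.exp_add, Real.exp_le_exp, div_le_iff₀ (by linarith), ← sq_abs]
  have h1 : |(q : ℝ)| - K ≤ |2 * Real.pi * q - ω| := by
    have h2 := abs_sub_abs_le_abs_sub (2 * Real.pi * q) ω
    rw [abs_mul, abs_of_pos (by positivity : 0 < 2 * Real.pi)] at h2
    nlinarith [Real.pi_gt_three, abs_nonneg (q : ℝ)]
  nlinarith [sq_nonneg (|2 * Real.pi * q - ω| - a), mul_le_mul_of_nonneg_left h1 (by linarith : 0 ≤ a),
    mul_le_mul_of_nonneg_left hK (by linarith : 0 ≤ a)]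

theorem pois {a : ℝ} (ha : 0 < a) (ξ ω b : ℝ) :
    ∑' k : ℤ, Real.cos (ξ + ω * (b + k)) * Real.exp (-a * (b + k) ^ 2 / 2) =
      Real.sqrt (2 * Real.pi / a) * ∑' q : ℤ, Real.exp (-(2 * Real.pi * q - ω) ^ 2 / (2 * a)) *
        Real.cos (ξ + 2 * Real.pi * q * b) := by
  have h := Spr.poisson ha b ω (ξ + ω * b)
  simp only [show ∀ q : ℤ, (2 * Real.pi * q - ω) * b + (ξ + ω * b) = ξ + 2 * Real.pi * q * b from
    fun q => by ring, show ∀ k : ℤ, ω * k + (ξ + ω * b) = ξ + ω * (b + k) from fun k => by ring] at h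
  rw [← h]
  exact tsum_congr fun k => mul_comm _ _

/-- removal of a nearly constant factor -/
theorem cs {α : Type} {ρ T G H : α → ℝ} (hρ : Wt ρ) {Γ K η : ℝ} (hT : ∀ s, |T s| ≤ Γ)
    (hG : ∀ s, 0 < G s ∧ G s ≤ 1) (hH : ∀ s, 0 < H s ∧ H s ≤ 1) (hK : 0 ≤ K) (hη : 0 ≤ η)
    (h1 : Ex ρ (fun s => G s ^ 2) ≤ K * Ex ρ G ^ 2)
    (h2 : Ex ρ (fun s => H s ^ 2) ≤ (1 + η) * Ex ρ H ^ 2) :
    |Ex ρ (fun s => T s * (G s * H s)) - Ex ρ (fun s => T s * G s) * Ex ρ H| ≤
      Γ * Real.sqrt (K * η) * (Ex ρ G * Ex ρ H) := by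
  have bG : ∀ s, |G s| ≤ 1 := fun s => by rw [abs_of_pos (hG s).1]; exact (hG s).2
  have bH : ∀ s, |H s| ≤ 1 := fun s => by rw [abs_of_pos (hH s).1]; exact (hH s).2
  have iG := hρ.ig_bdd bG
  have iH := hρ.ig_bdd bH
  have iG2 : Ig ρ fun s => G s ^ 2 := (iG.mul_bdd hρ.nonneg bG).congr fun s _ => (pow_two _).symm
  have iH2 : Ig ρ fun s => H s ^ 2 := (iH.mul_bdd hρ.nonneg bH).congr fun s _ => (pow_two _).symm
  have iT := (hρ.ig_bdd hT).mul_bdd hρ.nonneg bG
  have pG := hρ.ex_pos' iG fun s => (hG s).1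
  have pH := hρ.ex_pos' iH fun s => (hH s).1
  have g0 : 0 ≤ Γ := by
    obtain ⟨s, -⟩ := hρ.exists_pos
    exact (abs_nonneg _).trans (hT s)
  have bT : ∀ s, (T s * G s) ^ 2 ≤ Γ ^ 2 * G s ^ 2 := fun s => by
    rw [mul_pow]
    exact mul_le_mul_of_nonneg_right (sq_le_sq' (abs_le.1 (hT s)).1 (abs_le.1 (hT s)).2) (sq_nonneg _)
  have iT2 : Ig ρ fun s => (T s * G s) ^ 2 :=
    Ig.of_le hρ.nonneg (iG2.const_mul _) (fun _ => sq_nonneg _) bT
  have e : ∀ s, (H s - Ex ρ H) ^ 2 = H s ^ 2 - 2 * Ex ρ H * H s + Ex ρ H ^ 2 := fun s => by ring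
  have iD : Ig ρ fun s => (H s - Ex ρ H) ^ 2 := by
    simp only [e]; exact (iH2.sub (iH.const_mul _)).add (hρ.ig_const _)
  have c1 := Ex_mul_sq_le hρ.nonneg iT2 iD
  have c2 : Ex ρ (fun s => (H s - Ex ρ H) ^ 2) ≤ η * Ex ρ H ^ 2 := by
    simp only [e]
    rw [hρ.ex_add_const (iH2.sub (iH.const_mul _)), Ex_sub iH2 (iH.const_mul _), Ex_const_mul]
    linarith
  have c3 : Ex ρ (fun s => (T s * G s) ^ 2) ≤ Γ ^ 2 * (K * Ex ρ G ^ 2) :=
    (Ex_mono hρ.nonneg iT2 (iG2.const_mul _) bT).trans (by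
      rw [Ex_const_mul]; exact mul_le_mul_of_nonneg_left h1 (sq_nonneg _))
  have e2 : Ex ρ (fun s => T s * G s * (H s - Ex ρ H)) =
      Ex ρ (fun s => T s * (G s * H s)) - Ex ρ (fun s => T s * G s) * Ex ρ H := by
    simp only [mul_sub]
    rw [Ex_sub (iT.mul_bdd hρ.nonneg bH) (iT.mul_const _), Ex_mul_const]
    simp only [mul_assoc]
  rw [← e2]
  refine abs_le_of_sq_le_sq' (c1.trans ((mul_le_mul c3 c2
    (Ex_nonneg hρ.nonneg fun _ _ => sq_nonneg _) (by positivity)).trans_eq ?_)) (by positivity) |> abs_le.2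
  rw [mul_pow, mul_pow, Real.sq_sqrt (mul_nonneg hK hη)]
  ring

end Un15

open Un15

theorem unfStmt : UnfStmt := by
  intro Λ L μ ξ hΛ hL hμ _
  have h0 : (0 : Pt) ∈ sq 0 L := by rw [mem_sq]; simp only [Prod.fst_zero, Prod.snd_zero]; omega
  have hW : Wt (Λ.WN L) := ((hΛ.ctr_Nr _ _).cen (hΛ.anch_Nr h0)).wt
  have key : ∀ F : Cfg Pt → ℝ, (∀ s, |F s| ≤ 1) → ∑' s, (ms Λ (sq 0 L) μ).W 0 s * F s =
      Zs (Λ.WN L) * Ex (Λ.WN L) fun s => ∑' k : ℤ, F (s + cst (sq 0 L) k) *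
        Real.exp (-(μ * ∑ x ∈ sq 0 L, ((s x : ℝ) + k) ^ 2) / 2) := fun F hF => by
    have e : ∀ (s : Cfg Pt) (k : ℤ), ∑ x ∈ sq 0 L, (((s + cst (sq 0 L) k : Cfg Pt) x : ℤ) : ℝ) ^ 2 =
        ∑ x ∈ sq 0 L, ((s x : ℝ) + k) ^ 2 := fun s k => sum_congr rfl fun x hx => by
      rw [Finsupp.add_apply, cst_of_mem k hx, Int.cast_add]
    have b : ∀ (s : Cfg Pt) (k : ℤ), |F (s + cst (sq 0 L) k) * Real.exp (-(μ * ∑ x ∈ sq 0 L,
        (((s + cst (sq 0 L) k : Cfg Pt) x : ℤ) : ℝ) ^ 2) / 2)| ≤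
        Real.exp (-μ * ((s 0 : ℝ) + k) ^ 2 / 2) := fun s k => by
      rw [e, abs_mul, abs_of_pos (Real.exp_pos _)]
      refine (mul_le_of_le_one_left (Real.exp_pos _).le (hF _)).trans (Real.exp_le_exp.2 ?_)
      have := single_le_sum (f := fun x => ((s x : ℝ) + k) ^ 2) (fun _ _ => sq_nonneg _) h0
      nlinarith
    have s1 := fun s => Summable.of_nonneg_of_le (fun _ => abs_nonneg _) (b s) (Spr.summable_gs hμ _)
    have h := unf (m := Λ.N (sq 0 L)) (r := 0) h0 (fun e he => (mem_filter.1 he).2) (fun _ _ => rfl) hW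
      (Φ := fun s => F s * Real.exp (-(μ * ∑ x ∈ sq 0 L, (s x : ℝ) ^ 2) / 2)) s1 fun s =>
        ((s1 s).tsum_le_tsum (b s) (Spr.summable_gs hμ _)).trans (Spr.tsum_gs_le hμ _)
    rw [← hW.tsum_eq]
    simp only [← e]
    refine Eq.trans (tsum_congr fun s => ?_) h.tsum_eq
    rw [ms, Mdl.W_mulSite, mul_assoc, mul_comm (F s)]
    congr 2
    simp only [gau, ← Real.exp_sum, mul_sum, neg_div, ← sum_neg_distrib, sum_div]
    congr 1
    exact sum_congr rfl fun x _ => by field_simp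
  have k1 := key (fun _ => 1) fun _ => by simp
  simp only [mul_one, one_mul] at k1
  rw [Ph, Ex, key _ fun s => Real.abs_cos_le_one _, k1, mul_div_mul_left _ _ hW.ne]
  simp only [map_add, pr_cst, mul_comm (∑ x ∈ sq 0 L, ξ x)]

theorem zmStmt : ZmStmt := by
  intro K ε hε
  set v : ℤ → ℝ := fun q => Real.exp (3 * K / 2) * Real.exp (-|(q : ℝ)| / 2) with hv
  have sv : Summable v := v_summ.mul_left _
  have v0 : ∀ q, 0 ≤ v q := fun q => by positivity
  set Γ := ∑' q, v q with hΓ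
  have g0 : 0 ≤ Γ := tsum_nonneg v0
  set δ := ε / (2 * (1 + |K| + ε)) with hδ
  have d0 : 0 < δ := by positivity
  set η := min (ε / (2 * (Γ + 1))) (δ ^ 2 / ((Γ ^ 2 + 1) * (|K| + 1))) with hη
  have e0 : 0 < η := by positivity
  obtain ⟨Q, hQ⟩ := exists_nat_ge (-2 * Real.log η)
  refine ⟨Q, η, e0, ?_⟩
  intro α ρ G H ξ b a ω A hρ hG hH ha hK hω hA hAK h1 h2 h3 h4 h5
  have K0 : 0 ≤ K := by linarith
  rw [abs_of_nonneg K0] at hδ hη
  have bG : ∀ s, |G s| ≤ 1 := fun s => by rw [abs_of_pos (hG s).1]; exact (hG s).2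
  have iG := hρ.ig_bdd bG
  have pG := hρ.ex_pos' iG fun s => (hG s).1
  have pH := hρ.ex_pos' (hρ.ig_bdd (C := 1) fun s => by
    rw [abs_of_pos (hH s).1]; exact (hH s).2) fun s => (hH s).1
  have gv : ∀ w : ℝ, |w| ≤ K → ∀ q : ℤ, Real.exp (-(2 * Real.pi * q - w) ^ 2 / (2 * a)) ≤ v q :=
    fun w hw q => (gam_le ha hK hw q).trans (mul_le_of_le_one_left (v0 q)
      (Real.exp_le_one_iff.2 (by linarith [abs_nonneg (q : ℝ)])))
  have tb : ∀ w : ℝ, |w| ≤ K → ∀ (x : ℤ → ℝ) (g : ℝ), |g| ≤ 1 → ∀ q : ℤ,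
      |Real.exp (-(2 * Real.pi * q - w) ^ 2 / (2 * a)) * (Real.cos (x q) * g)| ≤ v q :=
    fun w hw x g hg q => by
      rw [abs_mul, abs_of_pos (Real.exp_pos _), abs_mul]
      exact (mul_le_of_le_one_right (Real.exp_pos _).le
        (mul_le_one₀ (Real.abs_cos_le_one _) (abs_nonneg _) hg)).trans (gv w hw q)
  have sb := fun w hw x g hg => Summable.of_nonneg_of_le (fun _ => abs_nonneg _) (tb w hw x g hg) sv
  have main : ∀ (w : ℝ) (y : α → ℝ), |w| ≤ K →
      HasSum (fun q : ℤ => Real.exp (-(2 * Real.pi * q - w) ^ 2 / (2 * a)) *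
        Ex ρ fun s => Real.cos (y s + 2 * Real.pi * q * b s) * G s)
        (Ex ρ fun s => (∑' q : ℤ, Real.exp (-(2 * Real.pi * q - w) ^ 2 / (2 * a)) *
          Real.cos (y s + 2 * Real.pi * q * b s)) * G s) ∧
      |Ex ρ (fun s => (∑' q : ℤ, Real.exp (-(2 * Real.pi * q - w) ^ 2 / (2 * a)) *
          Real.cos (y s + 2 * Real.pi * q * b s)) * (G s * H s)) -
        Ex ρ (fun s => (∑' q : ℤ, Real.exp (-(2 * Real.pi * q - w) ^ 2 / (2 * a)) *
          Real.cos (y s + 2 * Real.pi * q * b s)) * G s) * Ex ρ H| ≤ δ * (Ex ρ G * Ex ρ H) := by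
    intro w y hw
    constructor
    · have := hρ.hasSum_ex (F := fun (q : ℤ) s => Real.exp (-(2 * Real.pi * q - w) ^ 2 / (2 * a)) *
        (Real.cos (y s + 2 * Real.pi * q * b s) * G s)) (fun s => sb w hw _ _ (bG s))
        fun s => (sb w hw _ _ (bG s)).tsum_le_tsum (tb w hw _ _ (bG s)) sv
      simp only [Ex_const_mul] at this
      simpa only [← mul_assoc, tsum_mul_right] using this
    · refine (cs hρ (Γ := Γ) (fun s => ?_) hG hH K0 e0.le h1 h2).trans
        (mul_le_mul_of_nonneg_right ?_ (by positivity))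
      · have s1 := sb w hw (fun q => y s + 2 * Real.pi * q * b s) 1 abs_one.le
        have s2 := tb w hw (fun q => y s + 2 * Real.pi * q * b s) 1 abs_one.le
        simp only [mul_one] at s1 s2
        refine le_trans ?_ (s1.tsum_le_tsum s2 sv)
        simpa only [Real.norm_eq_abs] using norm_tsum_le_tsum_norm (f := fun q : ℤ =>
          Real.exp (-(2 * Real.pi * q - w) ^ 2 / (2 * a)) * Real.cos (y s + 2 * Real.pi * q * b s))
          (by simpa only [Real.norm_eq_abs] using s1)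
      · refine (abs_le_of_sq_le_sq' ?_ d0.le).2
        rw [mul_pow, Real.sq_sqrt (mul_nonneg K0 e0.le)]
        have h6 : η ≤ δ ^ 2 / ((Γ ^ 2 + 1) * (K + 1)) := hη.trans_le (min_le_right _ _)
        rw [le_div_iff₀ (by positivity)] at h6
        nlinarith [mul_nonneg e0.le (sq_nonneg Γ), mul_nonneg e0.le K0]
  obtain ⟨n1, n2⟩ := main ω ξ hω
  obtain ⟨d1, d2⟩ := main 0 (fun _ => 0) (by simpa using K0)
  have eD : ∀ s, ∑' k : ℤ, Real.exp (-a * (b s + k) ^ 2 / 2) = Real.sqrt (2 * Real.pi / a) *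
      ∑' q : ℤ, Real.exp (-(2 * Real.pi * q - 0) ^ 2 / (2 * a)) *
        Real.cos (0 + 2 * Real.pi * q * b s) := fun s => by
    rw [← pois (by linarith) 0 0 (b s)]; simp
  simp only [eD, pois (show 0 < a by linarith), mul_assoc (Real.sqrt _), Ex_const_mul]
  rw [mul_left_comm]
  refine mul_le_mul_of_nonneg_left ?_ (Real.sqrt_nonneg _)
  have d3 := le_hasSum d1 0 fun q _ => mul_nonneg (Real.exp_pos _).le (by simpa using h5 q)
  simp only [Int.cast_zero, mul_zero, sub_zero, zero_mul, add_zero, Real.cos_zero, one_mul, ne_eq,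
    OfNat.ofNat_ne_zero, not_false_eq_true, zero_pow, neg_zero, zero_div, Real.exp_zero] at d3
  have n3 := hasSum_le (fun q => ?_) n1 ((hasSum_ite_eq (0 : ℤ)
    (Real.exp (-ω ^ 2 / (2 * a)) * A * Ex ρ G)).add (sv.hasSum.mul_left (η * Ex ρ G)))
  · have g1 : Real.exp (-ω ^ 2 / (2 * a)) ≤ 1 := Real.exp_le_one_iff.2
      (div_nonpos_of_nonpos_of_nonneg (by nlinarith) (by linarith))
    have g2 := Real.exp_pos (-ω ^ 2 / (2 * a))
    have h6 : η ≤ ε / (2 * (Γ + 1)) := min_le_left _ _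
    rw [le_div_iff₀ (by positivity)] at h6
    rw [eq_div_iff (by positivity)] at hδ
    generalize Real.exp (-ω ^ 2 / (2 * a)) = γ at *
    simp only [sub_zero] at d2 ⊢
    have t0 : 0 ≤ γ * A := by positivity
    have t1 : γ * A ≤ K := (mul_le_of_le_one_left hA g1).trans hAK
    have p := mul_pos pG pH
    have u1 := mul_le_mul_of_nonneg_right n3 pH.le
    have u2 := mul_le_mul_of_nonneg_right d3 pH.le
    refine le_trans (b := (γ * A + ε / 2 + δ) * (Ex ρ G * Ex ρ H)) ?_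
      (le_trans (b := (γ * A + ε) * ((1 - δ) * (Ex ρ G * Ex ρ H))) ?_
        (mul_le_mul_of_nonneg_left ?_ (by positivity)))
    · have : η * Γ * (Ex ρ G * Ex ρ H) ≤ ε / 2 * (Ex ρ G * Ex ρ H) :=
        mul_le_mul_of_nonneg_right (by linarith) p.le
      linarith [(abs_le.1 n2).2]
    · rw [← mul_assoc (γ * A + ε)]
      refine mul_le_mul_of_nonneg_right ?_ p.le
      nlinarith [mul_le_mul_of_nonneg_left t1 d0.le]
    · linarith [(abs_le.1 d2).1]
  · have w0 := mul_nonneg (mul_nonneg e0.le pG.le) (v0 q)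
    by_cases hq : q = 0
    · subst hq
      simp only [Int.cast_zero, mul_zero, zero_sub, neg_sq, zero_mul, add_zero, if_true] at w0 ⊢
      have := mul_le_mul_of_nonneg_left h3 (Real.exp_pos (-ω ^ 2 / (2 * a))).le
      linarith
    rw [if_neg hq, zero_add]
    by_cases hq' : |q| ≤ Q
    · refine (mul_le_mul_of_nonneg_left (h4 q hq hq') (Real.exp_pos _).le).trans ?_
      rw [mul_comm]
      exact mul_le_mul_of_nonneg_left (gv ω hω q) (by positivity)
    · have h6 : (Q : ℝ) ≤ |(q : ℝ)| := by exact_mod_cast (not_le.1 hq').le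
      have h7 : Real.exp (-|(q : ℝ)| / 2) ≤ η := by
        rw [← Real.exp_log e0, Real.exp_le_exp]; linarith
      have h8 : Ex ρ (fun s => Real.cos (ξ s + 2 * Real.pi * q * b s) * G s) ≤ Ex ρ G :=
        Ex_mono hρ.nonneg (iG.bdd_mul hρ.nonneg fun s => Real.abs_cos_le_one _) iG fun s =>
          mul_le_of_le_one_left (hG s).1.le (Real.cos_le_one _)
      refine (mul_le_mul_of_nonneg_left h8 (Real.exp_pos _).le).trans ?_
      rw [mul_right_comm η]
      exact mul_le_mul_of_nonneg_right ((gam_le ha hK hω q).trans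
        (mul_le_mul_of_nonneg_right h7 (v0 q))) pG.le

end Crest.Agent.T145.Mx
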