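import Crest.Agent.T145.MxAsm_9
import Crest.Agent.T145.MxCell_53
import Crest.Agent.T145.MxFf_86
import Crest.Agent.T145.MxHit_58
import Crest.Agent.T145.MxHs_41
import Crest.Agent.T145.MxMix_30
import Crest.Agent.T145.MxPhm_66
import Crest.Agent.T145.MxPlo_84
import Crest.Agent.T145.MxRg_31
import Crest.Agent.T145.MxUnf_15
import Crest.Agent.T145.UvE_49
import Crest.Agent.T145.NcAll_78
import Crest.Agent.T145.NcT4Def_78

/-!
# Row 145, module Mx: assembly (helper9)
-/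

set_option autoImplicit false

namespace Crest.Agent.T145.Mx

/-- the form of (T4) used in this module -/
theorem gd_of (h : Nc.GdStmt) : GdStmt := by
  intro F θ₀ h0
  obtain ⟨W, r₀, c, hc, H⟩ := h F θ₀ (1 / 400) h0 (by norm_num)
  refine ⟨max W c, r₀, 1, one_pos, fun Λ hΛ l L hw => ?_⟩
  obtain ⟨a, b, d⟩ := (H Λ hΛ).1 _ hw.2.2.1
  refine ⟨le_max_of_le_left a, b, fun r h1 h2 => le_trans ((Nc.U.lgeo Λ hΛ.ok).1 r (W * r) r _ le_rfl
    (Nat.mul_le_mul_right _ (le_max_left _ _)) (by nlinarith)).2 (d r h1 (h2.trans ?_))⟩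
  exact (Nat.div_le_div_left (le_max_right _ _) hc).trans (Nat.div_le_div_right (by omega))

/-- everything the module takes from outside -/
structure Inp : Prop where
  t1m : T1mStmt
  t1a : T1aStmt
  t1x : T1xStmt
  sd : SdStmt
  t2p : T2pStmt
  r1 : R1Stmt
  r1c : R1cStmt
  br : BrStmt
  rj : RJStmt
  afac : AFacStmt
  gd : Nc.GdStmt

namespace Inp

variable (h : Inp)
include h

theorem uv : UvStmt := uvStmt h.r1 Nc.U.ld1 Nc.U.sub
theorem mup : MupStmt := mupStmt h.t1x h.br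
theorem plo : PloStmt := ploStmt h.sd h.t2p hsStmt odeStmt h.r1c h.r1 h.br h.rj h.t1m
theorem phm : PhmStmt := phmStmt h.plo unfStmt zmStmt h.uv (gd_of h.gd) siteStmt h.afac h.t1m
theorem gm : GmStmt := gmStmt h.phm h.mup h.afac h.rj h.t1m
theorem tv : TvStmt := tvStmt rowStmt celStmt h.mup h.phm hsStmt h.t1m
theorem ff : FfStmt := ffStmt h.gm h.t1m
theorem mix0 : Mix0Stmt := mix0Stmt asmStmt celStmt hitStmt h.tv h.ff siteStmt h.t1m
theorem dl : DlStmt := dlStmt h.mix0 h.gm siteStmt h.t1a h.t1m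
theorem dlGen : Mx31.DlGenStmt := Mx31.dlGen h.mix0 h.gm h.t1a h.t1m

end Inp

end Crest.Agent.T145.Mx
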