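import Crest.Agent.T145.GksB_60
import Crest.Agent.T145.MdlD_73

/-!
# Row 145: closure of the class `Gks` and corollaries of GKS (helper60)
-/

set_option autoImplicit false

namespace Crest.Agent.T145

open Finset Gk60

section cls
variable {V : Type*} [DecidableEq V] {F G : Cfg V × Finset (V × V) → ℝ}

theorem Gks.of_family {ι : Type*} (s : Finset ι) (T : ι → Finset V)
    (g : ι → Cfg V × Finset (V × V) → ℝ) (g0 : ∀ i ∈ s, ∀ p, 0 ≤ p.1 → 0 ≤ g i p)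
    (gm : ∀ i ∈ s, ∀ p p', 0 ≤ p.1 → p ≤ p' → g i p ≤ g i p')
    (hF : ∀ p, F p = ∑ i ∈ s, g i (ab p.1, p.2) * ∏ x ∈ T i, ((p.1 x).sign : ℝ)) : Gks F := by
  refine ⟨s.image T, fun S p => ∑ i ∈ s.filter (fun i => T i = S), g i p,
    fun S p hp => sum_nonneg fun i hi => g0 i (mem_filter.1 hi).1 p hp,
    fun S p p' hp h => sum_le_sum fun i hi => gm i (mem_filter.1 hi).1 p p' hp h, fun p => ?_⟩
  rw [hF, ← sum_fiberwise_of_maps_to (g := T) fun i hi => mem_image_of_mem T hi]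
  refine sum_congr rfl fun S _ => ?_
  rw [sum_mul]
  exact sum_congr rfl fun i hi => by rw [(mem_filter.1 hi).2]

omit [DecidableEq V] in
theorem Gks.congr (h : Gks F) (e : ∀ p, G p = F p) : Gks G := by
  rw [show G = F from funext e]; exact h

omit [DecidableEq V] in
/-- a nonnegative monotone function of `(|s|, ω)` -/
theorem Gks.abs {φ : Cfg V × Finset (V × V) → ℝ} (h0 : ∀ p, 0 ≤ p.1 → 0 ≤ φ p)
    (hm : ∀ p p', 0 ≤ p.1 → p ≤ p' → φ p ≤ φ p') : Gks fun p => φ (ab p.1, p.2) :=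
  ⟨{∅}, fun _ => φ, fun _ => h0, fun _ => hm, fun _ => by simp⟩

omit [DecidableEq V] in
theorem Gks.const {c : ℝ} (hc : 0 ≤ c) : Gks fun _ : Cfg V × Finset (V × V) => c :=
  Gks.abs (φ := fun _ => c) (fun _ _ => hc) fun _ _ _ _ => le_rfl

theorem Gks.add (hF : Gks F) (hG : Gks G) : Gks fun p => F p + G p := by
  obtain ⟨𝒯, g, g0, gm, hF⟩ := hF
  obtain ⟨𝒯', g', g0', gm', hG⟩ := hG
  refine Gks.of_family (𝒯.disjSum 𝒯') (Sum.elim id id) (Sum.elim g g') ?_ ?_ fun p => ?_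
  · rintro (T | T) _
    exacts [g0 T, g0' T]
  · rintro (T | T) _
    exacts [gm T, gm' T]
  · rw [sum_disjSum, hF, hG]; rfl

theorem sign_sq (k : ℤ) : ((k.sign : ℤ) : ℝ) * (k.sign : ℝ) = ((|k|.sign : ℤ) : ℝ) := by
  rcases lt_trichotomy k 0 with h | h | h
  · rw [Int.sign_eq_one_of_pos (abs_pos.2 h.ne), Int.sign_eq_neg_one_of_neg h]; norm_num
  · simp [h]
  · rw [Int.sign_eq_one_of_pos (abs_pos.2 h.ne'), Int.sign_eq_one_of_pos h]; norm_num

theorem sign_mono {j k : ℤ} (hj : 0 ≤ j) (h : j ≤ k) :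
    (0 : ℝ) ≤ (j.sign : ℝ) ∧ ((j.sign : ℤ) : ℝ) ≤ (k.sign : ℝ) := by
  refine ⟨by exact_mod_cast Int.sign_nonneg_iff.2 hj, ?_⟩
  rcases hj.eq_or_lt with c | c
  · rw [← c]; simpa using Int.sign_nonneg_iff.2 (hj.trans h)
  · rw [Int.sign_eq_one_of_pos c, Int.sign_eq_one_of_pos (c.trans_le h)]

theorem Gks.mul (hF : Gks F) (hG : Gks G) : Gks fun p => F p * G p := by
  obtain ⟨𝒯, g, g0, gm, hF⟩ := hF
  obtain ⟨𝒯', g', g0', gm', hG⟩ := hG
  refine Gks.of_family (𝒯 ×ˢ 𝒯') (fun i => (i.1 \ i.2) ∪ (i.2 \ i.1))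
    (fun i p => g i.1 p * g' i.2 p * ∏ x ∈ i.1 ∩ i.2, ((p.1 x).sign : ℝ))
    (fun i _ p hp => mul_nonneg (mul_nonneg (g0 _ p hp) (g0' _ p hp))
      (prod_nonneg fun x _ => (sign_mono (hp x) le_rfl).1)) (fun i _ p p' hp h => ?_) fun p => ?_
  · have hp' : 0 ≤ p'.1 := hp.trans h.1
    exact mul_le_mul (mul_le_mul (gm _ p p' hp h) (gm' _ p p' hp h) (g0' _ p hp) (g0 _ p' hp'))
      (prod_le_prod (fun x _ => (sign_mono (hp x) le_rfl).1) fun x _ => (sign_mono (hp x) (h.1 x)).2)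
      (prod_nonneg fun x _ => (sign_mono (hp x) le_rfl).1)
      (mul_nonneg (g0 _ p' hp') (g0' _ p' hp'))
  · rw [hF, hG, sum_mul_sum, sum_product]
    refine sum_congr rfl fun T _ => sum_congr rfl fun T' _ => ?_
    simp only [ab_apply, ← sign_sq, prod_mul_distrib]
    rw [prod_union disjoint_sdiff_sdiff, ← prod_inter_mul_prod_sdiff T T',
      ← prod_inter_mul_prod_sdiff T' T, inter_comm T' T]
    ring

theorem Gks.smul (hF : Gks F) {c : ℝ} (hc : 0 ≤ c) : Gks fun p => c * F p := (Gks.const hc).mul hF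

theorem Gks.sum {ι : Type*} (s : Finset ι) {F : ι → Cfg V × Finset (V × V) → ℝ}
    (h : ∀ i ∈ s, Gks (F i)) : Gks fun p => ∑ i ∈ s, F i p := by
  classical
  induction s using Finset.induction_on with
  | empty => exact (Gks.const le_rfl).congr fun g => sum_empty
  | insert k s hk ih =>
    exact ((h k (mem_insert_self k s)).add (ih fun j hj => h j (mem_insert_of_mem hj))).congr
      fun g => sum_insert hk

theorem Gks.prod {ι : Type*} (s : Finset ι) {F : ι → Cfg V × Finset (V × V) → ℝ}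
    (h : ∀ i ∈ s, Gks (F i)) : Gks fun p => ∏ i ∈ s, F i p := by
  classical
  induction s using Finset.induction_on with
  | empty => exact (Gks.const zero_le_one).congr fun g => prod_empty
  | insert k s hk ih =>
    exact ((h k (mem_insert_self k s)).mul (ih fun j hj => h j (mem_insert_of_mem hj))).congr
      fun g => prod_insert hk

theorem Gks.pow (hF : Gks F) (n : ℕ) : Gks fun p => F p ^ n :=
  (Gks.prod (range n) fun _ _ => hF).congr fun p => by simp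

/-- an odd function of one height, nonnegative and monotone on `k ≥ 0` -/
theorem Gks.odd (x : V) {φ : ℤ → ℝ} (ho : ∀ k, φ (-k) = -φ k) (h0 : ∀ k, 0 ≤ k → 0 ≤ φ k)
    (hm : ∀ j k, 0 ≤ j → j ≤ k → φ j ≤ φ k) : Gks fun p : Cfg V × Finset (V × V) => φ (p.1 x) := by
  refine ⟨{{x}}, fun _ p => φ (p.1 x), fun _ p hp => h0 _ (hp x),
    fun _ p p' hp h => hm _ _ (hp x) (h.1 x), fun p => ?_⟩
  simp only [sum_singleton, prod_singleton, ab_apply]
  rcases lt_trichotomy (p.1 x) 0 with h | h | h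
  · rw [abs_of_neg h, ho, Int.sign_eq_neg_one_of_neg h]; simp
  · have := ho 0
    rw [neg_zero] at this
    rw [h]; simp; linarith
  · rw [abs_of_pos h, Int.sign_eq_one_of_pos h]; simp

/-- an even function of one height, nonnegative and monotone on `k ≥ 0` -/
theorem Gks.even (x : V) {φ : ℤ → ℝ} (he : ∀ k, φ (-k) = φ k) (h0 : ∀ k, 0 ≤ k → 0 ≤ φ k)
    (hm : ∀ j k, 0 ≤ j → j ≤ k → φ j ≤ φ k) : Gks fun p : Cfg V × Finset (V × V) => φ (p.1 x) :=
  (Gks.abs (φ := fun p => φ (p.1 x)) (fun p hp => h0 _ (hp x))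
    fun p p' hp h => hm _ _ (hp x) (h.1 x)).congr fun p => by
      simp only [ab_apply]
      rcases abs_choice (p.1 x) with h | h <;> rw [h]
      exact (he _).symm

theorem Gks.coord (x : V) : Gks fun p : Cfg V × Finset (V × V) => (p.1 x : ℝ) :=
  Gks.odd x (φ := fun k => (k : ℝ)) (fun k => Int.cast_neg k) (fun _ h => by exact_mod_cast h)
    fun _ _ _ h => by exact_mod_cast h

theorem Gks.sign (x : V) : Gks fun p : Cfg V × Finset (V × V) => ((p.1 x).sign : ℝ) :=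
  Gks.odd x (φ := fun k => (k.sign : ℝ)) (fun k => by simp) (fun _ h => (sign_mono h le_rfl).1)
    fun _ _ hj h => (sign_mono hj h).2

theorem Gks.cosh1 (x : V) {c : ℝ} (hc : 0 ≤ c) :
    Gks fun p : Cfg V × Finset (V × V) => Real.cosh (c * p.1 x) :=
  Gks.even x (φ := fun k => Real.cosh (c * k)) (fun k => by simp) (fun _ _ => (Real.cosh_pos _).le)
    fun j k hj h => Real.cosh_le_cosh.2 (by
      have h1 : (0 : ℝ) ≤ j := by exact_mod_cast hj
      have h2 : (j : ℝ) ≤ k := by exact_mod_cast h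
      rw [abs_of_nonneg (by positivity), abs_of_nonneg (by nlinarith)]
      nlinarith)

theorem Gks.sinh1 (x : V) {c : ℝ} (hc : 0 ≤ c) :
    Gks fun p : Cfg V × Finset (V × V) => Real.sinh (c * p.1 x) :=
  Gks.odd x (φ := fun k => Real.sinh (c * k)) (fun k => by simp)
    (fun k h => Real.sinh_nonneg_iff.2 (mul_nonneg hc (by exact_mod_cast h)))
    fun j k _ h => Real.sinh_le_sinh.2 (mul_le_mul_of_nonneg_left (by exact_mod_cast h) hc)

theorem Gks.exp1 (x : V) {c : ℝ} (hc : 0 ≤ c) :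
    Gks fun p : Cfg V × Finset (V × V) => Real.exp (c * p.1 x) :=
  ((Gks.cosh1 x hc).add (Gks.sinh1 x hc)).congr fun _ => (Real.cosh_add_sinh _).symm

theorem Gks.lin (U : Finset V) {g : V → ℝ} (hg : ∀ x ∈ U, 0 ≤ g x) :
    Gks fun p : Cfg V × Finset (V × V) => ∑ x ∈ U, g x * p.1 x :=
  Gks.sum U fun x hx => (Gks.coord x).smul (hg x hx)

theorem Gks.expLin (U : Finset V) {g : V → ℝ} (hg : ∀ x ∈ U, 0 ≤ g x) :
    Gks fun p : Cfg V × Finset (V × V) => Real.exp (∑ x ∈ U, g x * p.1 x) :=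
  (Gks.prod U fun x hx => Gks.exp1 x (hg x hx)).congr fun _ => Real.exp_sum _ _

theorem Gks.coshSinh (U : Finset V) {g : V → ℝ} (hg : ∀ x ∈ U, 0 ≤ g x) :
    (Gks fun p : Cfg V × Finset (V × V) => Real.cosh (∑ x ∈ U, g x * p.1 x)) ∧
      Gks fun p : Cfg V × Finset (V × V) => Real.sinh (∑ x ∈ U, g x * p.1 x) := by
  induction U using Finset.induction_on with
  | empty => exact ⟨(Gks.const zero_le_one).congr fun p => by simp,
      (Gks.const le_rfl).congr fun p => by simp⟩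
  | insert x U hx ih =>
    obtain ⟨a, b⟩ := ih fun y hy => hg y (mem_insert_of_mem hy)
    have c := Gks.cosh1 x (hg x (mem_insert_self x U))
    have d := Gks.sinh1 x (hg x (mem_insert_self x U))
    exact ⟨((c.mul a).add (d.mul b)).congr fun p => by rw [sum_insert hx, Real.cosh_add],
      ((d.mul a).add (c.mul b)).congr fun p => by rw [sum_insert hx, Real.sinh_add]⟩

theorem Gks.pr {U : Finset V} {g : V → ℝ} (hg : ∀ x, 0 ≤ g x) (hU : ∀ x, x ∉ U → g x = 0) :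
    Gks fun p : Cfg V × Finset (V × V) => pr g p.1 :=
  (Gks.lin U fun x _ => hg x).congr fun p => pr_of_fsupp g p.1 hU

theorem Gks.expPr {U : Finset V} {g : V → ℝ} (hg : ∀ x, 0 ≤ g x) (hU : ∀ x, x ∉ U → g x = 0) :
    Gks fun p : Cfg V × Finset (V × V) => Real.exp (T145.pr g p.1) :=
  (Gks.expLin U fun x _ => hg x).congr fun p => by rw [pr_of_fsupp g p.1 hU]

theorem Gks.coshPr {U : Finset V} {g : V → ℝ} (hg : ∀ x, 0 ≤ g x) (hU : ∀ x, x ∉ U → g x = 0) :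
    Gks fun p : Cfg V × Finset (V × V) => Real.cosh (T145.pr g p.1) :=
  (Gks.coshSinh U fun x _ => hg x).1.congr fun p => by rw [pr_of_fsupp g p.1 hU]

theorem Gks.sinhPr {U : Finset V} {g : V → ℝ} (hg : ∀ x, 0 ≤ g x) (hU : ∀ x, x ∉ U → g x = 0) :
    Gks fun p : Cfg V × Finset (V × V) => Real.sinh (T145.pr g p.1) :=
  (Gks.coshSinh U fun x _ => hg x).2.congr fun p => by rw [pr_of_fsupp g p.1 hU]

omit [DecidableEq V] in
/-- an increasing event of `(|s|, ω)` -/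
theorem Gks.ind {q : Cfg V × Finset (V × V) → Prop} (hq : ∀ p p', 0 ≤ p.1 → p ≤ p' → q p → q p') :
    Gks fun p => ind (q (ab p.1, p.2)) :=
  Gks.abs (φ := fun p => T145.ind (q p)) (fun _ _ => ind_nonneg _)
    fun p p' hp h => ind_mono (hq p p' hp h)

omit [DecidableEq V] in
/-- a nonnegative monotone function of the bonds -/
theorem Gks.bond {Φ : Finset (V × V) → ℝ} (h0 : ∀ ω, 0 ≤ Φ ω) (hm : Monotone Φ) :
    Gks fun p : Cfg V × Finset (V × V) => Φ p.2 :=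
  Gks.abs (φ := fun p => Φ p.2) (fun _ _ => h0 _) fun _ _ _ h => hm h.2

omit [DecidableEq V] in
/-- a monotone function of `(|s|, ω)` minus its least value -/
theorem Gks.abs_sub {φ : Cfg V × Finset (V × V) → ℝ}
    (hm : ∀ p p', 0 ≤ p.1 → p ≤ p' → φ p ≤ φ p') : Gks fun p => φ (ab p.1, p.2) - φ (0, ∅) :=
  Gks.abs (φ := fun p => φ p - φ (0, ∅))
    (fun _ hp => sub_nonneg.2 (hm _ _ le_rfl ⟨hp, empty_subset _⟩))
    fun p p' hp h => sub_le_sub_right (hm p p' hp h) _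

end cls

/-! ## corollaries -/
section cor
variable {V : Type*} [DecidableEq V] {m' m : Mdl V} {η' η : Cfg V}
  {F G : Cfg V × Finset (V × V) → ℝ}

/-- `(m', η')` lies below `(m, η)` in the GKS order -/
structure GLe (m' : Mdl V) (η' : Cfg V) (m : Mdl V) (η : Cfg V) : Prop where
  ed : m'.ed = m.ed
  w : m'.w = m.w
  fm : m.Fm
  lo : ∀ x, SLe (us m' η' x) (us m η x)
  up : ∀ x, SLe (us m η x) (us m η x)

theorem GLe.refl (hm : m.Fm) (h : ∀ x, SLe (us m η x) (us m η x)) : GLe m η m η :=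
  ⟨rfl, rfl, hm, h, h⟩

theorem GLe.right (h : GLe m' η' m η) : GLe m η m η := GLe.refl h.fm h.up

/-- even site weights, `η ≥ 0`, `f ≥ 0` -/
theorem GLe.self {f : V → ℝ} (hm : m.Fm) (ev : m.Ev) (hη : 0 ≤ η) (hf : ∀ x, 0 ≤ f x) :
    GLe (m.force f) η (m.force f) η := GLe.refl hm (sle_self ev hη hf)

theorem GLe.self0 (hm : m.Fm) (ev : m.Ev) (hη : 0 ≤ η) : GLe m η m η := by
  simpa only [Md.force_zero] using GLe.self (f := 0) hm ev hη fun _ => le_rfl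

/-- more pins at `0`, site weights lower in the Holley order of `|k|`, smaller `η`, smaller force -/
theorem GLe.of {f' f : V → ℝ} (hE : m'.ed = m.ed) (hw : m'.w = m.w) (hm : m.Fm) (ev' : m'.Ev)
    (ev : m.Ev) (hA : m'.A ⊆ m.A) (hη' : 0 ≤ η') (hη : 0 ≤ η) (hle : ∀ x, x ∉ m.A → η' x ≤ η x)
    (h0 : ∀ x ∈ m.A, x ∉ m'.A → η' x = 0)
    (hs : ∀ x ∈ m'.A, ∀ j k, 0 ≤ k → k ≤ j → m'.site x j * m.site x k ≤ m'.site x k * m.site x j)
    (hf' : ∀ x ∈ m'.A, 0 ≤ f' x) (hff : ∀ x ∈ m'.A, f' x ≤ f x) (hf : ∀ x, 0 ≤ f x) :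
    GLe (m'.force f') η' (m.force f) η := by
  refine ⟨hE, hw, hm, fun x => ?_, sle_self ev hη hf⟩
  unfold us
  by_cases c' : x ∈ (m'.force f').A
  · have c : x ∈ (m.force f).A := hA c'
    simp only [if_pos c', if_pos c]
    exact sle_force (fun k => (ev' x c' k).1) (fun k => (ev x c k).1) (fun k => (ev' x c' k).2)
      (fun k => (ev x c k).2) (hs x c') (hf' x c') (hff x c')
  · by_cases c : x ∈ (m.force f).A
    · simp only [if_neg c', if_pos c, h0 x c c']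
      exact sle_pin0 (fun k => (ev x c k).1) (fun k => (ev x c k).2) (hf x)
    · simp only [if_neg c', if_neg c]
      exact sle_pin (hη' x) (hle x c)

theorem GLe.of0 (hE : m'.ed = m.ed) (hw : m'.w = m.w) (hm : m.Fm) (ev' : m'.Ev)
    (ev : m.Ev) (hA : m'.A ⊆ m.A) (hη' : 0 ≤ η') (hη : 0 ≤ η) (hle : ∀ x, x ∉ m.A → η' x ≤ η x)
    (h0 : ∀ x ∈ m.A, x ∉ m'.A → η' x = 0)
    (hs : ∀ x ∈ m'.A, ∀ j k, 0 ≤ k → k ≤ j → m'.site x j * m.site x k ≤ m'.site x k * m.site x j) :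
    GLe m' η' m η := by
  simpa only [Md.force_zero] using GLe.of (f' := 0) (f := 0) hE hw hm ev' ev hA hη' hη hle h0 hs
    (fun _ _ => le_rfl) (fun _ _ => le_rfl) fun _ => le_rfl

/-- pins at `0` -/
theorem GLe.pin {f : V → ℝ} {A' : Finset V} (hm : m.Fm) (ev : m.Ev) (hA : A' ⊆ m.A) (hη : 0 ≤ η)
    (h0 : ∀ x ∈ m.A, x ∉ A' → η x = 0) (hf : ∀ x, 0 ≤ f x) :
    GLe ((m.free A').force f) η (m.force f) η :=
  GLe.of rfl rfl hm (fun x hx => ev x (hA hx)) ev hA hη hη (fun _ _ => le_rfl) h0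
    (fun _ _ _ _ _ _ => (mul_comm _ _).le) (fun x _ => hf x) (fun _ _ => le_rfl) hf

theorem GLe.pin0 {A' : Finset V} (hm : m.Fm) (ev : m.Ev) (hA : A' ⊆ m.A) :
    GLe (m.free A') 0 m 0 := by
  simpa only [Md.force_zero] using
    GLe.pin (f := 0) (η := 0) hm ev hA le_rfl (fun _ _ _ => rfl) fun _ => le_rfl

/-- larger boundary condition and force -/
theorem GLe.raise {f' f : V → ℝ} (hm : m.Fm) (ev : m.Ev) (hη' : 0 ≤ η') (hη : 0 ≤ η)
    (hle : ∀ x, x ∉ m.A → η' x ≤ η x) (hf' : ∀ x, 0 ≤ f' x) (hff : ∀ x, f' x ≤ f x) :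
    GLe (m.force f') η' (m.force f) η :=
  GLe.of rfl rfl hm ev ev (Subset.refl _) hη' hη hle (fun _ a b => absurd a b)
    (fun _ _ _ _ _ _ => (mul_comm _ _).le) (fun x _ => hf' x) (fun x _ => hff x)
    fun x => (hf' x).trans (hff x)

/-- an even factor decreasing in `|k|` (a mass) -/
theorem GLe.mass {f : V → ℝ} {v : V → ℤ → ℝ} (hm : m.Fm) (ev : m.Ev) (hη : 0 ≤ η)
    (v0 : ∀ x ∈ m.A, ∀ k, 0 ≤ v x k ∧ v x (-k) = v x k)
    (va : ∀ x ∈ m.A, ∀ j k, 0 ≤ k → k ≤ j → v x j ≤ v x k) (hf : ∀ x, 0 ≤ f x) :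
    GLe ((m.mulSite v).force f) η (m.force f) η :=
  GLe.of rfl rfl hm (fun x hx k => ⟨mul_nonneg (ev x hx k).1 (v0 x hx k).1, by
      show m.site x (-k) * v x (-k) = m.site x k * v x k
      rw [(ev x hx k).2, (v0 x hx k).2]⟩)
    ev (Subset.refl _) hη hη (fun _ _ => le_rfl) (fun _ a b => absurd a b)
    (fun x hx j k hk hkj => by
      show m.site x j * v x j * m.site x k ≤ m.site x k * v x k * m.site x j
      have := mul_le_mul_of_nonneg_left (va x hx j k hk hkj)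
        (mul_nonneg (ev x hx j).1 (ev x hx k).1)
      linarith) (fun x _ => hf x) (fun _ _ => le_rfl) hf

theorem GLe.mass0 {v : V → ℤ → ℝ} (hm : m.Fm) (ev : m.Ev) (hη : 0 ≤ η)
    (v0 : ∀ x ∈ m.A, ∀ k, 0 ≤ v x k ∧ v x (-k) = v x k)
    (va : ∀ x ∈ m.A, ∀ j k, 0 ≤ k → k ≤ j → v x j ≤ v x k) : GLe (m.mulSite v) η m η := by
  simpa only [Md.force_zero] using GLe.mass (f := 0) hm ev hη v0 va fun _ => le_rfl

/-- two-model inequality, normalised -/
theorem GLe.ex_mul (h : GLe m' η' m η) (W' : Wt (m'.J 0 η')) (W : Wt (m.J 0 η)) (hF : Gks F)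
    (hG : Gks G) (iF : Ig (m'.J 0 η') F) (iG : Ig (m.J 0 η) G)
    (iFG : Ig (m.J 0 η) fun p => F p * G p) :
    Ex (m'.J 0 η') F * Ex (m.J 0 η) G ≤ Ex (m.J 0 η) fun p => F p * G p := by
  have := two h.ed h.w h.fm h.lo h.up hF hG W'.summ iF iG iFG
  rw [W'.tsum_eq, W.tsum_eq, W.tsum_eq, mul_mul_mul_comm] at this
  exact le_of_mul_le_mul_left (this.trans_eq (mul_assoc _ _ _).symm) (mul_pos W'.pos W.pos)

/-- monotonicity of the means of the class `Gks` -/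
theorem GLe.ex_le (h : GLe m' η' m η) (W' : Wt (m'.J 0 η')) (W : Wt (m.J 0 η)) (hF : Gks F)
    (i' : Ig (m'.J 0 η') F) (i : Ig (m.J 0 η) F) : Ex (m'.J 0 η') F ≤ Ex (m.J 0 η) F := by
  simpa only [mul_one, W.ex_const] using
    h.ex_mul W' W hF (Gks.const zero_le_one) i' (W.ig_const 1) (by simpa only [mul_one] using i)

/-- GKS-II -/
theorem GLe.cv_nonneg (h : GLe m η m η) (W : Wt (m.J 0 η)) (hF : Gks F) (hG : Gks G)
    (iF : Ig (m.J 0 η) F) (iG : Ig (m.J 0 η) G) (iFG : Ig (m.J 0 η) fun p => F p * G p) :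
    0 ≤ Cv (m.J 0 η) F G := sub_nonneg.2 (h.ex_mul W W hF hG iF iG iFG)

/-- GKS-I -/
theorem GLe.ex_nonneg (h : GLe m η m η) (hF : Gks F) : 0 ≤ Ex (m.J 0 η) F := by
  have e := J_norm (B := m.A ∪ η.support) m η subset_union_left subset_union_right
  have n := fun x (_ : x ∈ m.A ∪ η.support) => (h.up x).n
  have p := fun x (_ : x ∈ m.A ∪ η.support) => (h.up x).p
  rw [e]
  refine div_nonneg ?_ (tsum_nonneg (Mdl.J_nonneg (m := Mdl.mk (m.A ∪ η.support) m.ed m.w (us m η))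
    h.fm n 0 0))
  by_cases i : Ig ((Mdl.mk (m.A ∪ η.support) m.ed m.w (us m η)).J 0 0) F
  · exact (hasSum_Ps h.fm i).nonneg fun a => Ps_nonneg fun ha => Fi_nonneg' h.fm n p hF ha
  · rw [tsum_eq_zero_of_not_summable i]

/-- a monotone function of `(|s|, ω)` has ordered means -/
theorem GLe.abs_le (h : GLe m' η' m η) (W' : Wt (m'.J 0 η')) (W : Wt (m.J 0 η))
    {φ : Cfg V × Finset (V × V) → ℝ} (hφ : ∀ p p', 0 ≤ p.1 → p ≤ p' → φ p ≤ φ p')
    (i' : Ig (m'.J 0 η') fun p => φ (ab p.1, p.2)) (i : Ig (m.J 0 η) fun p => φ (ab p.1, p.2)) :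
    Ex (m'.J 0 η') (fun p => φ (ab p.1, p.2)) ≤ Ex (m.J 0 η) fun p => φ (ab p.1, p.2) := by
  have := h.ex_le W' W (Gks.abs_sub hφ) (i'.sub (W'.ig_const _)) (i.sub (W.ig_const _))
  rw [W'.ex_sub_const i', W.ex_sub_const i] at this
  linarith

theorem GLe.abs_ge (h : GLe m' η' m η) (W' : Wt (m'.J 0 η')) (W : Wt (m.J 0 η))
    {φ : Cfg V × Finset (V × V) → ℝ} (hφ : ∀ p p', 0 ≤ p.1 → p ≤ p' → φ p' ≤ φ p)
    (i' : Ig (m'.J 0 η') fun p => φ (ab p.1, p.2)) (i : Ig (m.J 0 η) fun p => φ (ab p.1, p.2)) :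
    Ex (m.J 0 η) (fun p => φ (ab p.1, p.2)) ≤ Ex (m'.J 0 η') fun p => φ (ab p.1, p.2) := by
  have := h.abs_le W' W (φ := fun p => -φ p) (fun p p' a b => neg_le_neg (hφ p p' a b)) i'.neg i.neg
  rw [Ex_neg, Ex_neg] at this
  linarith

/-- increasing events of `(|s|, ω)` -/
theorem GLe.pr_le (h : GLe m' η' m η) (W' : Wt (m'.J 0 η')) (W : Wt (m.J 0 η))
    {q : Cfg V × Finset (V × V) → Prop} (hq : ∀ p p', 0 ≤ p.1 → p ≤ p' → q p → q p') :
    Pr (m'.J 0 η') (fun p => q (ab p.1, p.2)) ≤ Pr (m.J 0 η) fun p => q (ab p.1, p.2) :=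
  h.ex_le W' W (Gks.ind hq) (W'.ig_ind _) (W.ig_ind _)

/-- increasing events of the bonds -/
theorem GLe.pr_bond_le (h : GLe m' η' m η) (W' : Wt (m'.J 0 η')) (W : Wt (m.J 0 η))
    {q : Finset (V × V) → Prop} (hq : ∀ ω ω', ω ⊆ ω' → q ω → q ω') :
    Pr (m'.J 0 η') (fun p => q p.2) ≤ Pr (m.J 0 η) fun p => q p.2 :=
  h.pr_le W' W (q := fun p => q p.2) fun _ _ _ k => hq _ _ k.2

theorem cv_sub_const {α : Type*} {W F G : α → ℝ} (hW : Wt W) (iF : Ig W F) (iG : Ig W G)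
    (iFG : Ig W fun a => F a * G a) (c : ℝ) : Cv W F (fun a => G a - c) = Cv W F G := by
  unfold Cv
  simp only [mul_sub]
  rw [Ex_sub iFG (iF.mul_const c), Ex_mul_const, hW.ex_sub_const iG]
  ring

/-- the class `Gks` is positively correlated with monotone functions of `(|s|, ω)` -/
theorem GLe.cv_abs (h : GLe m η m η) (W : Wt (m.J 0 η)) (hF : Gks F)
    {φ : Cfg V × Finset (V × V) → ℝ} (hφ : ∀ p p', 0 ≤ p.1 → p ≤ p' → φ p ≤ φ p')
    (iF : Ig (m.J 0 η) F) (i : Ig (m.J 0 η) fun p => φ (ab p.1, p.2))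
    (iFφ : Ig (m.J 0 η) fun p => F p * φ (ab p.1, p.2)) :
    0 ≤ Cv (m.J 0 η) F fun p => φ (ab p.1, p.2) := by
  rw [← cv_sub_const W iF i iFφ (φ (0, ∅))]
  exact h.cv_nonneg W hF (Gks.abs_sub hφ) iF (i.sub (W.ig_const _))
    ((iFφ.sub (iF.mul_const (φ (0, ∅)))).congr fun p _ => (mul_sub _ _ _).symm)

theorem GLe.cv_abs_anti (h : GLe m η m η) (W : Wt (m.J 0 η)) (hF : Gks F)
    {φ : Cfg V × Finset (V × V) → ℝ} (hφ : ∀ p p', 0 ≤ p.1 → p ≤ p' → φ p' ≤ φ p)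
    (iF : Ig (m.J 0 η) F) (i : Ig (m.J 0 η) fun p => φ (ab p.1, p.2))
    (iFφ : Ig (m.J 0 η) fun p => F p * φ (ab p.1, p.2)) :
    Cv (m.J 0 η) F (fun p => φ (ab p.1, p.2)) ≤ 0 := by
  have := h.cv_abs W hF (φ := fun p => -φ p) (fun p p' a b => neg_le_neg (hφ p p' a b)) iF i.neg
    (iFφ.neg.congr fun p _ => (mul_neg _ _).symm)
  unfold Cv at this ⊢
  simp only [mul_neg, Ex_neg] at this
  linarith

/-- absolute-value FKG with bonds -/
theorem GLe.fkg_abs (h : GLe m η m η) (W : Wt (m.J 0 η)) {φ ψ : Cfg V × Finset (V × V) → ℝ}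
    (hφ : ∀ p p', 0 ≤ p.1 → p ≤ p' → φ p ≤ φ p') (hψ : ∀ p p', 0 ≤ p.1 → p ≤ p' → ψ p ≤ ψ p')
    (iφ : Ig (m.J 0 η) fun p => φ (ab p.1, p.2)) (iψ : Ig (m.J 0 η) fun p => ψ (ab p.1, p.2))
    (i : Ig (m.J 0 η) fun p => φ (ab p.1, p.2) * ψ (ab p.1, p.2)) :
    Ex (m.J 0 η) (fun p => φ (ab p.1, p.2)) * Ex (m.J 0 η) (fun p => ψ (ab p.1, p.2)) ≤
      Ex (m.J 0 η) fun p => φ (ab p.1, p.2) * ψ (ab p.1, p.2) := by
  have := h.cv_abs W (Gks.abs_sub hφ) hψ (iφ.sub (W.ig_const _)) iψ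
    ((i.sub (iψ.const_mul (φ (0, ∅)))).congr fun p _ => (sub_mul _ _ _).symm)
  unfold Cv at this
  simp only [sub_mul] at this
  rw [Ex_sub i (iψ.const_mul _), Ex_const_mul, W.ex_sub_const iφ] at this
  linarith

theorem GLe.fkg_abs_anti (h : GLe m η m η) (W : Wt (m.J 0 η)) {φ ψ : Cfg V × Finset (V × V) → ℝ}
    (hφ : ∀ p p', 0 ≤ p.1 → p ≤ p' → φ p' ≤ φ p) (hψ : ∀ p p', 0 ≤ p.1 → p ≤ p' → ψ p' ≤ ψ p)
    (iφ : Ig (m.J 0 η) fun p => φ (ab p.1, p.2)) (iψ : Ig (m.J 0 η) fun p => ψ (ab p.1, p.2))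
    (i : Ig (m.J 0 η) fun p => φ (ab p.1, p.2) * ψ (ab p.1, p.2)) :
    Ex (m.J 0 η) (fun p => φ (ab p.1, p.2)) * Ex (m.J 0 η) (fun p => ψ (ab p.1, p.2)) ≤
      Ex (m.J 0 η) fun p => φ (ab p.1, p.2) * ψ (ab p.1, p.2) := by
  have := h.fkg_abs W (φ := fun p => -φ p) (ψ := fun p => -ψ p)
    (fun p p' a b => neg_le_neg (hφ p p' a b)) (fun p p' a b => neg_le_neg (hψ p p' a b))
    iφ.neg iψ.neg (i.congr fun p _ => (neg_mul_neg _ _).symm)
  simpa only [Ex_neg, neg_mul_neg] using this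

/-- two increasing events of `(|s|, ω)` -/
theorem GLe.pr_and (h : GLe m η m η) (W : Wt (m.J 0 η)) {q r : Cfg V × Finset (V × V) → Prop}
    (hq : ∀ p p', 0 ≤ p.1 → p ≤ p' → q p → q p') (hr : ∀ p p', 0 ≤ p.1 → p ≤ p' → r p → r p') :
    Pr (m.J 0 η) (fun p => q (ab p.1, p.2)) * Pr (m.J 0 η) (fun p => r (ab p.1, p.2)) ≤
      Pr (m.J 0 η) fun p => q (ab p.1, p.2) ∧ r (ab p.1, p.2) := by
  simpa only [Pr, ind_and] using h.ex_mul W W (Gks.ind hq) (Gks.ind hr) (W.ig_ind _) (W.ig_ind _)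
    ((W.ig_ind _).mul_ind W.nonneg _)

/-- two decreasing events of `(|s|, ω)` -/
theorem GLe.pr_and_anti (h : GLe m η m η) (W : Wt (m.J 0 η)) {q r : Cfg V × Finset (V × V) → Prop}
    (hq : ∀ p p', 0 ≤ p.1 → p ≤ p' → q p' → q p) (hr : ∀ p p', 0 ≤ p.1 → p ≤ p' → r p' → r p) :
    Pr (m.J 0 η) (fun p => q (ab p.1, p.2)) * Pr (m.J 0 η) (fun p => r (ab p.1, p.2)) ≤
      Pr (m.J 0 η) fun p => q (ab p.1, p.2) ∧ r (ab p.1, p.2) := by
  simpa only [Pr, ind_and] using h.fkg_abs_anti W (φ := fun p => ind (q p))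
    (ψ := fun p => ind (r p)) (fun p p' a b => ind_mono (hq p p' a b))
    (fun p p' a b => ind_mono (hr p p' a b)) (W.ig_ind _) (W.ig_ind _)
    ((W.ig_ind _).mul_ind W.nonneg _)

/-! ### heights only -/

theorem GLe.nn (h : GLe m' η' m η) : m'.Nn ∧ m.Nn :=
  ⟨fun x hx k => by simpa only [us, if_pos hx] using (h.lo x).n' k,
    fun x hx k => by simpa only [us, if_pos hx] using (h.lo x).n k⟩

theorem GLe.fm' (h : GLe m' η' m η) : m'.Fm := fun e he => by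
  rw [h.w]; exact h.fm e (h.ed ▸ he)

variable {F G : Cfg V → ℝ}

theorem GLe.exW_mul (h : GLe m' η' m η) (W' : Wt (m'.W η')) (W : Wt (m.W η))
    (hF : Gks fun p => F p.1) (hG : Gks fun p => G p.1) (iF : Ig (m'.W η') F) (iG : Ig (m.W η) G)
    (iFG : Ig (m.W η) fun s => F s * G s) :
    Ex (m'.W η') F * Ex (m.W η) G ≤ Ex (m.W η) fun s => F s * G s := by
  have J' := Mdl.wt_J h.fm' h.nn.1 0 W'
  have J := Mdl.wt_J h.fm h.nn.2 0 W
  rw [← Mdl.ex_J_fst J', ← Mdl.ex_J_fst J, ← Mdl.ex_J_fst J]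
  exact h.ex_mul J' J hF hG ((Mdl.ig_J_fst J' F).2 iF) ((Mdl.ig_J_fst J G).2 iG)
    ((Mdl.ig_J_fst J _).2 iFG)

theorem GLe.exW_le (h : GLe m' η' m η) (W' : Wt (m'.W η')) (W : Wt (m.W η))
    (hF : Gks fun p => F p.1) (i' : Ig (m'.W η') F) (i : Ig (m.W η) F) :
    Ex (m'.W η') F ≤ Ex (m.W η) F := by
  simpa only [mul_one, W.ex_const] using h.exW_mul (G := fun _ => 1) W' W hF
    (Gks.const zero_le_one) i' (W.ig_const 1) (by simpa only [mul_one] using i)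

theorem GLe.cvW_nonneg (h : GLe m η m η) (W : Wt (m.W η)) (hF : Gks fun p => F p.1)
    (hG : Gks fun p => G p.1) (iF : Ig (m.W η) F) (iG : Ig (m.W η) G)
    (iFG : Ig (m.W η) fun s => F s * G s) : 0 ≤ Cv (m.W η) F G :=
  sub_nonneg.2 (h.exW_mul W W hF hG iF iG iFG)

theorem GLe.exW_nonneg (h : GLe m η m η) (W : Wt (m.W η)) (hF : Gks fun p => F p.1) :
    0 ≤ Ex (m.W η) F := by
  rw [← Mdl.ex_J_fst (Mdl.wt_J h.fm h.nn.2 0 W)]
  exact h.ex_nonneg hF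

/-- on the support of the weight every `g` may be cut to a finite set -/
theorem pr_cut (m : Mdl V) (η : Cfg V) (g : V → ℝ) {U : Finset V} (hU : m.A ∪ η.support ⊆ U)
    {s : Cfg V} (hs : m.W η s ≠ 0) : pr g s = ∑ x ∈ U, g x * s x :=
  pr_of_zero g s fun x hx => by
    have h1 := ind_ne_zero.1 (left_ne_zero_of_mul (left_ne_zero_of_mul hs)) x
      fun k => hx (hU (mem_union_left _ k))
    rw [h1]
    exact Finsupp.notMem_support_iff.1 fun k => hx (hU (mem_union_right _ k))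

/-- any function `Φ` of two nonnegative linear observables that is in `Gks` has ordered means -/
theorem GLe.exW_pr_le (h : GLe m' η' m η) (W' : Wt (m'.W η')) (W : Wt (m.W η)) {g g' : V → ℝ}
    {Φ : ℝ → ℝ → ℝ} (hΦ : ∀ U : Finset V, Gks fun p : Cfg V × Finset (V × V) =>
      Φ (∑ x ∈ U, g x * p.1 x) (∑ x ∈ U, g' x * p.1 x))
    (i' : Ig (m'.W η') fun s => Φ (pr g s) (pr g' s)) (i : Ig (m.W η) fun s => Φ (pr g s) (pr g' s)) :
    Ex (m'.W η') (fun s => Φ (pr g s) (pr g' s)) ≤ Ex (m.W η) fun s => Φ (pr g s) (pr g' s) := by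
  set U := m'.A ∪ η'.support ∪ (m.A ∪ η.support)
  have e' : ∀ s, m'.W η' s ≠ 0 →
      Φ (pr g s) (pr g' s) = Φ (∑ x ∈ U, g x * s x) (∑ x ∈ U, g' x * s x) := fun s hs => by
    rw [pr_cut m' η' g subset_union_left hs, pr_cut m' η' g' subset_union_left hs]
  have e : ∀ s, m.W η s ≠ 0 →
      Φ (pr g s) (pr g' s) = Φ (∑ x ∈ U, g x * s x) (∑ x ∈ U, g' x * s x) := fun s hs => by
    rw [pr_cut m η g subset_union_right hs, pr_cut m η g' subset_union_right hs]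
  rw [Ex_congr e', Ex_congr e]
  exact h.exW_le W' W (hΦ U) (i'.congr e') (i.congr e)

/-- means of nonnegative linear observables -/
theorem GLe.mean_le (h : GLe m' η' m η) (W' : Wt (m'.W η')) (W : Wt (m.W η)) {g : V → ℝ}
    (hg : ∀ x, 0 ≤ g x) (i' : Ig (m'.W η') fun s => pr g s) (i : Ig (m.W η) fun s => pr g s) :
    Ex (m'.W η') (fun s => pr g s) ≤ Ex (m.W η) fun s => pr g s :=
  h.exW_pr_le (g' := g) (Φ := fun a _ => a) W' W (fun U => Gks.lin U fun x _ => hg x) i' i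

/-- second moments of nonnegative linear observables -/
theorem GLe.mom2_le (h : GLe m' η' m η) (W' : Wt (m'.W η')) (W : Wt (m.W η)) {g g' : V → ℝ}
    (hg : ∀ x, 0 ≤ g x) (hg' : ∀ x, 0 ≤ g' x) (i' : Ig (m'.W η') fun s => pr g s * pr g' s)
    (i : Ig (m.W η) fun s => pr g s * pr g' s) :
    Ex (m'.W η') (fun s => pr g s * pr g' s) ≤ Ex (m.W η) fun s => pr g s * pr g' s :=
  h.exW_pr_le (Φ := fun a b => a * b) W' W
    (fun U => (Gks.lin U fun x _ => hg x).mul (Gks.lin U fun x _ => hg' x)) i' i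

/-- log moment generating functions of nonnegative forces -/
theorem GLe.M_le (h : GLe m' η' m η) (W' : Wt (m'.W η')) (W : Wt (m.W η)) {g : V → ℝ}
    (hg : ∀ x, 0 ≤ g x) (i' : Ig (m'.W η') fun s => Real.exp (pr g s))
    (i : Ig (m.W η) fun s => Real.exp (pr g s)) : M (m'.W η') (pr g) ≤ M (m.W η) (pr g) :=
  Real.log_le_log (W'.ex_pos' i' fun _ => Real.exp_pos _)
    (h.exW_pr_le (g' := g) (Φ := fun a _ => Real.exp a) W' W
      (fun U => Gks.expLin U fun x _ => hg x) i' i)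

end cor

end Crest.Agent.T145
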