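import Crest.Agent.T145.NcT4Def_78
import Crest.Agent.T145.NcBas_78
import Crest.Agent.T145.GksC_60
import Crest.Agent.T145.MxA_9

/-!
# Row 145: soft T4, a crossing forces persistence (`keyStmt`, `crossStmt`) (helper60)
-/

set_option autoImplicit false

namespace Crest.Agent.T145.Nc

open Finset

namespace Cr60

variable {V : Type} [DecidableEq V] {m : Mdl V}

/-- global flip of the heights -/
noncomputable def fl (V : Type) : Cfg V × Finset (V × V) ≃ Cfg V × Finset (V × V) :=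
  (Equiv.neg (Cfg V)).prodCongr (Equiv.refl _)

/-- translation of the heights -/
noncomputable def tr (u : Cfg V) : Cfg V × Finset (V × V) ≃ Cfg V × Finset (V × V) :=
  (Equiv.addRight u).prodCongr (Equiv.refl _)

theorem J_fl (hF : m.Fm) (hE : m.Ev) (q : Cfg V × Finset (V × V)) : m.J 0 0 (fl V q) = m.J 0 0 q := by
  change m.J 0 0 (-q.1, q.2) = _
  simp only [Mdl.J, Mdl.bw, Finsupp.neg_apply, sub_zero, abs_neg]
  congr 1
  · congr 1
    · congr 1
      exact ind_congr (by simp)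
    · refine prod_congr rfl fun e he => ?_
      split_ifs
      · congr 1
        rw [← (hF e he).even]
        congr 1
        simp only [dE, Finsupp.neg_apply]; ring
      · rfl
  · exact prod_congr rfl fun x hx => (hE x hx _).2

theorem J_tr {u η : Cfg V} (h1 : ∀ x ∈ m.A, u x = 0) (h2 : ∀ x, x ∉ m.A → u x = η x)
    (he : ∀ e ∈ m.ed, e.1 ∈ m.A ∧ e.2 ∈ m.A) (h : ℤ) (q : Cfg V × Finset (V × V)) :
    m.J h η (tr u q) = m.J h 0 q := by
  change m.J h η (q.1 + u, q.2) = _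
  simp only [Mdl.J, Mdl.bw, Finsupp.add_apply]
  congr 1
  · congr 1
    · congr 1
      refine ind_congr (forall_congr' fun x => imp_congr_right fun hx => ?_)
      rw [h2 x hx]; simp
    · refine prod_congr rfl fun e hE => ?_
      simp only [dE, Finsupp.add_apply, h1 _ (he e hE).1, h1 _ (he e hE).2, add_zero]
  · exact prod_congr rfl fun x hx => by rw [h1 x hx, add_zero]

theorem pr_nonneg {f : V → ℝ} {u : Cfg V} (hf : ∀ x, 0 ≤ f x) (hu : ∀ x, 0 ≤ u x) : 0 ≤ pr f u := by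
  rw [pr_of_zero f u (U := u.support) fun x hx => Finsupp.notMem_support_iff.1 hx]
  exact sum_nonneg fun x _ => mul_nonneg (hf x) (by exact_mod_cast hu x)

/-- exponential moments on a decreasing bond event -/
theorem exp_le (hF : m.Fm) (hE : m.Ev) (hW : Wt (m.W 0)) (hS : SE (m.W 0)) {f : V → ℝ}
    (hf : ∀ x, 0 ≤ f x) {D : Finset (V × V) → Prop} (hD : ∀ ω ω', ω ⊆ ω' → D ω' → D ω) {B : ℝ}
    (hB : M (m.W 0) (pr f) ≤ B) (ε : ℝ) (hε : ε = 1 ∨ ε = -1) :
    Ig (m.J 0 0) (fun q => ind (D q.2) * Real.exp (ε * pr f q.1)) ∧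
      Ex (m.J 0 0) (fun q => ind (D q.2) * Real.exp (ε * pr f q.1)) ≤
        Real.exp B * Ex (m.J 0 0) fun q => ind (D q.2) := by
  have J := Mdl.wt_J hF hE.nn 0 hW
  have i0 : Ig (m.J 0 0) fun q => Real.exp (pr f q.1) := (Mdl.ig_J_fst J _).2 (hS _)
  have c : ∀ q, m.J 0 0 q ≠ 0 → pr f q.1 = ∑ x ∈ m.A, f x * q.1 x := fun q hq => Mx.pr_J hq f
  have i1 : Ig (m.J 0 0) fun q => Real.exp (∑ x ∈ m.A, f x * q.1 x) :=
    i0.congr fun q hq => by rw [c q hq]
  have k := (GLe.self0 hF hE le_rfl).cv_abs_anti J (Gks.expLin m.A fun x _ => hf x)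
    (φ := fun q => ind (D q.2)) (fun p p' _ h => ind_mono (hD _ _ h.2)) i1 (J.ig_ind _)
    (i1.mul_ind J.nonneg _)
  have e1 : Ex (m.J 0 0) (fun q => Real.exp (∑ x ∈ m.A, f x * q.1 x)) ≤ Real.exp B := by
    rw [← Ex_congr (F := fun q => Real.exp (pr f q.1)) fun q hq => by rw [c q hq],
      Mdl.ex_J_fst J fun s => Real.exp (pr f s), ← hW.exp_M hS]
    exact Real.exp_le_exp.2 hB
  have h1 : Ig (m.J 0 0) (fun q => ind (D q.2) * Real.exp (pr f q.1)) ∧
      Ex (m.J 0 0) (fun q => ind (D q.2) * Real.exp (pr f q.1)) ≤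
        Real.exp B * Ex (m.J 0 0) fun q => ind (D q.2) := by
    refine ⟨i0.ind_mul J.nonneg _, ?_⟩
    rw [Ex_congr (G := fun q => Real.exp (∑ x ∈ m.A, f x * q.1 x) * ind (D q.2)) fun q hq => by
      rw [c q hq, mul_comm]]
    exact (sub_nonpos.1 k).trans
      (mul_le_mul_of_nonneg_right e1 (Ex_nonneg J.nonneg fun _ _ => ind_nonneg _))
  rcases hε with rfl | rfl
  · simpa only [one_mul] using h1
  · have e : ∀ q : Cfg V × Finset (V × V), ind (D q.2) * Real.exp (-1 * pr f q.1) =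
        ind (D (fl V q).2) * Real.exp (pr f (fl V q).1) := fun q => by
      change _ = ind (D q.2) * Real.exp (pr f (-q.1))
      rw [map_neg, neg_one_mul]
    simp only [e]
    have i2 := (ig_symm (fl V) (J_fl hF hE)).2 h1.1
    exact ⟨i2, by
      rw [Ex_symm (fl V) (J_fl hF hE) fun q => ind (D q.2) * Real.exp (pr f q.1)]; exact h1.2⟩

/-- a decreasing bond event does not delocalise a positive linear observable -/
theorem pr_le (hF : m.Fm) (hE : m.Ev) (hW : Wt (m.W 0)) (hS : SE (m.W 0)) {f : V → ℝ}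
    (hf : ∀ x, 0 ≤ f x) {D : Finset (V × V) → Prop} (hD : ∀ ω ω', ω ⊆ ω' → D ω' → D ω) {B : ℝ}
    (hB : M (m.W 0) (pr f) ≤ B) :
    Ex (m.J 0 0) (fun q => ind (D q.2)) ≤
      2 * Real.exp B * Ex (m.J 0 0) fun q => ind (D q.2) * Real.exp (-|pr f q.1|) := by
  have J := Mdl.wt_J hF hE.nn 0 hW
  obtain ⟨i1, e1⟩ := exp_le hF hE hW hS hf hD hB 1 (.inl rfl)
  obtain ⟨i2, e2⟩ := exp_le hF hE hW hS hf hD hB (-1) (.inr rfl)
  have i3 : Ig (m.J 0 0) fun q => ind (D q.2) * Real.exp (-|pr f q.1|) :=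
    (J.ig_ind _).mul_bdd J.nonneg (C := 1) fun q => by
      rw [abs_of_pos (Real.exp_pos _)]; exact Real.exp_le_one_iff.2 (neg_nonpos.2 (abs_nonneg _))
  have hb := Real.exp_pos B
  have h := Ex_mono J.nonneg ((J.ig_ind fun q => D q.2).const_mul (4 * Real.exp B))
    ((i3.const_mul (4 * Real.exp B ^ 2)).add (i1.add i2)) fun q => by
      have a := exp_abs_le (pr f q.1)
      have b : Real.exp (-|pr f q.1|) * Real.exp |pr f q.1| = 1 := by
        rw [← Real.exp_add, neg_add_cancel, Real.exp_zero]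
      have c := Real.exp_pos (-|pr f q.1|)
      have d : 4 * Real.exp B ≤ 4 * Real.exp B ^ 2 * Real.exp (-|pr f q.1|) + Real.exp |pr f q.1| := by
        refine le_of_mul_le_mul_left ?_ c
        nlinarith [sq_nonneg (2 * Real.exp B * Real.exp (-|pr f q.1|) - 1)]
      have := mul_le_mul_of_nonneg_left (d.trans (add_le_add le_rfl a)) (ind_nonneg (D q.2))
      simp only [one_mul, neg_one_mul]
      linarith
  rw [Ex_add (i3.const_mul _) (i1.add i2), Ex_add i1 i2, Ex_const_mul, Ex_const_mul] at h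
  refine le_of_mul_le_mul_left ?_ (mul_pos two_pos hb)
  nlinarith

/-- the boundary condition of the rest model is a translation -/
theorem rest_tr (he : ∀ e ∈ m.ed, e.1 ∈ m.A ∧ e.2 ∈ m.A) (C : Finset V) (s : Cfg V) :
    ∃ u : Cfg V, ((∀ x, x ∉ m.A \ C → 0 ≤ s x) → ∀ x, 0 ≤ u x) ∧
      ∀ q, (m.rest 0 C s).J 0 s (tr u q) = (m.rest 0 C s).J 0 0 q := by
  refine ⟨s.filter (· ∉ m.A \ C), fun hs x => ?_, J_tr (fun x hx => ?_) (fun x hx => ?_)
    (fun e h => ⟨mem_sdiff.2 ⟨(he e (mem_filter.1 h).1).1, (mem_filter.1 h).2.1⟩,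
      mem_sdiff.2 ⟨(he e (mem_filter.1 h).1).2, (mem_filter.1 h).2.2⟩⟩) 0⟩
  · rw [Finsupp.filter_apply]; split_ifs with h
    exacts [le_rfl, hs x h]
  · exact Finsupp.filter_apply_neg _ _ (not_not.2 hx)
  · exact Finsupp.filter_apply_pos _ _ hx

end Cr60

open Cr60

theorem keyStmt : KeyStmt := by
  intro V _ _ m C s φ p D B t hc hA he hs hφ hp hD h1 h2
  set R := m.rest 0 C s with hR
  have hF : R.Fm := Mix53.rest_fm hc.1 0 C s
  have hE : R.Ev := Mix53.rest_ev hc.1 hc.ev C s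
  have hW : Wt (R.W 0) := Mix53.rest_wt0 hc hA s
  have hS : SE (R.W 0) := Mix53.rest_se0 hc hA s
  have hL := (Mix53.rest_loc hc hA s).1
  have J := Mdl.wt_J hF hE.nn 0 hW
  obtain ⟨u, u0, e⟩ := rest_tr he C s
  replace u0 := u0 hs
  replace e : ∀ q, R.J 0 s (tr u q) = R.J 0 0 q := e
  rw [← Ex_equiv (tr u), ← Ex_equiv (tr u) (R.J 0 s)]
  simp only [e]
  have a0 := pr_nonneg hφ u0
  have a1 := pr_nonneg hp u0
  obtain ⟨i1, e1⟩ := exp_le hF hE hW hS (f := φ + p) (fun x => add_nonneg (hφ x) (hp x)) hD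
    ((hL _).trans h2) (-1) (.inr rfl)
  have e2 := pr_le hF hE hW hS hφ hD ((hL _).trans h1)
  have b : ∀ x : ℝ, |Real.exp (-|x|)| ≤ 1 := fun x => by
    rw [abs_of_pos (Real.exp_pos _)]; exact Real.exp_le_one_iff.2 (neg_nonpos.2 (abs_nonneg _))
  have e3 : Ex (R.J 0 0) (fun q => ind (D q.2) * Real.exp (-|pr φ q.1|)) ≤ Real.exp (pr φ u) *
      Ex (R.J 0 0) fun q => ind (D (tr u q).2) * Real.exp (-|pr φ (tr u q).1|) := by
    rw [← Ex_const_mul]
    refine Ex_mono J.nonneg ((J.ig_ind _).mul_bdd J.nonneg fun _ => b _)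
      (((J.ig_ind _).mul_bdd J.nonneg fun _ => b _).const_mul _) fun q => ?_
    change _ ≤ _ * (ind (D q.2) * Real.exp (-|pr φ (q.1 + u)|))
    rw [mul_left_comm, ← Real.exp_add, map_add]
    refine mul_le_mul_of_nonneg_left (Real.exp_le_exp.2 ?_) (ind_nonneg _)
    linarith [abs_add_le (pr φ q.1) (pr φ u), abs_of_nonneg a0]
  have e4 : Ex (R.J 0 0) (fun q => ind (D (tr u q).2) *
      ind (|pr φ (tr u q).1| ≤ 1 / 2 ∧ pr (p - φ) (tr u q).1 < -t)) ≤ Real.exp (1 - t - pr φ u) *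
        Ex (R.J 0 0) fun q => ind (D q.2) * Real.exp (-1 * pr (φ + p) q.1) := by
    rw [← Ex_const_mul]
    refine Ex_mono J.nonneg ((J.ig_ind _).mul_ind J.nonneg _) (i1.const_mul _) fun q => ?_
    change ind (D q.2) * ind (|pr φ (q.1 + u)| ≤ 1 / 2 ∧ pr (p - φ) (q.1 + u) < -t) ≤ _
    rw [mul_left_comm, ← Real.exp_add]
    refine mul_le_mul_of_nonneg_left ?_ (ind_nonneg _)
    by_cases h : |pr φ (q.1 + u)| ≤ 1 / 2 ∧ pr (p - φ) (q.1 + u) < -t
    · rw [ind_pos h]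
      refine Real.one_le_exp ?_
      obtain ⟨h3, h4⟩ := h
      simp only [pr_add, pr_sub, map_add, AddMonoidHom.add_apply, AddMonoidHom.sub_apply] at h3 h4 ⊢
      linarith [(abs_le.1 h3).2]
    · rw [ind_neg h]; exact (Real.exp_pos _).le
  refine e4.trans ((mul_le_mul_of_nonneg_left (e1.trans (mul_le_mul_of_nonneg_left (e2.trans
    (mul_le_mul_of_nonneg_left e3 (by positivity))) (Real.exp_pos _).le)) (Real.exp_pos _).le).trans_eq ?_)
  rw [show 2 * B + 1 - t = 1 - t - pr φ u + B + B + pr φ u by ring]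
  simp only [Real.exp_add]
  ring

namespace Cr60

variable {V : Type} [DecidableEq V] {m : Mdl V}

theorem fib_nonneg {α β : Type} (π : α → β) {H : α → ℝ} (hs : Summable H)
    (h : ∀ a, H a ≠ 0 → 0 ≤ ∑' q, ind (π q = π a) * H q) : 0 ≤ ∑' q, H q := by
  refine (Zs_push (π := π) hs).le.trans' (tsum_nonneg fun b => ?_)
  by_cases k : ∃ a, H a ≠ 0 ∧ π a = b
  · obtain ⟨a, ha, rfl⟩ := k
    exact h a ha
  · refine tsum_nonneg fun a => ?_
    by_cases k' : π a = b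
    · rw [not_not.1 fun h' => k ⟨a, h', k'⟩, mul_zero]
    · rw [ind_neg k', zero_mul]

theorem ind_le_exp (x : ℝ) (P : Prop) : ind (|x| ≤ 1 / 2 ∧ P) ≤ Real.exp (1 / 2) * Real.exp (-|x|) := by
  by_cases h : |x| ≤ 1 / 2 ∧ P
  · rw [ind_pos h, ← Real.exp_add]; exact Real.one_le_exp (by linarith [h.1])
  · rw [ind_neg h]; positivity

/-- exploration of the positive cluster of one site -/
theorem step [Countable V] (hc : m.Ctr) (he : ∀ e ∈ m.ed, e.1 ∈ m.A ∧ e.2 ∈ m.A) {x : V}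
    {S : Finset V} {φ p : V → ℝ} (hφ : ∀ x, 0 ≤ φ x) (hp : ∀ x, 0 ≤ p x)
    {D : Finset (V × V) → Prop} (hD : ∀ ω ω', ω ⊆ ω' → D ω' → D ω) {B t : ℝ}
    (hB : ∀ ω ⊆ m.ed, ∀ y ∈ S, Conn ω x y → (m.free (m.A \ cl {x} ω)).Anch ∧
      M ((m.free (m.A \ cl {x} ω)).W 0) (pr φ) ≤ B ∧
      M ((m.free (m.A \ cl {x} ω)).W 0) (pr (φ + p)) ≤ B)
    (hs : Ig (m.J 0 0) fun q => Real.exp (-|pr φ q.1|)) :
    ∑' q, m.J 0 0 q * (ind ((∃ y ∈ S, Conn q.2 x y) ∧ D q.2 ∧ 0 < q.1 x) *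
        ind (|pr φ q.1| ≤ 1 / 2 ∧ pr (p - φ) q.1 < -t)) ≤ 2 * Real.exp (2 * B + 1 - t) *
      ∑' q, m.J 0 0 q * (ind ((∃ y ∈ S, Conn q.2 x y) ∧ D q.2 ∧ 0 < q.1 x) *
        Real.exp (-|pr φ q.1|)) := by
  have J0 := Mx.J0 hc
  set c := 2 * Real.exp (2 * B + 1 - t) with hc'
  set E : Cfg V × Finset (V × V) → Prop := fun q => (∃ y ∈ S, Conn q.2 x y) ∧ D q.2 ∧ 0 < q.1 x
    with hE
  have i1 : Ig (m.J 0 0) fun q => ind (E q) * Real.exp (-|pr φ q.1|) := hs.ind_mul J0 _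
  have i2 : Ig (m.J 0 0) fun q => ind (E q) * ind (|pr φ q.1| ≤ 1 / 2 ∧ pr (p - φ) q.1 < -t) :=
    (Ig.of_le J0 (hs.const_mul _) (fun _ => ind_nonneg _) fun _ => ind_le_exp _ _).ind_mul J0 _
  have key := fib_nonneg (X56.rev {x}) ((i1.const_mul c).sub i2) fun a ha => by
    have hJ : m.J 0 0 a ≠ 0 := left_ne_zero_of_mul ha
    have hEa : E a := by
      by_contra h
      exact ha (by simp only [ind_neg h, zero_mul, mul_zero, sub_zero])
    obtain ⟨⟨y, hy, hxy⟩, -, hx⟩ := hEa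
    obtain ⟨hA, h1, h2⟩ := hB a.2 (Md.J_sub hJ) y hy hxy
    have f := X56.fibre m 0 0 {x} (U := fun _ => 1) (fun _ _ _ => rfl) hJ
    simp only [one_mul] at f
    set C := cl {x} a.2 with hC
    set I := inn C a.2 with hI
    have hxC : x ∈ C := Md.subset_cl _ _ (mem_singleton_self x)
    have hF : (m.rest 0 C a.1).Fm := Mix53.rest_fm hc.1 0 C a.1
    have hN : (m.rest 0 C a.1).Nn := (Mix53.rest_ev hc.1 hc.ev C a.1).nn
    have hW : Wt ((m.rest 0 C a.1).J 0 a.1) := by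
      obtain ⟨u, -, e⟩ := rest_tr he C a.1
      rw [← Md.wt_equiv (tr u)]
      simpa only [e] using Mdl.wt_J hF hN 0 (Mix53.rest_wt0 hc hA a.1)
    have c0 : 0 ≤ X56.cst0 m 0 C I a.1 := by
      have := f ((X56.tog I).symm a)
      rw [Equiv.apply_symm_apply, ind_pos rfl, one_mul] at this
      exact (pos_of_mul_pos_left (this ▸ (J0 a).lt_of_ne' hJ) (hW.nonneg _)).le
    have k := keyStmt V m C a.1 φ p (fun β => D (β ∪ I)) B t hc hA he (fun z hz => ?_) hφ hp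
      (fun ω ω' h => hD _ _ (union_subset_union_left h)) h1 h2
    · rw [← (X56.tog I).tsum_eq]
      simp only [← mul_assoc (ind (X56.rev _ _ = _)), f, mul_assoc (X56.cst0 m 0 C I a.1)]
      rw [tsum_mul_left, hW.tsum_eq]
      refine mul_nonneg c0 (mul_nonneg hW.pos.le ?_)
      rw [Ex_congr (G := fun q => c * (ind (D (q.2 ∪ I)) * Real.exp (-|pr φ q.1|)) -
        ind (D (q.2 ∪ I)) * ind (|pr φ q.1| ≤ 1 / 2 ∧ pr (p - φ) q.1 < -t)) fun q hq => ?_,
        Ex_sub (((hW.ig_ind _).mul_bdd hW.nonneg (C := 1) fun _ => ?_).const_mul _)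
          ((hW.ig_ind _).mul_ind hW.nonneg _), Ex_const_mul]
      · exact sub_nonneg.2 k
      · rw [abs_of_pos (Real.exp_pos _)]
        exact Real.exp_le_one_iff.2 (neg_nonpos.2 (abs_nonneg _))
      · obtain ⟨r1, r2⟩ := X56.rest_ne hq
        have e1 : X56.tog I q = (q.1, q.2 ∪ I) := Prod.ext rfl (X56.symmDiff_inn r2)
        have e2 : E (q.1, q.2 ∪ I) ↔ D (q.2 ∪ I) := ⟨fun h => h.2.1, fun h => ⟨⟨y, hy, Md.conn_mono
          subset_union_right (Mx.mem_cl_one.1 ((Md.cl_inn _ _).ge (Mx.mem_cl_one.2 hxy)))⟩, h, by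
            change 0 < q.1 x
            rwa [r1 x fun h' => (mem_sdiff.1 h').2 hxC]⟩⟩
        rw [e1, ind_congr e2]
    · by_cases hz' : z ∈ C
      · have := Mx.conn_sign hc.1 hJ (Mx.mem_cl_one.1 hz')
        exact (mul_nonneg_iff_of_pos_left hx).1 (this ▸ mul_nonneg (abs_nonneg _) (abs_nonneg _))
      · rw [Md.J_off hJ z fun h => hz (mem_sdiff.2 ⟨h, hz'⟩)]; rfl
  simp only [mul_sub] at key
  rw [Summable.tsum_sub (i1.const_mul c) i2] at key
  simp only [mul_left_comm _ c, tsum_mul_left] at key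
  exact sub_nonneg.1 key

/-- two-sided geometric weight -/
noncomputable def geo : ℤ → ℝ := Int.rec (fun n => (1 / 2) ^ n) fun n => (1 / 2) ^ n

theorem geo_nonneg (k : ℤ) : 0 ≤ geo k := by cases k <;> exact pow_nonneg (by norm_num) _

theorem hasSum_geo (x : ℝ) : HasSum (fun h : ℤ => geo ⌊x + h⌋ / 4) 1 := by
  have h1 : HasSum geo (2 + 2) := hasSum_geometric_two.int_rec hasSum_geometric_two
  have h2 := ((Equiv.addLeft ⌊x⌋).hasSum_iff.2 h1).div_const 4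
  simp only [Int.floor_add_intCast]
  exact Bes66.hs_congr h2 (fun _ => rfl) (by norm_num)

theorem exp_le_geo (x : ℝ) : Real.exp (-|x|) ≤ geo ⌊x⌋ := by
  have k : ∀ n : ℕ, (n : ℝ) ≤ |x| → Real.exp (-|x|) ≤ (1 / 2) ^ n := fun n hn => by
    refine (Real.exp_le_exp.2 (neg_le_neg hn)).trans ?_
    rw [← mul_neg_one, Real.exp_nat_mul]
    refine pow_le_pow_left₀ (Real.exp_pos _).le ?_ n
    rw [Real.exp_neg, one_div]
    exact inv_anti₀ two_pos (by linarith [Real.add_one_le_exp 1])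
  have h1 := Int.floor_le x
  have h2 := Int.lt_floor_add_one x
  cases h : ⌊x⌋ with
  | ofNat n => exact k n (le_trans (by simpa [h] using h1) (le_abs_self x))
  | negSucc n =>
    refine k n (le_trans ?_ (neg_le_abs x))
    rw [h, Int.cast_negSucc] at h2
    push_cast at h2
    linarith

variable {U : Finset V}

theorem pn_A0 : (pn m U ∅).A = U := sdiff_empty

theorem pn_in (e : V × V) (he : e ∈ (pn m U ∅).ed) : e.1 ∈ (pn m U ∅).A ∧ e.2 ∈ (pn m U ∅).A :=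
  by rw [pn_A0]; exact (mem_pn_ed.1 he).2

/-- the floating level fixes the zero mode -/
theorem root (hF : m.Fm) (hC : Cn m U) (hU : U.Nonempty) {u : Cfg V → ℝ} (u0 : ∀ s, 0 ≤ u s)
    (u1 : ∀ s, HasSum (fun h : ℤ => u (s + cst U h)) 1) :
    Wt (fun q => u q.1 * (pn m U ∅).J 0 0 q) ∧
      Zs (fun q => u q.1 * (pn m U ∅).J 0 0 q) = Zs (rW m U) ∧
      ∀ P : Cfg V → Prop, (∀ s h, P (s + cst U h) ↔ P s) →
        Pr (fun q => u q.1 * (pn m U ∅).J 0 0 q) (fun q => P q.1) = Pr (rW m U) P := by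
  obtain ⟨r, hr, e⟩ := rs_spec hU
  have e2 : ((pn m U ∅).free ((pn m U ∅).A.erase r)).W 0 = rW m U := by
    rw [pn_A0, pn_root, rW, e]
  have hW := rW_wt hF hC hU
  obtain ⟨⟨h1, h2⟩, h3⟩ := X56.rootU (pn m U ∅) r u (by rw [pn_A0]; exact hr) pn_in
    (fun _ _ => rfl) u0 (by rw [pn_A0]; exact u1) (e2 ▸ hW)
  rw [e2] at h2 h3
  have j0 : ∀ q : Cfg V × Finset (V × V), 0 ≤ u q.1 * (pn m U ∅).J 0 0 q := fun q =>
    mul_nonneg (u0 _) (Mx.J0 (pn_ctr hF U ∅) q)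
  have j1 : ∀ s, HasSum (fun ω => u s * (pn m U ∅).J 0 0 (s, ω)) (u s * (pn m U ∅).W 0 s) :=
    fun s => (D52.hasSum_J _ 0 0 s).mul_left _
  obtain ⟨k1, k2⟩ := D52.ex_pair j0 j1 h1
  refine ⟨k1, ?_, fun P hP => ?_⟩
  · rw [← h2]
    simpa only [mul_one, Zs] using (D52.hasSum_pair j0 j1 (h1.ig_const 1)).tsum_eq
  · exact (k2 _ (h1.ig_ind P)).2.trans
      (h3 _ (fun s h => ind_congr (by rw [pn_A0]; exact hP s h)) (hW.ig_ind P)).2

/-- `x` is the first site of `K` joined to `S`, and it is above the level -/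
def Fst (ι : V → ℕ) (K S : Finset V) (x : V) (q : Cfg V × Finset (V × V)) : Prop :=
  (∃ y ∈ S, Conn q.2 x y) ∧ (∀ x' ∈ K, ι x' < ι x → ∀ y ∈ S, ¬ Conn q.2 x' y) ∧ 0 < q.1 x

omit [DecidableEq V] in
theorem sum_fst {ι : V → ℕ} (hι : Function.Injective ι) (K S : Finset V)
    (q : Cfg V × Finset (V × V)) : ∑ x ∈ K, ind (Fst ι K S x q) ≤ 1 := by
  by_cases h : ∃ x ∈ K, Fst ι K S x q
  · obtain ⟨x, hx, h⟩ := h
    rw [sum_eq_single_of_mem x hx fun x' hx' hne => ind_neg fun h' => ?_]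
    · exact ind_le_one _
    · obtain ⟨y, hy, c⟩ := h.1
      obtain ⟨y', hy', c'⟩ := h'.1
      rcases lt_or_gt_of_ne (mt (@hι _ _) hne) with k | k
      exacts [h.2.1 x' hx' k y' hy' c', h'.2.1 x hx k y hy c]
  · rw [sum_eq_zero fun x hx => ind_neg fun h' => h ⟨x, hx, h'⟩]
    exact zero_le_one

theorem half [Countable V] {K S : Finset V} {n : ℕ} {φ : V → ℝ} {p : ℕ → V → ℝ} {B t : ℝ}
    (hF : m.Fm) (hC : Cn m U) (hK : K ⊆ U) (hφ : Pv U φ) (hp : ∀ i < n, Pv U (p i))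
    (hB : ∀ C ⊆ U, ∀ x ∈ K, ∀ y ∈ S, x ∈ C → Conn (inn C m.ed) x y →
      M ((pn m U C).W 0) (pr φ) ≤ B ∧ ∀ i < n, M ((pn m U C).W 0) (pr (φ + p i)) ≤ B)
    {ι : V → ℕ} (hι : Function.Injective ι) {u : Cfg V → ℝ} (u0 : ∀ s, 0 ≤ u s)
    (u1 : ∀ s, HasSum (fun h : ℤ => u (s + cst U h)) 1) (u2 : ∀ s, u s ≤ ind (|pr φ s| ≤ 1 / 2)) :
    ∑' q, u q.1 * (pn m U ∅).J 0 0 q * ind (∃ x ∈ K, Fst ι K S x q) ≤ Zs (rW m U) *
      (Pr (rW m U) (fun s => ∀ i < n, -t ≤ pr (p i - φ) s) + 8 * n * Real.exp (2 * B + 1 - t)) := by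
  have hU : U.Nonempty := nonempty_of_sum_ne_zero (by rw [hφ.2.2]; exact one_ne_zero)
  have hc := pn_ctr hF U ∅
  have J0 := Mx.J0 hc
  obtain ⟨w1, z1, p1⟩ := root hF hC hU u0 u1
  obtain ⟨w2, z2, -⟩ := root hF hC hU (u := fun s => geo ⌊pr φ s⌋ / 4)
    (fun s => div_nonneg (geo_nonneg _) (by norm_num)) fun s => by
      simpa only [map_add, pr_cst, hφ.2.2, one_mul] using hasSum_geo (pr φ s)
  have l2 : ∀ q, (pn m U ∅).J 0 0 q * Real.exp (-|pr φ q.1|) ≤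
      4 * (geo ⌊pr φ q.1⌋ / 4 * (pn m U ∅).J 0 0 q) := fun q => by
    linarith [mul_le_mul_of_nonneg_left (exp_le_geo (pr φ q.1)) (J0 q)]
  have hs : Ig ((pn m U ∅).J 0 0) fun q => Real.exp (-|pr φ q.1|) :=
    Summable.of_nonneg_of_le (fun q => mul_nonneg (J0 q) (Real.exp_pos _).le) l2 (w2.summ.mul_left 4)
  have i1 : ∀ x, Ig ((pn m U ∅).J 0 0) fun q => ind (Fst ι K S x q) * Real.exp (-|pr φ q.1|) :=
    fun x => hs.ind_mul J0 _
  have i2 : ∀ i x, Ig ((pn m U ∅).J 0 0) fun q => ind (Fst ι K S x q) *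
      ind (|pr φ q.1| ≤ 1 / 2 ∧ pr (p i - φ) q.1 < -t) := fun i x =>
    (Ig.of_le J0 (hs.const_mul _) (fun _ => ind_nonneg _) fun _ => ind_le_exp _ _).ind_mul J0 _
  have s1 : ∑ x ∈ K, ∑' q, (pn m U ∅).J 0 0 q * (ind (Fst ι K S x q) * Real.exp (-|pr φ q.1|)) ≤
      4 * Zs (rW m U) := by
    rw [← Summable.tsum_finsetSum fun x _ => i1 x, ← z2, ← Zs_smul]
    refine Summable.tsum_le_tsum (fun q => le_trans ?_ (l2 q)) (summable_sum fun x _ => i1 x)
      (w2.summ.mul_left 4)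
    rw [← mul_sum, ← sum_mul]
    exact mul_le_mul_of_nonneg_left
      (mul_le_of_le_one_left (Real.exp_pos _).le (sum_fst hι K S q)) (J0 q)
  have s2 : ∀ i ∈ range n, ∑ x ∈ K, ∑' q, (pn m U ∅).J 0 0 q * (ind (Fst ι K S x q) *
      ind (|pr φ q.1| ≤ 1 / 2 ∧ pr (p i - φ) q.1 < -t)) ≤
        2 * Real.exp (2 * B + 1 - t) * (4 * Zs (rW m U)) := fun i hi => by
    refine le_trans (sum_le_sum fun x hx => step hc pn_in hφ.1 (hp i (mem_range.1 hi)).1
      (D := fun ω => ∀ x' ∈ K, ι x' < ι x → ∀ y ∈ S, ¬ Conn ω x' y)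
      (fun ω ω' h k x' hx' l y hy c => k x' hx' l y hy (Md.conn_mono h c)) (B := B)
      (fun ω hω y hy c => ?_) hs) ?_
    · have hx' : x ∈ cl {x} ω := Md.subset_cl _ _ (mem_singleton_self x)
      have := hB (cl {x} ω) (Md.cl_subset (singleton_subset_iff.2 (hK hx)) fun e he =>
        iff_of_true (mem_pn_ed.1 (hω he)).2.1 (mem_pn_ed.1 (hω he)).2.2) x hx y hy hx'
        (Md.conn_mono (Md.inn_mono Subset.rfl (hω.trans (Md.inn_subset _ _)))
          (Mx.mem_cl_one.1 ((Md.cl_inn _ _).ge (Mx.mem_cl_one.2 c))))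
      rw [pn_A0, pn_free]
      exact ⟨pn_anch hC (hK hx) hx', this.1, this.2 i (mem_range.1 hi)⟩
    · rw [← mul_sum]
      exact mul_le_mul_of_nonneg_left s1 (by positivity)
  have s3 := sum_le_card_nsmul _ _ _ s2
  rw [card_range, nsmul_eq_mul] at s3
  have s4 := w1.tsum_eq fun q => ind (∀ i < n, -t ≤ pr (p i - φ) q.1)
  rw [z1, show Ex _ _ = _ from p1 (fun s => ∀ i < n, -t ≤ pr (p i - φ) s) fun s h =>
    forall₂_congr fun i hi => by
      simp only [map_add, pr_cst, Pi.sub_apply, sum_sub_distrib, (hp i hi).2.2, hφ.2.2, sub_self,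
        zero_mul, add_zero]] at s4
  simp only [← Summable.tsum_finsetSum fun x (_ : x ∈ K) => i2 _ x] at s3
  have i3 := fun i => summable_sum fun x (_ : x ∈ K) => i2 i x
  rw [← Summable.tsum_finsetSum fun i _ => i3 i] at s3
  have i4 := summable_sum fun i (_ : i ∈ range n) => i3 i
  refine le_trans (Summable.tsum_le_tsum (fun q => ?_) (w1.ig_ind _)
    (Summable.add (w1.ig_ind fun q => ∀ i < n, -t ≤ pr (p i - φ) q.1) i4)) ?_
  · have a : ∀ i x, 0 ≤ (pn m U ∅).J 0 0 q * (ind (Fst ι K S x q) *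
        ind (|pr φ q.1| ≤ 1 / 2 ∧ pr (p i - φ) q.1 < -t)) := fun i x =>
      mul_nonneg (J0 q) (mul_nonneg (ind_nonneg _) (ind_nonneg _))
    have b := fun i => sum_nonneg fun x (_ : x ∈ K) => a i x
    by_cases h : (∃ x ∈ K, Fst ι K S x q) → ∀ i < n, -t ≤ pr (p i - φ) q.1
    · exact le_add_of_le_of_nonneg (mul_le_mul_of_nonneg_left (ind_mono h) (w1.nonneg q))
        (sum_nonneg fun i _ => b i)
    push Not at h
    obtain ⟨⟨x, hx, h⟩, i, hi, h'⟩ := h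
    refine le_add_of_nonneg_of_le (mul_nonneg (w1.nonneg q) (ind_nonneg _))
      (le_trans ?_ ((single_le_sum (fun x _ => a i x) hx).trans
        (single_le_sum (fun i _ => b i) (mem_range.2 hi))))
    rw [ind_pos h, ind_pos ⟨x, hx, h⟩, ind_and, ind_pos h', mul_one, mul_one, one_mul, mul_comm]
    exact mul_le_mul_of_nonneg_left (u2 _) (J0 q)
  · rw [Summable.tsum_add (w1.ig_ind fun q => ∀ i < n, -t ≤ pr (p i - φ) q.1) i4, s4]
    linarith

theorem cover {K S : Finset V} (hF : m.Fm) (hKS : Disjoint K S) (ι : V → ℕ)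
    {q : Cfg V × Finset (V × V)} (hq : m.J 0 0 q ≠ 0) (h : Cross S K q.2) :
    (∃ x ∈ K, Fst ι K S x q) ∨ ∃ x ∈ K, Fst ι K S x (fl V q) := by
  classical
  obtain ⟨y, hy, x, hx, c⟩ := h
  obtain ⟨x, hx, hm⟩ := exists_min_image (K.filter fun x => ∃ y ∈ S, Conn q.2 x y) ι
    ⟨x, mem_filter.2 ⟨hx, y, hy, Md.conn_symm c⟩⟩
  obtain ⟨hx, y, hy, c⟩ := mem_filter.1 hx
  have hm' : ∀ x' ∈ K, ι x' < ι x → ∀ y ∈ S, ¬ Conn q.2 x' y := fun x' hx' l y hy c =>
    absurd (hm x' (mem_filter.2 ⟨hx', y, hy, c⟩)) (not_le.2 l)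
  have h0 : q.1 x ≠ 0 := fun h0 => by
    rcases Relation.ReflTransGen.cases_head c with rfl | ⟨z, k | k, -⟩
    · exact disjoint_left.1 hKS hx hy
    · simpa [h0] using Mx.J_sign hF hq k
    · simpa [h0] using Mx.J_sign hF hq k
  rcases h0.lt_or_gt with k | k
  · exact .inr ⟨x, hx, ⟨y, hy, c⟩, hm', neg_pos.2 k⟩
  · exact .inl ⟨x, hx, ⟨y, hy, c⟩, hm', k⟩

end Cr60

theorem crossStmt : CrossStmt := by
  intro V _ _ m U K S n φ p B t hF hC hK hS hKS hφ hp hB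
  have hU : U.Nonempty := nonempty_of_sum_ne_zero (by rw [hφ.2.2]; exact one_ne_zero)
  obtain ⟨ι, hι⟩ := exists_injective_nat V
  have hr : ∀ x : ℝ, HasSum (fun h : ℤ => ind (round (x + h) = 0)) 1 := fun x => by
    have := hasSum_single (f := fun h : ℤ => ind (round (x + h) = 0)) (-round x) fun h hh =>
      ind_neg (by rw [round_add_intCast]; omega)
    rwa [ind_pos (by rw [round_add_intCast]; omega)] at this
  have hl : ∀ x : ℝ, ind (round x = 0) ≤ ind (|x| ≤ 1 / 2) := fun x => ind_mono fun h => by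
    simpa only [h, Int.cast_zero, sub_zero] using abs_sub_round x
  have u1 : ∀ s, HasSum (fun h : ℤ => ind (round (pr φ (s + cst U h)) = 0)) 1 := fun s => by
    simpa only [map_add, pr_cst, hφ.2.2, one_mul] using hr (pr φ s)
  have u2 : ∀ s, HasSum (fun h : ℤ => ind (round (pr φ (-(s + cst U h))) = 0)) 1 := fun s => by
    refine Bes66.hs_congr ((Equiv.neg ℤ).hasSum_iff.2 (u1 (-s))) (fun h => ?_) rfl
    simp only [Function.comp, Equiv.neg_apply, Md.cst_neg, neg_add]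
  have h1 := half (t := t) hF hC hK hφ hp hB hι (u := fun s => ind (round (pr φ s) = 0))
    (fun _ => ind_nonneg _) u1 fun s => hl _
  have h2 := half (t := t) hF hC hK hφ hp hB hι (u := fun s => ind (round (pr φ (-s)) = 0))
    (fun _ => ind_nonneg _) u2 fun s => (hl _).trans_eq (by rw [map_neg, abs_neg])
  have hc := pn_ctr hF U ∅
  obtain ⟨w1, z1, -⟩ := root hF hC hU (u := fun s => ind (round (pr φ s) = 0))
    (fun _ => ind_nonneg _) u1
  rw [← (fl V).tsum_eq] at h2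
  have e : ∀ q : Cfg V × Finset (V × V), -(fl V q).1 = q.1 := fun q => neg_neg _
  simp only [J_fl hc.1 hc.ev, e] at h2
  rw [w1.tsum_eq, z1] at h1 h2
  have hZ := (rW_wt hF hC hU).pos
  have h3 := w1.pr_mono fun q hq => cover hc.1 hKS ι (right_ne_zero_of_mul hq)
  have h4 := w1.pr_or_le (fun q => ∃ x ∈ K, Fst ι K S x q) fun q => ∃ x ∈ K, Fst ι K S x (fl V q)
  have h5 := le_of_mul_le_mul_left h1 hZ
  have h6 := le_of_mul_le_mul_left h2 hZ
  exact h3.trans (h4.trans ((add_le_add h5 h6).trans_eq (by ring)))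

end Crest.Agent.T145.Nc
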