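import Crest.Agent.T145.TauA_5
import Crest.Agent.T145.CorB_59
import Crest.Agent.T145.Loc_51
import Crest.Agent.T145.Geo_97

/-!
# Row 145: non-degeneracy `V' ≥ ∑ V(X, ∇_e)² / τ²`, derivative of the energy, `Lat` forms (helper5)
-/

set_option autoImplicit false

namespace Crest.Agent.T145.Tau5

open Finset Bes66

/-- derivative of the edge energy in the length -/
noncomputable def eps' (xy : Bool) (τ : ℝ) (k : ℤ) : ℝ :=
  if xy then 1 + (k : ℝ) ^ 2 / τ ^ 2 - eps true τ k / τ - eps true τ k ^ 2 else -(k : ℝ) ^ 2 / τ ^ 3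

theorem hasDerivAt_eps (xy : Bool) {τ : ℝ} (hτ : 0 < τ) (k : ℤ) :
    HasDerivAt (fun t => eps xy t k) (eps' xy τ k) τ := by
  cases xy
  · have h := ((((hasDerivAt_id' τ).fun_pow 2).const_mul 2).fun_inv (by positivity)).const_mul
      ((k : ℝ) ^ 2)
    refine (h.congr_deriv ?_).congr_of_eventuallyEq (Filter.Eventually.of_forall fun t => ?_)
    · simp only [eps', Bool.false_eq_true, if_false]
      field_simp
      simp
    · simp only [eps_false, div_eq_mul_inv]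
  · have h := ((hasDerivAt_bes τ (k - 1)).fun_add (hasDerivAt_bes τ (k + 1))).fun_div
      ((hasDerivAt_bes τ k).const_mul 2) (mul_pos two_pos (bes_pos hτ k)).ne'
    refine h.congr_deriv ?_
    have h0 := bes_pos hτ k
    have h1 := bes_rec τ k
    have h2 := bes_rec τ (k - 1)
    have h3 := bes_rec τ (k + 1)
    simp only [sub_add_cancel, add_sub_cancel_right] at h2 h3 ⊢
    push_cast at h2 h3
    have e2 : bes τ (k - 1 - 1) = bes τ k + 2 * (k - 1) * bes τ (k - 1) / τ := by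
      field_simp; linear_combination -h2
    have e3 : bes τ (k + 1 + 1) = bes τ k - 2 * (k + 1) * bes τ (k + 1) / τ := by
      field_simp; linear_combination h3
    have e1 : bes τ (k - 1) = bes τ (k + 1) + 2 * k * bes τ k / τ := by
      field_simp; linear_combination -h1
    simp only [eps', if_true, eps_true, e2, e3]
    rw [e1]
    field_simp
    ring

theorem abs_eps'_le (xy : Bool) {τ₀ τ : ℝ} (h0 : 0 < τ₀) (h : τ₀ ≤ τ) (k : ℤ) :
    |eps' xy τ k| ≤ (2 + 1 / τ₀) * (1 + |(k : ℝ)| / τ₀) ^ 2 := by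
  have hτ := h0.trans_le h
  have a1 : |(k : ℝ)| / τ ≤ |(k : ℝ)| / τ₀ := by gcongr
  have a0 : 0 ≤ |(k : ℝ)| / τ := by positivity
  have a2 : 1 / τ ≤ 1 / τ₀ := by gcongr
  have a3 : 0 < 1 / τ := by positivity
  have a4 : (k : ℝ) ^ 2 / τ ^ 2 = (|(k : ℝ)| / τ) ^ 2 := by rw [div_pow, sq_abs]
  have a5 : (1 + |(k : ℝ)| / τ) ^ 2 ≤ (1 + |(k : ℝ)| / τ₀) ^ 2 := by gcongr
  have a6 : (2 + 1 / τ) * (1 + |(k : ℝ)| / τ) ^ 2 ≤ (2 + 1 / τ₀) * (1 + |(k : ℝ)| / τ₀) ^ 2 := by
    gcongr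
  refine le_trans ?_ a6
  cases xy
  · simp only [eps', Bool.false_eq_true, if_false]
    rw [show -(k : ℝ) ^ 2 / τ ^ 3 = -((k : ℝ) ^ 2 / τ ^ 2 * (1 / τ)) by ring, abs_neg, a4,
      abs_of_nonneg (by positivity)]
    nlinarith [mul_nonneg a3.le a0, sq_nonneg (|(k : ℝ)| / τ)]
  · have b0 := eps_nonneg true hτ k
    have b1 := eps_true_le hτ k
    simp only [eps', if_true, a4]
    rw [show eps true τ k / τ = eps true τ k * (1 / τ) by ring]
    generalize |(k : ℝ)| / τ = u at *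
    generalize 1 / τ = c at *
    generalize eps true τ k = x at *
    have b2 : x ^ 2 ≤ (1 + u) ^ 2 := by gcongr
    have b3 : x * c ≤ (1 + u) ^ 2 * c := by gcongr; nlinarith
    rw [abs_le]
    constructor <;> nlinarith [mul_nonneg b0 a3.le, sq_nonneg x, mul_nonneg a3.le (sq_nonneg (1 + u))]

section grp
variable {L : Type} [AddCommGroup L] [IsAddTorsionFree L] {ρ : L → ℝ} {xy : Bool} {τ : ℝ}

/-- one edge: `V(X, ∇)² / τ² ≤ Cov(X², ε)` -/
theorem nondeg_edge (hρ : RSD ρ) (hp : PD ρ) (h0 : 0 < ρ 0) (d : L →+ ℤ) (hτ : 0 < τ)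
    (hS : ∀ q : ℤ, SE fun s => ρ s * kern xy τ (d s + q)) (X : L →+ ℝ) :
    Vr (fun s => ρ s * kern xy τ (d s)) X ((Int.castAddHom ℝ).comp d) ^ 2 / τ ^ 2 ≤
      Cv (fun s => ρ s * kern xy τ (d s)) (fun s => X s * X s) fun s => eps xy τ (d s) := by
  have hk := kerStmt _ ⟨xy, τ, hτ, rfl⟩
  set R : L × ℤ → ℝ := fun p => ρ p.1 * kern xy τ (d.coprod (AddMonoidHom.id ℤ) p) with hR
  have hRr : RSD R := Md.rsd_mul (Md.rsd_comp hρ (AddMonoidHom.fst L ℤ)) (Md.rsd_comp hk.cen.toRSD _)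
  have hRp : PD R := (hp.comp (AddMonoidHom.fst L ℤ)).mul (hk.pd.comp _)
  have hR0 : 0 < R 0 := mul_pos h0 (kern_pos xy hτ _)
  have hsl : ∀ q, SE (sl R q) := hS
  set W : L → ℝ := fun s => ρ s * kern xy τ (d s) with hW
  have e0 : sl R 0 = W := funext fun s => by simp [sl, hR, hW]
  have hc : Cen W := e0 ▸ hRr.cen_sl (hsl 0) hR0
  have hd : Tame fun s => (d s : ℝ) := Tame.hom ((Int.castAddHom ℝ).comp d)
  cases xy
  · have h := hc.k4 X ((Int.castAddHom ℝ).comp d)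
    rw [hc.Vr_eq X X, hc.Vr_eq ((Int.castAddHom ℝ).comp d)] at h
    simp only [eps_false, div_eq_mul_inv _ (2 * τ ^ 2), Cv, ← mul_assoc, Ex_mul_const]
    simp only [AddMonoidHom.comp_apply, Int.coe_castAddHom, ← pow_two] at h ⊢
    rw [← sub_mul, ← div_eq_mul_inv, div_le_div_iff₀ (by positivity) (by positivity)]
    nlinarith [sq_pos_of_pos hτ]
  · set r : ℤ → L → ℝ := fun q s => bes τ (d s + q) / bes τ (d s) with hr
    have e1 : ∀ q, sl R q = fun s => W s * r q s := fun q => funext fun s => by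
      have := bes_pos hτ (d s)
      simp only [sl, hR, hW, hr, kern, if_true, AddMonoidHom.coprod_apply, AddMonoidHom.id_apply]
      field_simp
    have hrp : ∀ q s, 0 < r q s := fun q s => div_pos (bes_pos hτ _) (bes_pos hτ _)
    have e2 : ∀ s, eps true τ (d s) = (r (-1) s + r 1 s) / 2 := fun s => by
      have := bes_pos hτ (d s)
      simp only [eps_true, hr, sub_eq_add_neg]
      field_simp
    have e3 : ∀ s, (d s : ℝ) = τ / 2 * (r (-1) s - r 1 s) := fun s => by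
      have := bes_pos hτ (d s)
      have h := bes_rec τ (d s)
      simp only [hr, sub_eq_add_neg] at h ⊢
      field_simp
      linear_combination h
    have ht := (tame_eps hd true hτ).const_mul 2
    have t1 : Tame (r 1) := ht.of_le fun s => by
      rw [abs_of_pos (hrp _ _), e2]; linarith [hrp (-1) s]
    have t2 : Tame (r (-1)) := ht.of_le fun s => by
      rw [abs_of_pos (hrp _ _), e2]; linarith [hrp 1 s]
    have tX := Tame.hom X
    have key : ∀ q, Tame (r q) → Ex W (fun s => r q s * X s) ^ 2 ≤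
        Ex W (fun s => r q s * (X s * X s)) - Ex W (fun s => X s * X s) * Ex W (r q) := by
      intro q tq
      have hcp : 0 < Ex W (r q) := hc.wt.ex_pos' (hc.ig tq) (hrp q)
      have hz : Zs (sl R q) = Zs W * Ex W (r q) := by rw [e1, hc.wt.Zs_mul]
      have hc1 : Ex W (r q) ≤ 1 := by
        have h := (hRp.mg fun q => (hsl q).summable).le q
        have h' : Zs (sl R q) ≤ Zs (sl R 0) := h
        rw [hz, e0] at h'
        exact (mul_le_iff_le_one_right hc.wt.pos).1 h'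
      have h := (corQStmt L ℤ R hRr hsl hR0 q 0 X (hz ▸ mul_pos hc.wt.pos hcp)).1
      rw [e0, tilt_zero, e1, hc.Vr_eq, Vr, Cv, hc.wt.ex_mul, hc.wt.ex_mul] at h
      set c := Ex W (r q)
      set B := Ex W fun s => r q s * X s
      have h2 : (Ex W fun s => X s * X s) * c ≤ (Ex W fun s => r q s * (X s * X s)) - B ^ 2 / c := by
        have := mul_le_mul_of_nonneg_right h hcp.le
        refine this.trans_eq ?_
        field_simp
      have h3 : B ^ 2 ≤ B ^ 2 / c := le_div_self (sq_nonneg _) hcp hc1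
      linarith
    have k1 := key 1 t1
    have k2 := key (-1) t2
    have f1 : Vr W X ((Int.castAddHom ℝ).comp d) =
        τ / 2 * (Ex W (fun s => r (-1) s * X s) - Ex W fun s => r 1 s * X s) := by
      rw [hc.Vr_eq, ← Ex_sub (hc.ig (t2.mul tX)) (hc.ig (t1.mul tX)), ← Ex_const_mul]
      refine Ex_congr fun s _ => ?_
      simp only [AddMonoidHom.comp_apply, Int.coe_castAddHom]
      rw [e3]; ring
    have f2 : Cv W (fun s => X s * X s) (fun s => eps true τ (d s)) =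
        (Ex W (fun s => r (-1) s * (X s * X s)) + Ex W fun s => r 1 s * (X s * X s)) / 2 -
          Ex W (fun s => X s * X s) * ((Ex W (r (-1)) + Ex W (r 1)) / 2) := by
      rw [Cv, ← Ex_add (hc.ig (t2.mul (tX.mul tX))) (hc.ig (t1.mul (tX.mul tX))),
        ← Ex_add (hc.ig t2) (hc.ig t1), ← Ex_div_const, ← Ex_div_const]
      congr 1
      · exact Ex_congr fun s _ => by rw [e2]; ring
      · rw [funext e2]
    rw [f1, f2, div_le_iff₀ (by positivity)]
    nlinarith [sq_nonneg (Ex W (fun s => r (-1) s * X s) + Ex W fun s => r 1 s * X s),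
      sq_pos_of_pos hτ, mul_nonneg (sq_nonneg τ) (sub_nonneg.2 k1),
      mul_nonneg (sq_nonneg τ) (sub_nonneg.2 k2),
      mul_nonneg (sq_nonneg τ)
        (sq_nonneg (Ex W (fun s => r (-1) s * X s) + Ex W fun s => r 1 s * X s))]

end grp

section mdl
variable {V : Type} [DecidableEq V] {m : Mdl V} {xy : Bool} {τ : ℝ}

theorem ctr_pd (h : m.Ctr) : PD (m.W 0) :=
  (((pd_off m.A).mul (PD.prod fun e he => (h.1 e he).pd.comp (dH e))).mul
    (PD.prod fun x hx => (h.2 x hx).2.1.comp (evZ x)) :)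

theorem nondeg_mdl_edge (hc : m.Ctr) (hA : m.Anch) (hτ : 0 < τ) (X : Cfg V →+ ℝ) {e : V × V}
    (he : e ∈ m.ed) : Vr ((m.len xy τ).W 0) X (dR e) ^ 2 / τ ^ 2 ≤
      Cv ((m.len xy τ).W 0) (fun s => X s * X s) fun s => eps xy τ (dE e s) := by
  have hn := (len_ctr hc xy hτ).keep (erase_subset e m.ed)
  have e1 : ∀ q : ℤ, (m.len xy τ).Ws 0 (Pi.single e q) =
      fun s => ((m.len xy τ).keep (m.ed.erase e)).W 0 s * kern xy τ (dH e s + q) := fun q =>
    funext fun s => by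
      simp only [Mdl.W, Mdl.Ws, Mdl.keep, Mdl.len, dH_apply]
      rw [← mul_prod_erase _ _ he, Pi.single_eq_same, prod_congr rfl fun e' he' => by
        rw [Pi.single_eq_of_ne (mem_erase.1 he').1, add_zero]]
      ring
  have e0 : (m.len xy τ).W 0 =
      fun s => ((m.len xy τ).keep (m.ed.erase e)).W 0 s * kern xy τ (dH e s) := by
    rw [Mdl.W_eq_Ws, ← Pi.single_zero e, e1]; simp only [add_zero]
  rw [e0]
  exact nondeg_edge hn.rsd (ctr_pd hn) (Md.W_pos hn.1 (fun _ _ => rfl) fun x hx => (hn.2 x hx).2.2)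
    (dH e) hτ (fun q => e1 q ▸ Md.ctr_ses (len_ctr hc xy hτ) hA 0 _) X

/-- **non-degeneracy**: `d/dτ V(X, X) ≥ ∑_e V(X, ∇_e)² / τ²` -/
theorem nondeg (hc : m.Ctr) (hA : m.Anch) (hτ : 0 < τ) (X : Cfg V →+ ℝ) :
    (∑ e ∈ m.ed, Vr ((m.len xy τ).W 0) X (dR e) ^ 2) / τ ^ 2 ≤
      Cv ((m.len xy τ).W 0) (fun s => X s * X s) (m.en xy τ 0) := by
  have hn := Md.ctr_cen (len_ctr hc xy hτ) hA
  have tX := (Tame.hom X).mul (Tame.hom X)
  have te : ∀ e, Tame fun s : Cfg V => eps xy τ (dE e s) := fun e => tame_eps (Tame.dE e) xy hτ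
  have e1 : m.en xy τ 0 = fun s => ∑ e ∈ m.ed, eps xy τ (dE e s) := funext fun s => by
    simp [Mdl.en]
  rw [e1, Cv_comm, Cv_sum_left _ (fun e _ => hn.ig (te e)) (fun e _ => hn.ig ((te e).mul tX)),
    sum_div]
  exact sum_le_sum fun e he => by rw [Cv_comm]; exact nondeg_mdl_edge hc hA hτ X he

/-- flow form: `V(X, Y_g)² ≤ τ² |g|² d/dτ V(X, X)`, `Y_g = ∑ g_e ∇_e` -/
theorem nondeg_flow (hc : m.Ctr) (hA : m.Anch) (hτ : 0 < τ) (X : Cfg V →+ ℝ) {T : Finset (V × V)}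
    (hT : T ⊆ m.ed) (g : V × V → ℝ) :
    Vr ((m.len xy τ).W 0) X (∑ e ∈ T, g e • dR e) ^ 2 ≤
      τ ^ 2 * (∑ e ∈ T, g e ^ 2) * Cv ((m.len xy τ).W 0) (fun s => X s * X s) (m.en xy τ 0) := by
  have hn := Md.ctr_cen (len_ctr hc xy hτ) hA
  have h := nondeg (xy := xy) hc hA hτ X
  rw [div_le_iff₀ (by positivity)] at h
  rw [hn.se.Vr_sum_right]
  simp only [Vr_smul_right]
  refine (sum_mul_sq_le_sq_mul_sq _ _ _).trans ?_
  have h1 : ∑ e ∈ T, Vr ((m.len xy τ).W 0) X (dR e) ^ 2 ≤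
      ∑ e ∈ m.ed, Vr ((m.len xy τ).W 0) X (dR e) ^ 2 :=
    sum_le_sum_of_subset_of_nonneg hT fun _ _ _ => sq_nonneg _
  have h2 : 0 ≤ ∑ e ∈ T, g e ^ 2 := sum_nonneg fun _ _ => sq_nonneg _
  nlinarith [mul_le_mul_of_nonneg_left (h1.trans h) h2]

end mdl

section lat
variable (Λ : Lat) (τ : ℝ)

theorem at_D (D : Finset Pt) : (Λ.at' τ).D D = (Λ.D D).len Λ.xy τ := rfl
theorem at_N (B : Finset Pt) : (Λ.at' τ).N B = (Λ.N B).len Λ.xy τ := rfl
theorem at_Nr (B : Finset Pt) (r : Pt) : (Λ.at' τ).Nr B r = (Λ.Nr B r).len Λ.xy τ := rfl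
theorem at_T (n : ℕ) : (Λ.at' τ).T n = (Λ.T n).len Λ.xy τ := rfl
theorem D_len (D : Finset Pt) : (Λ.D D).len Λ.xy Λ.τ = Λ.D D := rfl
theorem N_len (B : Finset Pt) : (Λ.N B).len Λ.xy Λ.τ = Λ.N B := rfl
theorem Nr_len (B : Finset Pt) (r : Pt) : (Λ.Nr B r).len Λ.xy Λ.τ = Λ.Nr B r := rfl
theorem T_len (n : ℕ) : (Λ.T n).len Λ.xy Λ.τ = Λ.T n := rfl

end lat

end Crest.Agent.T145.Tau5
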