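import Crest.Agent.T145.GffDef_8
import Crest.Agent.T145.CutC_7
import Crest.Agent.T145.Sq_46
import Crest.Agent.T145.TauB_5
import Crest.Agent.T145.CorB_59

/-!
# Row 145, module (b): T1a (one box) and T1d (exact tilings, dependence on `τ`) (helper53)
-/

set_option autoImplicit false

namespace Crest.Agent.T145

open Finset Sl46 Crest.ProbabilityR.HeightModel

namespace T53

section flow
variable {V : Type} [DecidableEq V]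

theorem pr_dv (ed : Finset (V × V)) (φ : V × V → ℝ) : pr (dv ed φ) = fl ed φ := by
  have h : ∀ x : V, pr (fun z => ind (x = z)) = evH x := fun x => by
    rw [evH_eq_pr]
    congr 1
    funext z
    simp [ind_eq_ite, Pi.single_apply, eq_comm]
  rw [show dv ed φ = ∑ e ∈ ed, fun x => φ e * (ind (e.2 = x) - ind (e.1 = x)) from
    funext fun x => by rw [Finset.sum_apply]; rfl, pr_sum, fl]
  refine sum_congr rfl fun e _ => ?_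
  rw [pr_mul', pr_sub', h, h, dR_eq]

/-- BARE for the variance of a flow on some of the edges -/
theorem bare_fl {m : Mdl V} (hc : m.Ctr) (ha : m.Anch) {E : Finset (V × V)} (hE : E ⊆ m.ed)
    {xy : Bool} {τ : ℝ} (hτ : 0 < τ) (hw : ∀ e ∈ E, m.w e = kern xy τ) (ψ : V × V → ℝ) :
    Vr (m.W 0) (fl E ψ) (fl E ψ) ≤ τ * ∑ e ∈ E, ψ e ^ 2 := by
  choose! x' τ' h1 h2 using hc.1
  have h := bare_Vr (φ := fun e => if e ∈ E then ψ e else 0)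
    (τ := fun e => if e ∈ E then τ else τ' e) (f := dv E ψ) hc ha (fun s _ => by
      rw [pr_dv, ← fl_apply, ← fl_subset hE fun e _ he => if_neg he]
      exact congrArg (fun g : Cfg V →+ ℝ => g s) (fl_congr fun e he => (if_pos he).symm))
    fun e he => by
      by_cases h' : e ∈ E
      · simp only [if_pos h']; exact ⟨hτ, xy, hw e h'⟩
      · simp only [if_neg h']; exact ⟨h1 e he, x' e, h2 e he⟩
  rw [pr_dv, ← sum_subset hE fun e _ he => by simp [if_neg he]] at h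
  rw [mul_sum]
  exact h.trans_eq (sum_congr rfl fun e he => by simp only [if_pos he])

/-- cutting into free blocks, variance of a flow inside the blocks -/
theorem Vr_blocks {ι : Type} {m : Mdl V} (hc : m.Ctr) (ha : m.Anch) {I : Finset ι}
    {B : ι → Finset V} {r : ι → V} (hr : ∀ i ∈ I, r i ∈ B i)
    (hB : ∀ i ∈ I, ∀ j ∈ I, i ≠ j → Disjoint (B i) (B j))
    (hN : ∀ i ∈ I, (m.nbox (B i) (r i)).Anch) {E : ι → Finset (V × V)}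
    (hE : ∀ i ∈ I, ∀ e ∈ E i, e.1 ∈ B i ∧ e.2 ∈ B i) (ψ : ι → V × V → ℝ) :
    Vr (m.W 0) (∑ i ∈ I, fl (E i) (ψ i)) (∑ i ∈ I, fl (E i) (ψ i)) ≤
      ∑ i ∈ I, Vr ((m.nbox (B i) (r i)).W 0) (fl (E i) (ψ i)) (fl (E i) (ψ i)) := by
  have h := cut_Vr_prj hc ha hr hB hN (∑ i ∈ I, fl (E i) (ψ i))
  have h2 : (∑ i ∈ I, fl (E i) (ψ i)).comp (T145.prjH I B r) = ∑ i ∈ I, fl (E i) (ψ i) :=
    AddMonoidHom.ext fun s => by
      simp only [AddMonoidHom.comp_apply, AddMonoidHom.finsetSum_apply, fl_apply]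
      refine sum_congr rfl fun i hi => sum_congr rfl fun e he => ?_
      rw [show T145.prjH I B r s = prj I B r s from rfl, dE, dE, Cut7.prj_mem hB hi (hE i hi e he).1,
        Cut7.prj_mem hB hi (hE i hi e he).2, sub_sub_sub_cancel_right]
  rw [h2, ncut_Vr hc.1 hB hN] at h
  refine h.trans_eq (sum_congr rfl fun i hi => ?_)
  have h3 : ∀ s, (m.nbox (B i) (r i)).W 0 s ≠ 0 → (∑ i ∈ I, fl (E i) (ψ i)) s = fl (E i) (ψ i) s :=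
    fun s hs => by
      rw [AddMonoidHom.finsetSum_apply, sum_eq_single_of_mem i hi fun j hj hji => ?_]
      rw [fl_apply]
      refine sum_eq_zero fun e he => ?_
      have h4 : ∀ x ∈ B j, s x = 0 := fun x hx => Mdl.W_ne_zero hs fun h =>
        disjoint_left.1 (hB j hj i hi hji) hx (mem_of_mem_erase h)
      rw [dE, h4 _ (hE j hj e he).1, h4 _ (hE j hj e he).2]
      simp
  exact Vr_congr h3 h3

end flow

/-- triangle inequality for the standard deviation -/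
theorem sqrt_Vr_add {L : Type*} [AddCommGroup L] {W : L → ℝ} (hW : Wt W) (hS : SE W)
    (f g : L →+ ℝ) : √(Vr W (f + g) (f + g)) ≤ √(Vr W f f) + √(Vr W g g) := by
  have h1 := hW.Vr_nonneg hS f
  have h2 := hW.Vr_nonneg hS g
  have h3 : Vr W f g ≤ √(Vr W f f) * √(Vr W g g) := by
    rw [← Real.sqrt_mul h1]
    exact Real.le_sqrt_of_sq_le (hW.Vr_sq_le hS f g)
  refine Real.sqrt_le_iff.2 ⟨by positivity, ?_⟩
  rw [hS.Vr_add_left, hS.Vr_add_right, hS.Vr_add_right, Vr_comm W g f, add_sq, Real.sq_sqrt h1,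
    Real.sq_sqrt h2]
  linarith

variable {Λ : Lat}

theorem ok {F : Fa} (h : F.Mem Λ) : Λ.Ok := ⟨h.1 ▸ F.adm, F.pos.trans_le h.2.2.1⟩

theorem pr_Au (Λ : Lat) (D : Finset Pt) (u : Pt → ℝ) : pr (Λ.Au D u) = Λ.τ⁻¹ • Sl46.X Λ D u := by
  rw [Lat.Au, pr_dv, Sl46.X, ← fl_smul]
  exact fl_congr fun e _ => by rw [gd, div_eq_inv_mul]

theorem co_zero : co 0 = lin (1, 0) := funext fun x => by simp [co, lin]

theorem co_one : co 1 = lin (0, 1) := funext fun x => by simp [co, lin]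

theorem e0_pos (h : Λ.Ok) : 0 < Λ.e0 := div_pos (one_pos.trans_le h.one_le_a) h.pos

/-- the covariance of the two tilts of the free square -/
theorem Vr_co (h : Λ.Ok) {l : ℕ} (hl : 1 ≤ l) (i j : Fin 2) :
    Vr (Λ.WN l) (Λ.X l (co i)) (Λ.X l (co j)) =
      if i = j then Λ.tN l * (Λ.e0 * (l : ℝ) ^ 2) else 0 := by
  have h0 : (0 : Pt) ∈ sq 0 l := self_mem_sq 0 hl
  have he := e0_pos h
  have hl' : (0 : ℝ) < l := by exact_mod_cast hl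
  rw [Lat.tN, div_mul_cancel₀ _ (by positivity)]
  simp only [Lat.X, Lat.WN, pr_Au, Vr_smul_left, Vr_smul_right]
  fin_cases i <;> fin_cases j <;>
    simp [co_zero, co_one, Vr_lin h h0]

theorem mem_rc {a x : Pt} {n₁ n₂ : ℕ} :
    x ∈ rc a n₁ n₂ ↔ (a.1 ≤ x.1 ∧ x.1 < a.1 + n₁) ∧ a.2 ≤ x.2 ∧ x.2 < a.2 + n₂ := by
  simp only [rc, mem_product, mem_Ico]

theorem card_rc (a : Pt) (n₁ n₂ : ℕ) : (rc a n₁ n₂).card = n₁ * n₂ := by simp [rc]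

theorem anch_rc (h : Λ.Ok) (a : Pt) (n₁ n₂ : ℕ) : (Λ.Nr (rc a n₁ n₂) a).Anch :=
  h.anch_Nr_rect fun x hx z => by rw [mem_rc] at *; omega

theorem cen_rc (h : Λ.Ok) (a : Pt) (n₁ n₂ : ℕ) : Cen ((Λ.Nr (rc a n₁ n₂) a).W 0) :=
  (h.ctr_Nr _ _).cen (anch_rc h a n₁ n₂)

theorem cen_WN (h : Λ.Ok) (l : ℕ) : Cen (Λ.WN l) := cen_rc h 0 l l

theorem bare_rc (h : Λ.Ok) (a : Pt) (n₁ n₂ : ℕ) {E : Finset (Pt × Pt)}
    (hE : E ⊆ Λ.edI (rc a n₁ n₂)) (ψ : Pt × Pt → ℝ) :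
    Vr ((Λ.Nr (rc a n₁ n₂) a).W 0) (fl E ψ) (fl E ψ) ≤ Λ.τ * ∑ e ∈ E, ψ e ^ 2 :=
  bare_fl (h.ctr_Nr _ _) (anch_rc h a n₁ n₂) hE h.pos (fun _ _ => rfl) ψ

theorem bare_F2 (h : Λ.Ok) {l : ℕ} {f : Pt → ℝ} {n : ℝ} (hf : F2 (Λ.edI (sq 0 l)) f n) :
    Vr (Λ.WN l) (pr f) (pr f) ≤ Λ.τ * n := by
  obtain ⟨φ, rfl, h2⟩ := hf
  rw [pr_dv]
  exact (bare_rc h 0 l l subset_rfl φ).trans (mul_le_mul_of_nonneg_left h2 h.pos.le)

theorem tN_nonneg (h : Λ.Ok) (l : ℕ) : 0 ≤ Λ.tN l :=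
  div_nonneg ((cen_WN h l).wt.Vr_nonneg (cen_WN h l).se _) (by have := e0_pos h; positivity)

theorem sum_gd_le (h : Λ.Ok) (B : Finset Pt) :
    ∑ e ∈ Λ.edI B, gd (co 0) e ^ 2 ≤ Λ.a * B.card := by
  simpa [co_zero] using sum_gd_lin h B (1, 0)

theorem VR_eq (Λ : Lat) (n₁ n₂ : ℕ) : Λ.VR n₁ n₂ = Λ.τ⁻¹ ^ 2 *
    Vr ((Λ.Nr (rc 0 n₁ n₂) 0).W 0) (Sl46.X Λ (rc 0 n₁ n₂) (co 0)) (Sl46.X Λ (rc 0 n₁ n₂) (co 0)) := by
  rw [Lat.VR, pr_Au, Vr_smul_left, Vr_smul_right, ← mul_assoc, ← pow_two]; rfl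

theorem VR_le (h : Λ.Ok) (n₁ n₂ : ℕ) : Λ.VR n₁ n₂ ≤ Λ.e0 * (n₁ * n₂) := by
  have h1 := (bare_rc h 0 n₁ n₂ subset_rfl (gd (co 0))).trans
    (mul_le_mul_of_nonneg_left (sum_gd_le h _) h.pos.le)
  have h2 := h.pos
  rw [card_rc, Nat.cast_mul] at h1
  rw [VR_eq]
  refine (mul_le_mul_of_nonneg_left h1 (by positivity)).trans_eq ?_
  rw [Lat.e0]
  field_simp

theorem tN_eq (Λ : Lat) (l : ℕ) : Λ.tN l = Λ.VR l l / (Λ.e0 * (l : ℝ) ^ 2) := rfl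

theorem tN_le_one (h : Λ.Ok) (l : ℕ) : Λ.tN l ≤ 1 := by
  have := e0_pos h
  rw [tN_eq]
  exact div_le_one_of_le₀ (pow_two (l : ℝ) ▸ VR_le h l l) (by positivity)

theorem VR_sq (h : Λ.Ok) {l : ℕ} (hl : 1 ≤ l) : Λ.VR l l = Λ.tN l * (Λ.e0 * (l : ℝ) ^ 2) := by
  have := e0_pos h
  have hl' : (0 : ℝ) < l := by exact_mod_cast hl
  rw [tN_eq, div_mul_cancel₀ _ (by positivity)]

/-! ## exact tilings by rectangles -/

theorem card_shift (a y : ℤ) (n r : ℕ) (hy : |y| ≤ r) :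
    ((Ico a (a + n)).filter fun x => x + y ∈ Ico a (a + n)).card ≤ n ∧
      n ≤ ((Ico a (a + n)).filter fun x => x + y ∈ Ico a (a + n)).card + r := by
  have : ((Ico a (a + n)).filter fun x => x + y ∈ Ico a (a + n)) =
      Ico (max a (a - y)) (min (a + n) (a + n - y)) := by
    ext x; simp only [mem_filter, mem_Ico]; omega
  rw [this, Int.card_Ico, abs_le] at *
  omega

theorem card_rc_shift (a y : Pt) (n₁ n₂ r : ℕ) (h1 : |y.1| ≤ r) (h2 : |y.2| ≤ r) :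
    (n₁ : ℝ) * n₂ - r * (n₁ + n₂) ≤ ((rc a n₁ n₂).filter fun x => x + y ∈ rc a n₁ n₂).card := by
  have : ((rc a n₁ n₂).filter fun x => x + y ∈ rc a n₁ n₂) =
      ((Ico a.1 (a.1 + n₁)).filter fun x => x + y.1 ∈ Ico a.1 (a.1 + n₁)) ×ˢ
        ((Ico a.2 (a.2 + n₂)).filter fun x => x + y.2 ∈ Ico a.2 (a.2 + n₂)) := by
    ext x; simp only [mem_filter, mem_rc, mem_product, mem_Ico, Prod.fst_add, Prod.snd_add]; tauto
  rw [this, card_product]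
  obtain ⟨a1, a2⟩ := card_shift a.1 y.1 n₁ r h1
  obtain ⟨-, b2⟩ := card_shift a.2 y.2 n₂ r h2
  generalize ((Ico a.1 (a.1 + n₁)).filter fun x => x + y.1 ∈ Ico a.1 (a.1 + n₁)).card = p at *
  generalize ((Ico a.2 (a.2 + n₂)).filter fun x => x + y.2 ∈ Ico a.2 (a.2 + n₂)).card = q at *
  have : n₁ * n₂ ≤ p * q + r * (n₁ + n₂) := by
    have c1 := Nat.mul_le_mul_right n₂ a2
    have c2 := Nat.mul_le_mul_left p b2
    have c3 := Nat.mul_le_mul_right r a1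
    nlinarith
  have h3 : ((n₁ * n₂ : ℕ) : ℝ) ≤ (p * q + r * (n₁ + n₂) : ℕ) := by exact_mod_cast this
  push_cast at h3 ⊢
  linarith

theorem le_sum_gd (Λ : Lat) (a : Pt) (n₁ n₂ : ℕ) :
    Λ.a * ((n₁ : ℝ) * n₂ - Λ.rg * (n₁ + n₂)) ≤ ∑ e ∈ Λ.edI (rc a n₁ n₂), gd (co 0) e ^ 2 := by
  rw [Lat.sum_edI, Lat.a, sum_mul]
  refine sum_le_sum fun y hy => ?_
  have h := Lat.le_rg (Lat.mem_Jp.1 hy).1
  rw [sum_congr (g := fun _ => (y.1 : ℝ) ^ 2) rfl fun x _ => by simp [gd, co], sum_const,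
    nsmul_eq_mul, mul_comm]
  exact mul_le_mul_of_nonneg_right (card_rc_shift a y n₁ n₂ _ h.1 h.2) (sq_nonneg _)

/-- corner of the tile `i` -/
def tl (l₁ l₂ : ℕ) (i : Pt) : Pt := (l₁ * i.1, l₂ * i.2)

theorem tl_disjoint (l₁ l₂ : ℕ) {i j : Pt} (h : i ≠ j) :
    Disjoint (rc (tl l₁ l₂ i) l₁ l₂) (rc (tl l₁ l₂ j) l₁ l₂) := by
  have key : ∀ (l : ℕ) (u v x : ℤ), l * u ≤ x → x < l * v + l → u ≤ v := fun l u v x h1 h2 => by
    by_contra h3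
    have := mul_le_mul_of_nonneg_left (show v + 1 ≤ u by omega) (Int.natCast_nonneg l)
    linarith
  refine disjoint_left.2 fun x hi hj => h ?_
  rw [mem_rc] at hi hj
  exact Prod.ext (le_antisymm (key _ _ _ _ hi.1.1 hj.1.2) (key _ _ _ _ hj.1.1 hi.1.2))
    (le_antisymm (key _ _ _ _ hi.2.1 hj.2.2) (key _ _ _ _ hj.2.1 hi.2.2))

theorem tl_subset (l₁ l₂ : ℕ) {n₁ n₂ : ℕ} {i : Pt} (hi : i ∈ rc 0 n₁ n₂) :
    rc (tl l₁ l₂ i) l₁ l₂ ⊆ rc 0 (n₁ * l₁) (n₂ * l₂) := fun x hx => by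
  have key : ∀ (l n : ℕ) (u x : ℤ), 0 ≤ u → u < 0 + n → l * u ≤ x → x < l * u + l →
      0 ≤ x ∧ x < 0 + (n * l : ℕ) := fun l n u x h1 h2 h3 h4 => by
    have h5 := mul_le_mul_of_nonneg_left (show u + 1 ≤ n by omega) (Int.natCast_nonneg l)
    have h6 := mul_nonneg (Int.natCast_nonneg l) h1
    push_cast
    constructor <;> linarith
  rw [mem_rc] at *
  exact ⟨key _ _ _ _ hi.1.1 hi.1.2 hx.1.1 hx.1.2, key _ _ _ _ hi.2.1 hi.2.2 hx.2.1 hx.2.2⟩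

theorem Vr_rc (h : Λ.Ok) (a : Pt) {n₁ n₂ : ℕ} (h1 : 1 ≤ n₁) (h2 : 1 ≤ n₂) :
    Vr ((Λ.Nr (rc a n₁ n₂) a).W 0) (Sl46.X Λ (rc a n₁ n₂) (co 0)) (Sl46.X Λ (rc a n₁ n₂) (co 0)) =
      Λ.τ ^ 2 * Λ.VR n₁ n₂ := by
  have hτ := h.pos
  rw [Vr_X h (Λ.sym_add a) (B := rc 0 n₁ n₂) (r := 0)
      (by ext x; rw [mem_map_equiv, mem_rc, mem_rc]; simp; omega)
      (by rw [mem_rc]; omega) (by rw [mem_rc]; omega),
    X_congr (u := fun x => co 0 (Equiv.addRight a x)) (u' := co 0) (c := 1) _ fun e => by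
      simp [gd, co], one_smul, VR_eq]
  field_simp

/-- subadditivity of the tilt variance for exact tilings -/
theorem sqrt_VR_le (h : Λ.Ok) {l₁ l₂ n₁ n₂ : ℕ} (hl₁ : 1 ≤ l₁) (hl₂ : 1 ≤ l₂) (hn₁ : 1 ≤ n₁)
    (hn₂ : 1 ≤ n₂) : √(Λ.VR (n₁ * l₁) (n₂ * l₂)) ≤
      √(n₁ * n₂ * Λ.VR l₁ l₂) + √(Λ.e0 * Λ.rg) * √(n₁ * n₂ * (l₁ + l₂)) := by
  have hτ := h.pos
  set R := rc 0 (n₁ * l₁) (n₂ * l₂)
  set I := rc 0 n₁ n₂
  set B : Pt → Finset Pt := fun i => rc (tl l₁ l₂ i) l₁ l₂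
  have hB : ∀ i ∈ I, ∀ j ∈ I, i ≠ j → Disjoint (B i) (B j) := fun i _ j _ hij =>
    tl_disjoint l₁ l₂ hij
  have hD : (I : Set Pt).PairwiseDisjoint fun i => Λ.edI (B i) := fun i hi j hj hij =>
    Lat.disjoint_edI (hB i hi j hj hij)
  have hU : (I.biUnion fun i => Λ.edI (B i)) ⊆ Λ.edI R :=
    biUnion_subset.2 fun i hi => Lat.edI_mono (tl_subset l₁ l₂ hi)
  have hc := cen_rc h 0 (n₁ * l₁) (n₂ * l₂)
  have hI : (I.card : ℝ) = n₁ * n₂ := by rw [card_rc, Nat.cast_mul]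
  have e1 : Sl46.X Λ R (co 0) = ∑ i ∈ I, fl (Λ.edI (B i)) (gd (co 0)) +
      fl (Λ.edI R \ I.biUnion fun i => Λ.edI (B i)) (gd (co 0)) := by
    rw [Sl46.X, ← fl_sdiff hU, add_comm, fl, sum_biUnion hD]; rfl
  have hN : ∀ i ∈ I, (Λ.Nr R 0).nbox (B i) (tl l₁ l₂ i) = Λ.Nr (B i) (tl l₁ l₂ i) := fun i hi =>
    Λ.nbox_Nr (tl_subset l₁ l₂ hi) _ _
  have h1 := Vr_blocks (h.ctr_Nr R 0) (anch_rc h 0 _ _) (r := tl l₁ l₂)
    (fun i _ => by rw [mem_rc]; omega) hB (fun i hi => hN i hi ▸ anch_rc h _ _ _)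
    (E := fun i => Λ.edI (B i)) (fun i _ e he => (Lat.mem_edI.1 he).2) fun _ => gd (co 0)
  rw [sum_congr (g := fun _ => Λ.τ ^ 2 * Λ.VR l₁ l₂) rfl fun i hi => by
    rw [hN i hi]; exact Vr_rc h _ hl₁ hl₂, sum_const, nsmul_eq_mul, hI] at h1
  have h2 := bare_rc h 0 (n₁ * l₁) (n₂ * l₂) (sdiff_subset (t := I.biUnion fun i => Λ.edI (B i)))
    (gd (co 0))
  have h3 := sum_sdiff (f := fun e => gd (co 0) e ^ 2) hU
  have h4 := sum_gd_le h R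
  have h5 := card_nsmul_le_sum I _ _ fun i _ => le_sum_gd Λ (tl l₁ l₂ i) l₁ l₂
  rw [sum_biUnion hD] at h3
  rw [card_rc] at h4
  rw [nsmul_eq_mul, hI] at h5
  push_cast at h4
  have h6 : ∑ e ∈ Λ.edI R \ I.biUnion fun i => Λ.edI (B i), gd (co 0) e ^ 2 ≤
      Λ.a * Λ.rg * (n₁ * n₂ * (l₁ + l₂)) := by nlinarith
  have h7 := sqrt_Vr_add hc.wt hc.se (∑ i ∈ I, fl (Λ.edI (B i)) (gd (co 0)))
    (fl (Λ.edI R \ I.biUnion fun i => Λ.edI (B i)) (gd (co 0)))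
  rw [← e1, Vr_rc h 0 (Nat.mul_pos hn₁ hl₁) (Nat.mul_pos hn₂ hl₂)] at h7
  have h8 := h7.trans (add_le_add (Real.sqrt_le_sqrt h1)
    (Real.sqrt_le_sqrt (h2.trans (mul_le_mul_of_nonneg_left h6 hτ.le))))
  rw [mul_left_comm, show Λ.τ * (Λ.a * Λ.rg * (n₁ * n₂ * (l₁ + l₂))) =
      Λ.τ ^ 2 * (Λ.e0 * Λ.rg * (n₁ * n₂ * (l₁ + l₂))) by rw [Lat.e0]; field_simp,
    Real.sqrt_mul (sq_nonneg _), Real.sqrt_mul (sq_nonneg _), Real.sqrt_mul (sq_nonneg _),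
    Real.sqrt_sq hτ.le, ← mul_add, Real.sqrt_mul' (Λ.e0 * Λ.rg) (by positivity)] at h8
  exact le_of_mul_le_mul_left h8 hτ

theorem sqrt_tN_le (h : Λ.Ok) {l n : ℕ} (hl : 1 ≤ l) (hn : 1 ≤ n) :
    √(Λ.tN (n * l)) ≤ √(Λ.tN l) + √(2 * Λ.rg / l) := by
  have he := e0_pos h
  have hl' : (0 : ℝ) < l := by exact_mod_cast hl
  have hn' : (0 : ℝ) < n := by exact_mod_cast hn
  have h1 := sqrt_VR_le h hl hl hn hn
  rw [VR_sq h hl, VR_sq h (Nat.mul_pos hn hl), ← Real.sqrt_mul (by positivity),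
    show (n : ℝ) * n * (Λ.tN l * (Λ.e0 * (l : ℝ) ^ 2)) = Λ.tN l * (Λ.e0 * ((n * l : ℕ) : ℝ) ^ 2) by
      push_cast; ring,
    show Λ.e0 * Λ.rg * ((n : ℝ) * n * (l + l)) = 2 * Λ.rg / l * (Λ.e0 * ((n * l : ℕ) : ℝ) ^ 2) by
      push_cast; field_simp; ring,
    Real.sqrt_mul' (Λ.tN l) (by positivity), Real.sqrt_mul' (Λ.tN (n * l)) (by positivity),
    Real.sqrt_mul' (2 * Λ.rg / l) (by positivity), ← add_mul] at h1
  exact le_of_mul_le_mul_right h1 (Real.sqrt_pos.2 (by push_cast; positivity))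

/-- `θ_{n l} ≤ θ_l + 3 η` as soon as `2 rg ≤ η² l`, `η ≤ 1` -/
theorem tN_mul_le (h : Λ.Ok) {l n : ℕ} (hl : 1 ≤ l) (hn : 1 ≤ n) {η : ℝ} (h0 : 0 ≤ η) (h1 : η ≤ 1)
    (hη : 2 * (Λ.rg : ℝ) ≤ η ^ 2 * l) : Λ.tN (n * l) ≤ Λ.tN l + 3 * η := by
  have hl' : (0 : ℝ) < l := by exact_mod_cast hl
  have h2 := (sqrt_tN_le h hl hn).trans
    (add_le_add_right (Real.sqrt_le_iff.2 ⟨h0, (div_le_iff₀ hl').2 hη⟩) _)
  have h3 := Real.sq_sqrt (tN_nonneg h l)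
  have h4 := Real.sqrt_le_one.2 (tN_le_one h l)
  have h5 := (Real.sqrt_le_left (by positivity)).1 h2
  nlinarith

/-! ## dependence on `τ` -/

/-- variance of the `τ`-free tilt -/
noncomputable def V0 (Λ : Lat) (l : ℕ) (τ : ℝ) : ℝ :=
  Vr (((Λ.at' τ).Nr (rc 0 l l) 0).W 0) (Sl46.X Λ (rc 0 l l) (co 0)) (Sl46.X Λ (rc 0 l l) (co 0))

theorem tN_at (Λ : Lat) (l : ℕ) {τ : ℝ} (hτ : 0 < τ) :
    (Λ.at' τ).tN l = V0 Λ l τ / (τ * (Λ.a * (l : ℝ) ^ 2)) := by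
  rw [tN_eq, VR_eq, Lat.e0]
  show τ⁻¹ ^ 2 * V0 Λ l τ / (Λ.a / τ * (l : ℝ) ^ 2) = _
  rw [div_eq_mul_inv, div_eq_mul_inv (V0 Λ l τ), mul_inv, mul_inv, mul_inv, inv_div]
  field_simp

theorem gN_at (Λ : Lat) (l : ℕ) {τ : ℝ} (hτ : 0 < τ) :
    (Λ.at' τ).gN l = V0 Λ l τ / (Λ.a ^ 2 * (l : ℝ) ^ 2) := by
  rw [Lat.gN, tN_at Λ l hτ, Lat.e0]
  show _ / (Λ.a / τ) = _
  simp only [div_eq_mul_inv, mul_inv, inv_inv, ← inv_pow]
  field_simp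

theorem V0_cont (h : Λ.Ok) (l : ℕ) : ContinuousOn (V0 Λ l) (Set.Ioi 0) := fun _ hτ =>
  (Tau5.ctr_hasDerivAt_Vr (xy := Λ.xy) (h.ctr_Nr _ _) (anch_rc h 0 l l) hτ _
    _).continuousAt.continuousWithinAt

theorem V0_mono (h : Λ.Ok) (l : ℕ) : MonotoneOn (V0 Λ l) (Set.Ioi 0) := fun _ hτ _ hτ' hle =>
  ((h.at' hτ').loc_at_Nr hτ hle (anch_rc (h.at' hτ') 0 l l)).Vr_le (cen_rc (h.at' hτ) 0 l l)
    (cen_rc (h.at' hτ') 0 l l) _

end T53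

open T53

theorem t1dStmt : T1dStmt := by
  refine ⟨fun F => ⟨√((∑ y ∈ F.J.filter posD, (y.1 : ℝ) ^ 2) / F.τ₁ * interactionRange F.J),
    fun Λ hΛ l₁ l₂ n₁ n₂ h1 h2 h3 h4 => (sqrt_VR_le (ok hΛ) h1 h2 h3 h4).trans ?_⟩,
    fun F ε hε => ?_, fun Λ l h => ⟨?_, ?_, fun τ hτ τ' hτ' hle => ?_⟩⟩
  · rw [Lat.e0, Lat.a, Lat.Jp, Lat.rg, hΛ.1]
    have := F.pos
    gcongr
    exact hΛ.2.2.1
  · have h0 : 0 < min (ε / 3) 1 := by positivity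
    obtain ⟨l₀, hl₀⟩ := exists_nat_ge (2 * (interactionRange F.J : ℝ) / min (ε / 3) 1 ^ 2)
    refine ⟨l₀ + 1, fun Λ hΛ l n hl hn =>
      (tN_mul_le (ok hΛ) (by omega) hn h0.le (min_le_right _ _) ?_).trans ?_⟩
    · rw [Lat.rg, hΛ.1, ← div_le_iff₀' (by positivity)]
      exact hl₀.trans (by exact_mod_cast (by omega : l₀ ≤ l))
    · linarith [min_le_left (ε / 3) 1]
  · exact ((V0_cont h l).div_const _).congr fun τ hτ => gN_at Λ l hτ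
  · refine ContinuousOn.congr (f := fun τ => V0 Λ l τ / τ / (Λ.a * (l : ℝ) ^ 2))
      (((V0_cont h l).div continuousOn_id fun τ hτ => ne_of_gt hτ).div_const _) fun τ hτ => ?_
    simp only [tN_at Λ l hτ, div_div]
  · simp only [gN_at Λ l hτ, gN_at Λ l hτ']
    exact div_le_div_of_nonneg_right (V0_mono h l hτ hτ' hle) (by positivity)

theorem t1aStmt (hR : R2Stmt) : T1aStmt := fun F => by
  obtain ⟨C, hC⟩ := hR F
  refine ⟨√((∑ y ∈ F.J.filter posD, (y.1 : ℝ) ^ 2) * C), fun Λ hΛ l hl => ?_⟩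
  have h := ok hΛ
  have hc := cen_WN h l
  have he := e0_pos h
  refine ⟨tN_nonneg h l, tN_le_one h l, by rw [Vr_co h hl]; simp, by rw [Vr_co h hl, Vr_co h hl]; simp,
    fun y hy i => ?_⟩
  have h1 := bare_F2 h ((hC Λ hΛ l hl).2.2 y hy)
  have h2 := hc.wt.Vr_sq_le hc.se (Λ.X l (co i)) (pr (dv (Λ.edI (sq 0 l))
    (fun e => ind (e.2 - e.1 = y)) - ∑ i, (co i y / Λ.e0) • Λ.Au (sq 0 l) (co i)))
  have h3 : Vr (Λ.WN l) (Λ.X l (co i)) (Λ.X l (co i)) ≤ Λ.e0 * (l : ℝ) ^ 2 := by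
    rw [Vr_co h hl, if_pos rfl]
    exact mul_le_of_le_one_left (by positivity) (tN_le_one h l)
  have h4 := h2.trans (mul_le_mul h3 h1 (hc.wt.Vr_nonneg hc.se _) (by positivity))
  have h5 : Λ.e0 * (l : ℝ) ^ 2 * (Λ.τ * (C * l)) =
      (∑ y ∈ F.J.filter posD, (y.1 : ℝ) ^ 2) * C * ((l : ℝ) ^ 2 * l) := by
    have := h.pos
    rw [Lat.e0, Lat.a, Lat.Jp, hΛ.1]
    field_simp
  have h6 := Real.abs_le_sqrt (h4.trans_eq h5)
  rw [Real.sqrt_mul' _ (by positivity), Real.sqrt_mul (sq_nonneg _), Real.sqrt_sq (by positivity),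
    pr_sub, hc.se.Vr_sub_right, Fin.sum_univ_two, pr_add, pr_smul, pr_smul, hc.se.Vr_add_right,
    Vr_smul_right, Vr_smul_right] at h6
  have h7 := Vr_co h hl i 0
  have h8 := Vr_co h hl i 1
  simp only [Lat.X] at h7 h8 h6 ⊢
  rw [h7, h8] at h6
  convert h6 using 3
  fin_cases i <;> simp <;> field_simp

end Crest.Agent.T145
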