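import Crest.Agent.T145.NcT4Def_78
import Crest.Agent.T145.NcGeo_51
import Crest.Agent.T145.T1a_53
import Crest.Agent.T145.Soft_23

/-!
# Row 145: T4 for the cross ratio, windows near every scale, good scales (helper10)
-/

set_option autoImplicit false

namespace Crest.Agent.T145.Nc

open Finset Geo

namespace Gd10

theorem card_an (z : Pt) (r l : ℕ) : (an z r (r + l)).card = 4 * l * (2 * r + l + 1) := by
  have h := card_sdiff_add_card_eq_card (bl_mono z (Nat.le_add_right r l))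
  rw [card_bl, card_bl] at h
  have e : (2 * (r + l) + 1) ^ 2 = 4 * l * (2 * r + l + 1) + (2 * r + 1) ^ 2 := by ring
  rw [e] at h
  exact Nat.add_right_cancel h

/-- an annulus is a regular domain -/
theorem reg_an (z : Pt) {ρ R l L : ℕ} (h1 : 2 * ρ ≤ L) (h2 : 2 * R ≤ L) (h3 : l ≤ L) (h4 : 1 ≤ L) :
    Reg (an z ρ R) 24 l L := by
  constructor
  · have h : (an z ρ R).card ≤ 24 * L ^ 2 := by
      refine (card_le_card (an_subset_bl z ρ R)).trans ?_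
      rw [card_bl]
      have : 2 * R + 1 ≤ 2 * L := by omega
      calc (2 * R + 1) ^ 2 ≤ (2 * L) ^ 2 := Nat.pow_le_pow_left this 2
        _ ≤ 24 * L ^ 2 := by nlinarith [Nat.zero_le (L ^ 2)]
    exact_mod_cast h
  · have hs : ((an z ρ R).filter fun x => ¬ bl x l ⊆ an z ρ R) ⊆
        an z (R - l) (R - l + l) ∪ an z ρ (ρ + l) := by
      intro x hx
      obtain ⟨hx, h⟩ := mem_filter.1 hx
      obtain ⟨y, hy, hy'⟩ := not_subset.1 h
      simp only [mem_union, mem_an, mem_bl] at *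
      omega
    have h : ((an z ρ R).filter fun x => ¬ bl x l ⊆ an z ρ R).card ≤ 24 * l * L := by
      refine (card_le_card hs).trans ((card_union_le _ _).trans ?_)
      rw [card_an, card_an]
      have a1 : 2 * (R - l) + l + 1 ≤ 3 * L := by omega
      have a2 : 2 * ρ + l + 1 ≤ 3 * L := by omega
      calc 4 * l * (2 * (R - l) + l + 1) + 4 * l * (2 * ρ + l + 1)
          ≤ 4 * l * (3 * L) + 4 * l * (3 * L) :=
            Nat.add_le_add (Nat.mul_le_mul_left _ a1) (Nat.mul_le_mul_left _ a2)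
        _ = 24 * l * L := by ring
    exact_mod_cast h

/-- a bounded sequence cannot drop by `δ` at every step -/
theorem pigeon {t : ℕ → ℝ} {δ : ℝ} {N : ℕ} (h0 : ∀ i, 0 ≤ t i) (h1 : ∀ i, t i ≤ 1)
    (hN : 1 < N * δ) : ∃ i < N, t i - t (i + 1) ≤ δ := by
  by_contra hc
  push Not at hc
  have key : ∀ i ≤ N, i * δ ≤ t 0 - t i := by
    intro i hi
    induction i with
    | zero => simp
    | succ i ih =>
      have := ih (by omega)
      have := hc i (by omega)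
      push_cast
      linarith
  have := key N le_rfl
  have := h0 N
  have := h1 0
  linarith

theorem gd_mono {Λ : Lat} {g : ℝ} {W r₀ L L' : ℕ} (h : Gd Λ g W r₀ L) (hL : L' ≤ L) :
    Gd Λ g W r₀ L' :=
  ⟨h.1, h.2.1, fun r h1 h2 => h.2.2 r h1 (h2.trans hL)⟩

theorem exists_nat_one_le {δ : ℝ} (hδ : 0 < δ) : ∃ n : ℕ, 1 ≤ n ∧ ∀ r : ℕ, n ≤ r → 1 ≤ δ * r := by
  obtain ⟨n, hn⟩ := exists_nat_ge (1 / δ)
  refine ⟨n + 1, by omega, fun r hr => ?_⟩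
  have h1 : (n : ℝ) ≤ r := by exact_mod_cast (by omega : n ≤ r)
  have h2 := (div_le_iff₀ hδ).1 (hn.trans h1)
  linarith

end Gd10

open Gd10

/-- T4 for the cross ratio from its crossing form -/
theorem t4Stmt (hc : T4cStmt) (hN : CrNdStmt) (hM : MonoCrStmt) : T4Stmt := by
  intro F θ₀ g h0 hg
  obtain ⟨K', hK⟩ := hc F
  have hp : 0 < g / (1 + g) := by positivity
  obtain ⟨W, δ, hW, hδ, H⟩ := hK θ₀ 24 (g / (1 + g)) h0 (by norm_num) hp
  refine ⟨W, min δ 1, hW, lt_min hδ one_pos, fun Λ hΛ l M hw ρ hρ hWρ => ?_⟩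
  have ho := hΛ.ok
  have hrg := ho.one_le_rg
  have h4 : 4 * ρ ≤ M := (Nat.mul_le_mul_right ρ hW).trans hWρ
  have hl : l ≤ 128 * M := hw.sep.le (min_le_right _ _)
  obtain ⟨φ, hφ, H⟩ := H Λ hΛ l M (hw.mono_d (min_le_left _ _))
  have hcn : Cn (Λ.N (an 0 ρ (32 * M))) (an 0 ρ (32 * M)) :=
    (inL_N subset_rfl).cn (cnL_an ho 0 (by omega))
  have hP := H ρ (an 0 ρ (32 * M)) hWρ subset_rfl (an_subset_bl _ _ _) hcn
    (reg_an 0 (by omega) (by omega) hl (by omega))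
  have hF : (Λ.N (an 0 ρ (32 * M))).Fm := (ho.ctr_N _).1
  have hS : an 0 (4 * M) (32 * M) ⊆ an 0 ρ (32 * M) := an_mono 0 (by omega) le_rfl
  have hS0 : an 0 (4 * M) (16 * M) ⊆ an 0 (4 * M) (32 * M) := an_mono 0 le_rfl (by omega)
  have hK1 : an 0 ρ (ρ + Λ.rg) ⊆ an 0 ρ (32 * M) ∩ bl 0 (2 * ρ) :=
    subset_inter (an_mono 0 le_rfl (by omega)) ((an_subset_bl _ _ _).trans (bl_mono 0 (by omega)))
  have hS1 : an 0 (32 * M - Λ.rg) (32 * M) ⊆ an 0 (4 * M) (32 * M) := an_mono 0 (by omega) le_rfl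
  have nK1 : (an 0 ρ (ρ + Λ.rg)).Nonempty := an_nonempty 0 (by omega)
  have nS1 : (an 0 (32 * M - Λ.rg) (32 * M)).Nonempty := an_nonempty 0 (by omega)
  have hlt : g / (1 + g) < 1 := (div_lt_one (by positivity)).2 (by linarith)
  have h1 := hN Pt _ _ _ _ φ _ hF hcn inter_subset_left hS
    (fun x hx => hφ.1.2.1 x fun h => hx (hS0 h))
    (by rw [← hφ.1.2.2]; exact (sum_subset hS0 fun x _ hx => hφ.1.2.1 x hx).symm) hlt hP
  have e : 1 / (1 - g / (1 + g)) = 1 + g := by field_simp; ring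
  rw [e] at h1
  have hK1U := hK1.trans inter_subset_left
  have m1 := hM Pt _ _ _ _ hF hcn hK1U (hS1.trans hS) nK1 nS1
  have m2 := hM Pt _ _ _ _ hF hcn hS hK1U (nS1.mono hS1) nK1
  have m3 := hM Pt _ _ _ _ hF hcn inter_subset_left hS (nK1.mono hK1) (nS1.mono hS1)
  have m4 := hM Pt _ _ _ _ hF hcn hK1U hS nK1 (nS1.mono hS1)
  rw [gam, m1.2.1]
  refine (m2.2.2.1 _ hS1).trans ?_
  rw [← m4.2.1]
  exact (m3.2.2.1 _ hK1).trans h1

/-- every scale below a stiff scale lies near a window -/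
theorem winStmt (hm : T1mStmt) : WinStmt := by
  intro F θ₀ δ W h0 hδ
  obtain ⟨δ₁, hδ₁, H⟩ := hm.2.1 F (θ₀ / 2) (half_pos h0)
  obtain ⟨n, hn1, hn⟩ := exists_nat_one_le hδ
  obtain ⟨n₁, hn₁1, hn₁⟩ := exists_nat_one_le hδ₁
  -- `k`: the ratio of the window
  set k := n + W with hk
  have hk2 : k ≤ 2 ^ k := Nat.lt_two_pow_self.le
  set N := n + 1 with hN
  have hN1 : 1 < (N : ℝ) * δ := by
    have := hn n le_rfl
    rw [hN]; push_cast; nlinarith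
  refine ⟨2 ^ (N * (k + 1) + 1), n + n₁, n₁ * 2 ^ (N * (k + 1) + 1),
    Nat.mul_pos hn₁1 (Nat.two_pow_pos _), fun Λ hΛ L r hL hr hc => ?_⟩
  have ho := hΛ.ok
  obtain ⟨j, hj1, hj2⟩ : ∃ j, r ≤ 2 ^ j ∧ 2 ^ j ≤ 2 * r := by
    obtain ⟨j, h1, h2⟩ := exists_nat_pow_near (by omega : 1 ≤ r) (by norm_num : 1 < 2)
    exact ⟨j + 1, h2.le, by rw [pow_succ]; omega⟩
  obtain ⟨i, hi, hd⟩ := pigeon (t := fun i => Λ.tN (2 ^ (j + i * (k + 1))))
    (fun _ => T53.tN_nonneg ho _) (fun _ => T53.tN_le_one ho _) hN1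
  have e2 : 2 * 2 ^ (j + i * (k + 1) + k) = 2 ^ (j + (i + 1) * (k + 1)) := by
    rw [← pow_succ']; congr 1; ring
  have hl : r ≤ 2 ^ (j + i * (k + 1)) :=
    hj1.trans (Nat.pow_le_pow_right (by norm_num) (Nat.le_add_right _ _))
  have hL' : 2 ^ (j + i * (k + 1) + k) = 2 ^ k * 2 ^ (j + i * (k + 1)) := by rw [pow_add, mul_comm]
  have hup : 2 * 2 ^ (j + i * (k + 1) + k) ≤ 2 ^ (N * (k + 1) + 1) * r := by
    rw [e2]
    calc 2 ^ (j + (i + 1) * (k + 1)) ≤ 2 ^ (j + N * (k + 1)) :=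
          Nat.pow_le_pow_right (by norm_num)
            (Nat.add_le_add_left (Nat.mul_le_mul_right _ (by omega)) _)
      _ = 2 ^ (N * (k + 1)) * 2 ^ j := by rw [pow_add, mul_comm]
      _ ≤ 2 ^ (N * (k + 1)) * (2 * r) := Nat.mul_le_mul_left _ hj2
      _ = 2 ^ (N * (k + 1) + 1) * r := by rw [pow_succ]; ring
  refine ⟨2 ^ (j + i * (k + 1)), 2 ^ (j + i * (k + 1) + k), hl, ?_, by omega, ⟨_, rfl⟩,
    ⟨hn _ (by omega), ?_⟩, ?_, ?_⟩
  · rw [hL']; exact Nat.mul_le_mul (by omega) hl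
  · rw [hL']
    have h1 := hn (2 ^ k) (by omega)
    have h2 : (0 : ℝ) ≤ ((2 ^ (j + i * (k + 1)) : ℕ) : ℝ) := Nat.cast_nonneg _
    rw [Nat.cast_mul]
    nlinarith
  · have hpos : 1 ≤ 2 ^ k := Nat.one_le_two_pow
    have hb : r ≤ 2 * 2 ^ (j + i * (k + 1) + k) := by
      rw [hL']; nlinarith [Nat.zero_le (2 ^ (j + i * (k + 1)))]
    have hs : Sep δ₁ (2 * 2 ^ (j + i * (k + 1) + k)) L := by
      refine ⟨hn₁ _ (by omega), ?_⟩
      have h1 := hn₁ n₁ le_rfl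
      have h2 : n₁ * (2 * 2 ^ (j + i * (k + 1) + k)) ≤ L :=
        (Nat.mul_le_mul_left _ hup).trans (by rw [← mul_assoc]; exact hc)
      have h3 : (n₁ : ℝ) * ((2 * 2 ^ (j + i * (k + 1) + k) : ℕ) : ℝ) ≤ L := by exact_mod_cast h2
      have h4 : (0 : ℝ) ≤ ((2 * 2 ^ (j + i * (k + 1) + k) : ℕ) : ℝ) := Nat.cast_nonneg _
      nlinarith
    have := (H Λ hΛ).1 _ _ hs
    linarith
  · rw [e2]; exact hd

theorem Gd10.gd0 (h4 : T4Stmt) (hw : WinStmt) (hG : LgeoStmt) (F : Fa) {θ g : ℝ} (h0 : 0 < θ)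
    (hg : 0 < g) : ∃ W r₀ c : ℕ, 1 ≤ c ∧ ∀ Λ, F.Mem Λ → ∀ L : ℕ, θ ≤ Λ.tN L →
      Gd Λ g W r₀ (L / c) := by
  obtain ⟨W₄, δ, hW₄, hδ, H4⟩ := h4 F (θ / 2) g (half_pos h0) hg
  obtain ⟨W', r₀, c, hc, Hw⟩ := hw F θ δ (128 * W₄) h0 hδ
  refine ⟨W' + 2, r₀ + 2 * F.base.rg, c, hc, fun Λ hΛ L hL => ⟨by omega, by rw [hΛ.rg_eq]; omega,
    fun r hr hrL => ?_⟩⟩
  have ho := hΛ.ok
  have hrg := ho.one_le_rg
  rw [← hΛ.rg_eq] at hr
  have hcr : c * r ≤ L := (Nat.mul_le_mul_left c hrL).trans (Nat.mul_div_le L c)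
  obtain ⟨l, L', -, h1, h2, hwin⟩ := Hw Λ hΛ L r hL (by omega) hcr
  obtain ⟨j, rfl⟩ := hwin.dyadic
  have h3 : 128 * (W₄ * r) ≤ 2 ^ j := by rw [← mul_assoc]; exact h1
  have h5 : 4 * r ≤ W₄ * r := Nat.mul_le_mul_right r hW₄
  have h7 : 7 ≤ j := (Nat.pow_le_pow_iff_right (by norm_num : 1 < 2)).1 (by omega)
  obtain ⟨M, hM⟩ : ∃ M, 2 ^ j = 128 * M := ⟨2 ^ (j - 7), by
    rw [show j = 7 + (j - 7) by omega, pow_add]; simp⟩
  rw [hM] at hwin h2 h3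
  have h6 := H4 Λ hΛ l M hwin r (by omega) (by omega)
  refine ((hG Λ ho).1 r (32 * M) r ((W' + 2) * r) le_rfl ?_ (by omega)).2.trans h6
  rw [add_mul]; omega

/-- all scales below a stiff scale are good -/
theorem gdStmt (h4 : T4Stmt) (hw : WinStmt) (hm : T1mStmt) (hG : LgeoStmt) : GdStmt := by
  intro F θ₀ g h0 hg
  obtain ⟨W, r₀, c, hc, H⟩ := gd0 h4 hw hG F (half_pos h0) hg
  obtain ⟨δ₁, hδ₁, H1⟩ := hm.2.1 F (θ₀ / 2) (half_pos h0)
  obtain ⟨n₁, -, hn₁⟩ := exists_nat_one_le hδ₁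
  refine ⟨W, r₀, c, hc, fun Λ hΛ => ⟨fun L hL => H Λ hΛ L (by linarith), fun hI L => ?_⟩⟩
  have h1 := (H1 Λ hΛ).2 (L * c + n₁) (hn₁ _ (by omega))
  exact gd_mono (H Λ hΛ (L * c + n₁) (by linarith))
    ((Nat.le_div_iff_mul_le hc).2 (Nat.le_add_right _ _))

end Crest.Agent.T145.Nc
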