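import Crest.Agent.T145.NcT4Def_78
import Crest.Agent.T145.CorB_59

/-!
# Row 145: PERS (second moment bound for `∑ exp (-X i)`) (helper3)
-/

set_option autoImplicit false

namespace Crest.Agent.T145.Nc

open Finset

namespace Pe3

theorem exp_three : Real.exp 3 ≤ 201 / 10 := by
  have h := Real.exp_one_lt_d9
  have h0 := Real.exp_pos 1
  have e : Real.exp 3 = Real.exp 1 ^ 3 := by rw [← Real.exp_nat_mul]; norm_num
  rw [e]
  calc Real.exp 1 ^ 3 ≤ (2.7182818286 : ℝ) ^ 3 := by gcongr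
    _ ≤ 201 / 10 := by norm_num

theorem exp_gap {η : ℝ} (h1 : η ≤ 1 / 10) :
    45 / 100 ≤ Real.exp ((1 - η) / 2) - Real.exp (1 / 10) := by
  have a1 : Real.exp (1 / 10) ≤ 10 / 9 := by
    have := Real.add_one_le_exp (-(1 / 10) : ℝ)
    have h2 : Real.exp (1 / 10) * Real.exp (-(1 / 10)) = 1 := by rw [← Real.exp_add]; simp
    nlinarith [Real.exp_pos (1 / 10 : ℝ)]
  have a2 : (1 + 15 / 100 + (15 / 100) ^ 2 / 2 : ℝ) ≤ Real.exp (15 / 100) :=
    Real.quadratic_le_exp_of_nonneg (by norm_num)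
  have a3 : Real.exp (15 / 100) ^ 3 ≤ Real.exp ((1 - η) / 2) := by
    rw [← Real.exp_nat_mul]; exact Real.exp_le_exp.2 (by push_cast; linarith)
  have a4 : (1 + 15 / 100 + (15 / 100) ^ 2 / 2 : ℝ) ^ 3 ≤ Real.exp (15 / 100) ^ 3 := by gcongr
  norm_num at a4
  linarith

theorem exp_diff {η : ℝ} (h0 : 0 ≤ η) (h1 : η ≤ 1 / 10) :
    Real.exp (1 + η) - Real.exp (1 - η) ≤ 20 * η := by
  have a1 : Real.exp (1 + η) ≤ 10 := by
    have h := Real.exp_one_lt_d9
    have h0 := Real.exp_pos 1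
    calc Real.exp (1 + η) ≤ Real.exp (1 + 1) := Real.exp_le_exp.2 (by linarith)
      _ = Real.exp 1 * Real.exp 1 := Real.exp_add _ _
      _ ≤ 10 := by nlinarith
  have a2 : Real.exp (1 - η) = Real.exp (1 + η) * Real.exp (-(2 * η)) := by
    rw [← Real.exp_add]; congr 1; ring
  have a3 := Real.add_one_le_exp (-(2 * η))
  have a4 := Real.exp_pos (1 + η)
  rw [a2]
  nlinarith

end Pe3

open Pe3 in
theorem persStmt : PersStmt := by
  intro L _ _ W n X η hW hn h0 h1 hd ho
  have hw := hW.wt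
  have hn0 : (0 : ℝ) < n := by exact_mod_cast hn
  set β := Real.exp ((1 - η) / 2) with hβ
  have hβ0 : 0 < β := Real.exp_pos _
  have hβ2 : β * β = Real.exp (1 - η) := by rw [hβ, ← Real.exp_add]; congr 1; ring
  let E : ℕ → L → ℝ := fun i s => Real.exp ((-X i) s)
  have tE : ∀ i, Tame (E i) := fun i => Tame.exp _
  let Z : L → ℝ := fun s => ∑ i ∈ range n, E i s
  have tZ : Tame Z := Tame.sum _ fun i _ => tE i
  have e1 : ∀ i < n, β ≤ Ex W (E i) := fun i hi => by
    rw [show Ex W (E i) = Real.exp (M W (-X i)) from (hw.exp_M hW.se _).symm, hW.M_neg]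
    exact Real.exp_le_exp.2 (by linarith [hW.vr_le_M (X i), (hd i hi).1])
  have e2 : ∀ i j, Ex W (fun s => E i s * E j s) = Real.exp (M W (X i + X j)) := fun i j => by
    rw [← hW.M_neg, hw.exp_M hW.se]
    exact Ex_congr fun s _ => by simp [E, ← Real.exp_add, add_comm]
  have z1 : n * β ≤ Ex W Z := by
    rw [show Ex W Z = ∑ i ∈ range n, Ex W (E i) from Ex_sum _ fun i _ => hW.ig (tE i)]
    simpa using card_nsmul_le_sum (range n) _ β fun i hi => e1 i (mem_range.1 hi)
  have z2 : Ex W (fun s => Z s * Z s) ≤ n * (Real.exp 3 + n * Real.exp (1 + η)) := by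
    have : Ex W (fun s => Z s * Z s) =
        ∑ i ∈ range n, ∑ j ∈ range n, Real.exp (M W (X i + X j)) := by
      simp only [Z, sum_mul_sum]
      rw [Ex_sum _ fun i _ => hW.ig (Tame.sum _ fun j _ => (tE i).mul (tE j))]
      refine sum_congr rfl fun i _ => ?_
      rw [Ex_sum _ fun j _ => hW.ig ((tE i).mul (tE j))]
      exact sum_congr rfl fun j _ => e2 i j
    rw [this]
    refine (sum_le_card_nsmul _ _ (Real.exp 3 + n * Real.exp (1 + η)) fun i hi => ?_).trans
      (by simp [mul_add])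
    have hi' := mem_range.1 hi
    calc ∑ j ∈ range n, Real.exp (M W (X i + X j))
        ≤ ∑ j ∈ range n, ((if j = i then Real.exp 3 else 0) + Real.exp (1 + η)) := by
          refine sum_le_sum fun j hj => ?_
          split_ifs with h
          · rw [h]; linarith [Real.exp_le_exp.2 (hd i hi').2, Real.exp_pos (1 + η)]
          · rw [zero_add]; exact Real.exp_le_exp.2 (ho i hi' j (mem_range.1 hj) (Ne.symm h))
      _ = Real.exp 3 + n * Real.exp (1 + η) := by rw [sum_add_distrib]; simp [hi']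
  have z3 : Ex W (fun s => (n * β - Z s) ^ 2) ≤ n * (201 / 10) + n ^ 2 * (20 * η) := by
    have : Ex W (fun s => (n * β - Z s) ^ 2) =
        Ex W (fun s => Z s * Z s) - 2 * (n * β) * Ex W Z + (n * β) ^ 2 := by
      rw [← Ex_const_mul, ← Ex_sub (hW.ig (tZ.mul tZ)) (hW.ig (tZ.const_mul _)),
        ← hw.ex_add_const (hW.ig ((tZ.mul tZ).sub (tZ.const_mul _)))]
      exact Ex_congr fun s _ => by ring
    rw [this]
    have b1 : 2 * (n * β) * (n * β) ≤ 2 * (n * β) * Ex W Z := by gcongr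
    have b2 : (n * β) ^ 2 = n ^ 2 * Real.exp (1 - η) := by rw [← hβ2]; ring
    have b3 : (n : ℝ) * Real.exp 3 ≤ n * (201 / 10) := by gcongr; exact exp_three
    have b4 : (n : ℝ) ^ 2 * (Real.exp (1 + η) - Real.exp (1 - η)) ≤ n ^ 2 * (20 * η) := by
      gcongr; exact exp_diff h0 h1
    nlinarith
  have mk := hw.markov (p := fun s => ∀ i < n, -(1 / 10) ≤ X i s) (t := (n * (45 / 100)) ^ 2)
    (hW.ig (((Tame.const (n * β)).sub tZ).pow 2)) (fun s => sq_nonneg _) fun s hs => by
      have c1 : Z s ≤ n * Real.exp (1 / 10) := by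
        simpa using sum_le_card_nsmul (range n) (fun i => E i s) (Real.exp (1 / 10)) fun i hi =>
          Real.exp_le_exp.2 (by have := hs i (mem_range.1 hi); simp only [AddMonoidHom.neg_apply]; linarith)
      have c2 : (n : ℝ) * (45 / 100) ≤ n * (β - Real.exp (1 / 10)) := by
        gcongr; exact exp_gap h1
      exact pow_le_pow_left₀ (by positivity) (by linarith) 2
  have hP := Pr_nonneg hw.nonneg fun s => ∀ i < n, -(1 / 10) ≤ X i s
  set P := Pr W fun s => ∀ i < n, -(1 / 10) ≤ X i s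
  have key : (n : ℝ) ^ 2 * P ≤ n ^ 2 * (100 * (1 / n + η)) := by
    have e : (n : ℝ) ^ 2 * (100 * (1 / n + η)) = 100 * n + 100 * (n ^ 2 * η) := by field_simp
    have q : 0 ≤ (n : ℝ) ^ 2 * η := by positivity
    rw [e]
    nlinarith [mk.trans z3]
  exact le_of_mul_le_mul_left key (by positivity)

end Crest.Agent.T145.Nc
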