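import Mathlib

/-!
# Row 145, T4/RAD part A: the one-dimensional profile (helper80)

`chi s = smoothTransition (s - 1)`, `G' = chi s / s`, `(s G')' = psi`.
-/

set_option autoImplicit false

namespace Crest.Agent.T145.Nc.Rad80

open Set

/-- mean value step -/
theorem step {φ φ' : ℝ → ℝ} {t d B : ℝ} (hφ : ∀ s ∈ uIcc t (t + d), HasDerivAt φ (φ' s) s)
    (hB : ∀ s ∈ uIcc t (t + d), |φ' s| ≤ B) :
    ∀ s ∈ uIcc t (t + d), |φ s - φ t| ≤ B * |d| := by
  intro s hs
  have h := (convex_uIcc t (t + d)).norm_image_sub_le_of_norm_hasDerivWithin_le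
    (fun s hs => (hφ s hs).hasDerivWithinAt) hB left_mem_uIcc hs
  have h2 : |s - t| ≤ |d| := by
    have := abs_sub_left_of_mem_uIcc hs
    simpa using this
  have hB0 : 0 ≤ B := (abs_nonneg _).trans (hB t left_mem_uIcc)
  rw [Real.norm_eq_abs, Real.norm_eq_abs] at h
  exact h.trans (mul_le_mul_of_nonneg_left h2 hB0)

theorem tay2 {f f1 f2 : ℝ → ℝ} (h1 : ∀ s, HasDerivAt f (f1 s) s) (h2 : ∀ s, HasDerivAt f1 (f2 s) s)
    {t d M : ℝ} (hM : ∀ s ∈ uIcc t (t + d), |f2 s| ≤ M) :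
    ∀ s ∈ uIcc t (t + d), |f s - f t - f1 t * (s - t)| ≤ M * d ^ 2 := by
  have a1 := step (fun s _ => h2 s) hM
  have a0 := step (φ := fun s => f s - f1 t * (s - t)) (φ' := fun s => f1 s - f1 t) (t := t) (d := d)
    (fun s _ => ((h1 s).fun_sub (((hasDerivAt_id' s).sub_const t).const_mul (f1 t))).congr_deriv
      (by ring)) a1
  intro s hs
  have := a0 s hs
  rw [mul_assoc, abs_mul_abs_self, ← pow_two] at this
  convert this using 2
  ring

theorem tay4 {f f1 f2 f3 f4 : ℝ → ℝ} (h1 : ∀ s, HasDerivAt f (f1 s) s)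
    (h2 : ∀ s, HasDerivAt f1 (f2 s) s) (h3 : ∀ s, HasDerivAt f2 (f3 s) s)
    (h4 : ∀ s, HasDerivAt f3 (f4 s) s) {t d M : ℝ} (hM : ∀ s ∈ uIcc t (t + d), |f4 s| ≤ M) :
    |f (t + d) - f t - f1 t * d - f2 t * d ^ 2 / 2 - f3 t * d ^ 3 / 6| ≤ M * d ^ 4 := by
  have a2 := tay2 h3 h4 hM
  have hd : ∀ s : ℝ, HasDerivAt (fun s => s - t) 1 s := fun s => (hasDerivAt_id s).sub_const t
  have a0 := tay2 (f := fun s => f s - f2 t * (s - t) ^ 2 / 2 - f3 t * (s - t) ^ 3 / 6)
    (f1 := fun s => f1 s - f2 t * (s - t) - f3 t * (s - t) ^ 2 / 2)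
    (f2 := fun s => f2 s - f2 t - f3 t * (s - t))
    (fun s => (((h1 s).fun_sub ((((hd s).fun_pow 2).const_mul (f2 t)).div_const 2)).fun_sub
        ((((hd s).fun_pow 3).const_mul (f3 t)).div_const 6)).congr_deriv (by norm_num; ring))
    (fun s => (((h2 s).fun_sub ((hd s).const_mul (f2 t))).fun_sub
        ((((hd s).fun_pow 2).const_mul (f3 t)).div_const 2)).congr_deriv (by norm_num; ring))
    a2 (t + d) right_mem_uIcc
  rw [mul_assoc, ← pow_add] at a0
  convert a0 using 2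
  simp; ring

noncomputable def chi (s : ℝ) : ℝ := Real.smoothTransition (s - 1)
noncomputable def psi : ℝ → ℝ := deriv chi
noncomputable def G1 (s : ℝ) : ℝ := chi s / s
noncomputable def G2 : ℝ → ℝ := deriv G1
noncomputable def G3 : ℝ → ℝ := deriv G2
noncomputable def G4 : ℝ → ℝ := deriv G3
noncomputable def G (t : ℝ) : ℝ := ∫ s in (1 : ℝ)..t, G1 s

theorem chi_cd : ContDiff ℝ 4 chi :=
  (Real.smoothTransition.contDiff (n := 4)).comp (contDiff_id.sub contDiff_const)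

theorem chi_zero {s : ℝ} (h : s ≤ 1) : chi s = 0 :=
  Real.smoothTransition.zero_of_nonpos (by linarith)

theorem chi_one {s : ℝ} (h : 2 ≤ s) : chi s = 1 :=
  Real.smoothTransition.one_of_one_le (by linarith)

theorem chi_nonneg (s : ℝ) : 0 ≤ chi s := Real.smoothTransition.nonneg _

theorem chi_le (s : ℝ) : chi s ≤ 1 := Real.smoothTransition.le_one _

theorem chi_mono : Monotone chi := fun _ _ h =>
  Real.smoothTransition.monotone (by linarith)

theorem psi_nonneg (s : ℝ) : 0 ≤ psi s := chi_mono.deriv_nonneg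

theorem G1_zero {s : ℝ} (h : s ≤ 1) : G1 s = 0 := by rw [G1, chi_zero h, zero_div]

theorem G1_nonneg (s : ℝ) : 0 ≤ G1 s := by
  rcases le_total s 1 with h | h
  · rw [G1_zero h]
  · exact div_nonneg (chi_nonneg s) (by linarith)

theorem G1_cd : ContDiff ℝ 4 G1 := by
  rw [contDiff_iff_contDiffAt]
  intro s
  rcases lt_or_ge s 1 with h | h
  · refine (contDiffAt_const (c := (0 : ℝ))).congr_of_eventuallyEq ?_
    filter_upwards [Iio_mem_nhds h] with r hr using G1_zero (le_of_lt hr)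
  · exact chi_cd.contDiffAt.div contDiffAt_id (by linarith : (0 : ℝ) < s).ne'

theorem psi_cd : ContDiff ℝ 3 psi := chi_cd.deriv'
theorem G2_cd : ContDiff ℝ 3 G2 := G1_cd.deriv'
theorem G3_cd : ContDiff ℝ 2 G3 := G2_cd.deriv'
theorem G4_cd : ContDiff ℝ 1 G4 := G3_cd.deriv'
theorem psi1_cd : ContDiff ℝ 2 (deriv psi) := psi_cd.deriv'

theorem hG (s : ℝ) : HasDerivAt G (G1 s) s :=
  (G1_cd.continuous.integral_hasStrictDerivAt 1 s).hasDerivAt
theorem hG1 (s : ℝ) : HasDerivAt G1 (G2 s) s :=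
  (G1_cd.differentiable (by norm_num) s).hasDerivAt
theorem hG2 (s : ℝ) : HasDerivAt G2 (G3 s) s :=
  (G2_cd.differentiable (by norm_num) s).hasDerivAt
theorem hG3 (s : ℝ) : HasDerivAt G3 (G4 s) s :=
  (G3_cd.differentiable (by norm_num) s).hasDerivAt
theorem hchi (s : ℝ) : HasDerivAt chi (psi s) s :=
  (chi_cd.differentiable (by norm_num) s).hasDerivAt
theorem hpsi (s : ℝ) : HasDerivAt psi (deriv psi s) s :=
  (psi_cd.differentiable (by norm_num) s).hasDerivAt

theorem psi_eq (s : ℝ) : psi s = G1 s + s * G2 s := by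
  have e : chi = fun s => s * G1 s := by
    funext s
    rcases eq_or_ne s 0 with h | h
    · rw [h, chi_zero (by norm_num), zero_mul]
    · rw [G1]; field_simp
  have h1 := hchi s
  rw [e] at h1
  have h2 := (hasDerivAt_id s).mul (hG1 s)
  have := h1.unique h2
  simpa using this

/-- `f = c s^m` beyond `2` -/
def Far (f : ℝ → ℝ) (c : ℝ) (m : ℤ) : Prop := ∀ s, 2 < s → f s = c * s ^ m

theorem Far.deriv {f : ℝ → ℝ} {c : ℝ} {m : ℤ} (h : Far f c m) : Far (deriv f) (c * m) (m - 1) := by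
  intro s hs
  have e : f =ᶠ[nhds s] fun s => c * s ^ m := by
    filter_upwards [Ioi_mem_nhds hs] with r hr using h r hr
  rw [e.deriv_eq, ((hasDerivAt_zpow m s (Or.inl (by linarith))).const_mul c).deriv, mul_assoc]

/-- decay of order `k` on `[0, ∞)` -/
def Dec (f : ℝ → ℝ) (k : ℕ) (K : ℝ) : Prop := ∀ s, 0 ≤ s → |f s| * (1 + s) ^ k ≤ K

theorem Dec.mono {f : ℝ → ℝ} {k : ℕ} {K K' : ℝ} (h : Dec f k K) (hK : K ≤ K') : Dec f k K' :=
  fun s hs => (h s hs).trans hK

theorem Far.dec {f : ℝ → ℝ} {c : ℝ} {m : ℤ} (h : Far f c m) (hf : Continuous f) (k : ℕ)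
    (hk : m + k ≤ 0) : ∃ K, Dec f k K := by
  have hc : ContinuousOn (fun s => |f s| * (1 + s) ^ k) (Icc 0 2) := by fun_prop
  obtain ⟨B, hB⟩ := isCompact_Icc.bddAbove_image hc
  refine ⟨max B (|c| * 2 ^ k), fun s hs => ?_⟩
  rcases le_or_gt s 2 with h2 | h2
  · exact (hB ⟨s, ⟨hs, h2⟩, rfl⟩).trans (le_max_left _ _)
  · refine le_trans ?_ (le_max_right _ _)
    have s0 : 0 < s := by linarith
    rw [h s h2, abs_mul, abs_of_pos (zpow_pos s0 m), mul_assoc]
    refine mul_le_mul_of_nonneg_left ?_ (abs_nonneg _)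
    have h1 : (1 + s) ^ k ≤ (2 * s) ^ k := pow_le_pow_left₀ (by linarith) (by linarith) k
    have h3 : s ^ m * s ^ k ≤ 1 := by
      rw [← zpow_natCast, ← zpow_add₀ s0.ne']
      exact zpow_le_one_of_nonpos₀ (by linarith) hk
    calc s ^ m * (1 + s) ^ k ≤ s ^ m * (2 * s) ^ k :=
          mul_le_mul_of_nonneg_left h1 (zpow_pos s0 m).le
      _ = (s ^ m * s ^ k) * 2 ^ k := by rw [mul_pow]; ring
      _ ≤ 1 * 2 ^ k := mul_le_mul_of_nonneg_right h3 (by positivity)
      _ = 2 ^ k := one_mul _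

theorem far_G1 : Far G1 1 (-1) := fun s hs => by
  rw [G1, chi_one hs.le]; simp

theorem far_chi : Far chi 1 0 := fun s hs => by
  rw [chi_one hs.le]; simp

theorem psi_far {s : ℝ} (hs : 2 < s) : psi s = 0 := by
  have := far_chi.deriv s hs
  simpa [psi] using this

theorem psi_near {s : ℝ} (hs : s < 1) : psi s = 0 := by
  have e : chi =ᶠ[nhds s] fun _ => 0 := by
    filter_upwards [Iio_mem_nhds hs] with r hr using chi_zero (le_of_lt hr)
  rw [psi, e.deriv_eq, deriv_const]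

theorem exists_dec : ∃ K, 0 ≤ K ∧ Dec G1 1 K ∧ Dec G2 1 K ∧ Dec G3 1 K ∧ Dec G4 2 K ∧
    Dec psi 0 K ∧ Dec (deriv psi) 0 K := by
  obtain ⟨K1, h1⟩ := far_G1.dec G1_cd.continuous 1 (by norm_num)
  obtain ⟨K2, h2⟩ := far_G1.deriv.dec G2_cd.continuous 1 (by norm_num)
  obtain ⟨K3, h3⟩ := far_G1.deriv.deriv.dec G3_cd.continuous 1 (by norm_num)
  obtain ⟨K4, h4⟩ := far_G1.deriv.deriv.deriv.dec G4_cd.continuous 2 (by norm_num)
  obtain ⟨K5, h5⟩ := far_chi.deriv.dec psi_cd.continuous 0 (by norm_num)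
  obtain ⟨K6, h6⟩ := far_chi.deriv.deriv.dec psi1_cd.continuous 0 (by norm_num)
  have := abs_nonneg K1; have := abs_nonneg K2; have := abs_nonneg K3
  have := abs_nonneg K4; have := abs_nonneg K5; have := abs_nonneg K6
  have := le_abs_self K1; have := le_abs_self K2; have := le_abs_self K3
  have := le_abs_self K4; have := le_abs_self K5; have := le_abs_self K6
  exact ⟨|K1| + |K2| + |K3| + |K4| + |K5| + |K6|, by positivity, h1.mono (by linarith),
    h2.mono (by linarith), h3.mono (by linarith), h4.mono (by linarith), h5.mono (by linarith),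
    h6.mono (by linarith)⟩

theorem Dec.le {f : ℝ → ℝ} {k : ℕ} {K : ℝ} (h : Dec f k K) {s : ℝ} (hs : 0 ≤ s) : |f s| ≤ K :=
  (le_mul_of_one_le_right (abs_nonneg _) (one_le_pow₀ (by linarith))).trans (h s hs)

/-- local bound on a short interval -/
theorem Dec.loc {f : ℝ → ℝ} {k : ℕ} {K : ℝ} (h : Dec f k K) {t d : ℝ} (ht : 0 ≤ t) (htd : 0 ≤ t + d)
    (hd : |d| ≤ (1 + t) / 2) : ∀ s ∈ uIcc t (t + d), |f s| ≤ 2 ^ k * K / (1 + t) ^ k := by
  intro s hs
  have h2 : |s - t| ≤ |d| := by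
    have := abs_sub_left_of_mem_uIcc hs
    simpa using this
  have s0 : 0 ≤ s := by
    rcases mem_uIcc.1 hs with h | h <;> linarith [h.1]
  have h3 : 1 + t ≤ 2 * (1 + s) := by linarith [neg_abs_le (s - t)]
  rw [le_div_iff₀ (by positivity)]
  calc |f s| * (1 + t) ^ k ≤ |f s| * (2 * (1 + s)) ^ k :=
        mul_le_mul_of_nonneg_left (pow_le_pow_left₀ (by linarith) h3 k) (abs_nonneg _)
    _ = 2 ^ k * (|f s| * (1 + s) ^ k) := by rw [mul_pow]; ring
    _ ≤ 2 ^ k * K := mul_le_mul_of_nonneg_left (h s s0) (by positivity)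

theorem G_mono : Monotone G :=
  monotone_of_deriv_nonneg (fun s => (hG s).differentiableAt) fun s => by
    rw [(hG s).deriv]; exact G1_nonneg s

theorem G_zero {t : ℝ} (h : t ≤ 1) : G t = 0 := by
  rw [G, intervalIntegral.integral_congr (g := fun _ => (0 : ℝ)) fun s hs => G1_zero ?_]
  · simp
  · rcases mem_uIcc.1 hs with h' | h' <;> linarith [h'.2]

theorem G_nonneg (t : ℝ) : 0 ≤ G t := by
  rcases le_total t 1 with h | h
  · rw [G_zero h]
  · rw [← G_zero le_rfl]; exact G_mono h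

/-- the defect to the logarithm -/
noncomputable def Df (s : ℝ) : ℝ := Real.log s - G s

theorem hDf {s : ℝ} (hs : 0 < s) : HasDerivAt Df ((1 - chi s) / s) s := by
  refine ((Real.hasDerivAt_log hs.ne').fun_sub (hG s)).congr_deriv ?_
  rw [G1]; field_simp

theorem Df_mono {s t : ℝ} (hs : 0 < s) (h : s ≤ t) : Df s ≤ Df t := by
  refine monotoneOn_of_deriv_nonneg (convex_Ioi 0)
    (fun r hr => (hDf hr).continuousAt.continuousWithinAt)
    (fun r hr => (hDf (by simpa using hr)).differentiableAt.differentiableWithinAt)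
    (fun r hr => ?_) hs (hs.trans_le h) h
  have hr' : 0 < r := by simpa using hr
  rw [(hDf hr').deriv]
  exact div_nonneg (by linarith [chi_le r]) hr'.le

theorem Df_const {t : ℝ} (h : 2 ≤ t) : Df t = Df 2 := by
  have := step (φ := Df) (φ' := fun s => (1 - chi s) / s) (t := 2) (d := t - 2) (B := 0)
    (fun s hs => hDf (by rcases mem_uIcc.1 hs with h' | h' <;> linarith [h'.1]))
    (fun s hs => by
      rw [chi_one (by rcases mem_uIcc.1 hs with h' | h' <;> linarith [h'.1])]; simp)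
    t (by rw [add_sub_cancel]; exact right_mem_uIcc)
  rw [zero_mul] at this
  exact sub_eq_zero.1 (abs_nonpos_iff.1 this)

theorem Df_le {t : ℝ} (h : 0 < t) : Df t ≤ Df 2 := by
  rcases le_total t 2 with h' | h'
  · exact Df_mono h h'
  · exact (Df_const h').le

/-- rescaling by `ρ ≥ 1` -/
theorem G_scale {t ρ : ℝ} (ht : 0 ≤ t) (hρ : 1 ≤ ρ) :
    0 ≤ G (t * ρ ^ 2) - G t ∧ G (t * ρ ^ 2) - G t ≤ 2 * Real.log ρ ∧
    (1 / 4 ≤ t → 2 * Real.log ρ - (Df 2 - Df (1 / 4)) ≤ G (t * ρ ^ 2) - G t) ∧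
    (2 ≤ t → G (t * ρ ^ 2) - G t = 2 * Real.log ρ) := by
  have h1 : t ≤ t * ρ ^ 2 := le_mul_of_one_le_right ht (one_le_pow₀ hρ)
  have key : 0 < t → G (t * ρ ^ 2) - G t = 2 * Real.log ρ - (Df (t * ρ ^ 2) - Df t) := fun h => by
    rw [Df, Df, Real.log_mul h.ne' (by positivity), Real.log_pow]
    push_cast; ring
  refine ⟨sub_nonneg.2 (G_mono h1), ?_, fun h => ?_, fun h => ?_⟩
  · rcases ht.eq_or_lt with h | h
    · rw [← h, zero_mul, sub_self]
      exact mul_nonneg (by norm_num) (Real.log_nonneg hρ)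
    · rw [key h]; linarith [Df_mono h h1]
  · have h0 : 0 < t := by linarith
    rw [key h0]
    linarith [Df_le (h0.trans_le h1), Df_mono (by norm_num : (0 : ℝ) < 1 / 4) h]
  · rw [key (by linarith), Df_const h, Df_const (h.trans h1)]; ring

end Crest.Agent.T145.Nc.Rad80
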