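import Crest.Agent.T145.NcT4Def_78
import Crest.Agent.T145.NcRadA_80

/-!
# Row 145, T4/RAD: the radial profiles (helper80)
-/

set_option autoImplicit false

namespace Crest.Agent.T145.Nc

namespace Rad80

section real
variable {t u v δ K : ℝ}

theorem inc0 (ht : 0 ≤ t) (hv : 0 ≤ v) (hvδ : v ≤ δ) (hδ : δ ≤ 1 / 32) (hu : u ^ 2 ≤ 4 * t * v) :
    (v + u) ^ 2 ≤ 8 * δ * (1 + t) ∧ 0 ≤ t + (v + u) ∧ |v + u| ≤ (1 + t) / 2 := by
  have h1 : (v + u) ^ 2 ≤ 8 * δ * (1 + t) := by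
    nlinarith [sq_nonneg (v - u), mul_le_mul_of_nonneg_left hvδ ht, mul_le_mul hvδ hvδ hv (hv.trans hvδ),
      hv.trans hvδ]
  refine ⟨h1, ?_, ?_⟩
  · have : |u| ≤ t + v := abs_le_of_sq_le_sq' (by nlinarith [sq_nonneg (t - v)]) (by linarith) |> abs_le.2
    linarith [neg_abs_le u]
  · refine abs_le.2 (abs_le_of_sq_le_sq' ?_ (by linarith))
    have : δ * (1 + t) ≤ 1 / 32 * (1 + t) := mul_le_mul_of_nonneg_right hδ (by linarith)
    nlinarith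

theorem inc1 (hK : 0 ≤ K) (h1 : Dec G1 1 K) {r : ℝ} (hr : 0 ≤ r) (ht : 0 ≤ t) (hv : 0 ≤ v)
    (hvδ : v ≤ r ^ 2) (hδ : r ^ 2 ≤ 1 / 32) (hu : u ^ 2 ≤ 4 * t * v) :
    |G (t + (v + u)) - G t| ≤ 6 * K * r := by
  obtain ⟨a1, a2, a3⟩ := inc0 ht hv hvδ hδ hu
  have b := step (fun s _ => hG s) (h1.loc ht a2 a3) _ Set.right_mem_uIcc
  have c : |v + u| ≤ 3 * r * (1 + t) := by
    refine abs_le.2 (abs_le_of_sq_le_sq' ?_ (by positivity))
    have : 0 ≤ r ^ 2 * (1 + t) := by positivity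
    have : 0 ≤ r ^ 2 * (1 + t) * t := by positivity
    nlinarith
  refine b.trans ((mul_le_mul_of_nonneg_left c (by positivity)).trans (le_of_eq ?_))
  field_simp
  ring

theorem inc2 (hK : 0 ≤ K) (h2 : Dec G2 1 K) (ht : 0 ≤ t) (hv : 0 ≤ v) (hvδ : v ≤ δ)
    (hδ : δ ≤ 1 / 32) (hu : u ^ 2 ≤ 4 * t * v) :
    |G (t + (v + u)) - G t - G1 t * (v + u)| ≤ 16 * K * δ := by
  obtain ⟨a1, a2, a3⟩ := inc0 ht hv hvδ hδ hu
  have b := tay2 hG hG1 (h2.loc ht a2 a3) _ Set.right_mem_uIcc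
  rw [add_sub_cancel_left] at b
  refine b.trans ((mul_le_mul_of_nonneg_left a1 (by positivity)).trans (le_of_eq ?_))
  field_simp
  ring

theorem inc4 (hK : 0 ≤ K) (h4 : Dec G4 2 K) (ht : 0 ≤ t) (hv : 0 ≤ v) (hvδ : v ≤ δ)
    (hδ : δ ≤ 1 / 32) (hu : u ^ 2 ≤ 4 * t * v) :
    |G (t + (v + u)) - G t - G1 t * (v + u) - G2 t * (v + u) ^ 2 / 2 - G3 t * (v + u) ^ 3 / 6| ≤
      256 * K * δ ^ 2 := by
  obtain ⟨a1, a2, a3⟩ := inc0 ht hv hvδ hδ hu
  have b := tay4 hG hG1 hG2 hG3 (h4.loc ht a2 a3)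
  have c : (v + u) ^ 4 ≤ (8 * δ * (1 + t)) ^ 2 := by
    rw [show (v + u) ^ 4 = ((v + u) ^ 2) ^ 2 by ring]
    exact pow_le_pow_left₀ (by positivity) a1 2
  refine b.trans ((mul_le_mul_of_nonneg_left c (by positivity)).trans (le_of_eq ?_))
  field_simp
  ring

theorem inc5 (hK : 0 ≤ K) (h2 : Dec G2 1 K) (h3 : Dec G3 1 K) (h4 : Dec G4 2 K) (ht : 0 ≤ t)
    (hv : 0 ≤ v) (hvδ : v ≤ δ) (hδ : δ ≤ 1 / 32) (hu : u ^ 2 ≤ 4 * t * v) :
    |(G (t + (v + u)) - G t) + (G (t + (v + -u)) - G t) - (2 * G1 t * v + G2 t * u ^ 2)| ≤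
      518 * K * δ ^ 2 := by
  have b1 := inc4 hK h4 ht hv hvδ hδ hu
  have b2 := inc4 (u := -u) hK h4 ht hv hvδ hδ (by rwa [neg_sq])
  have δ0 : 0 ≤ δ := hv.trans hvδ
  have v2 : v ^ 2 ≤ δ ^ 2 := pow_le_pow_left₀ hv hvδ 2
  have c1 : |G2 t * v ^ 2| ≤ K * δ ^ 2 := by
    rw [abs_mul, abs_of_nonneg (by positivity : 0 ≤ v ^ 2)]
    exact mul_le_mul (h2.le ht) v2 (by positivity) hK
  have c2 : |G3 t * (v ^ 3 / 3)| ≤ K * δ ^ 2 := by
    rw [abs_mul, abs_of_nonneg (by positivity : 0 ≤ v ^ 3 / 3)]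
    refine mul_le_mul (h3.le ht) ?_ (by positivity) hK
    have : v ^ 2 * v ≤ δ ^ 2 * 1 := mul_le_mul v2 (by linarith) hv (by positivity)
    nlinarith [pow_nonneg hv 3]
  have c3 : |G3 t * (u ^ 2 * v)| ≤ 4 * K * δ ^ 2 := by
    rw [abs_mul, abs_of_nonneg (by positivity : 0 ≤ u ^ 2 * v)]
    have e := h3 t ht
    rw [pow_one] at e
    have f : u ^ 2 * v ≤ (1 + t) * (4 * δ ^ 2) := by
      have := mul_le_mul_of_nonneg_right hu hv
      have := mul_le_mul_of_nonneg_left v2 ht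
      nlinarith [sq_nonneg δ]
    calc |G3 t| * (u ^ 2 * v) ≤ |G3 t| * ((1 + t) * (4 * δ ^ 2)) :=
          mul_le_mul_of_nonneg_left f (abs_nonneg _)
      _ = |G3 t| * (1 + t) * (4 * δ ^ 2) := by ring
      _ ≤ K * (4 * δ ^ 2) := mul_le_mul_of_nonneg_right e (by positivity)
      _ = 4 * K * δ ^ 2 := by ring
  rw [abs_le] at *
  constructor <;> nlinarith [b1.1, b1.2, b2.1, b2.2, c1.1, c1.2, c2.1, c2.2, c3.1, c3.2]

end real

open Finset

noncomputable def tt (R : ℝ) (x : Pt) : ℝ := ((x.1 : ℝ) ^ 2 + (x.2 : ℝ) ^ 2) / R ^ 2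
noncomputable def uu (R : ℝ) (x y : Pt) : ℝ := 2 * ((x.1 : ℝ) * y.1 + (x.2 : ℝ) * y.2) / R ^ 2

theorem tt_nonneg (R : ℝ) (x : Pt) : 0 ≤ tt R x := by unfold tt; positivity

theorem tt_add (R : ℝ) (x y : Pt) : tt R (x + y) = tt R x + (tt R y + uu R x y) := by
  simp only [tt, uu, Prod.fst_add, Prod.snd_add, Int.cast_add]; ring

theorem tt_sub (R : ℝ) (x y : Pt) : tt R (x + -y) = tt R x + (tt R y + -uu R x y) := by
  simp only [tt, uu, Prod.fst_add, Prod.snd_add, Int.cast_add, Prod.fst_neg, Prod.snd_neg,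
    Int.cast_neg]; ring

theorem uu_sq (R : ℝ) (x y : Pt) : uu R x y ^ 2 ≤ 4 * tt R x * tt R y := by
  have : 4 * tt R x * tt R y - uu R x y ^ 2 =
      4 * (((x.1 : ℝ) * y.2 - (x.2 : ℝ) * y.1) / R ^ 2) ^ 2 := by
    simp only [tt, uu]; ring
  have : 0 ≤ 4 * (((x.1 : ℝ) * y.2 - (x.2 : ℝ) * y.1) / R ^ 2) ^ 2 := by positivity
  linarith

noncomputable def gg (a : ℕ) (x : Pt) : ℝ := G (tt (8 * a) x)
noncomputable def qq (a : ℕ) (x : Pt) : ℝ := 4 * psi (tt (8 * a) x) / (8 * a) ^ 2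

theorem tt_le {a n : ℕ} (ha : 1 ≤ a) {x : Pt} (hx : x ∈ bl 0 (n * a)) :
    tt (8 * a) x ≤ (n : ℝ) ^ 2 / 32 := by
  have a0 : (0 : ℝ) < a := by exact_mod_cast ha
  rw [mem_bl_abs] at hx
  simp only [Prod.fst_zero, Prod.snd_zero, sub_zero] at hx
  have h1 : |(x.1 : ℝ)| ≤ n * a := by exact_mod_cast hx.1
  have h2 : |(x.2 : ℝ)| ≤ n * a := by exact_mod_cast hx.2
  have h3 := pow_le_pow_left₀ (abs_nonneg _) h1 2
  have h4 := pow_le_pow_left₀ (abs_nonneg _) h2 2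
  rw [sq_abs] at h3 h4
  rw [tt, div_le_iff₀ (by positivity)]
  nlinarith

theorem le_tt {a n : ℕ} (ha : 1 ≤ a) {x : Pt} (hx : x ∉ bl 0 (n * a)) :
    (n : ℝ) ^ 2 / 64 ≤ tt (8 * a) x := by
  have a0 : (0 : ℝ) < a := by exact_mod_cast ha
  rw [mem_bl_abs] at hx
  simp only [Prod.fst_zero, Prod.snd_zero, sub_zero, not_and_or, not_le] at hx
  rw [tt, le_div_iff₀ (by positivity)]
  rcases hx with h | h
  · have h1 : (n : ℝ) * a ≤ |(x.1 : ℝ)| := by exact_mod_cast h.le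
    have h3 := pow_le_pow_left₀ (by positivity) h1 2
    rw [sq_abs] at h3
    nlinarith [sq_nonneg (x.2 : ℝ)]
  · have h1 : (n : ℝ) * a ≤ |(x.2 : ℝ)| := by exact_mod_cast h.le
    have h3 := pow_le_pow_left₀ (by positivity) h1 2
    rw [sq_abs] at h3
    nlinarith [sq_nonneg (x.1 : ℝ)]

theorem tt_scale {a a' : ℕ} (ha : 1 ≤ a) (ha' : 1 ≤ a') (x : Pt) :
    tt (8 * a') x = tt (8 * a) x * ((a : ℝ) / a') ^ 2 := by
  have a0 : (0 : ℝ) < a := by exact_mod_cast ha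
  have a1 : (0 : ℝ) < a' := by exact_mod_cast ha'
  simp only [tt]; field_simp

theorem sm2 {K : ℝ} (hK : 0 ≤ K) (h1 : Dec G1 1 K) (h2 : Dec G2 1 K) {a : ℕ} (ha : 2 ≤ a) :
    Sm2 (gg a) (4 * K) a := by
  have a0 : (2 : ℝ) ≤ a := by exact_mod_cast ha
  have e1 : ∀ i, tt (8 * a) (ev i) = (1 / (8 * a)) ^ 2 := fun i => by
    rw [div_pow, one_pow]
    fin_cases i <;> simp [tt, ev]
  have e2 : ∀ i j, tt (8 * a) (ev j + ev i) ≤ 4 * (1 / (8 * a)) ^ 2 := fun i j => by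
    have : 4 * (1 / (8 * (a : ℝ))) ^ 2 = 4 / (8 * a) ^ 2 := by field_simp
    rw [this, tt]
    refine div_le_div_of_nonneg_right ?_ (by positivity)
    fin_cases i <;> fin_cases j <;> simp [ev] <;> norm_num
  have e3 : ∀ i j, |uu (8 * a) (ev j) (ev i)| ≤ 2 * (1 / (8 * a)) ^ 2 := fun i j => by
    have : 2 * (1 / (8 * (a : ℝ))) ^ 2 = 2 / (8 * a) ^ 2 := by field_simp
    rw [this, uu, abs_div, abs_of_nonneg (by positivity : (0 : ℝ) ≤ (8 * a) ^ 2)]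
    refine div_le_div_of_nonneg_right ?_ (by positivity)
    fin_cases i <;> fin_cases j <;> simp [ev]
  have r0 : (0 : ℝ) ≤ 1 / (8 * a) := by positivity
  have r1 : 1 / (8 * (a : ℝ)) ≤ 1 / 16 := one_div_le_one_div_of_le (by norm_num) (by linarith)
  have r2 : 4 * (1 / (8 * (a : ℝ))) ^ 2 ≤ 1 / 32 := by nlinarith
  have r3 : (1 / (8 * (a : ℝ))) ^ 2 ≤ 4 * (1 / (8 * (a : ℝ))) ^ 2 := by nlinarith
  refine ⟨fun i x => ?_, fun i j x => ?_⟩
  · rw [df, gg, gg, tt_add]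
    refine (inc1 hK h1 r0 (tt_nonneg _ _) (tt_nonneg _ _) (e1 i).le (r3.trans r2) (uu_sq _ _ _)).trans ?_
    have : 6 * K * (1 / (8 * (a : ℝ))) = 3 / 4 * K / a := by field_simp; ring
    rw [this]
    exact div_le_div_of_nonneg_right (by linarith) (by positivity)
  · have b : ∀ y : Pt, tt (8 * a) y ≤ 4 * (1 / (8 * a)) ^ 2 →
        |gg a (x + y) - gg a x - G1 (tt (8 * a) x) * (tt (8 * a) y + uu (8 * a) x y)| ≤
          16 * K * (4 * (1 / (8 * a)) ^ 2) := fun y hy => by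
      rw [gg, gg, tt_add]
      exact inc2 hK h2 (tt_nonneg _ _) (tt_nonneg _ _) hy r2 (uu_sq _ _ _)
    have b1 := b _ (e2 i j)
    have b2 := b _ ((e1 i).le.trans r3)
    have b3 := b _ ((e1 j).le.trans r3)
    have b4 : |G1 (tt (8 * a) x) * uu (8 * a) (ev j) (ev i)| ≤ K * (2 * (1 / (8 * a)) ^ 2) := by
      rw [abs_mul]
      exact mul_le_mul (h1.le (tt_nonneg _ _)) (e3 i j) (abs_nonneg _) hK
    have e4 : uu (8 * a) x (ev j + ev i) = uu (8 * a) x (ev j) + uu (8 * a) x (ev i) := by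
      simp only [uu, Prod.fst_add, Prod.snd_add, Int.cast_add]; ring
    rw [tt_add, e4] at b1
    have e5 : 4 * K / (a : ℝ) ^ 2 = 256 * (K * (1 / (8 * a)) ^ 2) := by field_simp; ring
    have p : 0 ≤ K * (1 / (8 * (a : ℝ))) ^ 2 := by positivity
    simp only [df]
    rw [e5, add_assoc x]
    rw [abs_le] at *
    constructor <;> nlinarith [b1.1, b1.2, b2.1, b2.2, b3.1, b3.2, b4.1, b4.2]

theorem lap {K : ℝ} (hK : 0 ≤ K) (h2 : Dec G2 1 K) (h3 : Dec G3 1 K) (h4 : Dec G4 2 K) {Λ : Lat}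
    (hΛ : Λ.Ok) {a : ℕ} (ha : Λ.rg ≤ a) (x : Pt) :
    |∑ y ∈ Λ.J, (gg a (x + y) - gg a x) - Λ.a * qq a x| ≤
      Λ.J.card * (K * (Λ.rg : ℝ) ^ 4) / (a : ℝ) ^ 4 := by
  have a0 : (0 : ℝ) < a := by exact_mod_cast hΛ.one_le_rg.trans ha
  have a1 : (Λ.rg : ℝ) ≤ a := by exact_mod_cast ha
  set t := tt (8 * a) x with ht
  have main : Λ.a * qq a x =
      ∑ y ∈ Λ.Jp, (2 * G1 t * tt (8 * a) y + G2 t * uu (8 * a) x y ^ 2) := by
    have : ∀ y : Pt, 2 * G1 t * tt (8 * a) y + G2 t * uu (8 * a) x y ^ 2 =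
        (2 * G1 t / (8 * a) ^ 2 + 4 * G2 t * (x.1 : ℝ) ^ 2 / (8 * a) ^ 4) * (y.1 : ℝ) ^ 2 +
        (2 * G1 t / (8 * a) ^ 2 + 4 * G2 t * (x.2 : ℝ) ^ 2 / (8 * a) ^ 4) * (y.2 : ℝ) ^ 2 +
        8 * G2 t * x.1 * x.2 / (8 * a) ^ 4 * ((y.1 : ℝ) * y.2) := fun y => by
      simp only [tt, uu]; field_simp; ring
    simp only [this, sum_add_distrib, ← mul_sum]
    rw [hΛ.sum_mixed, ← hΛ.a_eq_snd, ← Lat.a, qq, ← ht, psi_eq]
    have e : t = ((x.1 : ℝ) ^ 2 + (x.2 : ℝ) ^ 2) / (8 * a) ^ 2 := rfl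
    generalize G1 t = A
    generalize G2 t = B
    rw [e]; field_simp; ring
  rw [hΛ.sum_J, main, ← sum_sub_distrib]
  have hδ : 2 * (Λ.rg : ℝ) ^ 2 / (8 * a) ^ 2 ≤ 1 / 32 := by
    rw [div_le_iff₀ (by positivity)]
    have := pow_le_pow_left₀ (by positivity) a1 2
    nlinarith
  have b : ∀ y ∈ Λ.Jp, |(gg a (x + y) - gg a x) + (gg a (x + -y) - gg a x) -
      (2 * G1 t * tt (8 * a) y + G2 t * uu (8 * a) x y ^ 2)| ≤ K * (Λ.rg : ℝ) ^ 4 / (a : ℝ) ^ 4 := by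
    intro y hy
    have hr := Lat.le_rg (Lat.mem_Jp.1 hy).1
    have h1 : |(y.1 : ℝ)| ≤ Λ.rg := by exact_mod_cast hr.1
    have h1' : |(y.2 : ℝ)| ≤ Λ.rg := by exact_mod_cast hr.2
    have h5 := pow_le_pow_left₀ (abs_nonneg _) h1 2
    have h6 := pow_le_pow_left₀ (abs_nonneg _) h1' 2
    rw [sq_abs] at h5 h6
    have hy' : tt (8 * a) y ≤ 2 * (Λ.rg : ℝ) ^ 2 / (8 * a) ^ 2 :=
      div_le_div_of_nonneg_right (by linarith) (by positivity)
    rw [gg, gg, gg, tt_add, tt_sub]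
    refine (inc5 hK h2 h3 h4 (tt_nonneg _ _) (tt_nonneg _ _) hy' hδ (uu_sq _ _ _)).trans ?_
    have : 518 * K * (2 * (Λ.rg : ℝ) ^ 2 / (8 * a) ^ 2) ^ 2 =
        518 / 1024 * (K * (Λ.rg : ℝ) ^ 4 / (a : ℝ) ^ 4) := by field_simp; ring
    rw [this]
    have : 0 ≤ K * (Λ.rg : ℝ) ^ 4 / (a : ℝ) ^ 4 := by positivity
    linarith
  refine (abs_sum_le_sum_abs _ _).trans ((sum_le_card_nsmul _ _ _ b).trans ?_)
  rw [nsmul_eq_mul, mul_div_assoc (Λ.J.card : ℝ)]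
  refine mul_le_mul_of_nonneg_right ?_ (by positivity)
  exact_mod_cast card_filter_le _ _

theorem row {K : ℝ} (hK : 0 ≤ K) (h : Dec (deriv psi) 0 K) {a : ℕ} (ha : 1 ≤ a) (haK : 5 * K ≤ a)
    {j : ℕ} (hj : j < a) :
    (a : ℝ) ≤ ∑ i ∈ range (10 * a), psi (tt (8 * a) ((5 * a + i : ℕ), (j : ℕ))) := by
  have a0 : (1 : ℝ) ≤ a := by exact_mod_cast ha
  have j0 : (j : ℝ) ≤ a := by exact_mod_cast hj.le
  set T : ℕ → ℝ := fun i => tt (8 * a) ((5 * a + i : ℕ), (j : ℕ)) with hT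
  have hT' : ∀ i : ℕ, T i = ((5 * a + i : ℝ) ^ 2 + (j : ℝ) ^ 2) / (8 * a) ^ 2 := fun i => by
    simp [hT, tt]
  have tel := sum_range_sub (fun i => chi (T i)) (10 * a)
  have e0 : chi (T 0) = 0 := chi_zero (by
    rw [hT', div_le_iff₀ (by positivity)]
    have := pow_le_pow_left₀ (by positivity) j0 2
    push_cast; nlinarith)
  have e1 : chi (T (10 * a)) = 1 := chi_one (by
    rw [hT', le_div_iff₀ (by positivity)]
    push_cast; nlinarith [sq_nonneg (j : ℝ)])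
  have b : ∀ i ∈ range (10 * a), chi (T (i + 1)) - chi (T i) ≤
      psi (T i) * (1 / (2 * a)) + K * (1 / (2 * a)) ^ 2 := by
    intro i hi
    have i0 : (i : ℝ) + 1 ≤ 10 * a := by exact_mod_cast mem_range.1 hi
    have d0 : 0 ≤ T (i + 1) - T i := by
      rw [hT', hT', ← sub_div]
      refine div_nonneg ?_ (by positivity)
      have : (0 : ℝ) ≤ i := by positivity
      push_cast; nlinarith
    have d1 : T (i + 1) - T i ≤ 1 / (2 * a) := by
      rw [hT', hT', ← sub_div, div_le_div_iff₀ (by positivity) (by positivity)]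
      push_cast; nlinarith
    have t0 : 0 ≤ T i := tt_nonneg _ _
    have c := tay2 hchi hpsi (t := T i) (d := T (i + 1) - T i) (M := K) (fun s hs => h.le (by
      rcases Set.mem_uIcc.1 hs with h' | h' <;> linarith [h'.1])) (T (i + 1))
      (by rw [add_sub_cancel]; exact Set.right_mem_uIcc)
    have c1 := mul_le_mul_of_nonneg_left d1 (psi_nonneg (T i))
    have c2 := mul_le_mul_of_nonneg_left (pow_le_pow_left₀ d0 d1 2) hK
    linarith [(abs_le.1 c).2]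
  have s := sum_le_sum b
  rw [tel, e0, e1, sum_add_distrib, ← sum_mul, sum_const, card_range, nsmul_eq_mul] at s
  have e2 : ((10 * a : ℕ) : ℝ) * (K * (1 / (2 * a)) ^ 2) ≤ 1 / 2 := by
    have : ((10 * a : ℕ) : ℝ) * (K * (1 / (2 * a)) ^ 2) = 5 * K / (2 * a) := by
      push_cast; field_simp; ring
    rw [this, div_le_iff₀ (by positivity)]; linarith
  have e3 : 1 / 2 ≤ (∑ i ∈ range (10 * a), psi (T i)) * (1 / (2 * a)) := by linarith
  rw [mul_one_div, le_div_iff₀ (by positivity)] at e3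
  linarith

theorem qq_nonneg (a : ℕ) (x : Pt) : 0 ≤ qq a x :=
  div_nonneg (mul_nonneg (by norm_num) (psi_nonneg _)) (by positivity)

theorem mass {K : ℝ} (hK : 0 ≤ K) (h : Dec (deriv psi) 0 K) {a : ℕ} (ha : 1 ≤ a) (haK : 5 * K ≤ a) :
    1 / 16 ≤ ∑ x ∈ an 0 (4 * a) (16 * a), qq a x := by
  have a0 : (1 : ℝ) ≤ a := by exact_mod_cast ha
  let e : ℕ × ℕ → Pt := fun p => ((5 * a + p.2 : ℕ), (p.1 : ℕ))
  have hs : (range a ×ˢ range (10 * a)).image e ⊆ an 0 (4 * a) (16 * a) := by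
    intro x hx
    obtain ⟨p, hp, rfl⟩ := mem_image.1 hx
    simp only [mem_product, mem_range] at hp
    simp only [an, mem_sdiff, mem_bl, e, Prod.fst_zero, Prod.snd_zero]
    omega
  refine le_trans ?_ (sum_le_sum_of_subset_of_nonneg hs fun x _ _ => qq_nonneg a x)
  rw [sum_image fun p _ p' _ hh => by
    simp only [e, Prod.mk.injEq] at hh
    exact Prod.ext (by omega) (by omega), sum_product]
  have b : ∀ j ∈ range a, 4 * (a : ℝ) / (8 * a) ^ 2 ≤ ∑ i ∈ range (10 * a), qq a (e (j, i)) := by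
    intro j hj
    simp only [qq, ← sum_div, ← mul_sum]
    exact div_le_div_of_nonneg_right
      (mul_le_mul_of_nonneg_left (row hK h ha haK (mem_range.1 hj)) (by norm_num)) (by positivity)
  refine le_trans (le_of_eq ?_) (card_nsmul_le_sum _ _ _ b)
  rw [card_range, nsmul_eq_mul]
  field_simp; ring

end Rad80

open Rad80 in
theorem radStmt : RadStmt := by
  intro F
  obtain ⟨K, hK, h1, h2, h3, h4, h5, h6⟩ := exists_dec
  let r : ℕ := ProbabilityR.HeightModel.interactionRange F.J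
  have p1 := G_nonneg 8
  have p2 : 0 ≤ Df 2 - Df (1 / 4) := sub_nonneg.2 (Df_mono (by norm_num) (by norm_num))
  have p3 : 0 ≤ F.J.card * (K * (r : ℝ) ^ 4) := by positivity
  refine ⟨G 8 + (Df 2 - Df (1 / 4)) + 4 * K + F.J.card * (K * (r : ℝ) ^ 4), 1 / 16, 2,
    r + ⌈5 * K⌉₊ + 2, gg, qq, by norm_num, by norm_num, fun a ha => ?_⟩
  have a1 : 1 ≤ a := by omega
  have a0 : (0 : ℝ) < a := by exact_mod_cast a1
  refine ⟨fun x hx => G_zero ((tt_le a1 hx).trans (by norm_num)), fun x hx => ⟨G_nonneg _, ?_⟩,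
    fun a' ha1 ha2 x => ?_, fun x => ⟨qq_nonneg a x, ?_⟩, fun x hx => ?_,
    mass hK h6 a1 ((Nat.le_ceil _).trans (by exact_mod_cast (by omega))), ?_, fun Λ hΛ x => ?_⟩
  · have : gg a x ≤ G 8 := G_mono ((tt_le a1 hx).trans (by norm_num))
    linarith
  · have a2 : (0 : ℝ) < a' := by exact_mod_cast ha1
    have a3 : (1 : ℝ) ≤ (a : ℝ) / a' := by
      rw [le_div_iff₀ a2, one_mul]; exact_mod_cast ha2
    obtain ⟨b1, b2, b3, b4⟩ := G_scale (tt_nonneg (8 * a) x) a3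
    rw [gg, gg, tt_scale a1 ha1]
    refine ⟨b1, b2, fun hx => ?_, fun hx => b4 (le_trans (by norm_num) (le_tt a1 hx))⟩
    have := b3 (le_trans (by norm_num) (le_tt a1 hx))
    linarith
  · have b := (le_abs_self _).trans (h5.le (tt_nonneg (8 * a) x))
    have : qq a x = psi (tt (8 * a) x) / 16 / (a : ℝ) ^ 2 := by rw [qq]; field_simp; ring
    rw [this]
    exact div_le_div_of_nonneg_right (by linarith) (by positivity)
  · rw [an, Finset.mem_sdiff, not_and_or, not_not] at hx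
    rw [qq]
    rcases hx with hx | hx
    · rw [psi_far (lt_of_lt_of_le (by norm_num) (le_tt a1 hx))]; simp
    · rw [psi_near (lt_of_le_of_lt (tt_le a1 hx) (by norm_num))]; simp
  · obtain ⟨b1, b2⟩ := sm2 hK h1 h2 (by omega : 2 ≤ a)
    exact ⟨fun i x => (b1 i x).trans (div_le_div_of_nonneg_right (by linarith) a0.le),
      fun i j x => (b2 i j x).trans (div_le_div_of_nonneg_right (by linarith) (by positivity))⟩
  · have hO : Λ.Ok := ⟨hΛ.1 ▸ F.adm, F.pos.trans_le hΛ.2.2.1⟩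
    have hr : Λ.rg = r := by rw [Lat.rg, hΛ.1]
    refine (lap hK h2 h3 h4 hO (by omega) x).trans ?_
    rw [hr, hΛ.1]
    exact div_le_div_of_nonneg_right (by linarith) (by positivity)

end Crest.Agent.T145.Nc
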