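import Crest.Agent.T145.NcT4Def_78
import Crest.Agent.T145.NcBas_78

/-!
# Row 145: polynomial rates from the geometric decay (helper33): `rateStmt`, `pdecStmt`
-/

set_option autoImplicit false

namespace Crest.Agent.T145.Nc

open Finset

namespace R33

/-- the number of steps between two scales -/
theorem exists_n {B r R : ℕ} (hB : 2 ≤ B) (hr : 1 ≤ r) (h : B ^ 2 * r ≤ R) : ∃ n : ℕ,
    B ^ (n + 2) * r ≤ R ∧
      (200 * (1 / 400) : ℝ) ^ n ≤ 8 * ((r : ℝ) / R) ^ (Real.log 2 / Real.log B) := by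
  have h1 : B ^ 2 ≤ R / r := (Nat.le_div_iff_mul_le hr).2 h
  have h0 : R / r ≠ 0 := ((Nat.pow_pos (by omega)).trans_le h1).ne'
  obtain ⟨n, hn⟩ := Nat.exists_eq_add_of_le' ((Nat.le_log_iff_pow_le hB h0).2 h1)
  refine ⟨n, (Nat.le_div_iff_mul_le hr).1 (hn ▸ Nat.pow_log_le_self B h0), ?_⟩
  have h2 : R < B ^ (n + 3) * r := by
    have := Nat.lt_pow_succ_log_self hB (R / r)
    rw [hn] at this
    exact (Nat.div_lt_iff_lt_mul hr).1 this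
  have hB' : (1 : ℝ) < B := by exact_mod_cast hB
  have hR : (0 : ℝ) < R := by
    exact_mod_cast (Nat.mul_pos (Nat.pow_pos (by omega)) hr).trans_le h
  have hl := Real.log_pos hB'
  have h3 : ((B : ℝ) ^ (n + 3))⁻¹ ≤ (r : ℝ) / R := by
    rw [inv_eq_one_div, div_le_div_iff₀ (by positivity) hR, one_mul, mul_comm]
    exact_mod_cast h2.le
  have h4 := Real.rpow_le_rpow (by positivity) h3 (div_pos (Real.log_pos one_lt_two) hl).le
  have h5 : (((B : ℝ) ^ (n + 3))⁻¹) ^ (Real.log 2 / Real.log B) = (2 ^ (n + 3))⁻¹ := by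
    rw [Real.rpow_def_of_pos (by positivity), Real.log_inv, Real.log_pow,
      ← Real.exp_log (x := (2 ^ (n + 3))⁻¹) (by positivity), Real.log_inv, Real.log_pow]
    congr 1; field_simp
  rw [h5] at h4
  refine le_trans (le_of_eq ?_) (mul_le_mul_of_nonneg_left h4 (by norm_num))
  rw [pow_add, show (200 * (1 / 400) : ℝ) = 2⁻¹ by norm_num, inv_pow]
  field_simp; norm_num

theorem two_le_B {W : ℕ} (hW : 2 ≤ W) : W ≤ 4 * W ^ 4 := by
  have := Nat.le_self_pow (n := 4) (by norm_num) W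
  omega

/-- good scales below a stiff scale -/
theorem gd (hG : GdStmt) (F : Fa) {θ₀ g : ℝ} (h : 0 < θ₀) (hg : 0 < g) : ∃ W r₀ c : ℕ, 1 ≤ c ∧
    ∀ Λ, F.Mem Λ → ∀ L, Stf Λ θ₀ L → Λ.Ok ∧ Gd Λ g W r₀ (L / c) := by
  obtain ⟨W, r₀, c, hc, H⟩ := hG F θ₀ g h hg
  exact ⟨W, r₀, c, hc, fun Λ hΛ L hL => ⟨⟨hΛ.1 ▸ F.adm, F.pos.trans_le hΛ.2.2.1⟩,
    hL.elim ((H Λ hΛ).1 L) fun h => (H Λ hΛ).2 h _⟩⟩

theorem c_pos {B : ℕ} (hB : 2 ≤ B) :
    0 < Real.log 2 / Real.log B ∧ Real.log 2 / Real.log B ≤ 1 := by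
  have hB' : (2 : ℝ) ≤ B := by exact_mod_cast hB
  have h2 := Real.log_pos one_lt_two
  have h3 := Real.log_le_log two_pos hB'
  exact ⟨div_pos h2 (h2.trans_le h3), (div_le_one (h2.trans_le h3)).2 h3⟩

end R33

open R33

theorem rateStmt (hG : GdStmt) (hS : SubStmt) (hL : LgeoStmt) : RateStmt := by
  intro F θ₀ hθ
  obtain ⟨W, r₀, c₀, hc, H⟩ := gd hG F hθ (by norm_num : (0 : ℝ) < 1 / 400)
  by_cases hW : 2 ≤ W
  swap
  · exact ⟨0, 1, one_pos, fun Λ hΛ L r R h => absurd (H Λ hΛ L h).2.1 hW⟩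
  have hB : 2 ≤ 4 * W ^ 4 := hW.trans (two_le_B hW)
  generalize hBe : 4 * W ^ 4 = B at hB
  refine ⟨1600 * r₀ + B ^ 2 * r₀ + c₀, _, (c_pos hB).1, fun Λ hΛ L r R h hr h1 h2 => ?_⟩
  obtain ⟨ok, hg⟩ := H Λ hΛ L h
  have a1 := hg.2.1
  have a2 := ok.one_le_rg
  have a3 : r₀ ≤ r₀ * r := Nat.le_mul_of_pos_right _ hr
  have a4 : B ^ 2 * (r₀ * r) ≤ R := le_trans (by nlinarith [Nat.zero_le (r₀ * r), Nat.zero_le (c₀ * r)]) h1
  obtain ⟨n, b1, b2⟩ := exists_n hB (by omega) a4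
  have a5 : R ≤ L / c₀ := (Nat.le_div_iff_mul_le hc).2
    (le_trans (by nlinarith [Nat.zero_le (r₀ * R), Nat.zero_le (B ^ 2 * r₀ * R)]) h2)
  have a6 : r₀ * r + 2 * Λ.rg ≤ R := by
    have : 2 * (r₀ * r) ≤ B ^ 2 * (r₀ * r) := Nat.mul_le_mul_right _ (by nlinarith)
    omega
  refine ((hL Λ ok).1 (r₀ * r) R r R (Nat.le_mul_of_pos_left _ (by omega)) le_rfl a6).2.trans
    ((hS Λ ok _ W r₀ _ (by norm_num) (by norm_num) hg _ n R a3 (hBe ▸ b1) (hBe ▸ b1.trans a5)).trans ?_)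
  have r1 : (1 : ℝ) ≤ r₀ := by exact_mod_cast (by omega : 1 ≤ r₀)
  have b3 : (((r₀ * r : ℕ) : ℝ) / R) ^ (Real.log 2 / Real.log B) ≤
      r₀ * ((r : ℝ) / R) ^ (Real.log 2 / Real.log B) := by
    rw [Nat.cast_mul, mul_div_assoc, Real.mul_rpow (by positivity) (by positivity)]
    refine mul_le_mul_of_nonneg_right ?_ (by positivity)
    simpa using Real.rpow_le_rpow_of_exponent_le r1 (c_pos hB).2
  have b4 : 0 ≤ ((r : ℝ) / R) ^ (Real.log 2 / Real.log B) := by positivity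
  push_cast
  nlinarith [mul_nonneg (by positivity : (0 : ℝ) ≤ B ^ 2 * r₀ + c₀) b4]

theorem pdecStmt (hG : GdStmt) (hD : DecStmt) (h1 : LD1Stmt) (hL : LgeoStmt) : PDecStmt := by
  intro F θ₀ hθ
  obtain ⟨W, r₀, c₀, hc, H⟩ := gd hG F hθ (by norm_num : (0 : ℝ) < 1 / 400)
  by_cases hW : 2 ≤ W
  swap
  · exact ⟨0, 1, one_pos, fun Λ hΛ L r a R z X h => absurd (H Λ hΛ L h).2.1 hW⟩
  have hWB := two_le_B hW
  have hB : 2 ≤ 4 * W ^ 4 := hW.trans hWB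
  generalize hBe : 4 * W ^ 4 = B at hB hWB
  obtain ⟨C, c1, c2, c3, c4, c5⟩ : ∃ C : ℕ, 3200 ≤ C ∧ B ^ 2 ≤ C ∧ c₀ ≤ C ∧ W * r₀ ≤ C ∧ W ≤ C :=
    ⟨3200 + B ^ 2 + c₀ + W * r₀ + W, by omega, by omega, by omega, by omega, by omega⟩
  refine ⟨C, _, (c_pos hB).1, fun Λ hΛ L r a R z X h hr ha hR hL' hX hI m hm => ?_⟩
  obtain ⟨ok, hg⟩ := H Λ hΛ L h
  have a1 := hg.2.1
  have a2 := ok.one_le_rg
  have a3 : r₀ ≤ r₀ * r := Nat.le_mul_of_pos_right _ hr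
  have a4 : W * (r₀ * r) ≤ a := by rw [← mul_assoc]; exact (Nat.mul_le_mul_right _ c4).trans ha
  have a5 : 2 * (r₀ * r) ≤ W * (r₀ * r) := Nat.mul_le_mul_right _ hW
  have a6 : r ≤ r₀ * r := Nat.le_mul_of_pos_left _ (by omega)
  have a7 : 2 * a ≤ W * a := Nat.mul_le_mul_right _ hW
  have a8 : a ≤ R := le_trans (Nat.le_mul_of_pos_left _ (by omega)) hR
  have a9 : R ≤ L / c₀ := (Nat.le_div_iff_mul_le hc).2
    (le_trans (by rw [mul_comm]; exact Nat.mul_le_mul_right _ c3) hL')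
  have hN : 0 ≤ Nm Λ z a X := Ex_nonneg (ok.cen_Nr_bl (self_mem_bl z a)).wt.nonneg fun _ _ => abs_nonneg _
  obtain ⟨d1, -, -, -, d2⟩ := ((h1 Λ ok).2 z r a (a + 2 * Λ.rg) X (by omega) le_rfl
    (hX.mono (bl_mono z (by omega))) hI).2.2.2.1 (W * a) (by omega)
  have d3 : Nm Λ z (W * a) X ≤ 2 * Nm Λ z a X := by
    refine d2.trans (mul_le_mul_of_nonneg_right ?_ hN)
    have := ((hL Λ ok).1 (r₀ * r) (W * (r₀ * r)) r a a6 a4 (by omega)).2.trans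
      (hg.2.2 _ a3 (by omega))
    linarith
  have key : ∀ {q : ℕ}, C * a ≤ q → q ≤ R → ∃ n : ℕ, B ^ (n + 2) * a ≤ q ∧ (∀ k : ℝ, 0 ≤ k → k ≤ 200 →
      k * (200 * (1 / 400) : ℝ) ^ n * Nm Λ z (W * a) X ≤
        C * ((a : ℝ) / q) ^ (Real.log 2 / Real.log B) * Nm Λ z a X) ∧
      (4 * W ^ 4) ^ (n + 1) * a ≤ R ∧ (4 * W ^ 4) ^ (n + 1) * a ≤ L / c₀ := by
    intro q hq hqR
    obtain ⟨n, b1, b2⟩ := exists_n hB (r := a) (R := q) (by omega)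
      ((Nat.mul_le_mul_right _ c2).trans hq)
    have b3 : B ^ (n + 1) * a ≤ R :=
      ((Nat.mul_le_mul_right _ (Nat.pow_le_pow_right (by omega) (by omega))).trans b1).trans hqR
    refine ⟨n, b1, fun k k0 k1 => ?_, hBe ▸ b3, hBe ▸ b3.trans a9⟩
    have hC : (3200 : ℝ) ≤ C := by exact_mod_cast c1
    calc _ ≤ 200 * (8 * ((a : ℝ) / q) ^ (Real.log 2 / Real.log B)) * (2 * Nm Λ z a X) := by
          gcongr
          exact Ex_nonneg (ok.cen_Nr_bl (self_mem_bl z _)).wt.nonneg fun _ _ => abs_nonneg _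
      _ = 3200 * ((a : ℝ) / q) ^ (Real.log 2 / Real.log B) * Nm Λ z a X := by ring
      _ ≤ _ := by gcongr
  have hD' := fun n b1 b2 => hD Λ ok _ W r₀ _ (by norm_num) (by norm_num) hg z a n R X (by omega) b1 b2
    (hX.mono (bl_mono z (by omega))) d1 m hm
  obtain ⟨n, -, e1, e2, e3⟩ := key hR le_rfl
  obtain ⟨f1, f2, f3, -⟩ := hD' n e2 e3
  have g1 := e1 20 (by norm_num) (by norm_num)
  refine ⟨f1.trans g1, fun m' hm' => (f2 m' hm').trans g1, fun R' hR' => ⟨(f3 R' hR').1.trans g1,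
    (f3 R' hR').2.trans (e1 40 (by norm_num) (by norm_num))⟩, fun q G hq hqR hG hi => ?_⟩
  have a10 : W * q ≤ R := (Nat.mul_le_mul_right _ c5).trans hqR
  have a11 : q ≤ R := le_trans (Nat.le_mul_of_pos_left _ (by omega)) a10
  obtain ⟨n, e0, e1, e2, e3⟩ := key hq a11
  refine ((hD' n e2 e3).2.2.2 q G ?_ a10 (a11.trans a9) hG hi).trans
    (mul_le_mul_of_nonneg_right (e1 200 (by norm_num) le_rfl) (Ex_nonneg (fun s => Mdl.W_nonneg
      (fun e he k => ((hole_fm hm.ctr.1 _ e he).pos k).le) (hole_ctr hm.ctr _).nn 0 s)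
      fun _ _ => abs_nonneg _))
  rw [hBe]
  refine le_trans ?_ e0
  calc _ ≤ B ^ 2 * (B ^ n * a) := Nat.mul_le_mul_right _ (by nlinarith)
    _ = _ := by ring

end Crest.Agent.T145.Nc
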