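import Crest.Agent.T145.PotD_17
import Crest.Agent.T145.PotHl_59
import Crest.Agent.T145.PotPo_44

/-!
# Row 145: the weak Beurling estimate (helper51)
-/

set_option autoImplicit false

namespace Crest.Agent.T145.Pot

open Finset Crest.ProbabilityR.HeightModel

namespace Be51

variable {Λ : Lat}

/-- Poincaré inequality on a ball, zero set meeting many rows or columns -/
theorem poin_bl : ∃ C : ℝ, 0 ≤ C ∧ ∀ (z : Pt) (ρ g : ℕ) (u : Pt → ℝ) (K : Finset Pt), K ⊆ bl z ρ →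
    (∀ x ∈ K, u x = 0) →
    (ρ + 1 ≤ g * (K.image Prod.fst).card ∨ ρ + 1 ≤ g * (K.image Prod.snd).card) →
    ∑ x ∈ bl z ρ, u x ^ 2 ≤ C * g * ((ρ : ℝ) + 1) ^ 2 * eN nL (bl z ρ) u u := by
  obtain ⟨C₀, hP⟩ := poinStmt
  refine ⟨8 * max C₀ 0, by positivity, fun z ρ g u K hK hu hg => ?_⟩
  have h2 := (hP (z.1 - ρ, z.2 - ρ) (2 * ρ + 1) u).2.1 K (by rwa [← bl_eq_sq]) hu
  rw [← bl_eq_sq] at h2
  have hE : 0 ≤ eN nL (bl z ρ) u u := (sy_eN _).nonneg u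
  have hF : 0 ≤ ∑ x ∈ bl z ρ, u x ^ 2 := sum_nonneg fun _ _ => sq_nonneg _
  have hb : C₀ * ((2 * ρ + 1 : ℕ) : ℝ) ^ 3 * eN nL (bl z ρ) u u ≤
      max C₀ 0 * (2 * ((ρ : ℝ) + 1)) ^ 3 * eN nL (bl z ρ) u u :=
    mul_le_mul_of_nonneg_right (mul_le_mul (le_max_left _ _)
      (pow_le_pow_left₀ (by positivity) (by push_cast; linarith) 3) (by positivity) (le_max_right _ _)) hE
  have h3 : ∀ N : ℕ, ρ + 1 ≤ g * N → N * ∑ x ∈ bl z ρ, u x ^ 2 ≤
      max C₀ 0 * (2 * ((ρ : ℝ) + 1)) ^ 3 * eN nL (bl z ρ) u u →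
      ∑ x ∈ bl z ρ, u x ^ 2 ≤ 8 * max C₀ 0 * g * ((ρ : ℝ) + 1) ^ 2 * eN nL (bl z ρ) u u := fun N h3 h4 => by
    have h5 : (ρ : ℝ) + 1 ≤ g * N := by exact_mod_cast h3
    refine le_of_mul_le_mul_left ((mul_le_mul_of_nonneg_right h5 hF).trans ?_)
      (by positivity : (0 : ℝ) < ρ + 1)
    rw [mul_assoc]
    exact (mul_le_mul_of_nonneg_left h4 (by positivity)).trans_eq (by ring)
  exact hg.elim (fun h4 => h3 _ h4 (h2.1.trans hb)) fun h4 => h3 _ h4 (h2.2.trans hb)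

/-- Dirichlet Poincaré inequality -/
theorem poin_D : ∃ C : ℝ, 0 ≤ C ∧ ∀ (z : Pt) (ρ : ℕ) (v : Pt → ℝ), Sup (bl z ρ) v →
    ∑ x ∈ bl z ρ, v x ^ 2 ≤ C * ((ρ : ℝ) + 2) ^ 2 * eD nL (bl z ρ) v v := by
  obtain ⟨C, hC, hP⟩ := poin_bl
  refine ⟨C, hC, fun z ρ v hv => ?_⟩
  have h1 := hP z (ρ + 1) 1 v ((Icc (z.1 - (ρ + 1)) (z.1 + (ρ + 1))).image fun i => (i, z.2 + (ρ + 1)))
    (fun x hx => by
      obtain ⟨i, hi, rfl⟩ := mem_image.1 hx
      rw [mem_Icc] at hi; rw [mem_bl]; push_cast; omega)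
    (fun x hx => hv x fun h => by
      obtain ⟨i, hi, rfl⟩ := mem_image.1 hx
      rw [mem_bl] at h; simp only at h; omega)
    (Or.inl (by
      rw [image_image, show (Prod.fst ∘ fun i : ℤ => (i, z.2 + (ρ + 1))) = id from rfl, image_id,
        Int.card_Icc]
      omega))
  have h2 : eN nL (bl z (ρ + 1)) v v ≤ eD nL (bl z ρ) v v :=
    (eN_le_eD _ v).trans_eq (eD_of_sup nL_ok (bl_mono z (Nat.le_succ ρ)) v hv)
  calc _ ≤ ∑ x ∈ bl z (ρ + 1), v x ^ 2 :=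
        sum_le_sum_of_subset_of_nonneg (bl_mono z (Nat.le_succ ρ)) fun _ _ _ => sq_nonneg _
    _ ≤ _ := h1.trans ((mul_le_mul_of_nonneg_left h2 (by positivity)).trans_eq (by push_cast; ring))

theorem edF_abs_le {V : Type*} (ed : Finset (V × V)) (u : V → ℝ) :
    edF ed (fun x => |u x|) (fun x => |u x|) ≤ edF ed u u := by
  rw [edF_self, edF_self]
  exact sum_le_sum fun e _ => sq_le_sq.2 (abs_abs_sub_abs_le_abs_sub _ _)

/-- the modulus of a function that is harmonic off its zero set is subharmonic -/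
theorem lapJ_abs {J : Finset Pt} {u : Pt → ℝ} {x : Pt} (h : u x = 0 ∨ lapJ J u x = 0) :
    0 ≤ lapJ J (fun w => |u w|) x := by
  rcases h with h | h
  · exact sum_nonneg fun y _ => by simp [h]
  · rcases le_total 0 (u x) with h1 | h1
    · exact h.ge.trans (sum_le_sum fun y _ => by
        simp only [abs_of_nonneg h1]; linarith [le_abs_self (u (x + y))])
    · have h2 : ∑ y ∈ J, -(u (x + y) - u x) = 0 := by rw [sum_neg_distrib]; exact neg_eq_zero.2 h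
      exact h2.ge.trans (sum_le_sum fun y _ => by
        simp only [abs_of_nonpos h1]; linarith [neg_abs_le (u (x + y))])

/-- pointwise bound by the energy of the double ball -/
theorem point (hH : HjStmt) (J : Finset Pt) (hJ : IsAdmissible J) : ∃ C : ℝ, 0 ≤ C ∧ ∀ Λ : Lat, Λ.Ok →
    Λ.J = J → ∀ (K : Finset Pt) (z y : Pt) (r : ℕ) (u : Pt → ℝ), 1 ≤ r → z ∈ K → y ∉ bl z (2 * r) →
      Conn (Λ.edI K) z y → (∀ x ∈ K, u x = 0) → (∀ x ∈ bl z (2 * r), x ∉ K → lapJ Λ.J u x = 0) →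
      ∀ x ∈ bl z r, u x ^ 2 ≤ C * eD Λ (bl z (2 * r)) u u := by
  obtain ⟨C₁, r₀, hC₁, -, hH⟩ := hH 0 J hJ
  obtain ⟨C₂, hC₂, hP⟩ := poin_bl
  obtain ⟨C₃, hC₃, hD⟩ := poin_D
  set g := (⟨J, false, 1⟩ : Lat).rg
  refine ⟨9 * C₂ * g * r₀ ^ 2 + C₁ ^ 2 * (32 * C₃ + 18 * C₂ * g), by positivity,
    fun Λ h hΛ K z y r u hr hz hy hK hu hl x hx => ?_⟩
  have hg : Λ.rg = g := (J_congr (Λ' := ⟨J, false, 1⟩) hΛ).2.2.2.2.2.1
  set D := bl z (2 * r)
  set E := eD Λ D u u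
  have hE : 0 ≤ E := (sy_eD _).nonneg u
  have hr' : (1 : ℝ) ≤ r := by exact_mod_cast hr
  have h1 : ∑ w ∈ D, u w ^ 2 ≤ 9 * C₂ * g * (r : ℝ) ^ 2 * E := by
    refine (hP z (2 * r) g u (K ∩ D) inter_subset_right (fun w hw => hu w (mem_inter.1 hw).1)
      (hg ▸ rowStmt Λ h K z y (2 * r) hz hy hK)).trans ?_
    have h2 : (((2 * r : ℕ) : ℝ) + 1) ^ 2 ≤ 9 * (r : ℝ) ^ 2 := by push_cast; nlinarith
    calc _ ≤ C₂ * g * (9 * (r : ℝ) ^ 2) * E :=
          mul_le_mul (mul_le_mul_of_nonneg_left h2 (by positivity))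
            ((eN_nL_le h _ u).trans (eN_le_eD _ u)) ((sy_eN _).nonneg u) (by positivity)
      _ = _ := by ring
  have hxD : x ∈ D := bl_mono z (by omega) hx
  rcases le_total r r₀ with h0 | h0
  · have h2 : u x ^ 2 ≤ ∑ w ∈ D, u w ^ 2 := single_le_sum (f := fun w => u w ^ 2)
      (fun _ _ => sq_nonneg _) hxD
    have h3 : (r : ℝ) ^ 2 ≤ (r₀ : ℝ) ^ 2 := by exact_mod_cast Nat.pow_le_pow_left h0 2
    have h4 : 9 * C₂ * g * (r : ℝ) ^ 2 * E ≤ 9 * C₂ * g * r₀ ^ 2 * E := by gcongr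
    have h5 : 0 ≤ C₁ ^ 2 * (32 * C₃ + 18 * C₂ * g) * E := by positivity
    linarith
  · have hc := co_eD h D
    set w : Pt → ℝ := fun t => |u t| with hw
    set H := Pot.hx D (eD Λ D) w with hH'
    have hm : ∀ t ∈ D, lapJ Λ.J H t = 0 := (hm_eD h Subset.rfl).1 (hc.hx_hm w)
    have h2 : w x ≤ H x := by
      have := le_of_lapJ h (D := D) (u := w - H) (M := 0)
        (fun t _ e _ h3 => by rw [Pi.sub_apply, hH', hc.hx_off w h3, sub_self])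
        (fun t ht => by
          rw [lapJ_sub, Pi.sub_apply, hm t ht, sub_zero]
          exact lapJ_abs (by
            by_cases h3 : t ∈ K
            · exact Or.inl (hu t h3)
            · exact Or.inr (hl t ht h3))) hxD
      simpa using this
    have h3 := (hH Λ h hΛ z r H h0 hm).zero (z := x) hx
    have hs : Sup D (w - H) := fun t ht => by rw [Pi.sub_apply, hH', hc.hx_off w ht, sub_self]
    have h4 : eD Λ D (w - H) (w - H) ≤ E := by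
      have h5 := hc.hx_pyth (η := w) (u := w) fun _ _ => rfl
      have h6 := hc.nonneg H
      have h7 : eD Λ D w w ≤ E := edF_abs_le _ u
      linarith
    have h5 : ∑ t ∈ D, (w - H) t ^ 2 ≤ 16 * C₃ * (r : ℝ) ^ 2 * E := by
      refine (hD z (2 * r) _ hs).trans ?_
      have h2 : (((2 * r : ℕ) : ℝ) + 2) ^ 2 ≤ 16 * (r : ℝ) ^ 2 := by push_cast; nlinarith
      calc _ ≤ C₃ * (16 * (r : ℝ) ^ 2) * E :=
            mul_le_mul (mul_le_mul_of_nonneg_left h2 hC₃) ((eD_nL_le h _ _).trans h4)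
              ((sy_eD _).nonneg _) (by positivity)
        _ = _ := by ring
    have h6 : ∑ t ∈ D, H t ^ 2 ≤ 2 * ∑ t ∈ D, (w - H) t ^ 2 + 2 * ∑ t ∈ D, u t ^ 2 := by
      rw [mul_sum, mul_sum, ← sum_add_distrib]
      refine sum_le_sum fun t _ => ?_
      rw [← sq_abs (u t), Pi.sub_apply]
      nlinarith [sq_nonneg (2 * w t - H t)]
    have h7 : u x ^ 2 ≤ C₁ ^ 2 * (∑ t ∈ D, H t ^ 2) / (r : ℝ) ^ 2 := by
      rw [← sq_abs, ← Real.sq_sqrt (sum_nonneg fun t (_ : t ∈ D) => sq_nonneg (H t)), ← mul_pow,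
        ← div_pow]
      exact pow_le_pow_left₀ (abs_nonneg _) (h2.trans ((le_abs_self _).trans h3)) 2
    have h8 : C₁ ^ 2 * (∑ t ∈ D, H t ^ 2) / (r : ℝ) ^ 2 ≤ C₁ ^ 2 * (32 * C₃ + 18 * C₂ * g) * E := by
      rw [div_le_iff₀ (by positivity)]
      calc _ ≤ C₁ ^ 2 * ((32 * C₃ + 18 * C₂ * g) * E * (r : ℝ) ^ 2) :=
            mul_le_mul_of_nonneg_left (by linarith) (by positivity)
        _ = _ := by ring
    have h9 : 0 ≤ 9 * C₂ * g * r₀ ^ 2 * E := by positivity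
    linarith

end Be51

/-- weak Beurling estimate -/
theorem beurStmt (hH : HjStmt) : BeurStmt := by
  intro J hJ
  obtain ⟨C₁, hC₁, h1⟩ := Be51.point hH J hJ
  obtain ⟨C₂, c, hc, h2⟩ := holeStmt poinStmt rowStmt _ (ok_of_adm hJ)
  refine ⟨C₁ * (C₂ * 2 ^ c), c, hc, fun Λ h hΛ K z y r R u hr hR hz hy hK hu hl x hx => ?_⟩
  obtain ⟨-, e1, e2, -⟩ := J_congr (Λ := Λ) (Λ' := ⟨J, false, 1⟩) hΛ
  have h3 := h2 K z y (2 * r) R u (by omega) hR hz hy (e1 ▸ hK) hu (hΛ ▸ hl)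
  rw [← e2] at h3
  refine (h1 Λ h hΛ K z y r u hr hz (fun h4 => hy (bl_mono z hR h4)) hK hu
    (fun t ht => hl t (bl_mono z hR ht)) x hx).trans
    ((mul_le_mul_of_nonneg_left h3 hC₁).trans_eq ?_)
  rw [Nat.cast_mul, Nat.cast_ofNat, mul_div_assoc, Real.mul_rpow (by norm_num) (by positivity)]
  ring

end Crest.Agent.T145.Pot
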