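import Crest.Agent.T145.NcT4Def_78
import Crest.Agent.T145.PotBe_51
import Crest.Agent.T145.PotAn_44
import Crest.Agent.T145.Route_51

/-!
# Row 145: routing a bounded density to a crossing set; crude routing in a connected graph (helper51)
-/

set_option autoImplicit false

namespace Crest.Agent.T145.Nc

open Finset

namespace Rt51

/-- the oscillation along a path is at most the total variation over the edges -/
theorem abs_sub_le_sum {V : Type*} {ed : Finset (V × V)} {x y : V} (h : Conn ed x y) (u : V → ℝ) :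
    |u y - u x| ≤ ∑ e ∈ ed, |u e.2 - u e.1| := by
  have h1 : Set.uIoc (u x) (u y) ⊆ ⋃ e ∈ ed, Set.uIoc (u e.1) (u e.2) := by
    induction h with
    | refl => simp
    | @tail b c _ h2 ih =>
      intro t ht
      have h3 : t ∈ Set.uIoc (u x) (u b) ∨ t ∈ Set.uIoc (u b) (u c) := by
        simp only [Set.mem_uIoc] at ht ⊢
        rcases le_or_gt t (u b) with h4 | h4 <;> rcases ht with ht | ht <;> tauto
      rcases h3 with h3 | h3
      · exact ih h3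
      · rcases h2 with h2 | h2
        · exact Set.mem_biUnion (s := (ed : Set (V × V))) h2 h3
        · exact Set.mem_biUnion (s := (ed : Set (V × V))) h2 (by rwa [Set.uIoc_comm] at h3)
  have h2 := (MeasureTheory.measure_mono (μ := MeasureTheory.volume) h1).trans
    (MeasureTheory.measure_biUnion_finset_le ed _)
  simp only [Real.volume_uIoc] at h2
  rwa [← ENNReal.ofReal_sum_of_nonneg fun _ _ => abs_nonneg _,
    ENNReal.ofReal_le_ofReal_iff (sum_nonneg fun _ _ => abs_nonneg _)] at h2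

theorem sq_sub_le {V : Type*} {ed : Finset (V × V)} {x y : V} (h : Conn ed x y) (u : V → ℝ) :
    (u y - u x) ^ 2 ≤ ed.card * Pot.edF ed u u := by
  rw [← sq_abs, Pot.edF_self]
  exact (pow_le_pow_left₀ (abs_nonneg _) (abs_sub_le_sum h u) 2).trans
    (sq_sum_abs_le ed fun e => u e.2 - u e.1)

/-- crude routing -/
theorem crude (V : Type) (ed : Finset (V × V)) (U : Finset V) (f : V → ℝ)
    (hc : ∀ x ∈ U, ∀ y ∈ U, Conn ed x y) (hs : Sup U f) (h0 : ∑ x ∈ U, f x = 0) :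
    F2 ed f (ed.card * (∑ x ∈ U, |f x|) ^ 2) := by
  classical
  have hE : ∀ u, 0 ≤ Pot.edF ed u u := (Pot.sy_edF ed).nonneg
  refine Pot.f2_of_dual (U := U ∪ (ed.image Prod.fst ∪ ed.image Prod.snd))
    (fun e he => ⟨mem_union_right _ (ends_mem ed e he).1, mem_union_right _ (ends_mem ed e he).2⟩)
    (Pot.Sup.mono hs subset_union_left) (by positivity) fun u => ?_
  rw [Pot.ip_comm, Pot.ip_of_sup subset_union_left u hs]
  rcases U.eq_empty_or_nonempty with rfl | ⟨x, hx⟩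
  · simp [Pot.ip]
  have h1 : Pot.ip U u f = ∑ y ∈ U, f y * (u y - u x) := by
    simp only [Pot.ip, mul_sub, sum_sub_distrib, ← sum_mul, h0, mul_zero, sub_zero, mul_comm]
  have h2 : |Pot.ip U u f| ≤ (∑ y ∈ U, |f y|) * √(ed.card * Pot.edF ed u u) := by
    rw [h1, sum_mul]
    refine (abs_sum_le_sum_abs _ _).trans (sum_le_sum fun y hy => ?_)
    rw [abs_mul]
    exact mul_le_mul_of_nonneg_left (Real.abs_le_sqrt (sq_sub_le (hc x hx y hy) u)) (abs_nonneg _)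
  have h3 := pow_le_pow_left₀ (abs_nonneg _) h2 2
  rw [sq_abs, mul_pow, Real.sq_sqrt (mul_nonneg (by positivity) (hE u))] at h3
  exact h3.trans_eq (by ring)

/-- a connected set leaves a ball through a thin shell (any starting point in the ball) -/
theorem exists_exit {Λ : Lat} {K : Finset Pt} {c x y : Pt} {t : ℕ} (h : Conn (Λ.edI K) x y)
    (hx : x ∈ bl c t) (hy : y ∉ bl c t) :
    ∃ p ∈ K, p ∉ bl c t ∧ p ∈ bl c (t + Λ.rg) ∧ Conn (Λ.edI K) p x := by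
  induction h with
  | refl => exact absurd hx hy
  | @tail b d h1 h2 ih =>
    by_cases hb : b ∈ bl c t
    · have h3 : d ∈ K ∧ d ∈ bl b Λ.rg := by
        rcases h2 with h2 | h2
        · exact ⟨(Lat.mem_edI.1 h2).2.2, Lat.edge_near (e := (b, d)) (Lat.mem_edI.1 h2).1⟩
        · exact ⟨(Lat.mem_edI.1 h2).2.1, Lat.edge_near' (e := (d, b)) (Lat.mem_edI.1 h2).1⟩
      exact ⟨d, h3.1, hy, bl_subset_bl hb (add_comm _ _).le h3.2,
        Conn.symm (Relation.ReflTransGen.tail h1 h2)⟩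
    · exact ih hb

/-- the sum of squares on `U` from the variance on `U` and the sum of squares on a fat subset -/
theorem sum_sq_le {U T : Finset Pt} (hT : T ⊆ U) {M : ℝ} (hM : 0 ≤ M) (hc : (U.card : ℝ) ≤ M * T.card)
    (u : Pt → ℝ) (a : ℝ) :
    ∑ x ∈ U, u x ^ 2 ≤ 4 * M * ∑ x ∈ T, u x ^ 2 + (2 + 4 * M) * ∑ x ∈ U, (u x - a) ^ 2 := by
  have h1 : ∑ x ∈ U, u x ^ 2 ≤ 2 * ∑ x ∈ U, (u x - a) ^ 2 + 2 * (U.card * a ^ 2) := by
    rw [mul_sum, ← nsmul_eq_mul, ← sum_const, mul_sum, ← sum_add_distrib]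
    exact sum_le_sum fun x _ => by nlinarith [sq_nonneg (u x - 2 * a)]
  have h2 : T.card * a ^ 2 ≤ 2 * ∑ x ∈ T, u x ^ 2 + 2 * ∑ x ∈ T, (u x - a) ^ 2 := by
    rw [mul_sum, mul_sum, ← nsmul_eq_mul, ← sum_const, ← sum_add_distrib]
    exact sum_le_sum fun x _ => by nlinarith [sq_nonneg (2 * u x - a)]
  have h3 : ∑ x ∈ T, (u x - a) ^ 2 ≤ ∑ x ∈ U, (u x - a) ^ 2 :=
    sum_le_sum_of_subset_of_nonneg hT fun _ _ _ => sq_nonneg _
  have h4 : U.card * a ^ 2 ≤ M * (T.card * a ^ 2) := by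
    rw [← mul_assoc]; exact mul_le_mul_of_nonneg_right hc (sq_nonneg _)
  have h5 := mul_le_mul_of_nonneg_left (h2.trans (add_le_add_right
    (mul_le_mul_of_nonneg_left h3 zero_le_two) _)) hM
  nlinarith

/-- Poincaré inequality on the annulus for functions vanishing on a crossing set -/
theorem poin_cross : ∃ C : ℝ, 0 < C ∧ ∀ Λ : Lat, Λ.Ok → ∀ (a : ℕ) (Z : Finset Pt) (x y : Pt)
    (u : Pt → ℝ), Λ.rg ≤ a → x ∈ bl 0 a → y ∉ bl 0 (4 * a) → Conn (Λ.edI Z) x y → (∀ z ∈ Z, u z = 0) →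
    ∑ z ∈ an 0 a (32 * a), u z ^ 2 ≤ C * Λ.rg * (a : ℝ) ^ 2 * Pot.eN Λ (an 0 a (32 * a)) u u := by
  obtain ⟨C₁, hC₁, h1⟩ := Pot.Be51.poin_bl
  obtain ⟨C₂, hC₂, h2⟩ := Pot.An44.poin_an 2
  refine ⟨4 * 65 ^ 2 * (4 * C₁) + (2 + 4 * 65 ^ 2) * (32 ^ 2 * C₂) + 1, by positivity,
    fun Λ h a Z x y u ha hx hy hZ hu => ?_⟩
  have hg := h.one_le_rg
  have hg' : (1 : ℝ) ≤ Λ.rg := by exact_mod_cast hg
  have ha' : (1 : ℝ) ≤ a := by exact_mod_cast hg.trans ha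
  obtain ⟨p, hp, hp1, hp2, hp3⟩ := exists_exit (t := 2 * a) hZ (bl_mono 0 (by omega) hx)
    fun h3 => hy (bl_mono 0 (by omega) h3)
  have hout : ∀ w ∈ bl 0 a, w ∉ bl p a := fun w hw h3 =>
    hp1 (bl_subset_bl hw (by omega) (mem_bl_comm.1 h3))
  have hT : bl p a ⊆ an 0 a (32 * a) := fun w hw =>
    mem_sdiff.2 ⟨bl_subset_bl hp2 (by omega) hw, fun h3 => hout w h3 hw⟩
  set E := Pot.eN Λ (an 0 a (32 * a)) u u
  have hE : 0 ≤ E := (Pot.sy_eN _).nonneg u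
  have h3 : ∑ z ∈ bl p a, u z ^ 2 ≤ 4 * C₁ * (Λ.rg * (a : ℝ) ^ 2 * E) := by
    refine (h1 p a Λ.rg u (Z ∩ bl p a) inter_subset_right (fun w hw => hu w (mem_inter.1 hw).1)
      (Pot.rowStmt Λ h Z p x a hp (hout x hx) hp3)).trans ?_
    calc _ ≤ C₁ * Λ.rg * (4 * (a : ℝ) ^ 2) * E :=
          mul_le_mul (mul_le_mul_of_nonneg_left (by nlinarith) (by positivity))
            ((Pot.eN_nL_le h _ u).trans (Pot.eN_mono hT u)) ((Pot.sy_eN _).nonneg u) (by positivity)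
      _ = _ := by ring
  have h4 : ∑ z ∈ an 0 a (32 * a), (u z - Pot.av (an 0 a (32 * a)) u) ^ 2 ≤
      32 ^ 2 * C₂ * (Λ.rg * (a : ℝ) ^ 2 * E) := by
    refine (h2 0 a (32 * a) u (by omega)).trans ?_
    calc _ ≤ C₂ * ((32 * a : ℕ) : ℝ) ^ 2 * (Λ.rg * E) :=
          mul_le_mul_of_nonneg_left ((Pot.eN_nL_le h _ u).trans (le_mul_of_one_le_left hE hg'))
            (by positivity)
      _ = _ := by push_cast; ring
  have h5 := sum_sq_le hT (M := 65 ^ 2) (by positivity) (by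
    have h6 : (an 0 a (32 * a)).card ≤ (bl 0 (32 * a)).card := card_le_card sdiff_subset
    rw [card_bl] at h6 ⊢
    have h7 : ((an 0 a (32 * a)).card : ℝ) ≤ (2 * (32 * a) + 1) ^ 2 := by exact_mod_cast h6
    push_cast
    nlinarith) u (Pot.av (an 0 a (32 * a)) u)
  have h6 : 0 ≤ Λ.rg * (a : ℝ) ^ 2 * E := by positivity
  nlinarith

end Rt51

theorem routeStmt : RouteStmt := by
  refine ⟨fun F => ?_, Rt51.crude⟩
  obtain ⟨C, hC, h1⟩ := Rt51.poin_cross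
  refine ⟨65 ^ 2 * C * (⟨F.J, false, 1⟩ : Lat).rg, fun Λ hΛ a Z A x y f K ha _ hx hy hZ hA hs hf => ?_⟩
  have h : Λ.Ok := ⟨hΛ.1 ▸ F.adm, F.pos.trans_le hΛ.2.2.1⟩
  rw [← (Pot.J_congr (Λ := Λ) (Λ' := ⟨F.J, false, 1⟩) hΛ.1).2.2.2.2.2.1]
  have hg' : (1 : ℝ) ≤ Λ.rg := by exact_mod_cast h.one_le_rg
  have ha' : (1 : ℝ) ≤ a := by exact_mod_cast h.one_le_rg.trans ha
  set U := an 0 a (32 * a) with hU
  have h2 : ∀ u, Pot.Sup (U \ Z) u →
      ∑ z ∈ U \ Z, u z ^ 2 ≤ C * Λ.rg * (a : ℝ) ^ 2 * Pot.edF (Λ.edI U) u u := fun u hu =>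
    (sum_le_sum_of_subset_of_nonneg sdiff_subset fun _ _ _ => sq_nonneg _).trans
      (h1 Λ h a Z x y u ha hx hy hZ fun z hz => hu z fun h3 => (mem_sdiff.1 h3).2 hz)
  have hc : Pot.Co (U \ Z) (Pot.edF (Λ.edI U)) :=
    Pot.co_of_mass (Pot.sy_edF _) (κ := (C * Λ.rg * (a : ℝ) ^ 2)⁻¹) (by positivity) fun u hu => by
      rw [inv_mul_le_iff₀ (by positivity)]; exact h2 u hu
  have h3 : ∑ z ∈ U \ Z, f z ^ 2 ≤ 65 ^ 2 * K ^ 2 / (a : ℝ) ^ 2 := by
    have h4 : (U \ Z).card ≤ (bl 0 (32 * a)).card := card_le_card (sdiff_subset.trans sdiff_subset)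
    rw [card_bl] at h4
    have h5 : (((U \ Z).card : ℕ) : ℝ) ≤ (2 * (32 * a) + 1) ^ 2 := by exact_mod_cast h4
    calc _ ≤ ∑ _z ∈ U \ Z, (K / (a : ℝ) ^ 2) ^ 2 := sum_le_sum fun z _ => by
          rw [← sq_abs]; exact pow_le_pow_left₀ (abs_nonneg _) (hf z) 2
      _ ≤ (65 * a) ^ 2 * (K / (a : ℝ) ^ 2) ^ 2 := by
          rw [sum_const, nsmul_eq_mul]
          exact mul_le_mul_of_nonneg_right (h5.trans (by nlinarith)) (sq_nonneg _)
      _ = _ := by field_simp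
  obtain ⟨φ, h4, h5⟩ := (hc.f2A_iff f _).2 (hc.G_le_of (C := 65 ^ 2 * C * Λ.rg * K ^ 2)
    (by positivity) fun u hu => by
      refine (sum_mul_sq_le_sq_mul_sq _ _ _).trans ((mul_le_mul h3 (h2 u hu)
        (sum_nonneg fun _ _ => sq_nonneg _) (by positivity)).trans_eq ?_)
      field_simp)
  refine ⟨φ, fun z hz => ?_, h5⟩
  by_cases h6 : z ∈ U
  · exact h4 z (mem_sdiff.2 ⟨h6, disjoint_left.1 hA hz⟩)
  · rw [hs z fun h7 => h6 (Pot.An44.an_mono 0 (by omega) (by omega) h7),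
      sup_dv φ (Lat.edI_ends U) z h6]

end Crest.Agent.T145.Nc
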