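import Crest.Agent.T145.Soft_23
import Crest.Agent.T145.Route_51
import Crest.Agent.T145.CorB_59

/-!
# Row 145, module (b): the Dirichlet limit in general domains (helper74)
-/

set_option autoImplicit false

namespace Crest.Agent.T145

open Finset Filter Topology

namespace D74

variable {Λ : Lat} {D D' : Finset Pt} {u v : Pt → ℝ} {K K' L L' : ℝ}

/-! ## smooth functions -/

theorem sm_nonneg (h : Sm2 u K L) (hL : 0 < L) : 0 ≤ K :=
  by simpa using (le_div_iff₀ hL).1 ((abs_nonneg _).trans (h.1 0 0))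

theorem sm_mono (h : Sm2 u K L) (hL : 0 < L) (hK : K ≤ K') : Sm2 u K' L :=
  ⟨fun i x => (h.1 i x).trans (by gcongr), fun i j x => (h.2 i j x).trans (by gcongr)⟩

theorem sm_down (h : Sm2 u K L) (hL : 0 < L') (hL' : L' ≤ L) : Sm2 u K L' := by
  have := sm_nonneg h (hL.trans_le hL')
  exact ⟨fun i x => (h.1 i x).trans (by gcongr), fun i j x => (h.2 i j x).trans (by gcongr)⟩

theorem sm_up (h : Sm2 u K L) (hL : 0 < L) {c : ℝ} (hc : 1 ≤ c) : Sm2 u (c ^ 2 * K) (c * L) := by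
  have hK := sm_nonneg h hL
  refine ⟨fun i x => (h.1 i x).trans ?_, fun i j x => (h.2 i j x).trans (le_of_eq ?_)⟩
  · rw [show c ^ 2 * K / (c * L) = c * (K / L) by field_simp]
    exact le_mul_of_one_le_left (by positivity) hc
  · field_simp

theorem sm_sub (h : Sm2 u K L) (h' : Sm2 v K' L) : Sm2 (u - v) (K + K') L := by
  refine ⟨fun i x => ?_, fun i j x => ?_⟩
  · rw [show df i (u - v) x = df i u x - df i v x by simp only [df, Pi.sub_apply]; ring, add_div]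
    exact (abs_sub _ _).trans (add_le_add (h.1 i x) (h'.1 i x))
  · rw [show df j (df i (u - v)) x = df j (df i u) x - df j (df i v) x by
      simp only [df, Pi.sub_apply]; ring, add_div]
    exact (abs_sub _ _).trans (add_le_add (h.2 i j x) (h'.2 i j x))

theorem sm_smul (h : Sm2 u K L) (t : ℝ) : Sm2 (t • u) (|t| * K) L := by
  refine ⟨fun i x => ?_, fun i j x => ?_⟩
  · rw [show df i (t • u) x = t * df i u x by simp only [df, Pi.smul_apply, smul_eq_mul]; ring,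
      abs_mul, mul_div_assoc]
    exact mul_le_mul_of_nonneg_left (h.1 i x) (abs_nonneg _)
  · rw [show df j (df i (t • u)) x = t * df j (df i u) x by
      simp only [df, Pi.smul_apply, smul_eq_mul]; ring, abs_mul, mul_div_assoc]
    exact mul_le_mul_of_nonneg_left (h.2 i j x) (abs_nonneg _)

theorem sm_shift (h : Sm2 u K L) (t : Pt) : Sm2 (fun x => u (x + t)) K L := by
  refine ⟨fun i x => ?_, fun i j x => ?_⟩
  · have := h.1 i (x + t)
    simp only [df] at this ⊢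
    rwa [add_right_comm x (ev i) t]
  · have := h.2 i j (x + t)
    simp only [df] at this ⊢
    rwa [add_right_comm (x + ev j) (ev i) t, add_right_comm x (ev j) t, add_right_comm x (ev i) t]

/-! ## functions supported inside a domain -/

/-- the support of `u` is inside `D`, with its range -/
def In (Λ : Lat) (u : Pt → ℝ) (D : Finset Pt) : Prop := ∀ x, u x ≠ 0 → bl x Λ.rg ⊆ D

theorem In.mono (h : In Λ u D) (hD : D ⊆ D') : In Λ u D' := fun x hx => (h x hx).trans hD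

theorem In.sub (h : In Λ u D) (h' : In Λ v D) : In Λ (u - v) D := fun x hx => by
  by_cases hu : u x = 0
  · exact h' x fun hv => hx (by simp [hu, hv])
  · exact h x hu

theorem In.smul (h : In Λ u D) (t : ℝ) : In Λ (t • u) D := fun x hx =>
  h x fun hu => hx (by simp [hu])

theorem In.edge (h : In Λ u D) {e : Pt × Pt} (he : e ∈ Λ.edI D') (hn : e ∉ Λ.edI D) :
    u e.2 - u e.1 = 0 := by
  have hJ := (Lat.mem_edI.1 he).1
  have h1 : u e.1 = 0 := by
    by_contra h1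
    exact hn (Lat.mem_edI.2 ⟨hJ, h _ h1 (self_mem_bl _ _), h _ h1 (Lat.edge_near hJ)⟩)
  have h2 : u e.2 = 0 := by
    by_contra h2
    exact hn (Lat.mem_edI.2 ⟨hJ, h _ h2 (Lat.edge_near' hJ), h _ h2 (self_mem_bl _ _)⟩)
  rw [h1, h2, sub_self]

theorem In.Au_eq (h : In Λ u D) (hD : D ⊆ D') : Λ.Au D' u = Λ.Au D u :=
  (dv_subset (Lat.edI_mono hD) fun _ he hn => by rw [h.edge he hn, zero_div]).symm

theorem In.En_eq (h : In Λ u D) (hD : D ⊆ D') (v : Pt → ℝ) : Λ.En D' u v = Λ.En D u v :=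
  (sum_subset (Lat.edI_mono hD) fun _ he hn => by rw [h.edge he hn, zero_mul, zero_div]).symm

theorem Au_sub (D : Finset Pt) (u v : Pt → ℝ) : Λ.Au D (u - v) = Λ.Au D u - Λ.Au D v := by
  rw [Lat.Au, Lat.Au, Lat.Au, ← dv_sub]
  exact dv_congr fun e _ => by simp only [Pi.sub_apply]; ring

theorem Au_smul (D : Finset Pt) (t : ℝ) (u : Pt → ℝ) : Λ.Au D (t • u) = t • Λ.Au D u := by
  rw [Lat.Au, Lat.Au, ← dv_smul]
  exact dv_congr fun e _ => by simp only [Pi.smul_apply, smul_eq_mul]; ring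

theorem Au_sum {ι : Type*} (D : Finset Pt) (I : Finset ι) (u : ι → Pt → ℝ) :
    Λ.Au D (∑ i ∈ I, u i) = ∑ i ∈ I, Λ.Au D (u i) := by
  simp only [Lat.Au]
  rw [← dv_sum]
  exact dv_congr fun e _ => by simp only [Finset.sum_apply, ← sum_div, sum_sub_distrib]

theorem En_sub (D : Finset Pt) (u v : Pt → ℝ) :
    Λ.En D (u - v) (u - v) = Λ.En D u u + Λ.En D v v - 2 * Λ.En D u v := by
  simp only [Lat.En, mul_sum, ← sum_add_distrib, ← sum_sub_distrib]
  exact sum_congr rfl fun e _ => by simp only [Pi.sub_apply]; ring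

theorem En_smul (D : Finset Pt) (t : ℝ) (u : Pt → ℝ) :
    Λ.En D (t • u) (t • u) = t ^ 2 * Λ.En D u u := by
  simp only [Lat.En, mul_sum]
  exact sum_congr rfl fun e _ => by simp only [Pi.smul_apply, smul_eq_mul]; ring

theorem En_sum {ι : Type*} (D : Finset Pt) (I : Finset ι) (u : ι → Pt → ℝ) :
    Λ.En D (∑ i ∈ I, u i) (∑ i ∈ I, u i) = ∑ i ∈ I, ∑ j ∈ I, Λ.En D (u i) (u j) := by
  simp only [Lat.En, Finset.sum_apply, ← sum_sub_distrib, sum_mul_sum, sum_div]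
  rw [sum_comm]
  exact sum_congr rfl fun i _ => sum_comm

theorem En_nonneg (h : Λ.Ok) (D : Finset Pt) (u : Pt → ℝ) : 0 ≤ Λ.En D u u :=
  sum_nonneg fun _ _ => div_nonneg (mul_self_nonneg _) h.pos.le

theorem Au_shift (D : Finset Pt) (u : Pt → ℝ) (t x : Pt) :
    Λ.Au (D.map (Equiv.addRight t).toEmbedding) u (x + t) = Λ.Au D (fun y => u (y + t)) x := by
  rw [Lat.Au, ← Lat.edI_map_add]
  exact dv_map (Equiv.addRight t) _ _ x

theorem En_shift (D : Finset Pt) (u v : Pt → ℝ) (t : Pt) :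
    Λ.En (D.map (Equiv.addRight t).toEmbedding) u v =
      Λ.En D (fun y => u (y + t)) fun y => v (y + t) := by
  rw [Lat.En, ← Lat.edI_map_add, sum_map]
  rfl

/-! ## one piece -/

/-- the square of side `32 r` centred at `c` -/
noncomputable def Q (c : Pt) (r : ℕ) : Finset Pt := sq (c - (16 * (r : ℤ), 16 * (r : ℤ))) (32 * r)

theorem in_Q {c : Pt} {r : ℕ} (hr : Λ.rg < r) (hs : ∀ x, u x ≠ 0 → x ∈ bl c r) :
    In Λ u (Q c r) := fun x hx y hy => by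
  have := hs x hx
  rw [mem_bl] at this hy
  rw [Q, mem_sq]
  simp only [Prod.fst_sub, Prod.snd_sub]
  omega

theorem piece (h : Λ.Ok) {m : Mdl Pt} (hm : Λ.Amb m D) (hl : Loc ((Λ.D D).W 0) (m.W 0))
    {θ e : ℝ} {r : ℕ} (hr : Λ.rg < r)
    (hDl : ∀ u : Pt → ℝ, Sm2 u K (32 * r : ℕ) →
      (∀ x, u x ≠ 0 → x ∈ sq ((32 * r / 2 - 32 * r / 16 : ℕ), (32 * r / 2 - 32 * r / 16 : ℕ))
        (32 * r / 8)) → θ * Λ.En (sq 0 (32 * r)) u u - e ≤
        Vr ((Λ.D (sq 0 (32 * r))).W 0) (Λ.X (32 * r) u) (Λ.X (32 * r) u))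
    {c : Pt} (hu : Sm2 u K (32 * r : ℕ)) (hs : ∀ x, u x ≠ 0 → x ∈ bl c r) (hQ : Q c r ⊆ D) :
    θ * Λ.En D u u - e ≤ Vr (m.W 0) (pr (Λ.Au D u)) (pr (Λ.Au D u)) := by
  set t : Pt := c - (16 * (r : ℤ), 16 * (r : ℤ)) with ht
  have hi := in_Q hr hs
  have hmap : (sq 0 (32 * r)).map (Equiv.addRight t).toEmbedding = Q c r := by
    rw [map_sq_add, zero_add, Q]
  have e1 := hDl _ (sm_shift hu t) fun x hx => by
    have := hs _ hx
    rw [mem_bl] at this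
    rw [mem_sq]
    simp only [ht, Prod.fst_add, Prod.snd_add, Prod.fst_sub, Prod.snd_sub] at this ⊢
    omega
  rw [hi.En_eq hQ, hi.Au_eq hQ, ← hmap, En_shift]
  refine e1.trans (le_trans ?_ (hl.Vr_le (h.cen_D _) (hm.1.cen hm.2.1) _))
  refine le_trans (le_of_eq ?_) ((h.loc_D_D hQ).Vr_le (h.cen_D _) (h.cen_D _) _)
  rw [(Λ.sym_add t).Vr_D h hmap]
  simp only [Lat.X, Equiv.coe_addRight, Au_shift]

/-- the defect form -/
theorem defect {W : Cfg Pt → ℝ} (hW : Cen W) {ι : Type*} (I : Finset ι) {u : ι → Pt → ℝ}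
    {θ e : ℝ} (h1 : ∀ i ∈ I, θ * Λ.En D (u i) (u i) - e ≤
      Vr W (pr (Λ.Au D (u i))) (pr (Λ.Au D (u i))))
    (h2 : ∀ i ∈ I, ∀ j ∈ I, M W (pr (Λ.Au D (u i - u j))) ≤
      θ * Λ.En D (u i - u j) (u i - u j) / 2 + e) :
    θ * Λ.En D (∑ i ∈ I, u i) (∑ i ∈ I, u i) - 2 * (I.card : ℝ) ^ 2 * e ≤
      Vr W (pr (Λ.Au D (∑ i ∈ I, u i))) (pr (Λ.Au D (∑ i ∈ I, u i))) := by
  have h3 : ∀ i ∈ I, ∀ j ∈ I, θ * Λ.En D (u i) (u j) - 2 * e ≤
      Vr W (pr (Λ.Au D (u i))) (pr (Λ.Au D (u j))) := fun i hi j hj => by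
    have a := (hW.vr_le_M _).trans (h2 i hi j hj)
    rw [Au_sub, pr_sub, En_sub, hW.se.Vr_sub_left, hW.se.Vr_sub_right, hW.se.Vr_sub_right,
      Vr_comm W (pr (Λ.Au D (u j))) (pr (Λ.Au D (u i)))] at a
    have b := h1 i hi
    have c := h1 j hj
    nlinarith
  rw [En_sum, Au_sum, pr_sum, hW.se.Vr_sum_left]
  have h4 := sum_le_sum fun i hi => sum_le_sum (h3 i hi)
  simp only [sum_sub_distrib, sum_const, nsmul_eq_mul, ← mul_sum] at h4
  simp only [hW.se.Vr_sum_right]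
  nlinarith

/-- a union of squares is regular -/
theorem reg_union (hB : BrStmt) (I : Finset Pt) (c : Pt → Pt) (r l : ℕ) :
    Reg (I.biUnion fun i => Q (c i) r) (4 * I.card) l (32 * r) := by
  have hq : ∀ i, Reg (Q (c i) r) 4 l (32 * r) := fun i => by
    have := hB.2.2.2.2.2.1 (c i - (16 * (r : ℤ), 16 * (r : ℤ))) (32 * r) (32 * r) l (32 * r) 1
      le_rfl (by rw [one_mul]) (by rw [one_mul])
    rwa [one_pow, mul_one] at this
  constructor
  · calc _ ≤ ((∑ i ∈ I, (Q (c i) r).card : ℕ) : ℝ) := by exact_mod_cast card_biUnion_le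
      _ ≤ ∑ i ∈ I, 4 * ((32 * r : ℕ) : ℝ) ^ 2 := by
        rw [Nat.cast_sum]; exact sum_le_sum fun i _ => (hq i).1
      _ = _ := by rw [sum_const, nsmul_eq_mul]; ring
  · calc _ ≤ ((∑ i ∈ I, ((Q (c i) r).filter fun x => ¬ bl x l ⊆ Q (c i) r).card : ℕ) : ℝ) := by
          refine Nat.cast_le.2 (le_trans (card_le_card fun x hx => ?_) card_biUnion_le)
          obtain ⟨hx, hx'⟩ := mem_filter.1 hx
          obtain ⟨i, hi, hxi⟩ := mem_biUnion.1 hx
          exact mem_biUnion.2 ⟨i, hi, mem_filter.2 ⟨hxi, fun h =>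
            hx' (h.trans (subset_biUnion_of_mem (fun i => Q (c i) r) hi))⟩⟩
      _ ≤ ∑ i ∈ I, 4 * (l : ℝ) * ((32 * r : ℕ) : ℝ) := by
        rw [Nat.cast_sum]; exact sum_le_sum fun i _ => (hq i).2
      _ = _ := by rw [sum_const, nsmul_eq_mul]; ring

theorem reg_mono {l n : ℕ} (h : Reg D K l n) (hK : K ≤ K') : Reg D K' l n :=
  ⟨h.1.trans (by gcongr), h.2.trans (by gcongr)⟩

/-- a smooth function with bounded support is bounded -/
theorem abs_le (hS : SmStmt) {n : ℕ} (hn : 1 ≤ n) (hK : 1 ≤ K) (hu : Sm2 u K n) {z : Pt}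
    (hs : ∀ x, u x ≠ 0 → x ∈ bl z ⌊K * n⌋₊) (x : Pt) : |u x| ≤ 3 * K ^ 2 := by
  by_cases hx : u x = 0
  · rw [hx, abs_zero]; positivity
  have h1 := mem_bl.1 (hs x hx)
  set R := ⌊K * n⌋₊ with hR
  have h0 : u (z.1 + R + 1, x.2) = 0 := by
    by_contra h
    have := mem_bl.1 (hs _ h)
    simp only at this
    omega
  have h2 := (hS.2.2.1 u K n x (z.1 + R + 1, x.2) hu).1
  rw [h0, zero_sub, abs_neg] at h2
  have hn' : (1 : ℝ) ≤ n := by exact_mod_cast hn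
  have h3 : (R : ℝ) ≤ K * n := Nat.floor_le (by positivity)
  have h4 : |((z.1 + R + 1 - x.1 : ℤ) : ℝ)| ≤ 2 * R + 1 := by
    have : |z.1 + R + 1 - x.1| ≤ 2 * R + 1 := _root_.abs_le.2 ⟨by omega, by omega⟩
    exact_mod_cast this
  have h5 : ∑ i, |co i ((z.1 + R + 1, x.2) - x)| ≤ 3 * (K * n) := by
    simp only [Fin.sum_univ_two, co, Prod.fst_sub, Prod.snd_sub, sub_self, Int.cast_zero,
      Matrix.cons_val_zero, Matrix.cons_val_one, abs_zero, add_zero]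
    nlinarith
  calc _ ≤ K / n * (3 * (K * n)) := h2.trans (by gcongr)
    _ = _ := by field_simp

/-- crude bound of the energy -/
theorem En_le (hS : SmStmt) (h : Λ.Ok) {C : ℝ} {l n : ℕ} (hn : 1 ≤ n) (hu : Sm2 u K n)
    (hD : Reg D K' l n) (h1 : 1 / Λ.τ ≤ C) (h2 : (Λ.rg : ℝ) ≤ C) (h3 : (Λ.Jp.card : ℝ) ≤ C) :
    Λ.En D u u ≤ 4 * K' * K ^ 2 * C ^ 4 := by
  have hn' : (0 : ℝ) < n := by exact_mod_cast hn
  have hK := sm_nonneg hu hn'
  have hC : 0 ≤ C := (Nat.cast_nonneg _).trans h2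
  have hτ := h.pos
  have e1 : ∀ e ∈ Λ.edI D, (u e.2 - u e.1) * (u e.2 - u e.1) / Λ.τ ≤ (K / n * (2 * C)) ^ 2 * C :=
    fun e he => by
      have a := (hS.2.2.1 u K n e.1 e.2 hu).1
      have b := Lat.le_rg (Lat.mem_Jp.1 (Lat.mem_edI.1 he).1).1
      have c1 : |(((e.2 - e.1).1 : ℤ) : ℝ)| ≤ Λ.rg := by exact_mod_cast b.1
      have c2 : |(((e.2 - e.1).2 : ℤ) : ℝ)| ≤ Λ.rg := by exact_mod_cast b.2
      have d : ∑ i, |co i (e.2 - e.1)| ≤ 2 * C := by
        simp only [Fin.sum_univ_two, co, Matrix.cons_val_zero, Matrix.cons_val_one]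
        linarith
      rw [← pow_two, ← sq_abs, div_eq_mul_one_div]
      gcongr
      exact a.trans (by gcongr)
  have e2 : ((Λ.edI D).card : ℝ) ≤ K' * (n : ℝ) ^ 2 * C := by
    have : ((Λ.edI D).card : ℝ) ≤ D.card * Λ.Jp.card := by exact_mod_cast card_edI_le Λ D
    exact this.trans (mul_le_mul hD.1 h3 (Nat.cast_nonneg _) ((Nat.cast_nonneg _).trans hD.1))
  calc _ ≤ ∑ e ∈ Λ.edI D, (K / n * (2 * C)) ^ 2 * C := sum_le_sum e1
    _ = (Λ.edI D).card * ((K / n * (2 * C)) ^ 2 * C) := by rw [sum_const, nsmul_eq_mul]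
    _ ≤ K' * (n : ℝ) ^ 2 * C * ((K / n * (2 * C)) ^ 2 * C) := by gcongr
    _ = _ := by field_simp; ring

theorem near_tile {r N : ℕ} (hr : 0 < r) {a x i : ℤ} (h1 : |x - a| ≤ (N * r : ℕ))
    (h2 : |x - r * i| ≤ r) : |i - a / r| ≤ (N + 2 : ℕ) := by
  have hr' : (0 : ℤ) < r := by exact_mod_cast hr
  have a1 := Int.emod_add_mul_ediv a r
  have a2 := Int.emod_nonneg a hr'.ne'
  have a3 := Int.emod_lt_of_pos a hr'
  rw [_root_.abs_le] at h1 h2 ⊢
  push_cast at h1 ⊢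
  constructor
  · by_contra h
    have : (i - a / r + (N + 2) + 1) * r ≤ 0 := mul_nonpos_of_nonpos_of_nonneg (by omega) hr'.le
    nlinarith
  · by_contra h
    have : 0 ≤ (i - a / r - (N + 2) - 1) * r := mul_nonneg (by omega) hr'.le
    nlinarith

end D74

open D74 in
/-- DL in general domains -/
theorem dlgStmt (hB : BrStmt) (hS : SmStmt) (hA : AFacStmt) (ha : T1aStmt) (hx : T1xStmt)
    (hm : T1mStmt) (hDl : DlStmt) : DlgStmt := by
  classical
  refine Soft.of_ev fun F θ₀ K ε h0 hK hε => ?_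
  obtain ⟨C, hC⟩ := hS.2.2.2.2
  obtain ⟨C₀, hC₀, hF⟩ := F.exists_bound
  obtain ⟨C₁, ha⟩ := ha F
  obtain ⟨k, hk⟩ := pow_unbounded_of_one_lt K (one_lt_two (α := ℝ))
  set N : ℕ := 2 ^ k with hN
  have hKN : K ≤ N := by rw [hN]; push_cast; exact hk.le
  set n : ℝ := (((2 * (32 * (N * N) + 2) + 1) ^ 2 : ℕ) : ℝ) with hn
  have hn0 : 0 ≤ n := Nat.cast_nonneg _
  obtain ⟨R, ε₁, hR, hε₁, hA⟩ := hA.2.2 (4 * (4 * n) * K ^ 2 * C₀ ^ 4) ε hε
  set K₂ : ℝ := 4 * (3 * K ^ 2) * (32 ^ 2 * max C 1) with hK₂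
  have hK1 : K ≤ 3 * K ^ 2 := by nlinarith
  have hC1 : (1 : ℝ) ≤ 32 ^ 2 * max C 1 := by linarith [le_max_right C 1]
  have hK21 : 1 ≤ K₂ := by nlinarith
  set e : ℝ := ε₁ / (2 * n ^ 2 + 1) with he
  have he0 : 0 < e := by positivity
  have he1 : (2 * n ^ 2 + 1) * e = ε₁ := by rw [he]; field_simp
  obtain ⟨δ₁, hδ₁, hx⟩ := hx F (4 * n + R * K + (K₂ + K₂)) e he0
  filter_upwards [hDl.sub hm F h0 hK21 he0 k, ev_subwin hm F h0 hδ₁ k,
    ev_large (2 ^ (5 + k) * (F.base.rg + 1))] with δ hDl hw hbig Λ hΛ l L hW m D z u hm hl hu hs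
  have h := hΛ.ok
  obtain ⟨J, rfl⟩ := hW.dyadic
  have hb := (hbig _ _ hW.sep).2.2
  rw [← hΛ.rg_eq] at hb
  obtain ⟨i, rfl⟩ := Nat.exists_eq_add_of_le (show 5 + k ≤ J from
    (Nat.pow_le_pow_iff_right one_lt_two).1 ((Nat.le_mul_of_pos_right _ (by omega)).trans hb))
  set r : ℕ := 2 ^ i with hr
  have hrg : Λ.rg < r := by
    rw [pow_add 2 (5 + k)] at hb
    exact Nat.le_of_mul_le_mul_left hb (by positivity)
  have hj1 : 2 ^ (5 + i) ≤ 2 ^ (5 + k + i) := Nat.pow_le_pow_right two_pos (by omega)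
  have hj2 : 2 ^ (5 + k + i) ≤ 2 ^ (5 + i + k) := le_of_eq (by ring)
  have hD1 := hDl Λ hΛ l _ hW _ hj1 hj2
  have hsep := (hw Λ hΛ l _ hW _ hj1 (Or.inl hj2)).sep
  have hL' : 2 ^ (5 + i) = 32 * r := by rw [pow_add]; rfl
  have hL : 2 ^ (5 + k + i) = N * (32 * r) := by rw [hN, hr]; ring
  rw [hL'] at hD1 hsep
  rw [hL] at hu hs
  have hr0 : 0 < r := by omega
  have hN0 : 0 < N := by positivity
  have hrr : (0 : ℝ) < r := by exact_mod_cast hr0
  have hL0 : (0 : ℝ) < (32 * r : ℕ) := by positivity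
  have hu' : Sm2 u K (32 * r : ℕ) :=
    sm_down hu hL0 (by exact_mod_cast Nat.le_mul_of_pos_left _ hN0)
  have hub := abs_le hS (Nat.mul_pos hN0 (by omega)) hK hu fun x hx => (hs x hx).1
  have hf1 : ⌊K * (N * (32 * r) : ℕ)⌋₊ ≤ 32 * (N * N) * r :=
    Nat.floor_le_of_le (by push_cast; nlinarith [mul_pos (Nat.cast_pos.2 hN0 : (0 : ℝ) < N) hrr])
  have hf2 : 32 * r ≤ ⌊((N * (32 * r) : ℕ) : ℝ) / K⌋₊ :=
    Nat.le_floor (by rw [le_div_iff₀ (by linarith)]; push_cast; nlinarith)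
  obtain ⟨χ, hχ, hχ1, hχs, hχp⟩ := hC r hr0
  set I : Finset Pt := (bl (z.1 / r, z.2 / r) (32 * (N * N) + 2)).filter
    fun i => ∃ x, u x ≠ 0 ∧ x - (r : ℤ) • i ∈ bl 0 r with hI
  have hIn : (I.card : ℝ) ≤ n := by
    rw [hn, ← card_bl (z.1 / r, z.2 / r)]
    exact_mod_cast card_filter_le _ _
  set w : Pt → Pt → ℝ := fun i => u * fun x => χ (x + -((r : ℤ) • i)) with hwd
  have hsum : ∑ i ∈ I, w i = u := by
    funext x
    simp only [hwd, Finset.sum_apply, Pi.mul_apply, ← mul_sum, ← sub_eq_add_neg]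
    by_cases hx : u x = 0
    · rw [hx, zero_mul]
    rw [hχp x I fun i hi => mem_filter.2 ⟨?_, x, hx, hi⟩, mul_one]
    have a := mem_bl_abs.1 (bl_mono z hf1 (hs x hx).1)
    have b := mem_bl_abs.1 hi
    simp only [Prod.fst_sub, Prod.snd_sub, Prod.smul_fst, Prod.smul_snd, smul_eq_mul,
      Prod.fst_zero, Prod.snd_zero, sub_zero] at b
    exact mem_bl_abs.2 ⟨near_tile hr0 a.1 b.1, near_tile hr0 a.2 b.2⟩
  have hws : ∀ i x, w i x ≠ 0 → x ∈ bl ((r : ℤ) • i) r := fun i x hx => by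
    have := mem_bl_abs.1 (hχs _ (right_ne_zero_of_mul hx))
    rw [mem_bl_abs]
    simpa [sub_eq_add_neg] using this
  have hwm : ∀ i, Sm2 (w i) K₂ (32 * r : ℕ) := fun i => by
    refine hS.2.1 _ _ _ _ _ hL0 (sm_mono hu' hL0 hK1) ?_ (fun x => ?_) fun _ y _ _ => hub y
    · have := sm_up (sm_mono (sm_shift hχ (-((r : ℤ) • i))) hrr (le_max_left C 1)) hrr
        (show (1 : ℝ) ≤ 32 by norm_num)
      rwa [show ((32 * r : ℕ) : ℝ) = 32 * r by push_cast; ring]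
    · rw [abs_of_nonneg (hχ1 _).1]; exact (hχ1 _).2.trans hC1
  have hQ : ∀ i ∈ I, Q ((r : ℤ) • i) r ⊆ D := fun i hi y hy => by
    obtain ⟨x, hx, hxi⟩ := (mem_filter.1 hi).2
    refine (hs x hx).2 (bl_mono x hf2 ?_)
    rw [Q, mem_sq] at hy
    rw [mem_bl] at hxi ⊢
    simp only [Prod.fst_sub, Prod.snd_sub, Prod.fst_zero, Prod.snd_zero] at hy hxi
    omega
  set D' := I.biUnion fun i => Q ((r : ℤ) • i) r with hD'
  have hDD : D' ⊆ D := biUnion_subset.2 hQ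
  have hreg : Reg D' (4 * n) l (32 * r) := reg_mono (reg_union hB I _ r l) (by gcongr)
  have hwi : ∀ i ∈ I, In Λ (w i) D' := fun i hi =>
    (in_Q hrg (hws i)).mono (subset_biUnion_of_mem (fun i => Q ((r : ℤ) • i) r) hi)
  have hui : In Λ u D' := fun x hx => by
    rw [← hsum, Finset.sum_apply] at hx
    obtain ⟨i, hi, hx⟩ := exists_ne_zero_of_sum_ne_zero hx
    exact hwi i hi x hx
  have hRK : 0 ≤ R * K := by positivity
  have hup : ∀ v : Pt → ℝ, In Λ v D' → Sm2 v (4 * n + R * K + (K₂ + K₂)) (32 * r : ℕ) →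
      M (m.W 0) (pr (Λ.Au D v)) ≤ Λ.tN l * Λ.En D v v / 2 + e := fun v hv hv' => by
    have := hx Λ hΛ l _ hsep m D' v (fun _ => 0)
      ⟨hm.1, hm.2.1, (Lat.edI_mono hDD).trans hm.2.2.1, fun e he => hm.2.2.2 e (Lat.edI_mono hDD he)⟩
      (reg_mono hreg (by linarith)) hv' fun _ _ => by rw [abs_zero]; positivity
    rw [hv.Au_eq hDD, hv.En_eq hDD]
    simpa [dv_zero] using this
  have hc := hm.1.cen hm.2.1
  have hlow := defect hc I (fun i hi => piece h hm hl hrg hD1 (hwm i) (hws i) (hQ i hi))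
    fun i hi j hj => hup _ ((hwi i hi).sub (hwi j hj))
      (sm_mono (sm_sub (hwm i) (hwm j)) hL0 (by linarith))
  rw [hsum] at hlow
  obtain ⟨-, f1, -, -, -, f2, -, f3⟩ := hF Λ hΛ
  obtain ⟨t0, t1, -⟩ := ha Λ hΛ l hW.one_le_l
  have hE := En_le hS h (by omega) hu' hreg f1 f2 f3
  rw [← hui.En_eq hDD] at hE
  have hE0 := En_nonneg h D u
  have := hA _ (m.W 0) (pr (Λ.Au D u)) 0 (Λ.tN l * Λ.En D u u) hc
    (by rw [abs_of_nonneg (by positivity)]; exact (mul_le_of_le_one_left hE0 t1).trans hE)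
    (fun t ht => ?_) ?_ fun t _ => ?_
  · rwa [add_zero] at this
  · have h1 : |t| * K ≤ R * K := by gcongr
    have := hup _ (hui.smul t) (sm_mono (sm_smul hu' t) hL0 (by linarith))
    rw [Au_smul, pr_smul, En_smul] at this
    have h2 : 0 ≤ n ^ 2 * e := by positivity
    linarith
  · have : (I.card : ℝ) ^ 2 * e ≤ n ^ 2 * e := by gcongr
    linarith
  · rw [smul_zero, hc.wt.M_zero]; exact hε₁.le

end Crest.Agent.T145
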