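import Crest.Agent.T145.NcT4Def_78
import Crest.Agent.T145.NcBas_78
import Crest.Agent.T145.NcGeo_51
import Crest.Agent.T145.Br_73
import Crest.Agent.T145.Dlg_74

/-!
# Row 145, soft T4: assembly of the crossing form (helper37)
-/

set_option autoImplicit false

namespace Crest.Agent.T145.Nc

open Finset Filter Topology

namespace C37

variable {Λ : Lat} {U D : Finset Pt} {u v f : Pt → ℝ} {K L : ℝ}

theorem Au_lin (D : Finset Pt) (a b : ℝ) (u v : Pt → ℝ) :
    pr (Λ.Au D (a • u + b • v)) = a • pr (Λ.Au D u) + b • pr (Λ.Au D v) := by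
  rw [← pr_smul, ← pr_smul, ← pr_add, Lat.Au, Lat.Au, Lat.Au, ← dv_smul, ← dv_smul, ← dv_add]
  congr 1
  exact dv_congr fun e _ => by simp only [Pi.add_apply, Pi.smul_apply, smul_eq_mul]; ring

theorem En_lin (D : Finset Pt) (a b : ℝ) (u v : Pt → ℝ) :
    Λ.En D (a • u + b • v) (a • u + b • v) =
      a ^ 2 * Λ.En D u u + 2 * a * b * Λ.En D u v + b ^ 2 * Λ.En D v v := by
  simp only [Lat.En, mul_sum, ← sum_add_distrib]
  exact sum_congr rfl fun e _ => by simp only [Pi.add_apply, Pi.smul_apply, smul_eq_mul]; ring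

theorem sm_lin (h : Sm2 u K L) (h' : Sm2 v K L) (hL : 0 < L) {a b : ℝ} (ha : |a| ≤ 1) (hb : |b| ≤ 1) :
    Sm2 (a • u + b • v) (2 * K) L := by
  have h0 := D74.sm_nonneg h hL
  have := D74.sm_sub (D74.sm_smul h a) (D74.sm_smul h' (-b))
  rw [neg_smul, sub_neg_eq_add, abs_neg] at this
  exact D74.sm_mono this hL (by nlinarith)

theorem gin_lin (h : Gin Λ u D) (h' : Gin Λ v D) (a b : ℝ) : Gin Λ (a • u + b • v) D :=
  fun x y hxy hne => by
    by_cases hu : u x = u y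
    · exact h' x y hxy fun hv => hne (by simp [hu, hv])
    · exact h x y hxy hu

theorem gin_mono (h : Gin Λ u D) (hD : D ⊆ U) : Gin Λ u U := fun x y hxy hne =>
  ⟨hD (h x y hxy hne).1, hD (h x y hxy hne).2⟩

theorem pv_mono (h : Pv D f) (hD : D ⊆ U) : Pv U f :=
  ⟨h.1, fun x hx => h.2.1 x fun hx' => hx (hD hx'), by
    rw [← h.2.2]; exact (sum_subset hD fun x _ hx => h.2.1 x hx).symm⟩

theorem pv_ne (h : Pv U f) : U.Nonempty := by
  by_contra hn
  have := h.2.2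
  rw [not_nonempty_iff_eq_empty.1 hn, sum_empty] at this
  exact zero_ne_one this

theorem inn_N (h : D ⊆ U) : inn D (Λ.N U).ed = Λ.edI D := Lat.inn_edI h

/-- the bare bounds in the free model on `U` pinned on `S` -/
theorem bare (hB : BrStmt) (h : Λ.Ok) (hU : Cn (Λ.N U) U) {S : Finset Pt} {r : Pt} (hr : r ∈ U)
    (hS : r ∈ S) {n : ℝ} (hf : F2A (Λ.edI U) (U \ S) f n) :
    Vr ((pn (Λ.N U) U S).W 0) (pr f) (pr f) ≤ Λ.τ * n ∧
      M ((pn (Λ.N U) U S).W 0) (pr f) ≤ Λ.τ * n * Real.cosh (Real.sqrt n) / 2 := by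
  have := hB.2.1 Λ (pn (Λ.N U) U S) f n h (pn_ctr (h.ctr_N U).1 U S) (pn_anch hU hr hS) (Λ.edI U)
    (by rw [pn_ed, inn_N Subset.rfl]) (fun _ _ => rfl) hf
  exact ⟨this.1, this.2.1⟩

/-- a neutral function of small mass gives a small variable -/
theorem small (hB : BrStmt) (hR : RouteStmt) (h : Λ.Ok) (hU : Cn (Λ.N U) U) (hn : U.Nonempty)
    (hs : Sup U f) (h0 : ∑ x ∈ U, f x = 0) :
    Pr (rW (Λ.N U) U) (fun s => 1 ≤ |pr f s|) ≤ Λ.τ * ((Λ.edI U).card * (∑ x ∈ U, |f x|) ^ 2) := by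
  have hc := rW_cen (h.ctr_N U).1 hU hn
  obtain ⟨r, hr, hrs⟩ := rs_spec hn
  have h1 := hR.2 Pt (Λ.edI U) U f (fun x hx y hy => by
    have := hU x hx y hy; rwa [inn_N Subset.rfl] at this) hs h0
  have h2 := (bare hB h hU hr (S := rs U) (by rw [hrs]; exact mem_singleton_self r) (h1.f2a _)).1
  have h3 := hc.wt.chebyshev (F := fun s => pr f s) (t := 1)
    (hc.se.ig ((Tame.hom (pr f)).pow 2)) one_pos
  rw [one_pow, div_one] at h3
  refine h3.trans (le_trans (le_of_eq ?_) h2)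
  rw [← rW, hc.Vr_eq]
  simp only [pow_two]

/-- persistence of normalised variables -/
theorem pers (hP : PersStmt) {W : Cfg Pt → ℝ} (hW : Cen W) {n : ℕ} (hn : 1 ≤ n) {η θ : ℝ}
    (h0 : 0 < η) (h1 : η ≤ 1 / 10) (hθ : 0 < θ) {u : ℕ → Pt → ℝ}
    (hE : ∀ i < n, 1 ≤ θ * Λ.En U (u i) (u i))
    (hO : ∀ i < n, ∀ j < n, i ≠ j → Λ.En U (u i) (u j) ≤
      η / 2 * (Real.sqrt (Λ.En U (u i) (u i)) * Real.sqrt (Λ.En U (u j) (u j))))
    (hV : ∀ i < n, ∀ j < n, ∀ a b : ℝ, |a| ≤ 1 → |b| ≤ 1 →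
      θ * Λ.En U (a • u i + b • u j) (a • u i + b • u j) - η / 2 ≤
        Vr W (pr (Λ.Au U (a • u i + b • u j))) (pr (Λ.Au U (a • u i + b • u j))) ∧
      M W (pr (Λ.Au U (a • u i + b • u j))) ≤
        θ * Λ.En U (a • u i + b • u j) (a • u i + b • u j) / 2 + η / 2) :
    Pr W (fun s => ∀ i < n, -(1 / 10) ≤
      (Real.sqrt (θ * Λ.En U (u i) (u i)))⁻¹ * pr (Λ.Au U (u i)) s) ≤ 100 * (1 / n + η) := by
  set c : ℕ → ℝ := fun i => (Real.sqrt (θ * Λ.En U (u i) (u i)))⁻¹ with hc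
  have hs : ∀ i < n, 1 ≤ Real.sqrt (θ * Λ.En U (u i) (u i)) := fun i hi =>
    Real.one_le_sqrt.2 (hE i hi)
  have hc0 : ∀ i, 0 ≤ c i := fun i => inv_nonneg.2 (Real.sqrt_nonneg _)
  have hc1 : ∀ i < n, |c i| ≤ 1 := fun i hi => by
    rw [abs_of_nonneg (hc0 i)]; exact inv_le_one_of_one_le₀ (hs i hi)
  have hc2 : ∀ i < n, θ * (c i ^ 2 * Λ.En U (u i) (u i)) = 1 := fun i hi => by
    have := hE i hi
    simp only [hc]
    rw [inv_pow, Real.sq_sqrt (by linarith)]
    have h' : θ * Λ.En U (u i) (u i) ≠ 0 := by linarith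
    rw [mul_left_comm, inv_mul_cancel₀ h']
  have hc3 : ∀ i < n, Real.sqrt θ * (c i * Real.sqrt (Λ.En U (u i) (u i))) = 1 := fun i hi => by
    have := hs i hi
    simp only [hc]
    rw [mul_left_comm, ← Real.sqrt_mul hθ.le, inv_mul_cancel₀ (by linarith)]
  refine hP _ W n (fun i => c i • pr (Λ.Au U (u i))) η hW hn h0.le h1 (fun i hi => ⟨?_, ?_⟩)
    fun i hi j hj hij => ?_
  · have := (hV i hi i hi (c i) 0 (hc1 i hi) (by simp)).1
    rw [Au_lin, En_lin, zero_smul, add_zero] at this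
    have h2 := hc2 i hi
    simp only [mul_zero, zero_mul, add_zero, ne_eq, OfNat.ofNat_ne_zero, not_false_eq_true,
      zero_pow] at this
    linarith
  · have := (hV i hi i hi (c i) (c i) (hc1 i hi) (hc1 i hi)).2
    rw [Au_lin, En_lin] at this
    have h2 := hc2 i hi
    nlinarith
  · have := (hV i hi j hj (c i) (c j) (hc1 i hi) (hc1 j hj)).2
    rw [Au_lin, En_lin] at this
    have h2 := hc2 i hi
    have h3 := hc2 j hj
    have h4 : θ * (c i * c j * Λ.En U (u i) (u j)) ≤ η / 2 := by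
      refine (mul_le_mul_of_nonneg_left (mul_le_mul_of_nonneg_left (hO i hi j hj hij)
        (mul_nonneg (hc0 i) (hc0 j))) hθ.le).trans (le_of_eq ?_)
      have e : θ = Real.sqrt θ * Real.sqrt θ := (Real.mul_self_sqrt hθ.le).symm
      calc _ = η / 2 * ((Real.sqrt θ * (c i * Real.sqrt (Λ.En U (u i) (u i)))) *
          (Real.sqrt θ * (c j * Real.sqrt (Λ.En U (u j) (u j))))) := by
            conv_lhs => rw [e]
            ring
        _ = η / 2 := by rw [hc3 i hi, hc3 j hj]; ring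
    nlinarith

end C37

set_option maxHeartbeats 800000 in
open C37 Geo in
theorem t4cStmt (hP : PersStmt) (hX : CrossStmt) (hR : RouteStmt) (hT : TestStmt) (hV : VarStmt)
    (hB : BrStmt) (hm : T1mStmt) : T4cStmt := by
  intro F
  obtain ⟨K₁, hK₁, hT⟩ := hT F
  obtain ⟨Cr, hr⟩ := hR.1 F
  obtain ⟨c, hc1, hc⟩ := F.exists_bound
  refine ⟨K₁, fun θ₀ K g hθ hK hg => ?_⟩
  set N := 4 * (|Cr| * K₁ ^ 2) with hN
  have hN0 : 0 ≤ N := by positivity
  set B := c * N * Real.cosh (Real.sqrt N) / 2 with hBd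
  have hB0 : 0 ≤ B := by positivity
  obtain ⟨n, hn⟩ := exists_nat_ge (1600 / g)
  have hn0 : (0 : ℝ) < n := lt_of_lt_of_le (by positivity) hn
  have hn1 : 1 ≤ n := by exact_mod_cast hn0
  set η := min (1 / 10) (g / 1600) with hη
  have hη0 : 0 < η := by positivity
  set t := 2 * B + 1 + 64 * n / g with ht
  have ht0 : 0 ≤ t := by positivity
  set η' := min (η / 2) (g / (8 * (n * (c * (65 ^ 2 * c))))) with hη'
  have hη'0 : 0 < η' := by positivity
  obtain ⟨W₀, M₀, K₂, hW₀, hT⟩ := hT n η' (2 / θ₀ * (10 * (K₁ * t + 1)) ^ 2) hη'0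
  have hKv : 1 ≤ K + 2 * (128 ^ 2 * |K₂|) := by
    have : 0 ≤ 2 * (128 ^ 2 * |K₂|) := by positivity
    linarith
  obtain ⟨δ, hδ, h1, h2, h3⟩ := exists_of_ev ((Soft.ev hV F hθ hKv (half_pos hη0)).and
    ((ev_win hm F hθ one_pos).and (ev_large (128 * (M₀ + W₀ * F.base.rg + 1)))))
  refine ⟨2 * W₀ + 4, δ, by omega, hδ, fun Λ hΛ l M hw => ?_⟩
  have hok := hΛ.ok
  obtain ⟨cτ, -, -, -, -, -, -, cJ⟩ := hc Λ hΛ
  have hM := (h3 l _ hw.sep).2.2
  rw [← hΛ.rg_eq] at hM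
  have hM1 : 1 ≤ M := by omega
  have hMr : (0 : ℝ) < M := by exact_mod_cast hM1
  have hθl := (h2 Λ hΛ l _ hw).2
  obtain ⟨φ, μ, a, p, u, hφ, hμ0, hμ1, hi, hU⟩ := hT Λ hΛ M (by omega)
  refine ⟨φ, hφ, fun ρ U hρ hin hout hcn hreg => ?_⟩
  have hρM : 2 * ρ ≤ M := by nlinarith
  have ha : ∀ i < n, 2 * ρ ≤ a i ∧ Λ.rg ≤ a i := fun i h => by
    have := (hi i h).1
    constructor
    · by_contra hh
      have : W₀ * a i ≤ W₀ * (2 * ρ) := Nat.mul_le_mul_left _ (by omega)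
      have h0 : 1 ≤ ρ := by omega
      nlinarith
    · exact Nat.le_of_mul_le_mul_left (show W₀ * Λ.rg ≤ W₀ * a i by omega) (by omega)
  have hsub : ∀ b b' : ℕ, ρ ≤ b → b' ≤ 32 * M → an 0 b b' ⊆ U := fun b b' hb hb' =>
    (an_mono 0 hb hb').trans hin
  have hpφ : Pv U φ := pv_mono hφ.1 (hsub _ _ (by omega) (by omega))
  have hpp : ∀ i < n, Pv U (p i) := fun i h =>
    pv_mono (hi i h).2.2.1.1 (hsub _ _ (by have := ha i h; omega) (by have := (hi i h).2.1; omega))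
  have hne := pv_ne hpφ
  have hcen := rW_cen (hok.ctr_N U).1 hcn hne
  replace hU := hU U fun i h => hsub _ _ (by have := ha i h; omega) le_rfl
  -- the crossing inequality
  have hcross := hX Pt (Λ.N U) U (U ∩ bl 0 (2 * ρ)) (an 0 (4 * M) (32 * M)) n φ p B t
    (hok.ctr_N U).1 hcn inter_subset_left (hsub _ _ (by omega) le_rfl)
    (Disjoint.mono_left inter_subset_right (disjoint_bl_an 0 _ (by omega))) hpφ hpp
    fun C hC x hx y hy hxC hxy => by
      rw [inn_N hC] at hxy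
      rw [mem_inter] at hx
      have route : ∀ (b : ℕ) (f : Pt → ℝ), 2 * ρ ≤ b → Λ.rg ≤ b → b ≤ M → Blob f K₁ b →
          F2A (Λ.edI U) (U \ C) f (|Cr| * K₁ ^ 2) := fun b f hb hb' hbM hf =>
        ((hr Λ hΛ b C (U \ C) x y f K₁ hb' hxC (bl_mono 0 hb hx.2)
          (fun h => (mem_an.1 hy).2 (bl_mono 0 (by omega) h)) hxy sdiff_disjoint hf.1.2.1
          fun z => by rw [abs_of_nonneg (hf.1.1 z)]; exact hf.2 z).ed_mono
          (Lat.edI_mono (hsub _ _ (by omega) (by omega)))).mono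
          (mul_le_mul_of_nonneg_right (le_abs_self _) (sq_nonneg _))
      have bd : ∀ f : Pt → ℝ, F2A (Λ.edI U) (U \ C) f N → T145.M ((pn (Λ.N U) U C).W 0) (pr f) ≤ B :=
        fun f hf => (bare hB hok hcn hx.1 hxC hf).2.trans (by rw [hBd]; gcongr)
      have r0 := route M φ hρM (by nlinarith) le_rfl hφ
      refine ⟨bd φ (r0.mono (by rw [hN]; nlinarith [r0.nonneg])), fun i h => bd _ ?_⟩
      exact (r0.add (route (a i) (p i) (ha i h).1 (ha i h).2 (hi i h).2.1 (hi i h).2.2.1)).mono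
        (le_of_eq (by rw [hN]; ring))
  -- persistence
  have hσ : ∀ i < n, (10 * (K₁ * t + 1)) ^ 2 ≤ Λ.tN l * Λ.En U (u i) (u i) := fun i h => by
    have h1 := (hU i h).2.1
    calc _ = θ₀ / 2 * (2 / θ₀ * (10 * (K₁ * t + 1)) ^ 2) := by field_simp
      _ ≤ _ := mul_le_mul hθl h1 (by positivity) (by linarith)
  have hKt : 0 ≤ K₁ * t := by positivity
  have hpers := pers (Λ := Λ) (U := U) (u := u) hP hcen hn1 hη0 (min_le_left _ _)
    (θ := Λ.tN l) (by linarith) (fun i h => le_trans (by nlinarith) (hσ i h))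
    (fun i h j h' hij => ((hU i h).2.2 j h' hij).trans
      (mul_le_mul_of_nonneg_right (min_le_left _ _) (by positivity)))
    fun i h j h' a b ha' hb' => by
      have sm : ∀ k < n, Sm2 (u k) (128 ^ 2 * |K₂|) (128 * M : ℕ) := fun k hk => by
        have := D74.sm_up (D74.sm_mono (hi k hk).2.2.2.1 hMr (le_abs_self _)) hMr
          (c := 128) (by norm_num)
        rwa [Nat.cast_mul, Nat.cast_ofNat]
      have gi : ∀ k < n, Gin Λ (u k) U := fun k hk =>
        gin_mono (hi k hk).2.2.2.2 (hsub _ _ (by have := ha k hk; omega) le_rfl)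
      refine h1 Λ hΛ l _ hw U _ (by rwa [show 128 * M / 4 = 32 * M by omega]) hne hcn
        (D74.reg_mono hreg (by have : 0 ≤ 2 * (128 ^ 2 * |K₂|) := by positivity
                               linarith))
        (D74.sm_mono (sm_lin (sm i h) (sm j h') hw.L_pos' ha' hb') hw.L_pos' (by linarith))
        (gin_lin (gi i h) (gi j h') a b)
  -- the remainders
  set rem : ℕ → Pt → ℝ := fun i x => Λ.Au U (u i) x - μ * (p i x - φ x) with hrem
  have hrm : ∀ i ∈ range n, Pr (rW (Λ.N U) U) (fun s => 1 ≤ |pr (rem i) s|) ≤ g / (8 * n) := by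
    intro i h
    rw [mem_range] at h
    refine (small hB hR hok hcn hne (f := rem i) (fun x hx => ?_) ?_).trans ?_
    · simp only [hrem]
      rw [(hpp i h).2.1 x hx, hpφ.2.1 x hx, Lat.Au, sup_dv _ (Lat.edI_ends U) x hx]
      ring
    · simp only [hrem]
      rw [sum_sub_distrib, ← mul_sum, sum_sub_distrib, (hpp i h).2.2, hpφ.2.2, Lat.Au,
        sum_dv _ (Lat.edI_ends U)]
      ring
    · have e1 : ((Λ.edI U).card : ℝ) ≤ (65 * M) ^ 2 * c := by
        have h1 : (Λ.edI U).card ≤ (65 * M) ^ 2 * Λ.Jp.card := by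
          refine (card_edI_le Λ U).trans (Nat.mul_le_mul_right _ ((card_le_card hout).trans ?_))
          rw [card_bl]
          exact Nat.pow_le_pow_left (by omega) 2
        have h2 : ((Λ.edI U).card : ℝ) ≤ (65 * M) ^ 2 * Λ.Jp.card := by exact_mod_cast h1
        exact h2.trans (by gcongr)
      have e2 : (∑ x ∈ U, |rem i x|) ^ 2 ≤ (η' / M) ^ 2 :=
        pow_le_pow_left₀ (sum_nonneg fun _ _ => abs_nonneg _) (hU i h).1 2
      have e3 : η' ≤ 1 := (min_le_left _ _).trans (by have := min_le_left (1 / 10 : ℝ) (g / 1600)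
                                                      linarith)
      have e4 : η' ≤ g / (8 * (n * (c * (65 ^ 2 * c)))) := min_le_right _ _
      calc _ ≤ c * ((65 * M) ^ 2 * c * (η' / M) ^ 2) := by gcongr
        _ = c * (65 ^ 2 * c) * (η' * η') := by field_simp
        _ ≤ c * (65 ^ 2 * c) * (1 * (g / (8 * (n * (c * (65 ^ 2 * c)))))) := by gcongr
        _ = g / (8 * n) := by field_simp
  have hev : Pr (rW (Λ.N U) U) (fun s => ∀ i < n, -t ≤ pr (p i - φ) s) ≤
      100 * (1 / n + η) + g / 8 := by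
    refine (hcen.wt.pr_mono (q := fun s => (∀ i < n, -(1 / 10) ≤
      (Real.sqrt (Λ.tN l * Λ.En U (u i) (u i)))⁻¹ * pr (Λ.Au U (u i)) s) ∨
        ∃ i ∈ range n, 1 ≤ |pr (rem i) s|) fun s _ hs => ?_).trans
      ((hcen.wt.pr_or_le _ _).trans (add_le_add hpers ((hcen.wt.pr_exists_le _ _).trans ?_)))
    · refine or_iff_not_imp_right.2 fun hno i h => ?_
      have h1 : |pr (rem i) s| < 1 := not_le.1 fun h' => hno ⟨i, mem_range.2 h, h'⟩
      have h2 : pr (rem i) s = pr (Λ.Au U (u i)) s - μ * pr (p i - φ) s := by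
        simp only [hrem]
        rw [pr_sub', pr_mul']
        rfl
      have h3 : -(K₁ * t + 1) ≤ pr (Λ.Au U (u i)) s := by
        have e1 := (abs_lt.1 h1).1
        have e2 := mul_le_mul_of_nonneg_left (hs i h) hμ0
        have e3 := mul_le_mul_of_nonneg_right hμ1 ht0
        rw [mul_neg] at e2
        linarith only [e1, e2, e3, h2]
      have h4 : 10 * (K₁ * t + 1) ≤ Real.sqrt (Λ.tN l * Λ.En U (u i) (u i)) :=
        Real.le_sqrt_of_sq_le (hσ i h)
      rw [← div_eq_inv_mul, le_div_iff₀ (by linarith only [h4, hKt])]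
      linarith only [h3, h4]
    · refine (sum_le_card_nsmul _ _ _ hrm).trans (le_of_eq ?_)
      rw [card_range, nsmul_eq_mul]
      field_simp
  have f1 : 100 * (1 / n + η) ≤ g / 8 := by
    have : η ≤ g / 1600 := min_le_right _ _
    have : 1 / (n : ℝ) ≤ g / 1600 := by
      rw [div_le_iff₀ hg] at hn
      rw [div_le_div_iff₀ hn0 (by norm_num)]
      linarith
    linarith
  have f2 : 16 * n * Real.exp (2 * B + 1 - t) ≤ g / 4 := by
    have e : 2 * B + 1 - t = -(64 * n / g) := by rw [ht]; ring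
    have h1 : 64 * n / g ≤ Real.exp (64 * n / g) := by linarith [Real.add_one_le_exp (64 * n / g)]
    rw [e, Real.exp_neg, ← div_eq_mul_inv, div_le_iff₀ (Real.exp_pos _)]
    calc 16 * (n : ℝ) = g / 4 * (64 * n / g) := by field_simp; norm_num
      _ ≤ _ := by gcongr
  linarith

end Crest.Agent.T145.Nc
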