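import Crest.Agent.T145.NcT4Def_78
import Crest.Agent.T145.T3A_84
import Crest.Agent.T145.Sm_58
import Crest.Agent.T145.Soft_23
import Crest.Agent.T145.RJa_57

/-!
# Row 145 (helper98): `Nc.testStmt : RadStmt → TestStmt`
-/

set_option autoImplicit false

namespace Crest.Agent.T145.Nc

open Finset

namespace Te98

variable {Λ : Lat} {u v : Pt → ℝ} {D U : Finset Pt}

theorem mem_an {z x : Pt} {r R : ℕ} : x ∈ an z r R ↔ x ∈ bl z R ∧ x ∉ bl z r := mem_sdiff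

theorem an_mono (z : Pt) {r r' R R' : ℕ} (h : r' ≤ r) (h' : R ≤ R') : an z r R ⊆ an z r' R' :=
  sdiff_subset_sdiff (bl_mono z h') (bl_mono z h)

theorem card_an_le (r : ℕ) {R : ℕ} {b : ℝ} (h : 2 * (R : ℝ) + 1 ≤ b) :
    ((an 0 r R).card : ℝ) ≤ b ^ 2 := by
  have h1 : (an 0 r R).card ≤ (2 * R + 1) ^ 2 := card_bl 0 R ▸ card_le_card sdiff_subset
  have h2 : ((an 0 r R).card : ℝ) ≤ (2 * (R : ℝ) + 1) ^ 2 := by exact_mod_cast h1
  exact h2.trans (pow_le_pow_left₀ (by positivity) h 2)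

/-- inside any set that carries the gradients, `A u` is the full lattice Laplacian -/
theorem Au_gin (hΛ : Λ.Ok) (hG : Gin Λ u D) (hU : D ⊆ U) (z : Pt) :
    Λ.Au U u z = -(∑ y ∈ Λ.J, (u (z + y) - u z)) / Λ.τ := by
  have k : ∀ y ∈ Λ.Jp, ∀ x, RJ57.gt U y x * ((u (x + y) - u x) / Λ.τ) = (u (x + y) - u x) / Λ.τ :=
    fun y hy x => by
      by_cases h : u x = u (x + y)
      · rw [← h, sub_self, zero_div, mul_zero]
      · have := hG x (x + y) (by rwa [add_sub_cancel_left]) h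
        rw [RJ57.gt_one (hU this.1) (hU this.2), one_mul]
  rw [Lat.Au, RJ57.dv_edI, hΛ.sum_J, ← sum_neg_distrib, sum_div]
  refine sum_congr rfl fun y hy => ?_
  have := k y hy (z - y)
  rw [sub_add_cancel] at this
  simp only [this, k y hy z, ← sub_eq_add_neg]
  ring

theorem lap_off (hΛ : Λ.Ok) (hG : Gin Λ u D) {z : Pt} (hz : z ∉ D) :
    ∑ y ∈ Λ.J, (u (z + y) - u z) = 0 := by
  refine sum_eq_zero fun y hy => sub_eq_zero.2 (by_contra fun h => hz ?_)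
  rcases hΛ.mem_or.1 hy with hy | hy
  · exact (hG z (z + y) (by rwa [add_sub_cancel_left]) (Ne.symm h)).1
  · exact (hG (z + y) z (by rwa [sub_add_cancel_left]) h).2

theorem En_comm (Λ : Lat) (U : Finset Pt) (u v : Pt → ℝ) : Λ.En U u v = Λ.En U v u :=
  sum_congr rfl fun _ _ => by ring

theorem pv_sum {p : Pt → ℝ} (hp : Pv D p) (hU : D ⊆ U) (v : Pt → ℝ) :
    ∑ x ∈ U, p x * v x = ∑ x ∈ D, p x * v x :=
  (sum_subset hU fun x _ hx => by rw [hp.2.1 x hx, zero_mul]).symm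

theorem pv_le {p : Pt → ℝ} (hp : Pv D p) (hU : D ⊆ U) {b : ℝ} (h : ∀ x ∈ D, v x ≤ b) :
    ∑ x ∈ U, p x * v x ≤ b := by
  rw [pv_sum hp hU]
  refine (sum_le_sum fun x hx => mul_le_mul_of_nonneg_left (h x hx) (hp.1 x)).trans ?_
  rw [← sum_mul, hp.2.2, one_mul]

theorem le_pv {p : Pt → ℝ} (hp : Pv D p) (hU : D ⊆ U) {b : ℝ} (h : ∀ x ∈ D, b ≤ v x) :
    b ≤ ∑ x ∈ U, p x * v x := by
  rw [pv_sum hp hU]
  refine le_trans ?_ (sum_le_sum fun x hx => mul_le_mul_of_nonneg_left (h x hx) (hp.1 x))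
  rw [← sum_mul, hp.2.2, one_mul]

/-- the energy against a bounded function -/
theorem En_near (Λ : Lat) (U : Finset Pt) (u v p φ : Pt → ℝ) {μ ε b : ℝ} (hv : ∀ x, |v x| ≤ b)
    (h : ∑ x ∈ U, |Λ.Au U u x - μ * (p x - φ x)| ≤ ε) :
    |Λ.En U u v - μ * (∑ x ∈ U, p x * v x - ∑ x ∈ U, φ x * v x)| ≤ ε * b := by
  have hb : 0 ≤ b := (abs_nonneg _).trans (hv 0)
  rw [← T84.ip_Au, ip, ← sum_sub_distrib, mul_sum, ← sum_sub_distrib]
  refine (abs_sum_le_sum_abs _ _).trans (le_trans ?_ (mul_le_mul_of_nonneg_right h hb))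
  rw [sum_mul]
  refine sum_le_sum fun x _ => ?_
  rw [show Λ.Au U u x * v x - μ * (p x * v x - φ x * v x) =
    (Λ.Au U u x - μ * (p x - φ x)) * v x by ring, abs_mul]
  exact mul_le_mul_of_nonneg_left (hv x) (abs_nonneg _)

/-- the body of `RadStmt` at one scale, for one lattice -/
def Rd (Λ : Lat) (K c h : ℝ) (g q : ℕ → Pt → ℝ) (a : ℕ) : Prop :=
  (∀ x ∈ bl 0 (4 * a), g a x = 0) ∧ (∀ x ∈ bl 0 (16 * a), 0 ≤ g a x ∧ g a x ≤ K) ∧
    (∀ a', 1 ≤ a' → a' ≤ a → ∀ x, 0 ≤ g a' x - g a x ∧ g a' x - g a x ≤ h * Real.log (a / a') ∧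
      (x ∉ bl 0 (4 * a) → h * Real.log (a / a') - K ≤ g a' x - g a x) ∧
      (x ∉ bl 0 (16 * a) → g a' x - g a x = h * Real.log (a / a'))) ∧
    (∀ x, 0 ≤ q a x ∧ q a x ≤ K / (a : ℝ) ^ 2) ∧ Sup (an 0 (4 * a) (16 * a)) (q a) ∧
    c ≤ ∑ x ∈ an 0 (4 * a) (16 * a), q a x ∧ Sm2 (g a) K a ∧
    ∀ x, |∑ y ∈ Λ.J, (g a (x + y) - g a x) - Λ.a * q a x| ≤ K / (a : ℝ) ^ 4

/-- total mass -/
noncomputable def ms (q : ℕ → Pt → ℝ) (a : ℕ) : ℝ := ∑ x ∈ an 0 (4 * a) (16 * a), q a x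

/-- the normalised blob -/
noncomputable def bb (q : ℕ → Pt → ℝ) (a : ℕ) (x : Pt) : ℝ := q a x / ms q a

/-- the test function -/
noncomputable def tf (h : ℝ) (g : ℕ → Pt → ℝ) (M a : ℕ) (x : Pt) : ℝ :=
  g M x - g a x + h * Real.log (M / a)

variable {K c h : ℝ} {g q : ℕ → Pt → ℝ} {a M : ℕ}

theorem Rd.K_nonneg (R : Rd Λ K c h g q a) : 0 ≤ K :=
  (R.2.1 0 (self_mem_bl _ _)).1.trans (R.2.1 0 (self_mem_bl _ _)).2

theorem Rd.pv (R : Rd Λ K c h g q a) (hc : 0 < c) : Pv (an 0 (4 * a) (16 * a)) (bb q a) := by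
  have hm : 0 < ms q a := hc.trans_le R.2.2.2.2.2.1
  refine ⟨fun x => div_nonneg (R.2.2.2.1 x).1 hm.le, fun x hx => ?_, ?_⟩
  · rw [bb, R.2.2.2.2.1 x hx, zero_div]
  · simp only [bb]
    rw [← sum_div]
    exact div_self hm.ne'

theorem Rd.blob (R : Rd Λ K c h g q a) (hc : 0 < c) {K' : ℝ} (hK : K / c ≤ K') :
    Blob (bb q a) K' a := by
  refine ⟨R.pv hc, fun x => ?_⟩
  calc bb q a x ≤ K / (a : ℝ) ^ 2 / c :=
        div_le_div₀ (div_nonneg R.K_nonneg (sq_nonneg _)) (R.2.2.2.1 x).2 hc R.2.2.2.2.2.1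
    _ = K / c / (a : ℝ) ^ 2 := div_right_comm _ _ _
    _ ≤ _ := div_le_div_of_nonneg_right hK (sq_nonneg _)

theorem Rd.ms_le (R : Rd Λ K c h g q a) (ha : 1 ≤ a) : ms q a ≤ 33 ^ 2 * K := by
  have h1 : (1 : ℝ) ≤ a := by exact_mod_cast ha
  have h2 := card_an_le (4 * a) (R := 16 * a) (b := 33 * a) (by push_cast; linarith)
  refine (sum_le_card_nsmul _ _ _ fun x _ => (R.2.2.2.1 x).2).trans ?_
  rw [nsmul_eq_mul]
  refine (mul_le_mul_of_nonneg_right h2 (div_nonneg R.K_nonneg (sq_nonneg _))).trans (le_of_eq ?_)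
  field_simp

theorem tf_mem (RM : Rd Λ K c h g q M) (ha : 1 ≤ a) (hM : a ≤ M) (x : Pt) :
    0 ≤ tf h g M a x ∧ tf h g M a x ≤ h * Real.log (M / a) := by
  have := RM.2.2.1 a ha hM x
  constructor <;> rw [tf] <;> linarith [this.1, this.2.1]

theorem tf_gin (Ra : Rd Λ K c h g q a) (RM : Rd Λ K c h g q M) (ha : 1 ≤ a) (hM : a ≤ M)
    (hr : Λ.rg ≤ a) : Gin Λ (tf h g M a) (an 0 a (32 * M)) := by
  have h1 : ∀ x ∈ bl 0 (4 * a), tf h g M a x = h * Real.log (M / a) := fun x hx => by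
    rw [tf, Ra.1 x hx, RM.1 x (bl_mono 0 (by omega) hx), sub_self, zero_add]
  have h2 : ∀ x, x ∉ bl 0 (16 * M) → tf h g M a x = 0 := fun x hx => by
    have := (RM.2.2.1 a ha hM x).2.2.2 hx
    rw [tf]; linarith
  have key : ∀ x y : Pt, y ∈ bl x Λ.rg → tf h g M a x ≠ tf h g M a y → x ∈ an 0 a (32 * M) :=
    fun x y hy hne => by
      refine mem_an.2 ⟨by_contra fun hx => hne ?_, fun hx => hne ?_⟩
      · rw [h2 x fun H => hx (bl_mono 0 (by omega) H), h2 y fun H =>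
          hx (bl_subset_bl H (by omega) (mem_bl_comm.1 hy))]
      · rw [h1 x (bl_mono 0 (by omega) hx), h1 y (bl_subset_bl hx (by omega) hy)]
  exact fun x y hy hne => ⟨key x y (Lat.edge_near (e := (x, y)) hy) hne,
    key y x (Lat.edge_near' (e := (x, y)) hy) hne.symm⟩

theorem tf_rem (hΛ : Λ.Ok) (hc : 0 < c) (Ra : Rd Λ K c h g q a) (RM : Rd Λ K c h g q M) (ha : 1 ≤ a)
    (hM : a ≤ M) (hr : Λ.rg ≤ a) (hU : an 0 a (32 * M) ⊆ U) :
    ∑ x ∈ U, |Λ.Au U (tf h g M a) x - Λ.e0 * ms q M * (bb q a x - bb q M x)| ≤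
      2 * ((65 * M) ^ 2 * (2 * K / (a : ℝ) ^ 4 / Λ.τ)) := by
  have hG := tf_gin Ra RM ha hM hr
  have hτ := hΛ.pos
  have a1 : (1 : ℝ) ≤ a := by exact_mod_cast ha
  have aM : (a : ℝ) ≤ M := by exact_mod_cast hM
  have sa : an 0 (4 * a) (16 * a) ⊆ an 0 a (32 * M) := an_mono 0 (by omega) (by omega)
  have sM : an 0 (4 * M) (16 * M) ⊆ an 0 a (32 * M) := an_mono 0 (by omega) (by omega)
  have ma : 0 < ms q a := hc.trans_le Ra.2.2.2.2.2.1
  have mM : 0 < ms q M := hc.trans_le RM.2.2.2.2.2.1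
  set r : Pt → ℝ := fun x => Λ.Au U (tf h g M a) x - Λ.e0 * (q a x - q M x) with hr_def
  have r0 : ∀ x, x ∉ an 0 a (32 * M) → r x = 0 := fun x hx => by
    simp only [hr_def]
    rw [Au_gin hΛ hG hU, lap_off hΛ hG hx, Ra.2.2.2.2.1 x fun H => hx (sa H),
      RM.2.2.2.2.1 x fun H => hx (sM H)]
    ring
  have r1 : ∀ x, |r x| ≤ 2 * K / (a : ℝ) ^ 4 / Λ.τ := fun x => by
    have e : r x = ((∑ y ∈ Λ.J, (g a (x + y) - g a x) - Λ.a * q a x) -
        (∑ y ∈ Λ.J, (g M (x + y) - g M x) - Λ.a * q M x)) / Λ.τ := by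
      have : ∑ y ∈ Λ.J, (tf h g M a (x + y) - tf h g M a x) =
          ∑ y ∈ Λ.J, (g M (x + y) - g M x) - ∑ y ∈ Λ.J, (g a (x + y) - g a x) := by
        rw [← sum_sub_distrib]
        exact sum_congr rfl fun y _ => by simp only [tf]; ring
      simp only [hr_def]
      rw [Au_gin hΛ hG hU, this, Lat.e0]
      ring
    rw [e, abs_div, abs_of_pos hτ]
    refine div_le_div_of_nonneg_right ((abs_sub _ _).trans ?_) hτ.le
    have : K / (M : ℝ) ^ 4 ≤ K / (a : ℝ) ^ 4 :=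
      div_le_div_of_nonneg_left Ra.K_nonneg (by positivity) (pow_le_pow_left₀ (by positivity) aM 4)
    have h1 := Ra.2.2.2.2.2.2.2 x
    have h2 := RM.2.2.2.2.2.2.2 x
    rw [mul_div_assoc]
    linarith
  have r2 : ∑ x ∈ U, |r x| ≤ (65 * M) ^ 2 * (2 * K / (a : ℝ) ^ 4 / Λ.τ) := by
    rw [← sum_subset hU fun x _ hx => by rw [r0 x hx, abs_zero]]
    refine (sum_le_card_nsmul _ _ _ fun x _ => r1 x).trans ?_
    rw [nsmul_eq_mul]
    exact mul_le_mul_of_nonneg_right (card_an_le a (by push_cast; linarith))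
      ((abs_nonneg _).trans (r1 0))
  have r3 : ∑ x ∈ U, r x = -(Λ.e0 * ms q a - Λ.e0 * ms q M) := by
    simp only [hr_def]
    rw [sum_sub_distrib, T84.sum_Au, ← mul_sum, sum_sub_distrib,
      ← sum_subset (sa.trans hU) fun x _ hx => Ra.2.2.2.2.1 x hx,
      ← sum_subset (sM.trans hU) fun x _ hx => RM.2.2.2.2.1 x hx, ms, ms]
    ring
  have r4 : |Λ.e0 * ms q a - Λ.e0 * ms q M| ≤ ∑ x ∈ U, |r x| := by
    rw [← abs_neg, ← r3]; exact abs_sum_le_sum_abs _ _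
  have r5 : ∀ x, |Λ.Au U (tf h g M a) x - Λ.e0 * ms q M * (bb q a x - bb q M x)| ≤
      |r x| + bb q a x * |Λ.e0 * ms q a - Λ.e0 * ms q M| := fun x => by
    have e : Λ.Au U (tf h g M a) x - Λ.e0 * ms q M * (bb q a x - bb q M x) =
        r x + bb q a x * (Λ.e0 * ms q a - Λ.e0 * ms q M) := by
      simp only [hr_def, bb]
      field_simp
      ring
    rw [e]
    refine (abs_add_le _ _).trans (le_of_eq ?_)
    rw [abs_mul, abs_of_nonneg ((Ra.pv hc).1 x)]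
  refine (sum_le_sum fun x _ => r5 x).trans ?_
  rw [sum_add_distrib]
  have := pv_le (Ra.pv hc) (sa.trans hU) (v := fun _ => |Λ.e0 * ms q a - Λ.e0 * ms q M|)
    fun _ _ => le_rfl
  linarith

/-- the dyadic quotient -/
theorem log_div {w : ℕ} (hw : 1 ≤ w) (hM : w ≤ M) :
    1 ≤ M / w ∧ M ≤ 2 * w * (M / w) ∧ Real.log w ≤ Real.log (M / (M / w : ℕ)) ∧
      Real.log (M / (M / w : ℕ)) ≤ Real.log (2 * w) := by
  have h1 : 1 ≤ M / w := (Nat.le_div_iff_mul_le hw).2 (by omega)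
  have h2 : M ≤ 2 * w * (M / w) := by
    have := Nat.lt_mul_div_succ M hw
    nlinarith
  have h3 : w * (M / w) ≤ M := Nat.mul_div_le M w
  have p1 : (0 : ℝ) < (M / w : ℕ) := by exact_mod_cast h1
  have p2 : (0 : ℝ) < w := by exact_mod_cast hw
  have p3 : (0 : ℝ) < M := by exact_mod_cast hw.trans hM
  refine ⟨h1, h2, Real.log_le_log p2 ((le_div_iff₀ p1).2 (by exact_mod_cast h3)),
    Real.log_le_log (div_pos p3 p1) ((div_le_iff₀ p1).2 (by exact_mod_cast h2))⟩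

theorem fin {E E' X m l l' η : ℝ} (hm : 0 ≤ m) (hl : 0 ≤ l) (hη : 0 < η) (h1 : m * l / 2 ≤ E)
    (h2 : m * l' / 2 ≤ E') (h3 : X ≤ 2 * m * l) (h4 : 16 * l ≤ η ^ 2 * l') :
    X ≤ η * (Real.sqrt E * Real.sqrt E') := by
  have hl' : 0 ≤ l' := nonneg_of_mul_nonneg_right (by linarith) (pow_pos hη 2)
  have e0 : 0 ≤ m * l / 2 := by positivity
  rw [← Real.sqrt_mul (e0.trans h1), ← Real.sqrt_sq hη.le, ← Real.sqrt_mul (sq_nonneg _)]
  refine h3.trans (Real.le_sqrt_of_sq_le ?_)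
  calc (2 * m * l) ^ 2 = m * l / 2 * (m / 2 * (16 * l)) := by ring
    _ ≤ m * l / 2 * (m / 2 * (η ^ 2 * l')) := by gcongr
    _ = η ^ 2 * (m * l / 2 * (m * l' / 2)) := by ring
    _ ≤ η ^ 2 * (E * E') := by gcongr; exact e0.trans h1

end Te98

open Te98

theorem testStmt (hR : RadStmt) : TestStmt := by
  intro F
  obtain ⟨K, c, h, a₀, g, q, hc, hh, H⟩ := hR F
  obtain ⟨C, hC1, hC⟩ := F.exists_bound
  have hK : 0 ≤ K := ((H a₀ le_rfl).2.1 0 (self_mem_bl _ _)).1.trans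
    ((H a₀ le_rfl).2.1 0 (self_mem_bl _ _)).2
  have hC0 : 0 < C := one_pos.trans_le hC1
  have k1 : 0 ≤ K / c := div_nonneg hK hc.le
  have k2 : 0 ≤ C * (33 ^ 2 * K) := by positivity
  refine ⟨1 + K / c + C * (33 ^ 2 * K), by linarith, fun n η T hη => ?_⟩
  have l2 : 0 < Real.log 2 := Real.log_pos one_lt_two
  obtain ⟨N, hN⟩ := exists_nat_ge (max (max 1 (32 / η ^ 2))
    (max (8 * K / (h * Real.log 2)) (2 * C * T / (c * (h * Real.log 2)))))
  simp only [max_le_iff] at hN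
  obtain ⟨⟨N1, N2⟩, N3, N4⟩ := hN
  have N1' : 1 ≤ N := by exact_mod_cast N1
  set W : ℕ := 2 * 2 ^ N ^ n with hW
  have W1 : 1 ≤ W := by have := Nat.one_le_two_pow (n := N ^ n); omega
  set η' : ℝ := min η (c / (4 * C)) with hη'
  have e0 : 0 < η' := lt_min hη (by positivity)
  obtain ⟨M₁, hM₁⟩ := exists_nat_ge (4 * 65 ^ 2 * K * C * (W : ℝ) ^ 4 / η')
  refine ⟨W, M₁ + W * (a₀ + ⌈C⌉₊ + 1), K + K * (W : ℝ) ^ 2, W1, fun Λ hΛ M hM => ?_⟩
  obtain ⟨-, c2, c3, c4, -, c6, -⟩ := hC Λ hΛ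
  have ok := hΛ.ok
  have hτ := ok.pos
  have RR : ∀ a, a₀ ≤ a → Rd Λ K c h g q a := fun a ha =>
    let ⟨h1, h2, h3, h4, h5, h6, h7, h8⟩ := H a ha
    ⟨h1, h2, h3, h4, h5, h6, h7, h8 Λ hΛ⟩
  have hw : ∀ i < n, 2 * 2 ^ N ^ (i + 1) ≤ W := fun i hi =>
    Nat.mul_le_mul_left _ (Nat.pow_le_pow_right two_pos (Nat.pow_le_pow_right N1' hi))
  have hWM : W * (a₀ + ⌈C⌉₊ + 1) ≤ M := by omega
  have hWM' : W ≤ M := le_trans (Nat.le_mul_of_pos_right _ (by omega)) hWM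
  have hM0 : a₀ ≤ M := by nlinarith
  have RM := RR M hM0
  have M1 : (1 : ℝ) ≤ M := by exact_mod_cast W1.trans hWM'
  set a : ℕ → ℕ := fun i => M / 2 ^ N ^ (i + 1) with ha
  have A : ∀ i < n, 1 ≤ a i ∧ M ≤ W * a i ∧ a i ≤ M ∧ a₀ ≤ a i ∧ Λ.rg ≤ a i ∧
      (N : ℝ) ^ (i + 1) * Real.log 2 ≤ Real.log (M / a i) ∧
      Real.log (M / a i) ≤ 2 * ((N : ℝ) ^ (i + 1) * Real.log 2) := fun i hi => by
    obtain ⟨h1, h2, h3, h4⟩ := log_div (M := M) (w := 2 ^ N ^ (i + 1)) Nat.one_le_two_pow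
      (by have := hw i hi; omega)
    have h5 : M ≤ W * a i := h2.trans (Nat.mul_le_mul_right _ (hw i hi))
    have h6 : a₀ + ⌈C⌉₊ + 1 ≤ a i := Nat.le_of_mul_le_mul_left (hWM.trans h5) W1
    have h7 : Λ.rg ≤ ⌈C⌉₊ := by exact_mod_cast c6.trans (Nat.le_ceil C)
    have h8 : Real.log ((2 ^ N ^ (i + 1) : ℕ) : ℝ) = (N : ℝ) ^ (i + 1) * Real.log 2 := by
      push_cast; rw [Real.log_pow]; push_cast; ring
    have h9 : Real.log 2 ≤ (N : ℝ) ^ (i + 1) * Real.log 2 :=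
      le_mul_of_one_le_left l2.le (one_le_pow₀ N1)
    rw [Real.log_mul two_ne_zero (by positivity), h8] at h4
    exact ⟨h1, h5, Nat.div_le_self _ _, by omega, by omega, h8 ▸ h3, by linarith⟩
  set μ := Λ.e0 * ms q M with hμ
  have e0p := ok.e0_pos
  have μ0 : c / C ≤ μ := by
    rw [div_le_iff₀ e0p] at c4
    rw [div_le_iff₀ hC0]
    have := RM.2.2.2.2.2.1
    calc c = 1 * c := (one_mul _).symm
      _ ≤ C * Λ.e0 * ms q M := mul_le_mul c4 this hc.le (by positivity)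
      _ = _ := by rw [hμ]; ring
  have μp : 0 < μ := (div_pos hc hC0).trans_le μ0
  have μ1 : μ ≤ C * (33 ^ 2 * K) :=
    mul_le_mul c3 (RM.ms_le (W1.trans hWM')) (hc.le.trans RM.2.2.2.2.2.1) hC0.le
  refine ⟨bb q M, μ, a, fun i => bb q (a i), fun i => tf h g M (a i), RM.blob hc (by linarith),
    μp.le, by linarith, fun i hi => ?_, fun U hU => ?_⟩
  · obtain ⟨h1, h2, h3, h4, h5, -⟩ := A i hi
    refine ⟨h2, h3, (RR _ h4).blob hc (by linarith), ?_, tf_gin (RR _ h4) RM h1 h3 h5⟩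
    exact (RM.2.2.2.2.2.2.1.sub ((RR _ h4).2.2.2.2.2.2.1.scale_up (by exact_mod_cast h1)
      (by linarith) (by exact_mod_cast W1) (by exact_mod_cast h2))).add_const _
  have rem : ∀ i < n, ∑ x ∈ U, |Λ.Au U (tf h g M (a i)) x - μ * (bb q (a i) x - bb q M x)| ≤ η' / M :=
    fun i hi => by
      obtain ⟨h1, h2, h3, h4, h5, -⟩ := A i hi
      refine (tf_rem ok hc (RR _ h4) RM h1 h3 h5 (hU i hi)).trans ?_
      have a1 : (0 : ℝ) < a i := by exact_mod_cast h1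
      have h2' : (M : ℝ) ≤ W * a i := by exact_mod_cast h2
      have h6 : (M : ℝ) ^ 4 ≤ (W * a i) ^ 4 := pow_le_pow_left₀ (by positivity) h2' 4
      have h7 : 4 * 65 ^ 2 * K * C * (W : ℝ) ^ 4 ≤ M * η' := by
        rw [← div_le_iff₀ e0]
        exact hM₁.trans (by exact_mod_cast le_trans (Nat.le_add_right _ _) hM)
      have h8 : 1 / (a i : ℝ) ^ 4 ≤ (W : ℝ) ^ 4 / (M : ℝ) ^ 4 := by
        rw [div_le_div_iff₀ (by positivity) (by positivity)]
        linarith [mul_pow (W : ℝ) (a i) 4]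
      calc 2 * ((65 * (M : ℝ)) ^ 2 * (2 * K / (a i : ℝ) ^ 4 / Λ.τ))
          = 4 * 65 ^ 2 * K * (M : ℝ) ^ 2 * (1 / Λ.τ) * (1 / (a i : ℝ) ^ 4) := by ring
        _ ≤ 4 * 65 ^ 2 * K * (M : ℝ) ^ 2 * C * ((W : ℝ) ^ 4 / (M : ℝ) ^ 4) := by gcongr
        _ = 4 * 65 ^ 2 * K * C * (W : ℝ) ^ 4 / (M : ℝ) ^ 2 := by field_simp
        _ ≤ M * η' / (M : ℝ) ^ 2 := by gcongr
        _ = η' / M := by field_simp
  have ε1 : η' / M ≤ μ / 4 := by
    refine (div_le_self e0.le M1).trans ((min_le_right _ _).trans ?_)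
    rw [mul_comm, ← div_div]
    linarith
  have sM : ∀ i < n, an 0 (4 * M) (16 * M) ⊆ U := fun i hi =>
    (an_mono 0 (by have := (A i hi).2.2.1; omega) (by omega)).trans (hU i hi)
  have sa : ∀ i < n, an 0 (4 * a i) (16 * a i) ⊆ U := fun i hi =>
    (an_mono 0 (by omega) (by have := (A i hi).2.2.1; omega)).trans (hU i hi)
  have lam : ∀ i < n, N * (h * Real.log 2) ≤ h * Real.log (M / a i) := fun i hi => by
    have h1 := (A i hi).2.2.2.2.2.1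
    have h2 : (N : ℝ) * Real.log 2 ≤ (N : ℝ) ^ (i + 1) * Real.log 2 :=
      mul_le_mul_of_nonneg_right (le_self_pow₀ N1 (by omega)) l2.le
    nlinarith
  have hl2 : 0 < h * Real.log 2 := mul_pos hh l2
  have bd : ∀ i < n, ∀ x, |tf h g M (a i) x| ≤ h * Real.log (M / a i) := fun i hi x => by
    obtain ⟨h1, -, h3, -⟩ := A i hi
    rw [abs_of_nonneg (tf_mem RM h1 h3 x).1]; exact (tf_mem RM h1 h3 x).2
  have lp : ∀ i < n, 0 ≤ h * Real.log (M / a i) := fun i hi => (abs_nonneg _).trans (bd i hi 0)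
  have low : ∀ i < n, μ * (h * Real.log (M / a i)) / 2 ≤
      Λ.En U (tf h g M (a i)) (tf h g M (a i)) := fun i hi => by
    obtain ⟨h1, -, h3, h4, -⟩ := A i hi
    have e1 := (abs_le.1 (En_near Λ U _ _ _ _ (bd i hi) (rem i hi))).1
    have e2 : h * Real.log (M / a i) - K ≤ ∑ x ∈ U, bb q (a i) x * tf h g M (a i) x :=
      le_pv ((RR _ h4).pv hc) (sa i hi) fun x hx => by
        have h5 := (mem_an.1 hx).1
        have h6 := ((RR _ h4).2.1 x h5).2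
        have h7 := (RM.2.1 x (bl_mono 0 (by omega) h5)).1
        rw [tf]; linarith
    have e3 : ∑ x ∈ U, bb q M x * tf h g M (a i) x ≤ K :=
      pv_le (RM.pv hc) (sM i hi) fun x hx => by
        have := (RM.2.2.1 _ h1 h3 x).2.2.1 (mem_an.1 hx).2
        rw [tf]; linarith
    have e4 : 8 * K ≤ h * Real.log (M / a i) := ((div_le_iff₀ hl2).1 N3).trans (lam i hi)
    have e5 := mul_le_mul_of_nonneg_right ε1 (lp i hi)
    have e6 : μ * (h * Real.log (M / a i) - 2 * K) ≤ μ * (∑ x ∈ U, bb q (a i) x * tf h g M (a i) x -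
        ∑ x ∈ U, bb q M x * tf h g M (a i) x) := mul_le_mul_of_nonneg_left (by linarith) μp.le
    have e7 := mul_le_mul_of_nonneg_left e4 μp.le
    linarith
  have up : ∀ i < n, ∀ j < n, Λ.En U (tf h g M (a i)) (tf h g M (a j)) ≤
      2 * μ * (h * Real.log (M / a j)) := fun i hi j hj => by
    obtain ⟨h1, -, h3, -⟩ := A j hj
    have e1 := (abs_le.1 (En_near Λ U _ _ _ _ (bd j hj) (rem i hi))).2
    have e2 : ∑ x ∈ U, bb q (a i) x * tf h g M (a j) x ≤ h * Real.log (M / a j) :=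
      pv_le ((RR _ (A i hi).2.2.2.1).pv hc) (sa i hi) fun x _ => (tf_mem RM h1 h3 x).2
    have e3 : 0 ≤ ∑ x ∈ U, bb q M x * tf h g M (a j) x :=
      le_pv (RM.pv hc) (sM i hi) fun x _ => (tf_mem RM h1 h3 x).1
    have e5 := mul_le_mul_of_nonneg_right ε1 (lp j hj)
    have e6 : μ * (∑ x ∈ U, bb q (a i) x * tf h g M (a j) x - ∑ x ∈ U, bb q M x * tf h g M (a j) x) ≤
        μ * (h * Real.log (M / a j)) := mul_le_mul_of_nonneg_left (by linarith) μp.le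
    have e7 := mul_nonneg μp.le (lp j hj)
    linarith
  have sep : ∀ i j, i < j → j < n → 16 * (h * Real.log (M / a i)) ≤ η ^ 2 * (h * Real.log (M / a j)) :=
    fun i j hij hj => by
      have h1 := (A i (hij.trans hj)).2.2.2.2.2.2
      have h2 := (A j hj).2.2.2.2.2.1
      have h3 : (N : ℝ) * N ^ (i + 1) ≤ N ^ (j + 1) := by
        rw [← pow_succ']; exact pow_le_pow_right₀ N1 (by omega)
      have h4 : 32 ≤ N * η ^ 2 := (div_le_iff₀ (pow_pos hη 2)).1 N2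
      calc 16 * (h * Real.log (M / a i)) ≤ 16 * (h * (2 * ((N : ℝ) ^ (i + 1) * Real.log 2))) := by
            gcongr
        _ = 32 * ((N : ℝ) ^ (i + 1) * (h * Real.log 2)) := by ring
        _ ≤ N * η ^ 2 * ((N : ℝ) ^ (i + 1) * (h * Real.log 2)) := by gcongr
        _ = η ^ 2 * (h * ((N : ℝ) * N ^ (i + 1) * Real.log 2)) := by ring
        _ ≤ η ^ 2 * (h * ((N : ℝ) ^ (j + 1) * Real.log 2)) := by gcongr
        _ ≤ _ := by gcongr
  intro i hi
  refine ⟨(rem i hi).trans (div_le_div_of_nonneg_right (min_le_left _ _) (by linarith)),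
    le_trans ?_ (low i hi), fun j hj hij => ?_⟩
  · have h1 : 2 * C * T ≤ N * (c * (h * Real.log 2)) := (div_le_iff₀ (mul_pos hc hl2)).1 N4
    have h2 : c / C * (N * (h * Real.log 2)) ≤ μ * (h * Real.log (M / a i)) :=
      mul_le_mul μ0 (lam i hi) (by positivity) μp.le
    have h3 : 2 * T ≤ c / C * (N * (h * Real.log 2)) := by
      rw [div_mul_eq_mul_div, le_div_iff₀ hC0]; linarith
    linarith
  · rcases lt_or_gt_of_ne hij with hij | hij
    · rw [En_comm]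
      exact fin μp.le (lp i hi) hη (low i hi) (low j hj) (up j hj i hi) (sep i j hij hj)
    · rw [mul_comm (Real.sqrt _)]
      exact fin μp.le (lp j hj) hη (low j hj) (low i hi) (up i hi j hj) (sep j i hij hi)

end Crest.Agent.T145.Nc
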