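import Crest.Agent.T145.NcT4Def_78
import Crest.Agent.T145.NcBas_78
import Crest.Agent.T145.BrB_73
import Crest.Agent.T145.Soft_23
import Crest.Agent.T145.Sm_58

/-!
# Row 145: `Nc.varStmt`, Gaussian bounds in the free model on a subset of the window (helper93)
-/

set_option autoImplicit false

namespace Crest.Agent.T145.Nc

open Finset

namespace V93

variable {Λ : Lat} {U B : Finset Pt} {u : Pt → ℝ}

theorem gin_edge (h : Gin Λ u U) (B : Finset Pt) :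
    ∀ e ∈ Λ.edI B, e ∉ Λ.edI U → u e.2 = u e.1 := fun e he he' => by
  by_contra hne
  exact he' (Lat.mem_edI.2 ⟨(Lat.mem_edI.1 he).1, h _ _ (Lat.mem_edI.1 he).1 (Ne.symm hne)⟩)

theorem Au_gin (h : Gin Λ u U) (hB : U ⊆ B) : Λ.Au B u = Λ.Au U u :=
  Lat.Au_subset hB (gin_edge h B)

theorem En_gin (h : Gin Λ u U) (hB : U ⊆ B) (v : Pt → ℝ) : Λ.En B u v = Λ.En U u v :=
  Lat.En_subset hB (gin_edge h B) v

/-- the rooted free model on a connected set is an ambient model -/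
theorem amb_pn (hΛ : Λ.Ok) (hU : Cn (Λ.N U) U) (hn : U.Nonempty) :
    Λ.Amb (pn (Λ.N U) U (rs U)) U := by
  obtain ⟨r, hr, e⟩ := rs_spec hn
  exact ⟨pn_ctr (hΛ.ctr_N U).1 _ _, pn_anch hU hr (e ▸ mem_singleton_self r),
    (Lat.inn_edI subset_rfl).ge, fun _ _ => rfl⟩

theorem agr_Nr (hB : U ⊆ B) (r : Pt) : Agr (Λ.Nr B r) (Λ.N U) U :=
  ⟨(Lat.inn_edI hB).trans (Lat.inn_edI subset_rfl).symm, fun _ _ => rfl⟩

theorem depG_Au (Λ : Lat) (U : Finset Pt) (u : Pt → ℝ) : DepG U fun s => pr (Λ.Au U u) s :=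
  DepG.pr (Λ.sup_Au U u) (Λ.sum_Au U u)

/-- the variance in a translated free square, read in the standard one -/
theorem vr_shift (hΛ : Λ.Ok) (a : Pt) {L : ℕ} (hL : 1 ≤ L) (u : Pt → ℝ) :
    Vr ((Λ.Nr (sq a L) a).W 0) (pr (Λ.Au (sq a L) u)) (pr (Λ.Au (sq a L) u)) =
        Vr (Λ.WN L) (Λ.X L fun x => u (x + a)) (Λ.X L fun x => u (x + a)) ∧
      Λ.En (sq a L) u u = Λ.En (sq 0 L) (fun x => u (x + a)) fun x => u (x + a) := by
  have hm : (sq 0 L).map (Equiv.addRight a).toEmbedding = sq a L := by rw [map_sq_add, zero_add]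
  have hA : (fun x => Λ.Au (sq a L) u (Equiv.addRight a x)) = Λ.Au (sq 0 L) fun x => u (x + a) :=
    funext fun x => by rw [← hm, (Λ.sym_add a).Au_map hΛ]; rfl
  refine ⟨?_, by rw [← hm, (Λ.sym_add a).En_map hΛ]; rfl⟩
  rw [(Λ.sym_add a).Vr_Nr hΛ hm (self_mem_sq 0 hL) (self_mem_sq a hL) (Λ.sum_Au _ _) (Λ.sum_Au _ _),
    hA]
  rfl

/-- a lower bound in the free square passes to the free model on a subset carrying the gradients -/
theorem vr_le (hΛ : Λ.Ok) {a : Pt} {L : ℕ} (hL : 1 ≤ L) (hB : U ⊆ sq a L) (hn : U.Nonempty)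
    (hU : Cn (Λ.N U) U) (h : Gin Λ u U) :
    Vr (Λ.WN L) (Λ.X L fun x => u (x + a)) (Λ.X L fun x => u (x + a)) ≤
        Vr (rW (Λ.N U) U) (pr (Λ.Au U u)) (pr (Λ.Au U u)) ∧
      Λ.En (sq 0 L) (fun x => u (x + a)) (fun x => u (x + a)) = Λ.En U u u := by
  obtain ⟨h1, h2⟩ := vr_shift hΛ a hL u
  refine ⟨?_, by rw [← h2, En_gin h hB]⟩
  rw [← h1, Au_gin h hB, ← (agr_Nr (Λ := Λ) hB a).rW]
  exact Vr_le_rW (hΛ.ctr_Nr _ _) (hΛ.anch_Nr (self_mem_sq a hL)) ((agr_Nr hB a).symm.cn hU) hn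
    (depG_Au Λ U u)

theorem bl_sub_sq {L : ℕ} (hL : 1 ≤ L) :
    bl 0 (L / 4) ⊆ sq (-((L / 2 : ℕ) : ℤ), -((L / 2 : ℕ) : ℤ)) L := fun x => by
  simp only [mem_bl, mem_sq, Prod.fst_zero, Prod.snd_zero]; omega

end V93

open V93 in
theorem varStmt (hx : T1xStmt) (h3 : T3Stmt) : VarStmt := fun F θ₀ K ε h0 hK hε => by
  obtain ⟨δ₁, hδ₁, H1⟩ := hx F K ε hε
  obtain ⟨δ₂, hδ₂, H2⟩ := h3 F θ₀ K ε h0 hK hε
  refine ⟨min δ₁ δ₂, lt_min hδ₁ hδ₂, fun Λ hΛ l L hW U u hUb hn hU hR hu hG => ⟨?_, ?_⟩⟩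
  · have hL := hW.one_le_L
    obtain ⟨h1, h2⟩ := vr_le hΛ.ok hL (hUb.trans (bl_sub_sq hL)) hn hU hG
    rw [← h2]
    exact (H2 Λ hΛ l L (hW.mono_d (min_le_right _ _)) _ (hu.shift' _)).trans h1
  · have hK0 : 0 ≤ K / (L : ℝ) := by positivity
    have := H1 Λ hΛ l L (hW.sep.mono (min_le_left _ _)) _ U u (fun _ => 0) (amb_pn hΛ.ok hU hn) hR hu
      fun _ _ => by rwa [abs_zero]
    have e : pr (dv (Λ.edI U) fun _ => (0 : ℝ)) = 0 := by
      refine AddMonoidHom.ext fun s => ?_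
      rw [pr_dv]; simp
    rw [e, add_zero] at this
    simpa [rW] using this

end Crest.Agent.T145.Nc
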