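import Crest.Agent.T145.T1x_40
import Crest.Agent.T145.T1a_53
import Crest.Agent.T145.RJ_57

/-!
# Row 145, module (b) (helper40): T1 without hypotheses
-/

set_option autoImplicit false

namespace Crest.Agent.T145

theorem t1aU : T1aStmt := t1aStmt r2Stmt

theorem t1gU : T1gStmt := t1gStmt t1aU

theorem t1xU : T1xStmt := t1xStmt t1aU

end Crest.Agent.T145
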