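import Crest.Agent.T145.Soft_23
import Crest.Agent.T145.GeoB_51
import Crest.Agent.T145.CorB_59

/-!
# Row 145, module (b): T1m, the limit stiffness and windows (helper23)
-/

set_option autoImplicit false

namespace Crest.Agent.T145

open Finset Filter Topology

namespace T1m23

theorem sm2_co (L : ℝ) (hL : 0 < L) : Sm2 (fun x => co 0 x / L) 1 L := by
  have h (i : Fin 2) (x : Pt) : df i (fun x => co 0 x / L) x = co 0 (ev i) / L := by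
    simp only [df, co, Matrix.cons_val_zero, Prod.fst_add, Int.cast_add]; ring
  refine ⟨fun i x => ?_, fun i j x => ?_⟩
  · rw [h, abs_div, abs_of_pos hL]
    refine div_le_div_of_nonneg_right ?_ hL.le
    fin_cases i <;> simp [co, ev]
  · rw [df, h, h, sub_self, abs_zero]; positivity

theorem X_div (Λ : Lat) (n : ℕ) (u : Pt → ℝ) (c : ℝ) :
    Λ.X n (fun x => u x / c) = c⁻¹ • Λ.X n u := by
  rw [Lat.X, Lat.X, ← pr_smul]
  congr 1
  funext x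
  simp only [Lat.Au, dv, Pi.smul_apply, smul_eq_mul, mul_sum]
  exact sum_congr rfl fun e _ => by ring

theorem En_co_le {Λ : Lat} (h : Λ.Ok) {L : ℕ} (hL : 1 ≤ L) :
    Λ.En (sq 0 L) (fun x => co 0 x / L) (fun x => co 0 x / L) ≤ Λ.e0 := by
  have hL' : (0 : ℝ) < L := by exact_mod_cast hL
  have hτ := h.2
  rw [Lat.En, Lat.sum_edI, Lat.e0, Lat.a, sum_div]
  refine sum_le_sum fun y _ => ?_
  have e (x : Pt) : (co 0 (x + y) / L - co 0 x / L) * (co 0 (x + y) / L - co 0 x / L) / Λ.τ =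
      (y.1 : ℝ) ^ 2 / Λ.τ / (L : ℝ) ^ 2 := by
    simp only [co, Matrix.cons_val_zero, Prod.fst_add, Int.cast_add]; field_simp; ring
  simp only [e, sum_const, nsmul_eq_mul]
  have hc : (((sq 0 L).filter fun x => x + y ∈ sq 0 L).card : ℝ) ≤ (L : ℝ) ^ 2 := by
    exact_mod_cast (card_filter_le _ _).trans (card_sq 0 L).le
  calc _ ≤ (L : ℝ) ^ 2 * ((y.1 : ℝ) ^ 2 / Λ.τ / (L : ℝ) ^ 2) :=
        mul_le_mul_of_nonneg_right hc (by positivity)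
    _ = _ := by field_simp

/-- quasi-monotonicity of the stiffness -/
theorem quasi (hx : T1xStmt) (ha : T1aStmt) (hb : BrStmt) (F : Fa) {ε : ℝ} (hε : 0 < ε) :
    ∃ δ : ℝ, 0 < δ ∧ ∀ Λ, F.Mem Λ → ∀ l L, Sep δ l L → Λ.tN L ≤ Λ.tN l + ε := by
  obtain ⟨C, hC, hC'⟩ := F.exists_bound
  obtain ⟨δ, hδ, h⟩ := hx F 4 (ε / (2 * C)) (by positivity)
  obtain ⟨_, ha⟩ := ha F
  refine ⟨δ, hδ, fun Λ hΛ l L hs => ?_⟩
  have hL := hs.L_pos'
  have h0 : (0 : Pt) ∈ sq 0 L := self_mem_sq 0 hs.one_le_L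
  have hsm : Sm2 (fun x => co 0 x / L) 4 L := by
    obtain ⟨h1, h2⟩ := sm2_co L hL
    exact ⟨fun i x => (h1 i x).trans (by gcongr; norm_num),
      fun i j x => (h2 i j x).trans (by gcongr; norm_num)⟩
  have hreg : Reg (sq 0 L) 4 l L := by
    have := hb.2.2.2.2.2.1 0 L L l L 1 le_rfl (by simp) (by simp)
    rwa [one_pow, mul_one] at this
  have key := h Λ hΛ l L hs (Λ.Nr (sq 0 L) 0) (sq 0 L) (fun x => co 0 x / L) (fun _ => 0)
    (hb.2.2.1 Λ 0 0 L L hΛ.ok h0) hreg hsm (fun e _ => by rw [abs_zero]; positivity)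
  have hz : dv (Λ.edI (sq 0 L)) (fun _ => (0 : ℝ)) = 0 := by funext x; simp [dv]
  rw [hz, pr_zero, add_zero] at key
  have hv := (hΛ.ok.cen_Nr h0).vr_le_M (Λ.X L fun x => co 0 x / L)
  have hX := hΛ.ok.vr_X hs.one_le_L
  rw [X_div, Vr_smul_left, Vr_smul_right] at hv
  change _ * (_ * Vr (Λ.WN L) _ _) / 2 ≤ _ at hv
  rw [hX, ← X_div] at hv
  have e1 : (L : ℝ)⁻¹ * ((L : ℝ)⁻¹ * (Λ.tN L * (Λ.e0 * (L : ℝ) ^ 2))) = Λ.tN L * Λ.e0 := by
    field_simp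
  rw [e1] at hv
  have hE := mul_le_mul_of_nonneg_left (En_co_le hΛ.ok hs.one_le_L) (ha Λ hΛ l hs.one_le_l).1
  have he := hΛ.e0_pos
  have h3 : 1 ≤ C * Λ.e0 := (div_le_iff₀ he).1 (hC' Λ hΛ).2.2.2.1
  have h4 : Λ.tN L * Λ.e0 ≤ Λ.tN l * Λ.e0 + ε / C := by
    have := hv.trans key
    simp only [zero_mul, sum_const_zero, mul_zero, add_zero, ne_eq, OfNat.ofNat_ne_zero,
      not_false_eq_true, zero_pow] at this
    have e2 : ε / C = 2 * (ε / (2 * C)) := by field_simp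
    linarith
  have h5 : ε / C ≤ ε * Λ.e0 := by
    rw [div_le_iff₀ (by linarith)]; nlinarith
  exact le_of_mul_le_mul_right (by linarith) he

theorem bdd (ha : T1aStmt) {Λ : Lat} (h : Λ.Ok) :
    ∀ᶠ l in atTop, 0 ≤ Λ.tN l ∧ Λ.tN l ≤ 1 := by
  obtain ⟨_, ha⟩ := ha (Λ.fa h)
  filter_upwards [eventually_ge_atTop 1] with l hl
  exact ⟨(ha Λ (Lat.mem_fa h) l hl).1, (ha Λ (Lat.mem_fa h) l hl).2.1⟩

theorem part2 (hx : T1xStmt) (ha : T1aStmt) (hb : BrStmt) (F : Fa) (ε : ℝ) (hε : 0 < ε) :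
    ∃ δ : ℝ, 0 < δ ∧ ∀ Λ, F.Mem Λ →
      (∀ l L, Sep δ l L → Λ.tN L ≤ Λ.tN l + ε) ∧ ∀ l : ℕ, 1 ≤ δ * l → Λ.tI ≤ Λ.tN l + ε := by
  obtain ⟨δ, hδ, h⟩ := quasi hx ha hb F hε
  refine ⟨δ, hδ, fun Λ hΛ => ⟨h Λ hΛ, fun l hl => ?_⟩⟩
  refine liminf_le_of_frequently_le (Eventually.frequently ?_)
    (isBoundedUnder_of_eventually_ge ((bdd ha hΛ.ok).mono fun _ h => h.1))
  filter_upwards [(tendsto_natCast_atTop_atTop.const_mul_atTop hδ).eventually_ge_atTop (l : ℝ)]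
    with L hL using h Λ hΛ l L ⟨hl, hL⟩

theorem tendsto_tN (hx : T1xStmt) (ha : T1aStmt) (hb : BrStmt) {Λ : Lat} (h : Λ.Ok) :
    Tendsto Λ.tN atTop (𝓝 Λ.tI) := by
  have b1 : IsBoundedUnder (· ≥ ·) atTop Λ.tN :=
    isBoundedUnder_of_eventually_ge ((bdd ha h).mono fun _ h => h.1)
  have b2 : IsBoundedUnder (· ≤ ·) atTop Λ.tN :=
    isBoundedUnder_of_eventually_le ((bdd ha h).mono fun _ h => h.2)
  refine tendsto_of_le_liminf_of_limsup_le le_rfl (le_of_forall_pos_le_add fun ε hε => ?_) b2 b1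
  obtain ⟨δ, hδ, hq⟩ := quasi hx ha hb (Λ.fa h) hε
  have h1 : ∀ᶠ l in atTop, limsup Λ.tN atTop - ε ≤ Λ.tN l := by
    filter_upwards [ev_sep_atTop hδ] with l hl
    rw [sub_le_iff_le_add]
    exact limsup_le_of_le b1.isCoboundedUnder_le (hl.mono fun L hL => hq Λ (Lat.mem_fa h) l L hL)
  exact sub_le_iff_le_add.1 (le_liminf_of_le b2.isCoboundedUnder_ge h1)

theorem tendsto_gN (hx : T1xStmt) (ha : T1aStmt) (hb : BrStmt) {Λ : Lat} (h : Λ.Ok) :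
    Tendsto Λ.gN atTop (𝓝 Λ.gI) := (tendsto_tN hx ha hb h).div_const _

theorem usc (hx : T1xStmt) (ha : T1aStmt) (hd : T1dStmt) (hb : BrStmt) {Λ : Lat} (h : Λ.Ok) :
    UpperSemicontinuousOn (fun τ => (Λ.at' τ).gI) (Set.Ioi 0) := by
  intro τ hτ y hy
  have h' : (Λ.at' τ).Ok := h.at' hτ
  obtain ⟨C, hC, hC'⟩ := ((Λ.at' τ).fa2 h').exists_bound
  have hy' : (Λ.at' τ).gI < y := hy
  set η := (y - (Λ.at' τ).gI) / 3 with hη
  have hη0 : 0 < η := by rw [hη]; linarith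
  obtain ⟨δ, hδ, hq⟩ := part2 hx ha hb ((Λ.at' τ).fa2 h') (η / C) (by positivity)
  obtain ⟨l, hl1, hl2⟩ :=
    (((tendsto_natCast_atTop_atTop.const_mul_atTop hδ).eventually_ge_atTop (1 : ℝ)).and
      ((tendsto_gN hx ha hb h').eventually_lt_const (lt_add_of_pos_right _ hη0))).exists
  have hc : ContinuousWithinAt (fun τ => (Λ.at' τ).gN l) (Set.Ioi 0) τ := (hd.2.2 Λ l h).1 τ hτ
  filter_upwards [hc.eventually_lt_const hl2,
    mem_nhdsWithin_of_mem_nhds (Lat.ev_mem_fa2 h')] with τ' h1 h2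
  change ((Λ.at' τ).fa2 h').Mem (Λ.at' τ') at h2
  have h3 := (hq _ h2).2 l hl1
  have he := h2.e0_pos
  have h4 : (Λ.at' τ').gI ≤ (Λ.at' τ').gN l + η / C * (1 / (Λ.at' τ').e0) := by
    rw [Lat.gI, Lat.gN, mul_one_div, ← add_div]
    exact div_le_div_of_nonneg_right h3 he.le
  have h5 : η / C * (1 / (Λ.at' τ').e0) ≤ η / C * C :=
    mul_le_mul_of_nonneg_left (hC' _ h2).2.2.2.1 (by positivity)
  rw [div_mul_cancel₀ _ (by linarith)] at h5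
  change (Λ.at' τ').gI < y
  linarith

theorem part3 (hx : T1xStmt) (ha : T1aStmt) (hd : T1dStmt) (hb : BrStmt) (F : Fa) (θ₀ δ' : ℝ)
    (k : ℕ) (hθ : 0 < θ₀) (hδ' : 0 < δ') : ∃ δ : ℝ, 0 < δ ∧ ∀ Λ, F.Mem Λ → ∀ l L,
    Λ.Win θ₀ δ l L → |Λ.tN l - Λ.tN L| ≤ δ' ∧ θ₀ / 2 ≤ Λ.tN l ∧
      ∀ j : ℕ, 2 ^ j ≤ L → (L ≤ 2 ^ (j + k) ∨ Sep δ' l (2 ^ j)) →
        Λ.Win (θ₀ / 2) δ' l (2 ^ j) := by
  have hε : 0 < min (δ' / 2) (θ₀ / 2) := lt_min (half_pos hδ') (half_pos hθ)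
  have e1 := min_le_left (δ' / 2) (θ₀ / 2)
  have e2 := min_le_right (δ' / 2) (θ₀ / 2)
  obtain ⟨l₀, h₀⟩ := hd.2.1 F _ hε
  refine exists_of_ev ?_
  filter_upwards [ev_sep_mem (quasi hx ha hb F hε), ev_large l₀, ev_le (half_pos hδ'),
    ev_mul_le ((2 : ℝ) ^ k) hδ', ev_large' (δ' * l₀)] with δ hq hl hδ hk hl' Λ hΛ l L hw
  have hs := hw.sep
  have q1 := hq Λ hΛ l L hs
  have q2 := hq Λ hΛ l (2 * L) (hs.mono_right (by omega))
  have q3 := h₀ Λ hΛ L 2 (hl l L hs).2.2 one_le_two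
  have q4 := hw.low
  have q5 := hw.drop
  refine ⟨abs_le.2 ⟨by linarith, by linarith⟩, by linarith, fun j hj hj' => ?_⟩
  have hs' : Sep δ' l (2 ^ j) := by
    refine hj'.elim (fun h => hs.down (c := 2 ^ k) ?_ (one_le_pow₀ one_le_two) hk) id
    rw [pow_add, mul_comm] at h
    exact_mod_cast h
  obtain ⟨J, rfl⟩ := hw.dyadic
  obtain ⟨d, rfl⟩ := Nat.exists_eq_add_of_le ((pow_le_pow_iff_right₀ one_lt_two).1 hj)
  have hl0 : l₀ ≤ 2 * 2 ^ j := by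
    have h1 : δ' * l₀ ≤ δ' * ((2 ^ j : ℕ) : ℝ) := (hl' _ _ hs).1.trans hs'.2
    have h2 : l₀ ≤ 2 ^ j := by exact_mod_cast le_of_mul_le_mul_left h1 hδ'
    omega
  have q6 := h₀ Λ hΛ (2 * 2 ^ j) (2 ^ d) hl0 Nat.one_le_two_pow
  rw [show 2 ^ d * (2 * 2 ^ j) = 2 * 2 ^ (j + d) by ring] at q6
  exact ⟨⟨j, rfl⟩, hs', by linarith, by linarith⟩

end T1m23

open T1m23 in
theorem t1mStmt (hx : T1xStmt) (ha : T1aStmt) (hd : T1dStmt) (hb : BrStmt) : T1mStmt := by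
  refine ⟨fun Λ h => ?_, part2 hx ha hb, part3 hx ha hd hb⟩
  have ht := tendsto_tN hx ha hb h
  have h0 : 0 ≤ Λ.tI := ge_of_tendsto ht ((bdd ha h).mono fun _ h => h.1)
  have h1 : Λ.tI ≤ 1 := le_of_tendsto ht ((bdd ha h).mono fun _ h => h.2)
  refine ⟨ht, div_nonneg h0 h.e0_pos.le, ?_, fun τ hτ τ' hτ' hle => ?_, usc hx ha hd hb h,
    fun hp δ hδ => ?_⟩
  · rw [← h.inv_e0]; exact div_le_div_of_nonneg_right h1 h.e0_pos.le
  · exact le_of_tendsto_of_tendsto' (tendsto_gN hx ha hb (h.at' hτ)) (tendsto_gN hx ha hb (h.at' hτ'))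
      fun l => (hd.2.2 Λ l h).2.2 hτ hτ' hle
  · have h2 : Tendsto (fun j : ℕ => Λ.tN (2 * 2 ^ j)) atTop (𝓝 Λ.tI) :=
      ht.comp (tendsto_two_pow.const_mul_atTop' two_pos)
    filter_upwards [ev_sep_atTop hδ, ht.eventually_lt_const (lt_add_of_pos_right _ (half_pos hδ))]
      with l hl hl'
    filter_upwards [tendsto_two_pow.eventually hl, h2.eventually_const_lt (half_lt_self hp),
      h2.eventually_const_lt (sub_lt_self _ (half_pos hδ))] with j a b c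
    exact ⟨⟨j, rfl⟩, a, b.le, by linarith⟩

end Crest.Agent.T145
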