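import Crest.Agent.T145.NcAll_78
import Crest.Agent.T145.NcPers_3
import Crest.Agent.T145.NcCross_60
import Crest.Agent.T145.NcRoute_51
import Crest.Agent.T145.NcRad_80
import Crest.Agent.T145.NcTest_98
import Crest.Agent.T145.NcVar_93
import Crest.Agent.T145.NcT4c_37
import Crest.Agent.T145.NcGd_10
import Crest.Agent.T145.NcRate_33
import Crest.Agent.T145.T1U_40
import Crest.Agent.T145.T1m_23
import Crest.Agent.T145.Br_73

/-!
# Row 145: the Props of `NcT4Def_78` from `T3Stmt` alone (helper78)
-/

set_option autoImplicit false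

namespace Crest.Agent.T145.Nc.U

theorem t1m : T1mStmt := t1mStmt t1xU t1aU t1dStmt brStmt
theorem test : TestStmt := testStmt radStmt
theorem win : WinStmt := winStmt t1m
theorem var (h : T3Stmt) : VarStmt := varStmt t1xU h
theorem t4c (h : T3Stmt) : T4cStmt :=
  t4cStmt persStmt crossStmt routeStmt test (var h) brStmt t1m
theorem t4 (h : T3Stmt) : T4Stmt := t4Stmt (t4c h) crNd monoCr
theorem gd (h : T3Stmt) : GdStmt := gdStmt (t4 h) win t1m lgeo
theorem rate (h : T3Stmt) : RateStmt := rateStmt (gd h) sub lgeo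
theorem pdec (h : T3Stmt) : PDecStmt := pdecStmt (gd h) dec ld1 lgeo

end Crest.Agent.T145.Nc.U
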