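import Crest.Agent.T145.Geo_97

/-!
# Row 145 (helper14): the bridge for boxes, `BoxStmt`
-/

set_option autoImplicit false

namespace Crest.Agent.T145

open Finset hiding box
open Crest.ProbabilityR.HeightModel

namespace B14

theorem bl_zero (R : ℕ) : bl 0 R = box R := by simp [bl, box]

theorem mem_box {R : ℕ} {x : Pt} : x ∈ box R ↔ x.1.natAbs ≤ R ∧ x.2.natAbs ≤ R := by
  simp only [box, mem_product, mem_Icc]; omega

theorem neg_mem {J : Finset Pt} (hJ : IsAdmissible J) {y : Pt} (hy : y ∈ J) : -y ∈ J :=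
  hJ.2.2.1 _ (hJ.2.2.1 _ hy)

theorem le_range {J : Finset Pt} {y : Pt} (hy : y ∈ J) :
    y.1.natAbs ≤ interactionRange J ∧ y.2.natAbs ≤ interactionRange J :=
  max_le_iff.1 (le_sup (f := fun y : Pt => max y.1.natAbs y.2.natAbs) hy)

/-- a sum over `J` is a sum over the positive steps and their opposites -/
theorem sum_J {Λ : Lat} (hJ : IsAdmissible Λ.J) (g : Pt → ℝ) :
    ∑ y ∈ Λ.J, g y = ∑ y ∈ Λ.Jp, g y + ∑ y ∈ Λ.Jp, g (-y) := by
  rw [← sum_filter_add_sum_filter_not Λ.J posD]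
  congr 1
  refine sum_nbij' (fun y => -y) (fun y => -y) (fun y hy => ?_) (fun y hy => ?_) (by simp) (by simp)
    (by simp)
  · obtain ⟨h1, h2⟩ := mem_filter.1 hy
    refine mem_filter.2 ⟨neg_mem hJ h1, ?_⟩
    have h0 : y ≠ 0 := fun h => hJ.1 (h ▸ h1)
    have h3 : ¬ (y.1 = 0 ∧ y.2 = 0) := fun h => h0 (Prod.ext h.1 h.2)
    simp only [posD, Prod.fst_neg, Prod.snd_neg] at h2 ⊢
    omega
  · obtain ⟨h1, h2⟩ := mem_filter.1 hy
    refine mem_filter.2 ⟨neg_mem hJ h1, ?_⟩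
    simp only [posD, Prod.fst_neg, Prod.snd_neg] at h2 ⊢
    omega

theorem mem_edT {Λ : Lat} {D : Finset Pt} {e : Pt × Pt} :
    e ∈ Λ.edT D ↔ e.2 - e.1 ∈ Λ.Jp ∧ (e.1 ∈ D ∨ e.2 ∈ D) := by
  simp only [Lat.edT, mem_union, mem_image, mem_product]
  constructor
  · rintro (⟨p, ⟨h1, h2⟩, rfl⟩ | ⟨p, ⟨h1, h2⟩, rfl⟩)
    · exact ⟨by simpa using h2, Or.inl h1⟩
    · exact ⟨by simpa using h2, Or.inr h1⟩
  · rintro ⟨h1, h2 | h2⟩
    · exact Or.inl ⟨(e.1, e.2 - e.1), ⟨h2, h1⟩, by simp⟩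
    · exact Or.inr ⟨(e.2, e.2 - e.1), ⟨h2, h1⟩, by simp⟩

/-- every edge meeting `D` is met in both orientations -/
theorem sum_edT {Λ : Lat} (hJ : IsAdmissible Λ.J) {D U : Finset Pt} (hD : D ⊆ U)
    (hU : ∀ x ∈ D, ∀ y ∈ Λ.J, x + y ∈ U) (g : Pt → Pt → ℝ) (hs : ∀ u v, g u v = g v u)
    (h0 : ∀ u v, u ∉ D → v ∉ D → g u v = 0) :
    ∑ x ∈ U, ∑ y ∈ Λ.J, g x (x + y) = 2 * ∑ e ∈ Λ.edT D, g e.1 e.2 := by
  have hp : ∀ y ∈ Λ.Jp, y ∈ Λ.J := fun y hy => (mem_filter.1 hy).1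
  have h1 : ∀ u v, g u v ≠ 0 → u ∈ D ∨ v ∈ D := fun u v h => by
    by_contra hc
    exact h (h0 u v (fun h => hc (Or.inl h)) fun h => hc (Or.inr h))
  simp only [sum_J hJ, sum_add_distrib, two_mul]
  congr 1
  · rw [← sum_product']
    refine sum_bij_ne_zero (fun p _ _ => (p.1, p.1 + p.2)) (fun p hp h => ?_)
      (fun p _ _ q _ _ h => ?_) (fun e he _ => ?_) fun _ _ _ => rfl
    · exact mem_edT.2 ⟨by simpa using (mem_product.1 hp).2, h1 _ _ h⟩
    · obtain ⟨h2, h3⟩ := Prod.mk.inj h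
      exact Prod.ext h2 (by rwa [h2, add_right_inj] at h3)
    · obtain ⟨h2, h3⟩ := mem_edT.1 he
      refine ⟨(e.1, e.2 - e.1), mem_product.2 ⟨?_, h2⟩, by simpa, by simp⟩
      rcases h3 with h3 | h3
      · exact hD h3
      · simpa using hU _ h3 _ (neg_mem hJ (hp _ h2))
  · rw [← sum_product']
    refine sum_bij_ne_zero (fun p _ _ => (p.1 + -p.2, p.1)) (fun p hp h => ?_)
      (fun p _ _ q _ _ h => ?_) (fun e he h => ?_) fun _ _ _ => hs _ _
    · exact mem_edT.2 ⟨by simpa using (mem_product.1 hp).2, (h1 _ _ h).symm⟩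
    · obtain ⟨h2, h3⟩ := Prod.mk.inj h
      exact Prod.ext h3 (by rwa [h3, add_right_inj, neg_inj] at h2)
    · obtain ⟨h2, h3⟩ := mem_edT.1 he
      refine ⟨(e.2, e.2 - e.1), mem_product.2 ⟨?_, h2⟩, by simpa [hs] using h, by simp⟩
      rcases h3 with h3 | h3
      · simpa using hU _ h3 _ (hp _ h2)
      · exact hD h3

/-- a box configuration as a finitely supported one -/
noncomputable def emb {R : ℕ} (h : BoxConfig R) : Cfg Pt :=
  Finsupp.onFinset (box R) (zeroExtend h) fun x hx => by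
    by_contra hc
    exact hx (dif_neg hc)

@[simp] theorem emb_apply {R : ℕ} (h : BoxConfig R) (x : Pt) : emb h x = zeroExtend h x := rfl

theorem emb_inj (R : ℕ) : Function.Injective (emb (R := R)) := fun h h' e => funext fun x => by
  have := DFunLike.congr_fun e x.1
  simpa [zeroExtend] using this

theorem mem_range_emb {R : ℕ} {s : Cfg Pt} (hs : ∀ x, x ∉ box R → s x = 0) :
    s ∈ Set.range (emb (R := R)) :=
  ⟨fun x => s x.1, Finsupp.ext fun x => by
    by_cases hx : x ∈ box R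
    · simp [zeroExtend, hx]
    · simp [zeroExtend, hx, hs x hx]⟩

theorem W_emb {J : Finset Pt} {β : ℝ} (hJ : IsAdmissible J) (hβ : 0 < β) {R : ℕ}
    (h : BoxConfig R) : ((dg J β).D (bl 0 R)).W 0 (emb h) = boxWeight J β h := by
  have h0 : ∀ x, x ∉ box R → zeroExtend h x = 0 := fun x hx => dif_neg hx
  have hc : (0 : ℝ) < J.card := by exact_mod_cast card_pos.2 ⟨_, hJ.2.1⟩
  have key := sum_edT (Λ := dg J β) hJ (D := box R) (U := box (R + interactionRange J))
    (fun x hx => by rw [mem_box] at hx ⊢; omega)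
    (fun x hx y hy => by
      have := le_range (J := J) hy
      rw [mem_box] at hx ⊢
      simp only [Prod.fst_add, Prod.snd_add]
      omega)
    (fun u v => (2 * Real.pi * ((zeroExtend h v : ℝ) - zeroExtend h u)) ^ 2) (fun u v => by ring)
    fun u v hu hv => by simp [h0 u hu, h0 v hv]
  have e1 : ind (∀ x, x ∉ box R → zeroExtend h x = (0 : Cfg Pt) x) = 1 := if_pos h0
  rw [boxWeight, boxEnergy, bl_zero]
  refine Eq.trans ?_ (congrArg (fun t => Real.exp (-t / (4 * β * J.card))) key.symm)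
  simp only [Mdl.W, Lat.D, Lat.w, kern, dg, Bool.false_eq_true, if_false, gau, prod_const_one,
    mul_one, ← Real.exp_sum, dE, emb_apply]
  rw [e1, one_mul, mul_sum, ← sum_neg_distrib, sum_div]
  refine congrArg _ (sum_congr rfl fun e _ => ?_)
  have := Real.pi_pos
  push_cast
  field_simp
  ring

theorem tsum_emb (Λ : Lat) (R : ℕ) (F : Cfg Pt → ℝ) :
    ∑' h : BoxConfig R, (Λ.D (bl 0 R)).W 0 (emb h) * F (emb h) =
      ∑' s, (Λ.D (bl 0 R)).W 0 s * F s := by
  refine (emb_inj R).tsum_eq (f := fun s => (Λ.D (bl 0 R)).W 0 s * F s) fun s hs => ?_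
  refine mem_range_emb ?_
  by_contra hc
  refine hs ?_
  have : ind (∀ x, x ∉ bl 0 R → s x = (0 : Cfg Pt) x) = 0 := if_neg (bl_zero R ▸ hc)
  simp only [Mdl.W, Lat.D, this, zero_mul]

theorem pr_single (x : Pt) (a : ℝ) (s : Cfg Pt) : pr (Pi.single x a) s = a * s x := by
  rw [pr, Finsupp.liftAddHom_apply, Finsupp.sum_eq_single x (fun y _ hy => by simp [hy]) (by simp)]
  simp

theorem summable_sq {W : Cfg Pt → ℝ} (h0 : ∀ s, 0 ≤ W s) (h : SE W) (x : Pt) :
    Summable fun s => W s * (s x : ℝ) ^ 2 := by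
  refine Summable.of_nonneg_of_le (fun s => mul_nonneg (h0 s) (sq_nonneg _)) (fun s => ?_)
    ((h (pr (Pi.single x 2))).add (h (pr (Pi.single x (-2)))))
  rw [← mul_add, pr_single, pr_single]
  refine mul_le_mul_of_nonneg_left ?_ (h0 s)
  have e : ∀ t : ℝ, 0 ≤ t → t ^ 2 ≤ Real.exp (2 * t) := fun t ht => by
    rw [two_mul, Real.exp_add, ← pow_two]
    exact pow_le_pow_left₀ ht (by linarith [Real.add_one_le_exp t]) 2
  rcases le_total 0 (s x : ℝ) with h | h
  · linarith [e _ h, Real.exp_pos (-2 * s x)]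
  · have := e _ (neg_nonneg.2 h)
    rw [neg_sq, show 2 * -(s x : ℝ) = -2 * s x by ring] at this
    linarith [Real.exp_pos (2 * s x)]

end B14

open B14

/-- **bridge for boxes** -/
theorem boxStmt (hM : MdlStmt) (hG : GeoStmt) : BoxStmt := by
  intro J β hJ hβ
  have hc : (0 : ℝ) < J.card := by exact_mod_cast card_pos.2 ⟨_, hJ.2.1⟩
  have hπ : 0 < 4 * Real.pi ^ 2 := by have := Real.pi_pos; positivity
  have h1 : ∀ R, boxVariance J β R = ENNReal.ofReal (4 * Real.pi ^ 2 * (dg J β).vD R) := by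
    intro R
    obtain ⟨g1, g2⟩ := (hG (dg J β) ⟨hJ, div_pos (mul_pos hβ hc) hπ⟩).1 (bl 0 R)
    have hC := (hM Pt _).2.2 g1 g2
    have s1 : Summable (((dg J β).D (bl 0 R)).W 0) := by simpa using hC.se 0
    have s2 := summable_sq hC.nonneg hC.se 0
    have z1 := tsum_emb (dg J β) R fun _ => 1
    have z2 := tsum_emb (dg J β) R fun s => (s 0 : ℝ) ^ 2
    have t1 := s1.comp_injective (emb_inj R)
    have t2 := (s2.comp_injective (emb_inj R)).mul_left (4 * Real.pi ^ 2)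
    have hp := s1.tsum_pos hC.nonneg 0 hC.pos0
    simp only [mul_one, Function.comp_def, W_emb hJ hβ, emb_apply] at z1 z2 t1 t2
    have e : ∀ h : BoxConfig R, (2 * Real.pi * (zeroExtend h 0 : ℝ)) ^ 2 * boxWeight J β h =
        4 * Real.pi ^ 2 * (boxWeight J β h * (zeroExtend h 0 : ℝ) ^ 2) := fun h => by ring
    have hb : ∀ h : BoxConfig R, 0 ≤ boxWeight J β h := fun h => (Real.exp_pos _).le
    simp only [boxVariance, e]
    rw [← ENNReal.ofReal_tsum_of_nonneg (fun h => by have := hb h; positivity) t2,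
      ← ENNReal.ofReal_tsum_of_nonneg hb t1, tsum_mul_left, z1, z2,
      ← ENNReal.ofReal_div_of_pos hp, mul_div_assoc]
    rfl
  refine ⟨h1, ?_⟩
  simp only [IsRough, h1, Lat.Rough]
  constructor
  · rintro h ⟨B, hB⟩
    refine (lt_of_le_of_lt (iSup_le fun R => ?_)
      (ENNReal.ofReal_lt_top (r := 4 * Real.pi ^ 2 * B))).ne h
    exact ENNReal.ofReal_le_ofReal (mul_le_mul_of_nonneg_left (hB ⟨_, rfl⟩) hπ.le)
  · intro h
    by_contra hc
    refine h ⟨max ((dg J β).vD 0) ((⨆ R : ℕ, ENNReal.ofReal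
      (4 * Real.pi ^ 2 * (dg J β).vD (R + 1))).toReal / (4 * Real.pi ^ 2)), ?_⟩
    rintro _ ⟨R, rfl⟩
    cases R with
    | zero => exact le_max_left _ _
    | succ R =>
      refine le_max_of_le_right ?_
      rw [le_div_iff₀ hπ, mul_comm]
      exact (ENNReal.ofReal_le_iff_le_toReal hc).1
        (le_iSup (fun R : ℕ => ENNReal.ofReal (4 * Real.pi ^ 2 * (dg J β).vD (R + 1))) R)

end Crest.Agent.T145
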