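import Crest.Agent.T145.AllB_55
import Crest.Agent.T145.MxAll_9
import Crest.Agent.T145.NcT4All_78
import Crest.Agent.T145.EsD_28
import Crest.Agent.T145.FsEnd_70
import Crest.Agent.T145.MbEnd_25
import Crest.Agent.T145.TauC_5

/-!
# Row 145: T4, Mx, the Dirichlet limit, T5, P4–P6 without hypotheses (helper21)
-/

set_option autoImplicit false

namespace Crest.Agent.T145.All

theorem t4c : Nc.T4cStmt := Nc.U.t4c t3
theorem t4 : Nc.T4Stmt := Nc.U.t4 t3
theorem win : Nc.WinStmt := Nc.U.win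
theorem gd : Nc.GdStmt := Nc.U.gd t3
theorem rate : Nc.RateStmt := Nc.U.rate t3
theorem pdec : Nc.PDecStmt := Nc.U.pdec t3

theorem inp : Mx.Inp := ⟨t1m, t1a, t1x, sd, t2p, r1, r1c, br, rj, afac, gd⟩
theorem mxGd : Mx.GdStmt := Mx.gd_of gd
theorem uv : Mx.UvStmt := inp.uv
theorem mup : Mx.MupStmt := inp.mup
theorem plo : Mx.PloStmt := inp.plo
theorem phm : Mx.PhmStmt := inp.phm
theorem gm : Mx.GmStmt := inp.gm
theorem tv : Mx.TvStmt := inp.tv
theorem ff : Mx.FfStmt := inp.ff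
theorem mix0 : Mx.Mix0Stmt := inp.mix0
theorem dl : DlStmt := inp.dl
theorem dlGen : Mx31.DlGenStmt := inp.dlGen

theorem dlg : DlgStmt := dlg_of dl
theorem gffD : GffDStmt := gffD_of dl
theorem rgh : RghStmt := rgh_of dl
theorem t5 : T5Stmt := t5_of dl
theorem t5a : T5AStmt := t5A_of dl
theorem tlim : TLimStmt := tLim_of dl
theorem esLoc : Es28.LocStmt := Es28.locStmt gffD t1m

theorem p4 : Top.MassUpStmt := Mb.p4
theorem p5 : Top.MassLoStmt := Mb.p5 t1a t1d t1m t2 step2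
theorem p6 : Top.XyRoughStmt := Tau5.xyRoughStmt FS.e1

end Crest.Agent.T145.All
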