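import Crest.Agent.T145.FlEnt_65
import Crest.Agent.T145.FlDef2_82

/-!
# Row 145, odd flow: `Ent2Stmt` (helper65)
-/

set_option autoImplicit false

namespace Crest.Agent.T145.Fl

theorem ent2Stmt (hS : SemiStmt) (hP : ProdStmt) (hF : FusStmt) (hB : BareStmt) (hM : CmStmt)
    (hA : AkStmt) : Ent2Stmt := fun w => by
  obtain ⟨W₀, h⟩ := ent2 hS hP hF hB hM hA w
  refine ⟨W₀, fun p W hp hW => ?_⟩
  obtain ⟨C, D, -, hD, h⟩ := h p W hp hW
  exact ⟨C, D, hD, h⟩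

end Crest.Agent.T145.Fl
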