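import Crest.Agent.T145.GffDef_8

/-!
# Row 145, module (b): additional Props (helper8)
-/

set_option autoImplicit false

namespace Crest.Agent.T145

open Finset Crest.ProbabilityR.HeightModel

/-- one step of the dichotomy with the sharp growth factor, for every value of `g_l` -/
def Step2Stmt : Prop := ∀ (F : Fa) (ε : ℝ), 0 < ε → ∃ k₀ : ℕ, ∀ k : ℕ, k₀ ≤ k →
  ∃ (q₀ l₀ : ℕ) (c : ℝ), 0 < c ∧ ∀ Λ, F.Mem Λ → ∀ l, l₀ ≤ l →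
    0 < Λ.Y l ∧ Λ.Y l ≤ 1 ∧ c * Λ.Y l ≤ Λ.Y (2 ^ k * l) ∧
      (((2 : ℝ) ^ k) ^ (2 - Real.pi * Λ.gN l - ε) * Λ.Y l ≤ Λ.Y (2 ^ k * l) ∨
        ∃ q : ℤ, 1 ≤ q ∧ q ≤ q₀ ∧ c ≤ Λ.aq l q)

/-- Peierls, bounded variance only -/
def PeiAStmt : Prop := ∀ (F : Fa) (q₀ : ℕ), ∃ (δ : ℝ) (L₀ : ℕ), 0 < δ ∧
  ∀ Λ, F.Mem Λ → ∀ (L : ℕ) (q : ℤ), L₀ ≤ L → 1 ≤ q → q ≤ q₀ → Λ.Lok L q δ → ¬ Λ.Rough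

/-- T5 without the seam -/
def T5AStmt : Prop := ∀ Λ : Lat, Λ.Ok → (Λ.Rough ↔ 2 / Real.pi ≤ Λ.gI) ∧ (¬ Λ.Rough ↔ Λ.gI = 0)

end Crest.Agent.T145
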