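import Crest.Agent.T145.FlDef2_82
import Crest.Agent.T145.FlBas_4
import Crest.Agent.T145.BrB_73
import Crest.Agent.T145.GffDef2_8
import Crest.Agent.T145.MbDef_25
import Crest.Agent.T145.NcGeo_51
import Crest.Agent.T145.NcBas_78
import Crest.Agent.T145.Soft_23

/-!
# Row 145, odd flow, ENTLOW: the charged expectation decays slower than any power (helper80)
-/

set_option autoImplicit false

namespace Crest.Agent.T145.Fl

open Finset Pot Xi Real

namespace E80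

/-- an ambient model is more localised than a free square inside -/
theorem ph_le {Λ : Lat} (hΛ : Λ.Ok) {m : Mdl Pt} {U : Finset Pt} (hm : Nc.Amb Λ m U) {a : Pt} {L : ℕ}
    (hL : 1 ≤ L) (hU : sq a L ⊆ U) {ξ : Pt → ℝ} {q : ℤ} (h : Chq (sq a L) ξ q) :
    Ph (Λ.WN L) (pr fun x => 2 * π * ξ (x + a)) ≤ Ex (m.W 0) (cp ξ 0) := by
  have hI := (Nc.Geo.inL_near hm.near).mono hU
  have ha := self_mem_sq a hL
  have e : cp ξ 0 = fun s => cos (pr ((2 * π) • ξ) s) := funext fun s => by simp [cp, pr_smul]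
  have hd := depG_cp h 0
  have h1 := Nc.le_ex hm.ctr hm.anch (hI.cn fun _ hx _ hy => hΛ.conn_sq hx hy) ⟨a, ha⟩
    (G := cp ξ 0) (e ▸ pd_cos _) hd
  rw [hI.nE_Nr ha (hd.shift subset_rfl)] at h1
  have h2 := hΛ.Ph_rc hL hL (a := a) (r := a) ha (f := (2 * π) • ξ) (q := q) (by
    simp only [Pi.smul_apply, smul_eq_mul, ← mul_sum]; exact congrArg _ h.2)
  refine h2.symm.trans_le (le_trans (le_of_eq ?_) h1)
  rw [e]; rfl

/-- in a critical window `Y` decays slower than any power -/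
theorem grow (hS : Step2Stmt) (h2 : T2Stmt) (hm : T1mStmt) (hY : Mb.Y0Stmt) (F : Fa) {θ₀ η : ℝ}
    (h0 : 0 < θ₀) (hη : 0 < η) : ∃ (δ : ℝ) (k : ℕ), 0 < δ ∧ 1 ≤ k ∧ ∀ l, ∃ (j₀ : ℕ) (y : ℝ), 0 < y ∧
      ∀ Λ N, F.Mem Λ → Mid.Cw θ₀ δ Λ l N → ∀ i, j₀ + k * i ≤ N →
        y * ((2 : ℝ) ^ (k * i)) ^ (-η) ≤ Λ.Y (2 ^ (j₀ + k * i)) := by
  obtain ⟨k₀, H1⟩ := hS F (η / 2) (by positivity)
  obtain ⟨q₀, l₀, c, hc, H1⟩ := H1 (k₀ + 1) (by omega)
  obtain ⟨δ₂, d2, H2⟩ := h2 F (θ₀ / 2) (q₀ + 1) (c / 2) (by positivity)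
    (le_add_of_nonneg_left (Nat.cast_nonneg _)) (by positivity)
  have hT : 0 < |F.τ₂| + 1 := by positivity
  obtain ⟨δ₃, d3, H3⟩ := hm.2.1 F (η / 16 / (|F.τ₂| + 1)) (by positivity)
  obtain ⟨δ₄, d4, H4⟩ := hm.2.2 F θ₀ (min δ₂ δ₃) 0 h0 (lt_min d2 d3)
  refine ⟨min δ₄ (min (min δ₂ δ₃) (η / 16)), k₀ + 1, by positivity, by omega, fun l => ?_⟩
  set k := k₀ + 1
  obtain ⟨j₀, hj⟩ := pow_unbounded_of_one_lt (l / min δ₂ δ₃ + l₀ : ℝ) (one_lt_two (α := ℝ))
  obtain ⟨y, hy, H5⟩ := hY F (2 ^ j₀) Nat.one_le_two_pow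
  refine ⟨j₀, y, hy, fun Λ N hΛ hw i => ?_⟩
  induction i with
  | zero => intro _; simpa using H5 Λ hΛ
  | succ i ih =>
    intro hi
    have hi' : j₀ + k * i ≤ N := le_trans (by rw [mul_add]; omega) hi
    set j := j₀ + k * i with hjd
    have d5 := lt_min d2 d3
    have p1 : (2 : ℝ) ^ j₀ ≤ 2 ^ j := pow_le_pow_right₀ one_le_two (by omega)
    have p2 : 0 ≤ (l : ℝ) / min δ₂ δ₃ := by positivity
    have p3 : (0 : ℝ) ≤ l₀ := Nat.cast_nonneg _
    have sp : Sep (min δ₂ δ₃) l (2 ^ j) :=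
      ⟨(hw.1.sep.mono ((min_le_right _ _).trans (min_le_left _ _))).1, by
        push_cast; rw [mul_comm, ← div_le_iff₀ d5]; linarith⟩
    have w := (H4 Λ hΛ l _ (hw.1.mono_d (min_le_left _ _))).2.2 j
      (Nat.pow_le_pow_right two_pos hi') (Or.inr sp)
    obtain ⟨a1, -, -, a4⟩ := H1 Λ hΛ (2 ^ j) (by exact_mod_cast (by linarith : (l₀ : ℝ) ≤ 2 ^ j))
    have a5 := a4.resolve_right fun ⟨q, q1, q2, q3⟩ => by
      have b1 : (1 : ℝ) ≤ q := by exact_mod_cast q1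
      have b2 : (q : ℝ) ≤ q₀ := by exact_mod_cast q2
      have := H2 Λ hΛ l _ (w.mono_d (min_le_left _ _)) q (by omega)
        (by rw [abs_of_pos (by linarith)]; linarith)
      linarith
    have g1 : Λ.gN (2 ^ j) ≤ Λ.gN l + η / 16 := by
      have t1 := (H3 Λ hΛ).1 l _ (sp.mono (min_le_right _ _))
      have t2 : 1 / Λ.e0 ≤ |F.τ₂| + 1 := hΛ.inv_e0_le.trans (by linarith [le_abs_self F.τ₂])
      have t3 := hΛ.e0_pos
      calc Λ.gN (2 ^ j) ≤ (Λ.tN l + η / 16 / (|F.τ₂| + 1)) / Λ.e0 := div_le_div_of_nonneg_right t1 t3.le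
        _ = Λ.gN l + η / 16 / (|F.τ₂| + 1) * (1 / Λ.e0) := by rw [Lat.gN]; ring
        _ ≤ Λ.gN l + η / 16 / (|F.τ₂| + 1) * (|F.τ₂| + 1) := by gcongr
        _ = _ := by rw [div_mul_cancel₀ _ hT.ne']
    have g2 := (abs_le.1 (hw.2.trans ((min_le_right _ _).trans (min_le_right _ _)))).2
    have g3 : -η ≤ 2 - π * Λ.gN (2 ^ j) - η / 2 := by
      have : π * Λ.gN (2 ^ j) ≤ π * (2 / π + η / 8) := mul_le_mul_of_nonneg_left (by linarith) pi_pos.le
      rw [mul_add, mul_div_cancel₀ _ pi_pos.ne'] at this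
      nlinarith [pi_lt_four]
    have e : 2 ^ (j₀ + k * (i + 1)) = 2 ^ k * 2 ^ j := by rw [← pow_add, hjd]; congr 1; ring
    rw [e, mul_add, mul_one, pow_add, mul_rpow (by positivity) (by positivity), ← mul_assoc, mul_comm]
    refine le_trans ?_ a5
    exact mul_le_mul (rpow_le_rpow_of_exponent_le (one_le_pow₀ one_le_two) g3) (ih hi') (by positivity)
      (by positivity)

end E80

open E80 in
theorem entLowStmt (hS : Step2Stmt) (h2 : T2Stmt) (hm : T1mStmt) (hY : Mb.Y0Stmt) (hA : AFacStmt) :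
    EntLowStmt := by
  intro F θ₀ η h0 hη
  obtain ⟨δ, k, hδ, hk, H⟩ := grow hS h2 hm hY F h0 (half_pos hη)
  obtain ⟨Cx, hCx, hx⟩ := abs_xi_le
  set W : ℝ := 2 ^ (k + 3) with hW
  have W0 : 0 < W := by positivity
  set K : ℝ := 2 * π * Cx * W ^ 2 + π / 2 with hK
  set n₀ : ℝ := F.base.Jp.card * (100 * K) ^ 2 with hn₀
  refine ⟨δ, k + 3, hδ, fun l => ?_⟩
  obtain ⟨j₀, y, hy, H⟩ := H l
  refine ⟨2 ^ j₀, y ^ 2 * W ^ (-η) / exp (F.τ₂ * n₀), by positivity,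
    fun Λ N hΛ hw R n m hR hn hN hm => ?_⟩
  have R1 : 1 ≤ R := le_trans (by exact_mod_cast Nat.one_le_two_pow) hR
  have R0 : 0 < R := by linarith
  set c := ⌈2 * R⌉₊ with hc
  have c1 : 2 * R ≤ c := Nat.le_ceil _
  have c2 : (c : ℝ) < 2 * R + 1 := Nat.ceil_lt_add_one (by linarith)
  have ex : ∃ i, 2 * c + 1 ≤ 2 ^ (j₀ + k * i) := ⟨2 * c + 1, le_trans
    (by nlinarith) (Nat.lt_two_pow_self (n := j₀ + k * (2 * c + 1))).le⟩
  obtain ⟨i, i1, i2⟩ : ∃ i, 2 * c + 1 ≤ 2 ^ (j₀ + k * i) ∧ ((2 ^ (j₀ + k * i) : ℕ) : ℝ) ≤ W * R := by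
    refine ⟨Nat.find ex, Nat.find_spec ex, ?_⟩
    have k1 : (1 : ℝ) ≤ 2 ^ k := one_le_pow₀ one_le_two
    rcases h : Nat.find ex with _ | i
    · rw [mul_zero, add_zero, hW, pow_add]; nlinarith
    · have := not_le.1 (Nat.find_min ex (m := i) (by omega))
      have b : (2 : ℝ) ^ (j₀ + k * i) ≤ 8 * R := by
        have : ((2 ^ (j₀ + k * i) : ℕ) : ℝ) ≤ (2 * c + 1 : ℕ) := by exact_mod_cast this.le
        push_cast at this; linarith
      push_cast
      rw [mul_add, mul_one, ← add_assoc, pow_add, hW, pow_add _ k 3]; nlinarith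
  have Ln : 2 ^ (j₀ + k * i) ≤ n := by exact_mod_cast i2.trans hn
  have y1 := H Λ N hΛ hw i ((Nat.pow_le_pow_iff_right one_lt_two).1 (Ln.trans hN))
  have y2 : (2 : ℝ) ^ (k * i) ≤ W * R :=
    le_trans (by exact_mod_cast Nat.pow_le_pow_right two_pos (Nat.le_add_left _ _)) i2
  generalize 2 ^ (j₀ + k * i) = L at i1 i2 Ln y1
  have L1 : 1 ≤ L := by omega
  have L0 : (0 : ℝ) < L := by positivity
  have hO := hΛ.ok
  set a : Pt := (-(c : ℤ), -(c : ℤ)) with ha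
  have sb : bl 0 c ⊆ sq a L := fun x hx => by
    simp only [mem_bl, mem_sq, ha, Prod.fst_zero, Prod.snd_zero] at hx ⊢; omega
  have sx := sup_xi R0 c1
  have hq : Chq (sq a L) (xi R) 1 := ⟨fun x hx => sx x fun h => hx (sb h), by
    rw [← sum_subset sb fun x _ hx => sx x hx, sum_xi R0 c1, Int.cast_one]⟩
  have p1 := ph_le hO hm L1 (fun x hx => by
    simp only [mem_bl, mem_sq, ha, Prod.fst_zero, Prod.snd_zero] at hx ⊢; omega) hq
  have K1 : π / 2 ≤ K := le_add_of_nonneg_left (by positivity)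
  have ch := r1cStmt Λ L K 0 (fun x => -(2 * π * xi R (x + a))) (fun _ => π / 2) hO L1
    (fun x hx => by
      have : x + a ∉ sq a L := fun h => hx (by
        simp only [mem_sq, Prod.fst_add, Prod.snd_add, Prod.fst_zero, Prod.snd_zero] at h ⊢
        omega)
      simp only [hq.1 _ this, mul_zero, neg_zero])
    (fun x => by
      rw [abs_neg, abs_mul, abs_of_pos two_pi_pos]
      calc _ ≤ 2 * π * (Cx / R ^ 2) := by gcongr; exact hx R R1 _
        _ = 2 * π * Cx * W ^ 2 / (W * R) ^ 2 := by field_simp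
        _ ≤ _ := by gcongr; exact le_add_of_nonneg_right (by positivity))
    (fun _ => by rwa [abs_of_pos (by positivity)])
    (by
      have := hq.2
      rw [sq_eq_rc, ← zero_add a, ← map_rc_add, sum_map] at this
      simp only [Equiv.coe_toEmbedding, Equiv.coe_addRight, Int.cast_one] at this
      rw [sum_neg_distrib, ← mul_sum, sq_eq_rc, this]; simp; ring)
  have f2 : F2 (Λ.edI (sq 0 L)) ((fun x => -(2 * π * xi R (x + a))) + side L fun _ => π / 2) n₀ := by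
    refine (ch.f2.congr (funext fun x => by simp)).mono ?_
    have hc : ((Λ.edI (sq 0 L)).card : ℝ) ≤ (L : ℝ) ^ 2 * F.base.Jp.card := by
      have := card_edI_le Λ (sq 0 L)
      rw [card_sq, hΛ.Jp_eq] at this
      exact_mod_cast this
    calc ((Λ.edI (sq 0 L)).card : ℝ) * (100 * K / L) ^ 2
        ≤ (L : ℝ) ^ 2 * F.base.Jp.card * (100 * K / L) ^ 2 := by gcongr
      _ = _ := by rw [hn₀]; field_simp
  have v := (hO.vr_WN L1 f2).trans (mul_le_mul_of_nonneg_right hΛ.tau_le f2.nonneg)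
  have p2 := (hA.2.1 _ _ 0 (pr fun x => 2 * π * xi R (x + a))
    (pr ((fun x => -(2 * π * xi R (x + a))) + side L fun _ => π / 2)) (hO.cen_WN L1)).1
  rw [← pr_add, show ((fun x => 2 * π * xi R (x + a)) + ((fun x => -(2 * π * xi R (x + a))) +
    side L fun _ => π / 2)) = side L fun _ => π / 2 from funext fun x => by simp] at p2
  have p0 := ((hO.cen_WN L1).ph_pos (pr fun x => 2 * π * xi R (x + a))).le
  rw [div_mul_eq_mul_div, div_le_iff₀ (exp_pos _), mul_assoc, ← mul_rpow W0.le R0.le]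
  calc y ^ 2 * (W * R) ^ (-η) ≤ y ^ 2 * ((2 : ℝ) ^ (k * i)) ^ (-η) := by
        gcongr _ * ?_; exact rpow_le_rpow_of_nonpos (by positivity) y2 (by linarith)
    _ = (y * ((2 : ℝ) ^ (k * i)) ^ (-(η / 2))) ^ 2 := by
        rw [mul_pow, pow_two (_ ^ _), ← rpow_add (by positivity)]; congr 2; ring
    _ ≤ Λ.Y L ^ 2 := by gcongr
    _ ≤ _ := p2.trans (by rw [mul_comm]; exact mul_le_mul p1 (exp_le_exp.2 v) (exp_pos _).le (p0.trans p1))

end Crest.Agent.T145.Fl
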