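import Crest.Agent.T145.KrAlgA_91
import Crest.Agent.T145.KrGeo_87
import Crest.Agent.T145.KrSw_44

/-!
# Row 145, module KERNEL (helper91): assembly of `Gm.Alg`
-/

set_option autoImplicit false

namespace Crest.Agent.T145.Kr

open A91

theorem algStmt (hS : SwStmt) : AlgStmt := fun G _ h =>
  { r_le := Geo87.r_le h
    rho_le := Geo87.rho_le h
    le_rho := Geo87.le_rho G
    Ga_sub := Geo87.Ga_sub G
    sub_Ga := Geo87.sub_Ga G
    card_Ga := Geo87.card_Ga G
    cells := Geo87.cells G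
    coA := co_A G
    coD := co_D G
    cp_pos := (co_D G).cap_pos (sub h) ⟨0, self_mem_bl _ _⟩
    eq_sup := eq_sup h
    eq_nonneg := (co_D G).eqm_nonneg (Pot.mk_eD _) (sub h)
    eq_sum := eq_sum h
    te_sup := sw_sup hS (eq_supD h)
    te_sum := te_sum hS h
    hm_sup := sw_sup hS (Pot.sup_dl (self_mem_bl _ _))
    hm_sum := hm_sum hS h
    om_mem := om_mem G
    ma_hm := fun _ => (co_D G).ex_hm _
    mb_hm := fun _ => (co_D G).exo_hm _
    hx_dat := hx_dat h
    k1 := k1 hS h
    y_in := y_in hS h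
    y_out := y_out hS h
    y_neg := y_neg G
    ga_eq := fun k => pr_inv ((q_gp k).eq G)
    ga_te := fun k => pr_inv ((q_gp k).te G hS)
    ga_hm := fun k => pr_inv (by rw [hm, (q_gp k).sw hS, (q_gp k).dl])
    ga_y := fun k => (q_gp k).y0 G hS
    ga_nm := fun k a => ⟨by rw [← (q_gp k).ma G a, (q_gp k).nm, ga_eq],
      by rw [← (q_gp k).mb G a, (q_gp k).nm, ga_eq]⟩
    rot_ch := rot_ch G
    swp_ch := swp_ch G
    rot_dp := rot_dp hS _
    swp_dp := swp_dp hS _
    map_an := Geo87.map_an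
    sym := Geo87.sym }

theorem algStmt' : AlgStmt := algStmt swStmt

end Crest.Agent.T145.Kr
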