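import Crest.Agent.T145.FlLow_11
import Crest.Agent.T145.FlA_51
import Crest.Agent.T145.KrOut_11
import Crest.Agent.T145.KrAlg_91
import Crest.Agent.T145.FlKb_14
import Crest.Agent.T145.FlDef2_82

/-!
# Row 145, odd flow: the soft inputs `Ks`, `low₁`, `low₂` of `Fl.Pack` from the kernel module (helper11)
-/

set_option autoImplicit false

namespace Crest.Agent.T145.Fl.L11

open Finset Real Filter

theorem ev_rp {a : ℝ} (ha : 0 < a) (c : ℝ) : ∀ᶠ W : ℕ in atTop, c ≤ (W : ℝ) ^ a :=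
  ((tendsto_rpow_atTop ha).comp tendsto_natCast_atTop_atTop).eventually_ge_atTop c

theorem num {c₀ W e t : ℝ} {j : ℕ} (hc : 0 < c₀) (hW : 1 ≤ W) (he : e ≤ 1) (h : 1024 / c₀ ≤ W ^ (e / 2))
    (hj : j ≤ 2) (ht : t ≤ 2 + e / 4) (he0 : 0 ≤ e) :
    W ^ (-(2 * j : ℝ) - e) ≤ c₀ * (8 * W ^ j) ^ (-t) - W ^ (-4 - e) := by
  have W0 : 0 < W := by linarith
  have hj' : (j : ℝ) ≤ 2 := by exact_mod_cast hj
  have h1 : W ^ (-4 - e) ≤ W ^ (-(2 * j : ℝ) - e) := rpow_le_rpow_of_exponent_le hW (by linarith)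
  have h2 : (1 / 512 : ℝ) ≤ 8 ^ (-t) := by
    rw [show (1 / 512 : ℝ) = 8 ^ (-(3 : ℕ) : ℝ) by rw [rpow_neg (by norm_num), rpow_natCast]; norm_num]
    exact rpow_le_rpow_of_exponent_le (by norm_num) (by push_cast; linarith)
  have h3 : W ^ (e / 2) * W ^ (-(2 * j : ℝ) - e) ≤ (W ^ j) ^ (-t) := by
    rw [← rpow_add W0, ← rpow_natCast, ← rpow_mul W0.le]
    exact rpow_le_rpow_of_exponent_le hW (by nlinarith [Nat.cast_nonneg (α := ℝ) j])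
  have h4 : 0 < W ^ (-(2 * j : ℝ) - e) := by positivity
  rw [mul_rpow (by norm_num) (by positivity)]
  rw [div_le_iff₀ hc] at h
  have h5 : c₀ * (1 / 512 * (W ^ (e / 2) * W ^ (-(2 * j : ℝ) - e))) ≤ c₀ * (8 ^ (-t) * (W ^ j) ^ (-t)) := by
    gcongr
  nlinarith [mul_le_mul_of_nonneg_right h h4.le]

theorem g_rng {g η : ℝ} (h : |π * g - 2| ≤ η) (hη : η ≤ 1 / 4) : 1 / 2 ≤ g ∧ g ≤ 1 := by
  have := abs_le.1 h
  constructor <;> by_contra hn <;> nlinarith [pi_lt_d2, pi_gt_three, not_le.1 hn]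

/-- LOW at the scales of the cone, free exponent -/
theorem lowP (hQ : Kr.QStmt) (F : Fa) {θ₀ e : ℝ} (h0 : 0 < θ₀) (he : 0 < e) (he1 : e ≤ 1) :
    ∃ C₀ : ℕ, ∀ᶠ W : ℕ in atTop, ∃ δ : ℝ, 0 < δ ∧ ∀ Λ, F.Mem Λ → ∀ l L, Λ.Win θ₀ δ l L →
      |π * Λ.gN l - 2| ≤ e / 4 → ∀ r : ℕ, C₀ ≤ r → W * r ≤ L → L ≤ 2 * (W * r) → ∀ m,
      (Nc.Amb Λ m (bl 0 (4 * (W * r))) →
        (W : ℝ) ^ (-2 - e) ≤ Ex (m.W 0) fun s => Sn (r / 4) s * Sn (2 * (W * r)) s) ∧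
      (Nc.Amb Λ m (bl 0 (4 * (W * (W * r)))) →
        (W : ℝ) ^ (-4 - e) ≤ Ex (m.W 0) fun s => Sn (r / 4) s * Sn (2 * (W * (W * r))) s) := by
  obtain ⟨c₀, C₀, hc, H⟩ := low hQ
  refine ⟨⌈4 * C₀⌉₊ + 1, ?_⟩
  filter_upwards [ev_rp (half_pos he) (1024 / c₀), eventually_ge_atTop 1] with W hW hW1
  have W1 : (1 : ℝ) ≤ W := by exact_mod_cast hW1
  obtain ⟨δ, hδ, h⟩ := H F θ₀ (8 * W) ((W : ℝ) ^ (-4 - e)) h0 (by linarith) (by positivity)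
  refine ⟨δ, hδ, fun Λ hΛ l L hw hg r hr h1 h2 m => ?_⟩
  obtain ⟨g1, g2⟩ := g_rng hg (by linarith)
  have r1 : (1 : ℝ) ≤ r := by exact_mod_cast (by omega : 1 ≤ r)
  have rC : C₀ ≤ (r : ℝ) / 4 := by
    have : ((⌈4 * C₀⌉₊ : ℕ) : ℝ) ≤ r := by exact_mod_cast (by omega : ⌈4 * C₀⌉₊ ≤ r)
    linarith [Nat.le_ceil (4 * C₀)]
  have h1' : (W : ℝ) * r ≤ L := by exact_mod_cast h1
  have h2' : (L : ℝ) ≤ 2 * (W * r) := by exact_mod_cast h2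
  have a1 : (r : ℝ) ≤ W * r := le_mul_of_one_le_left (by linarith) W1
  have a2 : (W : ℝ) * r ≤ W * (W * r) := le_mul_of_one_le_left (by positivity) W1
  have a3 : (W : ℝ) * (W * r) ≤ W * L := by gcongr
  have t := (abs_le.1 hg).2
  refine ⟨fun hm => ?_, fun hm => ?_⟩
  · have := h Λ hΛ l L hw (r / 4) (2 * (W * r)) _ m hm rC (by linarith) (by push_cast; ring) (by linarith)
      (by push_cast; nlinarith) g1 g2
    rw [show 2 * ((W : ℝ) * r) / (r / 4) = 8 * W ^ 1 by field_simp; ring] at this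
    exact le_trans (by simpa using num hc W1 he1 hW one_le_two (by linarith) he.le) this
  · have := h Λ hΛ l L hw (r / 4) (2 * (W * (W * r))) _ m hm rC (by linarith) (by push_cast; ring)
      (by linarith) (by push_cast; nlinarith) g1 g2
    rw [show 2 * ((W : ℝ) * (W * r)) / (r / 4) = 8 * W ^ 2 by field_simp; ring] at this
    refine le_trans ?_ this
    have := num hc W1 he1 hW le_rfl (show π * Λ.gN l ≤ _ by linarith) he.le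
    rwa [show -(2 * ((2 : ℕ) : ℝ)) = -4 by norm_num] at this

variable {Λ : Lat}

theorem St_St (hΛ : Λ.Ok) {z : Pt} {r R : ℕ} (h : r ≤ R) {F : Cfg Pt → ℝ} (hF : Tame F) :
    Nc.St Λ z R (Nc.St Λ z r F) = Nc.St Λ z R F := by
  funext s
  rw [FlF4.St_cE hΛ (m := Λ.D (bl z R)) ⟨hΛ.ctr_D _, hΛ.anch_D _, bl_mono z h, Lat.near_D (bl_mono z h)⟩ F]
  exact (Mdl.cE_cE (m := Λ.D (bl z R)) (bl_mono z h) (hΛ.wt_D _ s) ((hΛ.se_D _ s).ig hF)).2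

/-- the condenser of one cone step -/
def gm (Λ : Lat) (w W r : ℕ) : Kr.Gm := ⟨w * r, w * (w * r) + Λ.rg, W * r, w * (W * r)⟩

theorem adm (hΛ : Λ.Ok) {w r₀ L r : ℕ} (W : ℕ) (hG : Nc.Gd Λ (1 / 400) w r₀ L) (hw : 4 ≤ w) (h0 : r₀ ≤ r)
    (hL : w * r ≤ L) {F : Cfg Pt → ℝ} (hF : Ins 0 r F) : (gm Λ w W r).Adm Λ (Nc.St Λ 0 r F) := by
  have h1 := hG.2.1
  have h2 : 4 * r ≤ w * r := Nat.mul_le_mul_right _ hw
  have h3 : 4 * (w * r) ≤ w * (w * r) := Nat.mul_le_mul_right _ hw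
  refine ⟨⟨r, show _ ≤ w * r by omega, (hG.2.2 r h0 (by omega)).trans (by norm_num),
    FlF4.depG_St hΛ (hF.1.mono (bl_mono 0 (by omega))) le_rfl⟩, show w * r + _ ≤ w * (w * r) + _ by omega,
    ?_, FlF4.In_St hΛ (hF.1.mono (bl_mono 0 (show r ≤ w * r by omega))) (show _ ≤ w * r by omega)
      (FlF4.In_tame hΛ _ _ hF.2)⟩
  show Nc.gam Λ (w * r) (w * (w * r) + Λ.rg - Λ.rg) ≤ 2
  rw [Nat.add_sub_cancel]
  exact (hG.2.2 _ (by omega) hL).trans (by norm_num)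

theorem ks_core (hΛ : Λ.Ok) {w r₀ L r W : ℕ} (hG : Nc.Gd Λ (1 / 400) w r₀ L) (hw : 4 ≤ w) (h0 : r₀ ≤ r)
    (hW : 1 ≤ W) (hL : w * (W * r) ≤ L) {A B b lam : ℝ} {σ τ : Cfg Pt → ℝ} (hA : 0 ≤ A) (hb : 0 < b)
    (hτ : ∀ s, |τ s| ≤ 1) (dτ : DepG (bl 0 (W * r + 1)) τ) (hl : |lam| ≤ B) (hAb : 4 * A ≤ b)
    (hK : ∀ F, (gm Λ w W r).Adm Λ F → OddF F → D4 0 F →
      |(gm Λ w W r).E Λ fun t => F t * σ t| ≤ 2 * (gm Λ w W r).N₁ Λ F ∧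
      (gm Λ w W r).N₂ Λ (fun s => (gm Λ w W r).T Λ F s -
        2 * lam * (gm Λ w W r).E Λ (fun t => F t * σ t) * τ s) ≤ A * (gm Λ w W r).N₁ Λ F)
    (hlo : b ≤ Ex ((Λ.D (bl 0 (w * (W * r)))).W 0) fun s => Sn (r / 4) s * Sn (2 * (W * r)) s)
    {F : Cfg Pt → ℝ} (hF : Ins 0 r F) (ho : OddF F) (h4 : D4 0 F) :
    nu Λ w 0 (W * r) F ≤ (A + 4 * B) * nu Λ w 0 r F ∧
      ∃ c : ℝ, nu Λ w 0 (W * r) (fun s => F s - c * Sn (r / 4) s) ≤ A * (1 + 8 * B / b) * nu Λ w 0 r F := by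
  have h1 := hG.2.1
  have rg1 := hΛ.one_le_rg
  have h2 : r ≤ W * r := Nat.le_mul_of_pos_left _ hW
  have h3 : 4 * (W * r) ≤ w * (W * r) := Nat.mul_le_mul_right _ hw
  have h5 : w * r ≤ w * (W * r) := Nat.mul_le_mul_left _ h2
  have hB : 0 ≤ B := (abs_nonneg _).trans hl
  have cE : Cen ((Λ.Nr (bl 0 (w * (W * r))) 0).W 0) := hΛ.cen_Nr_bl (self_mem_bl _ _)
  have key : ∀ H, Ins 0 r H → OddF H → D4 0 H → ∃ a : ℝ, |a| ≤ 4 * B * nu Λ w 0 r H ∧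
      Nc.In Λ 0 (w * (W * r)) (fun s => Nc.St Λ 0 (W * r) H s - a * τ s) ∧
      Nc.Nm Λ 0 (w * (W * r)) (fun s => Nc.St Λ 0 (W * r) H s - a * τ s) ≤ A * nu Λ w 0 r H :=
    fun H hH ho h4 => by
      obtain ⟨k1, k2⟩ := hK _ (adm hΛ W hG hw h0 (by omega) hH) (Om.odd_St ho 0 r) (Om.d4_St hΛ h4 r)
      refine ⟨_, ?_, Ig.sub (FlF4.In_St hΛ (hH.1.mono (bl_mono 0 (by omega))) (by omega)
        (FlF4.In_tame hΛ _ _ hH.2)) (cE.ig ((Tame.bdd hτ).const_mul _)), by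
          simpa only [Kr.Gm.T, Kr.Gm.N₂, Kr.Gm.N₁, nu, gm, St_St hΛ h2 hH.2] using k2⟩
      rw [abs_mul, abs_mul, abs_two]
      calc _ ≤ 2 * B * (2 * nu Λ w 0 r H) := by gcongr; exact k1
        _ = _ := by ring
  have iS : Ins 0 r (Sn (r / 4)) := ins_Sn4 (by omega)
  obtain ⟨a, a1, a2, a3⟩ := key F hF ho h4
  obtain ⟨a', -, b2, b3⟩ := key _ iS (odd_Sn _) (d4_Sn _)
  have n0 := A51.nu_nonneg hΛ w 0 r F
  have nS : A * nu Λ w 0 r (Sn (r / 4)) ≤ A :=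
    mul_le_of_le_one_right hA (FlF4.nu_le_of_bdd hΛ _ _ _ (abs_Sn_le _))
  have lo : b / 2 ≤ |a'| := by
    have hm : Nc.Amb Λ (Λ.D (bl 0 (w * (W * r)))) (bl 0 (w * (W * r))) :=
      ⟨hΛ.ctr_D _, hΛ.anch_D _, subset_rfl, Lat.near_D subset_rfl⟩
    have cD := hΛ.cen_D (bl 0 (w * (W * r)))
    obtain ⟨i1, d1⟩ := (FlF4.ld1 Λ hΛ).1 Unit _ {()} (fun _ => 0) (fun _ => W * r) (fun _ => w * (W * r))
      (fun _ s => Nc.St Λ 0 (W * r) (Sn (r / 4)) s - a' * τ s) (by simp) hm.ctr hm.anch fun _ _ =>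
        ⟨hm, by omega, (FlF4.depG_St hΛ (iS.1.mono (bl_mono 0 (by omega))) le_rfl).sub
          ((DepG.const _ _).mul (dτ.mono (bl_mono 0 (by omega)))), b2⟩
    simp only [prod_singleton] at i1 d1
    have g2 : Nc.gam Λ (W * r) (w * (W * r)) ≤ 2 := (hG.2.2 _ (by omega) (by omega)).trans (by norm_num)
    have d2 := d1.trans (mul_le_mul g2 (b3.trans nS) (Ex_nonneg cE.nonneg fun _ _ => abs_nonneg _) two_pos.le)
    have r1 : (1 : ℝ) ≤ (W * r : ℕ) := by exact_mod_cast (by omega : 1 ≤ W * r)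
    have oS : Out (bl 0 (W * r)) (Sn (2 * (W * r))) := by
      push_cast at r1; exact out_Sn (by linarith) (by push_cast; linarith)
    simp only [mul_comm (Sn (r / 4) _)] at hlo
    rw [A51.ex_St hΛ (FlF4.amb_mono hm (bl_mono 0 (by omega))) oS (cD.ig ((tame_Sn _).mul (tame_Sn _)))] at hlo
    have i2 := cD.ig (Tame.const |a'|)
    have := Ex_mono cD.nonneg (cD.ig ((tame_Sn (2 * (W * r))).mul (Tame.bdd fun s =>
      (hΛ.wt_D (bl 0 (W * r)) s).abs_ex_le fun t _ => abs_Sn_le (r / 4) t)))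
      ((i1.abs cD.nonneg).add i2) fun s => by
        refine (le_abs_self _).trans ?_
        rw [abs_mul]
        refine (mul_le_of_le_one_left (abs_nonneg _) (abs_Sn_le _ s)).trans ?_
        have := abs_add_le (Nc.St Λ 0 (W * r) (Sn (r / 4)) s - a' * τ s) (a' * τ s)
        rw [sub_add_cancel, abs_mul a'] at this
        exact this.trans (add_le_add le_rfl (mul_le_of_le_one_right (abs_nonneg _) (hτ s)))
    rw [Ex_add (i1.abs cD.nonneg) i2, cD.wt.ex_const] at this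
    have := hlo.trans this
    linarith
  have a0 : a' ≠ 0 := fun h => by rw [h, abs_zero] at lo; linarith
  have tri : ∀ {X Y Z : Cfg Pt → ℝ} (c : ℝ), Nc.In Λ 0 (w * (W * r)) X → Nc.In Λ 0 (w * (W * r)) Y →
      (∀ s, Z s = X s + c * Y s) → Nc.Nm Λ 0 (w * (W * r)) Z ≤
        Nc.Nm Λ 0 (w * (W * r)) X + |c| * Nc.Nm Λ 0 (w * (W * r)) Y := fun {X Y Z} c hX hY e => by
    simp only [Nc.Nm, Nc.EN, e]
    rw [← Ex_const_mul, ← Ex_add (hX.abs cE.nonneg) ((hY.abs cE.nonneg).const_mul _)]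
    exact Ex_mono cE.nonneg ((hX.add (hY.const_mul c)).abs cE.nonneg)
      ((hX.abs cE.nonneg).add ((hY.abs cE.nonneg).const_mul _)) fun s => by
        rw [← abs_mul]; exact abs_add_le _ _
  refine ⟨(tri a a2 (cE.ig (Tame.bdd hτ)) fun s => (sub_add_cancel _ _).symm).trans ?_, a / a', ?_⟩
  · have : Nc.Nm Λ 0 (w * (W * r)) τ ≤ 1 :=
      cE.wt.ex_le (cE.ig (Tame.bdd hτ).abs) fun s _ => hτ s
    nlinarith [mul_le_of_le_one_right (abs_nonneg a) this]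
  · rw [nu, FlF4.St_sub hΛ hF.2 (iS.2.const_mul _), FlF4.St_smul]
    refine (tri (-(a / a')) a2 b2 fun s => by field_simp; ring).trans ?_
    have : |-(a / a')| ≤ 8 * B / b * nu Λ w 0 r F := by
      rw [abs_neg, abs_div, div_le_iff₀ (abs_pos.2 a0)]
      calc |a| ≤ 8 * B / b * nu Λ w 0 r F * (b / 2) := a1.trans_eq (by field_simp; ring)
        _ ≤ _ := by gcongr
    nlinarith [mul_le_mul this (b3.trans nS) (Ex_nonneg cE.nonneg fun _ _ => abs_nonneg _) (by positivity)]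

theorem ab {W c c' s t ε : ℝ} (hW : 1 ≤ W) (hx : c ≤ W ^ ε) (hc : c' ≤ c) (h : s + ε ≤ t) :
    c' * W ^ s ≤ W ^ t :=
  calc c' * W ^ s ≤ W ^ ε * W ^ s := mul_le_mul_of_nonneg_right (hc.trans hx) (by positivity)
    _ = W ^ (s + ε) := by rw [← rpow_add (by linarith), add_comm]
    _ ≤ _ := rpow_le_rpow_of_exponent_le hW h

theorem dvp {W ω s : ℝ} {n : ℕ} (hW : 0 < W) (hω : 1 ≤ ω) (h : -s ≤ n) : (W / ω) ^ s ≤ ω ^ n * W ^ s := by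
  rw [div_rpow hW.le (by linarith), div_eq_mul_inv, ← rpow_neg (by linarith), mul_comm, ← rpow_natCast]
  exact mul_le_mul_of_nonneg_right (rpow_le_rpow_of_exponent_le hω h) (by positivity)

/-- KS at one scale -/
theorem ksP (hK : Kr.KOddStmt) (hQ : Kr.QStmt) (F : Fa) {θ₀ : ℝ} (h0 : 0 < θ₀) {w : ℕ} (hw : 4 ≤ w) :
    ∃ C₀ : ℕ, ∀ᶠ W : ℕ in atTop, ∃ δ : ℝ, 0 < δ ∧ ∀ Λ, F.Mem Λ → ∀ l L', Λ.Win θ₀ δ l L' →
      |π * Λ.gN l - 2| ≤ ew w / 200 → ∀ r₀ L r : ℕ, Nc.Gd Λ (1 / 400) w r₀ L → r₀ ≤ r → C₀ ≤ r →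
      w * (W * r) ≤ L → W * r ≤ L' → L' ≤ 2 * (W * r) → Ks w W Λ r := by
  have e0 := Kb14.ew_pos (show 1 ≤ w by omega)
  have e1 := Kb14.ew_le (show 1 ≤ w by omega)
  obtain ⟨ε, hε⟩ : ∃ ε, ε = ew w / 200 := ⟨_, rfl⟩
  obtain ⟨ω, hω⟩ : ∃ ω : ℝ, ω = w ^ 2 + 1 := ⟨_, rfl⟩
  have w4 : (4 : ℝ) ≤ w := by exact_mod_cast hw
  have ω1 : 1 ≤ ω := by nlinarith
  have ε0 : 0 < ε := by linarith
  obtain ⟨C₀, h₁⟩ := lowP hQ F h0 (show 0 < 5 * ε by linarith) (by linarith)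
  obtain ⟨W₁, h₂⟩ := hK F θ₀ ε h0 ε0 (by linarith)
  refine ⟨max C₀ 64, ?_⟩
  filter_upwards [h₁, ev_rp ε0 (9 * ω ^ 5), ev_rp one_pos (max W₁ 1024 * ω)] with W h₁ hx hW
  rw [rpow_one, ← le_div_iff₀ (by linarith)] at hW
  obtain ⟨δ₁, d1, h₁⟩ := h₁
  obtain ⟨δ₂, d2, h₂⟩ := h₂ _ ((le_max_left _ _).trans hW) 2 one_le_two
  have k1 := (le_max_right _ _).trans hW
  have W1 : (1 : ℝ) ≤ W := by rw [le_div_iff₀ (by linarith)] at k1; linarith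
  have W1' : 1 ≤ W := by exact_mod_cast W1
  refine ⟨min δ₁ δ₂, lt_min d1 d2, fun Λ hΛ l L' hw' hg r₀ L r hG a1 a2 a3 a4 a5 H hH ho h4 => ?_⟩
  have g1 := hG.2.1
  have b1 : 4 * r ≤ w * r := Nat.mul_le_mul_right _ hw
  have b2 : 4 * (w * r) ≤ w * (w * r) := Nat.mul_le_mul_right _ hw
  have b3 : 4 * (W * r) ≤ w * (W * r) := Nat.mul_le_mul_right _ hw
  have r64 := (le_max_right _ _).trans a2
  have rg : (Λ.rg : ℝ) ≤ r := by exact_mod_cast (by omega : Λ.rg ≤ r)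
  have r0 : (0 : ℝ) ≤ r := r.cast_nonneg
  have ok : (gm Λ w W r).Ok (W / ω) := by
    refine ⟨k1, show 2 * (w * r) ≤ w * (w * r) + _ by omega, show 64 ≤ w * (w * r) + _ by omega, ?_, ?_,
      show 2 * (W * r) ≤ w * (W * r) by omega⟩ <;> simp only [gm] <;> push_cast
    · rw [div_mul_eq_mul_div, div_le_iff₀ (by linarith), mul_assoc]
      gcongr; nlinarith
    · rw [mul_assoc, div_mul_eq_mul_div, ← mul_div_assoc, le_div_iff₀ (by linarith), mul_assoc, mul_left_comm 2]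
      refine mul_le_mul_of_nonneg_left ?_ W.cast_nonneg
      nlinarith [mul_nonneg r0 (show (0 : ℝ) ≤ w ^ 2 - 1 by nlinarith), Λ.rg.cast_nonneg (α := ℝ)]
  obtain ⟨l1, l2⟩ := h₂ Λ hΛ l L' (hw'.mono_d (min_le_right _ _)) _ ok
    ⟨a4, by simp only [gm]; exact_mod_cast a5⟩ (by linarith [(abs_le.1 hg).1])
  have al := Kr.algStmt' _ _ ok
  have hs : Sup (bl 0 (W * r + 1)) (Kr.hm 0 (W * r)) := fun x hx => al.hm_sup x fun h => hx (mem_sdiff.1 h).1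
  have hs' : Sup (gm Λ w W r).Ou (Kr.hm 0 (W * r)) := fun x hx => al.hm_sup x fun h => hx
    (mem_sdiff.2 ⟨bl_mono 0 (show W * r + 1 ≤ w * (W * r) by nlinarith) (mem_sdiff.1 h).1, (mem_sdiff.1 h).2⟩)
  have W0 : (0 : ℝ) < W := by linarith
  have p1 : ω ^ 2 ≤ ω ^ 5 := pow_le_pow_right₀ ω1 (by norm_num)
  have p2 : ω ^ 3 ≤ ω ^ 5 := pow_le_pow_right₀ ω1 (by norm_num)
  have p0 : 1 ≤ ω ^ 2 := one_le_pow₀ ω1
  obtain ⟨c1, c, c2⟩ := ks_core hΛ.ok hG hw a1 W1' a3 (A := ω ^ 3 * W ^ (-3 + 3 * ε))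
    (B := ω ^ 2 * W ^ (-2 + 5 / 4 * ε)) (b := W ^ (-2 - 5 * ε)) (lam := (gm Λ w W r).lam (Λ.gN l))
    (by positivity) (by positivity) (Kr.O11.abs_sn _)
    (Kr.O11.depG_sn hs ((Kr.O11.sum_sup hs hs').trans al.hm_sum))
    ((abs_of_pos (exp_pos _)).trans_le (l1.trans (dvp W0 ω1 (by push_cast; linarith))))
    (by rw [← mul_assoc]; exact ab W1 hx (by linarith) (by linarith))
    (fun F a b c => ⟨(l2 F a b c).1, (l2 F a b c).2.trans (mul_le_mul_of_nonneg_right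
      (dvp W0 ω1 (by push_cast; linarith))
      (Ex_nonneg (hΛ.ok.cen_Nr_bl (self_mem_bl _ _)).nonneg fun _ _ => abs_nonneg _))⟩)
    ((h₁ Λ hΛ l L' (hw'.mono_d (min_le_left _ _)) (by linarith) r ((le_max_left _ _).trans a2) a4 a5 _).1
      ⟨hΛ.ok.ctr_D _, hΛ.ok.anch_D _, bl_mono 0 b3, Lat.near_D (bl_mono 0 b3)⟩) hH ho h4
  have n0 := A51.nu_nonneg hΛ.ok w 0 r H
  refine ⟨c1.trans (mul_le_mul_of_nonneg_right ?_ n0), c, c2.trans (mul_le_mul_of_nonneg_right ?_ n0)⟩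
  · have q1 : (W : ℝ) ^ (-3 + 3 * ε) ≤ W ^ (-2 + 5 / 4 * ε) := rpow_le_rpow_of_exponent_le W1 (by linarith)
    refine le_trans ?_ (ab (s := -2 + 5 / 4 * ε) W1 hx (show ω ^ 3 + 4 * ω ^ 2 ≤ _ by linarith) (by linarith))
    nlinarith [mul_le_mul_of_nonneg_left q1 (show 0 ≤ ω ^ 3 by positivity)]
  · have q1 : 1 ≤ (W : ℝ) ^ (25 / 4 * ε) := one_le_rpow W1 (by linarith)
    rw [mul_div_assoc, mul_div_assoc, ← rpow_sub W0, show -2 + 5 / 4 * ε - (-2 - 5 * ε) = 25 / 4 * ε by ring]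
    refine le_trans ?_ (ab (s := -3 + 3 * ε + 25 / 4 * ε) W1 hx le_rfl (by linarith))
    rw [rpow_add W0 (-3 + 3 * ε)]
    calc _ ≤ ω ^ 3 * W ^ (-3 + 3 * ε) * (9 * (ω ^ 2 * W ^ (25 / 4 * ε))) := by
          gcongr; nlinarith [one_le_mul_of_one_le_of_one_le p0 q1]
      _ = _ := by ring

theorem dyad {n : ℕ} (hn : 1 ≤ n) : ∃ j, n ≤ 2 ^ j ∧ 2 ^ j ≤ 2 * n :=
  ⟨Nat.log 2 n + 1, (Nat.lt_pow_succ_log_self one_lt_two n).le, by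
    rw [pow_succ, mul_comm]; exact Nat.mul_le_mul_left 2 (Nat.pow_log_le_self 2 (by omega))⟩

/-- PACK: all soft inputs of the cone argument, in a window -/
theorem pack (hK : Kr.KOddStmt) (hQ : Kr.QStmt) (hT : T1mStmt) (F : Fa) {θ₀ : ℝ} (h0 : 0 < θ₀) {w : ℕ}
    (hw : 4 ≤ w) : ∃ W₀ : ℕ, ∀ W : ℕ, W₀ ≤ W → ∃ δ : ℝ, 0 < δ ∧ ∀ l : ℕ, ∃ r₁ : ℕ,
      ∀ (p : Par) Λ ω (L N L' : ℕ), p.F = F → p.w = w → Env p Λ ω L N → Λ.Win θ₀ δ l L' → L ≤ L' →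
        |π * Λ.gN l - 2| ≤ ew w / 200 → Pack p W Λ ω r₁ L N := by
  have e0 := Kb14.ew_pos (show 1 ≤ w by omega)
  have e1 := Kb14.ew_le (show 1 ≤ w by omega)
  obtain ⟨C₁, h₁⟩ := ksP hK hQ F (half_pos h0) hw
  obtain ⟨C₂, h₂⟩ := lowP hQ F (half_pos h0) (show 0 < ew w / 10 by linarith) (by linarith)
  obtain ⟨W₀, H⟩ := eventually_atTop.1 (h₁.and (h₂.and (eventually_ge_atTop 1)))
  refine ⟨W₀, fun W hW => ?_⟩
  obtain ⟨⟨δ₁, d1, h₁⟩, ⟨δ₂, d2, h₂⟩, W1⟩ := H W hW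
  have d := lt_min d1 d2
  obtain ⟨δ, ⟨k1, k2⟩, d0⟩ :=
    (((ev_subwin hT F h0 d 0).and (ev_le d)).and self_mem_nhdsWithin).exists
  refine ⟨δ, d0, fun l => ⟨max (max C₁ C₂) (⌈l / min δ₁ δ₂⌉₊ + 1), ?_⟩⟩
  rintro p Λ ω L N L' rfl rfl hE hW' hL hg
  have sub : ∀ r, max (max C₁ C₂) (⌈l / min δ₁ δ₂⌉₊ + 1) ≤ r → p.w * (W * r) ≤ L → 1 ≤ r ∧ C₁ ≤ r ∧ C₂ ≤ r ∧
      4 * (W * r) ≤ L ∧ ∃ j, W * r ≤ 2 ^ j ∧ 2 ^ j ≤ 2 * (W * r) ∧ Λ.Win (θ₀ / 2) (min δ₁ δ₂) l (2 ^ j) :=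
    fun r a b => by
      have b3 : 4 * (W * r) ≤ p.w * (W * r) := Nat.mul_le_mul_right _ hw
      have b4 : r ≤ W * r := Nat.le_mul_of_pos_left _ W1
      obtain ⟨j, j1, j2⟩ := dyad (show 1 ≤ W * r by omega)
      refine ⟨by omega, by omega, by omega, by omega, j, j1, j2, k1 Λ hE.mem l L' hW' j (by omega) (Or.inr
        ⟨hW'.2.1.1.trans (by gcongr), ?_⟩)⟩
      rw [mul_comm, ← div_le_iff₀ d]
      exact (Nat.le_ceil _).trans (by exact_mod_cast (by omega : _ ≤ 2 ^ j))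
  obtain ⟨m, hm, hω⟩ := hE.amb 0
  have le := hE.le
  have el : ∀ r n : ℕ, 1 ≤ r → r ≤ n → 4 * n ≤ L →
      ell ω (2 * n) (Sn (r / 4)) = Ex (m.W 0) fun s => Sn (r / 4) s * Sn (2 * n) s := fun r n a b c => by
    have : (1 : ℝ) ≤ n := by exact_mod_cast a.trans b
    exact hω _ (((ins_Sn4 a).1.mono (bl_mono 0 (by omega))).mul ((ins_Sn (r := 4 * n)
      (by linarith) (by push_cast; linarith)).1.mono (bl_mono 0 (by omega))))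
  refine ⟨hE, fun r a b c => ?_, fun r a b c => ?_, fun r a b c => ?_⟩
  · obtain ⟨-, c1, -, -, j, j1, j2, j3⟩ := sub r b c
    exact h₁ Λ hE.mem l _ (j3.mono_d (min_le_left _ _)) hg _ _ r hE.gd a c1 c j1 j2
  · obtain ⟨c0, -, c2, c3, j, j1, j2, j3⟩ := sub r b c
    have := el r (W * r) c0 (Nat.le_mul_of_pos_left _ W1) c3
    push_cast at this
    rw [this]
    exact (h₂ Λ hE.mem l _ (j3.mono_d (min_le_right _ _)) (by linarith) r c2 j1 j2 m).1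
      (FlF4.amb_mono hm (bl_mono 0 (by omega)))
  · have b4 : W * r ≤ W * (W * r) := Nat.le_mul_of_pos_left _ W1
    have b5 : 4 * (W * (W * r)) ≤ p.w * (W * (W * r)) := Nat.mul_le_mul_right _ hw
    obtain ⟨c0, -, c2, c3, j, j1, j2, j3⟩ := sub r b ((Nat.mul_le_mul_left _ b4).trans c)
    have := el r (W * (W * r)) c0 ((Nat.le_mul_of_pos_left _ W1).trans b4) (by omega)
    push_cast at this
    rw [this]
    exact (h₂ Λ hE.mem l _ (j3.mono_d (min_le_right _ _)) (by linarith) r c2 j1 j2 m).2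
      (FlF4.amb_mono hm (bl_mono 0 (by omega)))

end Crest.Agent.T145.Fl.L11

namespace Crest.Agent.T145.Fl

open Finset Real Filter L11

/-- KS in a window -/
theorem ksWStmt (hK : Kr.KOddStmt) (hQ : Kr.QStmt) (hT : T1mStmt) : KsWStmt := fun p θ₀ h0 => by
  by_cases hw : 4 ≤ p.w
  swap
  · exact ⟨0, fun _ _ => ⟨1, 0, one_pos, fun _ => ⟨0, fun _ _ _ h => absurd h.w4 hw⟩⟩⟩
  have e0 := Kb14.ew_pos (show 1 ≤ p.w by omega)
  obtain ⟨C₁, h₁⟩ := ksP hK hQ p.F (half_pos h0) hw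
  obtain ⟨W₀, H⟩ := eventually_atTop.1 (h₁.and (eventually_ge_atTop 1))
  refine ⟨W₀, fun W hW => ?_⟩
  obtain ⟨⟨δ₁, d, h₁⟩, W1⟩ := H W hW
  obtain ⟨δ, ⟨⟨k1, k2⟩, k3⟩, d0⟩ := ((((ev_subwin hT p.F h0 d 0).and (ev_le d)).and
    (ev_le (show 0 < ew p.w / 800 by linarith))).and self_mem_nhdsWithin).exists
  refine ⟨δ, 0, d0, fun l => ⟨max C₁ (⌈l / δ₁⌉₊ + 1), fun Λ N L hG hC hL r a b c => ?_⟩⟩
  have b3 : 4 * (W * r) ≤ p.w * (W * r) := Nat.mul_le_mul_right _ hw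
  have b4 : r ≤ W * r := Nat.le_mul_of_pos_left _ W1
  obtain ⟨j, j1, j2⟩ := dyad (show 1 ≤ W * r by omega)
  refine h₁ Λ hG.mem l _ (k1 Λ hG.mem l _ hC.1 j (by omega) (Or.inr ⟨hC.1.2.1.1.trans (by gcongr), ?_⟩)) ?_
    _ _ r hG.gd a (by omega) c j1 j2
  · rw [mul_comm, ← div_le_iff₀ d]
    exact (Nat.le_ceil _).trans (by exact_mod_cast (by omega : _ ≤ 2 ^ j))
  · rw [show π * Λ.gN l - 2 = π * (Λ.gN l - 2 / π) by field_simp, abs_mul, abs_of_pos pi_pos]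
    nlinarith [hC.2, pi_lt_four, abs_nonneg (Λ.gN l - 2 / π)]

end Crest.Agent.T145.Fl
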