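import Crest.Agent.T145.FlDef2_82
import Crest.Agent.T145.FlBas_4
import Crest.Agent.T145.FlBare_80
import Crest.Agent.T145.FlSw_22
import Crest.Agent.T145.MidVg_19
import Crest.Agent.T145.Soft_23

/-!
# Row 145, odd flow: the running stiffness is the stiffness of the window (`LinkStmt`) (helper65)
-/

set_option autoImplicit false

namespace Crest.Agent.T145.Fl

open Finset Pot Xi Real

namespace L65

theorem log_sub_le {a b m : ℝ} (hm : 0 < m) (ha : m ≤ a) (hb : m ≤ b) : log a - log b ≤ |a - b| / m := by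
  have hb0 : 0 < b := hm.trans_le hb
  rw [← log_div (hm.trans_le ha).ne' hb0.ne']
  refine (log_le_sub_one_of_pos (div_pos (hm.trans_le ha) hb0)).trans ?_
  rw [div_sub_one hb0.ne']
  exact (div_le_div_of_nonneg_right (le_abs_self _) hb0.le).trans
    (div_le_div_of_nonneg_left (abs_nonneg _) hm hb)

theorem cmp {a b P x ε η ε' : ℝ} (hx : 0 < x) (hb : x ≤ exp b) (hb1 : exp b ≤ 1)
    (h1 : |P - exp a| ≤ η * max 1 (exp a)) (h2 : |P - exp b| ≤ ε') (hη0 : 0 ≤ η) (hη : η ≤ 1 / 2)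
    (hε' : ε' ≤ 1) (h3 : 4 * η + ε' ≤ x * min 1 ε / 2) : |a - b| ≤ ε := by
  have m1 := min_le_left 1 ε
  have m2 := min_le_right 1 ε
  obtain ⟨p1, p2⟩ := abs_le.1 h1
  obtain ⟨q1, q2⟩ := abs_le.1 h2
  have h4 : max 1 (exp a) ≤ 4 := by
    rcases le_total 1 (exp a) with h | h
    · rw [max_eq_right h] at p1 ⊢
      nlinarith [exp_pos a]
    · rw [max_eq_left h]; norm_num
  have h5 := mul_le_mul_of_nonneg_left h4 hη0
  have h6 : |exp a - exp b| ≤ x * min 1 ε / 2 := abs_le.2 ⟨by linarith, by linarith⟩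
  have h7 : x / 2 ≤ exp a := by nlinarith [(abs_le.1 h6).1]
  have h8 : |exp a - exp b| / (x / 2) ≤ ε := by
    rw [div_le_iff₀ (half_pos hx)]; nlinarith
  have h9 := log_sub_le (half_pos hx) h7 (by linarith : x / 2 ≤ exp b)
  have h10 := log_sub_le (half_pos hx) (by linarith : x / 2 ≤ exp b) h7
  rw [log_exp, log_exp] at h9 h10
  rw [abs_sub_comm] at h10
  exact abs_le.2 ⟨by linarith, by linarith⟩

theorem E0_chi {ρ : ℕ} (hρ : 1 ≤ ρ) : E0 (bl 0 (2 * ρ)) (Xi.chi ρ) = Mid.Ec ρ := by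
  have h0 : (0 : ℝ) < ρ := by exact_mod_cast hρ
  have h : Pot.Sup (bl 0 (2 * ρ)) (Xi.chi ρ) := sup_chi h0 (by push_cast; linarith)
  rw [B80.E0_ed h (B80.gb_bl h), Mid.Ec, Lat.En]
  simp [nnL, pow_two]

theorem E0_smul (D : Finset Pt) (c : ℝ) (v : Pt → ℝ) : E0 D (c • v) = c ^ 2 * E0 D v := by
  rw [E0, E0, A0_smul, mul_sum]
  exact sum_congr rfl fun x _ => by simp only [Pi.smul_apply, smul_eq_mul]; ring

end L65

open L65

set_option maxHeartbeats 800000 in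
theorem linkStmt (hN : NeuStmt) (hS : SgStmt) (hT : T1aStmt) : LinkStmt := by
  intro p θ₀ ε hθ hε
  obtain ⟨Cn, hCn0, hCn⟩ := hN p
  obtain ⟨σ, hσ, hχ⟩ := sm_chi 3
  obtain ⟨CE, hCE1, hCE⟩ := Mid.chiStmt
  obtain ⟨_, hT⟩ := hT p.F
  have hπ := pi_gt_three
  set x := exp (-2 * π ^ 2 * |p.F.τ₂| * CE) with hx
  have hx0 : 0 < x := exp_pos _
  set t := x * min 1 ε / 2 with ht
  have ht0 : 0 < t := by have := lt_min one_pos hε; positivity
  obtain ⟨δ, hδ, hS⟩ := hS p.F θ₀ (1 + 16 * π * σ + 4 * π ^ 2 * CE) (min (t / 2) 1) hθ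
    (by nlinarith [mul_nonneg pi_pos.le hσ, mul_nonneg (sq_nonneg π) (zero_le_one.trans hCE1)])
    (lt_min (half_pos ht0) one_pos)
  set A := Cn * (1 + σ) ^ 3 * 3 ^ 5 with hA
  have hA0 : 0 ≤ A := by positivity
  have hw : (0 : ℝ) ≤ p.w := Nat.cast_nonneg _
  have hq : 0 ≤ A * (8 / t) := by positivity
  refine ⟨p.w + 3 + A * (8 / t) + 2 * A, δ, by positivity, hδ, fun l => ?_⟩
  obtain ⟨r₁, hS⟩ := hS l
  refine ⟨max r₁ (⌈Cn⌉₊ + 1), fun Λ ω L N' N hE hW hL R Y hM hY hr hR => ?_⟩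
  have hR1 := hM.1
  have hY0 : 0 < Y := (rpow_pos_of_pos (by linarith) _).trans_le hM.2.1
  set ρ := ⌊R⌋₊ with hρ
  have hρr : max r₁ (⌈Cn⌉₊ + 1) ≤ ρ := Nat.le_floor hr
  have hρ1 : 1 ≤ ρ := by omega
  have hρ1' : (1 : ℝ) ≤ ρ := by exact_mod_cast hρ1
  have hρR : (ρ : ℝ) ≤ R := Nat.floor_le (by linarith)
  have hRρ : R < ρ + 1 := Nat.lt_floor_add_one R
  have hCρ : Cn ≤ ρ := (Nat.le_ceil Cn).trans (by exact_mod_cast (by omega : ⌈Cn⌉₊ ≤ ρ))
  have hRL : (p.w + 3) * R ≤ L := le_trans (by nlinarith) hR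
  have hfit : 2 * ρ + 1 + p.w * ρ ≤ L := by
    have : ((2 * ρ + 1 + p.w * ρ : ℕ) : ℝ) ≤ L := by push_cast; nlinarith
    exact_mod_cast this
  have hle := hE.le
  have hv : Pot.Sup (bl 0 (2 * ρ)) (Xi.chi ρ) := sup_chi (by linarith) (by push_cast; linarith)
  obtain ⟨-, -, e1, e2⟩ := hCE ρ hρ1
  have n1 := hCn Λ ω L N' hE R Y 3 hM (by nlinarith) (by norm_num) (by nlinarith) ρ (2 * ρ) σ (Xi.chi ρ)
    hCρ (by linarith) (by linarith) (by push_cast; linarith) (by omega) (by omega) hv (hχ ρ (by linarith))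
  obtain ⟨m, hm⟩ := hE.amb 0
  have hm' : Nc.Amb Λ m (bl 0 (2 * ρ + 1)) :=
    ⟨hm.1.ctr, hm.1.anch, (bl_mono _ (by omega)).trans hm.1.sub, hm.1.near.mono (bl_mono _ (by omega))⟩
  have s1 := (hS Λ N hE.mem hW 0 (2 * ρ) ((2 * π) • Xi.chi ρ) m (by omega) (by omega)
    (fun y hy => by rw [Pi.smul_apply, hv y hy, smul_zero]) (fun y => ?_) ?_ hm').1.2.2
  · have eP : ω (cp (A0 (Xi.chi ρ)) 0) = Ph (m.W 0) (pr (A0 ((2 * π) • Xi.chi ρ))) := by
      rw [hm.2 _ (depG_cp (chq_A0 hv (by omega)) 0), A0_smul, pr_smul, Ph]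
      congr 1
      funext s
      simp [cp]
    rw [← eP, E0_smul, E0_chi hρ1] at s1
    rw [E0_chi hρ1] at n1
    obtain ⟨g0, g1, -⟩ := hT Λ hE.mem l hW.one_le_l
    have he := hE.mem.e0_pos
    have g2 : 0 ≤ Λ.gN l := div_nonneg g0 he.le
    have g3 : Λ.gN l ≤ |p.F.τ₂| :=
      ((div_le_div_of_nonneg_right g1 he.le).trans hE.mem.inv_e0_le).trans (le_abs_self _)
    have hp : 0 < π ^ 2 := by positivity
    have hgE : Λ.gN l * Mid.Ec ρ ≤ |p.F.τ₂| * CE := mul_le_mul g3 e2 (by linarith) (abs_nonneg _)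
    have hgE0 : 0 ≤ Λ.gN l * Mid.Ec ρ := mul_nonneg g2 (by linarith)
    have hAY : A * Y ≤ t / 8 := by
      have h1 : A * (8 / t) * Y ≤ 1 := le_trans (by nlinarith) hY
      have h2 : A * Y = A * (8 / t) * Y * (t / 8) := by field_simp
      rw [h2]
      exact mul_le_of_le_one_left (by positivity) h1
    have key := cmp hx0 (exp_le_exp.2 (by nlinarith)) (exp_le_one_iff.2 (by nlinarith)) n1 s1
      (by positivity) (by nlinarith) (min_le_right _ _) (by linarith [min_le_left (t / 2) 1])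
    rw [show -2 * π ^ 2 * gk ω R * Mid.Ec ρ - -(Λ.gN l * ((2 * π) ^ 2 * Mid.Ec ρ)) / 2 =
      -(2 * π ^ 2 * Mid.Ec ρ) * (gk ω R - Λ.gN l) by ring, abs_mul, abs_neg,
      abs_of_nonneg (by positivity)] at key
    exact (le_mul_of_one_le_left (abs_nonneg _) (by nlinarith)).trans key
  · have h1 : |A0 (Xi.chi ρ) y| ≤ 2 * (σ / (ρ : ℝ) ^ 2) := Sw22.abs_A0_two fun e he e' he' =>
      hχ ρ (by linarith) [e, e'] (by simp) (by simp [he, he']) y trivial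
    rw [A0_smul, Pi.smul_apply, smul_eq_mul, abs_mul, abs_of_pos (by positivity : 0 < 2 * π)]
    push_cast
    calc 2 * π * |A0 (Xi.chi ρ) y| ≤ 2 * π * (2 * (σ / (ρ : ℝ) ^ 2)) := by gcongr
      _ = 16 * π * σ / (2 * (ρ : ℝ)) ^ 2 := by field_simp; ring
      _ ≤ _ := by
        gcongr
        nlinarith [mul_nonneg (sq_nonneg π) (zero_le_one.trans hCE1)]
  · rw [E0_smul, E0_chi hρ1]
    nlinarith [mul_nonneg pi_pos.le hσ, mul_le_mul_of_nonneg_left e2 (sq_nonneg π)]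

end Crest.Agent.T145.Fl
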