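import Crest.Agent.T145.FlDef_82
import Crest.Agent.T145.OmB_11
import Crest.Agent.T145.Soft_23
import Crest.Agent.T145.CE_56

/-!
# Row 145, odd flow: the local Schwinger–Dyson equation LJ (helper36)
-/

set_option autoImplicit false

namespace Crest.Agent.T145.Fl

open Finset Pot Xi Real

namespace Lj36

theorem cw_pos {w : ℕ} (hw : 4 ≤ w) : 0 < cw w := by
  have h : (4 : ℝ) ≤ w := by exact_mod_cast hw
  refine div_pos (log_pos one_lt_two) (log_pos ?_)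
  have : (1 : ℝ) ≤ (w : ℝ) ^ 4 := one_le_pow₀ (by linarith)
  linarith

theorem ew_pos {w : ℕ} (hw : 4 ≤ w) : 0 < ew w := div_pos (cw_pos hw) (by norm_num)

theorem depG_cp {U : Finset Pt} {ξ : Pt → ℝ} {q : ℤ} (h : Chq U ξ q) (φ : ℝ) : DepG U (cp ξ φ) := by
  intro s s' k e
  have h1 : pr ξ s' = pr ξ s + q * k := by
    rw [pr_of_fsupp ξ s h.1, pr_of_fsupp ξ s' h.1, ← h.2, sum_mul, ← sum_add_distrib]
    refine sum_congr rfl fun x hx => ?_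
    rw [e x hx]; push_cast; ring
  simp only [cp, h1]
  rw [← cos_add_int_mul_two_pi (2 * π * pr ξ s + φ) (q * k)]
  congr 1; push_cast; ring

theorem out_cp {B : Finset Pt} {ξ : Pt → ℝ} (h : ∀ y ∈ B, ξ y = 0) (φ : ℝ) : Out B (cp ξ φ) := by
  intro s s' e
  have h1 : pr ξ (s - s') = 0 := by
    rw [pr_apply ξ (s - s') (U := ∅) fun x _ => ?_, sum_empty]
    by_cases hx : x ∈ B
    · rw [h x hx, zero_mul]
    · rw [Finsupp.sub_apply, e x hx, sub_self]; simp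
  rw [map_sub, sub_eq_zero] at h1
  simp only [cp, h1]

theorem abs_cp_le (ξ : Pt → ℝ) (φ : ℝ) (s : Cfg Pt) : |cp ξ φ s| ≤ 1 := abs_cos_le_one _

theorem sum_A0_sub {U : Finset Pt} {z : Pt} {n : ℕ} {v : Pt → ℝ} (hv : Pot.Sup (bl z n) v)
    (hU : bl z (n + 1) ⊆ U) : ∑ x ∈ U, A0 v x = 0 := by
  rw [← sum_subset hU fun x _ hx => sup_A0 hv x hx]
  exact sum_A0 le_rfl hv

theorem chq_sub {U : Finset Pt} {ξ v : Pt → ℝ} {q : ℤ} {z : Pt} {n : ℕ} (h : Chq U ξ q)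
    (hv : Pot.Sup (bl z n) v) (hU : bl z (n + 1) ⊆ U) : Chq U (ξ - A0 v) q := by
  refine ⟨h.1.sub ((sup_A0 hv).mono hU), ?_⟩
  simp only [Pi.sub_apply, sum_sub_distrib, h.2, sum_A0_sub hv hU, sub_zero]

theorem E0_dl (z : Pt) : E0 (bl z 0) (dl z) = 4 := by
  have h : bl z 0 = {z} := by
    ext x; rw [mem_bl, mem_singleton, Prod.ext_iff]; omega
  rw [E0, h, sum_singleton]
  simp [A0]

variable {p : Par} {Λ : Lat} {L : ℕ}

theorem gs_rg (h : Gs p Λ L) : 2 * Λ.rg ≤ p.r₀ := h.gd.2.1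

theorem gs_two (h : Gs p Λ L) : 2 ≤ p.r₀ := by
  have := h.mem.ok.one_le_rg
  have := gs_rg h
  omega

theorem gs_le (h : Gs p Λ L) {a : ℕ} (ha : p.r₀ ≤ a) : a + 2 * Λ.rg ≤ p.w * a := by
  have h1 := gs_rg h
  have h2 : 4 * a ≤ p.w * a := Nat.mul_le_mul_right a h.w4
  omega

theorem le_wmul (h : Gs p Λ L) (a : ℕ) : a ≤ p.w * a :=
  Nat.le_mul_of_pos_left a (by have := h.w4; omega)

theorem maj_pos {R Y : ℝ} (h : Maj p Λ L R Y) : 0 < Y :=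
  (rpow_pos_of_pos (one_pos.trans_le h.1) _).trans_le h.2.1

/-- change of the reference scale -/
theorem maj_rescale (hw : 4 ≤ p.w) {R Y M r : ℝ} (h : Maj p Λ L R Y) (hM : 1 ≤ M) (hr : 1 ≤ r)
    (h1 : R / M ≤ r) (h2 : r ≤ M * R) : Maj p Λ L r (Y * M ^ ew p.w) := by
  have he := ew_pos hw
  have hY := maj_pos h
  have hR : 0 < R := one_pos.trans_le h.1
  have hM0 : 0 < M := by linarith
  have hr0 : 0 < r := by linarith
  refine ⟨hr, ?_, fun a ha hL => ?_⟩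
  · calc r ^ (-ew p.w) ≤ (R / M) ^ (-ew p.w) :=
          rpow_le_rpow_of_nonpos (by positivity) h1 (by linarith)
      _ = R ^ (-ew p.w) * M ^ ew p.w := by
          rw [div_rpow hR.le hM0.le, rpow_neg hM0.le, div_inv_eq_mul]
      _ ≤ _ := by gcongr; exact h.2.1
  · refine (h.2.2 a ha hL).trans ?_
    have ha0 : (0 : ℝ) ≤ a := Nat.cast_nonneg a
    have h3 : max ((a : ℝ) / R) (R / a) ≤ M * max ((a : ℝ) / r) (r / a) := by
      refine max_le ?_ ?_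
      · refine le_trans ?_ (mul_le_mul_of_nonneg_left (le_max_left _ _) hM0.le)
        rw [← mul_div_assoc, div_le_div_iff₀ hR hr0]
        nlinarith
      · refine le_trans ?_ (mul_le_mul_of_nonneg_left (le_max_right _ _) hM0.le)
        rw [← mul_div_assoc]
        rw [div_le_iff₀ hM0] at h1
        gcongr
        linarith
    have h4 : (0 : ℝ) ≤ max ((a : ℝ) / r) (r / a) := le_max_of_le_left (by positivity)
    calc Y * max ((a : ℝ) / R) (R / a) ^ ew p.w ≤ Y * (M * max ((a : ℝ) / r) (r / a)) ^ ew p.w := by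
          gcongr
      _ = _ := by rw [mul_rpow hM0.le h4, mul_assoc]

theorem nu_Jz (hS : SemiStmt) (h : Gs p Λ L) (z : Pt) {a : ℕ} (ha : p.r₀ ≤ a) :
    nu Λ p.w z a (Jz z) = nu Λ p.w 0 a (Jz 0) := by
  have h2 := gs_two h
  have := ((hS Λ p.w a z h.mem.ok (gs_le h ha)).2 (Jz 0) (Om.ins_Jz 0 (by omega))).2.1
  rwa [Om.trl_Jz, zero_add] at this

theorem prof_Jz (hS : SemiStmt) (h : Gs p Λ L) {R Y : ℝ} (hM : Maj p Λ L R Y) (z : Pt) :
    Prof Λ p.w p.r₀ L z (Jz z) R Y := fun a ha hL => by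
  rw [nu_Jz hS h z ha]; exact hM.2.2 a ha hL

theorem prod_nonneg (hS : SemiStmt) (h : Gs p Λ L) {U : Finset Pt} {ι : Type} {I : Finset ι}
    {x : ι → Pt} {rr : ι → ℕ} {H : ι → Cfg Pt → ℝ} (hF : Far p L U I x rr H) :
    0 ≤ ∏ i ∈ I, nu Λ p.w (x i) (rr i) (H i) :=
  Finset.prod_nonneg fun i hi =>
    ((hS Λ p.w (rr i) (x i) h.mem.ok (gs_le h (hF.big i hi).1)).1 (H i) (hF.ins i hi)).1

theorem depG_prod (h : Gs p Λ L) {U : Finset Pt} {ι : Type} {I : Finset ι}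
    {x : ι → Pt} {rr : ι → ℕ} {H : ι → Cfg Pt → ℝ} (hF : Far p L U I x rr H) :
    DepG U fun s => ∏ i ∈ I, H i s :=
  DepG.prod fun i hi => (hF.ins i hi).1.mono ((bl_mono _ (le_wmul h _)).trans (hF.sub i hi))

set_option maxHeartbeats 1600000 in
/-- the sharp form at the reference scale `r` -/
theorem core (hS : SemiStmt) (hP : ProdStmt) (hB : BareStmt) (hL : LocStmt) (hW : SwStmt)
    (hβ : BetaStmt) (p : Par) : ∃ C : ℝ, 0 ≤ C ∧ ∀ Λ ω L N, Env p Λ ω L N →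
    ∀ (c : Pt) (ι : Type) (I : Finset ι) (x : ι → Pt) (rr : ι → ℕ) (H : ι → Cfg Pt → ℝ) (z : Pt) (r : ℕ)
      (Y σ φ : ℝ) (ξ u : Pt → ℝ) (q : ℤ), Maj p Λ L r Y → Far p L (bl c N) I x rr H →
      (∀ i ∈ I, ∀ y ∈ bl (x i) (rr i), ξ y = 0) → Chq (bl c N) ξ q → p.w * r ≤ L →
      bl z (p.w * r) ⊆ bl c N → (∀ i ∈ I, Disjoint (bl (x i) (p.w * rr i)) (bl z (p.w * r))) →
      Lr ξ u z r σ → ∀ ρ : ℝ, 8 * (p.w : ℝ) ^ 2 * p.r₀ ≤ ρ → 600 * ρ ≤ r →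
      |ω (fun s => (∏ i ∈ I, H i s) * Jz z s * cp ξ φ s) -
        ω (fun s => (∏ i ∈ I, H i s) * Jz z s * cp (ξ - A0 (sw u z ρ)) φ s) -
        2 * π * gk ω ρ * ξ z * ω fun s => (∏ i ∈ I, H i s) * cp ξ (φ + π / 2) s| ≤
        C * (∏ i ∈ I, nu Λ p.w (x i) (rr i) (H i)) * (σ * (1 + σ)) *
          (Y * (ρ / r) ^ (cw p.w / 4) + Y ^ 2) / (r : ℝ) ^ 2 ∧
      ∀ k : ℕ, p.r₀ ≤ k → (k : ℝ) + 1 ≤ ρ →
        |ω (fun s => (∏ i ∈ I, H i s) * Jz z s * cp (ξ - A0 (sw u z ρ)) φ s)| ≤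
          32 * (∏ i ∈ I, nu Λ p.w (x i) (rr i) (H i)) * nu Λ p.w z k (Jz z) := by
  obtain ⟨CB, hCB, hB⟩ := hB p.F
  obtain ⟨CL, hCL, hL⟩ := hL p
  obtain ⟨CS, hCS, hW⟩ := hW
  obtain ⟨Cβ, hCβ, hβ⟩ := hβ p
  set P₀ : ℝ := 1 + 4 * CB with hP₀
  set A : ℝ := (p.r₀ : ℝ) ^ (2 + cw p.w / 2) with hA
  have hA0 : 0 ≤ A := rpow_nonneg (Nat.cast_nonneg _) _
  refine ⟨CL * (CS * (1 + CS)) * (1 + P₀ * A) + 32 * π * Cβ, by positivity, ?_⟩
  intro Λ ω L N hE c ι I x rr H z r Y σ φ ξ u q hM hF hξ hq hrL hz hd hLr ρ hρ hρr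
  have hG : Gs p Λ L := hE.toGs
  have h2 := gs_two hG
  have hw := hG.w4
  have hw' : (4 : ℝ) ≤ p.w := by exact_mod_cast hw
  have h2' : (2 : ℝ) ≤ p.r₀ := by exact_mod_cast h2
  have hρ1 : 1 ≤ ρ := by
    have : (16 : ℝ) ≤ (p.w : ℝ) ^ 2 := by nlinarith
    nlinarith
  have hr600 : (600 : ℝ) ≤ r := by linarith
  have hr1 : 1 ≤ r := by exact_mod_cast (show (1 : ℝ) ≤ r by linarith)
  have hr0 : (0 : ℝ) < r := by linarith
  have hσ : 0 ≤ σ := hLr.1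
  have hY := maj_pos hM
  have hc := cw_pos hw
  obtain ⟨m, hm, hrep⟩ := hE.amb c
  obtain ⟨hQ, hξu, hsw⟩ := hW ξ u z r σ hLr hr1
  have hn1 : 2 * ρ ≤ (⌈2 * ρ⌉₊ : ℝ) := Nat.le_ceil _
  have hn2 : ⌈2 * ρ⌉₊ + 1 ≤ r := by
    have := Nat.ceil_lt_add_one (show 0 ≤ 2 * ρ by linarith)
    exact_mod_cast (show ((⌈2 * ρ⌉₊ : ℝ) + 1) ≤ r by linarith)
  obtain ⟨hsup, -, hzero⟩ := hsw ρ _ hρ1 hn1 hn2
  have hrw : bl z r ⊆ bl z (p.w * r) := bl_mono z (le_wmul hG r)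
  have hnU : bl z (⌈2 * ρ⌉₊ + 1) ⊆ bl c N := (bl_mono z hn2).trans (hrw.trans hz)
  have hJ : DepG (bl c N) (Jz z) := (Om.depG_Jz z).mono ((bl_mono z hr1).trans (hrw.trans hz))
  have hH := depG_prod hG hF
  have hq' := chq_sub hq hsup hnU
  have hX : DepG (bl c N) fun s => pr (A0 (sw u z ρ)) s :=
    DepG.pr ((sup_A0 hsup).mono hnU) (sum_A0_sub hsup hnU)
  have hPi := prod_nonneg hS hG hF
  set PP := ∏ i ∈ I, nu Λ p.w (x i) (rr i) (H i) with hPP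
  refine ⟨?_, fun k hk hkρ => ?_⟩
  · have hloc := hL Λ L hG m (bl c N) ι I x rr H z r p.r₀ ρ (CS * σ) Y P₀ φ (Jz z) ξ
      (fun y => u y - aff u z y) hm hF hξ hrL hz hd le_rfl (Om.ins_Jz z (by omega)) hY.le
      (prof_Jz hS hG hM z) (by positivity) (Or.inl fun c' hc' => by
        have h1 := ((hB Λ hG.mem z 0 (dl z) (sup_dl (self_mem_bl z 0))).2.2 c' (by omega)).1
        rw [E0_dl] at h1
        have h3 : (fun s => |Jz z s ^ 2|) = fun s => pr (A0 (dl z)) s ^ 2 := by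
          funext s; rw [abs_of_nonneg (by positivity), Jz_eq_pr]
        rw [Nc.Nm, h3]
        nlinarith) (by positivity) hQ (fun y hy => (hξu y (bl_mono z (by omega) hy)).1) hρ hρr
    have hbe := hβ Λ ω L N hE r Y hM ((le_wmul hG r).trans hrL) ξ u z σ ρ hLr hρ1 (by linarith)
    have hpr := (hP p Λ L hG m (bl c N) ι I x rr H (cp ξ (φ + π / 2)) hm hF
      (fun i hi => out_cp (hξ i hi) _) (abs_cp_le _ _)).1
    rw [hrep _ (hJ.mul hX)] at hbe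
    rw [hrep _ ((hH.mul hJ).mul (depG_cp hq φ)), hrep _ ((hH.mul hJ).mul (depG_cp hq' φ)),
      hrep _ (hH.mul (depG_cp hq _))]
    change |_ - Ex (m.W 0) (fun s => (∏ i ∈ I, H i s) * Jz z s * cp (ξ - A0 (sw u z ρ)) φ s) -
      2 * π * Ex (m.W 0) (fun s => Jz z s * pr (A0 (sw u z ρ)) s) * _| ≤ _ at hloc
    set a1 := Ex (m.W 0) (fun s => (∏ i ∈ I, H i s) * Jz z s * cp ξ φ s)
    set a2 := Ex (m.W 0) (fun s => (∏ i ∈ I, H i s) * Jz z s * cp (ξ - A0 (sw u z ρ)) φ s)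
    set b := Ex (m.W 0) (fun s => Jz z s * pr (A0 (sw u z ρ)) s)
    set d := Ex (m.W 0) (fun s => (∏ i ∈ I, H i s) * cp ξ (φ + π / 2) s)
    set t := (ρ / r) ^ (cw p.w / 4) with ht
    have ht0 : 0 ≤ t := rpow_nonneg (by positivity) _
    have hA' : ((p.r₀ : ℝ) / r) ^ (2 + cw p.w / 2) ≤ A * Y ^ 2 / (r : ℝ) ^ 2 := by
      rw [div_rpow (Nat.cast_nonneg _) hr0.le, ← hA, rpow_add hr0, rpow_two, ← div_div,
        div_right_comm]
      gcongr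
      rw [div_eq_mul_inv, ← rpow_neg hr0.le]
      gcongr
      calc (r : ℝ) ^ (-(cw p.w / 2)) ≤ (r : ℝ) ^ (-ew p.w * 2) :=
            rpow_le_rpow_of_exponent_le hM.1 (by rw [ew]; linarith)
        _ = ((r : ℝ) ^ (-ew p.w)) ^ 2 := by rw [rpow_mul hr0.le, rpow_two]
        _ ≤ Y ^ 2 := by gcongr; exact hM.2.1
    have e1 : a1 - a2 - 2 * π * gk ω ρ * ξ z * d =
        (a1 - a2 - 2 * π * b * d) + 2 * π * ((b - gk ω ρ * ξ z) * d) := by ring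
    have e2 : |2 * π * ((b - gk ω ρ * ξ z) * d)| ≤
        2 * π * ((Cβ * σ * Y ^ 2 / (r : ℝ) ^ 2) * (16 * PP)) := by
      rw [abs_mul, abs_mul (b - _), abs_of_pos (by positivity : 0 < 2 * π)]
      gcongr
    have e3 : CS * σ * (1 + CS * σ) ≤ CS * (1 + CS) * (σ * (1 + σ)) := by
      have : 1 + CS * σ ≤ (1 + CS) * (1 + σ) := by nlinarith [mul_nonneg hCS hσ]
      calc CS * σ * (1 + CS * σ) ≤ CS * σ * ((1 + CS) * (1 + σ)) := by gcongr
        _ = _ := by ring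
    have e4 : Y * t / (r : ℝ) ^ 2 + P₀ * ((p.r₀ : ℝ) / r) ^ (2 + cw p.w / 2) ≤
        (1 + P₀ * A) * ((Y * t + Y ^ 2) / (r : ℝ) ^ 2) := by
      have h5 : P₀ * ((p.r₀ : ℝ) / r) ^ (2 + cw p.w / 2) ≤ P₀ * (A * Y ^ 2 / (r : ℝ) ^ 2) := by
        gcongr
      have h6 : 0 ≤ (Y ^ 2 + P₀ * A * (Y * t)) / (r : ℝ) ^ 2 := by positivity
      have h7 : (1 + P₀ * A) * ((Y * t + Y ^ 2) / (r : ℝ) ^ 2) =
          Y * t / (r : ℝ) ^ 2 + P₀ * (A * Y ^ 2 / (r : ℝ) ^ 2) +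
            (Y ^ 2 + P₀ * A * (Y * t)) / (r : ℝ) ^ 2 := by ring
      linarith
    have e5 : σ * Y ^ 2 / (r : ℝ) ^ 2 ≤ σ * (1 + σ) * ((Y * t + Y ^ 2) / (r : ℝ) ^ 2) := by
      rw [← mul_div_assoc]
      gcongr
      · exact le_mul_of_one_le_right hσ (by linarith only [hσ])
      · linarith only [mul_nonneg hY.le ht0]
    rw [e1]
    calc _ ≤ _ := abs_add_le _ _
      _ ≤ CL * PP * (CS * (1 + CS) * (σ * (1 + σ))) * ((1 + P₀ * A) * ((Y * t + Y ^ 2) / (r : ℝ) ^ 2)) +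
          2 * π * ((Cβ * σ * Y ^ 2 / (r : ℝ) ^ 2) * (16 * PP)) := by
          refine add_le_add (hloc.trans ?_) e2
          gcongr
      _ = CL * PP * (CS * (1 + CS) * (σ * (1 + σ))) * ((1 + P₀ * A) * ((Y * t + Y ^ 2) / (r : ℝ) ^ 2)) +
          32 * π * Cβ * PP * (σ * Y ^ 2 / (r : ℝ) ^ 2) := by ring
      _ ≤ CL * PP * (CS * (1 + CS) * (σ * (1 + σ))) * ((1 + P₀ * A) * ((Y * t + Y ^ 2) / (r : ℝ) ^ 2)) +
          32 * π * Cβ * PP * (σ * (1 + σ) * ((Y * t + Y ^ 2) / (r : ℝ) ^ 2)) := by gcongr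
      _ = _ := by ring
  · have hkr : k ≤ r := by exact_mod_cast (show (k : ℝ) ≤ r by linarith)
    have hk' : bl z (p.w * k) ⊆ bl z (p.w * r) := bl_mono z (Nat.mul_le_mul_left _ hkr)
    rw [hrep _ ((hH.mul hJ).mul (depG_cp hq' φ))]
    refine ((hP p Λ L hG m (bl c N) ι I x rr H (cp (ξ - A0 (sw u z ρ)) φ) hm hF
      (fun i hi => out_cp (fun y hy => ?_) _) (abs_cp_le _ _)).2 z k hk
      ((Nat.mul_le_mul_left _ hkr).trans hrL) (hk'.trans hz)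
      fun i hi => (hd i hi).mono_right hk').2.1 (Jz z) (Om.ins_Jz z (by omega))
      (out_cp (hzero k hkρ) _)
    rw [Pi.sub_apply, hξ i hi y hy, sup_A0 hsup y fun h' => ?_, sub_zero]
    exact disjoint_left.1 (hd i hi) (bl_mono _ (le_wmul hG _) hy) (hrw (bl_mono z hn2 h'))

end Lj36

set_option maxHeartbeats 1600000 in
open Lj36 in
theorem ljStmt (hS : SemiStmt) (hP : ProdStmt) (hB : BareStmt) (hL : LocStmt) (hW : SwStmt)
    (hβ : BetaStmt) : LjStmt := by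
  intro p
  obtain ⟨C, hC, hcore⟩ := core hS hP hB hL hW hβ p
  set D : ℝ := 32 * (1200 ^ 2 * 1200 ^ ew p.w) with hD
  have hD0 : 0 ≤ D := by positivity
  have hK : (0 : ℝ) ≤ (p.w : ℝ) ^ 2 * p.r₀ := by positivity
  refine ⟨C + D + (1 + 4800 * ((p.w : ℝ) ^ 2 * p.r₀)), by positivity, ?_⟩
  intro Λ ω L N hE R Y M hM h1M c ι I x rr H z r σ φ ξ u q hF hξ hq hrL hz hd hLr hrM
  have hG : Gs p Λ L := hE.toGs
  have hw := hG.w4
  have he := ew_pos hw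
  have hc := cw_pos hw
  have hY := maj_pos hM
  have hσ : 0 ≤ σ := hLr.1
  have hPi := prod_nonneg hS hG hF
  have hMe : 1 ≤ M ^ ew p.w := one_le_rpow h1M he.le
  have hM2 : M ^ (2 * ew p.w) = (M ^ ew p.w) ^ 2 := by
    rw [mul_comm, rpow_mul (by linarith), rpow_two]
  have key : ∀ t : ℝ, 0 ≤ t → Y * M ^ ew p.w * t + (Y * M ^ ew p.w) ^ 2 ≤
      M ^ (2 * ew p.w) * (Y * t + Y ^ 2) := fun t ht => by
    rw [hM2]
    have : M ^ ew p.w ≤ (M ^ ew p.w) ^ 2 := by nlinarith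
    nlinarith [mul_nonneg hY.le ht]
  refine ⟨fun ρ hρ hρr hRρ => ?_, fun hr hRr => ?_⟩
  · have hρ1 : 1 ≤ ρ := by linarith
    have hM' := maj_rescale hw hM h1M (show (1 : ℝ) ≤ r by linarith) (by linarith) hrM
    have h := (hcore Λ ω L N hE c ι I x rr H z r _ σ φ ξ u q hM' hF hξ hq hrL hz hd hLr ρ
      (by linarith) hρr).1
    refine h.trans ?_
    have ht : 0 ≤ (ρ / r) ^ (cw p.w / 4) := rpow_nonneg (by positivity) _
    rw [mul_assoc _ (M ^ (2 * ew p.w))]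
    gcongr
    · linarith
    · exact key _ ht
  · have hr1 : (1 : ℝ) ≤ r := by linarith
    have hr0 : (0 : ℝ) < r := by linarith
    have hM' := maj_rescale hw hM h1M hr1 hRr hrM
    have hw' : (4 : ℝ) ≤ p.w := by exact_mod_cast hw
    have h2' : (2 : ℝ) ≤ p.r₀ := by exact_mod_cast gs_two hG
    have h16 : 16 * (p.r₀ : ℝ) ≤ (p.w : ℝ) ^ 2 * p.r₀ := by gcongr; nlinarith
    obtain ⟨h, h'⟩ := hcore Λ ω L N hE c ι I x rr H z r _ σ φ ξ u q hM' hF hξ hq hrL hz hd hLr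
      (r / 600) (by linarith) (by linarith)
    set k : ℕ := ⌊(r : ℝ) / 600 - 1⌋₊ with hk
    have hk1 : (k : ℝ) ≤ r / 600 - 1 := Nat.floor_le (by linarith)
    have hk2 : (r : ℝ) / 600 - 1 < k + 1 := Nat.lt_floor_add_one _
    have hk3 : (r : ℝ) ≤ 1200 * k := by linarith
    have hk0 : (0 : ℝ) < k := by linarith
    have hkr : k ≤ r := by exact_mod_cast (show (k : ℝ) ≤ r by linarith)
    have hk4 : p.r₀ ≤ k := by exact_mod_cast (show (p.r₀ : ℝ) ≤ k by linarith)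
    have h3 := h' k hk4 (by linarith)
    have h4 := prof_Jz hS hG hM' z k hk4 ((Nat.mul_le_mul_left _ hkr).trans hrL)
    set Y' := Y * M ^ ew p.w with hY'
    have hY0 : 0 < Y' := by positivity
    have h5 : nu Λ p.w z k (Jz z) ≤ 1200 ^ 2 * 1200 ^ ew p.w * (Y' / (r : ℝ) ^ 2) := by
      have h6 : max ((k : ℝ) / r) (r / k) ≤ 1200 := by
        refine max_le ?_ ?_
        · rw [div_le_iff₀ hr0]; linarith
        · rw [div_le_iff₀ hk0]; linarith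
      have h7 : (k : ℝ) ^ 2 * nu Λ p.w z k (Jz z) ≤ Y' * 1200 ^ ew p.w :=
        h4.trans (by gcongr)
      rw [← le_div_iff₀' (by positivity)] at h7
      refine h7.trans ?_
      rw [← mul_div_assoc, div_le_div_iff₀ (by positivity) (by positivity)]
      have h8 : (r : ℝ) ^ 2 ≤ (1200 * k) ^ 2 := by gcongr
      calc Y' * 1200 ^ ew p.w * (r : ℝ) ^ 2 ≤ Y' * 1200 ^ ew p.w * (1200 * k) ^ 2 := by gcongr
        _ = _ := by ring
    set PP := ∏ i ∈ I, nu Λ p.w (x i) (rr i) (H i) with hPP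
    set a1 := ω (fun s => (∏ i ∈ I, H i s) * Jz z s * cp ξ φ s)
    set a2 := ω (fun s => (∏ i ∈ I, H i s) * Jz z s * cp (ξ - A0 (sw u z (r / 600))) φ s)
    set b := 2 * π * gk ω (r / 600) * ξ z * ω fun s => (∏ i ∈ I, H i s) * cp ξ (φ + π / 2) s
    have ht : ((r : ℝ) / 600 / r) ^ (cw p.w / 4) ≤ 1 :=
      rpow_le_one (by positivity) (by rw [div_le_one hr0]; linarith) (by positivity)
    have hk := key 1 zero_le_one
    rw [mul_one, mul_one] at hk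
    have hs1 : σ * (1 + σ) ≤ (1 + σ) ^ 2 := by nlinarith
    have hs2 : 1 ≤ (1 + σ) ^ 2 := by nlinarith
    set Z := M ^ (2 * ew p.w) * (Y + Y ^ 2) with hZ
    have hZ0 : 0 ≤ Z := by positivity
    have e1 : a1 - b = (a1 - a2 - b) + a2 := by ring
    rw [e1]
    calc _ ≤ _ := abs_add_le _ _
      _ ≤ C * PP * (1 + σ) ^ 2 * Z / (r : ℝ) ^ 2 + D * PP * (1 + σ) ^ 2 * Z / (r : ℝ) ^ 2 := by
          refine add_le_add (h.trans ?_) (h3.trans ?_)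
          · gcongr
            refine le_trans ?_ hk
            gcongr
            exact mul_le_of_le_one_right hY0.le ht
          · calc 32 * PP * nu Λ p.w z k (Jz z)
                ≤ 32 * PP * (1200 ^ 2 * 1200 ^ ew p.w * (Y' / (r : ℝ) ^ 2)) := by gcongr
              _ = D * PP * 1 * Y' / (r : ℝ) ^ 2 := by rw [hD]; ring
              _ ≤ _ := by gcongr; nlinarith
      _ = (C + D) * PP * (1 + σ) ^ 2 * Z / (r : ℝ) ^ 2 := by ring
      _ ≤ (C + D + (1 + 4800 * ((p.w : ℝ) ^ 2 * p.r₀))) * PP * (1 + σ) ^ 2 * Z / (r : ℝ) ^ 2 := by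
          have h9 : C + D ≤ C + D + (1 + 4800 * ((p.w : ℝ) ^ 2 * p.r₀)) := by linarith only [hK]
          gcongr ?_ * PP * (1 + σ) ^ 2 * Z / (r : ℝ) ^ 2
      _ = _ := by rw [hZ]; ring

end Crest.Agent.T145.Fl
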