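import Crest.Agent.T145.FlLocC_94

/-!
# Row 145 (helper94): `Fl.locStmt`
-/

set_option autoImplicit false

noncomputable section

namespace Crest.Agent.T145.F94

open Finset Pot Xi Fl Real

variable {Λ : Lat} {m : Mdl Pt} {z : Pt}

theorem cw_pos {w : ℕ} (hw : 1 ≤ w) : 0 < cw w ∧ cw w ≤ 1 := by
  have h1 : (1 : ℝ) ≤ (w : ℝ) ^ 4 := one_le_pow₀ (by exact_mod_cast hw)
  have h2 := log_pos (show (1 : ℝ) < 2 by norm_num)
  have h3 := log_le_log (show (0 : ℝ) < 2 by norm_num) (show 2 ≤ 4 * (w : ℝ) ^ 4 by linarith)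
  exact ⟨div_pos h2 (by linarith), div_le_one_of_le₀ h3 (by linarith)⟩

theorem gs_ok {p : Par} {L : ℕ} (h : Gs p Λ L) : Λ.Ok := ⟨h.mem.1 ▸ p.F.adm, p.F.pos.trans_le h.mem.2.2.1⟩

theorem gs_gam {p : Par} {L r : ℕ} (h : Gs p Λ L) (h0 : p.r₀ ≤ r) (h1 : r ≤ L) :
    r + 2 * Λ.rg ≤ p.w * r ∧ Nc.gam Λ r (p.w * r) ≤ 2 :=
  ⟨by have := h.gd.2.1; have := Nat.mul_le_mul_right r h.gd.1; omega,
    (h.gd.2.2 r h0 h1).trans (by norm_num)⟩

/-- the flowed far insertions form an outside factor -/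
theorem dm_far {p : Par} {L r : ℕ} (h : Gs p Λ L) {U : Finset Pt} {ι : Type} {I : Finset ι} {x : ι → Pt}
    {rr : ι → ℕ} {H : ι → Cfg Pt → ℝ} (hm : Nc.Amb Λ m U) (hF : Far p L U I x rr H) (h0 : p.r₀ ≤ r)
    (hL : p.w * r ≤ L) (hU : bl z (p.w * r) ⊆ U)
    (hd : ∀ i ∈ I, Disjoint (bl (x i) (p.w * rr i)) (bl z (p.w * r))) :
    (∀ i ∈ I, FlF4.Ir Λ (x i) (rr i) (rr i) (p.w * rr i) (H i)) ∧
    Dm Λ m z r (p.w * r) (fun s => ∏ i ∈ I, Nc.St Λ (x i) (rr i) (H i) s)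
      (32 * ∏ i ∈ I, nu Λ p.w (x i) (rr i) (H i)) := by
  have hΛ := gs_ok h
  have hw : ∀ t, t ≤ p.w * t := fun t => Nat.le_mul_of_pos_left _ (by have := h.w4; omega)
  have g : ∀ i ∈ I, _ := fun i hi => gs_gam h (hF.big i hi).1 ((hw _).trans (hF.big i hi).2)
  have g0 := gs_gam h h0 ((hw _).trans hL)
  have ir : ∀ i ∈ I, FlF4.Ir Λ (x i) (rr i) (rr i) (p.w * rr i) (H i) := fun i hi =>
    ⟨le_rfl, (g i hi).1, (hF.ins i hi).1.mono (bl_mono _ (by omega)),
      FlF4.In_tame hΛ _ _ (hF.ins i hi).2⟩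
  refine ⟨ir, Out.prod fun i hi => ((ir i hi).St hΛ).dep.dep.out ((hd i hi).mono
    (bl_mono _ (by have := (g i hi).1; omega)) (bl_mono _ (hw r))), fun Y hY hI => ?_⟩
  have key := (FlF4.ld1 Λ hΛ).1 (Option ι) m (insertNone I) (fun o => o.elim z x) (fun o => o.elim r rr)
    (fun o => o.elim (p.w * r) fun i => p.w * rr i)
    (fun o => o.elim Y fun i => Nc.St Λ (x i) (rr i) (H i)) (fun i hi j hj hij => by
      rcases i with _ | i <;> rcases j with _ | j
      · exact absurd rfl hij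
      · exact (hd j (some_mem_insertNone.1 hj)).symm
      · exact hd i (some_mem_insertNone.1 hi)
      · exact hF.dis i (some_mem_insertNone.1 hi) j (some_mem_insertNone.1 hj) fun e => hij (by rw [e]))
    hm.ctr hm.anch fun i hi => by
      rcases i with _ | i
      · exact ⟨FlF4.amb_mono hm hU, g0.1, hY.mono (bl_mono _ (Nat.le_add_right _ _)), hI⟩
      · have hi := some_mem_insertNone.1 hi
        exact ⟨FlF4.amb_mono hm (hF.sub i hi), (g i hi).1, ((ir i hi).St hΛ).dep, ((ir i hi).St hΛ).ig⟩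
  simp only [prod_insertNone, Option.elim] at key
  refine ⟨key.1, key.2.trans ?_⟩
  have h1 : ∏ i ∈ I, Nc.gam Λ (rr i) (p.w * rr i) *
      Nc.Nm Λ (x i) (p.w * rr i) (Nc.St Λ (x i) (rr i) (H i)) ≤
        16 * ∏ i ∈ I, nu Λ p.w (x i) (rr i) (H i) := by
    refine (prod_le_prod (g := fun i => 2 * nu Λ p.w (x i) (rr i) (H i)) (fun i hi => mul_nonneg
      (zero_le_one.trans (FlF4.one_le_gam hΛ (g i hi).1)) (Nc.L37.Nm_nonneg hΛ _ _ _)) fun i hi =>
        mul_le_mul_of_nonneg_right (g i hi).2 (Nc.L37.Nm_nonneg hΛ _ _ _)).trans ?_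
    rw [prod_mul_distrib, prod_const]
    exact mul_le_mul_of_nonneg_right ((pow_le_pow_right₀ one_le_two hF.card).trans (by norm_num))
      (prod_nonneg fun i _ => Nc.L37.Nm_nonneg hΛ _ _ _)
  have h2 := Nc.L37.Nm_nonneg hΛ z (p.w * r) Y
  exact (mul_le_mul (mul_le_mul_of_nonneg_right g0.2 h2) h1 (prod_nonneg fun i hi => mul_nonneg
    (zero_le_one.trans (FlF4.one_le_gam hΛ (g i hi).1)) (Nc.L37.Nm_nonneg hΛ _ _ _))
    (by positivity)).trans_eq (by ring)

/-- one term of the final sum -/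
theorem term {κ P a r s t : ℝ} (hκ : 0 < κ) (hP : 0 ≤ P) (hs : 0 < s) (hr : 0 < r) (h1 : s * r ≤ a)
    (h2 : a ≤ r) (h3 : s ≤ t) (h4 : t ≤ 1) :
    P * max (a / r) (r / a) ^ (κ / 100) / a ^ 2 * s ^ 2 * s ^ κ ≤ P * t ^ (κ / 4) / r ^ 2 * s ^ (κ / 4) := by
  have ha : 0 < a := (mul_pos hs hr).trans_le h1
  have ht : 0 < t := hs.trans_le h3
  have e1 : max (a / r) (r / a) ≤ s⁻¹ := max_le
    ((div_le_one_of_le₀ h2 hr.le).trans (one_le_inv₀ hs |>.2 (h3.trans h4)))
    (by rw [div_le_iff₀ ha, inv_mul_eq_div, le_div_iff₀ hs]; linarith)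
  have e2 : max (a / r) (r / a) ^ (κ / 100) * s ^ κ ≤ t ^ (κ / 4) * s ^ (κ / 4) := by
    calc _ ≤ s⁻¹ ^ (κ / 100) * s ^ κ := by gcongr
      _ = s ^ (κ - κ / 100) := by rw [inv_rpow hs.le, rpow_sub hs]; ring
      _ ≤ s ^ (κ / 4 + κ / 4) := rpow_le_rpow_of_exponent_ge hs (h3.trans h4) (by linarith)
      _ ≤ _ := by rw [rpow_add hs]; gcongr
  have e3 : s ^ 2 / a ^ 2 ≤ 1 / r ^ 2 := by
    rw [div_le_div_iff₀ (by positivity) (by positivity), ← mul_pow, one_mul]; gcongr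
  calc _ = P * (max (a / r) (r / a) ^ (κ / 100) * s ^ κ * (s ^ 2 / a ^ 2)) := by ring
    _ ≤ P * (t ^ (κ / 4) * s ^ (κ / 4) * (1 / r ^ 2)) := by gcongr
    _ = _ := by ring

end Crest.Agent.T145.F94

namespace Crest.Agent.T145.Fl

open Finset Pot Xi Real F94

set_option maxHeartbeats 1000000 in
theorem locStmt (hR : RateStmt) : LocStmt := by
  intro p
  obtain ⟨R, hR0, hR⟩ := hR p.w
  obtain ⟨X₀, hX₀, hfl⟩ := fl_lc
  set Q : ℝ := 8 * (p.w : ℝ) ^ 2 with hQ
  set κ := cw p.w with hκdef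
  set X := X₀ * |2 * π| * Q ^ 4 with hX
  set β₄ := FlF4.cB p.F.τ₂ 4
  set B := 2 * Q * X + 8 * Q ^ 3 * R + 2 * Q ^ 2 * R * X with hB
  have hX0 : 0 ≤ X := by positivity
  have hB0 : 0 ≤ B := by positivity
  refine ⟨32 * (16 * β₄ ^ 2 * X * B) * (1 + |1 / (Q ^ (κ / 4) - 1)|), by positivity,
    fun Λ L h m U ι I x rr H z r a₀ ρ σ P P₀ φ F ξ u hm hF hξ0 hL hU hd h0 hI hP hPr hP₀ halt hσ hu hξ
      hρ1 hρ2 => ?_⟩
  have hΛ := gs_ok h
  have w4 := h.w4
  have hrg := h.gd.2.1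
  have rg1 := hΛ.one_le_rg
  obtain ⟨hκ, hκ1⟩ := cw_pos (show 1 ≤ p.w by omega)
  have hw : ∀ t, t ≤ p.w * t := fun t => Nat.le_mul_of_pos_left _ (by omega)
  have hQ2 : 2 ≤ Q := by
    have : (4 : ℝ) ≤ p.w := by exact_mod_cast w4
    rw [hQ]; nlinarith
  obtain ⟨J, K, a, β, s₀, hJ, hJK, a0, aK, am, β0, βJ, hs₀, hs₁, glo, gK, gtwo, ghi, r8, r2⟩ :=
    grid (show 2 ≤ p.w by omega) (show 1 ≤ a₀ by omega) hρ1 hρ2
  rw [← hQ] at glo ghi
  have ar : ∀ j ≤ K + 1, a j ≤ r := fun j hj => aK ▸ am hj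
  have al : ∀ j, a₀ ≤ a j := fun j => a0 ▸ am (Nat.zero_le j)
  have hr : (0 : ℝ) < r := by exact_mod_cast (by have := ar 0 (by omega); omega : 0 < r)
  have hs : ∀ j, 0 < s₀ * Q ^ j := fun j => by positivity
  have aβ : ∀ j, 1 ≤ j → j ≤ K → (a j : ℝ) + 1 ≤ β j := fun j h1 h2 => by
    rcases h2.eq_or_lt with rfl | h2
    · exact gK
    · refine le_trans ?_ (glo j h1 h2).2
      exact_mod_cast Nat.succ_le_succ ((hw _).trans (hw _))
  have β1 : ∀ j, 1 ≤ j → j ≤ K → 1 ≤ β j := fun j h1 h2 => by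
    linarith [aβ j h1 h2, (Nat.cast_nonneg (a j) : (0 : ℝ) ≤ _)]
  have β01 : ∀ j ≤ K, β j = 0 ∨ 1 ≤ β j := fun j hj =>
    (Nat.eq_zero_or_pos j).imp (fun e => by rw [e, β0]) fun h1 => β1 j h1 hj
  have βm : ∀ j < K, β j ≤ β (j + 1) := fun j hj => by
    rcases Nat.eq_zero_or_pos j with rfl | h1
    · linarith [β1 1 le_rfl hj]
    · linarith [gtwo j h1 hj.le, aβ (j + 1) (by omega) hj, β1 j h1 hj.le]
  have βr : ∀ j, 1 ≤ j → j ≤ K → 2 * β j + 1 ≤ r := fun j h1 h2 =>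
    (gtwo j h1 h2).trans (by exact_mod_cast ar _ (by omega))
  have sa : ∀ j < K, s₀ * Q ^ j * r ≤ a j := fun j hj => by
    rcases Nat.eq_zero_or_pos j with rfl | h1
    · simpa [a0] using hs₁
    · exact (glo j h1 hj).1.ge
  have s1 : ∀ j < K, s₀ * Q ^ j ≤ 1 := fun j hj => by
    have : (a j : ℝ) ≤ r := by exact_mod_cast ar j (by omega)
    exact le_of_mul_le_mul_right (by linarith [sa j hj]) hr
  obtain ⟨j₀, j1, hj0, hj1⟩ : ∃ j₀ ≤ 1, (0 < j₀ → ∀ c, a₀ ≤ c → Nc.Nm Λ z c (fun s => F s ^ 2) ≤ P₀ ^ 2) ∧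
      (j₀ ≤ 0 → ∀ y ∈ bl z (p.w * (p.w * a₀) + 1), u y = 0) := halt.elim
    (fun k => ⟨1, le_rfl, fun _ => k, fun e => absurd e (by omega)⟩)
    fun k => ⟨0, by omega, fun e => absurd e (by omega), fun _ y hy => k y (bl_mono z (by
      have := hw (p.w * a₀); have := hw a₀
      rw [show 16 * p.w ^ 2 * a₀ = 16 * (p.w * (p.w * a₀)) by ring]; omega) hy)⟩
  have hfl' := fun j (hj : j < K) => hfl Λ u z r σ (β j) (β (j + 1)) (2 * π) (X * σ * (s₀ * Q ^ j) ^ 2)
    hΛ hσ hu (β01 j hj.le) (βm j hj) (β1 _ (by omega) hj) (βr _ (by omega) hj) (by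
      have h1 : β (j + 1) / r ≤ Q ^ 2 * (s₀ * Q ^ j) := by rw [div_le_iff₀ hr]; exact ghi j hj
      have h2 : 0 ≤ β (j + 1) / r := div_nonneg (by linarith [β1 (j + 1) (by omega) hj]) hr.le
      calc _ ≤ X₀ * |2 * π| * σ * (Q ^ 2 * (s₀ * Q ^ j)) ^ 2 := by gcongr
        _ = _ := by rw [hX]; ring)
  have lev : Lev Λ z p.w a j₀ K (fun j => if j < j₀ then bl z (⌊2 * β (j + 1)⌋₊ + 1)
      else bl z (⌊2 * β (j + 1)⌋₊ + 1) \ bl z (p.w * (p.w * a j)))
      (fun j => A0 ((2 * π) • (lc u z (β (j + 1)) - lc u z (β j)))) fun j => X * σ * (s₀ * Q ^ j) ^ 2 :=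
    have two : ∀ j, 1 ≤ j → j < K → 2 * (p.w * (p.w * a j) + 1) + 1 ≤ a (j + 1) := fun j h1 h2 => by
      have h3 := (glo j h1 h2).2
      have h4 := gtwo j h1 h2.le
      exact_mod_cast (by push_cast at h3 ⊢; linarith :
        ((2 * (p.w * (p.w * a j) + 1) + 1 : ℕ) : ℝ) ≤ a (j + 1))
    { j1 := j1
      w2 := by omega
      rg := by omega
      mono := am
      ba := fun j hj => by
        have h1 := two (max j 1) (le_max_right _ _) (by omega)
        have h2 := am (show max j 1 + 1 ≤ j + 2 by omega)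
        have h3 := Nat.mul_le_mul_left p.w (Nat.mul_le_mul_left p.w (am (le_max_left j 1)))
        have h4 := (al j).trans ((hw _).trans (hw _))
        omega
      top := by have := al K; omega
      g1 := fun j hj => (gs_gam h (h0.trans (al j)) ((ar j (by omega)).trans ((hw r).trans hL))).2
      g2 := fun j hj => (gs_gam h (h0.trans ((al j).trans (hw _)))
        ((Nat.mul_le_mul_left _ (ar j (by omega))).trans hL)).2
      sub := fun j hj => by
        have h1 : ⌊2 * β (j + 1)⌋₊ + 1 ≤ a (j + 2) := by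
          have := Nat.floor_le (show 0 ≤ 2 * β (j + 1) by linarith [β1 (j + 1) (by omega) hj])
          exact_mod_cast (by push_cast; linarith [gtwo (j + 1) (by omega) hj] :
            ((⌊2 * β (j + 1)⌋₊ + 1 : ℕ) : ℝ) ≤ a (j + 2))
        split_ifs
        exacts [bl_mono z h1, sdiff_subset.trans (bl_mono z h1)]
      disj := fun j h1 _ => by rw [if_neg (by omega)]; exact disjoint_sdiff
      x0 := fun j => by positivity
      fl := fun j hj => by
        split_ifs with h1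
        · exact (hfl' j hj).1
        refine (hfl' j hj).2 _ fun y hy => ?_
        rcases Nat.eq_zero_or_pos j with rfl | h2
        · rw [β0, lc_zero, lc, hj1 (by omega) y (a0 ▸ hy), zero_mul]; rfl
        · have h3 := (glo j h2 hj).2
          have h4 := β1 j h2 hj.le
          have h5 := βm j hj
          rw [lc_in (by linarith) h3 hy, lc_in (by linarith) (h3.trans h5) hy] }
  obtain ⟨ir, hD⟩ := dm_far (z := z) h hm hF (h0.trans ((al 0).trans (ar 0 (by omega)))) hL hU hd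
  have hν : 0 ≤ ∏ i ∈ I, nu Λ p.w (x i) (rr i) (H i) := prod_nonneg fun i _ => Nc.L37.Nm_nonneg hΛ _ _ _
  have hmz : ∀ j ≤ K + 1, Nc.Amb Λ m (bl z (p.w * a j)) := fun j hj =>
    FlF4.amb_mono hm ((bl_mono z (Nat.mul_le_mul_left _ (ar j hj))).trans hU)
  have hmr : Nc.Amb Λ m (bl z r) := FlF4.amb_mono hm ((bl_mono z (hw r)).trans hU)
  have hθ : ∀ j s, cp (ξ - A0 (lc u z (β j))) φ s =
      cos (2 * π * pr (ξ - A0 (lc u z (β j))) s + φ) := fun _ _ => rfl
  have eθ : ∀ j s, 2 * π * pr (ξ - A0 (lc u z (β j))) s + φ =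
      2 * π * pr (ξ - A0 (lc u z (β (j + 1)))) s + φ +
        pr (A0 ((2 * π) • (lc u z (β (j + 1)) - lc u z (β j)))) s := fun j s => by
    simp only [A0_smul, A0_sub, pr_smul, pr_sub, AddMonoidHom.sub_apply, AddMonoidHom.smul_apply,
      smul_eq_mul]
    ring
  have key := lev.loc hΛ hJK hD (by positivity) hmr aK.le (hw r)
    (Nat.mul_le_mul_left _ (ar K (by omega)))
    (θ := fun j s => 2 * π * pr (ξ - A0 (lc u z (β j))) s + φ) (fun j _ => eθ j)
    (fun j h1 h2 => (out_pr fun y hy => by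
      have e1 : ξ y = A0 u y := hξ y (bl_mono z (by have := am h2; have := al K; omega) hy)
      rw [Pi.sub_apply, e1, sub_eq_zero]
      refine A0_congr fun v hv => ?_
      have hv' : v ∈ bl z (a j + 1) := bl_subset_bl hy (by omega) hv
      rcases Nat.eq_zero_or_pos j with rfl | h3
      · rw [β0, lc_zero, hj1 h1 v (bl_mono z (by have := hw (p.w * a₀); have := hw a₀; omega) hv')]; rfl
      · exact (lc_in (by linarith [β1 j h3 h2]) (by exact_mod_cast aβ j h3 h2) hv').symm).comp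
        fun t => 2 * π * t + φ) hI.2 (a0 ▸ hI.1)
    (n := fun j => if j < j₀ then P₀ else P * max ((a j : ℝ) / r) (r / a j) ^ (κ / 100) / (a j : ℝ) ^ 2)
    (fun j => by split_ifs <;> positivity)
    (fun h1 c hc => by rw [if_pos h1]; exact hj0 h1 c (a0 ▸ hc))
    (fun j h1 h2 => by
      have h3 : (0 : ℝ) < a j := by exact_mod_cast (by have := al j; omega : 0 < a j)
      rw [if_neg (by omega), le_div_iff₀ (by positivity), mul_comm]
      exact hPr (a j) (al j) ((Nat.mul_le_mul_left _ (ar j (by omega))).trans hL))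
    (μ := Ex (m.W 0)) (ϱ := fun i k => R * ((a i : ℝ) / a k) ^ κ) (fun i k => by positivity)
    fun i hi G hT hG => by
      have g := gs_gam h (h0.trans (al i)) ((ar i (by omega)).trans ((hw r).trans hL))
      have h1 := FlF4.fus0 hΛ subset_rfl ⟨le_rfl, g.1, hG.mono (bl_mono z (by omega)),
        FlF4.In_tame hΛ z _ hT⟩ (hmz i (by omega)) ((bl_mono z (hw _)).trans (hmz i (by omega)).sub)
      rw [FlF4.nc_self hm.ctr hm.anch] at h1
      exact ⟨h1.2.trans (mul_le_mul_of_nonneg_right g.2 (FlF4.nu_nonneg hΛ _ _ _ _)), fun k h2 h3 =>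
        hR p Λ L rfl h m z (a i) (a k) G (h0.trans (al i)) (am h2)
          ((Nat.mul_le_mul_left _ (ar k (by omega))).trans hL) (hmz k (by omega)) ⟨hG, hT⟩⟩
  have hC := hm.ctr.cen hm.anch
  have eμ : ∑ j ∈ range J, Ex (m.W 0) (fun t => F t *
      pr (A0 ((2 * π) • (lc u z (β (j + 1)) - lc u z (β j)))) t) =
        2 * π * Ex (m.W 0) fun s => F s * pr (A0 (lc u z ρ)) s := by
    rw [← Ex_sum _ fun j _ => hC.ig (hI.2.mul (Tame.hom _)), ← Ex_const_mul]
    refine Ex_congr fun s _ => ?_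
    simp only [A0_smul, A0_sub, pr_smul, pr_sub, AddMonoidHom.sub_apply, AddMonoidHom.smul_apply,
      smul_eq_mul, ← mul_sum]
    rw [sum_range_sub fun j => pr (A0 (lc u z (β j))) s, β0, βJ, lc_zero,
      show A0 0 = 0 from A0_const 0, pr_zero, AddMonoidHom.zero_apply]
    ring
  simp only [eμ, β0, βJ, lc_zero, show A0 0 = 0 from A0_const 0, sub_zero] at key
  set M := 2 * π * Ex (m.W 0) fun s => F s * pr (A0 (lc u z ρ)) s with hM
  have tH : Tame fun s => ∏ i ∈ I, H i s := Tame.prod I fun i hi => (hF.ins i hi).2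
  have t1 := hI.2.mul (Tame.cos fun s => 2 * π * pr ξ s + φ)
  have t2 := hI.2.mul (Tame.cos fun s => 2 * π * pr (ξ - A0 (lc u z ρ)) s + φ)
  have t3 := (Tame.sin fun s => 2 * π * pr ξ s + φ).const_mul M
  have rep := FlF4.repl_St I hΛ hm.ctr hm.anch subset_rfl hF.dis (fun i hi => ⟨ir i hi,
    FlF4.amb_mono hm ((bl_mono _ (hw _)).trans (hF.sub i hi)),
    (bl_mono _ (hw _)).trans ((hF.sub i hi).trans hm.sub), by
      have d1 : Disjoint (bl z r) (bl (x i) (rr i)) :=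
        (hd i hi).symm.mono (bl_mono _ (hw _)) (bl_mono _ (hw _))
      have o1 : Out (bl (x i) (rr i)) F :=
        hI.1.dep.out (d1.mono_left (bl_mono z ((al 0).trans (ar 0 (Nat.zero_le _)))))
      have o2 := out_pr (hξ0 i hi)
      have o3 : Out (bl (x i) (rr i)) fun s => pr (ξ - A0 (lc u z ρ)) s := out_pr fun y hy => by
        have h1 := βr J hJ (by omega)
        have h2 := β1 J hJ (by omega)
        have h3 : 0 < r := by exact_mod_cast hr
        rw [βJ] at h1 h2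
        rw [Pi.sub_apply, hξ0 i hi y hy, sup_A0 (c := z) (n := r - 1) (fun v hv => lc_out (by linarith)
          (by rw [Nat.cast_pred h3]; linarith) hv) y fun k =>
            disjoint_left.1 d1 (bl_mono z (Nat.sub_add_cancel h3).le k) hy, sub_self]
      exact ((o1.comp₂ o2 fun a b => a * cos (2 * π * b + φ)).comp₂
        (o1.comp₂ o3 fun a b => a * cos (2 * π * b + φ)) (· - ·)).comp₂
        (o2.comp fun b => M * sin (2 * π * b + φ)) (· + ·)⟩) (hC.ig (((t1.sub t2).add t3).mul tH))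
  have fin := (FlF4.abs_ex_le_nc hm.ctr hm.anch hmr.sub key.1).trans key.2
  rw [← FlF4.nc_self hm.ctr hm.anch, ← rep.2, FlF4.nc_self hm.ctr hm.anch] at fin
  refine le_trans (le_of_eq ?_) (fin.trans ?_)
  · simp only [add_mul, sub_mul]
    rw [Ex_add (hC.ig ((t1.mul tH).sub (t2.mul tH))) (hC.ig (t3.mul tH)),
      Ex_sub (hC.ig (t1.mul tH)) (hC.ig (t2.mul tH)), sub_eq_add_neg _ (M * _), ← mul_neg, ← Ex_neg,
      ← Ex_const_mul]
    congr 2
    · congr 1 <;> exact Ex_congr fun s _ => by simp only [cp]; ring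
    · exact Ex_congr fun s _ => by simp only [cp, ← add_assoc, cos_add_pi_div_two]; ring
  -- the sum
  have hβ : FlF4.cB Λ.τ 4 ^ 2 ≤ β₄ ^ 2 :=
    pow_le_pow_left₀ (FlF4.cB_pos _ _).le (FlF4.cB_mono h.mem.2.2.2 le_rfl) 2
  have hρr : ρ / r ≤ 1 := by rw [div_le_one hr]; linarith [βr J hJ (by omega), β1 J hJ (by omega)]
  have hρ0 : 0 ≤ ρ := by linarith [β1 J hJ (by omega)]
  set A := P * (ρ / r) ^ (κ / 4) / (r : ℝ) ^ 2 with hA
  set A' := P₀ * ((a₀ : ℝ) / r) ^ (2 + κ / 2) with hA'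
  have hA0 : 0 ≤ A := by positivity
  have hA0' : 0 ≤ A' := by positivity
  refine (mul_le_mul_of_nonneg_left (sum_le_sum (g := fun j => 16 * β₄ ^ 2 * X * B * (σ * (1 + σ)) *
    (A * (s₀ * Q ^ j) ^ (κ / 4) + if j = 0 then A' else 0)) fun j hj => ?_) (by positivity)).trans ?_
  · have hj := mem_range.1 hj
    have br := bracket (X := X * σ) (R := R) (j := j) hQ2 hs₀ hκ1 (by positivity) hR0 (by omega) s1
      (ϱ := fun k => R * ((a (j + 2) : ℝ) / a k) ^ κ) (by
        refine mul_le_mul_of_nonneg_left (rpow_le_rpow (by positivity) ?_ hκ.le) hR0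
        have h1 : (r : ℝ) ≤ 8 * a K := by exact_mod_cast r8
        have h2 := ghi (j + 1) (by omega)
        have h3 := aβ (j + 2) (by omega) (by omega)
        rw [div_le_iff₀ (by linarith)]
        have h4 := mul_le_mul_of_nonneg_left h1 (show 0 ≤ Q ^ 3 * (s₀ * Q ^ j) by positivity)
        rw [pow_succ Q j] at h2
        linarith)
      fun i h1 h2 => by
        rw [(glo (j + 2) (by omega) (by omega)).1, (glo i (by omega) h2).1, mul_div_mul_right _ _ hr.ne']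
    have br' : 2 * Q * (X * σ) + 8 * Q ^ 3 * R + 2 * Q ^ 2 * R * (X * σ) ≤ B * (1 + σ) := by
      have : 0 ≤ 2 * Q * X + 8 * Q ^ 3 * R * σ + 2 * Q ^ 2 * R * X := by positivity
      rw [hB]; linarith
    have tm : (if j < j₀ then P₀ else P * max ((a j : ℝ) / r) (r / a j) ^ (κ / 100) / (a j : ℝ) ^ 2) *
        (s₀ * Q ^ j) ^ 2 * (s₀ * Q ^ j) ^ κ ≤ A * (s₀ * Q ^ j) ^ (κ / 4) + if j = 0 then A' else 0 := by
      by_cases h1 : j < j₀
      · obtain rfl : j = 0 := by omega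
        rw [if_pos h1, if_pos rfl, mul_assoc, ← rpow_natCast, ← rpow_add (hs 0)]
        refine le_add_of_nonneg_of_le (by positivity) (mul_le_mul_of_nonneg_left ?_ hP₀)
        refine (rpow_le_rpow_of_exponent_ge (hs 0) (s1 0 (by omega))
          (show 2 + κ / 2 ≤ _ by push_cast; linarith)).trans (rpow_le_rpow (hs 0).le ?_ (by positivity))
        rw [le_div_iff₀ hr]; simpa using hs₁
      · rw [if_neg h1]
        refine le_add_of_le_of_nonneg (term hκ hP (hs j) hr (sa j (by omega))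
          (by exact_mod_cast ar j (by omega)) ?_ hρr) (by split_ifs <;> positivity)
        have h2 : (a j : ℝ) ≤ a J := by exact_mod_cast am hj.le
        rw [le_div_iff₀ hr]
        linarith [sa j (by omega), aβ J hJ (by omega)]
    set n := if j < j₀ then P₀ else P * max ((a j : ℝ) / r) (r / a j) ^ (κ / 100) / (a j : ℝ) ^ 2
    have hn : 0 ≤ n := by simp only [n]; split_ifs <;> positivity
    calc _ ≤ 16 * β₄ ^ 2 * (n * (X * σ * (s₀ * Q ^ j) ^ 2)) * (B * (1 + σ) * (s₀ * Q ^ j) ^ κ) :=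
          mul_le_mul (by gcongr) (br.trans (mul_le_mul_of_nonneg_right br' (by positivity)))
            (by positivity) (by positivity)
      _ = 16 * β₄ ^ 2 * X * B * (σ * (1 + σ)) * (n * (s₀ * Q ^ j) ^ 2 * (s₀ * Q ^ j) ^ κ) := by ring
      _ ≤ _ := mul_le_mul_of_nonneg_left tm (by positivity)
  · rw [← mul_sum, sum_add_distrib, ← mul_sum, sum_ite_eq', if_pos (mem_range.2 (by omega))]
    have h1 := (geo_rpow (show 1 < Q by linarith) hs₀ (show 0 < κ / 4 by positivity)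
      (s1 J (by omega))).trans (le_abs_self _)
    set c := |1 / (Q ^ (κ / 4) - 1)|
    have hc : 0 ≤ c := abs_nonneg _
    have h2 : A * ∑ j ∈ range J, (s₀ * Q ^ j) ^ (κ / 4) + A' ≤ (1 + c) * (A + A') := by
      nlinarith [mul_le_mul_of_nonneg_left h1 hA0, mul_nonneg hc hA0']
    refine (mul_le_mul_of_nonneg_left (mul_le_mul_of_nonneg_left h2 (by positivity))
      (by positivity)).trans_eq ?_
    ring

end Crest.Agent.T145.Fl
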