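import Crest.Agent.T145.FlDef2_82
import Crest.Agent.T145.FlBas_4
import Crest.Agent.T145.FlBare_80
import Crest.Agent.T145.FlXf_91
import Crest.Agent.T145.BrB_73

/-!
# Row 145, odd flow: the sharp off-centre lower bound for two sines (`LowStmt`, helper84)
-/

set_option autoImplicit false

namespace Crest.Agent.T145.Fl

open Finset Pot Xi Real

namespace Low84

theorem vr_add_le {L : Type*} [AddCommGroup L] {W : L → ℝ} (h : Cen W) (f g : L →+ ℝ) {e : ℝ}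
    (he : 0 < e) : Vr W (f + g) (f + g) ≤ (1 + e) * Vr W f f + (1 + e⁻¹) * Vr W g g := by
  have h1 := h.vr_nonneg (e • f + -g)
  rw [h.vr_add, Vr_smul_smul, Vr_neg_neg, Vr_smul_left, Vr_neg_right] at h1
  have h2 : 2 * Vr W f g ≤ e * Vr W f f + e⁻¹ * Vr W g g := by
    have := mul_nonneg (inv_pos.2 he).le h1
    have e1 : e⁻¹ * (e ^ 2 * Vr W f f + 2 * (e * -Vr W f g) + Vr W g g) =
        e * Vr W f f + e⁻¹ * Vr W g g - 2 * Vr W f g := by field_simp; ring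
    linarith
  rw [h.vr_add]; linarith

theorem cp_ge {W : Cfg Pt → ℝ} (h : Cen W) (ξ : Pt → ℝ) :
    exp (-(2 * π ^ 2 * Vr W (pr ξ) (pr ξ))) ≤ Ex W (cp ξ 0) := by
  have := h.ph_ge ((2 * π) • pr ξ)
  rw [Vr_smul_smul] at this
  refine (le_of_eq ?_).trans (this.trans (le_of_eq ?_))
  · congr 1; ring
  · exact congrArg _ (funext fun s => by simp [cp])

theorem sup_shift {n : ℕ} {u : Pt → ℝ} (h : Pot.Sup (bl 0 n) u) (z : Pt) :
    Pot.Sup (bl z n) fun y => u (y - z) := fun y hy =>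
  h _ fun h' => hy (by simpa using (Ha91.add_mem_bl (z := z)).2 h')

theorem E0_shift (n : ℕ) (u : Pt → ℝ) (z : Pt) : E0 (bl z n) (fun y => u (y - z)) = E0 (bl 0 n) u := by
  simp only [E0, A0_shift, ← Ha91.sum_bl z, add_sub_cancel_left]

theorem num {t η g δ E Ce B V₁ V₂ : ℝ} (ht : 1 ≤ t) (hη : 0 < η) (hδ : δ ≤ η / (8 + 2 * η))
    (hg : |g - 2 / π| ≤ δ) (hCe : 0 ≤ Ce) (hE : E ≤ log t / (2 * π) + 2 * Ce) (h1 : V₁ ≤ g * E + 1)
    (h2 : V₂ ≤ B) :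
    exp (-(2 * π ^ 2 * ((1 + η / 4) * (4 * Ce + 1) + (1 + (η / 4)⁻¹) * B))) * t⁻¹ ^ (2 + η) ≤
      exp (-(2 * π ^ 2 * ((1 + η / 4) * V₁ + (1 + (η / 4)⁻¹) * V₂))) := by
  have p3 := pi_gt_three
  have p4 := pi_lt_four
  have l0 := log_nonneg ht
  have d1 : δ * (8 + 2 * η) ≤ η := (le_div_iff₀ (by positivity)).1 hδ
  have d0 : 0 ≤ δ := (abs_nonneg _).trans hg
  have d2 : δ ≤ 1 / 2 := by nlinarith
  have q1 : 1 / 2 ≤ 2 / π := by rw [div_le_div_iff₀ two_pos pi_pos]; linarith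
  have q2 : 2 / π ≤ 1 := by rw [div_le_one pi_pos]; linarith
  obtain ⟨g1, g2⟩ := abs_le.1 hg
  have g3 : π * g ≤ 2 + 4 * δ := by
    have : π * (2 / π) = 2 := by field_simp
    nlinarith
  have k1 : g * E ≤ g * (log t / (2 * π)) + 4 * Ce := by
    nlinarith [mul_le_mul_of_nonneg_left hE (by linarith : 0 ≤ g)]
  have k2 : 2 * π ^ 2 * ((1 + η / 4) * (g * (log t / (2 * π)))) ≤ log t * (2 + η) := by
    rw [show 2 * π ^ 2 * ((1 + η / 4) * (g * (log t / (2 * π)))) = log t * ((1 + η / 4) * (π * g)) by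
      field_simp]
    refine mul_le_mul_of_nonneg_left ?_ l0
    nlinarith [mul_le_mul_of_nonneg_left g3 (by positivity : 0 ≤ 1 + η / 4)]
  rw [rpow_def_of_pos (by positivity), log_inv, ← exp_add]
  refine exp_le_exp.2 ?_
  have k3 : (1 + η / 4) * V₁ + (1 + (η / 4)⁻¹) * V₂ ≤
      (1 + η / 4) * (g * (log t / (2 * π)) + (4 * Ce + 1)) + (1 + (η / 4)⁻¹) * B := by
    gcongr; linarith
  nlinarith [mul_le_mul_of_nonneg_left k3 (by positivity : 0 ≤ 2 * π ^ 2)]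

end Low84

open Low84 in
/-- LOW -/
theorem lowStmt (hG : SgStmt) (hC : ScStmt) : LowStmt := fun F θ₀ η h0 hη => by
  obtain ⟨C, C0, X1, X2, -⟩ := xfStmt
  obtain ⟨Ce, hCe, he⟩ := abs_er_le
  obtain ⟨Cx, hCx, hx⟩ := abs_xi_le
  set c₀ := exp (-(2 * π ^ 2 * ((1 + η / 4) * (4 * Ce + 1) + (1 + (η / 4)⁻¹) * (F.τ₂ * C))))
  have c0 : 0 < c₀ := exp_pos _
  refine ⟨c₀ / 4, by positivity, fun V hV => ?_⟩
  set K := V + 2 * Ce + 18 * Cx * V ^ 2
  have K1 : 1 ≤ K := hV.trans ((le_add_of_nonneg_right (by positivity)).trans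
    (le_add_of_nonneg_right (by positivity)))
  obtain ⟨δ₁, d1, hG⟩ := hG F θ₀ K 1 h0 K1 one_pos
  obtain ⟨δ₂, s, d2, hC⟩ := hC F θ₀ K (c₀ * V⁻¹ ^ (2 + η) / 2) h0 K1 (by positivity)
  refine ⟨min (min δ₁ δ₂) (η / (8 + 2 * η)), s + 3, by positivity, fun l => ?_⟩
  obtain ⟨r₁, hG⟩ := hG l
  obtain ⟨r₂, hC⟩ := hC l
  refine ⟨r₁ + r₂ + ⌈C⌉₊ + 1, fun Λ N hΛ hw ρ R z n m a1 a2 a3 a4 a5 a6 hm => ?_⟩
  push_cast at a1
  have b0 := Nat.le_ceil C
  have b1 : (0 : ℝ) ≤ r₁ := Nat.cast_nonneg _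
  have b2 : (0 : ℝ) ≤ r₂ := Nat.cast_nonneg _
  have ρ1 : 1 ≤ ρ := by linarith
  have ρ0 : 0 < ρ := by linarith
  have R0 : 0 < R := by linarith
  obtain ⟨k, k1, k2⟩ : ∃ k : ℕ, 2 * R ≤ k ∧ (k : ℝ) ≤ 2 * R + 1 :=
    ⟨⌈2 * R⌉₊, Nat.le_ceil _, (Nat.ceil_lt_add_one (by linarith)).le⟩
  have s1 : (1 : ℝ) ≤ 2 ^ s := one_le_pow₀ one_le_two
  rw [pow_add] at a5
  have n1 : 8 * R ≤ n := by nlinarith
  have n2 : 2 ^ s * k ≤ n := by
    have : (2 : ℝ) ^ s * k ≤ n := by nlinarith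
    exact_mod_cast this
  have n3 : k + 1 + rad z ≤ n := by
    have : (k : ℝ) + 1 + rad z ≤ n := by linarith [rad_le_eu z]
    exact_mod_cast this
  have cen : Cen (m.W 0) := hm.ctr.cen hm.anch
  have xb : ∀ x y, |xi ρ x| + |xi R y| ≤ K / (k : ℝ) ^ 2 := fun x y => by
    have h1 : Cx / R ^ 2 ≤ Cx / ρ ^ 2 := by gcongr; linarith
    have h2 : Cx / ρ ^ 2 ≤ 9 * Cx * V ^ 2 / (k : ℝ) ^ 2 := by
      rw [div_le_div_iff₀ (by positivity) (by nlinarith),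
        show 9 * Cx * V ^ 2 * ρ ^ 2 = Cx * (3 * (V * ρ)) ^ 2 by ring]
      gcongr; linarith
    calc _ ≤ 9 * Cx * V ^ 2 / (k : ℝ) ^ 2 + 9 * Cx * V ^ 2 / (k : ℝ) ^ 2 :=
          add_le_add ((hx ρ ρ1 x).trans h2) ((hx R (by linarith) y).trans (h1.trans h2))
      _ = 18 * Cx * V ^ 2 / (k : ℝ) ^ 2 := by ring
      _ ≤ _ := by gcongr; exact le_add_of_nonneg_left (by positivity)
  -- the neutral part
  have eE := (X2 V ρ R k 1 hV (by linarith) a3 (by linarith) k1 le_rfl (by simpa using ρ1)).1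
  have t1 : 1 ≤ R / ρ := (one_le_div ρ0).2 (by linarith)
  have hE : E0 (bl 0 k) (Phi ρ - Phi R) ≤ log (R / ρ) / (2 * π) + 2 * Ce := by
    linarith [(abs_le.1 (he ρ ρ1)).1, (abs_le.1 (he R (by linarith))).1]
  have hA : A0 (fun y => (Phi ρ - Phi R) (y - z)) = fun x => xi ρ (x - z) - xi R (x - z) :=
    funext fun x => by rw [A0_shift, ← xi_sub]; rfl
  have v1 := (abs_le.1 (hG Λ N hΛ (hw.1.mono_d ((min_le_left _ _).trans (min_le_left _ _))) z k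
    (fun y => (Phi ρ - Phi R) (y - z)) m (by exact_mod_cast (by linarith : (r₁ : ℝ) ≤ k))
    (by omega) (sup_shift ((sup_Phi ρ0 (by linarith)).sub (sup_Phi R0 (by linarith))) z)
    (fun x => by rw [hA]; exact (abs_sub _ _).trans (xb _ _)) (by
      rw [E0_shift]
      have h1 : log (R / ρ) ≤ V := (log_le_self (by linarith)).trans ((div_le_iff₀ ρ0).2 a3)
      have h2 := div_le_self (log_nonneg t1) (by linarith [pi_gt_three] : 1 ≤ 2 * π)
      have : 0 ≤ 18 * Cx * V ^ 2 := by positivity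
      simp only [K]; linarith)
    (Nc.Geo.amb_mono hm (bl_subset_bl (mem_bl_rad z) n3))).1.1).2
  rw [E0_shift, hA, sub_le_iff_le_add'] at v1
  have v2 := (B80.vr_le_of_f2 hΛ.ok hm (X1 1 R R R z n (by linarith) (by linarith) le_rfl le_rfl a4
    (by linarith) (by linarith) n1)).1
  rw [log_one, add_zero, mul_one] at v2
  have q1 := num t1 hη (min_le_right _ _) hw.2 hCe hE v1 (v2.trans (mul_le_mul_of_nonneg_right hΛ.2.2.2 C0))
  have q2 := cp_ge cen ((fun y => xi ρ (y - z)) - xi R)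
  have q3 := vr_add_le cen (pr fun x => xi ρ (x - z) - xi R (x - z)) (pr ((fun y => xi R (y - z)) - xi R))
    (by positivity : 0 < η / 4)
  rw [← pr_add, show (fun x => xi ρ (x - z) - xi R (x - z)) + ((fun y => xi R (y - z)) - xi R) =
    (fun y => xi ρ (y - z)) - xi R from funext fun x => by simp] at q3
  have q4 : c₀ * (R / ρ)⁻¹ ^ (2 + η) ≤ _ :=
    q1.trans ((exp_le_exp.2 (neg_le_neg (mul_le_mul_of_nonneg_left q3 (by positivity)))).trans q2)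
  rw [inv_div] at q4
  -- the charged part
  obtain ⟨-, u1, u2⟩ := Xf91.shifted ρ0 (z := z) (m := k) (by linarith)
  have q5 := (abs_le.1 (hC Λ N hΛ (hw.1.mono_d ((min_le_left _ _).trans (min_le_right _ _))) 0 k n
    ((fun y => xi ρ (y - z)) + xi R) (1 + 1) (-(π / 2) + -(π / 2)) m
    (by exact_mod_cast (by linarith : (r₂ : ℝ) ≤ k)) n2 a6 (by norm_num)
    (Chq.add ⟨u1, by simpa using u2⟩ (chq_xi R0 k1)) (fun x => (abs_add_le _ _).trans (xb _ _)) hm)).1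
  have q6 : V⁻¹ ^ (2 + η) ≤ (ρ / R) ^ (2 + η) := by
    refine rpow_le_rpow (by positivity) ?_ (by positivity)
    rw [inv_eq_one_div, div_le_div_iff₀ (by linarith) R0]; linarith
  simp only [trl_Sn, Sn_eq R, cp_mul, sub_self]
  rw [Ex_div_const, Ex_add (cen.wt.ig_bdd (abs_cp_le _ _)) (cen.wt.ig_bdd (abs_cp_le _ _))]
  linarith [mul_le_mul_of_nonneg_left q6 c0.le]

end Crest.Agent.T145.Fl
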