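import Mathlib

/-!
# Row 145, odd flow: the real analysis of MAJ0 and ENT (helper65)
-/

set_option autoImplicit false

namespace Crest.Agent.T145.Fl.E65

open Filter Topology

theorem exists_scale {W s a : ℕ} (hW : 2 ≤ W) (hs : 1 ≤ s) (ha : s ≤ a) :
    ∃ j, W ^ j * s ≤ a ∧ a < W ^ (j + 1) * s := by
  refine ⟨Nat.log W (a / s), ?_, ?_⟩
  · exact (Nat.le_div_iff_mul_le hs).1
      (Nat.pow_log_le_self W (Nat.div_pos ha hs).ne')
  · exact (Nat.div_lt_iff_lt_mul hs).1 (Nat.lt_pow_succ_log_self hW _)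

theorem one_le_max {a R : ℝ} (ha : 0 < a) (hR : 0 < R) : 1 ≤ max (a / R) (R / a) := by
  rcases le_total a R with h | h
  · exact le_max_of_le_right ((one_le_div ha).2 h)
  · exact le_max_of_le_left ((one_le_div hR).2 h)

/-- the norm of `J` as a function of the radius -/
structure Nu (w W r₀ s L : ℕ) (e C₀ : ℝ) (ν : ℕ → ℝ) : Prop where
  W2 : 2 ≤ W
  r1 : 1 ≤ r₀
  rs : r₀ ≤ s
  e0 : 0 < e
  e1 : e ≤ 1
  nn : ∀ a, 0 ≤ ν a
  mono : ∀ a a', r₀ ≤ a → a ≤ a' → w * a' ≤ L → ν a' ≤ 2 * ν a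
  ks : ∀ r, s ≤ r → w * (W * r) ≤ L →
    ((W * r : ℕ) : ℝ) ^ 2 * ν (W * r) ≤ (W : ℝ) ^ e * ((r : ℝ) ^ 2 * ν r)
  bare : ν r₀ ≤ C₀

/-- `a² ν a` at the geometric scales -/
noncomputable def bb (W s : ℕ) (ν : ℕ → ℝ) (j : ℕ) : ℝ := ((W ^ j * s : ℕ) : ℝ) ^ 2 * ν (W ^ j * s)

namespace Nu
variable {w W r₀ s L : ℕ} {e C₀ : ℝ} {ν : ℕ → ℝ} (h : Nu w W r₀ s L e C₀ ν)
include h

theorem W1 : (1 : ℝ) ≤ W := by exact_mod_cast (by have := h.W2; omega : 1 ≤ W)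

theorem q1 : 1 ≤ (W : ℝ) ^ e := Real.one_le_rpow h.W1 h.e0.le

theorem C0 : 0 ≤ C₀ := (h.nn _).trans h.bare

theorem le_sc (j : ℕ) : s ≤ W ^ j * s :=
  Nat.le_mul_of_pos_left _ (pow_pos (by have := h.W2; omega) _)

theorem sc_mono {i j : ℕ} (hij : i ≤ j) : W ^ i * s ≤ W ^ j * s :=
  Nat.mul_le_mul_right _ (Nat.pow_le_pow_right (by have := h.W2; omega) hij)

theorem bb_nonneg (j : ℕ) : 0 ≤ bb W s ν j := mul_nonneg (sq_nonneg _) (h.nn _)

theorem crude {a n : ℕ} (ha : r₀ ≤ a) (hL : w * a ≤ L) (hn : a ≤ n) :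
    (a : ℝ) ^ 2 * ν a ≤ (n : ℝ) ^ 2 * (2 * C₀) := by
  have h1 := h.mono r₀ a le_rfl ha hL
  have h2 : (a : ℝ) ≤ n := by exact_mod_cast hn
  have := h.bare
  have := h.nn a
  gcongr
  linarith

theorem between {t a : ℕ} (hs : r₀ ≤ t) (h1 : t ≤ a) (h2 : a ≤ W * t) (hL : w * a ≤ L) :
    (a : ℝ) ^ 2 * ν a ≤ 2 * (W : ℝ) ^ 2 * ((t : ℝ) ^ 2 * ν t) := by
  have h3 := h.mono t a hs h1 hL
  have h4 : (a : ℝ) ≤ W * t := by exact_mod_cast h2
  calc (a : ℝ) ^ 2 * ν a ≤ (W * t : ℝ) ^ 2 * (2 * ν t) := by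
        have := h.nn a
        gcongr
    _ = _ := by ring

theorem bb_succ {j : ℕ} (hL : w * (W ^ (j + 1) * s) ≤ L) :
    bb W s ν (j + 1) ≤ (W : ℝ) ^ e * bb W s ν j := by
  have e1 : W ^ (j + 1) * s = W * (W ^ j * s) := by ring
  rw [bb, bb, e1]
  exact h.ks _ (h.le_sc j) (e1 ▸ hL)

theorem bb_add (k m : ℕ) (hL : w * (W ^ (k + m) * s) ≤ L) :
    bb W s ν (k + m) ≤ ((W : ℝ) ^ e) ^ m * bb W s ν k := by
  induction m with
  | zero => simp
  | succ m ih =>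
    have h1 := h.bb_succ (j := k + m) hL
    have h2 := ih ((Nat.mul_le_mul_left _ (h.sc_mono (by omega))).trans hL)
    have h3 := mul_le_mul_of_nonneg_left h2 (zero_le_one.trans h.q1)
    rw [← add_assoc, pow_succ']
    linarith

theorem q_pow {m : ℕ} {M : ℝ} (hM : 1 ≤ M) (hm : (W : ℝ) ^ m ≤ W * M) :
    ((W : ℝ) ^ e) ^ m ≤ W * M ^ e := by
  have hW := h.W1
  rw [← Real.rpow_natCast, ← Real.rpow_mul (by linarith), mul_comm e, Real.rpow_mul (by linarith),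
    Real.rpow_natCast]
  calc ((W : ℝ) ^ m) ^ e ≤ (W * M) ^ e := Real.rpow_le_rpow (by positivity) hm h.e0.le
    _ = (W : ℝ) ^ e * M ^ e := Real.mul_rpow (by linarith) (by linarith)
    _ ≤ W * M ^ e := by
      gcongr
      simpa using Real.rpow_le_rpow_of_exponent_le hW h.e1

/-- from the geometric scales below `k` to the whole profile -/
theorem prof {k : ℕ} {Y : ℝ}
    (hP : ∀ j ≤ k, bb W s ν j * ((W : ℝ) ^ e) ^ j ≤ Y * ((W : ℝ) ^ e) ^ k)
    (hB : (s : ℝ) ^ 2 * (2 * C₀) ≤ Y * ((W : ℝ) ^ e) ^ k) {R : ℝ} (hR : R = 2 * ((W : ℝ) ^ k * s)) (a : ℕ) (ha : r₀ ≤ a) (hL : w * a ≤ L) :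
    (a : ℝ) ^ 2 * ν a ≤ 2 * (W : ℝ) ^ 3 * Y * max (a / R) (R / a) ^ e := by
  have hW := h.W1
  have hW2 : (2 : ℝ) ≤ W := by exact_mod_cast h.W2
  have hq := h.q1
  have hr : (1 : ℝ) ≤ s := by exact_mod_cast h.r1.trans h.rs
  have ha0 : (0 : ℝ) < a := by exact_mod_cast h.r1.trans ha
  have hr₀ : 0 < R := by rw [hR]; positivity
  have hM := one_le_max ha0 hr₀
  set M := max (a / R) (R / a) with hMd
  have hk := hP k le_rfl
  have hk' : bb W s ν k ≤ Y := le_of_mul_le_mul_right hk (by positivity)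
  have hY : 0 ≤ Y := (h.bb_nonneg k).trans hk'
  rcases le_total a s with has | has
  · have has' : (a : ℝ) ≤ s := by exact_mod_cast has
    refine (h.crude ha hL has).trans (hB.trans ?_)
    have h1 : ((W : ℝ) ^ e) ^ k ≤ W * M ^ e := by
      refine h.q_pow hM (le_trans ?_ (mul_le_mul_of_nonneg_left (le_max_right _ _) (by linarith)))
      rw [← mul_div_assoc, le_div_iff₀ ha0, hR]
      calc (W : ℝ) ^ k * a ≤ 1 * (1 * ((W : ℝ) ^ k * s)) := by rw [one_mul, one_mul]; gcongr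
        _ ≤ _ := by gcongr; norm_num
    calc Y * ((W : ℝ) ^ e) ^ k ≤ Y * (W * M ^ e) := by gcongr
      _ = 1 * (W * Y * M ^ e) := by ring
      _ ≤ 2 * (W : ℝ) ^ 2 * (W * Y * M ^ e) := by gcongr; nlinarith
      _ = _ := by ring
  obtain ⟨j, h1, h2⟩ := exists_scale h.W2 (h.r1.trans h.rs) has
  have h3 := h.between (h.rs.trans (h.le_sc j)) h1 (by rw [← mul_assoc, ← pow_succ']; exact h2.le) hL
  have h1' : (W : ℝ) ^ j * s ≤ a := by exact_mod_cast h1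
  have h2' : (a : ℝ) ≤ (W : ℝ) ^ (j + 1) * s := by exact_mod_cast h2.le
  have key : bb W s ν j ≤ Y * (W * M ^ e) := by
    rcases le_total j k with hjk | hjk
    · obtain ⟨m, rfl⟩ := Nat.exists_eq_add_of_le hjk
      have h4 := hP j hjk
      rw [pow_add, mul_comm (((W : ℝ) ^ e) ^ j), ← mul_assoc] at h4
      refine (le_of_mul_le_mul_right h4 (by positivity)).trans
        (mul_le_mul_of_nonneg_left (h.q_pow hM ?_) hY)
      refine le_trans ?_ (mul_le_mul_of_nonneg_left (le_max_right _ _) (by linarith))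
      rw [← mul_div_assoc, le_div_iff₀ ha0, hR]
      calc (W : ℝ) ^ m * a ≤ (W : ℝ) ^ m * ((W : ℝ) ^ (j + 1) * s) := by gcongr
        _ = W * (1 * ((W : ℝ) ^ (j + m) * s)) := by ring
        _ ≤ _ := by gcongr; norm_num
    · obtain ⟨m, rfl⟩ := Nat.exists_eq_add_of_le hjk
      have h4 := h.bb_add k m ((Nat.mul_le_mul_left _ h1).trans hL)
      refine h4.trans ?_
      rw [mul_comm]
      refine mul_le_mul hk' (h.q_pow hM ?_) (by positivity) hY
      refine le_trans ?_ (mul_le_mul_of_nonneg_left (le_max_left _ _) (by linarith))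
      rw [← mul_div_assoc, le_div_iff₀ hr₀, hR]
      calc (W : ℝ) ^ m * (2 * ((W : ℝ) ^ k * s)) = 2 * ((W : ℝ) ^ (k + m) * s) := by ring
        _ ≤ W * a := by gcongr
  calc (a : ℝ) ^ 2 * ν a ≤ 2 * (W : ℝ) ^ 2 * bb W s ν j := h3
    _ ≤ 2 * (W : ℝ) ^ 2 * (Y * (W * M ^ e)) := by gcongr
    _ = _ := by ring

end Nu

/-- MAJ0 -/
theorem maj0 {W s : ℕ} {e : ℝ} (hW : 2 ≤ W) (hs1 : 1 ≤ s) (he : 0 < e) (C₀ : ℝ) {y : ℝ} (hy : 0 < y) :
    ∃ R₀ : ℝ, ∀ (w r₀ L : ℕ) (ν : ℕ → ℝ), Nu w W r₀ s L e C₀ ν →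
      (∀ r : ℕ, s ≤ r → w * (W * r) ≤ L →
        ((W * r : ℕ) : ℝ) ^ 2 * ν (W * r) ≤ y / (8 * (W : ℝ) ^ 2) + (r : ℝ) ^ 2 * ν r / 2) →
      ∀ R : ℝ, R₀ ≤ R → 1 ≤ R ∧ R ^ (-e) ≤ y ∧ ∀ a : ℕ, r₀ ≤ a → w * a ≤ L →
        (a : ℝ) ^ 2 * ν a ≤ y * max (a / R) (R / a) ^ e := by
  have hW1 : (1 : ℝ) ≤ W := by exact_mod_cast (by omega : 1 ≤ W)
  obtain ⟨j₀, hj₀⟩ : ∃ j₀ : ℕ, 2 * (W : ℝ) ^ 2 * ((s : ℝ) ^ 2 * (2 * C₀)) * (1 / 2) ^ j₀ ≤ y / 2 := by
    have := (tendsto_pow_atTop_nhds_zero_of_lt_one (r := (1 / 2 : ℝ)) (by norm_num)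
      (by norm_num)).const_mul (2 * (W : ℝ) ^ 2 * ((s : ℝ) ^ 2 * (2 * C₀)))
    rw [mul_zero] at this
    exact (this.eventually (ge_mem_nhds (half_pos hy))).exists
  set n := W ^ j₀ * s with hn
  have hn0 : (0 : ℝ) < n := by
    have : 0 < n := Nat.mul_pos (pow_pos (by omega) _) hs1
    exact_mod_cast this
  have t1 : ∀ᶠ R : ℝ in atTop, R ^ (-e) ≤ y :=
    (tendsto_rpow_neg_atTop he).eventually (ge_mem_nhds hy)
  have t2 : ∀ᶠ R : ℝ in atTop, (n : ℝ) ^ 2 * (2 * C₀) / y ≤ (R / n) ^ e :=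
    ((tendsto_rpow_atTop he).comp (tendsto_id.atTop_div_const hn0)).eventually_ge_atTop _
  obtain ⟨R₀, hR₀⟩ := eventually_atTop.1 ((eventually_ge_atTop (1 : ℝ)).and (t1.and t2))
  refine ⟨R₀, fun w r₀ L ν h hS R hR => ⟨(hR₀ R hR).1, (hR₀ R hR).2.1, fun a ha hL => ?_⟩⟩
  obtain ⟨hR1, -, hR2⟩ := hR₀ R hR
  have ha0 : (0 : ℝ) < a := by exact_mod_cast h.r1.trans ha
  have hM := one_le_max ha0 (by linarith : 0 < R)
  rcases le_total a n with han | han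
  · refine (h.crude ha hL han).trans ?_
    rw [div_le_iff₀' hy] at hR2
    refine hR2.trans (mul_le_mul_of_nonneg_left (Real.rpow_le_rpow (by positivity) ?_ he.le) hy.le)
    refine le_trans ?_ (le_max_right _ _)
    have : (a : ℝ) ≤ n := by exact_mod_cast han
    gcongr
  · have hsj : ∀ j, s ≤ W ^ j * s := fun j => Nat.le_mul_of_pos_left _ (pow_pos (by omega) _)
    have dec : ∀ j, w * (W ^ j * s) ≤ L → ((W ^ j * s : ℕ) : ℝ) ^ 2 * ν (W ^ j * s) ≤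
        y / (4 * (W : ℝ) ^ 2) + (s : ℝ) ^ 2 * (2 * C₀) * (1 / 2) ^ j := by
      intro j
      induction j with
      | zero =>
        intro hL
        simp only [pow_zero, one_mul, mul_one] at hL ⊢
        have := h.crude h.rs hL le_rfl
        have : 0 ≤ y / (4 * (W : ℝ) ^ 2) := by positivity
        linarith
      | succ j ih =>
        intro hL
        have e1 : W ^ (j + 1) * s = W * (W ^ j * s) := by ring
        rw [e1] at hL ⊢
        have h1 := hS _ (hsj j) hL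
        have h2 := ih ((Nat.mul_le_mul_left _ (Nat.le_mul_of_pos_left _ (by omega))).trans hL)
        have e2 : y / (4 * (W : ℝ) ^ 2) = 2 * (y / (8 * (W : ℝ) ^ 2)) := by field_simp; ring
        rw [pow_succ (1 / 2 : ℝ) j]
        linarith
    obtain ⟨j, h1, h2⟩ := exists_scale hW hs1 ((hsj j₀).trans han)
    have hj : j₀ ≤ j := by
      by_contra hc
      have : W ^ (j + 1) * s ≤ n := Nat.mul_le_mul_right _ (Nat.pow_le_pow_right (by omega) (by omega))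
      omega
    have h3 := h.between (h.rs.trans (hsj j)) h1
      (by rw [← mul_assoc, ← pow_succ']; exact h2.le) hL
    have h4 := dec j ((Nat.mul_le_mul_left _ h1).trans hL)
    have h5 : ((1 / 2 : ℝ)) ^ j ≤ (1 / 2) ^ j₀ := pow_le_pow_of_le_one (by norm_num) (by norm_num) hj
    have hC := h.C0
    have h6 : 2 * (W : ℝ) ^ 2 * ((s : ℝ) ^ 2 * (2 * C₀)) * (1 / 2) ^ j ≤ y / 2 :=
      le_trans (by gcongr) hj₀
    have h7 : (a : ℝ) ^ 2 * ν a ≤ y := by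
      refine h3.trans ((mul_le_mul_of_nonneg_left h4 (by positivity)).trans ?_)
      have e2 : 2 * (W : ℝ) ^ 2 * (y / (4 * (W : ℝ) ^ 2)) = y / 2 := by field_simp; ring
      rw [mul_add, e2]
      linarith
    exact h7.trans (le_mul_of_one_le_right hy.le (Real.one_le_rpow hM he.le))

/-- outside the cone all the time, or inside from some moment on -/
theorem dich {b l : ℕ → ℝ} {q G B : ℝ} {c : ℕ → Prop} {k₂ k : ℕ} (hk : k₂ ≤ k) (hq : 1 ≤ q) (hG : 0 ≤ G)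
    (hl : ∀ j, 0 ≤ l j) (hB : ∀ j ≤ k₂, b j ≤ B) (hB0 : 0 ≤ B)
    (out : ∀ j < k, ¬ c j → b (j + 1) * q ≤ b j)
    (cone : ∀ j, j + 1 < k → c j → c (j + 1) ∧ l (j + 1) ≤ q * l (j + 2))
    (hc : ∀ j < k, c j → b j ≤ G * l (j + 1)) (ks : ∀ j < k, b (j + 1) ≤ q * b j) :
    (∀ j ≤ k₂, b j * q ^ j ≤ b 0) ∨ ∀ j ≤ k, b j * q ^ j ≤ G * q * l k * q ^ k + B * q ^ k₂ := by
  have hq0 : 0 < q := by linarith
  by_cases h : ∀ j < k₂, ¬ c j
  · left
    intro j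
    induction j with
    | zero => intro _; simp
    | succ j ih =>
      intro hj
      have h1 := out j (by omega) (h j (by omega))
      have h2 := mul_le_mul_of_nonneg_right h1 (pow_pos hq0 j).le
      rw [pow_succ']
      linarith [ih (by omega)]
  · right
    push Not at h
    obtain ⟨j₀, hj₀, hc₀⟩ := h
    have c1 : ∀ m, j₀ + m < k → c (j₀ + m) := by
      intro m
      induction m with
      | zero => exact fun _ => hc₀
      | succ m ih => exact fun hm => (cone (j₀ + m) hm (ih (by omega))).1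
    have c2 : ∀ j, j₀ ≤ j → j < k → c j := fun j h1 h2 => by
      obtain ⟨m, rfl⟩ := Nat.exists_eq_add_of_le h1
      exact c1 m h2
    have c3 : ∀ m j, j₀ ≤ j → j + 1 + m = k → l (j + 1) * q ^ (j + 1) ≤ l k * q ^ k := by
      intro m
      induction m with
      | zero => intro j _ e; rw [← e]
      | succ m ih =>
        intro j hj e
        have h1 := (cone j (by omega) (c2 j hj (by omega))).2
        have h2 := ih (j + 1) (by omega) (by omega)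
        have h3 := mul_le_mul_of_nonneg_right h1 (pow_pos hq0 (j + 1)).le
        rw [pow_succ' q (j + 1)] at h2
        linarith
    have c4 : ∀ j, j₀ ≤ j → j < k → b j * q ^ (j + 1) ≤ G * (l k * q ^ k) := fun j h1 h2 => by
      have h3 := c3 (k - (j + 1)) j h1 (by omega)
      have h4 := mul_le_mul_of_nonneg_right (hc j h2 (c2 j h1 h2)) (pow_pos hq0 (j + 1)).le
      have h5 := mul_le_mul_of_nonneg_left h3 hG
      linarith
    have p0 : 0 ≤ G * (l k * q ^ k) := by have := hl k; positivity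
    have p1 : G * (l k * q ^ k) ≤ G * q * l k * q ^ k := by nlinarith
    have p2 : 0 ≤ B * q ^ k₂ := by positivity
    intro j hj
    rcases lt_or_ge j j₀ with h1 | h1
    · have h2 : b j * q ^ j ≤ B * q ^ k₂ :=
        mul_le_mul (hB j (by omega)) (pow_le_pow_right₀ hq (by omega)) (by positivity) hB0
      linarith
    · rcases hj.lt_or_eq with h2 | rfl
      · have h3 := c4 j h1 h2
        rcases le_total 0 (b j) with h4 | h4
        · have : b j * q ^ j ≤ b j * q ^ (j + 1) :=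
            mul_le_mul_of_nonneg_left (pow_le_pow_right₀ hq (by omega)) h4
          linarith
        · have : b j * q ^ j ≤ 0 := mul_nonpos_of_nonpos_of_nonneg h4 (by positivity)
          linarith
      · obtain ⟨i, rfl⟩ : ∃ i, j = i + 1 := ⟨j - 1, by omega⟩
        have h3 := c4 i (by omega) (by omega)
        have h4 := mul_le_mul_of_nonneg_right (ks i (by omega)) (pow_pos hq0 (i + 1)).le
        have h5 := mul_le_mul_of_nonneg_left h3 hq0.le
        nlinarith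

/-- `q^(-k)` is eventually much smaller than `R_k^(-e/2)` -/
theorem ev_small {W r e c A : ℝ} (hW : 1 < W) (hr : 1 ≤ r) (he : 0 < e) (hc : 0 < c) :
    ∀ᶠ k : ℕ in atTop, A / (W ^ e) ^ k ≤ 1 / 2 ∧
      A / (W ^ e) ^ k ≤ c / 2 * (2 * (W ^ k * r)) ^ (-e / 2) := by
  have hW0 : 0 < W := by linarith
  have t : Tendsto (fun k : ℕ => (W ^ k) ^ (-(e / 2))) atTop (𝓝 0) :=
    (tendsto_rpow_neg_atTop (half_pos he)).comp (tendsto_pow_atTop_atTop_of_one_lt hW)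
  have e1 : ∀ k : ℕ, A / (W ^ e) ^ k = A * (W ^ k) ^ (-(e / 2)) * (W ^ k) ^ (-(e / 2)) := fun k => by
    rw [mul_assoc, ← Real.rpow_add (by positivity), ← Real.rpow_natCast (W ^ e),
      ← Real.rpow_mul hW0.le, mul_comm e, Real.rpow_mul hW0.le, Real.rpow_natCast,
      show -(e / 2) + -(e / 2) = -e by ring, Real.rpow_neg (by positivity), div_eq_mul_inv]
  have e2 : ∀ k : ℕ, (2 * (W ^ k * r)) ^ (-e / 2) = (2 * r) ^ (-(e / 2)) * (W ^ k) ^ (-(e / 2)) :=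
    fun k => by
      rw [← Real.mul_rpow (by positivity) (by positivity), neg_div]
      congr 1; ring
  have t1 := (t.const_mul A).mul t
  have t2 := t.const_mul A
  rw [mul_zero] at t1 t2
  have p : 0 < c / 2 * (2 * r) ^ (-(e / 2)) := by positivity
  filter_upwards [t1.eventually (ge_mem_nhds (show (0 : ℝ) < 1 / 2 by norm_num)),
    t2.eventually (ge_mem_nhds p)] with k h1 h2
  rw [e1, e2, ← mul_assoc]
  exact ⟨h1, mul_le_mul_of_nonneg_right h2 (by positivity)⟩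

theorem R_pow {W r e : ℝ} (hW : 1 ≤ W) (hr : 1 ≤ r) (he : 0 < e) (k : ℕ) :
    (2 * (W ^ k * r)) ^ (-e) ≤ 1 / (W ^ e) ^ k := by
  have hW0 : 0 < W := by linarith
  rw [← Real.rpow_natCast (W ^ e), ← Real.rpow_mul hW0.le, mul_comm e, Real.rpow_mul hW0.le,
    Real.rpow_natCast, Real.rpow_neg (by positivity), one_div]
  refine inv_anti₀ (by positivity) (Real.rpow_le_rpow (by positivity) ?_ he.le)
  have : 0 < W ^ k := by positivity
  nlinarith

/-- the size of `W` -/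
theorem ev_W {e : ℝ} (he : 0 < e) (he' : e ≤ 1 / 1000) : ∀ᶠ W : ℕ in atTop,
    2 ≤ W ∧ 2 ≤ (W : ℝ) ^ (e / 10) ∧ 1024 * ((W : ℝ) ^ (e / 10)) ^ 12 ≤ √W := by
  have t := tendsto_natCast_atTop_atTop (R := ℝ)
  filter_upwards [eventually_ge_atTop 2,
    ((tendsto_rpow_atTop (by positivity : 0 < e / 10)).comp t).eventually_ge_atTop 2,
    ((tendsto_rpow_atTop (by norm_num : (0 : ℝ) < 1 / 4)).comp t).eventually_ge_atTop 1024] with W h1 h2 h3
  refine ⟨h1, h2, ?_⟩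
  have hW : (1 : ℝ) ≤ W := by exact_mod_cast (by omega : 1 ≤ W)
  have h4 : ((W : ℝ) ^ (e / 10)) ^ 12 ≤ (W : ℝ) ^ (1 / 4 : ℝ) := by
    rw [← Real.rpow_natCast, ← Real.rpow_mul (by linarith)]
    exact Real.rpow_le_rpow_of_exponent_le hW (by push_cast; linarith)
  have h5 : √W = (W : ℝ) ^ (1 / 4 : ℝ) * (W : ℝ) ^ (1 / 4 : ℝ) := by
    rw [← Real.rpow_add (by linarith), Real.sqrt_eq_rpow]; norm_num
  rw [h5]
  exact mul_le_mul h3 h4 (by positivity) (by positivity)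

theorem rp_add {W : ℝ} (hW : 0 < W) (n : ℕ) (δ : ℝ) : W ^ (-(n : ℝ) + δ) = W ^ δ / √W ^ (2 * n) := by
  rw [pow_mul, Real.sq_sqrt hW.le, Real.rpow_add hW, Real.rpow_neg hW.le, Real.rpow_natCast]
  ring

theorem rp_sub {W : ℝ} (hW : 0 < W) (n : ℕ) (δ : ℝ) :
    W ^ (-(n : ℝ) - δ) = 1 / (W ^ δ * √W ^ (2 * n)) := by
  rw [pow_mul, Real.sq_sqrt hW.le, Real.rpow_sub hW, Real.rpow_neg hW.le, Real.rpow_natCast]
  field_simp

theorem num {x t : ℝ} (hx : 2 ≤ x) (h : 1024 * x ^ 12 ≤ t) :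
    t ^ 5 * 16 * (x / t ^ 6) ≤ 1 / 2 ∧
    4 * t ^ 5 * 16 ^ 2 * (x / t ^ 4) ^ 2 * (x / t ^ 6) ≤ 1 / (x * t ^ 8) ∧
    4 * (x / t ^ 4) ≤ t ^ 5 * (1 / (x * t ^ 8)) ∧ 1 ≤ t ^ 5 * (1 / (x * t ^ 4)) ∧
    3 * (x / t ^ 4) + 2 * t ^ 5 * (1 / (x * t ^ 4)) * (x / t ^ 6) ≤
      2 * t ^ 5 * (1 / (x * t ^ 4)) * (1 / (x ^ 10 * t ^ 4)) ∧
    1 ≤ x ^ 10 * t ^ 4 * (1 / (x * t ^ 8) / (4 * 16 * (x / t ^ 4))) := by
  have hx1 : 1 ≤ x := by linarith
  have hx0 : 0 < x := by linarith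
  have p : ∀ n ≤ 12, x ^ n ≤ x ^ 12 := fun n hn => pow_le_pow_right₀ hx1 hn
  have p0 := p 0 (by norm_num)
  have p1 := p 1 (by norm_num)
  have p2 := p 2 (by norm_num)
  have p4 := p 4 (by norm_num)
  have p11 := p 11 (by norm_num)
  rw [pow_zero] at p0
  rw [pow_one] at p1
  have ht : 0 < t := by linarith
  refine ⟨?_, ?_, ?_, ?_, ?_, ?_⟩
  · rw [show t ^ 5 * 16 * (x / t ^ 6) = 16 * x / t by field_simp, div_le_iff₀ ht]; linarith
  · rw [show 4 * t ^ 5 * 16 ^ 2 * (x / t ^ 4) ^ 2 * (x / t ^ 6) = 1024 * x ^ 4 / t * (1 / (x * t ^ 8)) by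
      field_simp; norm_num]
    exact mul_le_of_le_one_left (by positivity) ((div_le_one ht).2 (by linarith))
  · rw [show 4 * (x / t ^ 4) = 4 * x ^ 2 / t * (t ^ 5 * (1 / (x * t ^ 8))) by field_simp]
    exact mul_le_of_le_one_left (by positivity) ((div_le_one ht).2 (by linarith))
  · rw [show t ^ 5 * (1 / (x * t ^ 4)) = t / x by field_simp, one_le_div hx0]; linarith
  · rw [show 3 * (x / t ^ 4) + 2 * t ^ 5 * (1 / (x * t ^ 4)) * (x / t ^ 6) =
      (3 * x ^ 12 * t + 2 * x ^ 11) / (x ^ 11 * t ^ 5) by field_simp,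
      show 2 * t ^ 5 * (1 / (x * t ^ 4)) * (1 / (x ^ 10 * t ^ 4)) = 2 * t ^ 2 / (x ^ 11 * t ^ 5) by field_simp]
    refine div_le_div_of_nonneg_right ?_ (by positivity)
    nlinarith
  · rw [show x ^ 10 * t ^ 4 * (1 / (x * t ^ 8) / (4 * 16 * (x / t ^ 4))) = x ^ 8 / 64 by field_simp; norm_num,
      one_le_div (by norm_num)]
    have := pow_le_pow_left₀ (by norm_num) hx 8
    linarith

end Crest.Agent.T145.Fl.E65
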