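import Crest.Agent.T145.FlBas_4
import Crest.Agent.T145.FlRate_98
import Crest.Agent.T145.FlPur_64
import Crest.Agent.T145.FlEntA_65

/-!
# Row 145, odd flow: MAJ0 and the entrance into the cone (`EntStmt`) (helper65)
-/

set_option autoImplicit false

namespace Crest.Agent.T145.Fl

open Finset Pot Xi Real Filter

namespace E65

/-- odd invariant insertions of radius `r` -/
def Cs (r : ℕ) : Submodule ℝ (Cfg Pt → ℝ) where
  carrier := {F | Ins 0 r F ∧ OddF F ∧ D4 0 F}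
  add_mem' := fun ha hb => ⟨ha.1.add hb.1, ha.2.1.add hb.2.1, ha.2.2.add hb.2.2⟩
  zero_mem' := ⟨Ins.const _ _ 0, fun _ => by simp, D4.const _ 0⟩
  smul_mem' := fun c _ h => ⟨h.1.smul c, h.2.1.smul c, h.2.2.smul c⟩

variable {p : Par} {Λ : Lat} {ω : (Cfg Pt → ℝ) → ℝ} {L N W r₁ : ℕ}

theorem ok (h : Gs p Λ L) : Λ.Ok := ⟨h.mem.1 ▸ p.F.adm, p.F.pos.trans_le h.mem.2.2.1⟩

theorem r_pos (h : Gs p Λ L) : 1 ≤ p.r₀ := by
  have := (ok h).one_le_rg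
  have := h.gd.2.1
  omega

theorem room (h : Gs p Λ L) {r : ℕ} (hr : p.r₀ ≤ r) : r + 2 * Λ.rg ≤ p.w * r := by
  have := h.gd.2.1
  have := Nat.mul_le_mul_right r h.w4
  omega

theorem ell_eq (h : Env p Λ ω L N) {m : Mdl Pt} (hm : Rep Λ ω m 0 N) {r : ℕ} (hr : p.r₀ ≤ r)
    (hL : p.w * r ≤ L) {F : Cfg Pt → ℝ} (hF : Ins 0 r F) :
    ell ω (2 * (r : ℝ)) F = Ex (m.W 0) fun s => F s * Sn (2 * (r : ℝ)) s := by
  have h1 := Nat.mul_le_mul_right r h.w4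
  have h2 := h.le
  have h3 : (1 : ℝ) ≤ r := by exact_mod_cast (r_pos h.toGs).trans hr
  have h4 : (4 * r : ℝ) ≤ N := by exact_mod_cast (by omega : 4 * r ≤ N)
  exact hm.2 _ ((hF.mono (by omega)).mul (ins_Sn (by linarith) (by linarith))).1

theorem l_le (hP : ProdStmt) (h : Env p Λ ω L N) {m : Mdl Pt} (hm : Rep Λ ω m 0 N) {r : ℕ}
    (hr : p.r₀ ≤ r) (hL : p.w * r ≤ L) {F : Cfg Pt → ℝ} (hF : Ins 0 r F) :
    |Ex (m.W 0) fun s => F s * Sn (2 * (r : ℝ)) s| ≤ 16 * nu Λ p.w 0 r F := by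
  have h3 : (1 : ℝ) ≤ r := by exact_mod_cast (r_pos h.toGs).trans hr
  have := (hP p Λ L h.toGs m (bl 0 N) Unit univ (fun _ => 0) (fun _ => r) (fun _ => F)
    (Sn (2 * (r : ℝ))) hm.1 ⟨by simp, fun _ _ => hF, fun _ _ => ⟨hr, hL⟩,
      fun _ _ => bl_mono _ (hL.trans h.le), fun _ _ _ _ hij => absurd rfl hij⟩
    (fun _ _ => out_Sn (by linarith) (by linarith)) (abs_Sn_le _)).1
  simpa using this

theorem ell_le (hP : ProdStmt) (h : Env p Λ ω L N) {r : ℕ} (hr : p.r₀ ≤ r) (hL : p.w * r ≤ L)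
    {F : Cfg Pt → ℝ} (hF : Ins 0 r F) : |ell ω (2 * (r : ℝ)) F| ≤ 16 * nu Λ p.w 0 r F := by
  obtain ⟨m, hm⟩ := h.amb 0
  rw [ell_eq h hm hr hL hF]
  exact l_le hP h hm hr hL hF

/-- the cone data -/
theorem lf (hS : SemiStmt) (hP : ProdStmt) (h : Pack p W Λ ω r₁ L N) {m : Mdl Pt} (hm : Rep Λ ω m 0 N)
    {s k : ℕ} (hs : p.r₀ ≤ s) (hs' : r₁ ≤ s) (hk : p.w * (W ^ k * s) ≤ L) (hW : 2 ≤ W) {x t : ℝ}
    (hx : x = (W : ℝ) ^ (ew p.w / 10)) (ht : t = √W) (hx2 : 2 ≤ x) (hxt : 1024 * x ^ 12 ≤ t) :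
    Lf (fun j => Cs (W ^ j * s)) (fun j => nu Λ p.w 0 (W ^ j * s))
      (fun j F => Ex (m.W 0) fun u => F u * Sn (2 * ((W ^ j * s : ℕ) : ℝ)) u)
      (fun j => Sn (((W ^ j * s : ℕ) : ℝ) / 4)) (x / t ^ 6) (x / t ^ 4) 16 (1 / (x * t ^ 4))
      (1 / (x * t ^ 8)) (t ^ 5) (1 / (x ^ 10 * t ^ 4)) 0 k := by
  have hΛ := ok h.toGs
  have hW0 : (0 : ℝ) < W := by exact_mod_cast (by omega : 0 < W)
  have ht0 : 0 < t := ht ▸ Real.sqrt_pos.2 hW0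
  have hx0 : 0 < x := by linarith
  have le : ∀ j, s ≤ W ^ j * s := fun j => Nat.le_mul_of_pos_left _ (pow_pos (by omega) _)
  have mo : ∀ {i j}, i ≤ j → W ^ i * s ≤ W ^ j * s := fun hij =>
    Nat.mul_le_mul_right _ (Nat.pow_le_pow_right (by omega) hij)
  have rg : ∀ {j}, j ≤ k → p.w * (W ^ j * s) ≤ L := fun hj => (Nat.mul_le_mul_left _ (mo hj)).trans hk
  have su : ∀ j, W ^ (j + 1) * s = W * (W ^ j * s) := fun j => by ring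
  have sm := fun j => (hS Λ p.w (W ^ j * s) 0 hΛ (room h.toGs (hs.trans (le j)))).1
  have iS : ∀ j, Ins 0 (W ^ j * s) (Sn (((W ^ j * s : ℕ) : ℝ) / 4)) := fun j =>
    ins_Sn4 ((r_pos h.toGs).trans (hs.trans (le j)))
  have eA : (W : ℝ) ^ (-3 + ew p.w / 10) = x / t ^ 6 := by
    simpa [hx, ht] using rp_add hW0 3 (ew p.w / 10)
  have eB : (W : ℝ) ^ (-2 + ew p.w / 10) = x / t ^ 4 := by
    simpa [hx, ht] using rp_add hW0 2 (ew p.w / 10)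
  have e1 : (W : ℝ) ^ (-2 - ew p.w / 10) = 1 / (x * t ^ 4) := by
    simpa [hx, ht] using rp_sub hW0 2 (ew p.w / 10)
  have e2 : (W : ℝ) ^ (-4 - ew p.w / 10) = 1 / (x * t ^ 8) := by
    simpa [hx, ht] using rp_sub hW0 4 (ew p.w / 10)
  have ks : ∀ j < k, Ks p.w W Λ (W ^ j * s) := fun j hj =>
    h.ks _ (hs.trans (le j)) (hs'.trans (le j)) (su j ▸ rg hj)
  have hc := hm.1.ctr.cen hm.1.anch
  obtain ⟨n1, n2, n3, n4, n5, -⟩ := num hx2 hxt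
  refine ⟨fun j F hF => ⟨hF.1.mono (mo (by omega)), hF.2⟩,
    fun j F hF G hG => ((sm j F hF.1).2.2.2.2 G hG.1).1, fun j c F hF => (sm j F hF.1).2.2.1 c,
    fun j F => FlF4.nu_nonneg hΛ _ _ _ _, fun j c F hF G hG => ?_, fun j => ⟨iS j, odd_Sn _, d4_Sn _⟩,
    fun j => (sm j _ (iS j)).2.2.2.1 1 (abs_Sn_le _), fun j _ hj F hF => ?_, fun j _ hj F hF => ?_,
    fun j _ hj F hF => l_le hP h.toEnv hm (hs.trans (le j)) (rg hj) hF.1, fun j _ hj => ?_,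
    fun j _ hj => ?_, by positivity, by positivity, by norm_num, by positivity, by positivity,
    n1, n2, n3, n4, n5⟩
  · rw [← Ex_const_mul, ← Ex_sub (hc.ig (hF.1.2.mul (tame_Sn _)))
      (hc.ig ((hG.1.2.mul (tame_Sn _)).const_mul c))]
    congr 1
    funext u
    simp only [Pi.sub_apply, Pi.smul_apply, smul_eq_mul]
    ring
  · obtain ⟨c, hc⟩ := (ks j hj F hF.1 hF.2.1 hF.2.2).2
    rw [eA, ← su] at hc
    exact ⟨c, hc⟩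
  · have := (ks j hj F hF.1 hF.2.1 hF.2.2).1
    rwa [eB, ← su] at this
  · have := h.low₁ _ (hs.trans (le j)) (hs'.trans (le j)) (su j ▸ rg hj)
    rw [e1, ← Nat.cast_mul, ← su,
      ell_eq h.toEnv hm (hs.trans (le _)) (rg hj) ((iS j).mono (mo (by omega)))] at this
    exact this.trans (le_abs_self _)
  · have := h.low₂ _ (hs.trans (le j)) (hs'.trans (le j)) (by rw [← su, ← su]; exact rg hj)
    rw [e2, ← Nat.cast_mul, ← Nat.cast_mul, ← su, ← su,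
      ell_eq h.toEnv hm (hs.trans (le _)) (rg hj) ((iS j).mono (mo (by omega)))] at this
    exact this.trans (le_abs_self _)

theorem bare (hS : SemiStmt) (hB : BareStmt) (F : Fa) : ∃ C₀ : ℝ, ∀ (p : Par) (Λ : Lat) (L : ℕ), p.F = F →
    Gs p Λ L → nu Λ p.w 0 p.r₀ (Jz 0) ≤ C₀ := by
  obtain ⟨C, -, hC⟩ := hB F
  refine ⟨1 + C * E0 (bl 0 0) (dl 0), fun p Λ L hp h => ?_⟩
  have hΛ := ok h
  have h1 := r_pos h
  have h2 := room h le_rfl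
  refine ((hS Λ p.w p.r₀ 0 hΛ h2).1 _ (ins_Jz 0 h1)).2.1.trans ?_
  have h3 := ((hC Λ (hp ▸ h.mem) 0 0 (dl 0) fun x hx => by
    rw [dl_apply, if_neg]; rintro rfl; exact hx (self_mem_bl _ _)).2.2 (p.w * p.r₀) (by omega)).1
  simp only [← Jz_eq_pr] at h3
  have hc := hΛ.cen_Nr_bl (self_mem_bl (0 : Pt) (p.w * p.r₀))
  have t := tame_Jz 0
  refine (Ex_mono hc.nonneg (hc.ig t.abs) (hc.ig ((Tame.const 1).add (t.pow 2))) fun s => ?_).trans ?_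
  · nlinarith [sq_abs (Jz 0 s), sq_nonneg (|Jz 0 s| - 1)]
  · rw [Ex_add (hc.ig (Tame.const 1)) (hc.ig (t.pow 2)), hc.wt.ex_const]
    exact add_le_add le_rfl h3

theorem nu_pack (hF : FusStmt) (h : Pack p W Λ ω r₁ L N) {s : ℕ} (hs : p.r₀ ≤ s) (hs' : r₁ ≤ s)
    (hW : 2 ≤ W) {C₀ : ℝ} (hC : nu Λ p.w 0 p.r₀ (Jz 0) ≤ C₀) :
    Nu p.w W p.r₀ s L (ew p.w) C₀ fun a => nu Λ p.w 0 a (Jz 0) := by
  have h1 := r_pos h.toGs
  have hw := h.w4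
  have he := ew_pos (by omega : 1 ≤ p.w)
  have hW1 : (1 : ℝ) ≤ W := by exact_mod_cast (by omega : 1 ≤ W)
  refine ⟨hW, h1, hs, he, (ew_le' hw).trans (by norm_num),
    fun a => FlF4.nu_nonneg (ok h.toGs) _ _ _ _, fun a a' ha haa hL => ?_, fun r hr hL => ?_, hC⟩
  · simpa using (hF p Λ L h.toGs 0 a' hL).1 a (Jz 0) (fun _ => 1) ha haa (ins_Jz 0 (h1.trans ha))
      (DepG.const _ _) (fun _ _ _ => rfl) (by simp)
  · have h2 := (h.ks r (hs.trans hr) (hs'.trans hr) hL _ (ins_Jz 0 (h1.trans (hs.trans hr)))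
      (odd_Jz 0) (d4_Jz 0)).1
    have h3 : (W : ℝ) ^ 2 * (W : ℝ) ^ (-2 + ew p.w / 10) ≤ (W : ℝ) ^ ew p.w := by
      rw [← Real.rpow_natCast, ← Real.rpow_add (by linarith)]
      exact Real.rpow_le_rpow_of_exponent_le hW1 (by push_cast; linarith)
    have h4 : 0 ≤ nu Λ p.w 0 r (Jz 0) := FlF4.nu_nonneg (ok h.toGs) _ _ _ _
    push_cast
    calc ((W : ℝ) * r) ^ 2 * nu Λ p.w 0 (W * r) (Jz 0)
        ≤ ((W : ℝ) * r) ^ 2 * ((W : ℝ) ^ (-2 + ew p.w / 10) * nu Λ p.w 0 r (Jz 0)) := by gcongr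
      _ = (W : ℝ) ^ 2 * (W : ℝ) ^ (-2 + ew p.w / 10) * ((r : ℝ) ^ 2 * nu Λ p.w 0 r (Jz 0)) := by ring
      _ ≤ _ := by gcongr

/-- `r² |ℓ|` -/
noncomputable def lam (ω : (Cfg Pt → ℝ) → ℝ) (r : ℕ) : ℝ := (r : ℝ) ^ 2 * |ell ω (2 * (r : ℝ)) (Jz 0)|

theorem yk_cmp (hA : AkStmt) (hW : 2 ≤ W) : ∃ c C : ℝ, 0 < c ∧ 0 ≤ C ∧ ∀ (ω : (Cfg Pt → ℝ) → ℝ) (r : ℕ),
    1 ≤ r → 1 / 4 ≤ gk ω (2 * (r : ℝ)) → gk ω (2 * (r : ℝ)) ≤ 1 →
    c * lam ω r ≤ yk ω W (2 * (r : ℝ)) ∧ yk ω W (2 * (r : ℝ)) ≤ C * lam ω r := by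
  obtain ⟨c, C, hc, hA⟩ := hA W hW
  obtain ⟨Ce, hCe, he⟩ := abs_er_le
  have hl : 0 < log (W : ℝ) := log_pos (by exact_mod_cast (by omega : 1 < W))
  have := pi_pos
  refine ⟨√(π * log W * c / 2) * 4 * exp (-(2 * π ^ 2 * Ce)), √(π * log W * C / 2) * 4 * exp (2 * π ^ 2 * Ce),
    by positivity, by positivity, fun ω r hr g1 g2 => ?_⟩
  have h1 : (1 : ℝ) ≤ r := by exact_mod_cast hr
  obtain ⟨a1, a2, -⟩ := hA (2 * r) (by linarith)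
  have h2 := abs_le.1 (he (2 * r) (by linarith))
  have h3 : |gk ω (2 * r) * er (2 * r)| ≤ Ce := by
    rw [abs_mul, abs_of_nonneg (by linarith)]
    nlinarith [abs_nonneg (er (2 * r)), abs_le.2 h2]
  have h4 := abs_le.1 h3
  have hp : 0 < 2 * π ^ 2 := by positivity
  have e : yk ω W (2 * r) = √(π * log W * Ak W (2 * r) / 2) * 4 *
      exp (-2 * π ^ 2 * gk ω (2 * r) * er (2 * r)) * lam ω r := by rw [yk, lam]; ring
  have l0 : 0 ≤ lam ω r := by rw [lam]; positivity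
  have x1 : exp (-(2 * π ^ 2 * Ce)) ≤ exp (-2 * π ^ 2 * gk ω (2 * r) * er (2 * r)) :=
    exp_le_exp.2 (by nlinarith)
  have x2 : exp (-2 * π ^ 2 * gk ω (2 * r) * er (2 * r)) ≤ exp (2 * π ^ 2 * Ce) :=
    exp_le_exp.2 (by nlinarith)
  rw [e]
  constructor
  · exact mul_le_mul_of_nonneg_right (mul_le_mul (by gcongr) x1 (by positivity) (by positivity)) l0
  · exact mul_le_mul_of_nonneg_right (mul_le_mul (by gcongr) x2 (by positivity) (by positivity)) l0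

/-- the dichotomy on the lattice -/
theorem dich' (hS : SemiStmt) (hP : ProdStmt) (h : Pack p W Λ ω r₁ L N) {s k k₂ : ℕ} {C₀ B : ℝ}
    (hN : Nu p.w W p.r₀ s L (ew p.w) C₀ fun a => nu Λ p.w 0 a (Jz 0)) (hs' : r₁ ≤ s)
    (hk : p.w * (W ^ k * s) ≤ L) (hk₂ : k₂ ≤ k) (hx2 : 2 ≤ (W : ℝ) ^ (ew p.w / 10))
    (hxt : 1024 * ((W : ℝ) ^ (ew p.w / 10)) ^ 12 ≤ √W) (hB0 : 0 ≤ B)
    (hB : ((W ^ k₂ * s : ℕ) : ℝ) ^ 2 * (2 * C₀) ≤ B) :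
    (∀ j ≤ k₂, bb W s (fun a => nu Λ p.w 0 a (Jz 0)) j * ((W : ℝ) ^ ew p.w) ^ j ≤
      bb W s (fun a => nu Λ p.w 0 a (Jz 0)) 0) ∨
    ∀ j ≤ k, bb W s (fun a => nu Λ p.w 0 a (Jz 0)) j * ((W : ℝ) ^ ew p.w) ^ j ≤
      √W * (W : ℝ) ^ ew p.w * lam ω (W ^ k * s) * ((W : ℝ) ^ ew p.w) ^ k + B * ((W : ℝ) ^ ew p.w) ^ k₂ := by
  obtain ⟨m, hm⟩ := h.amb 0
  have H := lf hS hP h hm hN.rs hs' hk hN.W2 rfl rfl hx2 hxt
  obtain ⟨-, -, -, -, -, n6⟩ := num hx2 hxt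
  have hW0 : (0 : ℝ) < W := by linarith [hN.W1]
  set x := (W : ℝ) ^ (ew p.w / 10) with hx
  set t := √(W : ℝ) with ht
  have ht0 : 0 < t := Real.sqrt_pos.2 hW0
  have hx0 : 0 < x := by linarith
  have eq : (W : ℝ) ^ ew p.w = x ^ 10 := by
    rw [hx, ← Real.rpow_natCast, ← Real.rpow_mul hW0.le]; congr 1; push_cast; ring
  have et : ∀ j, ((W ^ (j + 1) * s : ℕ) : ℝ) ^ 2 = t ^ 4 * ((W ^ j * s : ℕ) : ℝ) ^ 2 := fun j => by
    rw [show 4 = 2 * 2 by rfl, pow_mul, ht, Real.sq_sqrt hW0.le]; push_cast; ring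
  have rg : ∀ {j}, j ≤ k → p.w * (W ^ j * s) ≤ L := fun hj =>
    (Nat.mul_le_mul_left _ (hN.sc_mono hj)).trans hk
  have iJ : ∀ j, Ins 0 (W ^ j * s) (Jz 0) := fun j =>
    ins_Jz 0 (hN.r1.trans (hN.rs.trans (hN.le_sc j)))
  have mJ : ∀ j, Jz 0 ∈ Cs (W ^ j * s) := fun j => ⟨iJ j, odd_Jz 0, d4_Jz 0⟩
  have el : ∀ {j}, j ≤ k → lam ω (W ^ j * s) = ((W ^ j * s : ℕ) : ℝ) ^ 2 *
      |Ex (m.W 0) fun u => Jz 0 u * Sn (2 * ((W ^ j * s : ℕ) : ℝ)) u| := fun hj => by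
    rw [lam, ell_eq h.toEnv hm (hN.rs.trans (hN.le_sc _)) (rg hj) (iJ _)]
  refine dich (l := fun j => lam ω (W ^ j * s))
    (c := fun j => nu Λ p.w 0 (W ^ j * s) (Jz 0) ≤
      t ^ 5 * |Ex (m.W 0) fun u => Jz 0 u * Sn (2 * ((W ^ (j + 1) * s : ℕ) : ℝ)) u|)
    hk₂ hN.q1 ht0.le (fun j => by simp only [lam]; positivity)
    (fun j hj => (hN.crude (hN.rs.trans (hN.le_sc j)) (rg (hj.trans hk₂)) (hN.sc_mono hj)).trans hB) hB0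
    (fun j hj hc => ?_) (fun j hj hc => ?_) (fun j hj hc => ?_) fun j hj => hN.bb_succ (rg hj)
  · have := H.out (Nat.zero_le j) hj (mJ j) (not_le.1 hc).le
    rw [bb, bb, et, eq]
    calc t ^ 4 * ((W ^ j * s : ℕ) : ℝ) ^ 2 * nu Λ p.w 0 (W ^ (j + 1) * s) (Jz 0) * x ^ 10
        ≤ t ^ 4 * ((W ^ j * s : ℕ) : ℝ) ^ 2 * (1 / (x ^ 10 * t ^ 4) * nu Λ p.w 0 (W ^ j * s) (Jz 0)) *
          x ^ 10 := by gcongr
      _ = _ := by field_simp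
  · obtain ⟨c1, c2⟩ := H.cone (Nat.zero_le j) hj (mJ j) hc
    refine ⟨c1, ?_⟩
    rw [el (by omega), el (by omega), et (j + 1), eq]
    set a := |Ex (m.W 0) fun u => Jz 0 u * Sn (2 * ((W ^ (j + 1) * s : ℕ) : ℝ)) u|
    set b := |Ex (m.W 0) fun u => Jz 0 u * Sn (2 * ((W ^ (j + 2) * s : ℕ) : ℝ)) u|
    have a0 : 0 ≤ a := abs_nonneg _
    have h1 : a ≤ x ^ 10 * t ^ 4 * b :=
      (le_mul_of_one_le_left a0 n6).trans (by rw [mul_assoc]; gcongr)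
    calc _ ≤ ((W ^ (j + 1) * s : ℕ) : ℝ) ^ 2 * (x ^ 10 * t ^ 4 * b) := by gcongr
      _ = _ := by ring
  · rw [el (by omega), et, bb]
    calc _ ≤ ((W ^ j * s : ℕ) : ℝ) ^ 2 * (t ^ 5 *
          |Ex (m.W 0) fun u => Jz 0 u * Sn (2 * ((W ^ (j + 1) * s : ℕ) : ℝ)) u|) := by gcongr
      _ = _ := by ring

end E65

open E65

set_option maxHeartbeats 800000 in
/-- `EntStmt` with a range constant which is free upwards -/
theorem ent2 (hS : SemiStmt) (hP : ProdStmt) (hF : FusStmt) (hB : BareStmt) (hM : CmStmt)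
    (hA : AkStmt) (w : ℕ) : ∃ W₀ : ℕ, ∀ (p : Par) (W : ℕ), p.w = w → W₀ ≤ W →
    ∃ C₀ D : ℝ, 0 ≤ C₀ ∧ 1 ≤ D ∧ ∀ C : ℝ, C₀ ≤ C → ∀ y₀ : ℝ, 0 < y₀ → ∃ ε₁ : ℝ, 0 < ε₁ ∧ ∀ r₁ : ℕ,
    (∃ k₀ : ℕ, ∀ Λ ω L N, Pack p W Λ ω r₁ L N → Small p W Λ r₁ L ε₁ → ∀ R : ℝ, Rk W k₀ ≤ R →
      Maj p Λ L R y₀) ∧
    ∀ (k₁ : ℕ) (c : ℝ), 0 < c → ∃ k₀ : ℕ, ∀ Λ ω L N, Pack p W Λ ω r₁ L N → Small p W Λ r₁ L ε₁ →
      (∀ k, k₁ ≤ k → C * Rk W k ≤ L → 1 / 4 ≤ gk ω (Rk W k) ∧ gk ω (Rk W k) ≤ 1 ∧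
        c * Rk W k ^ (-ew p.w / 2) ≤ ω (cp (xi (Rk W k)) 0)) →
      ∀ k, k₀ ≤ k → C * Rk W k ≤ L →
        Maj p Λ L (Rk W k) (D * yk ω W (Rk W k)) ∧ yk ω W (Rk W k) ≤ y₀ := by
  by_cases hw : 4 ≤ w
  swap
  · refine ⟨0, fun p W hp _ => ⟨0, 1, le_rfl, le_rfl, fun _ _ y₀ _ => ⟨1, one_pos, fun r₁ =>
      ⟨⟨0, fun Λ ω L N h => ?_⟩, fun _ _ _ => ⟨0, fun Λ ω L N h => ?_⟩⟩⟩⟩⟩ <;>
    exact absurd (hp ▸ h.w4) hw
  have he := ew_pos (by omega : 1 ≤ w)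
  obtain ⟨W₀, hW₀⟩ := eventually_atTop.1 (ev_W he (ew_le' hw))
  refine ⟨W₀, fun p W hp hW => ?_⟩
  subst hp
  obtain ⟨hW2, hx2, hxt⟩ := hW₀ W hW
  have hW1 : (1 : ℝ) < W := by exact_mod_cast (by omega : 1 < W)
  obtain ⟨C₀, hC₀⟩ := bare hS hB p.F
  obtain ⟨Cm, hCm0, hCm⟩ := hM p
  obtain ⟨cy, Cy, hcy, hCy, hy⟩ := yk_cmp hA hW2
  set q := (W : ℝ) ^ ew p.w with hq
  have hq1 : 1 ≤ q := Real.one_le_rpow hW1.le he.le
  set K := max 1 Cm with hK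
  have hK1 : 1 ≤ K := le_max_left _ _
  have hKC : Cm ≤ K := le_max_right _ _
  set D₁ := 2 * (W : ℝ) ^ 3 with hD₁
  have hD1 : 1 ≤ D₁ := by have := one_le_pow₀ (n := 3) hW1.le; linarith
  set H := √W * q with hH
  have hH0 : 0 < H := by positivity
  refine ⟨max p.w Cm, max 1 (2 * D₁ * H / cy), le_max_of_le_right hCm0, le_max_left _ _,
    fun C hC y₀ hy₀ => ?_⟩
  have hCw : (p.w : ℝ) ≤ C := (le_max_left _ _).trans hC
  have hCC : Cm ≤ C := (le_max_right _ _).trans hC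
  obtain ⟨y₁, hy₁, y1, y2, y3⟩ : ∃ y₁ : ℝ, 0 < y₁ ∧ y₁ ≤ y₀ ∧ Cy * (32 * y₁) ≤ y₀ ∧
      K * (D₁ * (H * (32 * y₁))) ≤ 1 / 2 := by
    have p1 : 0 < min y₀ 1 := lt_min hy₀ one_pos
    have p2 : 0 ≤ K * D₁ * H := by positivity
    have e : min y₀ 1 / (1 + 32 * Cy + 64 * (K * D₁ * H)) * (1 + 32 * Cy + 64 * (K * D₁ * H)) = min y₀ 1 :=
      div_mul_cancel₀ _ (by positivity)
    have p3 : 0 < min y₀ 1 / (1 + 32 * Cy + 64 * (K * D₁ * H)) := by positivity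
    have := min_le_left y₀ 1
    have := min_le_right y₀ 1
    have := mul_nonneg hCy p3.le
    have := mul_nonneg p2 p3.le
    exact ⟨_, p3, by nlinarith, by nlinarith, by nlinarith⟩
  refine ⟨y₁ / (8 * (W : ℝ) ^ 2), by positivity, fun r₁ => ?_⟩
  obtain ⟨j₁, hj₁⟩ : ∃ j₁, max p.r₀ r₁ ≤ W ^ j₁ := ⟨_, (Nat.lt_pow_self (by omega)).le⟩
  set s := W ^ j₁ with hs
  have hs1 : 1 ≤ s := Nat.one_le_pow _ _ (by omega)
  have hs1' : (1 : ℝ) ≤ s := by exact_mod_cast hs1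
  have hs0 : p.r₀ ≤ s := (le_max_left _ _).trans hj₁
  have hs' : r₁ ≤ s := (le_max_right _ _).trans hj₁
  have eR : ∀ j, Rk W (j₁ + j) = 2 * ((W : ℝ) ^ j * s) := fun j => by rw [Rk, hs]; push_cast; ring
  have eR' : ∀ j, Rk W (j₁ + j) = 2 * ((W ^ j * s : ℕ) : ℝ) := fun j => by rw [eR]; push_cast; ring
  have Rmono : ∀ {i j}, i ≤ j → Rk W i ≤ Rk W j := fun hij => by
    rw [Rk, Rk]; gcongr; exact hW1.le
  have Rtop : Tendsto (fun j => Rk W (j₁ + j)) atTop atTop := by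
    simp only [eR]
    exact ((tendsto_pow_atTop_atTop_of_one_lt hW1).atTop_mul_const (by linarith)).const_mul_atTop two_pos
  obtain ⟨R₀, hR₀⟩ := maj0 hW2 hs1 he C₀ hy₁
  obtain ⟨jm, hjm⟩ := (Rtop.eventually_ge_atTop R₀).exists
  have hNu : ∀ {Λ ω L N}, Pack p W Λ ω r₁ L N →
      Nu p.w W p.r₀ s L (ew p.w) C₀ fun a => nu Λ p.w 0 a (Jz 0) := fun h =>
    nu_pack hF h hs0 hs' hW2 (hC₀ p _ _ rfl h.toGs)
  have m0 : ∀ Λ ω L N, Pack p W Λ ω r₁ L N → Small p W Λ r₁ L (y₁ / (8 * (W : ℝ) ^ 2)) → ∀ R : ℝ,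
      Rk W (j₁ + jm) ≤ R → Maj p Λ L R y₁ := fun Λ ω L N h hSm R hR =>
    hR₀ p.w p.r₀ L _ (hNu h) (fun r hr => hSm r (hs'.trans hr)) R (hjm.trans hR)
  refine ⟨⟨j₁ + jm, fun Λ ω L N h hSm R hR => (m0 Λ ω L N h hSm R hR).mono y1⟩, fun k₁ c hc => ?_⟩
  set B₀ := max 1 ((s : ℝ) ^ 2 * (2 * C₀)) with hB₀
  obtain ⟨j₂, ⟨hj₂, hj₂'⟩, u1, u2⟩ := (((eventually_ge_atTop k₁).and (Rtop.eventually_ge_atTop Cm)).and
    (E65.ev_small (A := K * (D₁ * B₀)) hW1 hs1' he hc)).exists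
  set B₁ := max B₀ (((W ^ j₂ * s : ℕ) : ℝ) ^ 2 * (2 * C₀)) with hB₁
  obtain ⟨j₃, hj₃⟩ := eventually_atTop.1 (((eventually_ge_atTop j₂).and (eventually_ge_atTop jm)).and
    (E65.ev_small (A := K * (D₁ * (B₁ * q ^ j₂))) hW1 hs1' he hc))
  refine ⟨j₁ + j₃, fun Λ ω L N h hSm hg k hk hL => ?_⟩
  obtain ⟨j, rfl⟩ : ∃ j, k = j₁ + j := ⟨k - j₁, by omega⟩
  obtain ⟨⟨v1, v2⟩, v3, v4⟩ := hj₃ j (by omega)
  have hN := hNu h
  have R0 : ∀ i, 0 < Rk W i := fun i => by rw [Rk]; positivity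
  have maj : ∀ (i : ℕ) (Y : ℝ), (∀ l ≤ i, bb W s (fun a => nu Λ p.w 0 a (Jz 0)) l * q ^ l ≤ Y * q ^ i) →
      B₀ ≤ Y * q ^ i → Maj p Λ L (Rk W (j₁ + i)) (D₁ * Y) := fun i Y h1 h2 => by
    have h3 : 1 / q ^ i ≤ Y := by
      rw [div_le_iff₀ (by positivity)]; exact (le_max_left _ _).trans h2
    have h4 : 0 ≤ Y := le_trans (by positivity) h3
    refine ⟨?_, ?_, hN.prof h1 ((le_max_right _ _).trans h2) (eR i)⟩
    · rw [eR]; nlinarith [one_le_pow₀ (n := i) hW1.le]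
    · rw [eR]
      exact ((R_pow hW1.le hs1' he i).trans h3).trans (le_mul_of_one_le_left h4 hD1)
  have cm : ∀ (i : ℕ) (Y : ℝ), j₂ ≤ i → i ≤ j → Maj p Λ L (Rk W (j₁ + i)) Y → K * Y ≤ 1 →
      c * Rk W (j₁ + i) ^ (-ew p.w / 2) ≤ K * Y := fun i Y h1 h2 h3 h4 => by
    have hY := h3.pos
    have h5 : C * Rk W (j₁ + i) ≤ L :=
      le_trans (mul_le_mul_of_nonneg_left (Rmono (by omega)) (hCm0.trans hCC)) hL
    obtain ⟨g1, -, g3⟩ := hg (j₁ + i) (by omega) h5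
    have := (hCm Λ ω L N h.toEnv _ Y h3 (by nlinarith) (hj₂'.trans (Rmono (by omega)))
      (le_trans (mul_le_mul_of_nonneg_right hCC (R0 _).le) h5) g1 (by nlinarith) 1
      one_ne_zero (by norm_num)).1
    rw [Int.cast_one, one_smul] at this
    exact (g3.trans ((le_abs_self _).trans this)).trans (by gcongr)
  have hkL : p.w * (W ^ j * s) ≤ L := by
    have h1 := le_trans (mul_le_mul_of_nonneg_right hCw (R0 _).le) hL
    rw [eR'] at h1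
    have h2 : ((p.w * (W ^ j * s) : ℕ) : ℝ) ≤ L := by
      rw [Nat.cast_mul]
      have : (0 : ℝ) ≤ p.w * ((W ^ j * s : ℕ) : ℝ) := by positivity
      linarith
    exact_mod_cast h2
  have hB01 : 1 ≤ B₀ := le_max_left _ _
  have hB1 : B₀ ≤ B₁ := le_max_left _ _
  rcases dich' hS hP h hN hs' hkL v1 hx2 hxt (B := B₁) (by linarith) (le_max_right _ _) with d | d
  · exfalso
    have e : B₀ / q ^ j₂ * q ^ j₂ = B₀ := div_mul_cancel₀ _ (by positivity)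
    have b0 : bb W s (fun a => nu Λ p.w 0 a (Jz 0)) 0 ≤ B₀ := by
      refine le_trans ?_ (le_max_right _ _)
      exact hN.crude (hs0.trans (hN.le_sc 0))
        ((Nat.mul_le_mul_left _ (hN.sc_mono (Nat.zero_le j))).trans hkL) (by simp)
    have e2 : K * (D₁ * (B₀ / q ^ j₂)) = K * (D₁ * B₀) / q ^ j₂ := by ring
    have := cm j₂ _ le_rfl v1 (maj j₂ (B₀ / q ^ j₂) (fun l hl => by rw [e]; exact (d l hl).trans b0) e.ge)
      (by rw [e2]; linarith)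
    rw [e2, eR] at this
    have p0 : 0 < c * (2 * ((W : ℝ) ^ j₂ * s)) ^ (-ew p.w / 2) := by positivity
    linarith
  · set r := W ^ j * s with hr
    have hr0 : p.r₀ ≤ r := hs0.trans (hN.le_sc j)
    have hr1 : 1 ≤ r := hN.r1.trans hr0
    have hr1' : (1 : ℝ) ≤ r := by exact_mod_cast hr1
    have l0 : 0 ≤ lam ω r := by rw [lam]; positivity
    have l1 : lam ω r ≤ 32 * y₁ := by
      have h1 := (m0 Λ ω L N h hSm _ (Rmono (by omega : j₁ + jm ≤ j₁ + j))).2.2 r hr0 hkL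
      have h2 := ell_le hP h.toEnv hr0 hkL (ins_Jz 0 hr1)
      have h3 : max ((r : ℝ) / Rk W (j₁ + j)) (Rk W (j₁ + j) / r) ^ ew p.w ≤ 2 := by
        rw [eR', show (r : ℝ) / (2 * r) = 1 / 2 by field_simp, show 2 * (r : ℝ) / r = 2 by field_simp,
          max_eq_right (by norm_num)]
        simpa using Real.rpow_le_rpow_of_exponent_le (by norm_num : (1 : ℝ) ≤ 2) hN.e1
      have h4 := mul_le_mul_of_nonneg_left h2 (sq_nonneg (r : ℝ))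
      have h5 := mul_le_mul_of_nonneg_left h3 hy₁.le
      rw [lam]
      linarith
    set B₂ := B₁ * q ^ j₂ with hB₂
    have hB2 : B₀ ≤ B₂ := hB1.trans (le_mul_of_one_le_right (by linarith) (one_le_pow₀ hq1))
    have e : (H * lam ω r + B₂ / q ^ j) * q ^ j = H * lam ω r * q ^ j + B₂ := by field_simp
    have M1 := maj j (H * lam ω r + B₂ / q ^ j) (fun l hl => by rw [e]; exact d l hl) (by
      rw [e]
      have : 0 ≤ H * lam ω r * q ^ j := by positivity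
      linarith)
    have e2 : K * (D₁ * (H * lam ω r + B₂ / q ^ j)) = K * (D₁ * (H * lam ω r)) + K * (D₁ * B₂) / q ^ j := by
      ring
    have w1 : K * (D₁ * (H * lam ω r)) ≤ 1 / 2 := le_trans (by gcongr) y3
    have w2 := cm j _ v1 le_rfl M1 (by rw [e2]; linarith)
    rw [e2, eR] at w2
    have w3 : K * (D₁ * (B₂ / q ^ j)) ≤ K * (D₁ * (H * lam ω r)) := by
      rw [← mul_div_assoc, ← mul_div_assoc]; linarith
    have w4 := le_of_mul_le_mul_left (le_of_mul_le_mul_left w3 (by linarith)) (by linarith)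
    obtain ⟨g1, g2, -⟩ := hg (j₁ + j) (by omega) hL
    rw [eR'] at g1 g2
    obtain ⟨z1, z2⟩ := hy ω r hr1 g1 g2
    refine ⟨M1.mono ?_, ?_⟩
    · rw [eR']
      calc D₁ * (H * lam ω r + B₂ / q ^ j) ≤ D₁ * (H * lam ω r + H * lam ω r) := by gcongr
        _ = 2 * D₁ * H / cy * (cy * lam ω r) := by field_simp; ring
        _ ≤ _ := mul_le_mul (le_max_right _ _) z1 (by positivity) (by positivity)
    · rw [eR']
      exact z2.trans (le_trans (by gcongr) y2)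

theorem entStmt (hS : SemiStmt) (hP : ProdStmt) (hF : FusStmt) (hB : BareStmt) (hM : CmStmt)
    (hA : AkStmt) : EntStmt := fun w => by
  obtain ⟨W₀, h⟩ := ent2 hS hP hF hB hM hA w
  refine ⟨W₀, fun p W hp hW => ?_⟩
  obtain ⟨C, D, hC, hD, h⟩ := h p W hp hW
  exact ⟨C, D, hC, hD, h C le_rfl⟩

end Crest.Agent.T145.Fl
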