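import Crest.Agent.T145.FlOBas_98
import Crest.Agent.T145.FlCone_64
import Crest.Agent.T145.FlEnt_65
import Crest.Agent.T145.FlSw_22

/-!
# Row 145, packaging of the odd flow (helper98): the leaves STEP, POS, ENT
-/

set_option autoImplicit false

namespace Crest.Agent.T145.Fl

open Finset Real

theorem st_mono {e e' x y x' y' : ℝ} (h : KT.St e x y x' y') (he : e ≤ e') : KT.St e' x y x' y' :=
  ⟨h.pos, h.pos', h.hx.trans (mul_le_mul_of_nonneg_right he (sq_nonneg _)),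
    h.hy.trans (mul_le_mul_of_nonneg_right he (add_nonneg (abs_nonneg _) h.pos.le))⟩

theorem leaf_step (hS : StepStmt) : Leaf OStep := by
  intro F θ₀ q _ h
  obtain ⟨C, δ, hC, h0, h1, hS⟩ := hS q.p q.W q.D h.two_le_W
  have hC1 : 0 < C + 1 := by linarith
  refine (((((h.base one_pos C).and (evp_ε (inv_pos.2 hC1))).and (evp_d h0)).and (evp_θ' h0)).and
    (evp_C (C * 2 ^ (q.s + 1)))).mono fun P ⟨⟨⟨⟨hb, hε⟩, hd⟩, hθ⟩, hPC⟩ l a => ?_
  obtain ⟨r₁, k₀, hb⟩ := hb l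
  refine ⟨max a k₀, fun Λ N k hV hk hB => ?_⟩
  obtain ⟨hR, hN, hL, hL'⟩ := hb Λ N k hV (le_of_max_le_right hk)
  have hη : |q.x Λ N k| + q.y Λ N k ≤ (C + 1)⁻¹ := (hB k (le_of_max_le_left hk) le_rfl).trans hε
  have hη0 : 0 ≤ |q.x Λ N k| + q.y Λ N k := add_nonneg (abs_nonneg _) (q.y_nonneg Λ N k)
  have hη1 : (C + 1) * (|q.x Λ N k| + q.y Λ N k) ≤ 1 := by
    rwa [← le_div_iff₀' hC1, one_div]
  have h2 := hS Λ _ r₁ _ _ hR.env hR.pur (q.R k)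
    (hR.cone' (zero_le_one.trans h.C1) (le_of_max_le_right hk) hL').1
    ((mul_le_mul_of_nonneg_left (q.R_mono k.le_succ) hC).trans hL)
    (hR.sq_le (le_of_max_le_right hk)) (by change C * (|q.x Λ N k| + q.y Λ N k) ≤ 1; nlinarith)
  rw [q.R_succ] at h2
  refine st_mono h2 ?_
  change C * (|q.x Λ N k| + q.y Λ N k) ^ δ + C * (q.R k / q.L N) ^ δ ≤
    P.C * ((|q.x Λ N k| + q.y Λ N k) ^ P.d + P.θ ^ (N - q.v * k))
  have h3 := rpow_le_rpow_of_exponent_ge' hη0 (by nlinarith) P.d0.le hd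
  have h4 := q.ratio_rpow (N := N) (k := k)
    (le_trans (Nat.add_le_add_right (Nat.mul_le_mul_left _ k.le_succ) _) hN) h1.le hθ
  have h5 : C ≤ P.C := (le_mul_of_one_le_right hC (one_le_pow₀ one_le_two)).trans hPC
  have h6 := P.θ0
  rw [mul_add]
  refine add_le_add (mul_le_mul h5 h3 (rpow_nonneg hη0 _) P.C0) ?_
  calc _ ≤ C * (2 ^ (q.s + 1) * P.θ ^ (N - q.v * k)) := mul_le_mul_of_nonneg_left h4 hC
    _ = C * 2 ^ (q.s + 1) * P.θ ^ (N - q.v * k) := by ring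
    _ ≤ _ := by gcongr

theorem leaf_pos : Leaf OPos := by
  intro F θ₀ q _ h
  refine (h.base one_pos 0).mono fun P hb l => ?_
  obtain ⟨r₁, k₀, hb⟩ := hb l
  have hD : 0 < q.D := one_pos.trans_le h.D1
  refine ⟨k₀, fun k hk => ⟨q.R k ^ (-ew q.p.w) / q.D,
    div_pos (rpow_pos_of_pos (q.R_pos k) _) hD, fun Λ N hV => ?_⟩⟩
  obtain ⟨hR, -, -, hL⟩ := hb Λ N k hV hk
  rw [div_le_iff₀' hD]
  exact (hR.cone' (zero_le_one.trans h.C1) hk hL).1.2.1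

theorem leaf_ent : Leaf OEnt := by
  intro F θ₀ q _ h
  obtain ⟨c, C, -, hC, hy⟩ := E65.yk_cmp akStmt h.two_le_W
  obtain ⟨m, hm, hr⟩ := q.range q.p.w
  refine ((h.base one_pos 0).and (evp_δ h.δ0)).mono fun P ⟨hb, hδ⟩ ε hε => ?_
  have hC1 : 0 < 4 * C + 1 := by linarith
  obtain ⟨δ₃, h0, -, h2⟩ := h.res (ε / (4 * C + 1)) (div_pos hε hC1)
  refine ⟨δ₃, m, h0, fun l => ?_⟩
  obtain ⟨r₁, k₀, hb⟩ := hb l
  obtain ⟨r₂, k₁, h2⟩ := h2 l
  refine ⟨max k₀ k₁, fun Λ N k hV hk hN hW => ?_⟩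
  rw [Dat.fw_w] at hN hW
  obtain ⟨hR, -, -, hL⟩ := hb Λ N k hV (le_of_max_le_left hk)
  have hk1 := Nat.mul_le_mul_left q.v (le_of_max_le_right hk)
  have hR' := h2 Λ _ hV.1 ⟨hW, hV.2.1.2.trans hδ⟩ (by omega)
  have hM := hR'.maj _ (q.R_mono (le_of_max_le_right hk))
  have e : q.R k = 2 * ((q.W ^ k : ℕ) : ℝ) := by rw [Nat.cast_pow]; rfl
  have ha : (0 : ℝ) < (q.W ^ k : ℕ) := by exact_mod_cast Nat.pow_pos q.one_le_W
  have hwL : q.p.w * q.W ^ k ≤ q.L (q.v * k + m) := by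
    have h3 := hr _ k le_rfl
    rw [e] at h3
    have h4 : ((q.p.w * q.W ^ k : ℕ) : ℝ) ≤ q.L (q.v * k + m) := by
      rw [Nat.cast_mul]
      exact le_trans (mul_le_mul_of_nonneg_left (by linarith) (Nat.cast_nonneg _)) h3
    exact_mod_cast h4
  have h0' := hR.r0_le (le_of_max_le_left hk)
  have h3 := hM.prof.le hM.pos.le (q.R_pos k) two_pos h0' hwL (by rw [e]; linarith)
    (by rw [e]; linarith)
  have h4 := Cone.abs_ell_le hR.env h0' (hwL.trans (q.L_mono hN))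
    (ins_Jz 0 (Nat.pow_pos q.one_le_W))
  have h5 := hR.lnk' (zero_le_one.trans h.C1) (le_of_max_le_left hk) hL
  rw [e] at h5
  have h6 := (hy (tor Λ N) (q.W ^ k) (Nat.pow_pos q.one_le_W) h5.1 h5.2).2
  have h7 : (2 : ℝ) ^ ew q.p.w ≤ 2 :=
    (rpow_le_rpow_of_exponent_le one_le_two ((ew_le' hR.gs.w4).trans (by norm_num))).trans
      (rpow_one _).le
  change yk (tor Λ N) q.W (q.R k) ≤ ε
  rw [e]
  refine h6.trans ?_
  rw [le_div_iff₀ (by positivity)] at h3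
  have h8 := hM.pos
  calc C * E65.lam (tor Λ N) (q.W ^ k)
      ≤ C * (((q.W ^ k : ℕ) : ℝ) ^ 2 * (2 * nu Λ q.p.w 0 (q.W ^ k) (Jz 0))) := by
        unfold E65.lam; gcongr
    _ = 2 * C * (nu Λ q.p.w 0 (q.W ^ k) (Jz 0) * ((q.W ^ k : ℕ) : ℝ) ^ 2) := by ring
    _ ≤ 2 * C * (ε / (4 * C + 1) * 2) := by
        refine mul_le_mul_of_nonneg_left (h3.trans ?_) (by positivity)
        gcongr
    _ = 4 * C * (ε / (4 * C + 1)) := by ring
    _ ≤ (4 * C + 1) * (ε / (4 * C + 1)) := by gcongr; linarith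
    _ = ε := mul_div_cancel₀ _ hC1.ne'

end Crest.Agent.T145.Fl
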