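import Crest.Agent.T145.FlOddB_64
import Crest.Agent.T145.FlOBas_98
import Crest.Agent.T145.FlAmb_4

/-!
# Row 145, packaging of the odd flow (helper64): the leaves GJ, AMBX, AMBY
-/

set_option autoImplicit false

namespace Crest.Agent.T145.Fl

open Finset Real Filter Topology

namespace O64

variable {q : Dat} {F : Fa} {θ₀ y₀ A : ℝ} {Λ : Lat} {r₁ k₀ N k : ℕ}

theorem evp_at (c : q.Core F θ₀) (hy : 0 < y₀) (A : ℝ) : Evp fun P => A ≤ 2 ^ P.s ∧ ∀ l, ∃ r₁ k₀,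
    ∀ Λ N k, q.fw.V F θ₀ P Λ l N k → k₀ ≤ k → At q Λ y₀ A r₁ k₀ N k := by
  obtain ⟨δ, s, h0, -, h2, H⟩ := base c hy A
  refine ((evp_δ h0).and (evp_s s)).mono fun P ⟨a, b⟩ =>
    ⟨h2.trans (pow_le_pow_right₀ one_le_two (by omega)), fun l => ?_⟩
  obtain ⟨r₁, k₀, H⟩ := H l
  exact ⟨r₁, k₀, fun Λ N k hV hk => H P Λ N k b a hV hk⟩

theorem evp_th (w : ℕ) : Evp fun P => 4 ≤ w → th (cw w) ≤ P.θ := by
  by_cases h : 4 ≤ w
  · exact (evp_θ (th_lt (cw_pos (by omega : 1 ≤ w)))).mono fun _ a _ => a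
  · exact evp_true fun _ a => absurd a h

theorem At.ratio_le (h : At q Λ y₀ A r₁ k₀ N k) {θ : ℝ} (hθ : 4 ≤ q.p.w → th (cw q.p.w) ≤ θ) :
    (q.R k / q.L N) ^ cw q.p.w ≤ (2 ^ (q.s + 1) : ℝ) ^ cw q.p.w * θ ^ (N - q.v * k) := by
  rw [ratio h.top]
  exact mul_le_mul_of_nonneg_left (pow_le_pow_left₀ (th_pos _).le (hθ h.gs.w4) _) (by positivity)

theorem scales (c : q.Core F θ₀) {r : ℕ} (h1 : q.fw.r k ≤ r) (h2 : r ≤ q.fw.r (k + 1)) :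
    q.R k / q.W ≤ r ∧ (r : ℝ) ≤ q.W * q.R k := by
  rw [W_pow] at h1 h2
  have a1 : (q.W : ℝ) ^ k ≤ r := by exact_mod_cast h1
  have a2 : (r : ℝ) ≤ (q.W : ℝ) ^ (k + 1) := by exact_mod_cast h2
  have a3 := four_le_W' c
  have a4 := one_le_Wk q k
  rw [pow_succ] at a2
  rw [R_eq, div_le_iff₀ (by linarith)]
  constructor <;> nlinarith

theorem At.two_R (h : At q Λ y₀ A r₁ k₀ N k) (hA : 6 ≤ A) : 2 * q.R k + 1 ≤ q.L N := by
  have := h.roomR (B := 3) (by norm_num) (by linarith)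
  linarith [q.one_le_R k]

theorem x_sub (q : Dat) (Λ : Lat) (N k : ℕ) (g : ℝ) :
    |q.fw.κ * (g - 2 / π) - q.fw.x Λ N k| = q.fw.κ * |g - gk (tor Λ N) (q.R k)| := by
  rw [x_eq, ← mul_sub, abs_mul, abs_of_nonneg (kap_nonneg q)]; congr 2; ring

theorem small (q : Dat) (t : ℝ) {c ε : ℝ} (hc : 0 < c) (hε : 0 < ε) :
    ∃ N₀, ∀ N, N₀ ≤ N → (t / q.L N) ^ c < ε := by
  have h1 : Tendsto (fun N => (q.L N : ℝ)) atTop atTop := by
    simp only [q.L_cast]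
    exact (tendsto_pow_atTop_atTop_of_one_lt one_lt_two).comp (tendsto_sub_atTop_nat q.s)
  have h2 := (tendsto_const_nhds (x := t).div_atTop h1).rpow_const (p := c) (Or.inr hc.le)
  rw [zero_rpow hc.ne'] at h2
  exact eventually_atTop.1 (h2.eventually (gt_mem_nhds hε))

theorem unif (K e : ℝ) {ε : ℝ} (hε : 0 < ε) : ∃ η, 0 < η ∧ ∀ a b a' b' : ℝ, |a| ≤ 4 → |a'| ≤ 4 → |b| ≤ 1 →
    |b'| ≤ 1 → |a - a'| < η → |b - b'| < η →
      abs (K * |a| * exp (-2 * π ^ 2 * b * e) - K * |a'| * exp (-2 * π ^ 2 * b' * e)) ≤ ε := by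
  have hc : Continuous fun u : ℝ × ℝ => K * |u.1| * exp (-2 * π ^ 2 * u.2 * e) := by fun_prop
  obtain ⟨η, h0, h⟩ := Metric.uniformContinuousOn_iff.1
    ((isCompact_Icc (a := ((-4, -1) : ℝ × ℝ)) (b := (4, 1))).uniformContinuousOn_of_continuous
      hc.continuousOn) ε hε
  refine ⟨η, h0, fun a b a' b' h1 h2 h3 h4 h5 h6 => ?_⟩
  rw [abs_le] at h1 h2 h3 h4
  exact (h (a, b) ⟨⟨h1.1, h3.1⟩, h1.2, h3.2⟩ (a', b') ⟨⟨h2.1, h4.1⟩, h2.2, h4.2⟩ (max_lt h5 h6)).le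

theorem At.nu_le (h : At q Λ 1 A r₁ k₀ N k) (hA : (q.p.w : ℝ) ≤ A) :
    nu Λ q.p.w 0 (q.W ^ k) (Jz 0) ≤ 2 := by
  have a1 : (1 : ℝ) ≤ (q.W ^ k : ℕ) := by exact_mod_cast Nat.pow_pos (one_le_W q)
  have h3 := h.majR.prof.le one_pos.le (R_pos q k) two_pos h.r0_le
    (h.roomW (Nat.pow_le_pow_right (one_le_W q) k.le_succ) hA) (by rw [R_eq']; linarith)
    (by rw [R_eq']; linarith)
  have h7 : (2 : ℝ) ^ ew q.p.w ≤ 2 :=
    (rpow_le_rpow_of_exponent_le one_le_two ((ew_le' h.gs.w4).trans (by norm_num))).trans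
      (rpow_one _).le
  refine h3.trans ?_
  rw [one_mul, div_le_iff₀ (by positivity)]
  nlinarith

end O64

open O64

theorem leaf_gj : Leaf OGj := by
  intro F θ₀ q _ c
  obtain ⟨C, C0, H⟩ := Amb4.gj q.p
  have c0 : 0 ≤ q.C := zero_le_one.trans c.C1
  have k0 := kap_nonneg q
  refine (((evp_at c one_pos (C + 2 * q.C + 6)).and (evp_th q.p.w)).and
    (evp_C (q.fw.κ * C * q.D ^ 2 * q.W ^ 5))).mono fun P ⟨⟨⟨_, hb⟩, hθ⟩, hC⟩ l => ?_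
  obtain ⟨r₁, k₀, hb⟩ := hb l
  refine ⟨k₀, q.fw.κ * C * q.D ^ 2 * q.W * (2 ^ (q.s + 1) : ℝ) ^ cw q.p.w,
    fun Λ N k hV hk r m z h1 h2 hm => ?_⟩
  have h := hb Λ N k hV hk
  obtain ⟨s1, s2⟩ := scales c h1 h2
  obtain ⟨hM, y1⟩ := h.majD c0 (by linarith)
  have y0 := q.y_nonneg Λ N k
  have e := H Λ _ _ _ h.env m z (FlF4.amb_mono hm (bl_mono z (L_le q N))) _ _ _ hM (one_le_W' q) r s1 s2
    (h.roomN (W_pow q _ ▸ h2) C0 (by linarith)) (h.two_R (by linarith))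
  have t := h.ratio_le hθ
  have t0 := P.θ0
  rw [x_sub]
  change _ ≤ P.C * q.y Λ N k ^ 2 + _ * (P.θ ^ (N - q.v * k) + P.θ ^ k)
  calc _ ≤ q.fw.κ * (C * (q.D * q.y Λ N k) ^ 2 * (q.W ^ 5 + q.W * (q.R k / q.L N) ^ cw q.p.w)) :=
        mul_le_mul_of_nonneg_left e k0
    _ = q.fw.κ * C * q.D ^ 2 * q.W ^ 5 * q.y Λ N k ^ 2 +
        q.fw.κ * C * q.D ^ 2 * q.W * (q.y Λ N k ^ 2 * (q.R k / q.L N) ^ cw q.p.w) := by ring
    _ ≤ P.C * q.y Λ N k ^ 2 + q.fw.κ * C * q.D ^ 2 * q.W *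
        (1 * ((2 ^ (q.s + 1) : ℝ) ^ cw q.p.w * (P.θ ^ (N - q.v * k) + P.θ ^ k))) := by
        have := R_pos q k
        gcongr
        · exact pow_le_one₀ y0 y1
        · exact t.trans (mul_le_mul_of_nonneg_left (le_add_of_nonneg_right (by positivity))
            (by positivity))
    _ = _ := by ring

theorem leaf_ambx : Leaf OAmbx := by
  intro F θ₀ q _ c
  obtain ⟨C, C0, H⟩ := Amb4.gk_amb q.p
  have k0 := kap_nonneg q
  refine ((evp_at c one_pos (2 * C)).and (evp_th q.p.w)).mono fun P ⟨⟨_, hb⟩, hθ⟩ l => ?_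
  obtain ⟨r₁, k₀, hb⟩ := hb l
  refine ⟨k₀, q.fw.κ * C * (2 ^ (q.s + 1) : ℝ) ^ cw q.p.w, fun Λ N N' k hV hV' hN hk => ?_⟩
  have h := hb Λ N k hV hk
  have h' := hb Λ N' k hV' hk
  have e := (H Λ _ _ _ _ _ _ h.env h'.env ((L_mono q hN).trans h'.env.le)).2 _ _ h.majR
    (h.roomR C0 le_rfl)
  rw [abs_sub_comm, x_eq q Λ N', x_sub]
  refine (mul_le_mul_of_nonneg_left (e.trans (mul_le_mul_of_nonneg_left (h.ratio_le hθ)
    (by positivity))) k0).trans_eq ?_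
  rw [Dat.fw_w]; ring

theorem leaf_amby : Leaf OAmby := by
  intro F θ₀ q _ c
  obtain ⟨C, C0, H⟩ := Amb4.gk_amb q.p
  have c0 : 0 ≤ q.C := zero_le_one.trans c.C1
  have w0 : (0 : ℝ) ≤ q.p.w := Nat.cast_nonneg _
  refine (evp_at c one_pos (2 * C + 2 * q.C + q.p.w)).mono fun P ⟨_, hb⟩ l => ?_
  obtain ⟨r₁, k₀, hb⟩ := hb l
  refine ⟨k₀, fun k hk ε hε => ?_⟩
  by_cases hw : 4 ≤ q.p.w
  swap
  · exact ⟨0, fun Λ N _ hV _ _ _ => absurd (hb Λ N k hV hk).gs.w4 hw⟩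
  obtain ⟨η, η0, U⟩ := O64.unif (√(π * log q.W * Ak q.W (q.R k) / 2) * q.R k ^ 2) (Xi.er (q.R k)) hε
  have c1 : 0 < 4 * C + 1 := by linarith
  obtain ⟨N₁, s1⟩ := O64.small q (q.R k) (cw_pos (by omega : 1 ≤ q.p.w)) (div_pos η0 c1)
  obtain ⟨N₂, s2⟩ := O64.small q ((4 * q.W ^ k : ℕ) : ℝ) (cw_pos (by omega : 1 ≤ q.p.w)) (div_pos η0 c1)
  have key : ∀ Λ N N', q.fw.V F θ₀ P Λ l N k → q.fw.V F θ₀ P Λ l N' k → max N₁ N₂ ≤ N → N ≤ N' →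
      |q.fw.y Λ N' k - q.fw.y Λ N k| ≤ ε := fun Λ N N' hV hV' h1 hN => by
    have h := hb Λ N k hV hk
    have h' := hb Λ N' k hV' hk
    have a1 : 1 ≤ q.W ^ k := Nat.pow_pos (one_le_W q)
    have a2 : (1 : ℝ) ≤ (q.W ^ k : ℕ) := by exact_mod_cast a1
    have a3 : 4 * q.W ^ k ≤ q.W ^ (k + 1) := by rw [pow_succ']; exact Nat.mul_le_mul_right _ (four_le_W c)
    have hA : (q.p.w : ℝ) ≤ 2 * C + 2 * q.C + q.p.w := by linarith
    have n := h.nu_le hA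
    have b : ∀ {M}, At q Λ 1 (2 * C + 2 * q.C + q.p.w) r₁ k₀ M k →
        |ell (tor Λ M) (q.R k) (Jz 0)| ≤ 4 ∧ |gk (tor Λ M) (q.R k)| ≤ 1 := fun g => by
      have g1 := Cone.abs_ell_le g.env g.r0_le (g.roomW (by omega) hA) (ins_Jz 0 a1)
      have g2 := g.lnkR c0 (by linarith)
      rw [← R_eq'] at g1
      exact ⟨by linarith, abs_le.2 ⟨by linarith, g2.2⟩⟩
    obtain ⟨e1, e2⟩ := H Λ _ _ _ _ _ _ h.env h'.env ((L_mono q hN).trans h'.env.le)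
    have i := ins_Sn (r := 4 * q.W ^ k) (R_pos q k) (by rw [R_eq]; push_cast; linarith)
    have f := (fusStmt q.p Λ _ h.gs 0 (4 * q.W ^ k) (h.roomW a3 hA)).1 (q.W ^ k) (Jz 0) (Sn (q.R k))
      h.r0_le (by omega) (ins_Jz 0 a1) i.1 (out_Sn (R_pos q k) (by rw [R_eq']; linarith)) (abs_Sn_le _)
    have d1 := e1 (4 * q.W ^ k) _ (h.r0_le.trans (by omega)) (h.roomW a3 hA)
      (((ins_Jz 0 a1).mono (by omega)).mul i)
    have d2 := e2 _ _ h.majR (h.roomR C0 (by linarith))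
    have t1 := s1 N (le_of_max_le_left h1)
    have t2 := s2 N (le_of_max_le_right h1)
    rw [lt_div_iff₀ c1] at t1 t2
    have p1 : 0 ≤ (q.R k / q.L N) ^ cw q.p.w := by have := R_pos q k; positivity
    have p2 : 0 ≤ (((4 * q.W ^ k : ℕ) : ℝ) / q.L N) ^ cw q.p.w := by positivity
    refine U _ _ _ _ (b h').1 (b h).1 (b h').2 (b h).2 (d1.trans_lt ?_) (d2.trans_lt ?_)
    · refine (mul_le_mul_of_nonneg_left (f.trans (by linarith : _ ≤ (4 : ℝ))) (by positivity)).trans_lt ?_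
      nlinarith
    · nlinarith [mul_nonneg C0 p1]
  refine ⟨max N₁ N₂, fun Λ N N' hV hV' h1 h2 => ?_⟩
  rcases le_total N N' with h | h
  · rw [abs_sub_comm]; exact key Λ N N' hV hV' h1 h
  · exact key Λ N' N hV' hV h2 h

end Crest.Agent.T145.Fl
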