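import Crest.Agent.T145.FlDef2_82
import Crest.Agent.T145.FlA_51
import Crest.Agent.T145.FlRate_98

/-!
# Row 145 (helper14): the packaging leaves `ONu`, `OKb`
-/

set_option autoImplicit false

namespace Crest.Agent.T145.Fl

open Finset Pot Xi Real

namespace On14

variable {p : Par} {Λ : Lat} {L : ℕ}

theorem win_mono {θ δ δ' : ℝ} {l L : ℕ} (h : Λ.Win θ δ l L) (hd : δ ≤ δ') : Λ.Win θ δ' l L :=
  ⟨h.1, ⟨h.2.1.1.trans (mul_le_mul_of_nonneg_right hd (Nat.cast_nonneg _)),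
    h.2.1.2.trans (mul_le_mul_of_nonneg_right hd (Nat.cast_nonneg _))⟩, h.2.2.1, h.2.2.2.trans hd⟩

theorem amb_union {m : Mdl Pt} {U U' : Finset Pt} (h : Nc.Amb Λ m U) (h' : Nc.Amb Λ m U') :
    Nc.Amb Λ m (U ∪ U') := by
  refine ⟨h.ctr, h.anch, union_subset h.sub h'.sub, fun e he => ?_, fun e he he' => ?_,
    fun x hx => (mem_union.1 hx).elim (h.near.2.2 x) (h'.near.2.2 x)⟩
  · simp only [mem_union] at he
    by_cases h1 : e.1 ∈ U ∨ e.2 ∈ U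
    · exact h.near.1 e h1
    · exact h'.near.1 e (by tauto)
  · simp only [mem_union] at he'
    by_cases h1 : e.1 ∈ U ∨ e.2 ∈ U
    · exact h.near.2.1 e he h1
    · exact h'.near.2.1 e he (by tauto)

theorem nu_J (h : Gs p Λ L) {r : ℕ} (h0 : p.r₀ ≤ r) (z : Pt) :
    nu Λ p.w z r (Jz z) = nu Λ p.w 0 r (Jz 0) := by
  have h1 := A51.four_le h r
  have h2 := h.gd.2.1
  have h3 := h.mem.ok.one_le_rg
  have e := ((semiStmt Λ p.w r z h.mem.ok (by omega)).2 (Jz 0) (Om.ins_Jz _ (by omega))).2.1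
  rwa [Om.trl_Jz, zero_add] at e

/-- the norm in a larger box -/
theorem nm_le (h : Gs p Λ L) {r c : ℕ} {z : Pt} {F : Cfg Pt → ℝ} (h0 : p.r₀ ≤ r) (hL : r ≤ L)
    (hc : p.w * r + 3 * Λ.rg ≤ c) (hF : Ins z r F) :
    Nc.Nm Λ z c (Nc.St Λ z r F) ≤ 2 * nu Λ p.w z r F := by
  have iS := (A51.ir h h0 hF).St h.mem.ok
  exact (((FlF4.ld1 Λ h.mem.ok).2 z r (p.w * r) (p.w * r + 2 * Λ.rg) _ iS.rc le_rfl iS.dep
    iS.ig).2.2.2.1 c (by omega)).2.2.2.2.trans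
    (mul_le_mul_of_nonneg_right (A51.gam_le h h0 hL).2 (A51.nu_nonneg h.mem.ok _ _ _ _))

/-- two currents in any ambient model -/
theorem jj_le (h : Gs p Λ L) {r : ℕ} {z z' : Pt} {m : Mdl Pt} (h0 : p.r₀ ≤ r) (hL : p.w * r ≤ L)
    (hm : Nc.Amb Λ m (bl z (p.w * r))) (hm' : Nc.Amb Λ m (bl z' (p.w * r)))
    (hd : Disjoint (bl z (p.w * r)) (bl z' (p.w * r))) :
    |Ex (m.W 0) fun s => Jz z s * Jz z' s| ≤ 16 * nu Λ p.w 0 r (Jz 0) ^ 2 := by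
  have h2 := h.gd.2.1
  have h3 := h.mem.ok.one_le_rg
  have := (prodStmt p Λ L h m _ Bool univ (fun i => cond i z z') (fun _ => r)
    (fun i => Jz (cond i z z')) (fun _ => 1) (amb_union hm hm')
    ⟨by simp, fun i _ => Om.ins_Jz _ (by omega), fun _ _ => ⟨h0, hL⟩,
      fun i _ => by cases i; exacts [subset_union_right, subset_union_left],
      fun i _ j _ hij => by
        cases i <;> cases j
        exacts [absurd rfl hij, hd.symm, hd, absurd rfl hij]⟩ (fun _ _ _ _ _ => rfl) (by simp)).1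
  simpa only [Fintype.prod_bool, cond_true, cond_false, mul_one, nu_J h h0, pow_two] using this

/-- what the core gives in the verified range -/
theorem base {F : Fa} {θ₀ : ℝ} {q : Dat} (c : q.Core F θ₀) (A : ℝ) (hA : 0 ≤ A) :
    Evp fun P => A ≤ P.C ∧ q.p.w + 2 ≤ 2 ^ P.s ∧ ∀ l, ∃ a₁, ∀ Λ N k, q.fw.V F θ₀ P Λ l N k → a₁ ≤ k →
      Gs q.p Λ (q.L N) ∧ 0 ≤ q.y Λ N k ∧ ∀ r : ℕ, q.fw.r k ≤ r → 2 ^ P.s * r ≤ 2 ^ N →
        q.p.r₀ ≤ r ∧ q.p.w * r ≤ q.L N ∧ nu Λ q.p.w 0 r (Jz 0) ≤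
          q.D * q.y Λ N k * (2 * r / q.fw.r k) ^ ew q.p.w / (r : ℝ) ^ 2 := by
  obtain ⟨δ, h0, h1, h⟩ := c.res 1 one_pos
  obtain ⟨t, ht, ht'⟩ : ∃ t : ℕ, q.p.w + 2 ≤ 2 ^ t ∧ 2 * q.C ≤ 2 ^ t := by
    refine ⟨q.p.w + 2 + ⌈2 * q.C⌉₊, (Nat.le_add_right _ _).trans Nat.lt_two_pow_self.le, ?_⟩
    have : ⌈2 * q.C⌉₊ ≤ 2 ^ (q.p.w + 2 + ⌈2 * q.C⌉₊) :=
      (Nat.le_add_left _ _).trans Nat.lt_two_pow_self.le
    exact (Nat.le_ceil _).trans (by exact_mod_cast this)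
  refine ⟨⟨q.s + t, A, 1 / 2, 1 / 2, 1, δ, hA, by norm_num, by norm_num, by norm_num, by norm_num,
    one_pos, h0⟩, fun P hP => ⟨hP.2.1, ht.trans (Nat.pow_le_pow_right two_pos (le_of_add_le_right hP.1)),
      fun l => ?_⟩⟩
  obtain ⟨r₁, k₀, h⟩ := h l
  refine ⟨k₀, fun Λ N k hV hk => ?_⟩
  have hs : q.s + t ≤ P.s := hP.1
  have hδ : P.δ ≤ δ := hP.2.2.2.2.2
  have hN : q.v * (k + 1) + P.s ≤ N := hV.2.2
  have hk' : q.v * k₀ ≤ q.v * k := Nat.mul_le_mul_left _ hk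
  rw [mul_add_one] at hN
  have res := h Λ N hV.1 ⟨win_mono hV.2.1.1 hδ, hV.2.1.2.trans (hδ.trans h1)⟩ (by omega)
  have hr : q.fw.r k = q.W ^ k := by rw [Dat.W, ← pow_mul]; rfl
  have hR : q.R k = 2 * q.fw.r k := by rw [hr, Dat.R, Rk]; push_cast; rfl
  have hr0 : (0 : ℝ) < q.fw.r k := by rw [Mid.Fw.r]; positivity
  have hM := (res.cone k hk (by
    have : 2 ^ t * q.fw.r k ≤ q.L N := by
      rw [Mid.Fw.r, ← pow_add]; exact Nat.pow_le_pow_right two_pos (by change t + q.v * k ≤ _; omega)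
    have h2 : (2 : ℝ) ^ t * q.fw.r k ≤ q.L N := by exact_mod_cast this
    rw [hR]; nlinarith)).1
  have hy : 0 ≤ q.y Λ N k := by rw [Dat.y, yk]; positivity
  refine ⟨res.pack.toGs, hy, fun r h2 h3 => ?_⟩
  have h4 : q.p.r₀ ≤ r := by
    have a1 := res.r0
    have a2 := res.r1
    have a3 : q.W ^ k₀ ≤ q.W ^ k := Nat.pow_le_pow_right (by rw [Dat.W]; positivity) hk
    have a4 : r₁ ≤ r₁ ^ 2 := Nat.le_self_pow two_ne_zero _
    omega
  have h5 : q.p.w * r ≤ q.L N := by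
    have a1 : 2 ^ q.s * (2 ^ t * r) ≤ 2 ^ q.s * q.L N := by
      rw [Dat.L, ← pow_add, Nat.add_sub_cancel' (by omega), ← mul_assoc, ← pow_add]
      exact (Nat.mul_le_mul_right _ (Nat.pow_le_pow_right two_pos hs)).trans h3
    exact (Nat.mul_le_mul_right _ (by omega)).trans (Nat.le_of_mul_le_mul_left a1 (by positivity))
  have h6 : (q.fw.r k : ℝ) ≤ r := by exact_mod_cast h2
  have h7 := hr0.trans_le h6
  have hD := c.D1
  refine ⟨h4, h5, Prof.le hM.2.2 (by positivity) (by rw [hR]; positivity) (by positivity) h4 h5 ?_ ?_⟩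
  · rw [hR, div_le_iff₀ (by positivity), ← mul_div_assoc, le_div_iff₀ hr0]; nlinarith
  · rw [hR, show 2 * (r : ℝ) / q.fw.r k * (2 * q.fw.r k) = 4 * r by field_simp; norm_num]; linarith

end On14

theorem leaf_nu : Leaf ONu := fun F θ₀ q _ c => by
  have hD := c.D1
  refine (On14.base c (4 * q.W * q.D) (by positivity)).mono fun P ⟨hC, hs, h⟩ l => ?_
  obtain ⟨a₁, h⟩ := h l
  refine ⟨a₁, fun Λ N k hV hk r n z h1 h2 h3 => ?_⟩
  obtain ⟨hG, hy, h⟩ := h Λ N k hV hk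
  obtain ⟨h4, h5, h6⟩ := h r h1 (by
    refine (Nat.mul_le_mul_left _ h2).trans ?_
    rw [Mid.Fw.r, ← pow_add]; exact Nat.pow_le_pow_right two_pos (by have := hV.2.2; omega))
  have a1 := A51.four_le hG r
  have a2 := hG.gd.2.1
  have a3 := hG.mem.ok.one_le_rg
  have a4 : (q.p.w + 2) * r ≤ n := (Nat.mul_le_mul_right _ hs).trans h3
  have hr0 : (0 : ℝ) < q.fw.r k := by rw [Mid.Fw.r]; positivity
  have h7 : (2 * r / q.fw.r k : ℝ) ^ ew q.p.w ≤ 2 * q.W := by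
    have b1 : (q.fw.r k : ℝ) ≤ r := by exact_mod_cast h1
    have b2 : r ≤ q.W * q.fw.r k := h2.trans_eq (by
      rw [Mid.Fw.r, Mid.Fw.r, Dat.W, ← pow_add, mul_add_one, add_comm]; rfl)
    have b3 : (r : ℝ) ≤ q.W * q.fw.r k := by exact_mod_cast b2
    refine ((rpow_le_rpow_of_exponent_le (by rw [le_div_iff₀ hr0]; linarith)
      ((ew_le' hG.w4).trans (by norm_num))).trans_eq (rpow_one _)).trans ?_
    rw [div_le_iff₀ hr0]; linarith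
  refine (On14.nm_le hG h4 (by omega) (by rw [add_mul] at a4; omega) (Om.ins_Jz _ (by omega))).trans ?_
  rw [On14.nu_J hG h4]
  calc _ ≤ 2 * (q.D * q.y Λ N k * (2 * q.W) / (r : ℝ) ^ 2) := by
        gcongr; exact h6.trans (by gcongr)
    _ = 4 * q.W * q.D * q.y Λ N k / (r : ℝ) ^ 2 := by ring
    _ ≤ P.C * q.y Λ N k / (r : ℝ) ^ 2 := by gcongr

theorem leaf_kb : Leaf OKb := fun F θ₀ q _ c => by
  have hD := c.D1
  refine (On14.base c (32 * q.D ^ 2) (by positivity)).mono fun P ⟨hC, hs, h⟩ l => ?_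
  obtain ⟨a₁, h⟩ := h l
  refine ⟨a₁, fun Λ N k hV hk r m z z' h1 h2 hm hm' hd => ?_⟩
  obtain ⟨hG, hy, h⟩ := h Λ N k hV hk
  obtain ⟨h4, h5, h6⟩ := h r h1 h2
  have a4 : q.p.w * r ≤ 2 ^ P.s * r := Nat.mul_le_mul_right _ (by omega)
  have hr0 : (0 : ℝ) < q.fw.r k := by rw [Mid.Fw.r]; positivity
  have b1 : (q.fw.r k : ℝ) ≤ r := by exact_mod_cast h1
  have b2 := hr0.trans_le b1
  have h7 : ((2 * r / q.fw.r k : ℝ) ^ ew q.p.w) ^ 2 ≤ 2 * r / q.fw.r k := by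
    rw [← rpow_two, ← rpow_mul (by positivity)]
    exact (rpow_le_rpow_of_exponent_le (by rw [le_div_iff₀ hr0]; linarith)
      (by linarith [ew_le' hG.w4])).trans_eq (rpow_one _)
  refine (On14.jj_le hG h4 h5 (FlF4.amb_mono hm (bl_mono z a4)) (FlF4.amb_mono hm' (bl_mono z' a4))
    (hd.mono (bl_mono z a4) (bl_mono z' a4))).trans ?_
  have h8 := A51.nu_nonneg hG.mem.ok q.p.w 0 r (Jz 0)
  calc _ ≤ 16 * (q.D * q.y Λ N k * (2 * r / q.fw.r k) ^ ew q.p.w / (r : ℝ) ^ 2) ^ 2 := by gcongr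
    _ = 16 * (q.D * q.y Λ N k / (r : ℝ) ^ 2) ^ 2 * ((2 * r / q.fw.r k : ℝ) ^ ew q.p.w) ^ 2 := by ring
    _ ≤ 16 * (q.D * q.y Λ N k / (r : ℝ) ^ 2) ^ 2 * (2 * r / q.fw.r k) := by gcongr
    _ = 32 * q.D ^ 2 * q.y Λ N k ^ 2 / (q.fw.r k * (r : ℝ) ^ 3) := by field_simp; ring
    _ ≤ P.C * q.y Λ N k ^ 2 / (q.fw.r k * (r : ℝ) ^ 3) := by gcongr

end Crest.Agent.T145.Fl
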