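import Crest.Agent.T145.FlAmb_4
import Crest.Agent.T145.FlNeu_31

/-!
# Row 145, module Fl: the operator product expansion of `J` (`Fl.opeFStmt`, helper4)
-/

set_option autoImplicit false

namespace Crest.Agent.T145.Fl

open Finset Pot Xi Real

/-- OPE: `J = α sin + O (Y ^ (1 + 1/25))`, with a small charged mean -/
def OpeFStmt : Prop := ∀ (p : Par) (W : ℕ) (M : ℝ), 2 ≤ W → 1 ≤ M → ∃ C : ℝ, 0 ≤ C ∧
  ∀ Λ ω r₁ L N, Env p Λ ω L N → Pur p W Λ r₁ L → ∀ R Y : ℝ, Maj p Λ L R Y → C * Y ≤ 1 → C * R ≤ L →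
    (r₁ : ℝ) ^ 2 ≤ R → 1 / 2 ≤ gk ω R → ∀ r : ℕ, R / M ≤ r → (r : ℝ) ≤ M * R →
    ∃ α ρ : ℝ, 0 < ρ ∧ 2 * ρ ≤ r ∧ ∀ z : Pt,
      (∀ c : ℕ, p.w * r ≤ c → Nc.Nm Λ z c (Nc.St Λ z r fun s =>
        Jz z s - α * sin (2 * π * pr (fun x => xi ρ (x - z)) s)) ≤ C * Y ^ (26 / 25 : ℝ) / (r : ℝ) ^ 2) ∧
      ∀ m : Mdl Pt, Nc.Amb Λ m (bl z L) →
        |α| * Ph (m.W 0) ((2 * π) • pr fun x => xi ρ (x - z)) ≤
          C * (Y ^ (26 / 25 : ℝ) + (R / L) ^ cw p.w) / (r : ℝ) ^ 2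

namespace Ope4

theorem num {W : ℕ} (hW : 2 ≤ W) {Y R e : ℝ} (h0 : 0 < Y) (h1 : Y ≤ 1) (hR : 1 ≤ R) (e1 : e ≤ 1 / 100)
    (h : R ^ (-e) ≤ Y) : ∃ (m : ℕ) (u t : ℝ), 1 ≤ u ∧ (W : ℝ) ^ m = u ^ 100 ∧ Y * u ^ 400 ≤ 1 ∧ 0 < t ∧
      Y ^ (26 / 25 : ℝ) = Y * t ∧ 1 ≤ W * t * u ^ 16 ∧ 1 ≤ R * Y ^ 100 ∧
      (W : ℝ) ^ (e * m) ≤ u ∧ (W : ℝ) ^ (-(11 / 5 : ℝ) * m) = (u ^ 220)⁻¹ ∧
      ∀ K : ℝ, 1 ≤ K → 0 ≤ e → (K * u ^ 100) ^ e ≤ K * u := by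
  have w1 : (1 : ℝ) < W := by exact_mod_cast hW
  obtain ⟨m, a1, a2⟩ := exists_nat_pow_near (x := Y⁻¹) (y := (W : ℝ) ^ 4) (one_le_inv₀ h0 |>.2 h1)
    (one_lt_pow₀ w1 (by norm_num))
  have w0 : (0 : ℝ) ≤ W := by positivity
  have hu : ∀ k : ℕ, ((W : ℝ) ^ ((m : ℝ) / 100)) ^ k = (W : ℝ) ^ ((m : ℝ) / 100 * k) := fun k =>
    (rpow_mul_natCast w0 _ _).symm
  have u1 : 1 ≤ (W : ℝ) ^ ((m : ℝ) / 100) := one_le_rpow w1.le (by positivity)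
  have u2 : (W : ℝ) ^ m = ((W : ℝ) ^ ((m : ℝ) / 100)) ^ 100 := by
    rw [hu, ← rpow_natCast]; congr 1; push_cast; ring
  have u3 : (W : ℝ) ^ (-(11 / 5 : ℝ) * m) = (((W : ℝ) ^ ((m : ℝ) / 100)) ^ 220)⁻¹ := by
    rw [hu, ← rpow_neg w0]; congr 1; push_cast; ring
  have u4 : (W : ℝ) ^ (e * m) ≤ (W : ℝ) ^ ((m : ℝ) / 100) := rpow_le_rpow_of_exponent_le w1.le (by
    nlinarith [(Nat.cast_nonneg m : (0 : ℝ) ≤ m)])
  generalize (W : ℝ) ^ ((m : ℝ) / 100) = u at *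
  have u5 : ((W : ℝ) ^ 4) ^ m = u ^ 400 := by rw [← pow_mul, mul_comm, pow_mul, u2, ← pow_mul]
  have t1 : (Y ^ (1 / 25 : ℝ)) ^ 25 = Y := by rw [← rpow_mul_natCast h0.le]; norm_num
  refine ⟨m, u, Y ^ (1 / 25 : ℝ), u1, u2, ?_, by positivity, ?_, ?_, ?_, u4, u3, fun K hK e0 => ?_⟩
  · rw [u5] at a1
    calc _ ≤ Y * Y⁻¹ := by gcongr
      _ = 1 := mul_inv_cancel₀ h0.ne'
  · rw [← rpow_one_add' h0.le (by norm_num)]; norm_num
  · rw [pow_succ, u5, inv_lt_iff_one_lt_mul₀ h0] at a2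
    refine (one_le_pow_iff_of_nonneg (by positivity) (n := 25) (by norm_num)).1 ?_
    rw [mul_pow, mul_pow, t1, ← pow_mul]
    have : (W : ℝ) ^ 4 ≤ W ^ 25 := pow_le_pow_right₀ w1.le (by norm_num)
    calc (1 : ℝ) ≤ u ^ 400 * W ^ 4 * Y := a2.le
      _ ≤ u ^ 400 * W ^ 25 * Y := by gcongr
      _ = _ := by ring
  · have : R⁻¹ ≤ Y ^ 100 := calc
      R⁻¹ = R ^ (-1 : ℝ) := (rpow_neg_one R).symm
      _ ≤ R ^ (-e * (100 : ℕ)) := rpow_le_rpow_of_exponent_le hR (by push_cast; linarith)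
      _ = (R ^ (-e)) ^ 100 := rpow_mul_natCast (by linarith) _ _
      _ ≤ Y ^ 100 := by gcongr
    rwa [inv_le_iff_one_le_mul₀' (by linarith)] at this
  · rw [mul_rpow (by linarith) (by positivity), ← rpow_natCast, ← rpow_mul (by linarith)]
    exact mul_le_mul ((rpow_le_rpow_of_exponent_le hK (by linarith)).trans_eq (rpow_one _))
      ((rpow_le_rpow_of_exponent_le u1 (by push_cast; linarith)).trans_eq (rpow_one _))
      (by positivity) (by linarith)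

theorem small {B C Y u : ℝ} (hB : 0 ≤ B) (h0 : 0 < Y) (u1 : 1 ≤ u) (h : Y * u ^ 400 ≤ 1) (hC : B ^ 2 ≤ C)
    (hY : C * Y ≤ 1) : Y * u ^ 2 ≤ 1 ∧ B * (Y * u) ≤ 1 := by
  have a1 : Y * u ^ 2 ≤ 1 := le_trans (by gcongr; norm_num) h
  refine ⟨a1, (pow_le_one_iff_of_nonneg (by positivity) two_ne_zero).1 ?_⟩
  calc (B * (Y * u)) ^ 2 = B ^ 2 * Y * (Y * u ^ 2) := by ring
    _ ≤ C * Y * 1 := by gcongr; exact mul_nonneg ((sq_nonneg B).trans hC) h0.le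
    _ ≤ 1 := by linarith

theorem geo {C M Y R u : ℝ} {l r r₁ : ℕ} (h0 : 0 < Y) (hM : 1 ≤ M) (hC : M + 1 ≤ C) (hY : C * Y ≤ 1)
    (u1 : 1 ≤ u) (hl : (l : ℝ) = u ^ 100) (h : Y * u ^ 400 ≤ 1) (hR : 1 ≤ R * Y ^ 100)
    (h1 : (r₁ : ℝ) ^ 2 ≤ R) (hr : R / M ≤ r) :
    C - 1 ≤ (r / l : ℕ) ∧ r₁ ≤ r / l ∧ (r : ℝ) ≤ 2 * u ^ 100 * (r / l : ℕ) := by
  have l1 : (1 : ℝ) ≤ l := hl ▸ one_le_pow₀ u1
  have l0 : 0 < l := by exact_mod_cast (by linarith : (0 : ℝ) < l)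
  have a1 : (r : ℝ) < l * ((r / l : ℕ) + 1) := by exact_mod_cast Nat.lt_mul_div_succ r l0
  generalize r / l = a at *
  have Y1 : Y ≤ 1 := by nlinarith
  have R0 : 0 < R := by by_contra h'; nlinarith [pow_pos h0 100]
  have a2 : Y * l ≤ 1 := le_trans (by rw [hl]; gcongr; norm_num) h
  have a3 : Y * M ≤ 1 := by nlinarith
  rw [div_le_iff₀ (by linarith)] at hr
  have a0 : (0 : ℝ) ≤ a := Nat.cast_nonneg a
  have a4 : R * Y ^ 2 < a + 1 := calc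
    R * Y ^ 2 ≤ r * M * Y ^ 2 := by gcongr
    _ < l * (a + 1) * M * Y ^ 2 := by gcongr
    _ = Y * l * (Y * M) * (a + 1) := by ring
    _ ≤ 1 * 1 * (a + 1) := by gcongr
    _ = _ := by ring
  have a5 : 1 ≤ R * Y ^ 4 := hR.trans (by gcongr 1; exact pow_le_pow_of_le_one h0.le Y1 (by norm_num))
  have a6 : C ≤ R * Y ^ 2 := calc
    C ≤ C * (R * Y ^ 4) := le_mul_of_one_le_right (by linarith) a5
    _ = C * Y * Y * (R * Y ^ 2) := by ring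
    _ ≤ 1 * 1 * (R * Y ^ 2) := by gcongr
    _ = _ := by ring
  refine ⟨by linarith, ?_, by rw [← hl]; nlinarith⟩
  have a7 : (r₁ : ℝ) ^ 2 < (a + 1) ^ 2 := calc
    _ ≤ R * (R * Y ^ 4) := h1.trans (le_mul_of_one_le_right R0.le a5)
    _ = (R * Y ^ 2) ^ 2 := by ring
    _ < _ := by gcongr
  have a8 : (r₁ : ℝ) < a + 1 := lt_of_pow_lt_pow_left₀ 2 (by positivity) a7
  exact Nat.lt_succ_iff.1 (by exact_mod_cast a8)

end Ope4

open Ope4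

set_option maxHeartbeats 1600000 in
theorem opeFStmt (hC : CmStmt) (hK : KbStmt) : OpeFStmt := by
  intro p W M hW hM
  obtain ⟨c₁, h1, H₁⟩ := hC p
  obtain ⟨c₂, h2, H₂⟩ := hK p
  obtain ⟨c₃, h3, H₃⟩ := Amb4.part1 p.w
  obtain ⟨C, b1, b2, b3, b4, b5, b6, b7⟩ : ∃ C : ℝ, 384 * M * W ≤ C ∧ 512 * M ^ 2 * c₁ * W ≤ C ∧
      64 * M ^ 2 * c₃ ≤ C ∧ (8 * M * (1 + c₁)) ^ 2 ≤ C ∧ 256 * M ^ 2 * c₂ ≤ C ∧
      (p.w + c₁ + 3) * M ≤ C ∧ 4 * c₁ + p.r₀ + 5 ≤ C :=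
    ⟨384 * M * W + 512 * M ^ 2 * c₁ * W + 64 * M ^ 2 * c₃ + (8 * M * (1 + c₁)) ^ 2 + 256 * M ^ 2 * c₂ +
      (p.w + c₁ + 3) * M + (4 * c₁ + p.r₀ + 5), by
      have : 0 ≤ 384 * M * W := by positivity
      have : 0 ≤ 512 * M ^ 2 * c₁ * W := by positivity
      have : 0 ≤ 64 * M ^ 2 * c₃ := by positivity
      have : 0 ≤ (8 * M * (1 + c₁)) ^ 2 := by positivity
      have : 0 ≤ 256 * M ^ 2 * c₂ := by positivity
      have : 0 ≤ (p.w + c₁ + 3) * M := by positivity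
      have : 0 ≤ 4 * c₁ + p.r₀ + 5 := by positivity
      refine ⟨?_, ?_, ?_, ?_, ?_, ?_, ?_⟩ <;> linarith⟩
  have r0 : (0 : ℝ) ≤ p.r₀ := Nat.cast_nonneg _
  have w0 : (0 : ℝ) ≤ p.w := Nat.cast_nonneg _
  have hwM : 0 ≤ p.w * M := by positivity
  have hcM : 0 ≤ c₁ * M := by positivity
  refine ⟨C, by linarith, fun Λ ω r₁ L N h hP R Y hY hCY hCR hr₁ hg r hr hr' => ?_⟩
  have ok := h.mem.ok
  have Y0 := hY.pos
  have R1 := hY.one_le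
  have e0 := ew_nonneg p.w
  obtain ⟨m, u, t, u1, u2, u3, t0, t1, t2, t3, u4, u5, u6⟩ := num hW Y0 (by nlinarith) R1
    ((ew_le' h.w4).trans (by norm_num)) hY.2.1
  obtain ⟨g1, g2, g3⟩ := geo (l := W ^ m) Y0 hM (by linarith) hCY u1 (by exact_mod_cast u2) u3 t3 hr₁ hr
  have g4 : W ^ m * (r / W ^ m) ≤ r := Nat.mul_div_le _ _
  have g5 : r / W ^ m ≤ W ^ m * (r / W ^ m) := Nat.le_mul_of_pos_left _ (by positivity)
  generalize r / W ^ m = a at *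
  obtain ⟨s1, s2⟩ := small (by positivity) Y0 u1 u3 b4 hCY
  have a0 : p.r₀ ≤ a := by exact_mod_cast (by linarith : (p.r₀ : ℝ) ≤ a)
  have a4 : (4 : ℝ) ≤ a := by linarith
  have ar : (a : ℝ) ≤ r := by exact_mod_cast g5.trans g4
  have MR : 1 ≤ M * R := one_le_mul_of_one_le_of_one_le hM R1
  have L1 : (p.w + c₁ + 3) * (M * R) ≤ L := le_trans (by rw [← mul_assoc]; gcongr) hCR
  have L2 : p.w * r ≤ L := by
    have : (p.w : ℝ) * r ≤ (p.w + c₁ + 3) * (M * R) := by gcongr; linarith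
    exact_mod_cast this.trans L1
  have L3 : 3 * (M * R) ≤ L := le_trans (by gcongr; linarith) L1
  have L4 : c₁ * (M * R) ≤ L := le_trans (by gcongr; linarith) L1
  have RM : R ≤ M * R := le_mul_of_one_le_left (by linarith) hM
  have w4 := A51.four_le h.toGs
  have rg := h.gd.2.1
  have hwa : p.w * (W ^ m * a) ≤ L := (Nat.mul_le_mul_left _ g4).trans L2
  have hwa' : p.w * a ≤ L := (Nat.mul_le_mul_left _ g5).trans hwa
  have u0 : 1 ≤ u ^ 100 := one_le_pow₀ u1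
  have m0 : 1 ≤ 8 * M * u ^ 100 := one_le_mul_of_one_le_of_one_le (by linarith) u0
  have m1 : R / (8 * M * u ^ 100) ≤ a / 4 := by
    rw [div_le_iff₀ (by linarith)] at hr ⊢
    calc R ≤ r * M := hr
      _ ≤ 2 * u ^ 100 * a * M := by gcongr
      _ = _ := by ring
  have m2 : (a : ℝ) ≤ 8 * M * u ^ 100 * R := calc
    (a : ℝ) ≤ 1 * (M * R) := by linarith
    _ ≤ 8 * u ^ 100 * (M * R) := by gcongr; linarith
    _ = _ := by ring
  have m3 := u6 (8 * M) (by linarith) e0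
  have r1 : (0 : ℝ) < r := by linarith
  have n1 : nu Λ p.w 0 a (Jz 0) ≤ 32 * M * Y * u ^ 201 / (r : ℝ) ^ 2 := by
    refine (hY.prof.le Y0.le (by linarith) (by linarith) a0 hwa' (by linarith) m2).trans ?_
    rw [div_le_div_iff₀ (by positivity) (by positivity)]
    calc _ ≤ Y * (8 * M * u) * (2 * u ^ 100 * a) ^ 2 := by gcongr
      _ = _ := by ring
  have a1 : 1 ≤ a := by exact_mod_cast (by linarith : (1 : ℝ) ≤ a)
  obtain ⟨α, p1, p2, -⟩ := hP a m (Jz 0) a0 g2 hwa (ins_Jz 0 a1) (odd_Jz 0) (d4_Jz 0)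
  have n0 := A51.nu_nonneg ok p.w 0 a (Jz 0)
  have iF : Ins 0 a fun s => Jz 0 s - α * Sn (a / 4) s := (ins_Jz 0 a1).sub ((ins_Sn4 a1).smul α)
  have n2 : |α| ≤ 64 * M * Y * u ^ 202 / (r : ℝ) ^ 2 := calc
    _ ≤ 2 * u * (32 * M * Y * u ^ 201 / (r : ℝ) ^ 2) := p1.trans (by gcongr)
    _ = _ := by ring
  have t4 : (u ^ 16)⁻¹ ≤ W * t := by rwa [inv_le_iff_one_le_mul₀ (by positivity)]
  refine ⟨α, a / 4, by linarith, by linarith, fun z => ⟨fun c hc => ?_, fun m' hm' => ?_⟩⟩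
  · have k1 := (fusStmt p Λ L h.toGs 0 r L2).1 _ _ (fun _ => 1) (a0.trans g5) g4 (iF.mono g5)
      (DepG.const _ _) (Out.const _ _) (by simp)
    simp only [mul_one] at k1
    have iF' := iF.mono (g5.trans g4)
    have k2 := Amb4.Nm_St_le h.toGs (by omega) (by have := w4 r; omega) (iF'.trl z) hc
    rw [((semiStmt Λ p.w r z ok (by have := w4 r; omega)).2 _ iF').2.1] at k2
    have e : trl z (fun s => Jz 0 s - α * Sn (a / 4) s) =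
        fun s => Jz z s - α * sin (2 * π * pr (fun x => xi (a / 4) (x - z)) s) := by
      rw [trl_sub, trl_smul, trl_Jz, trl_Sn]; simp only [cp_neg_half]
    rw [e] at k2
    rw [u5] at p2
    rw [t1]
    calc _ ≤ 2 * (2 * (3 * (u ^ 220)⁻¹ * (32 * M * Y * u ^ 201 / (r : ℝ) ^ 2))) := by
          refine k2.trans ?_
          gcongr
          refine k1.trans ?_
          gcongr
          exact p2.trans (by gcongr)
      _ = 384 * M * ((u ^ 16)⁻¹ * (u ^ 3)⁻¹) * Y / (r : ℝ) ^ 2 := by field_simp; ring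
      _ ≤ 384 * M * (W * t * 1) * Y / (r : ℝ) ^ 2 := by
          gcongr; exact inv_le_one_of_one_le₀ (one_le_pow₀ u1)
      _ = 384 * M * W * (Y * t) / (r : ℝ) ^ 2 := by ring
      _ ≤ _ := by gcongr
  · have iC : Ins 0 a (cp (xi (a / 4)) 0) := ins_cp (chq_xi (by linarith) (by linarith)) 0
    have k1 := H₃ p Λ ω L N rfl h m' z hm' a _ a0 hwa' iC
    have k2 := ((semiStmt Λ p.w a 0 ok (by have := w4 a; omega)).1 _ iC).2.2.2.1 1 (abs_cp_le _ _)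
    have hM' : Maj p Λ L (a / 4) (8 * M * (Y * u)) := (hY.rescale (by linarith) (by linarith) m1
      (by linarith)).mono ((mul_le_mul_of_nonneg_left m3 Y0.le).trans_eq (by ring))
    have yu : 0 ≤ 8 * M * (Y * u) := by positivity
    have k3 := N31.gk_near (H₂ Λ ω L N h R Y hY).2.2 m0 R1 (by linarith) m1 (by linarith)
      (by linarith) (by linarith)
    have k4 : c₂ * Y ^ 2 * (8 * M * u ^ 100) ^ (2 * ew p.w) ≤ 1 / 4 := by
      rw [mul_comm 2, rpow_mul (by linarith), rpow_two]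
      calc _ ≤ c₂ * Y ^ 2 * (8 * M * u) ^ 2 := by gcongr
        _ = 256 * M ^ 2 * c₂ * Y * (Y * u ^ 2) / 4 := by ring
        _ ≤ C * Y * 1 / 4 := by gcongr; exact mul_nonneg (by linarith) Y0.le
        _ ≤ _ := by linarith
    have k5 := (H₁ Λ ω L N h _ _ hM' (by nlinarith [mul_nonneg h1 yu]) (by linarith)
      (le_trans (by gcongr; linarith) L4) (by linarith [(abs_le.1 k3).1]) (by nlinarith) 1 one_ne_zero
      (by norm_num)).1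
    rw [Int.cast_one, one_smul] at k5
    have L0 : (0 : ℝ) < L := by linarith
    have k6 : ((a : ℝ) / L) ^ cw p.w ≤ M * (R / L) ^ cw p.w := by
      refine (rpow_le_rpow (by positivity) (show (a : ℝ) / L ≤ M * (R / L) by
        rw [← mul_div_assoc]; gcongr; linarith) (cw_nonneg _)).trans ?_
      rw [mul_rpow (by linarith) (by positivity)]
      exact mul_le_mul_of_nonneg_right ((rpow_le_rpow_of_exponent_le hM
        ((cw_le' h.w4).trans (by norm_num))).trans_eq (rpow_one _)) (by positivity)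
    have e : Ph (m'.W 0) ((2 * π) • pr fun x => xi (a / 4) (x - z)) =
        Ex (m'.W 0) (trl z (cp (xi (a / 4)) 0)) := by
      rw [trl_cp, Ph]; congr 1; funext s; simp [cp]
    have k7 : Ph (m'.W 0) ((2 * π) • pr fun x => xi (a / 4) (x - z)) ≤
        c₁ * (8 * M * (Y * u)) + c₃ * (M * (R / L) ^ cw p.w) * 1 := by
      have : c₃ * ((a : ℝ) / L) ^ cw p.w * nu Λ p.w 0 a (cp (xi (a / 4)) 0) ≤
          c₃ * (M * (R / L) ^ cw p.w) * 1 := by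
        gcongr; exact A51.nu_nonneg ok _ _ _ _
      rw [e]; linarith [(abs_le.1 k1).2, (abs_le.1 k5).2]
    have k8 : Y * u ^ 203 ≤ W * t := by
      refine le_trans ?_ t4
      rw [← one_div, le_div_iff₀ (by positivity)]
      exact le_trans (by rw [mul_assoc, ← pow_add]; gcongr; norm_num) u3
    have k9 : Y * u ^ 202 ≤ 1 := le_trans (by gcongr; norm_num) u3
    rw [t1]
    calc _ ≤ |α| * (c₁ * (8 * M * (Y * u)) + c₃ * (M * (R / L) ^ cw p.w) * 1) := by gcongr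
      _ ≤ 64 * M * Y * u ^ 202 / (r : ℝ) ^ 2 *
          (c₁ * (8 * M * (Y * u)) + c₃ * (M * (R / L) ^ cw p.w) * 1) := by gcongr
      _ = (512 * M ^ 2 * c₁ * Y * (Y * u ^ 203) +
          64 * M ^ 2 * c₃ * (Y * u ^ 202) * (R / L) ^ cw p.w) / (r : ℝ) ^ 2 := by ring
      _ ≤ (512 * M ^ 2 * c₁ * Y * (W * t) + 64 * M ^ 2 * c₃ * 1 * (R / L) ^ cw p.w) / (r : ℝ) ^ 2 := by
          gcongr
      _ = (512 * M ^ 2 * c₁ * W * (Y * t) + 64 * M ^ 2 * c₃ * (R / L) ^ cw p.w) / (r : ℝ) ^ 2 := by ring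
      _ ≤ (C * (Y * t) + C * (R / L) ^ cw p.w) / (r : ℝ) ^ 2 := by gcongr
      _ = _ := by ring

end Crest.Agent.T145.Fl
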