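import Crest.Agent.T145.FlOC_64
import Crest.Agent.T145.FlOpe_4

/-!
# Row 145, packaging of the odd flow (helper64): the leaf OPE
-/

set_option autoImplicit false

namespace Crest.Agent.T145.Fl

open Finset Real O64

theorem O64.half_le {q : Dat} {F : Fa} {θ₀ : ℝ} (c : q.Core F θ₀) {Λ : Lat} {N k : ℕ}
    (h : |q.fw.x Λ N k| ≤ 1 / 10) : 1 / 2 ≤ gk (tor Λ N) (q.R k) := by
  have a1 : 1 - (4 : ℝ)⁻¹ ≤ log q.W :=
    (one_sub_inv_le_log_of_pos four_pos).trans (log_le_log four_pos (four_le_W' c))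
  have a2 : 1 ≤ q.fw.κ := by rw [kap_eq]; nlinarith [pi_gt_three]
  have a3 : 63 / 100 ≤ 2 / π := by rw [le_div_iff₀ pi_pos]; linarith [pi_lt_d2]
  rw [x_eq] at h
  by_contra hn
  nlinarith [(abs_le.1 h).1]

theorem leaf_ope (hO : OpeFStmt) : Leaf Mid.Ope := by
  intro F θ₀ q _ c
  obtain ⟨C, C0, H⟩ := hO q.p q.W q.W c.two_le_W (one_le_W' q)
  have c0 : 0 ≤ q.C := zero_le_one.trans c.C1
  have d0 : 0 ≤ q.D := zero_le_one.trans c.D1
  have w0 : (0 : ℝ) ≤ q.p.w := Nat.cast_nonneg _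
  have c1 : 0 < C * q.D + 1 := by positivity
  refine (((((evp_at c (inv_pos.2 c1) (2 * C + 2 * q.C + q.p.w)).and (evp_th q.p.w)).and
    (evp_C (C * q.D ^ (26 / 25 : ℝ)))).and (evp_ε (ε := 1 / 10) (by norm_num))).and
    (evp_d (d := 1 / 25) (by norm_num))).mono fun P ⟨⟨⟨⟨⟨hA, hb⟩, hθ⟩, hC⟩, hε⟩, hd⟩ l a => ?_
  obtain ⟨r₁, k₀, hb⟩ := hb l
  refine ⟨max a k₀, C * (2 ^ (q.s + 1) : ℝ) ^ cw q.p.w, fun Λ N k hV hk hB r h1 h2 => ?_⟩
  have h := hb Λ N k hV (le_of_max_le_right hk)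
  obtain ⟨s1, s2⟩ := scales c h1 h2
  obtain ⟨hM, y1⟩ := h.majD c0 (by linarith)
  have y0 := q.y_nonneg Λ N k
  have η1 : q.fw.η Λ N k ≤ 1 / 10 := (hB k (le_of_max_le_left hk) le_rfl).trans hε
  have η2 : q.fw.η Λ N k = |q.fw.x Λ N k| + q.y Λ N k := rfl
  have x0 := abs_nonneg (q.fw.x Λ N k)
  have b1 : C * (q.D * q.y Λ N k) ≤ 1 := by
    have := mul_le_mul_of_nonneg_left y1 c1.le
    rw [mul_inv_cancel₀ c1.ne'] at this
    nlinarith
  obtain ⟨α, ρ, ρ0, ρ1, E⟩ := H Λ _ r₁ _ _ h.env h.pur _ _ hM b1 (h.roomR C0 (by linarith))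
    (h.toRes.sq_le h.k0) (half_le c (by linarith)) r s1 s2
  have b2 : C * (q.D * q.y Λ N k) ^ (26 / 25 : ℝ) ≤ P.C * q.fw.η Λ N k ^ (1 + P.d) := by
    rw [mul_rpow d0 y0, ← mul_assoc]
    refine mul_le_mul hC ((rpow_le_rpow y0 (by linarith) (by norm_num)).trans
      (rpow_le_rpow_of_exponent_ge' (by linarith) (by linarith) (by linarith [P.d0]) (by linarith)))
      (by positivity) P.C0
  refine ⟨α, Xi.xi ρ, Xi.sup_xi ρ0 ρ1, Xi.sum_xi ρ0 ρ1, fun z => ⟨fun n hn => ?_, fun m hm => ?_⟩⟩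
  · have b3 : q.p.w ≤ 2 ^ P.s := by exact_mod_cast (by linarith : (q.p.w : ℝ) ≤ 2 ^ P.s)
    exact ((E z).1 n ((Nat.mul_le_mul_right r b3).trans hn)).trans
      (div_le_div_of_nonneg_right b2 (by positivity))
  · refine ((E z).2 m (FlF4.amb_mono hm (bl_mono z (L_le q N)))).trans
      (div_le_div_of_nonneg_right ?_ (by positivity))
    rw [mul_add, mul_assoc]
    exact add_le_add b2 (mul_le_mul_of_nonneg_left (h.ratio_le hθ) C0)

end Crest.Agent.T145.Fl
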