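import Crest.Agent.T145.FlSYD_74
import Crest.Agent.T145.FlBas_4
import Crest.Agent.T145.FlSw_22
import Crest.Agent.T145.FlBare_80
import Crest.Agent.T145.FlRate_98

/-!
# Row 145, STEP-y: the per-site bound `SiteYStmt` (helper60)
-/

set_option autoImplicit false

namespace Crest.Agent.T145.Fl

open Finset Pot Xi Real

namespace SY60

/-! ## the interpolated charge -/

section det
variable {W R t : ℝ} {n : ℕ}

theorem xt_apply (W R t : ℝ) (y : Pt) : xt W R t y = xi R y + t * (xi (W * R) y - xi R y) := by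
  rw [xt, A0_wt]; rfl

theorem xt_in (hW : 1 ≤ W) (hR : 0 < R) (hn : (n : ℝ) + 1 ≤ R) {y : Pt} (hy : y ∈ bl 0 n) :
    xt W R t y = 0 := by
  have : R ≤ W * R := le_mul_of_one_le_left hR.le hW
  rw [xt_apply, xi_in hR hn hy, xi_in (by linarith) (by linarith) hy]; ring

theorem chq_xt (hW : 1 ≤ W) (hR : 0 < R) (hn : 2 * (W * R) ≤ n) : Chq (bl 0 n) (xt W R t) 1 := by
  have h0 : R ≤ W * R := le_mul_of_one_le_left hR.le hW
  have h1 := chq_xi (r := n) hR (by linarith)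
  have h2 := (chq_xi (r := n) (by linarith) hn).sub h1
  rw [sub_self] at h2
  rw [xt, A0_wt]
  simpa only [add_zero] using h1.add (h2.smul t)

theorem lr_xt : ∃ σ : ℝ, 0 ≤ σ ∧ ∀ (W R t : ℝ) (z : Pt) (r : ℕ), 1 ≤ W → t ∈ Set.Icc (0 : ℝ) 1 → 1 ≤ r →
    (r : ℝ) ≤ R → ∃ u, Lr (xt W R t) u z r σ := by
  obtain ⟨C, h0, hC⟩ := lr_wt
  refine ⟨C, h0, fun W R t z r hW ht hr hR => ?_⟩
  have hr1 : (1 : ℝ) ≤ r := by exact_mod_cast hr
  have h1 := hC R (W * R) 1 t z r hr hR (le_mul_of_one_le_left (by linarith) hW)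
  rw [one_smul] at h1
  refine ⟨_, h1.mono ?_⟩
  rw [abs_of_nonneg ht.1, abs_of_nonneg (sub_nonneg.2 ht.2), sub_add_cancel, one_mul]
  exact mul_le_of_le_one_right h0 (pow_le_one₀ (div_nonneg (by linarith) (by linarith))
    ((div_le_one (by linarith)).2 hR))

theorem f2_xt {W : ℝ} (hW : 1 ≤ W) : ∃ A : ℝ, 0 ≤ A ∧ ∀ (R t : ℝ) (n : ℕ), 8 * W < R →
    t ∈ Set.Icc (0 : ℝ) 1 → 2 * (W * R) + 2 ≤ n → F2 (nnL.edI (bl 0 n)) (xt W R t - xi R) A := by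
  obtain ⟨C, h0, hC⟩ := sm_wt 1 hW
  refine ⟨6 * C ^ 2 * (7 * W) ^ 2, by positivity, fun R t n hR ht hn => ?_⟩
  have hR0 : 0 < R := by linarith
  have hWR : R ≤ W * R := le_mul_of_one_le_left hR0.le hW
  have h1 := hC R (W * R) (by simpa using hR) hWR le_rfl
  set b := ⌈2 * (W * R)⌉₊ with hb
  have hb1 : (b : ℝ) < 2 * (W * R) + 1 := Nat.ceil_lt_add_one (by positivity)
  have hb2 : 2 * (W * R) ≤ b := Nat.le_ceil _
  have hbn : b + 1 ≤ n := by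
    have : ((b + 1 : ℕ) : ℝ) ≤ n := by push_cast; linarith
    exact_mod_cast this
  set v : Pt → ℝ := fun x => wt R (W * R) x - log (W * R / R) / (2 * π) with hv
  have hs : Pot.Sup (bl 0 b) v := fun x hx => by
    rw [hv]; simp only; rw [wt_out hR0 hWR (by linarith) hx, sub_self]
  have h2 := B80.f2_gb hs ((B80.gb_bl hs).mono (bl_mono 0 hbn))
  have h3 := B80.E0_le (k := C / R) hs fun e he x _ => by
    have := h1 [e] le_rfl (by simpa using he) x trivial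
    simpa [difs, dif, hv] using this
  rw [hv, A0_sub_const] at h2
  have h4 := RJ57.f2_smul t h2
  refine RJ57.f2_mono (RJ57.f2_congr h4 (by rw [xt, add_sub_cancel_left])) ?_
  have h5 : E0 (bl 0 b) v ≤ 6 * C ^ 2 * (7 * W) ^ 2 := by
    refine h3.trans ?_
    rw [card_bl]; push_cast
    calc 6 * (C / R) ^ 2 * (2 * (b : ℝ) + 1) ^ 2 ≤ 6 * (C / R) ^ 2 * (7 * W * R) ^ 2 := by
          gcongr; nlinarith
      _ = _ := by field_simp
  exact (mul_le_of_le_one_left (B80.E0_nonneg hs) (pow_le_one₀ ht.1 ht.2)).trans h5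

end det

/-! ## scales -/

theorem small {K κ : ℝ} (hK : 1 ≤ K) (h0 : 0 < κ) (h1 : κ ≤ 1) : ∃ C : ℝ, K ≤ C ∧
    ∀ Y : ℝ, 0 < Y → C * Y ≤ 1 → K * Y ^ κ ≤ 1 := by
  refine ⟨K ^ κ⁻¹, ?_, fun Y hY h => ?_⟩
  · conv_lhs => rw [← rpow_one K]
    exact rpow_le_rpow_of_exponent_le hK (one_le_inv_iff₀.2 ⟨h0, h1⟩)
  · have h2 := rpow_le_one (by positivity) h h0.le
    rwa [mul_rpow (by positivity) hY.le, rpow_inv_rpow (by linarith) h0.ne'] at h2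

/-- the small parameter `x = Y ^ κ` -/
structure Sc (K R Y x : ℝ) : Prop where
  K4 : 4 ≤ K
  R1 : 1 ≤ R
  Y0 : 0 < Y
  Yx : Y ≤ x
  Kx : K * x ≤ 1
  big : 1 ≤ R * x ^ 100

theorem sc_of {p : Par} {Λ : Lat} {L : ℕ} {R Y K κ : ℝ} (hw : 4 ≤ p.w) (h : Maj p Λ L R Y) (hK : 4 ≤ K)
    (h1 : κ ≤ 1) (hY : Y ≤ 1) (hx : K * Y ^ κ ≤ 1) : Sc K R Y (Y ^ κ) := by
  have hY0 := h.pos
  have hR := h.one_le
  have h2 : Y ≤ Y ^ κ := by
    conv_lhs => rw [← rpow_one Y]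
    exact rpow_le_rpow_of_exponent_ge hY0 hY h1
  refine ⟨hK, hR, hY0, h2, hx, ?_⟩
  have h3 : R ^ (-(1 / 100 : ℝ)) ≤ Y ^ κ :=
    ((rpow_le_rpow_of_exponent_le hR (by linarith [ew_le' hw])).trans h.2.1).trans h2
  have h4 := pow_le_pow_left₀ (by positivity) h3 100
  rw [← rpow_natCast, ← rpow_mul (by linarith)] at h4
  norm_num at h4
  rw [rpow_neg_one] at h4
  calc (1 : ℝ) = R * R⁻¹ := by field_simp
    _ ≤ _ := by gcongr

namespace Sc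
variable {K R Y x : ℝ} (h : Sc K R Y x)
include h

theorem x0 : 0 < x := h.Y0.trans_le h.Yx
theorem x4 : x ≤ 1 / 4 := by nlinarith [h.K4, h.Kx, h.x0]
theorem x1 : x ≤ 1 := by linarith [h.x4]
theorem R0 : 0 < R := by linarith [h.R1]

theorem big' {k : ℕ} (hk : k ≤ 99) : K ≤ R * x ^ k := by
  have h1 : x ^ 100 ≤ x ^ (k + 1) := pow_le_pow_of_le_one h.x0.le h.x1 (by omega)
  have h2 : 1 ≤ R * x ^ k * x := by
    rw [mul_assoc, ← pow_succ]; exact h.big.trans (mul_le_mul_of_nonneg_left h1 h.R0.le)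
  have h3 := h.x0
  exact le_of_mul_le_mul_right (h.Kx.trans h2) h3

theorem Rx : K ≤ R * x := by simpa using h.big' (k := 1) (by norm_num)

theorem rp {a b : ℝ} (hab : b ≤ a) : x ^ a ≤ x ^ b := rpow_le_rpow_of_exponent_ge h.x0 h.x1 hab

theorem inv_rp (a : ℝ) : x⁻¹ ^ a = x ^ (-a) := by rw [inv_rpow h.x0.le, rpow_neg h.x0.le]

end Sc

theorem disj {z : Pt} {n k : ℕ} (hz : z ∉ bl 0 n) (hk : k + k ≤ n) : Disjoint (bl 0 k) (bl z k) :=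
  disjoint_left.2 fun _ h1 h2 => hz (bl_subset_bl h1 hk (mem_bl_comm.1 h2))

theorem sub_N {z : Pt} {N k : ℕ} (hz : 8 * eu z ≤ N) (hk : 8 * (k : ℝ) ≤ N) : bl z k ⊆ bl 0 N := by
  refine bl_subset_bl (mem_bl_rad z) ?_
  have := rad_le_eu z
  have h2 : ((k + rad z : ℕ) : ℝ) ≤ N := by push_cast; linarith [eu_nonneg z]
  exact_mod_cast h2

theorem nu0 {p : Par} {Λ : Lat} {L : ℕ} (h : Gs p Λ L) (r : ℕ) : 0 ≤ nu Λ p.w 0 r (Jz 0) :=
  FlF4.nu_nonneg h.mem.ok _ _ _ _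

/-! ## the contact-free term -/

theorem Sc.fin1 {K R Y x C ν a ρ e : ℝ} (hS : Sc K R Y x) (C0 : 0 ≤ C) (he : e ≤ 1 / 1000) (hn0 : 0 ≤ ν)
    (a0 : 0 < a) (r1 : 2 * (R * x) ≤ ρ) (hn : ν ≤ Y * (x ^ 41)⁻¹ ^ e / a ^ 2) :
    C * ν * ν * (a / ρ) ^ 4 * x ^ 7 ≤ C * Y ^ 2 / R ^ 4 * x ^ (5 / 2 : ℝ) := by
  have x0 := hS.x0
  have R0 := hS.R0
  have Y0 := hS.Y0
  have e2 : ((x ^ 41)⁻¹ ^ e) ^ 2 * x ^ 3 ≤ x ^ (5 / 2 : ℝ) := by
    rw [← rpow_natCast x 41, ← rpow_neg x0.le, ← rpow_mul x0.le, ← rpow_natCast _ 2, ← rpow_mul x0.le,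
      ← rpow_natCast x 3, ← rpow_add x0]
    exact hS.rp (by push_cast; linarith)
  have hM0 : 0 ≤ (x ^ 41)⁻¹ ^ e := by positivity
  generalize (x ^ 41)⁻¹ ^ e = M at *
  have := mul_pos R0 x0
  have ρ0 : 0 < ρ := by linarith
  calc C * ν * ν * (a / ρ) ^ 4 * x ^ 7
      ≤ C * (Y * M / a ^ 2) * (Y * M / a ^ 2) * (a / (R * x)) ^ 4 * x ^ 7 := by
        gcongr; linarith
    _ = C * Y ^ 2 / R ^ 4 * (M ^ 2 * x ^ 3) := by field_simp
    _ ≤ _ := by gcongr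

theorem Sc.ceil {K R Y x : ℝ} (hS : Sc K R Y x) {c : ℝ} (hc : 0 ≤ c) :
    c * (R * x) ≤ ⌈c * (R * x)⌉₊ ∧ (⌈c * (R * x)⌉₊ : ℝ) + 1 ≤ (c + 1) * (R * x) := by
  have := Nat.ceil_lt_add_one (a := c * (R * x)) (mul_nonneg hc (mul_pos hS.R0 hS.x0).le)
  exact ⟨Nat.le_ceil _, by linarith [hS.Rx, hS.K4]⟩

theorem Sc.sm {K R Y x : ℝ} (hS : Sc K R Y x) {c : ℝ} (hc : c ≤ K) : c * (R * x) ≤ R :=
  calc c * (R * x) ≤ K * (R * x) := mul_le_mul_of_nonneg_right hc (mul_pos hS.R0 hS.x0).le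
    _ = K * x * R := by ring
    _ ≤ R := mul_le_of_le_one_left hS.R0.le hS.Kx

theorem ccJ (hC : CcStmt) (p : Par) (W : ℕ) (A : ℝ) (hW : 2 ≤ W) (hw : 4 ≤ p.w) :
    ∃ κ C : ℝ, 0 < κ ∧ κ ≤ 1 ∧ 0 ≤ C ∧ ∀ Λ ω r₁ L N, Env p Λ ω L N → Pur p W Λ r₁ L → ∀ R Y K : ℝ,
      Maj p Λ L R Y → C * Y ≤ 1 → C * R ≤ L → (r₁ : ℝ) ^ 2 ≤ R → 1 / 4 ≤ gk ω R → Sc K R Y (Y ^ κ) →
      (p.r₀ : ℝ) ≤ K → 24 * (p.w : ℝ) ≤ K → 8 * R ≤ L →
      ∀ (z : Pt) (ζ : Pt → ℝ), z ∉ bl 0 ⌊R⌋₊ → eu z ≤ R * Y ^ (-κ) → 8 * eu z ≤ N →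
      (∀ y ∈ bl 0 ⌈2 * (R * Y ^ κ)⌉₊, ζ y = 0) → (∀ y ∈ bl z ⌈2 * (R * Y ^ κ)⌉₊, ζ y = 0) →
      Pot.Sup (bl 0 N) ζ → F2 (nnL.edI (bl 0 N)) (ζ - xi R) A →
      |ω fun s => Jz 0 s * Jz z s * cp ζ 0 s| ≤ C * Y ^ 2 / R ^ 4 * Y ^ (5 / 2 * κ) := by
  obtain ⟨κ₀, hκ₀, hκ⟩ := hC p W A hW
  obtain ⟨C, C0, hC⟩ := hκ (min κ₀ 1) (lt_min hκ₀ one_pos) (min_le_left _ _)
  refine ⟨min κ₀ 1, C, lt_min hκ₀ one_pos, min_le_right _ _, C0, ?_⟩
  generalize min κ₀ 1 = κ at hC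
  intro Λ ω r₁ L N hE hP R Y K hM hY hL hr₁ hg hS hK0 hKw h8 z ζ hz hzR hzN h0 hz0 hs hF
  have e1 : ∀ k : ℕ, Y ^ ((k : ℝ) * κ) = (Y ^ κ) ^ k := fun k => by
    rw [mul_comm, rpow_mul hS.Y0.le, rpow_natCast]
  have e41 : Y ^ (41 * κ) = (Y ^ κ) ^ 41 := by exact_mod_cast e1 41
  have e40 : Y ^ (40 * κ) = (Y ^ κ) ^ 40 := by exact_mod_cast e1 40
  have e7 : Y ^ (7 * κ) = (Y ^ κ) ^ 7 := by exact_mod_cast e1 7
  have e5 : Y ^ (5 / 2 * κ) = (Y ^ κ) ^ (5 / 2 : ℝ) := by rw [mul_comm, rpow_mul hS.Y0.le]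
  have hC' := hC Λ ω r₁ L N hE hP R Y hM hY hL hg z ⌈2 * (R * Y ^ κ)⌉₊ ⌈R * (Y ^ κ) ^ 41⌉₊ N 0 ζ (Jz 0) (Jz 0)
  rw [e41, e40, e7, trl_Jz] at hC'
  rw [e5]
  clear e1 e41 e40 e7 e5 hC hκ
  generalize Y ^ κ = x at *
  have x0 := hS.x0
  have R0 := hS.R0
  have K4 := hS.K4
  have h41 := hS.big' (k := 41) (by norm_num)
  have hw' : (4 : ℝ) ≤ p.w := by exact_mod_cast hw
  have hLN : (L : ℝ) ≤ N := by exact_mod_cast hE.le
  obtain ⟨r1, r2⟩ := hS.ceil (c := 2) (by norm_num)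
  have a1 : R * x ^ 41 ≤ ⌈R * x ^ 41⌉₊ := Nat.le_ceil _
  have a2 : (⌈R * x ^ 41⌉₊ : ℝ) ≤ 2 * (R * x ^ 41) := by
    have := Nat.ceil_lt_add_one (a := R * x ^ 41) (by positivity); linarith
  generalize ⌈R * x ^ 41⌉₊ = a at *
  generalize ⌈2 * (R * x)⌉₊ = ρ at *
  have hx40 : x ^ 40 ≤ 1 := pow_le_one₀ x0.le hS.x1
  have a3 : (a : ℝ) ≤ ρ * x ^ 40 := a2.trans (by
    rw [show 2 * (R * x ^ 41) = 2 * (R * x) * x ^ 40 by ring]; gcongr)
  have ρ0 : (0 : ℝ) ≤ ρ := Nat.cast_nonneg _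
  have a4 : (a : ℝ) ≤ ρ := a3.trans (mul_le_of_le_one_right ρ0 hx40)
  have hwρ : 8 * ((p.w : ℝ) * ρ) ≤ R :=
    calc 8 * ((p.w : ℝ) * ρ) ≤ 8 * (p.w * (3 * (R * x))) := by gcongr; linarith
      _ = 24 * p.w * (R * x) := by ring
      _ ≤ R := hS.sm hKw
  have h4ρ : 4 * (ρ : ℝ) ≤ p.w * ρ := mul_le_mul_of_nonneg_right hw' ρ0
  have hρR : (ρ : ℝ) ≤ R := by linarith
  have ha0 : p.r₀ ≤ a := by exact_mod_cast hK0.trans (h41.trans a1)
  have ha1 : r₁ ≤ a := by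
    have h82 := hS.big' (k := 82) (by norm_num)
    have : (r₁ : ℝ) ^ 2 ≤ (R * x ^ 41) ^ 2 := hr₁.trans (by
      rw [show (R * x ^ 41) ^ 2 = R * (R * x ^ 82) by ring]
      exact le_mul_of_one_le_right R0.le (by linarith))
    exact_mod_cast (abs_le_of_sq_le_sq' this (by positivity)).2.trans a1
  have a0 : (0 : ℝ) < a := by linarith
  have ia : 1 ≤ a := by exact_mod_cast a0
  have h9 := hC' ha0 ha1 a1 a3 hρR hzR (disj hz (Nat.le_floor (by push_cast; linarith)))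
    (sub_N hzN (by push_cast; linarith)) le_rfl (by linarith) hzN
    (ins_Jz 0 ia) (odd_Jz 0) (d4_Jz 0) (ins_Jz 0 ia) (odd_Jz 0) (d4_Jz 0) h0 hz0 hs hF
  have hwa : p.w * a ≤ L := by
    have h1 := mul_le_mul_of_nonneg_left a4 (show (0 : ℝ) ≤ p.w by positivity)
    have : ((p.w * a : ℕ) : ℝ) ≤ L := by push_cast; linarith
    exact_mod_cast this
  exact h9.trans (hS.fin1 C0 (ew_le' hw) (nu0 hE.toGs a) a0 r1
    (hM.prof.le hS.Y0.le R0 (M := (x ^ 41)⁻¹) (by positivity) ha0 hwa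
    (by rw [div_inv_eq_mul]; exact a1) (a4.trans (hρR.trans (le_mul_of_one_le_left R0.le
      (one_le_inv_iff₀.2 ⟨by positivity, pow_le_one₀ x0.le hS.x1⟩))))))

/-! ## the contact term -/

theorem Sc.fin2 {K R Y x CJ CK σ B ν r e T U P g g' ξ : ℝ} (hS : Sc K R Y x) (J0 : 0 ≤ CJ) (K0 : 0 ≤ CK)
    (σ0 : 0 ≤ σ) (B1 : 1 ≤ B) (e0 : 0 < e) (he : e ≤ 1 / 1000) (hn0 : 0 ≤ ν) (hr : R / B ≤ r)
    (hn : ν ≤ Y * B ^ e / r ^ 2)
    (h1 : |T - U - 2 * π * g' * ξ * P| ≤ CJ * ν * (σ * (1 + σ)) * x⁻¹ ^ (2 * e) *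
      (Y * (4 * (R * x) / r) ^ (100 * e / 4) + Y ^ 2) / r ^ 2)
    (h2 : |g - g'| ≤ CK * Y ^ 2 * x⁻¹ ^ (2 * e)) (h3 : |ξ| ≤ 4 * σ / r ^ 2) (h4 : |P| ≤ 16 * ν) :
    |T + 2 * π * g * ξ * -P| ≤ |U| + (CJ * (σ * (1 + σ)) * (4 * B + 1) + 2 * π * CK * (4 * σ) * 16) * B ^ 5 *
      Y ^ 2 / R ^ 4 * x ^ (100 * e / 5) := by
  have x0 := hS.x0
  have R0 := hS.R0
  have Y0 := hS.Y0
  have r0 : 0 < r := (div_pos R0 (by linarith)).trans_le hr
  have hi : 1 / r ^ 2 ≤ B ^ 2 / R ^ 2 := by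
    rw [← one_pow 2, ← div_pow, ← div_pow]
    refine pow_le_pow_left₀ (by positivity) ?_ 2
    rw [div_le_div_iff₀ r0 R0]; rw [div_le_iff₀ (by linarith)] at hr; linarith
  have hB : B ^ e ≤ B := by
    conv_rhs => rw [← rpow_one B]
    exact rpow_le_rpow_of_exponent_le B1 (by linarith)
  have hν : ν ≤ Y * B * (B ^ 2 / R ^ 2) := hn.trans (by
    rw [div_eq_mul_one_div]; gcongr)
  have e1 : (4 * (R * x) / r) ^ (100 * e / 4) ≤ 4 * B * x ^ (100 * e / 4) := by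
    have a1 : 4 * (R * x) / r ≤ 4 * B * x := by
      rw [div_le_iff₀ r0]; rw [div_le_iff₀ (by linarith)] at hr; nlinarith
    refine (rpow_le_rpow (by positivity) a1 (by positivity)).trans ?_
    rw [mul_rpow (by positivity) x0.le]
    gcongr
    conv_rhs => rw [← rpow_one (4 * B)]
    exact rpow_le_rpow_of_exponent_le (by linarith) (by linarith)
  have e2 : x⁻¹ ^ (2 * e) * x ^ (100 * e / 4) ≤ x ^ (100 * e / 5) := by
    rw [hS.inv_rp, ← rpow_add x0]; exact hS.rp (by linarith)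
  have e3 : x⁻¹ ^ (2 * e) * Y ≤ x ^ (100 * e / 5) := by
    refine (mul_le_mul_of_nonneg_left hS.Yx (by positivity)).trans ?_
    rw [hS.inv_rp, ← rpow_add_one x0.ne']; exact hS.rp (by linarith)
  have hM0 : 0 ≤ x⁻¹ ^ (2 * e) := by positivity
  have hq0 : 0 ≤ x ^ (100 * e / 4) := by positivity
  generalize x⁻¹ ^ (2 * e) = M at *
  generalize x ^ (100 * e / 5) = q at *
  generalize x ^ (100 * e / 4) = q' at *
  generalize (4 * (R * x) / r) ^ (100 * e / 4) = q'' at *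
  have b1 : |T - U - 2 * π * g' * ξ * P| ≤ CJ * (σ * (1 + σ)) * (4 * B + 1) * B ^ 5 * Y ^ 2 / R ^ 4 * q :=
    calc _ ≤ _ := h1
      _ = CJ * ν * (σ * (1 + σ)) * (Y * (q'' * M + M * Y)) * (1 / r ^ 2) := by ring
      _ ≤ CJ * (Y * B * (B ^ 2 / R ^ 2)) * (σ * (1 + σ)) * (Y * (4 * B * q + q)) * (B ^ 2 / R ^ 2) := by
          have : q'' * M ≤ 4 * B * q :=
            (mul_le_mul_of_nonneg_right e1 hM0).trans (by rw [mul_assoc, mul_comm q']; gcongr)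
          have h0 : 0 ≤ q := le_trans (by positivity) e3
          by_cases hq : 0 ≤ q'' * M + M * Y
          · gcongr
          · refine le_trans (mul_nonpos_of_nonpos_of_nonneg (mul_nonpos_of_nonneg_of_nonpos (by positivity)
              (mul_nonpos_of_nonneg_of_nonpos Y0.le (not_le.1 hq).le)) (by positivity)) (by positivity)
      _ = _ := by field_simp
  have b2 : |2 * π * (g - g') * ξ * P| ≤ 2 * π * CK * (4 * σ) * 16 * B ^ 5 * Y ^ 2 / R ^ 4 * q :=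
    calc _ = 2 * π * |g - g'| * |ξ| * |P| := by
          rw [abs_mul, abs_mul, abs_mul, abs_of_pos (by positivity : 0 < 2 * π)]
      _ ≤ 2 * π * (CK * Y ^ 2 * M) * (4 * σ * (B ^ 2 / R ^ 2)) * (16 * (Y * B * (B ^ 2 / R ^ 2))) := by
          gcongr
          · exact h3.trans (by rw [div_eq_mul_one_div]; gcongr)
          · exact h4.trans (by gcongr)
      _ = 2 * π * CK * (4 * σ) * 16 * B ^ 5 * Y ^ 2 / R ^ 4 * (M * Y) := by field_simp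
      _ ≤ _ := by gcongr
  have e : T + 2 * π * g * ξ * -P = U + ((T - U - 2 * π * g' * ξ * P) - 2 * π * (g - g') * ξ * P) := by ring
  rw [e]
  refine (abs_add_le _ _).trans (add_le_add le_rfl ((abs_sub _ _).trans ?_))
  calc _ ≤ _ := add_le_add b1 b2
    _ = _ := by ring

end SY60

open SY60

set_option maxHeartbeats 800000 in
theorem siteYStmt (hP : ProdStmt) (hJ : LjStmt) (hK : KbStmt) (hC : CcStmt) : SiteYStmt := by
  intro p W hW hw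
  have hW2 : (2 : ℝ) ≤ W := by exact_mod_cast hW
  have hW1 : (1 : ℝ) ≤ W := by linarith
  have hw' : (4 : ℝ) ≤ p.w := by exact_mod_cast hw
  obtain ⟨CS, S0, hSw⟩ := swStmt
  obtain ⟨σ, σ0, hσ⟩ := lr_xt
  obtain ⟨A, A0', hA⟩ := f2_xt hW1
  obtain ⟨κ, CC, κ0, κ1, C0, hCC⟩ := ccJ hC p W (2 * A + 2 * (CS * σ ^ 2)) hW hw
  obtain ⟨CJ, J0, hJ⟩ := hJ p
  obtain ⟨CK, K0, hK⟩ := hK p
  obtain ⟨K, hK1, hK2, hK3, hK4⟩ : ∃ K : ℝ, 38400 * (p.w : ℝ) ≤ K ∧ 16 * p.w * (p.r₀ + 1 : ℝ) ≤ K ∧ CJ ≤ K ∧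
      9 * (W : ℝ) ≤ K := by
    have : (0 : ℝ) ≤ 16 * p.w * (p.r₀ + 1 : ℝ) := by positivity
    exact ⟨38400 * p.w + 16 * p.w * (p.r₀ + 1 : ℝ) + CJ + 9 * W, by linarith, by linarith, by linarith,
      by linarith⟩
  obtain ⟨C₁, hC₁, hsm⟩ := small (K := K) (by linarith) κ0 κ1
  set D := (CJ * (σ * (1 + σ)) * (4 * (16 * p.w) + 1) + 2 * π * CK * (4 * σ) * 16) * (16 * (p.w : ℝ)) ^ 5
    with hD
  have D0 : 0 ≤ D := by positivity
  refine ⟨κ, C₁ + CC + D, κ0, κ1, by linarith, ?_⟩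
  intro Λ ω r₁ L N hE hPu R Y hM hY hL hr₁ hg t ht z hz hzR hzN
  have Y0 := hM.pos
  have R1 := hM.one_le
  have R0 : 0 < R := by linarith
  have mo : ∀ c u v : ℝ, 0 ≤ u → c ≤ C₁ + CC + D → (C₁ + CC + D) * u ≤ v → c * u ≤ v := fun c u v hu hc h =>
    (mul_le_mul_of_nonneg_right hc hu).trans h
  have hY1 : Y ≤ 1 := by linarith [mo 1 Y 1 Y0.le (by linarith) hY]
  have hS := sc_of hw hM (K := K) (by linarith) κ1 hY1 (hsm Y Y0 (mo _ _ _ Y0.le (by linarith) hY))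
  have hKL : K * R ≤ L := mo _ _ _ R0.le (by linarith) hL
  have hLN : (L : ℝ) ≤ N := by exact_mod_cast hE.le
  have hr0K : (p.r₀ : ℝ) + 1 ≤ K := le_trans (le_mul_of_one_le_left (by positivity) (by linarith)) hK2
  have h8 : 8 * R ≤ L := (mul_le_mul_of_nonneg_right (by linarith) R0.le).trans hKL
  have hWR : 9 * (W * R) ≤ L := by
    rw [← mul_assoc]; exact (mul_le_mul_of_nonneg_right hK4 R0.le).trans hKL
  have hWR1 : 2 * R ≤ W * R := mul_le_mul_of_nonneg_right hW2 R0.le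
  have hcc := hCC Λ ω r₁ L N hE hPu R Y K hM (mo _ _ _ Y0.le (by linarith) hY)
    (mo _ _ _ R0.le (by linarith) hL) hr₁ hg hS (by linarith) (by linarith) h8 z
  have hKR : K ≤ R := by simpa using hS.big' (k := 0) (by norm_num)
  have hF := hA R t N (by linarith) ht (by linarith)
  have hq : Chq (bl 0 N) (xt W R t) 1 := chq_xt hW1 R0 (by linarith)
  have e0 : (fun s => Jz 0 s * cp (xt W R t) 0 s * Jz z s) = fun s => Jz 0 s * Jz z s * cp (xt W R t) 0 s :=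
    funext fun s => mul_right_comm _ _ _
  have e1 : Y ^ (κ * cw p.w / 5) = (Y ^ κ) ^ (100 * ew p.w / 5) := by
    rw [← rpow_mul Y0.le, ← cw_eq_ew, mul_div_assoc]
  have q0 : 0 ≤ Y ^ (5 / 2 * κ) := by positivity
  have hCD : CC ≤ C₁ + CC + D ∧ D ≤ C₁ + CC + D := ⟨by linarith, by linarith⟩
  rw [e0, e1]
  clear hCC hA hsm mo e0 e1 hY hL hD
  generalize C₁ + CC + D = C at hCD ⊢
  generalize Y ^ (5 / 2 * κ) = q at *
  generalize Y ^ (-κ) = xi' at *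
  generalize Y ^ κ = x at *
  have x0 := hS.x0
  have hRx := hS.Rx
  obtain ⟨r1, r2⟩ := hS.ceil (c := 2) (by norm_num)
  have hin : ∀ k : ℕ, (k : ℝ) + 1 ≤ R → ∀ y ∈ bl 0 k, xt W R t y = 0 := fun k hk y hy => xt_in hW1 R0 hk hy
  have h3 := hS.sm (c := 2 + 1) (by linarith)
  by_cases hz1 : z ∈ bl 0 ⌈4 * (W * R)⌉₊
  swap
  · have hout : ∀ y ∈ bl z ⌈2 * (R * x)⌉₊, xt W R t y = 0 := fun y hy =>
      (chq_xt (t := t) hW1 R0 (Nat.le_ceil (2 * (W * R)))).1 y fun h => hz1 (bl_subset_bl h (by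
        have h1 := Nat.ceil_lt_add_one (a := 2 * (W * R)) (by positivity)
        have h2 := Nat.le_ceil (4 * (W * R))
        have : ((⌈2 * (R * x)⌉₊ + ⌈2 * (W * R)⌉₊ : ℕ) : ℝ) ≤ ⌈4 * (W * R)⌉₊ := by push_cast; linarith
        exact_mod_cast this) (mem_bl_comm.1 hy))
    rw [ind_neg hz1, zero_mul, add_zero, hout z (self_mem_bl _ _), mul_zero, zero_mul, add_zero]
    refine (hcc _ hz hzR hzN (hin _ (by linarith)) hout hq.1
      (RJ57.f2_mono hF (by nlinarith [sq_nonneg σ]))).trans ?_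
    gcongr
    exact hCD.1
  rw [ind_pos hz1, one_mul]
  have hB : 0 < 16 * (p.w : ℝ) := by linarith
  obtain ⟨r, hr1, hr2⟩ : ∃ r : ℕ, R / (16 * p.w) ≤ r ∧ 8 * ((p.w : ℝ) * r) ≤ R := by
    refine ⟨⌊R / (8 * p.w)⌋₊, ?_, ?_⟩
    · have h1 := Nat.lt_floor_add_one (R / (8 * p.w))
      have h2 : 1 ≤ R / (16 * p.w) := (one_le_div hB).2 (by linarith)
      have h4 : R / (8 * p.w) = 2 * (R / (16 * p.w)) := by field_simp; ring
      linarith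
    · have h1 := Nat.floor_le (a := R / (8 * p.w)) (by positivity)
      rw [le_div_iff₀ (by linarith)] at h1; linarith
  have r0 : (0 : ℝ) ≤ r := Nat.cast_nonneg _
  have h4r : 4 * (r : ℝ) ≤ p.w * r := mul_le_mul_of_nonneg_right hw' r0
  have hρr : 2400 * (R * x) ≤ r := le_trans (by
    rw [le_div_iff₀ hB]; linarith [hS.sm hK1]) hr1
  have hr0 : p.r₀ + 1 ≤ r := by
    have : (p.r₀ : ℝ) + 1 ≤ r := le_trans (by rw [le_div_iff₀ hB]; linarith) hr1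
    exact_mod_cast this
  have hwL : p.w * r ≤ L := by
    have : ((p.w * r : ℕ) : ℝ) ≤ L := by push_cast; linarith
    exact_mod_cast this
  have hrw : r ≤ p.w * r := Nat.le_mul_of_pos_left _ (by omega)
  obtain ⟨u, hu⟩ := hσ W R t z r hW1 ht (by omega) (by linarith)
  obtain ⟨-, s2, s3⟩ := hSw _ u z r σ hu (by omega)
  obtain ⟨n1, n2⟩ := hS.ceil (c := 8) (by norm_num)
  have hnr : ⌈8 * (R * x)⌉₊ + 1 ≤ r := by
    have : ((⌈8 * (R * x)⌉₊ + 1 : ℕ) : ℝ) ≤ r := by push_cast; linarith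
    exact_mod_cast this
  obtain ⟨s4, s5, s6⟩ := s3 (4 * (R * x)) ⌈8 * (R * x)⌉₊ (by linarith) (by linarith) hnr
  have hsub : bl z (p.w * r) ⊆ bl 0 N := sub_N hzN (by push_cast; linarith)
  have hdis : Disjoint (bl 0 (p.w * r)) (bl z (p.w * r)) := disj hz (Nat.le_floor (by push_cast; linarith))
  have hsA := (sup_A0 s4).mono (bl_mono z (hnr.trans hrw))
  have hρr' : ⌈2 * (R * x)⌉₊ ≤ p.w * r := by
    have : (⌈2 * (R * x)⌉₊ : ℝ) ≤ (p.w * r : ℕ) := by push_cast; linarith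
    exact_mod_cast this
  have hU := hcc (xt W R t - A0 (sw u z (4 * (R * x)))) hz hzR hzN
    (fun y hy => by
      rw [Pi.sub_apply, hin _ (by linarith) y hy, hsA y (disjoint_left.1 hdis (bl_mono 0 hρr' hy)), sub_self])
    (s6 _ (by linarith))
    (fun y hy => by rw [Pi.sub_apply, hq.1 y hy, hsA y fun h => hy (hsub h), sub_self])
    (RJ57.f2_congr (RJ57.f2_mono (RJ57.f2_add hF (RJ57.f2_smul (-1) (B80.f2_gb s4 ((B80.gb_bl s4).mono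
      ((bl_mono z (hnr.trans hrw)).trans hsub))))) (by
        have h1 : (4 * (R * x) / r) ^ 4 ≤ 1 := pow_le_one₀ (by positivity)
          ((div_le_one (by linarith)).2 (by linarith))
        have h2 := mul_le_of_le_one_right (show 0 ≤ CS * σ ^ 2 by positivity) h1
        linarith)) (by rw [neg_one_smul]; abel))
  have hfar : Far p L (bl 0 N) (univ : Finset Unit) (fun _ => 0) (fun _ => r) fun _ => Jz 0 :=
    ⟨by simp, fun _ _ => ins_Jz 0 (by omega), fun _ _ => ⟨by omega, hwL⟩,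
      fun _ _ => bl_mono 0 (hwL.trans hE.le), fun _ _ _ _ h => (h rfl).elim⟩
  have hx1 : 1 ≤ x⁻¹ := one_le_inv_iff₀.2 ⟨x0, hS.x1⟩
  have hRM : R ≤ x⁻¹ * R := le_mul_of_one_le_left R0.le hx1
  have hvan : ∀ y ∈ bl 0 r, xt W R t y = 0 := hin r (by linarith)
  have h1 := (hJ Λ ω L N hE R Y x⁻¹ hM hx1 0 Unit univ _ _ _ z r σ 0 _ u 1 hfar (fun _ _ => hvan) hq hwL hsub
    (fun _ _ => hdis) hu (by linarith)).1 (4 * (R * x)) (by linarith) (by linarith)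
    (by rw [div_inv_eq_mul]; linarith)
  have h2 := (hK Λ ω L N hE R Y hM).2.2 (4 * (R * x)) R x⁻¹ hx1 (by linarith) (hS.sm hS.K4)
    (by rw [div_inv_eq_mul]; linarith) hRM (by linarith)
  obtain ⟨m, hm, hω⟩ := hE.amb 0
  have hd : ∀ φ, DepG (bl 0 N) fun s => Jz 0 s * cp (xt W R t) φ s := fun φ =>
    (ins_Jz 0 (show 1 ≤ N by have := hE.le; omega)).1.mul (depG_cp hq φ)
  have h4 := (hP p Λ L hE.toGs m _ Unit univ _ _ _ (cp (xt W R t) (0 + π / 2)) hm hfar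
    (fun _ _ => out_cp hvan _) (abs_cp_le _ _)).1
  simp only [univ_unique, prod_singleton] at h1 h4
  rw [← hω _ (hd _)] at h4
  have e2 : ω (fun s => Jz 0 s * cp (xt W R t) (-(π / 2)) s) =
      -ω fun s => Jz 0 s * cp (xt W R t) (0 + π / 2) s := by
    rw [hω _ (hd _), hω _ (hd _), ← Ex_neg]
    congr 1; funext s; rw [cp_half, cp_neg_half, add_zero]; ring
  rw [e2]
  rw [cw_eq_ew] at h1
  refine (hS.fin2 J0 K0 σ0 (by linarith) (ew_pos (by omega)) (ew_le' hw) (nu0 hE.toGs r) hr1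
    (hM.prof.le Y0.le R0 hB (by omega) hwL hr1 (by nlinarith)) h1 h2 (s2 z (self_mem_bl _ _)).2 h4).trans ?_
  rw [mul_add (C * Y ^ 2 / R ^ 4)]
  refine add_le_add (hU.trans ?_) ?_
  · gcongr; exact hCD.1
  · gcongr; exact hCD.2

end Crest.Agent.T145.Fl
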