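import Crest.Agent.T145.FlSm_31
import Crest.Agent.T145.FlDef2_82
import Crest.Agent.T145.Soft_23

/-!
# Row 145, odd flow: SMALL in a window (helper31)
-/

set_option autoImplicit false

namespace Crest.Agent.T145.Fl

open Finset Pot Xi Real

namespace Sm31

/-- averaging weights with a bound on the Laplacian -/
theorem wts' : ∃ C : ℝ, 1 ≤ C ∧ ∀ k : ℕ, 1 ≤ k → ∃ h : Pt → ℝ, Pot.Sup (bl 0 k) h ∧ (∀ x, 0 ≤ h x) ∧
    (k : ℝ) ^ 2 ≤ ∑ x ∈ bl 0 k, h x ∧ E0 (bl 0 k) h ≤ C ∧ ∀ x, |A0 h x| ≤ C / (k : ℝ) ^ 2 := by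
  obtain ⟨C, hC, h⟩ := sm_chi 2
  refine ⟨1 + 216 * C ^ 2 + 8 * C, by nlinarith, fun k hk => ?_⟩
  have k1 : (1 : ℝ) ≤ k := by exact_mod_cast hk
  have hs : Pot.Sup (bl 0 k) (Xi.chi (k / 2)) := sup_chi (by positivity) (by linarith)
  refine ⟨Xi.chi (k / 2), hs, chi_nonneg _, ?_, ?_, fun x => ?_⟩
  · have h1 : ∑ x ∈ bl 0 (k / 2), Xi.chi ((k : ℝ) / 2) x = ((2 * (k / 2) + 1 : ℕ) : ℝ) ^ 2 := by
      rw [Finset.sum_congr rfl fun x hx => chi_one (by positivity) (by exact_mod_cast Nat.cast_div_le) hx]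
      simp [card_bl]
    refine le_trans ?_ (Finset.sum_le_sum_of_subset_of_nonneg (bl_mono 0 (Nat.div_le_self k 2))
      fun x _ _ => chi_nonneg _ x)
    rw [h1]
    have : k ≤ 2 * (k / 2) + 1 := by omega
    gcongr
  · refine (B80.E0_le (k := C / (k / 2)) hs fun e he x _ =>
      (h _ (by positivity)).one one_le_two he trivial).trans ?_
    rw [card_bl]; push_cast
    calc 6 * (C / ((k : ℝ) / 2)) ^ 2 * (2 * k + 1) ^ 2 ≤ 6 * (C / ((k : ℝ) / 2)) ^ 2 * (3 * k) ^ 2 := by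
          gcongr; linarith
      _ = 216 * C ^ 2 := by field_simp; ring
      _ ≤ _ := by linarith
  · rw [A0_apply, abs_neg]
    refine ((h _ (by positivity)).abs_lap fun _ _ => trivial).trans ?_
    rw [show 2 * (C / ((k : ℝ) / 2) ^ 2) = 8 * C / (k : ℝ) ^ 2 by field_simp; ring]
    gcongr; nlinarith

/-- the coefficient of the reference insertion from off-centre lower bounds -/
theorem coef {p : Par} {Λ : Lat} {L n : ℕ} (hG : Gs p Λ L) {m : Mdl Pt} {U : Finset Pt}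
    (hm : Nc.Amb Λ m U) (h0 : p.r₀ ≤ n) (hL : p.w * n ≤ L) (hU : bl 0 (p.w * n + n) ⊆ U)
    {h : Pt → ℝ} (hs : Pot.Sup (bl 0 n) h) (hp : ∀ x, 0 ≤ h x) {S B : Cfg Pt → ℝ} (hS : Ins 0 n S)
    (hB : Out (bl 0 (2 * n)) B) (hB1 : ∀ s, |B s| ≤ 1) {b : ℝ} (hb : 0 ≤ b)
    (hl : ∀ z ∈ bl (0 : Pt) n, b ≤ Ex (m.W 0) fun t => trl z S t * B t) (c : ℝ) :
    (∑ x ∈ bl 0 n, h x) * (|c| * b) ≤ |Ex (m.W 0) fun s => pr (A0 h) s * B s| +
      (∑ x ∈ bl 0 n, h x) * (32 * nu Λ p.w 0 n fun s => Jz 0 s - c * S s) := by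
  have hΛ := hG.mem.ok
  have n2 := Cone.two_le hG h0
  have w4 := A51.four_le hG n
  have hrg : 2 * Λ.rg ≤ n := hG.gd.2.1.trans h0
  have tB : Tame B := Tame.bdd hB1
  have ig : ∀ {F : Cfg Pt → ℝ}, Tame F → Ig (m.W 0) F := FlF4.ig_tame hm.ctr hm.anch
  have iD : Ins 0 n fun s => Jz 0 s - c * S s := (ins_Jz 0 (by omega)).sub (hS.smul c)
  set ν := nu Λ p.w 0 n fun s => Jz 0 s - c * S s with hν
  have site : ∀ z ∈ bl (0 : Pt) n, |(Ex (m.W 0) fun s => Jz z s * B s) -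
      c * Ex (m.W 0) fun t => trl z S t * B t| ≤ 32 * ν := fun z hz => by
    have a := ((prodStmt p Λ L hG m U Unit ∅ (fun _ => 0) (fun _ => 0) (fun _ _ => 1) B hm
      ⟨by simp, by simp, by simp, by simp, by simp⟩ (by simp) hB1).2 z n h0 hL
      ((bl_subset_bl hz le_rfl).trans hU) (by simp)).2.1 _ (iD.trl z)
      (hB.mono (bl_subset_bl hz (by omega)))
    rw [((semiStmt Λ p.w n z hΛ (by omega)).2 _ iD).2.1, ← hν, trl_sub, trl_smul, trl_Jz] at a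
    simp only [Finset.prod_empty, one_mul, mul_one] at a
    rw [← Ex_const_mul, ← Ex_sub (ig ((tame_Jz z).mul tB)) (ig (((tame_trl hS.2 z).mul tB).const_mul c))]
    exact (le_of_eq (congrArg abs (congrArg _ (funext fun s => by ring)))).trans a
  have e1 : Ex (m.W 0) (fun s => pr (A0 h) s * B s) =
      ∑ z ∈ bl 0 n, h z * Ex (m.W 0) fun s => Jz z s * B s := by
    simp only [pr_A0 hs, Finset.sum_mul, mul_assoc]
    rw [Ex_sum _ fun z _ => ig (((tame_Jz z).mul tB).const_mul _)]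
    exact Finset.sum_congr rfl fun z _ => Ex_const_mul _ _ _
  set A := ∑ z ∈ bl 0 n, h z * Ex (m.W 0) fun t => trl z S t * B t with hA
  have a1 : (∑ x ∈ bl 0 n, h x) * b ≤ A := by
    rw [Finset.sum_mul]
    exact Finset.sum_le_sum fun z hz => mul_le_mul_of_nonneg_left (hl z hz) (hp z)
  have T0 : 0 ≤ ∑ x ∈ bl 0 n, h x := Finset.sum_nonneg fun x _ => hp x
  have a2 : |Ex (m.W 0) (fun s => pr (A0 h) s * B s) - c * A| ≤ (∑ x ∈ bl 0 n, h x) * (32 * ν) := by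
    rw [e1, hA, Finset.mul_sum, ← Finset.sum_sub_distrib, Finset.sum_mul]
    refine (Finset.abs_sum_le_sum_abs _ _).trans (Finset.sum_le_sum fun z hz => ?_)
    rw [mul_left_comm, ← mul_sub, abs_mul, abs_of_nonneg (hp z)]
    exact mul_le_mul_of_nonneg_left (site z hz) (hp z)
  have A0' : 0 ≤ A := (mul_nonneg T0 hb).trans a1
  calc _ = |c| * ((∑ x ∈ bl 0 n, h x) * b) := by ring
    _ ≤ |c| * A := by gcongr
    _ = |Ex (m.W 0) (fun s => pr (A0 h) s * B s) -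
          (Ex (m.W 0) (fun s => pr (A0 h) s * B s) - c * A)| := by
        rw [sub_sub_cancel, abs_mul, abs_of_nonneg A0']
    _ ≤ _ := (abs_sub _ _).trans (add_le_add le_rfl a2)

theorem num {W r t x c₀ c ν ν' ε T : ℝ} (r0 : 0 < r) (t1 : 1 ≤ t) (hW : t ^ 10 = W)
    (xt : x ≤ t) (c0 : 0 < c₀) (ht : 2 + 262144 / c₀ ≤ t) (ν0 : 0 ≤ ν) (ε0 : 0 < ε)
    (hT : (W * r) ^ 2 ≤ T) (h1 : ν' ≤ x / W ^ 3 * ν + |c| * (x / W ^ 2))
    (h2 : T * (|c| * (c₀ / (4096 * W ^ 2 * t))) ≤ ε * c₀ / (4096 * W) + T * (32 * (x / W ^ 3 * ν))) :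
    (W * r) ^ 2 * ν' ≤ ε + r ^ 2 * ν / 2 := by
  have t0 : 0 < t := by linarith
  have W0 : 0 < W := hW ▸ pow_pos t0 10
  have T0 : 0 < T := lt_of_lt_of_le (by positivity) hT
  have h3 : |c| * (c₀ / (4096 * W ^ 2 * t)) ≤ ε * c₀ / (4096 * W) / (W * r) ^ 2 + 32 * (t / W ^ 3 * ν) := by
    have : |c| * (c₀ / (4096 * W ^ 2 * t)) ≤ ε * c₀ / (4096 * W) / T + 32 * (x / W ^ 3 * ν) := by
      rw [div_add' _ _ _ T0.ne', le_div_iff₀ T0]; linarith
    refine this.trans ?_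
    gcongr
  have h4 : |c| * (x / W ^ 2) ≤ 4096 * t ^ 2 / c₀ *
      (ε * c₀ / (4096 * W) / (W * r) ^ 2 + 32 * (t / W ^ 3 * ν)) := by
    calc _ ≤ |c| * (t / W ^ 2) := by gcongr
      _ = 4096 * t ^ 2 / c₀ * (|c| * (c₀ / (4096 * W ^ 2 * t))) := by field_simp
      _ ≤ _ := by gcongr
  have p2 : t ^ 2 / W ≤ 1 := by
    rw [div_le_one W0, ← hW]; exact pow_le_pow_right₀ t1 (by norm_num)
  have p3 : (t + 131072 / c₀ * t ^ 3) / W ≤ 1 / 2 := by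
    rw [div_le_iff₀ W0, ← hW]
    have a1 : t ≤ t ^ 3 := le_self_pow₀ t1 (by norm_num)
    have a2 : t ^ 4 ≤ t ^ 10 := pow_le_pow_right₀ t1 (by norm_num)
    have a3 : (2 + 262144 / c₀) * t ^ 3 ≤ t * t ^ 3 := by gcongr
    have a4 : 262144 / c₀ = 2 * (131072 / c₀) := by ring
    nlinarith
  calc _ ≤ (W * r) ^ 2 * (t / W ^ 3 * ν + 4096 * t ^ 2 / c₀ *
        (ε * c₀ / (4096 * W) / (W * r) ^ 2 + 32 * (t / W ^ 3 * ν))) := by
        refine mul_le_mul_of_nonneg_left (h1.trans (add_le_add ?_ h4)) (sq_nonneg _)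
        gcongr
    _ = t ^ 2 / W * ε + (t + 131072 / c₀ * t ^ 3) / W * (r ^ 2 * ν) := by field_simp; ring
    _ ≤ 1 * ε + 1 / 2 * (r ^ 2 * ν) := by gcongr
    _ = _ := by ring

end Sm31

open Sm31 in
/-- SMALL in a window -/
theorem smallWStmt (hLow : LowStmt) (hSg : SgStmt) : SmallWStmt := fun p θ₀ hθ => by
  obtain ⟨c₀, c0, hlow⟩ := hLow p.F θ₀ (1 / 10) hθ (by norm_num)
  obtain ⟨K, K1, hw⟩ := wts'
  obtain ⟨W₀, W1, hW₀⟩ := Cone.ev_rpow (2 + 262144 / c₀) (show (0 : ℝ) < 1 / 10 by norm_num)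
  refine ⟨W₀, fun W hW => ?_⟩
  have w1 : (1 : ℝ) ≤ W := by exact_mod_cast W1.trans hW
  have W0 : (0 : ℝ) < W := by linarith
  obtain ⟨δ₀, s, hδ₀, hlow⟩ := hlow (16 * W) (by linarith)
  refine ⟨δ₀, s + 1, hδ₀, fun ε₁ hε => ?_⟩
  obtain ⟨δ₁, hδ₁, hsg⟩ := hSg p.F θ₀ K (ε₁ * c₀ / (4096 * W)) hθ K1 (by positivity)
  refine ⟨min δ₀ δ₁, lt_min hδ₀ hδ₁, fun l r₁ => ?_⟩
  obtain ⟨ra, hlow⟩ := hlow l
  obtain ⟨rb, hsg⟩ := hsg l
  refine ⟨r₁ + p.r₀ + 4 * ra + rb, by omega, fun Λ N L hG hc hL hks r hr hrL => ?_⟩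
  have hΛ := hG.mem.ok
  have h0 : p.r₀ ≤ r := by omega
  have r2 := Cone.two_le hG h0
  have r0 : (0 : ℝ) < r := by exact_mod_cast (show 0 < r by omega)
  have hrg : 2 * Λ.rg ≤ r := hG.gd.2.1.trans h0
  have w4 := A51.four_le hG r
  have w4' := A51.four_le hG (W * r)
  have rW : r ≤ W * r := Nat.le_mul_of_pos_left r (by omega)
  have p1 : 1 ≤ 2 ^ s := Nat.one_le_two_pow
  have L2 : 2 ^ s * L + 2 ^ s * L ≤ 2 ^ N := by rw [← two_mul, ← mul_assoc, ← pow_succ']; exact hL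
  have L1 : L ≤ 2 ^ s * L := Nat.le_mul_of_pos_left L p1
  have hm := FlF4.amb_bx (z := 0) (p := 2 ^ N) hΛ le_rfl
  set m := FlF4.bx Λ 0 (2 ^ N + Λ.rg)
  obtain ⟨h, hs, hp, hT, hE, hA⟩ := hw (W * r) (by omega)
  have iS : Ins 0 r (Sn (r / 4)) := ins_Sn4 (by omega)
  have iJ : Ins 0 r (Jz 0) := ins_Jz 0 (by omega)
  obtain ⟨-, c, hc1⟩ := hks r h0 (by omega) hrL _ iJ (odd_Jz 0) (d4_Jz 0)
  have hS := (hks r h0 (by omega) hrL _ iS (odd_Sn _) (d4_Sn _)).1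
  have s1 := (semiStmt Λ p.w r 0 hΛ (by omega)).1
  have s2 := (semiStmt Λ p.w (W * r) 0 hΛ (by omega)).1
  have hS1 := (s1 _ iS).2.2.2.1 1 (abs_Sn_le _)
  have n1 : (1 : ℝ) ≤ (W : ℝ) * r := by exact_mod_cast (show 1 ≤ W * r by omega)
  have hO : Out (bl 0 (2 * (W * r))) (Sn (4 * (W * r))) := out_Sn (by linarith) (by push_cast; linarith)
  set t := (W : ℝ) ^ (1 / 10 : ℝ) with ht
  have t1 : 1 ≤ t := one_le_rpow w1 (by norm_num)
  have t10 : t ^ 10 = W := by rw [ht, ← rpow_natCast, ← rpow_mul W0.le]; norm_num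
  have low : ∀ z ∈ bl (0 : Pt) (W * r), c₀ / (4096 * W ^ 2 * t) ≤
      Ex (m.W 0) fun u => trl z (Sn (r / 4)) u * Sn (4 * (W * r)) u := fun z hz => by
    refine le_trans ?_ (hlow Λ N hG.mem ⟨hc.1.mono_d (min_le_left _ _), hc.2⟩ (r / 4) (4 * (W * r)) z
      (2 ^ N) m ?_ (by nlinarith) (le_of_eq (by ring)) ?_ ?_ le_rfl hm)
    · rw [show (r : ℝ) / 4 / (4 * (W * r)) = (16 * (W : ℝ))⁻¹ by field_simp; norm_num,
        inv_rpow (by positivity), rpow_add (by positivity), rpow_two, mul_rpow (by norm_num) W0.le, ← ht,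
        ← div_eq_mul_inv]
      have : (16 : ℝ) ^ (1 / 10 : ℝ) ≤ 16 :=
        (rpow_le_rpow_of_exponent_le (by norm_num) (by norm_num)).trans_eq (rpow_one _)
      refine div_le_div_of_nonneg_left c0.le (by positivity) ?_
      calc _ ≤ (16 * (W : ℝ)) ^ 2 * (16 * t) := by gcongr
        _ = _ := by ring
    · have : ((4 * ra : ℕ) : ℝ) ≤ r := by exact_mod_cast (show 4 * ra ≤ r by omega)
      push_cast at this; linarith
    · have := eu_le_of_bl hz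
      rw [sub_zero] at this; push_cast at this; linarith
    · have : 2 ^ s * (4 * (W * r)) ≤ 2 ^ N :=
        (Nat.mul_le_mul_left _ (w4'.trans hrL)).trans (by omega)
      exact_mod_cast this
  have a1 := coef hG hm (h0.trans rW) hrL (bl_mono 0 (by omega)) hs hp (iS.mono rW) hO (abs_Sn_le _)
    (by positivity) low c
  have a2 := (hsg Λ N hG.mem (hc.1.mono_d (min_le_right _ _)) 0 (W * r) h m (by omega) (by omega) hs hA hE
    (FlF4.amb_mono hm (bl_mono 0 (by omega)))).2 _ (hO.mono (bl_mono 0 (by omega))) (abs_Sn_le _)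
  have e0 := Beta3.ew_nonneg p.w
  have e1 := Beta3.ew_le p.w
  set x := (W : ℝ) ^ (ew p.w / 10) with hx
  have x0 : 0 ≤ x := rpow_nonneg W0.le _
  have p2 : (W : ℝ) ^ (-2 + ew p.w / 10) = x / W ^ 2 := by
    rw [rpow_add W0, rpow_neg W0.le, rpow_two]; ring
  have p3 : (W : ℝ) ^ (-3 + ew p.w / 10) = x / W ^ 3 := by
    rw [rpow_add W0, rpow_neg W0.le, show (3 : ℝ) = (3 : ℕ) by norm_num, rpow_natCast]; ring
  rw [p2] at hS; rw [p3] at hc1
  have iS' := iS.mono rW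
  have iD := (iJ.mono rW).sub (iS'.smul c)
  have T0 : 0 ≤ ∑ x ∈ bl 0 (W * r), h x := Finset.sum_nonneg fun x _ => hp x
  push_cast at hT ⊢
  refine num (x := x) (c := c) r0 t1 t10 (rpow_le_rpow_of_exponent_le w1 (by linarith)) c0 (hW₀ W hW)
    (s1 _ iJ).1 hε hT ?_ (a1.trans (add_le_add a2 (by gcongr)))
  have := ((s2 _ iD).2.2.2.2 _ (iS'.smul c)).1
  simp only [sub_add_cancel] at this
  rw [(s2 _ iS').2.2.1 c] at this
  refine this.trans (add_le_add hc1 (mul_le_mul_of_nonneg_left (hS.trans ?_) (abs_nonneg _)))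
  exact mul_le_of_le_one_right (by positivity) hS1

end Crest.Agent.T145.Fl
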