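import Crest.Agent.T145.FlDef2_82
import Crest.Agent.T145.KrDef_77
import Crest.Agent.T145.NcT4Def_78
import Crest.Agent.T145.Fac_45
import Crest.Agent.T145.Soft_23

/-!
# Row 145, module Fl: the soft atoms SG (neutral charges are Gaussian) and SC (charges are small) (helper45)
-/

set_option autoImplicit false

namespace Crest.Agent.T145.Fl

open Finset Real

namespace Soft45

/-- SG: at every scale of a window, in every ambient model -/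
def SgW : Prop := ∀ (F : Fa) (θ₀ K ε : ℝ), 0 < θ₀ → 1 ≤ K → 0 < ε → ∃ δ : ℝ, 0 < δ ∧
  ∀ Λ, F.Mem Λ → ∀ l L, Λ.Win θ₀ δ l L → ∀ r : ℝ, (l : ℝ) ≤ δ * r → r ≤ K * L →
    ∀ (z : Pt) (n : ℕ) (v : Pt → ℝ) (m : Mdl Pt), (n : ℝ) ≤ K * r → Pot.Sup (bl z n) v →
      (∀ x ∈ bl z n, |A0 v x| ≤ K / r ^ 2) → Nc.Amb Λ m (bl z n) →
      Gs3 (m.W 0) ((2 * π) • pr (A0 v)) (4 * π ^ 2 * (Λ.gN l * E0 (bl z n) v)) ε ∧
        |Ex (m.W 0) (cp (A0 v) 0) - exp (-2 * π ^ 2 * Λ.gN l * E0 (bl z n) v)| ≤ ε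

/-- SC: at every scale of a window, in every model that is ambient on `M` times the support -/
def ScW : Prop := ∀ (F : Fa) (θ₀ ε : ℝ), 0 < θ₀ → 0 < ε → ∃ M : ℕ, 1 ≤ M ∧ ∀ K : ℝ, 1 ≤ K →
  ∃ δ : ℝ, 0 < δ ∧ ∀ Λ, F.Mem Λ → ∀ l L, Λ.Win θ₀ δ l L → ∀ n : ℕ, (l : ℝ) ≤ δ * n → M * n ≤ L →
    ∀ (z : Pt) (ξ : Pt → ℝ) (q : ℤ) (φ : ℝ) (m : Mdl Pt), q ≠ 0 → Chq (bl z n) ξ q →
      (∀ x, |ξ x| ≤ K / (n : ℝ) ^ 2) → Nc.Amb Λ m (bl z (M * n)) → |Ex (m.W 0) (cp ξ φ)| ≤ ε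

theorem op_eq {D : Finset Pt} {v : Pt → ℝ} (hv : Pot.Sup D v) :
    Pot.op (Pot.eD Pot.nL D) v = A0 v := by
  funext x
  have h1 : Pot.op (Pot.eD Pot.nL D) v x = Pot.op (Pot.eD Pot.nL (insert x D)) v x := by
    rw [Pot.op, Pot.op, (Pot.sy_eD _).symm, (Pot.sy_eD (insert x D)).symm,
      Pot.eD_of_sup Pot.nL_ok (subset_insert x D) _ hv]
  rw [h1, Pot.op_eD Pot.nL_ok (mem_insert_self x D), Pot.A0_eq]
  rfl

theorem xg_A0 {D : Finset Pt} {v : Pt → ℝ} (hv : Pot.Sup D v) (c : ℝ) :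
    Kr.xg D (c • A0 v) = c • A0 v ∧ Pot.GD Pot.nL D (c • A0 v) (c • A0 v) = c ^ 2 * E0 D v := by
  have hc := Pot.co_eD Pot.nL_ok D
  have h1 : Pot.gr D (Pot.eD Pot.nL D) (c • A0 v) = c • v := by
    rw [hc.gr_smul, ← op_eq hv, hc.gr_op hv]
  refine ⟨by rw [Kr.xg, h1, Pot.op_smul, op_eq hv], ?_⟩
  rw [Pot.GD, Pot.G, h1, Pot.ip, E0, mul_sum]
  exact sum_congr rfl fun x _ => by simp only [Pi.smul_apply, smul_eq_mul]; ring

theorem ex_cp {W : Cfg Pt → ℝ} (h : Cen W) (ξ : Pt → ℝ) (φ : ℝ) :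
    Ex W (cp ξ φ) = cos φ * Ph W ((2 * π) • pr ξ) := by
  have h1 : cp ξ φ = fun s => cos φ * cos (((2 * π) • pr ξ) s) - sin φ * sin (((2 * π) • pr ξ) s) := by
    funext s
    simp only [cp, cos_add, AddMonoidHom.smul_apply, smul_eq_mul]
    ring
  rw [h1, Ex_sub (h.ig ((Tame.cos _).const_mul _)) (h.ig ((Tame.sin _).const_mul _)), Ex_const_mul,
    Ex_const_mul, h.ex_odd (F := fun s => sin (((2 * π) • pr ξ) s)) fun s => by rw [map_neg, sin_neg]]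
  simp [Ph]

theorem depG_cp {U : Finset Pt} {ξ : Pt → ℝ} {q : ℤ} (h : Chq U ξ q) (φ : ℝ) : DepG U (cp ξ φ) := by
  intro s s' k e
  have h1 : pr ξ s' = pr ξ s + ((q * k : ℤ) : ℝ) := by
    rw [pr_of_fsupp ξ _ h.1, pr_of_fsupp ξ _ h.1, Int.cast_mul, ← h.2, sum_mul, ← sum_add_distrib]
    exact sum_congr rfl fun x hx => by rw [e x hx]; push_cast; ring
  simp only [cp, h1]
  rw [show 2 * π * (pr ξ s + ((q * k : ℤ) : ℝ)) + φ = 2 * π * pr ξ s + φ + ((q * k : ℤ) : ℝ) * (2 * π) by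
    ring, cos_add_int_mul_two_pi]

theorem abs_q_le {z : Pt} {n : ℕ} {ξ : Pt → ℝ} {q : ℤ} {K : ℝ} (hn : 1 ≤ n) (hK : 0 ≤ K)
    (h : Chq (bl z n) ξ q) (hb : ∀ x, |ξ x| ≤ K / (n : ℝ) ^ 2) : |(q : ℝ)| ≤ 9 * K := by
  have hn' : (1 : ℝ) ≤ n := by exact_mod_cast hn
  rw [← h.2]
  refine (abs_sum_le_sum_abs _ _).trans ((sum_le_card_nsmul _ _ _ fun x _ => hb x).trans ?_)
  rw [card_bl, nsmul_eq_mul, mul_div_assoc', div_le_iff₀ (by positivity)]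
  push_cast
  nlinarith [mul_nonneg hK (show (0 : ℝ) ≤ 5 * n ^ 2 - 4 * n - 1 by nlinarith)]

/-- the conditional mean of `X` given the outside of `D` is small when the variances agree -/
theorem dec {Λ : Lat} (h : Λ.Ok) {D : Finset Pt} {m : Mdl Pt} (hm : Nc.Amb Λ m D) (X : Cfg Pt →+ ℝ)
    {G : Cfg Pt → ℝ} (hG : Out D G) (hb : ∀ s, |G s| ≤ 1) :
    Ex (m.W 0) (fun s => X s * G s) ^ 2 ≤ Vr (m.W 0) X X - Vr ((Λ.D D).W 0) X X := by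
  have hC := hm.ctr.cen hm.anch
  have hW := hC.wt
  have t2 : Tame fun s => X s * X s := (Tame.hom X).mul (Tame.hom X)
  obtain ⟨i1, e1⟩ := hm.near.dlr h hm.ctr.1 hm.sub hW (hC.ig t2)
  obtain ⟨-, e2⟩ := hm.near.dlr_mul h hm.ctr.1 hm.sub hW (F := fun s => X s) hG
    (hC.ig ((Tame.bdd hb).mul (Tame.hom X)))
  have k : ∀ s, Ex ((Λ.D D).W s) (fun t => X t) ^ 2 ≤
      Ex ((Λ.D D).W s) (fun t => X t * X t) - Vr ((Λ.D D).W 0) X X := fun s => by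
    have k := (corQStmt _ _ _ (Md.ctr_rsd_W (h.ctr_D D)) (fun q => h.se_D D q) (h.cen_D D).pos0 s 0 X
      (h.wt_D D s).pos).1
    rw [tilt_zero] at k
    have k' : Vr ((Λ.D D).W 0) X X ≤ Vr ((Λ.D D).W s) X X := k
    rw [Vr, Vr, Cv, Cv] at k'
    rw [Vr, Cv]; linarith
  have i2 := i1.sub (hW.ig_const (Vr ((Λ.D D).W 0) X X))
  have i3 := i2.of_le hW.nonneg (fun _ => sq_nonneg _) k
  have b2 : ∀ s, |G s ^ 2| ≤ 1 := fun s => by rw [abs_pow]; exact pow_le_one₀ (abs_nonneg _) (hb s)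
  have h1 := Ex_mul_sq_le hW.nonneg (hW.ig_bdd b2) i3
  have h2 := Ex_mono hW.nonneg i3 i2 k
  rw [Ex_sub i1 (hW.ig_const _), hW.ex_const, ← e1, ← hC.Vr_eq] at h2
  have h3 : Ex (m.W 0) (fun s => G s ^ 2) ≤ 1 := (le_abs_self _).trans (hW.abs_ex_le fun s _ => b2 s)
  rw [show (fun s => X s * G s) = fun s => G s * X s from funext fun s => mul_comm _ _, e2]
  exact h1.trans ((mul_le_of_le_one_left (Ex_nonneg hW.nonneg fun _ _ => sq_nonneg _) h3).trans h2)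

theorem sgC (hA : Kr.GffAStmt) (hT : T1mStmt) (F : Fa) {θ₀ K ε : ℝ} (hθ : 0 < θ₀) (hK : 1 ≤ K)
    (hε : 0 < ε) : ∃ δ : ℝ, 0 < δ ∧
    ∀ Λ, F.Mem Λ → ∀ l L, Λ.Win θ₀ δ l L → ∀ r : ℝ, (l : ℝ) ≤ δ * r → r ≤ K * L →
    ∀ (z : Pt) (n : ℕ) (v : Pt → ℝ) (m : Mdl Pt) (c : ℝ), |c| ≤ 8 → (n : ℝ) ≤ K * r →
      Pot.Sup (bl z n) v → (∀ x ∈ bl z n, |A0 v x| ≤ K / r ^ 2) → Nc.Amb Λ m (bl z n) →
      Gs3 (m.W 0) (c • pr (A0 v)) (c ^ 2 * (Λ.gN l * E0 (bl z n) v)) ε := by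
  have hK2 : 1 ≤ 8 * K ^ 2 := by nlinarith
  obtain ⟨δ₁, hδ₁, H⟩ := hA F (θ₀ / 2) (8 * K ^ 2) ε (by positivity) hK2 hε
  obtain ⟨δ₂, hδ₂, W⟩ := hT.2.2 F θ₀ δ₁ 0 hθ hδ₁
  refine ⟨min (min δ₂ 1) (δ₁ / (2 * K)), by positivity,
    fun Λ hΛ l L hw r hl hr z n v m c hc hn hv hb hm => ?_⟩
  have hO := hΛ.ok
  set δ := min (min δ₂ 1) (δ₁ / (2 * K)) with hδ
  have hδ0 : 0 < δ := by positivity
  have d1 : δ ≤ 1 := (min_le_left _ _).trans (min_le_right _ _)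
  have d2 : δ * (2 * K) ≤ δ₁ := (le_div_iff₀ (by positivity)).1 (min_le_right _ _)
  have hl1 : (1 : ℝ) ≤ l := by exact_mod_cast F45.win_l hw
  have hL1 : (1 : ℝ) ≤ L := by exact_mod_cast F45.win_L hw
  have hr1 : 1 ≤ r := by
    by_contra h
    nlinarith [not_le.1 h]
  obtain ⟨j, j1, j2⟩ := exists_nat_pow_near (le_min hr1 hL1) one_lt_two
  have k1 : ((2 ^ j : ℕ) : ℝ) ≤ r := by push_cast; exact j1.trans (min_le_left _ _)
  have k2 : 2 ^ j ≤ L := by exact_mod_cast j1.trans (min_le_right _ _)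
  have k0 : (0 : ℝ) < (2 ^ j : ℕ) := by positivity
  have k3 : r ≤ 2 * K * (2 ^ j : ℕ) := by
    have : r ≤ K * min r L := by
      rcases le_total r L with h | h
      · rw [min_eq_left h]; nlinarith
      · rwa [min_eq_right h]
    rw [pow_succ] at j2
    push_cast; nlinarith
  have hw' := (W Λ hΛ l L (F45.win_mono hw ((min_le_left _ _).trans (min_le_left _ _)))).2.2 j k2
    (Or.inr ⟨by nlinarith [hw.2.1.1], by nlinarith⟩)
  obtain ⟨e1, e2⟩ := xg_A0 hv c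
  have hE : ∀ e ∈ Λ.edT (bl z n), e ∈ m.ed := fun e he =>
    (hm.near.1 e (Lat.mem_edT.1 he).2).2 (Lat.mem_edT.1 he).1
  have h3 := (H Λ hΛ l (2 ^ j) hw' (bl z n) (c • A0 v)
    ⟨z, 2 ^ j, bl_mono z (Nat.le_floor (by nlinarith)), by nlinarith, Pot.ext_bl _ _ _⟩
    fun x hx => by
      rw [Pi.smul_apply, smul_eq_mul, abs_mul]
      calc |c| * |A0 v x| ≤ 8 * K * (K / ((2 ^ j : ℕ) : ℝ) ^ 2) :=
            mul_le_mul (by nlinarith) ((hb x hx).trans (by gcongr)) (abs_nonneg _) (by positivity)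
        _ = _ := by ring).2 m hm.ctr hm.anch hE
    (fun e he => hm.near.2.1 e (hE e he) (Lat.mem_edT.1 he).2) (hm.near.loc hO hm.ctr hm.anch hm.sub)
  rwa [e1, e2, pr_smul, mul_left_comm] at h3

theorem sgW (hA : Kr.GffAStmt) (hT : T1mStmt) : SgW := by
  intro F θ₀ K ε hθ hK hε
  obtain ⟨δ, hδ, H⟩ := sgC hA hT F hθ hK hε
  refine ⟨δ, hδ, fun Λ hΛ l L hw r hl hr z n v m hn hv hb hm => ?_⟩
  have h3 := H Λ hΛ l L hw r hl hr z n v m (2 * π)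
    (by rw [abs_of_pos two_pi_pos]; linarith [pi_le_four]) hn hv hb hm
  rw [show (2 * π) ^ 2 = 4 * π ^ 2 by ring] at h3
  refine ⟨h3, ?_⟩
  rw [ex_cp (hm.ctr.cen hm.anch), cos_zero, one_mul, show -2 * π ^ 2 * Λ.gN l * E0 (bl z n) v =
    -(4 * π ^ 2 * (Λ.gN l * E0 (bl z n) v)) / 2 by ring]
  exact h3.2.2

theorem le_mul_of_ceil {δ : ℝ} (hδ : 0 < δ) {l n : ℕ} (h : ⌈(l : ℝ) / δ⌉₊ ≤ n) : (l : ℝ) ≤ δ * n :=
  (div_le_iff₀' hδ).1 (Nat.ceil_le.1 h)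

theorem amb_mono {Λ : Lat} {m : Mdl Pt} {D D' : Finset Pt} (h : Nc.Amb Λ m D') (hD : D ⊆ D') :
    Nc.Amb Λ m D := ⟨h.ctr, h.anch, hD.trans h.sub, h.near.mono hD⟩

theorem scW (h2 : T2pStmt) (hR : R1cStmt) (hP : Nc.PDecStmt) (hT : T1mStmt) : ScW := by
  intro F θ₀ ε hθ hε
  obtain ⟨C, c, hc, P⟩ := hP F θ₀ hθ
  have ht : 0 < ε / (2 * ((C : ℝ) + 1)) := by positivity
  obtain ⟨M₁, hM₁⟩ := exists_nat_ge (((C : ℝ) + 1) / (ε / (2 * ((C : ℝ) + 1))) ^ c⁻¹ + (C + 1) * (C + 1))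
  have hp : 0 < (ε / (2 * ((C : ℝ) + 1))) ^ c⁻¹ := rpow_pos_of_pos ht _
  have m0 : 0 ≤ ((C : ℝ) + 1) / (ε / (2 * ((C : ℝ) + 1))) ^ c⁻¹ := by positivity
  have m1 : (C + 1) * (C + 1) ≤ M₁ := by exact_mod_cast (show ((C : ℝ) + 1) * (C + 1) ≤ M₁ by linarith)
  have m1' : (0 : ℝ) < M₁ := by exact_mod_cast (show 0 < M₁ by nlinarith)
  have m2 : (C : ℝ) * (((C : ℝ) + 1) / M₁) ^ c ≤ ε / 2 := by
    have h1 : ((C : ℝ) + 1) / M₁ ≤ (ε / (2 * ((C : ℝ) + 1))) ^ c⁻¹ := by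
      rw [div_le_comm₀ m1' hp]; nlinarith [show (0 : ℝ) ≤ ((C : ℝ) + 1) * (C + 1) by positivity]
    have h2 := rpow_le_rpow (by positivity) h1 hc.le
    rw [rpow_inv_rpow ht.le hc.ne'] at h2
    calc _ ≤ ((C : ℝ) + 1) * (ε / (2 * ((C : ℝ) + 1))) :=
          mul_le_mul (by linarith) h2 (by positivity) (by positivity)
      _ = ε / 2 := by field_simp
  refine ⟨(6 + C) * (M₁ + 2), by nlinarith, fun K hK => ?_⟩
  set K₁ : ℝ := 8 * K * (6 * ((M₁ : ℝ) + 2)) ^ 2 with hK₁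
  have hK₁0 : 0 ≤ K₁ := by positivity
  have hJ : (0 : ℝ) ≤ 2 * F.J.card * (100 * K₁) ^ 2 := by positivity
  obtain ⟨δ₁, hδ₁, H⟩ := h2 F (θ₀ / 2) (9 * K + 2 * F.J.card * (100 * K₁) ^ 2) (ε / 2) (by positivity)
    (by linarith) (by positivity)
  obtain ⟨δ₂, hδ₂, W⟩ := hT.2.2 F θ₀ δ₁ 0 hθ hδ₁
  refine ⟨min (min δ₂ δ₁) (1 / ((F.base.rg : ℝ) + 1)), by positivity,
    fun Λ hΛ l L hw n hl hL z ξ q φ m hq hξ hb hm => ?_⟩
  have hO := hΛ.ok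
  set δ := min (min δ₂ δ₁) (1 / ((F.base.rg : ℝ) + 1)) with hδ
  have hs : Sep δ l n := ⟨hw.2.1.1, hl⟩
  have hn : Λ.rg + 1 ≤ n := by
    have h1 := hs.large (n := F.base.rg + 1) (by
      push_cast; rw [mul_comm]; exact (le_div_iff₀ (by positivity)).1 (min_le_right _ _))
    rw [hΛ.rg_eq]; nlinarith [h1.2, hs.one_le_l]
  have hn1 : 1 ≤ n := by omega
  have hn0 : (0 : ℝ) < n := by exact_mod_cast hn1
  set b := (M₁ + 2) * n with hb'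
  obtain ⟨j, j1, j2⟩ := exists_nat_pow_near (show 1 ≤ 2 * b + 1 by omega) one_lt_two
  have b1 : M₁ * n + 2 * n = b := by rw [hb']; ring
  have k1 : 2 ^ (j + 1) ≤ 6 * b := by rw [pow_succ]; omega
  have hMb : (6 + C) * (M₁ + 2) * n = 6 * b + C * b := by rw [hb']; ring
  set L' := 2 ^ (j + 1) with hL'
  have hL'1 : 1 ≤ L' := by omega
  have hw' := (W Λ hΛ l L (F45.win_mono hw ((min_le_left _ _).trans (min_le_left _ _)))).2.2 (j + 1)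
    (by omega) (Or.inr ((hs.mono ((min_le_left _ _).trans (min_le_right _ _))).mono_right (by omega)))
  set a : Pt := (z.1 - b, z.2 - b) with ha
  have hsub : bl z b ⊆ sq a L' := fun x hx => by
    rw [mem_bl] at hx; rw [mem_sq]; simp only [ha]; omega
  have haa : a ∈ sq a L' := self_mem_sq a hL'1
  have hm' : Nc.Amb Λ (Λ.Nr (sq a L') a) (bl z (M₁ * n + Λ.rg)) :=
    ⟨hO.ctr_Nr _ _, hO.anch_Nr haa, fun x hx => mem_erase.2 ⟨fun e => by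
      rw [e, mem_bl] at hx; simp only [ha] at hx; omega, hsub (bl_mono z (by omega) hx)⟩,
      Lat.near_Nr (Lat.edT_subset_edI fun x hx => (bl_subset_bl hx (by omega)).trans hsub) a⟩
  have hcp : ∀ s, |cp ξ φ s| ≤ 1 := fun s => abs_cos_le_one _
  have hcN := hO.cen_Nr_bl (self_mem_bl z ((C + 1) * n))
  have h3 := (P Λ hΛ (2 * L) n ((C + 1) * n) (M₁ * n) z (cp ξ φ) (Or.inl hw.2.2.1) hn1 (by nlinarith)
    (by nlinarith) (by nlinarith) (depG_cp hξ φ) (hcN.ig (Tame.bdd hcp)) m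
    ⟨hm.ctr, hm.anch, (bl_mono z (by omega)).trans hm.sub, hm.near.mono (bl_mono z (by omega))⟩).2.1 _ hm'
  have h4 : Nc.Nm Λ z ((C + 1) * n) (cp ξ φ) ≤ 1 :=
    (le_abs_self _).trans (hcN.wt.abs_ex_le fun s _ => by rw [abs_abs]; exact hcp s)
  have e : (((C + 1) * n : ℕ) : ℝ) / (M₁ * n : ℕ) = ((C : ℝ) + 1) / M₁ := by push_cast; field_simp
  rw [e] at h3
  have h5 := h3.trans ((mul_le_of_le_one_right (by positivity) h4).trans m2)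
  have hmap : (sq 0 L').map (Equiv.addRight a).toEmbedding = sq a L' := by rw [map_sq_add, zero_add]
  have hsum : ∑ x ∈ sq a L', ((2 * π) • ξ) x = 2 * π * q := by
    simp only [Pi.smul_apply, smul_eq_mul]
    rw [← mul_sum, ← hξ.2, sum_subset ((bl_mono z (by omega)).trans hsub) fun x _ hx => hξ.1 x hx]
  have h6 := (Λ.sym_add a).Ph_Nr hO hmap (self_mem_sq 0 hL'1) haa hsum
  have h7 := hR Λ L' K₁ q (fun x => ((2 * π) • ξ) (Equiv.addRight a x)) (fun _ => 0) hO hL'1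
    (fun x hx => by
      have : Equiv.addRight a x ∉ bl z n := fun h => hx (by
        have h1 := hsub (bl_mono z (by omega) h)
        rw [← hmap] at h1
        exact (mem_map' _).1 h1)
      simp only [Pi.smul_apply, hξ.1 _ this, smul_zero])
    (fun x => by
      have h1 : (L' : ℝ) ≤ 6 * ((M₁ : ℝ) + 2) * n := by
        have : L' ≤ 6 * (M₁ + 2) * n := by rw [mul_assoc]; exact k1
        exact_mod_cast this
      have h0 : (0 : ℝ) < L' := by exact_mod_cast hL'1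
      rw [Pi.smul_apply, smul_eq_mul, abs_mul, abs_of_pos two_pi_pos]
      calc 2 * π * |ξ (Equiv.addRight a x)| ≤ 8 * (K / (n : ℝ) ^ 2) :=
            mul_le_mul (by nlinarith [pi_le_four]) (hb _) (abs_nonneg _) (by positivity)
        _ = K₁ / (6 * ((M₁ : ℝ) + 2) * n) ^ 2 := by rw [hK₁]; field_simp
        _ ≤ _ := by gcongr)
    (fun _ => by simpa using hK₁0)
    (by rw [sum_const_zero, add_zero, ← hsum, ← hmap, sum_map]; rfl)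
  have e2 : side L' (fun _ => 0) = 0 := by funext x; simp [side]
  rw [e2, add_zero] at h7
  obtain ⟨ψ, p1, p2⟩ := h7
  have h8 := H Λ hΛ l L' hw' q _ hq ((abs_q_le hn1 (by linarith) hξ hb).trans (by linarith))
    ⟨ψ, p1, (F45.sum_sq_le hΛ hL'1 p2).trans (by linarith)⟩
  have hc' := hO.cen_Nr haa
  have h9 : |Ex ((Λ.Nr (sq a L') a).W 0) (cp ξ φ)| ≤ ε / 2 := by
    rw [ex_cp hc', abs_mul, abs_of_pos (hc'.ph_pos _), ← pr_smul, h6]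
    exact (mul_le_of_le_one_left ((F45.cenN hO hL'1).ph_pos _).le (abs_cos_le_one φ)).trans h8
  linarith [abs_sub_abs_le_abs_sub (Ex (m.W 0) (cp ξ φ)) (Ex ((Λ.Nr (sq a L') a).W 0) (cp ξ φ))]

end Soft45

open Soft45

/-- SG -/
theorem sgStmt (hA : Kr.GffAStmt) (hT : T1mStmt) : SgStmt := by
  intro F θ₀ K ε hθ hK hε
  obtain ⟨δ, hδ, H⟩ := sgC hA hT F hθ hK (show 0 < min ε (ε ^ 2 / 2) by positivity)
  refine ⟨δ, hδ, fun l => ⟨⌈(l : ℝ) / δ⌉₊, fun Λ N hΛ hw z n v m h1 h2 hv hb _ hm => ?_⟩⟩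
  have hO := hΛ.ok
  have hn : (0 : ℝ) ≤ n := n.cast_nonneg
  have key : ∀ m, Nc.Amb Λ m (bl z n) →
      Gs3 (m.W 0) (pr (A0 v)) (Λ.gN l * E0 (bl z n) v) (min ε (ε ^ 2 / 2)) := fun m hm => by
    simpa only [one_smul, one_pow, one_mul] using H Λ hΛ l _ hw n (le_mul_of_ceil hδ h1)
      ((Nat.cast_le.2 h2).trans (le_mul_of_one_le_left (by positivity) hK)) z n v m 1 (by norm_num)
      (le_mul_of_one_le_left hn hK) hv (fun x _ => hb x) hm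
  have hm' := amb_mono hm (bl_mono z n.le_succ)
  obtain ⟨g1, g2, g3⟩ := key m hm'
  have g4 := (key (Λ.D (bl z n)) ⟨hO.ctr_D _, hO.anch_D _, subset_rfl, Lat.near_D subset_rfl⟩).1
  refine ⟨⟨g1.trans (min_le_left _ _), g2.trans (min_le_left _ _), g3.trans (min_le_left _ _)⟩,
    fun G hG hG1 => abs_le_of_sq_le_sq' ((dec hO hm' _ hG hG1).trans ?_) hε.le |> abs_le.2⟩
  linarith [(abs_le.1 (g1.trans (min_le_right _ _))).2, (abs_le.1 (g4.trans (min_le_right _ _))).1]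

/-- SC -/
theorem scStmt (h2 : T2pStmt) (hR : R1cStmt) (hP : Nc.PDecStmt) (hT : T1mStmt) : ScStmt := by
  intro F θ₀ K ε hθ hK hε
  obtain ⟨M, -, H⟩ := scW h2 hR hP hT F θ₀ ε hθ hε
  obtain ⟨δ, hδ, H⟩ := H K hK
  refine ⟨δ, M, hδ, fun l => ⟨⌈(l : ℝ) / δ⌉₊, fun Λ N hΛ hw z R n ξ q φ m h1 h2 h3 hq hξ hb hm => ?_⟩⟩
  have k : M * R ≤ n := (Nat.mul_le_mul_right R Nat.lt_two_pow_self.le).trans h2
  exact H Λ hΛ l _ hw R (le_mul_of_ceil hδ h1) (k.trans h3) z ξ q φ m hq hξ hb (amb_mono hm (bl_mono z k))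

end Crest.Agent.T145.Fl
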