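import Crest.Agent.T145.FlSXb_44

/-!
# Row 145, module FLOW (helper44): STEP-x
-/

set_option autoImplicit false

namespace Crest.Agent.T145.Fl

open Finset Pot Xi Real

namespace SX44

theorem num1 {a b c Q y u : ℝ} (hQ : 1 ≤ Q) (hy : 0 ≤ y) (hu : 1 ≤ u) (ha0 : 0 ≤ a) (hb0 : 0 ≤ b)
    (ha : a ≤ Q * y) (hb : b ≤ 3 * (Q * y / u)) (hc : c ≤ a + b) :
    32 * a * b + 32 * b * c ≤ 480 * Q ^ 2 * y ^ 2 / u := by
  have h1 : Q * y / u ≤ Q * y := div_le_self (by positivity) hu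
  calc _ ≤ 32 * b * (a + (a + b)) := by nlinarith
    _ ≤ 32 * (3 * (Q * y / u)) * (5 * (Q * y)) := by gcongr; linarith
    _ = _ := by ring

theorem scale_ge {T R c l a : ℝ} (hT : 1 ≤ T) (hR : T ^ 4 ≤ R) (hc : c ≤ T) (hl0 : 0 ≤ l) (hl : l ≤ T)
    (ha : 0 ≤ a) (h : R ≤ c * (l * a)) : T ≤ a ∧ R ≤ a ^ 2 := by
  have h1 : R ≤ T ^ 2 * a := h.trans (by rw [pow_two, mul_assoc]; gcongr)
  have h2 : T ^ 2 ≤ a := le_of_mul_le_mul_left (a := T ^ 2) (by nlinarith) (by positivity)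
  exact ⟨by nlinarith, by nlinarith⟩

theorem rpow_le_self {t e : ℝ} (ht : 1 ≤ t) (he : e ≤ 1 / 10) : t ^ e ≤ t := by
  simpa using rpow_le_rpow_of_exponent_le ht (show e ≤ 1 by linarith)

end SX44

open SX44

set_option maxHeartbeats 1000000 in
theorem stepXStmt (hS : SemiStmt) (hP : ProdStmt) (hN : NeuStmt) (hC : CmStmt) (hX : XfStmt) :
    StepXStmt := by
  intro p W hW
  obtain ⟨A₁, j, hA₁, hj, hsin⟩ := sines hN hC hX p hW
  have hW' : (2 : ℝ) ≤ W := by exact_mod_cast hW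
  obtain ⟨A, a1, a2, a3, a4, a5⟩ : ∃ A : ℝ, A₁ ≤ A ∧ 480 * ((32 * p.w) ^ 3 * W) ^ 2 ≤ A ∧
      (p.r₀ : ℝ) ≤ A ∧ 5 * W ≤ A ∧ 32 * p.w ≤ A := by
    have h1 : (0 : ℝ) ≤ 480 * ((32 * p.w) ^ 3 * W) ^ 2 := by positivity
    have h2 : (0 : ℝ) ≤ p.r₀ := by positivity
    have h3 : (0 : ℝ) ≤ 32 * p.w := by positivity
    exact ⟨A₁ + 480 * ((32 * p.w) ^ 3 * W) ^ 2 + p.r₀ + 5 * W + 32 * p.w, by linarith, by linarith,
      by linarith, by linarith, by linarith⟩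
  have hA : 1 ≤ A := hA₁.trans a1
  have hAC : A ≤ 18 * A ^ 5 := by nlinarith [le_self_pow₀ hA (show 5 ≠ 0 by norm_num)]
  refine ⟨18 * A ^ 5, 1 / j, by positivity, by have : 0 < j := by omega
                                               positivity, ?_⟩
  intro Λ ω r₁ L N hE hPur R Y hMaj hCY hCR hr₁ hg1 hg2 x hx1 hx2
  have hR := hMaj.1
  have hR0 : 0 < R := one_pos.trans_le hR
  have hY := Y_pos hMaj
  have hA5 : ∀ t : ℝ, t ≤ A → t * Y ≤ 1 ∧ t * R ≤ L := fun t h1 =>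
    ⟨le_trans (mul_le_mul_of_nonneg_right (h1.trans hAC) hY.le) hCY,
      le_trans (mul_le_mul_of_nonneg_right (h1.trans hAC) hR0.le) hCR⟩
  have hY1 : Y ≤ 1 := by simpa using (hA5 1 hA).1
  have hRL : R ≤ L := by simpa using (hA5 1 hA).2
  have hLN' := hE.le
  have hLN : (L : ℝ) ≤ N := by exact_mod_cast hLN'
  have hw : (4 : ℝ) ≤ p.w := by exact_mod_cast hE.w4
  obtain ⟨u, hu, huY, huR, huδ⟩ := exists_u (j := j) (by omega) hY hY1 hR0 hRL
  have hu0 : 0 < u := one_pos.trans_le hu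
  have hT : A ≤ 1 / Y := (le_div_iff₀ hY).2 (hA5 A le_rfl).1
  have hT1 : 1 ≤ 1 / Y := hA.trans hT
  have hT2 : u ^ 10 ≤ 1 / Y := (pow_le_pow_right₀ hu hj).trans ((le_div_iff₀ hY).2 huY)
  have hT3 := R_ge hMaj
  obtain ⟨k, a, s1, s2, s3, s4⟩ := scales hW (w := p.w) (by have := hE.w4; omega) (R := R)
    (one_le_pow₀ (n := 10) hu) (by
      calc _ ≤ 1 / Y * (1 / Y) := mul_le_mul (by linarith only [a5, hT, hw]) hT2 (by positivity)
            (by positivity)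
        _ ≤ (1 / Y) ^ 4 := by rw [← pow_two]; exact pow_le_pow_right₀ hT1 (by norm_num)
        _ ≤ R := hT3)
  have hl : 1 ≤ (W : ℝ) ^ k := one_le_pow₀ (by linarith only [hW'])
  have ha0 : (0 : ℝ) ≤ a := Nat.cast_nonneg a
  obtain ⟨s5, s6⟩ := scale_ge hT1 hT3 (a5.trans hT) (zero_le_one.trans hl) (s1.trans hT2) ha0 s4
  have haA : A ≤ a := hT.trans s5
  have ha1 : 1 ≤ a := by exact_mod_cast hA.trans haA
  have har : p.r₀ ≤ a := by exact_mod_cast a3.trans haA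
  have har1 : r₁ ≤ a := by
    exact_mod_cast le_of_pow_le_pow_left₀ two_ne_zero ha0 (hr₁.trans s6)
  obtain ⟨b, hb⟩ : ∃ b : ℕ, b = W ^ k * a := ⟨_, rfl⟩
  have hb' : (b : ℝ) = (W : ℝ) ^ k * a := by rw [hb]; push_cast; rfl
  have hab : a ≤ b := hb ▸ Nat.le_mul_of_pos_left a (by positivity)
  have hab' : (a : ℝ) ≤ b := by exact_mod_cast hab
  rw [← hb'] at s3
  have hb0 : (0 : ℝ) ≤ b := Nat.cast_nonneg b
  have t1 : 4 * (b : ℝ) ≤ p.w * b := mul_le_mul_of_nonneg_right hw hb0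
  have t2 : (p.w : ℝ) * a ≤ p.w * b := mul_le_mul_of_nonneg_left hab' (by positivity)
  have t3 : (1 : ℝ) ≤ b := (hA.trans haA).trans hab'
  have hwb : p.w * b ≤ L := by
    have : (p.w : ℝ) * b ≤ L := by linarith only [s3, hRL, t1, hb0]
    exact_mod_cast this
  have hwa : p.w * a ≤ L := (Nat.mul_le_mul_left _ hab).trans hwb
  have hbr : p.r₀ ≤ b := har.trans hab
  have t4 : 5 * W * R ≤ N := (hA5 _ a4).2.trans hLN
  have t5 : 2 * R ≤ W * R := mul_le_mul_of_nonneg_right hW' hR0.le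
  have hsub : bl x (p.w * b) ⊆ bl 0 N := fun y hy => mem_bl_of_eu (by
    have h1 := eu_le_of_bl hy
    have h2 := eu_add_le (y - x) x
    push_cast at h1
    rw [sub_add_cancel] at h2
    rw [sub_zero]
    linarith only [h1, h2, hx2, s3, t4, t5, hR0])
  have hdis : Disjoint (bl 0 (p.w * b)) (bl x (p.w * b)) := disjoint_left.2 fun y h0 hy => by
    have h1 := eu_le_of_bl hy
    have h2 := eu_le_of_bl h0
    have h3 := eu_add_le (x - y) y
    push_cast at h1 h2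
    rw [sub_add_cancel, eu_sub_comm] at h3
    rw [sub_zero] at h2
    linarith only [h1, h2, h3, hx1, s3, hR0]
  have hbw : b ≤ p.w * b := Nat.le_mul_of_pos_left b (by have := hE.w4; omega)
  obtain ⟨m, hm⟩ := hE.amb 0
  have hc := hm.1.ctr.cen hm.1.anch
  obtain ⟨α, hα, hG, -⟩ := hPur a k (Jz 0) har har1 (hb ▸ hwb) (ins_Jz 0 ha1) (odd_Jz 0) (d4_Jz 0)
  rw [← hb] at hG
  rw [mul_comm _ (k : ℝ), rpow_natCast_mul (by positivity)] at hα hG
  have iJ : Ins 0 b (Jz 0) := ins_Jz 0 (ha1.trans hab)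
  have iS : Ins 0 b (Sn (a / 4)) := (ins_Sn4 ha1).mono hab
  have iG : Ins 0 b fun s => Jz 0 s - α * Sn (a / 4) s := iJ.sub (iS.smul α)
  have sb := (hS Λ p.w b 0 hE.mem.ok (rg_le hE.toGs hbr)).1
  have n1 := ((hS Λ p.w a 0 hE.mem.ok (rg_le hE.toGs har)).1 _ (ins_Jz 0 ha1)).1
  have n2 := (sb _ iJ).1
  have n3 := (sb _ iG).1
  have n4 : nu Λ p.w 0 b (fun s => α * Sn (a / 4) s) ≤
      nu Λ p.w 0 b (Jz 0) + nu Λ p.w 0 b fun s => Jz 0 s - α * Sn (a / 4) s := by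
    simpa using ((sb _ iJ).2.2.2.2 _ iG).2
  obtain ⟨c, hc'⟩ : ∃ c : ℝ, c = 32 * p.w := ⟨_, rfl⟩
  obtain ⟨l, hl'⟩ : ∃ l : ℝ, l = (W : ℝ) ^ k := ⟨_, rfl⟩
  obtain ⟨y, hy'⟩ : ∃ y : ℝ, y = Y / R ^ 2 := ⟨_, rfl⟩
  have p1 := prof_le hMaj har hwa (t := 32 * p.w * W ^ k) (by linarith only [s3, hab', t1, hb0])
    (by rw [mul_assoc]; exact s4) n1
  have p2 := prof_le hMaj hbr hwb (t := 32 * p.w) (by linarith only [s3, t1, hb0])
    (by rw [hb']; exact s4) n2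
  rw [← hc', ← hy'] at p1 p2
  rw [← hc'] at a2
  rw [← hl'] at p1 hα hG s1 s2 hl
  have hc1 : 1 ≤ c := by linarith only [hc', hw]
  have hy : 0 ≤ y := by rw [hy']; positivity
  have he := ew_le p.w
  have hQ : 1 ≤ c ^ 3 * W := one_le_mul_of_one_le_of_one_le (one_le_pow₀ hc1) (by linarith only [hW'])
  have hQ' : c ^ 3 ≤ c ^ 3 * W := le_mul_of_one_le_right (by positivity) (by linarith only [hW'])
  have hQA : 480 * (c ^ 3 * W) ≤ A := le_trans (mul_le_mul_of_nonneg_left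
    (le_self_pow₀ hQ two_ne_zero) (by norm_num)) a2
  have m1 : nu Λ p.w 0 b (Jz 0) ≤ c ^ 3 * W * y := by
    calc _ ≤ y * (c ^ 2 * c) := p2.trans (by gcongr; exact rpow_le_self hc1 he)
      _ = c ^ 3 * y := by ring
      _ ≤ _ := mul_le_mul_of_nonneg_right hQ' hy
  have m2 : nu Λ p.w 0 b (fun s => Jz 0 s - α * Sn (a / 4) s) ≤ 3 * (c ^ 3 * W * y / u) := by
    have h1 := decay hl hu (by linarith only [hW']) s2 he
    have h2 := rpow_le_self hc1 he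
    rw [mul_rpow (by positivity) (by positivity)] at p1
    calc _ ≤ 3 * l ^ (-(11 / 5) : ℝ) * (y * ((c * l) ^ 2 * (c * l ^ ew p.w))) :=
          hG.trans (mul_le_mul_of_nonneg_left (p1.trans (by gcongr)) (by positivity))
      _ = 3 * (c ^ 3 * y) * (l ^ (-(11 / 5) : ℝ) * (l ^ 2 * l ^ ew p.w)) := by ring
      _ ≤ 3 * (c ^ 3 * y) * (W / u) := mul_le_mul_of_nonneg_left h1 (by positivity)
      _ = _ := by ring
  have m3 : |α| ≤ A * y * u ^ 40 := by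
    have h1 := rpow_le_self hl he
    have h2 := rpow_le_self (one_le_mul_of_one_le_of_one_le hc1 hl) he
    calc _ ≤ 2 * l * (y * ((c * l) ^ 2 * (c * l))) :=
          hα.trans (mul_le_mul (by gcongr) (p1.trans (by gcongr)) n1 (by positivity))
      _ = 2 * c ^ 3 * y * l ^ 4 := by ring
      _ ≤ A * y * (u ^ 10) ^ 4 := by gcongr; linarith only [hQ', hQA, hQ]
      _ = _ := by ring
  obtain ⟨f5, f6, f7⟩ := hsin Λ ω L N m hE hm R Y u hMaj (hA5 _ a1).1 (hA5 _ a1).2 hg1 hg2 hu huY huR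
    a (a1.trans haA) (by linarith only [s3, t2]) (by
      rw [← hc']
      calc R ≤ c * (l * a) := by rw [hc', hl']; exact s4
        _ ≤ _ := by gcongr) x hx1 hx2
  have hwN : p.w * b ≤ N := hwb.trans hLN'
  have dN : ∀ {F}, Ins 0 b F → Ins 0 N F := fun h => h.mono (hbw.trans hwN)
  have dX : ∀ {F}, Ins 0 b F → Ins 0 N (trl x F) := fun h =>
    (h.trl x).of_subset ((bl_mono x hbw).trans hsub)
  have iR : Ins 0 N (Sn R) := ins_Sn hR0 (by linarith only [t4, t5, hR0])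
  have oR : Out (bl 0 b) (Sn R) := out_Sn hR0 (by linarith only [s3, t1, t3])
  have hl1 : ell ω R (Jz 0) = Ex (m.W 0) fun s => Jz 0 s * Sn R s := hm.2 _ ((dN iJ).mul iR).1
  have f1 : |KK ω x - α ^ 2 * Ex (m.W 0) fun s => Sn (a / 4) s * trl x (Sn (a / 4)) s| ≤
      A * y ^ 2 / u := by
    have h1 := prod2 hS hP hE.toGs hm.1 hbr hwb hwN hsub hdis iJ iG
    have h2 := prod2 hS hP hE.toGs hm.1 hbr hwb hwN hsub hdis iG (iS.smul α)
    rw [KK, ← trl_Jz x, hm.2 _ ((dN iJ).mul (dX iJ)).1, ← Ex_const_mul, ← Ex_sub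
      (hc.ig ((dN iJ).mul (dX iJ)).2) (hc.ig (((dN iS).mul (dX iS)).smul _).2), Ex_congr
      (G := fun s => Jz 0 s * trl x (fun s => Jz 0 s - α * Sn (a / 4) s) s +
        (Jz 0 s - α * Sn (a / 4) s) * trl x (fun s => α * Sn (a / 4) s) s)
      (fun s _ => by simp only [trl]; ring),
      Ex_add (hc.ig ((dN iJ).mul (dX iG)).2) (hc.ig ((dN iG).mul (dX (iS.smul α))).2)]
    refine (abs_add_le _ _).trans ((add_le_add h1 h2).trans ((num1 hQ hy hu n2 n3 m1 m2 n4).trans ?_))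
    gcongr
  have f2 : |ell ω R (Jz 0) - α * Ex (m.W 0) fun s => Sn (a / 4) s * Sn R s| ≤ A * y / u := by
    have h1 := prod1 hP hE.toGs hm.1 hbr hwb hwN iG oR (abs_Sn_le R)
    rw [hl1, ← Ex_const_mul, ← Ex_sub (hc.ig ((dN iJ).mul iR).2) (hc.ig (((dN iS).mul iR).smul _).2),
      Ex_congr (G := fun s => (Jz 0 s - α * Sn (a / 4) s) * Sn R s) fun s _ => by ring]
    calc _ ≤ 32 * (3 * (c ^ 3 * W * y / u)) := h1.trans (by gcongr)
      _ = 96 * (c ^ 3 * W) * y / u := by ring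
      _ ≤ _ := by gcongr; linarith only [hQA, hQ]
  have f3 : |ell ω R (Jz 0)| ≤ A * y := by
    have h1 := prod1 hP hE.toGs hm.1 hbr hwb hwN iJ oR (abs_Sn_le R)
    rw [hl1]
    calc _ ≤ 32 * (c ^ 3 * W * y) := h1.trans (by gcongr)
      _ = 32 * (c ^ 3 * W) * y := by ring
      _ ≤ _ := by gcongr; linarith only [hQA, hQ]
  have hU : 0 ≤ u ^ 81 := by positivity
  have hρ : (0 : ℝ) < a / 4 := by linarith only [hA, haA]
  refine (fin hA hy hu (by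
    rw [← exp_nat_mul, ← exp_add, ← cr_sub hρ hR0]; congr 1; push_cast; ring) f1 f2 f3 m3
    (f5.trans (div_le_div_of_nonneg_right a1 hU)) (f6.trans (div_le_div_of_nonneg_right a1 hU))
    ((abs_of_pos (exp_pos _)).trans_le (f7.trans a1))).trans ?_
  calc _ = 18 * A ^ 5 * Y ^ 2 * (1 / u) / R ^ 4 := by rw [hy']; field_simp
    _ ≤ _ := by gcongr

end Crest.Agent.T145.Fl
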