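import Crest.Agent.T145.FlSYD_74
import Crest.Agent.T145.FlOde_64
import Crest.Agent.T145.OmB_11

/-!
# Row 145, STEP-y: the Duhamel formula for the left functional (helper74)
-/

set_option autoImplicit false

namespace Crest.Agent.T145.Fl

open Finset Pot Xi Real

namespace SY74

theorem depG_cp {U : Finset Pt} {ξ : Pt → ℝ} {q : ℤ} (h : Chq U ξ q) (φ : ℝ) : DepG U (cp ξ φ) := by
  intro s s' k e
  have : pr ξ s' = pr ξ s + q * k := by
    simp only [pr_of_fsupp ξ _ h.1]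
    rw [← h.2, sum_mul, ← sum_add_distrib]
    exact sum_congr rfl fun x hx => by rw [e x hx]; push_cast; ring
  rw [cp, cp, this, ← cos_add_int_mul_two_pi _ (q * k)]
  congr 1; push_cast; ring

theorem out_cp {B U : Finset Pt} {ξ : Pt → ℝ} (hU : Pot.Sup U ξ) (h : ∀ y ∈ B, ξ y = 0) (φ : ℝ) :
    Out B (cp ξ φ) := fun s s' e => by
  have : pr ξ s = pr ξ s' := by
    simp only [pr_of_fsupp ξ _ hU]
    refine sum_congr rfl fun x _ => ?_
    by_cases hx : x ∈ B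
    · simp [h x hx]
    · rw [e x hx]
  rw [cp, cp, this]

theorem abs_cp (ξ : Pt → ℝ) (φ : ℝ) (s : Cfg Pt) : |cp ξ φ s| ≤ 1 := abs_cos_le_one _

theorem tame_cp (ξ : Pt → ℝ) (φ : ℝ) : Tame (cp ξ φ) := Tame.bdd (abs_cp ξ φ)

theorem xt_apply (W R t : ℝ) (x : Pt) : xt W R t x = xi R x + t * (xi (W * R) x - xi R x) := by
  simp [xt, A0_wt]

theorem chq_xt {W R : ℝ} (hW : 1 ≤ W) (hR : 0 < R) {n : ℕ} (hn : 2 * (W * R) ≤ n) (t : ℝ) :
    Chq (bl 0 n) (xt W R t) 1 := by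
  have h1 : 2 * R ≤ n := by nlinarith
  have h2 : 0 < W * R := by positivity
  refine ⟨fun x hx => by rw [xt_apply, sup_xi hR h1 x hx, sup_xi h2 hn x hx]; ring, ?_⟩
  simp only [xt_apply, sum_add_distrib, ← mul_sum, sum_sub_distrib, sum_xi hR h1, sum_xi h2 hn]
  simp

theorem xt_in {W R : ℝ} (hW : 1 ≤ W) (hR : 0 < R) {n : ℕ} (hn : (n : ℝ) + 1 ≤ R) (t : ℝ) :
    ∀ x ∈ bl 0 n, xt W R t x = 0 := fun x hx => by
  rw [xt_apply, xi_in hR hn hx, xi_in (by positivity) (by nlinarith) hx]; ring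

theorem der {μ : Cfg Pt → ℝ} (h : Cen μ) {H : Cfg Pt → ℝ} (hH : Tame H) (ξ η : Pt → ℝ) (t : ℝ) :
    HasDerivAt (fun t : ℝ => Ex μ fun s => H s * cp (ξ + t • η) (-(π / 2)) s)
      (2 * π * Ex μ fun s => H s * cp (ξ + t • η) 0 s * pr η s) t := by
  rw [← Ex_const_mul]
  refine hasDerivAt_Ex (ε := 1) (Φ := fun t s => H s * cp (ξ + t • η) (-(π / 2)) s)
    (Φ' := fun t s => 2 * π * (H s * cp (ξ + t • η) 0 s * pr η s))
    (B := fun s => 2 * π * |H s * pr η s|) h.nonneg one_pos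
    (h.ig ((hH.mul (Tame.hom _)).abs.const_mul _)) (h.ig (hH.mul (tame_cp _ _))) (fun s y _ => ?_)
    fun s y _ => ?_
  · simp only [cp, pr_add, pr_smul, AddMonoidHom.add_apply, AddMonoidHom.smul_apply, smul_eq_mul,
      ← sub_eq_add_neg, cos_sub_pi_div_two, add_zero]
    have h1 : HasDerivAt (fun y : ℝ => 2 * π * (pr ξ s + y * pr η s)) (2 * π * pr η s) y := by
      simpa using (((hasDerivAt_id y).mul_const (pr η s)).const_add (pr ξ s)).const_mul (2 * π)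
    exact (h1.sin.const_mul (H s)).congr_deriv (by ring)
  · rw [abs_mul, abs_of_pos two_pi_pos, mul_right_comm (H s), abs_mul (H s * pr η s)]
    exact mul_le_mul_of_nonneg_left (mul_le_of_le_one_right (abs_nonneg _) (abs_cp _ _ _)) two_pi_pos.le

variable {p : Par} {Λ : Lat} {ω : (Cfg Pt → ℝ) → ℝ} {L N : ℕ}

/-- the derivative of the left functional along the interpolation, after the flux identity -/
theorem der_om (h : Env p Λ ω L N) {W R : ℝ} (hW : 1 ≤ W) (hR : 0 < R) {n : ℕ} (hn : 2 * (W * R) ≤ n)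
    (hN : n ≤ N / 4) (h1 : 1 ≤ n) : ∃ D : Finset Pt, bl 0 N ⊆ D ∧ D ⊆ bl 0 (N + N / 4) ∧ ∀ t : ℝ,
    HasDerivAt (fun t : ℝ => ω fun s => Jz 0 s * cp (xt W R t) (-(π / 2)) s)
      (2 * π * ∑ z ∈ D, wt R (W * R) z * ω fun s => Jz 0 s * cp (xt W R t) 0 s * Jz z s) t := by
  obtain ⟨D, hD, hD', hf⟩ := h.flux
  obtain ⟨m, hm, hω⟩ := h.amb 0
  have hc : Cen (m.W 0) := hm.ctr.cen hm.anch
  have hd : ∀ t φ, DepG (bl 0 n) fun s => Jz 0 s * cp (xt W R t) φ s := fun t φ =>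
    ((Om.depG_Jz 0).mono (bl_mono 0 h1)).mul (depG_cp (chq_xt hW hR hn t) φ)
  have hT : ∀ t φ, Tame fun s => Jz 0 s * cp (xt W R t) φ s := fun t φ => (Om.tame_Jz 0).mul (tame_cp _ _)
  refine ⟨D, hD, hD', fun t => ?_⟩
  have e1 : (fun t : ℝ => ω fun s => Jz 0 s * cp (xt W R t) (-(π / 2)) s) =
      fun t : ℝ => Ex (m.W 0) fun s => Jz 0 s * cp (xt W R t) (-(π / 2)) s :=
    funext fun t => hω _ ((hd t _).mono (bl_mono 0 (by omega)))
  rw [e1]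
  refine (der hc (Om.tame_Jz 0) (xi R) (A0 (wt R (W * R))) t).congr_deriv ?_
  congr 1
  set c := Real.log (W * R / R) / (2 * π)
  have hs : Pot.Sup (bl 0 n) fun x => wt R (W * R) x - c := fun x hx =>
    sub_eq_zero.2 (wt_out hR (by nlinarith) (by linarith) hx)
  have e2 : ∀ s, pr (A0 (wt R (W * R))) s = ∑ z ∈ bl 0 n, (wt R (W * R) z - c) * Jz z s := fun s => by
    rw [← A0_sub_const _ c, pr_A0 hs]
  calc _ = Ex (m.W 0) fun s => ∑ z ∈ bl 0 n,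
        (wt R (W * R) z - c) * (Jz 0 s * cp (xt W R t) 0 s * Jz z s) :=
        Ex_congr fun s _ => by rw [e2, mul_sum]; exact sum_congr rfl fun z _ => by rw [xt]; ring
    _ = ∑ z ∈ bl 0 n, (wt R (W * R) z - c) * ω fun s => Jz 0 s * cp (xt W R t) 0 s * Jz z s := by
        rw [Ex_sum _ fun z _ => hc.ig (((hT t 0).mul (Om.tame_Jz z)).const_mul _)]
        refine sum_congr rfl fun z hz => ?_
        rw [Ex_const_mul, hω _ (((hd t 0).mono (bl_mono 0 (by omega))).mul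
          ((Om.depG_Jz z).mono (bl_one_sub (by omega) z hz)))]
    _ = ∑ z ∈ D, (wt R (W * R) z - c) * ω fun s => Jz 0 s * cp (xt W R t) 0 s * Jz z s :=
        sum_subset ((bl_mono 0 (by omega)).trans hD) fun z _ hz => mul_eq_zero_of_left (hs z hz) _
    _ = _ := by
        simp only [sub_mul, sum_sub_distrib, ← mul_sum]
        rw [hf _ ⟨(hd t 0).mono (bl_mono 0 hN), hT t 0⟩, mul_zero, sub_zero]

theorem cw_bd {w : ℕ} (hw : 4 ≤ w) : 0 < cw w ∧ cw w ≤ 1 := by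
  have h1 : (4 : ℝ) ≤ w := by exact_mod_cast hw
  have h2 : (2 : ℝ) ≤ 4 * (w : ℝ) ^ 4 := by nlinarith [one_le_pow₀ (show (1 : ℝ) ≤ w by linarith) (n := 4)]
  have h3 : 0 < log (4 * (w : ℝ) ^ 4) := log_pos (by linarith)
  exact ⟨div_pos (log_pos one_lt_two) h3, (div_le_one h3).2 (log_le_log two_pos h2)⟩

theorem rpow_le {x K y c δ : ℝ} (hx : 0 ≤ x) (hK : 1 ≤ K) (hy : 0 < y) (hy1 : y ≤ 1) (h : x ≤ K * y)
    (hδ : 0 ≤ δ) (hc : δ ≤ c) (hc1 : c ≤ 1) : x ^ c ≤ K * y ^ δ :=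
  calc x ^ c ≤ (K * y) ^ c := rpow_le_rpow hx h (hδ.trans hc)
    _ = K ^ c * y ^ c := mul_rpow (by linarith) hy.le
    _ ≤ K * y ^ δ := mul_le_mul (by simpa using rpow_le_rpow_of_exponent_le hK hc1)
        (rpow_le_rpow_of_exponent_ge hy hy1 hc) (by positivity) (by linarith)

theorem sum_ind_le (S T : Finset Pt) : ∑ z ∈ S, ind (z ∈ T) ≤ T.card := by
  rw [← sum_subset (inter_subset_left (s₁ := S) (s₂ := T)) fun z hz h => ind_neg fun h' =>
    h (mem_inter.2 ⟨hz, h'⟩), sum_congr rfl fun z hz => ind_pos (mem_inter.1 hz).2]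
  simpa using card_le_card (inter_subset_right (s₁ := S))

/-- the norm of `J` at half the reference scale -/
theorem nu_J {R Y : ℝ} (hw : 4 ≤ p.w) (hM : Maj p Λ L R Y) (hY : 0 ≤ Y) (h4 : 4 ≤ R) (h0 : 2 * p.r₀ ≤ R)
    (hL : p.w * R ≤ L) : nu Λ p.w 0 ⌊R / 2⌋₊ (Jz 0) ≤ 64 * Y / R ^ 2 := by
  have a1 : (⌊R / 2⌋₊ : ℝ) ≤ R / 2 := Nat.floor_le (by linarith)
  have a2 : R / 2 < ⌊R / 2⌋₊ + 1 := Nat.lt_floor_add_one _
  have a3 : R / 4 ≤ ⌊R / 2⌋₊ := by linarith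
  have a4 : (0 : ℝ) < ⌊R / 2⌋₊ := by linarith
  have hw0 : (0 : ℝ) ≤ p.w := Nat.cast_nonneg _
  have h1 := hM.2.2 ⌊R / 2⌋₊ (Nat.le_floor (by linarith))
    (by exact_mod_cast (show (p.w : ℝ) * ⌊R / 2⌋₊ ≤ L by nlinarith))
  have h2 : max (⌊R / 2⌋₊ / R) (R / ⌊R / 2⌋₊) ^ ew p.w ≤ 4 * 1 ^ ew p.w :=
    rpow_le (le_max_of_le_left (by positivity)) (by norm_num) one_pos le_rfl
      (max_le (by rw [div_le_iff₀ (by linarith)]; linarith) (by rw [div_le_iff₀ a4]; linarith))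
      (by rw [ew]; linarith [(cw_bd hw).1]) le_rfl (by rw [ew]; linarith [(cw_bd hw).2])
  rw [one_rpow, mul_one] at h2
  have h3 := h1.trans (mul_le_mul_of_nonneg_left h2 hY)
  rw [le_div_iff₀ (by positivity)]
  rcases le_total (nu Λ p.w 0 ⌊R / 2⌋₊ (Jz 0)) 0 with h | h
  · nlinarith [mul_nonneg (neg_nonneg.2 h) (sq_nonneg R)]
  · nlinarith [mul_le_mul_of_nonneg_left (show R ^ 2 ≤ 16 * (⌊R / 2⌋₊ : ℝ) ^ 2 by nlinarith) h]

/-- the scales -/
structure Sc (p : Par) (W κ R Y : ℝ) (L N : ℕ) : Prop where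
  W2 : 2 ≤ W
  w4 : 4 ≤ p.w
  κ0 : 0 < κ
  κ1 : κ ≤ 1
  R4 : 4 ≤ R
  r0 : 2 * p.r₀ ≤ R
  Y0 : 0 < Y
  Y1 : Y ≤ 1
  QY : 96 * p.w * W ≤ Y ^ (-κ)
  RL : 768 * p.w * W * R ≤ L
  LN : L ≤ N

/-- the support radius and the far radius -/
noncomputable def na (W R : ℝ) : ℕ := ⌈2 * (W * R)⌉₊
noncomputable def bb (κ R Y : ℝ) (N : ℕ) : ℕ := min ⌊R * Y ^ (-κ) / 2⌋₊ (N / 16)

namespace Sc
variable {W κ R Y : ℝ} (h : Sc p W κ R Y L N)
include h

theorem R0 : 0 < R := by linarith [h.R4]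
theorem WR : R ≤ W * R := le_mul_of_one_le_left h.R0.le (by linarith [h.W2])
theorem w4' : (4 : ℝ) ≤ p.w := by exact_mod_cast h.w4
omit h in
theorem n1 : 2 * (W * R) ≤ na W R := Nat.le_ceil _
theorem n2 : (na W R : ℝ) ≤ 3 * (W * R) := by
  have := Nat.ceil_lt_add_one (show 0 ≤ 2 * (W * R) by linarith [h.WR, h.R4])
  rw [na]; linarith [h.WR, h.R4]
theorem n0 : 1 ≤ na W R := by
  exact_mod_cast (show (1 : ℝ) ≤ na W R by linarith [n1 (W := W) (R := R), h.WR, h.R4])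
theorem nL : 256 * (p.w * na W R) ≤ L := by
  have := mul_le_mul_of_nonneg_left h.n2 (show (0 : ℝ) ≤ 256 * p.w by positivity)
  exact_mod_cast (show (256 : ℝ) * (p.w * na W R) ≤ L by linarith [h.RL])
theorem wn : 4 * na W R ≤ p.w * na W R := Nat.mul_le_mul_right _ h.w4
theorem L0 : (0 : ℝ) < L := by
  have := h.nL; have := h.wn; have := h.n0
  exact_mod_cast (show 0 < L by omega)
theorem wR : p.w * R ≤ L := by
  have := mul_le_mul_of_nonneg_left h.WR (show (0 : ℝ) ≤ p.w by positivity)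
  have : 0 ≤ p.w * (W * R) := mul_nonneg (by positivity) (by linarith [h.WR, h.R4])
  linarith [h.RL]
theorem RL1 : R / L ≤ 1 :=
  (div_le_one h.L0).2 ((le_mul_of_one_le_left h.R0.le (by linarith [h.w4'])).trans h.wR)
theorem b1 : (bb κ R Y N : ℝ) ≤ R * Y ^ (-κ) / 2 :=
  (Nat.cast_le.2 (min_le_left _ _)).trans (Nat.floor_le (by have := h.R0; have := h.Y0; positivity))
omit h in
theorem b2 : 16 * bb κ R Y N ≤ N := by rw [bb]; omega
theorem b3 : 16 * (p.w * na W R) ≤ bb κ R Y N := le_min (Nat.le_floor (by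
  have h1 := mul_le_mul_of_nonneg_left h.n2 (show (0 : ℝ) ≤ 16 * p.w by positivity)
  have h2 := mul_le_mul_of_nonneg_left h.QY h.R0.le
  push_cast; linarith)) (by have := h.nL; have := h.LN; omega)
theorem b0 : 1 ≤ bb κ R Y N := by have := h.b3; have := h.wn; have := h.n0; omega
theorem δ0 : 0 < κ * cw p.w / 5 := by have := h.κ0; have := (cw_bd h.w4).1; positivity
theorem δc : κ * cw p.w / 5 ≤ cw p.w / 2 := by
  have := mul_le_of_le_one_left (cw_bd h.w4).1.le h.κ1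
  linarith [(cw_bd h.w4).1]

theorem nl : ((na W R : ℝ) / L) ^ (cw p.w / 2) ≤ 96 * W * (R / L) ^ (κ * cw p.w / 5) :=
  rpow_le (by positivity) (by linarith [h.W2]) (div_pos h.R0 h.L0) h.RL1 (by
    rw [mul_div_assoc']
    exact div_le_div_of_nonneg_right (by linarith [h.n2, h.WR, h.R4]) h.L0.le) h.δ0.le h.δc
    (by linarith [(cw_bd h.w4).2])

theorem nb : ((na W R : ℝ) / bb κ R Y N) ^ (cw p.w / 2) ≤
    96 * W * (Y ^ (κ * cw p.w / 5) + (R / L) ^ (κ * cw p.w / 5)) := by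
  have Y0 := h.Y0
  have R0 := h.R0
  have L0 := h.L0
  have W2 := h.W2
  obtain ⟨hc0, hc1⟩ := cw_bd h.w4
  have h2 : (1 : ℝ) ≤ bb κ R Y N := by exact_mod_cast h.b0
  have p1 : 0 ≤ W * Y ^ (κ * cw p.w / 5) := by positivity
  have p2 : 0 ≤ W * (R / L) ^ (κ * cw p.w / 5) := by positivity
  rcases min_choice ⌊R * Y ^ (-κ) / 2⌋₊ (N / 16) with e | e
  · have h1 : R * Y ^ (-κ) / 2 < bb κ R Y N + 1 := by rw [bb, e]; exact Nat.lt_floor_add_one _
    have h3 : R ≤ 4 * bb κ R Y N * Y ^ κ := by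
      have := mul_le_mul_of_nonneg_right (show R * Y ^ (-κ) ≤ 4 * bb κ R Y N by linarith)
        (rpow_pos_of_pos Y0 κ).le
      rwa [mul_assoc, ← rpow_add Y0, neg_add_cancel, rpow_zero, mul_one] at this
    have := rpow_le (x := na W R / bb κ R Y N) (K := 12 * W) (y := Y ^ κ) (c := cw p.w / 2)
      (δ := cw p.w / 5) (by positivity) (by linarith) (by positivity) (rpow_le_one Y0.le h.Y1 h.κ0.le)
      (by
        rw [div_le_iff₀ (by linarith)]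
        linarith [h.n2, mul_le_mul_of_nonneg_left h3 (show 0 ≤ W by linarith)])
      (by positivity) (by linarith) (by linarith)
    rw [← rpow_mul Y0.le, ← mul_div_assoc] at this
    linarith
  · have h1 : (L : ℝ) ≤ 32 * bb κ R Y N := by
      have := h.b0; have := h.LN
      exact_mod_cast (show L ≤ 32 * bb κ R Y N by rw [bb, e] at *; omega)
    have := rpow_le (x := na W R / bb κ R Y N) (K := 96 * W) (y := R / L) (c := cw p.w / 2)
      (δ := κ * cw p.w / 5) (by positivity) (by linarith) (by positivity) h.RL1 (by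
        rw [mul_div_assoc', div_le_div_iff₀ (by linarith) L0]
        linarith [mul_le_mul h.n2 h1 L0.le (by positivity)]) h.δ0.le h.δc (by linarith)
    linarith

theorem nR : ((na W R : ℝ) / R) ^ ew p.w ≤ 3 * W := by
  obtain ⟨hc0, hc1⟩ := cw_bd h.w4
  have := rpow_le (x := na W R / R) (K := 3 * W) (δ := ew p.w) (div_nonneg (by positivity) h.R0.le)
    (by linarith [h.W2]) one_pos le_rfl (by rw [div_le_iff₀ h.R0]; linarith [h.n2])
    (by rw [ew]; positivity) le_rfl (by rw [ew]; linarith)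
  rwa [one_rpow, mul_one] at this

/-- zones 1 and 2 -/
theorem z12 {e : Pt → ℝ} {B Cw : ℝ} (hB : 0 ≤ B) (hCw : 0 ≤ Cw) (hw : ∀ z, |wt R (W * R) z| ≤ Cw)
    (he : ∀ z : Pt, z ∉ bl 0 ⌊R⌋₊ → eu z ≤ R * Y ^ (-κ) → 8 * eu z ≤ N → |e z| ≤
      B / R ^ 4 * (Y ^ (5 / 2 * κ) + ind (z ∈ bl 0 ⌈4 * (W * R)⌉₊) * Y ^ (κ * cw p.w / 5))) :
    ∑ z ∈ bl 0 (bb κ R Y N), |wt R (W * R) z * e z| ≤
      Cw * (4 + 121 * W ^ 2) * (B * Y ^ (κ * cw p.w / 5) / R ^ 2) := by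
  have Y0 := h.Y0
  have R0 := h.R0
  have b1 := h.b1
  refine (sum_le_sum (g := fun z => Cw * (B / R ^ 4 *
    (Y ^ (5 / 2 * κ) + ind (z ∈ bl 0 ⌈4 * (W * R)⌉₊) * Y ^ (κ * cw p.w / 5)))) fun z hz => ?_).trans ?_
  · have i0 := ind_nonneg (z ∈ bl 0 ⌈4 * (W * R)⌉₊)
    by_cases h0 : z ∈ bl 0 ⌊R⌋₊
    · rw [wt_in R0 h.WR (Nat.floor_le R0.le) h0, zero_mul, abs_zero]; positivity
    have hz' : eu z ≤ 2 * bb κ R Y N := by simpa using (eu_near hz).1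
    have b2' : (16 : ℝ) * bb κ R Y N ≤ N := by exact_mod_cast b2
    rw [abs_mul]
    exact mul_le_mul (hw z) (he z h0 (by linarith) (by linarith)) (abs_nonneg _) hCw
  · rw [← mul_sum, ← mul_sum, sum_add_distrib, ← sum_mul, sum_const, card_bl, nsmul_eq_mul]
    have c1 : (((2 * bb κ R Y N + 1) ^ 2 : ℕ) : ℝ) * Y ^ (5 / 2 * κ) ≤
        4 * R ^ 2 * Y ^ (κ * cw p.w / 5) := by
      have h2 : (1 : ℝ) ≤ bb κ R Y N := by exact_mod_cast h.b0
      have d1 : (2 * bb κ R Y N + 1 : ℝ) ≤ 2 * (R * Y ^ (-κ)) := by linarith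
      have d2 : Y ^ (-κ) * Y ^ (-κ) * Y ^ (5 / 2 * κ) ≤ Y ^ (κ * cw p.w / 5) := by
        rw [← rpow_add Y0, ← rpow_add Y0]
        exact rpow_le_rpow_of_exponent_ge Y0 h.Y1
          (by linarith [mul_le_of_le_one_right h.κ0.le (cw_bd h.w4).2, h.κ0])
      push_cast
      calc _ ≤ (2 * (R * Y ^ (-κ))) ^ 2 * Y ^ (5 / 2 * κ) := by gcongr
        _ = 4 * R ^ 2 * (Y ^ (-κ) * Y ^ (-κ) * Y ^ (5 / 2 * κ)) := by ring
        _ ≤ _ := by gcongr
    have c2 : ∑ z ∈ bl 0 (bb κ R Y N), ind (z ∈ bl 0 ⌈4 * (W * R)⌉₊) ≤ 121 * W ^ 2 * R ^ 2 := by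
      refine (sum_ind_le _ _).trans ?_
      have := Nat.ceil_lt_add_one (show 0 ≤ 4 * (W * R) by linarith [h.WR])
      rw [card_bl]; push_cast
      calc _ ≤ (11 * (W * R)) ^ 2 := by gcongr; linarith [h.WR, h.R4]
        _ = _ := by ring
    calc _ ≤ Cw * (B / R ^ 4 * (4 * R ^ 2 * Y ^ (κ * cw p.w / 5) +
          121 * W ^ 2 * R ^ 2 * Y ^ (κ * cw p.w / 5))) := by gcongr
      _ = _ := by field_simp

/-- zone 3 -/
theorem z3 (hFus : FusStmt) (hE : Env p Λ ω L N) (hM : Maj p Λ L R Y) {CF : ℝ} (hCF : 0 ≤ CF)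
    (hFar : ∀ (a b : ℕ) (G : Cfg Pt → ℝ), p.r₀ ≤ a → R ≤ a → 16 * p.w * a ≤ b → 16 * p.w * a ≤ L →
      Ins 0 a G → ∑ z ∈ bl 0 (N + N / 4) \ bl 0 b, |ω fun s => G s * Jz z s| ≤
        CF * nu Λ p.w 0 a G * Y * (a / R) ^ ew p.w *
          (((a : ℝ) / b) ^ (cw p.w / 2) + ((a : ℝ) / L) ^ (cw p.w / 2))) (t : ℝ) :
    ∑ z ∈ bl 0 (N + N / 4) \ bl 0 (bb κ R Y N), |ω fun s => Jz 0 s * cp (xt W R t) 0 s * Jz z s| ≤
      CF * 128 * (3 * W) * (192 * W) *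
        (Y ^ 2 * (Y ^ (κ * cw p.w / 5) + (R / L) ^ (κ * cw p.w / 5)) / R ^ 2) := by
  have Y0 := h.Y0
  have R0 := h.R0
  have L0 := h.L0
  have W2 := h.W2
  have R4 := h.R4
  have hq := chq_xt (W := W) (by linarith) R0 n1 t
  have hJ := nu_J h.w4 hM Y0.le h.R4 h.r0 h.wR
  have rr1 : (⌊R / 2⌋₊ : ℝ) ≤ R / 2 := Nat.floor_le (by linarith)
  have rr0 : p.r₀ ≤ ⌊R / 2⌋₊ := Nat.le_floor (by linarith [h.r0])
  have rr2 : 1 ≤ ⌊R / 2⌋₊ := Nat.le_floor (by push_cast; linarith)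
  have Rn : R ≤ na W R := by linarith [n1 (W := W) (R := R), h.WR]
  have rrn : ⌊R / 2⌋₊ ≤ na W R := by exact_mod_cast (show (⌊R / 2⌋₊ : ℝ) ≤ na W R by linarith)
  have hG : Ins 0 (na W R) fun s => Jz 0 s * cp (xt W R t) 0 s :=
    ⟨((Om.depG_Jz 0).mono (bl_mono 0 h.n0)).mul (depG_cp hq 0), (Om.tame_Jz 0).mul (tame_cp _ _)⟩
  have nL := h.nL
  have f1 := hFar _ (bb κ R Y N) _ (rr0.trans rrn) Rn (by rw [mul_assoc]; exact h.b3) (by rw [mul_assoc]; omega) hG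
  have f2 := (hFus p Λ L hE.toGs 0 (na W R) (by omega)).1 _ _ _ rr0 rrn (Om.ins_Jz 0 rr2) (depG_cp hq 0)
    (out_cp hq.1 (xt_in (by linarith) R0 (by linarith) t) 0) (abs_cp _ _)
  have f3 := h.nb
  have f4 : ((na W R : ℝ) / L) ^ (cw p.w / 2) ≤
      96 * W * (Y ^ (κ * cw p.w / 5) + (R / L) ^ (κ * cw p.w / 5)) :=
    h.nl.trans (mul_le_mul_of_nonneg_left (le_add_of_nonneg_left (by positivity)) (by linarith))
  have f5 := h.nR
  have f6 := f2.trans (mul_le_mul_of_nonneg_left hJ two_pos.le)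
  calc _ ≤ _ := f1
    _ ≤ CF * (2 * (64 * Y / R ^ 2)) * Y * (3 * W) *
        (96 * W * (Y ^ (κ * cw p.w / 5) + (R / L) ^ (κ * cw p.w / 5)) +
          96 * W * (Y ^ (κ * cw p.w / 5) + (R / L) ^ (κ * cw p.w / 5))) := by gcongr
    _ = _ := by ring

end Sc

theorem exists_sc (p : Par) {W κ : ℝ} (hW : 2 ≤ W) (hw : 4 ≤ p.w) (hκ : 0 < κ) (hκ1 : κ ≤ 1) :
    ∃ C : ℝ, 0 ≤ C ∧ ∀ Λ ω L N, Env p Λ ω L N → ∀ R Y : ℝ, Maj p Λ L R Y → C * Y ≤ 1 → C * R ≤ L →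
      Sc p W κ R Y L N := by
  have w4 : (4 : ℝ) ≤ p.w := by exact_mod_cast hw
  have p1 : 0 ≤ (96 * p.w * W) ^ κ⁻¹ := by positivity
  have p2 : 0 ≤ 768 * p.w * W := by positivity
  have p3 : (0 : ℝ) ≤ 2 * p.r₀ := by positivity
  refine ⟨(96 * p.w * W) ^ κ⁻¹ + 768 * p.w * W + 2 * p.r₀ + 4, by positivity,
    fun Λ ω L N hE R Y hM hY hR => ?_⟩
  have R1 := hM.1
  have R0 : 0 < R := by linarith
  have Y0 : 0 < Y := (rpow_pos_of_pos R0 _).trans_le hM.2.1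
  have RC : (96 * p.w * W) ^ κ⁻¹ + 768 * p.w * W + 2 * p.r₀ + 4 ≤ R := by
    have h1 : R⁻¹ ≤ R ^ (-ew p.w) := by
      rw [← rpow_neg_one]
      exact rpow_le_rpow_of_exponent_le R1 (by rw [ew]; linarith [(cw_bd hw).2])
    have h2 := (mul_le_mul_of_nonneg_left (h1.trans hM.2.1) (by positivity)).trans hY
    rwa [← div_eq_mul_inv, div_le_one R0] at h2
  refine ⟨hW, hw, hκ, hκ1, by linarith, by linarith, Y0,
    (le_mul_of_one_le_left Y0.le (by linarith)).trans hY, ?_,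
    (mul_le_mul_of_nonneg_right (by linarith) R0.le).trans hR, hE.le⟩
  have h1 : (96 * p.w * W) ^ κ⁻¹ ≤ Y⁻¹ := by
    rw [← one_div Y, le_div_iff₀ Y0]
    exact (mul_le_mul_of_nonneg_right (by linarith) Y0.le).trans hY
  have := rpow_le_rpow p1 h1 hκ.le
  rwa [rpow_inv_rpow (by positivity) hκ.ne', inv_rpow Y0.le, ← rpow_neg Y0.le] at this

theorem alg {D : Finset Pt} {w T x : Pt → ℝ} {g f u v t : ℝ} (e1 : ∑ z ∈ D, w z * x z = u + (v - u) * t) :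
    2 * π * ∑ z ∈ D, w z * T z + (4 * π ^ 2 * g * u + 4 * π ^ 2 * g * (v - u) * t) * f =
      2 * π * ∑ z ∈ D, w z * (T z + 2 * π * g * x z * f) := by
  have : ∑ z ∈ D, w z * (T z + 2 * π * g * x z * f) =
      ∑ z ∈ D, w z * T z + 2 * π * g * f * ∑ z ∈ D, w z * x z := by
    rw [mul_sum, ← sum_add_distrib]; exact sum_congr rfl fun z _ => by ring
  rw [this, e1]; ring

theorem expo {g u v K : ℝ} (g0 : 0 ≤ g) (g1 : g ≤ 1) (hu : |u| ≤ K) (hv : |v| ≤ K) :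
    2 * |4 * π ^ 2 * g * u| + |4 * π ^ 2 * g * (v - u)| ≤ 16 * π ^ 2 * K := by
  have h3 : |v - u| ≤ 2 * K := (abs_sub _ _).trans (by linarith)
  have g2 : 4 * π ^ 2 * g ≤ 4 * π ^ 2 := mul_le_of_le_one_right (by positivity) g1
  rw [abs_mul _ u, abs_mul _ (v - u), abs_of_nonneg (show 0 ≤ 4 * π ^ 2 * g by positivity)]
  linarith [mul_le_mul g2 hu (abs_nonneg _) (by positivity), mul_le_mul g2 h3 (abs_nonneg _) (by positivity)]

end SY74

open SY74 in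
theorem stepYStmt (hFus : FusStmt) (hFar : FarStmt) (hS : SiteYStmt) : StepYStmt := by
  intro p W hW
  by_cases hw : 4 ≤ p.w
  swap
  · exact ⟨0, 1, le_rfl, one_pos, fun Λ ω _ L N h => absurd h.w4 hw⟩
  obtain ⟨κ, CS, hκ, hκ1, hCS, hS⟩ := hS p W hW hw
  obtain ⟨CF, hCF, hFar⟩ := hFar p
  have W2 : (2 : ℝ) ≤ W := by exact_mod_cast hW
  obtain ⟨C₀, hC₀, hsc⟩ := exists_sc p W2 hw hκ hκ1
  obtain ⟨Cw, hCw, hwt⟩ := sm_wt 0 (M := W) (by linarith)
  obtain ⟨Cx, hCx, hxi⟩ := sum_abs_xi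
  obtain ⟨CE, hCE⟩ : ∃ CE : ℝ,
    CE = 2 * π * Cw * (CS * (4 + 121 * W ^ 2) + CF * 128 * (3 * W) * (192 * W)) := ⟨_, rfl⟩
  have CE0 : 0 ≤ CE := by rw [hCE]; positivity
  have C₁0 : 0 ≤ exp (16 * π ^ 2 * (Cw * Cx)) * CE := by positivity
  refine ⟨C₀ + CS + exp (16 * π ^ 2 * (Cw * Cx)) * CE, κ * cw p.w / 5, by positivity,
    by have := (cw_bd hw).1; positivity, fun Λ ω r₁ L N hE hP R Y hM hCY hCR hr₁ hg hg1 => ?_⟩
  have R1 := hM.1
  have R0 : 0 < R := by linarith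
  have Y0 : 0 < Y := (rpow_pos_of_pos R0 _).trans_le hM.2.1
  have h := hsc Λ ω L N hE R Y hM ((mul_le_mul_of_nonneg_right (by linarith) Y0.le).trans hCY)
    ((mul_le_mul_of_nonneg_right (by linarith) R0.le).trans hCR)
  replace hS := hS Λ ω r₁ L N hE hP R Y hM ((mul_le_mul_of_nonneg_right (by linarith) Y0.le).trans hCY)
    ((mul_le_mul_of_nonneg_right (by linarith) R0.le).trans hCR) hr₁ hg
  have L0 := h.L0
  have WR := h.WR
  have nL := h.nL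
  have wn := h.wn
  have LN := h.LN
  have b2 := Sc.b2 (κ := κ) (R := R) (Y := Y) (N := N)
  have b3 := h.b3
  have hw' : ∀ z, |wt R (W * R) z| ≤ Cw := fun z => by
    simpa [difs] using hwt R (W * R) (by simpa using R0) WR le_rfl [] le_rfl (by simp) z trivial
  obtain ⟨D, hD, hD', hder⟩ := der_om hE (W := W) (by linarith) R0 Sc.n1 (by omega) h.n0
  have hsx : ∀ r, 1 ≤ r → |∑ z ∈ bl 0 (na W R), wt R (W * R) z * xi r z| ≤ Cw * Cx := fun r hr =>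
    (abs_sum_le_sum_abs _ _).trans <| (sum_le_sum (g := fun z => Cw * |xi r z|) fun z _ => by
      rw [abs_mul]; exact mul_le_mul_of_nonneg_right (hw' z) (abs_nonneg _)).trans <| by
      rw [← mul_sum]; exact mul_le_mul_of_nonneg_left (hxi r hr _) hCw
  have uv := wt_pair R0 (show 0 < W * R by positivity) (n := na W R) (Nat.ceil_mono (by linarith)) le_rfl
  rw [mul_div_assoc, div_self R0.ne', mul_one] at uv
  simp only [mul_add, sum_add_distrib] at uv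
  have h1 := hsx R R1
  have h2 := hsx (W * R) (by linarith)
  have e1 : ∀ t, ∑ z ∈ D, wt R (W * R) z * xt W R t z = ∑ z ∈ bl 0 (na W R), wt R (W * R) z * xi R z +
      (∑ z ∈ bl 0 (na W R), wt R (W * R) z * xi (W * R) z -
        ∑ z ∈ bl 0 (na W R), wt R (W * R) z * xi R z) * t := fun t => by
    rw [← sum_subset ((bl_mono 0 (show na W R ≤ N by omega)).trans hD) fun z _ hz => by
      rw [(chq_xt (W := W) (by linarith) R0 Sc.n1 t).1 z hz, mul_zero], ← sum_sub_distrib, sum_mul,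
      ← sum_add_distrib]
    exact sum_congr rfl fun z _ => by rw [xt_apply]; ring
  generalize ∑ z ∈ bl 0 (na W R), wt R (W * R) z * xi R z = u at *
  generalize ∑ z ∈ bl 0 (na W R), wt R (W * R) z * xi (W * R) z = v at *
  have key := duh_fwd (α := 4 * π ^ 2 * gk ω R * u) (β := 4 * π ^ 2 * gk ω R * (v - u))
    (E := CE * (Y ^ 2 * (Y ^ (κ * cw p.w / 5) + (R / L) ^ (κ * cw p.w / 5)) / R ^ 2))
    (fun t _ => hder t) fun t ht => by
    have z12 := h.z12 (by positivity) hCw hw' (hS t ht)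
    have z3 := mul_le_mul_of_nonneg_left (h.z3 hFus hE hM hCF (hFar Λ ω L N hE R Y hM) t) hCw
    rw [alg (e1 t), abs_mul, abs_of_pos two_pi_pos]
    have s1 := (abs_sum_le_sum_abs (fun z => wt R (W * R) z * (ω (fun s => Jz 0 s * cp (xt W R t) 0 s * Jz z s) +
        2 * π * gk ω R * xt W R t z * ω fun s => Jz 0 s * cp (xt W R t) (-(π / 2)) s)) D).trans
      ((sum_le_sum_of_subset_of_nonneg hD' fun _ _ _ => abs_nonneg _).trans_eq
        (sum_sdiff (bl_mono 0 (show bb κ R Y N ≤ N + N / 4 by omega))).symm)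
    rw [mul_sum] at z3
    have s2 := s1.trans (add_le_add ((sum_le_sum fun z hz => by
      rw [(chq_xt (W := W) (by linarith) R0 Sc.n1 t).1 z fun h => (mem_sdiff.1 hz).2 (bl_mono 0 (by omega) h),
        mul_zero, zero_mul, add_zero, abs_mul]
      exact mul_le_mul_of_nonneg_right (hw' z) (abs_nonneg _)).trans z3) z12)
    refine (mul_le_mul_of_nonneg_left s2 two_pi_pos.le).trans ?_
    have s3 : 0 ≤ 2 * π * Cw * (CS * (4 + 121 * W ^ 2)) * (Y ^ 2 * (R / L) ^ (κ * cw p.w / 5) / R ^ 2) := by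
      positivity
    refine (le_add_of_nonneg_right s3).trans_eq ?_
    rw [hCE]; ring
  have e0 : ∀ r : ℝ, (fun s => Jz 0 s * cp (xi r) (-(π / 2)) s) = fun s => Jz 0 s * Sn r s := fun r =>
    funext fun s => by rw [cp, Sn, ← sub_eq_add_neg, cos_sub_pi_div_two]
  have x0 : xt W R 0 = xi R := by simp [xt]
  have x1 : xt W R 1 = xi (W * R) := by simp [xt, A0_wt]
  simp only [x0, x1, e0] at key
  rw [show -(4 * π ^ 2 * gk ω R * u + 4 * π ^ 2 * gk ω R * (v - u) / 2) = -2 * π ^ 2 * gk ω R * (u + v) by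
    ring, uv, show er R - er (W * R) + log W / (2 * π) = log W / (2 * π) + er R - er (W * R) by ring] at key
  refine key.trans ?_
  have h4 := expo (by linarith) hg1 h1 h2
  calc _ ≤ exp (16 * π ^ 2 * (Cw * Cx)) *
        (CE * (Y ^ 2 * (Y ^ (κ * cw p.w / 5) + (R / L) ^ (κ * cw p.w / 5)) / R ^ 2)) := by gcongr
    _ = exp (16 * π ^ 2 * (Cw * Cx)) * CE * Y ^ 2 *
        (Y ^ (κ * cw p.w / 5) + (R / L) ^ (κ * cw p.w / 5)) / R ^ 2 := by ring
    _ ≤ _ := by gcongr; linarith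

end Crest.Agent.T145.Fl
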