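import Crest.Agent.T145.FsBas_70

/-! # Row 145 (e): assembly of the core theorem and of S0202 (helper70) -/

set_option autoImplicit false

namespace Crest.Agent.T145.FS

open Crest.ProbabilityR.HeightModel Filter Topology

theorem exists_sqb (Λ : Finset P) : ∃ K : ℕ, Λ ⊆ sqb 0 K := by
  refine ⟨Λ.sup fun y => max y.1.natAbs y.2.natAbs, fun x hx => ?_⟩
  have h := Finset.le_sup (f := fun y : P => max y.1.natAbs y.2.natAbs) hx
  rw [mem_sqb]
  simp only [Prod.fst_zero, Prod.snd_zero] at h ⊢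
  omega

theorem up_mem_sqb {p : ℕ} (hp : 1 ≤ p) (K : ℕ) : ∀ m ∈ sqb 0 K, up p m ∈ sqb 0 K := by
  intro m hm
  have hL : (1 : ℤ) ≤ 24 * (p : ℤ) := by omega
  have key : ∀ a : ℤ, -(K : ℤ) ≤ a → a ≤ K →
      -(K : ℤ) ≤ a / (24 * (p : ℤ)) ∧ a / (24 * (p : ℤ)) ≤ K := by
    intro a h1 h2
    have hK : (0 : ℤ) ≤ K := by omega
    constructor
    · apply Int.le_ediv_of_mul_le (by omega); nlinarith
    · apply Int.ediv_le_of_le_mul (by omega); nlinarith
  rw [mem_sqb] at hm ⊢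
  simp only [Prod.fst_zero, Prod.snd_zero, zero_sub, zero_add] at hm ⊢
  exact ⟨key _ hm.1.1 hm.1.2, key _ hm.2.1 hm.2.2⟩

theorem not_Q_subset {p : ℕ} (hp : 1 ≤ p) (K : ℕ) (m : P) : ¬ Q p (K + 1) m ⊆ sqb 0 K := by
  intro h
  have h1 : ((K + 1 : ℕ) : ℤ) ≤ el p (K + 1) := by
    have h2 : K + 1 < 2 ^ (K + 1) := Nat.lt_two_pow_self
    have h3 : (2 : ℤ) ^ (K + 1) ≤ el p (K + 1) := pow_le_pow_left₀ (by norm_num) (by omega) _
    have h4 : ((K + 1 : ℕ) : ℤ) < 2 ^ (K + 1) := by exact_mod_cast h2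
    omega
  have a1 : (el p (K + 1) * m.1 - el p (K + 1), el p (K + 1) * m.2) ∈ Q p (K + 1) m := by
    unfold Q; rw [mem_enl]; simp only; omega
  have a2 : (el p (K + 1) * m.1 + el p (K + 1), el p (K + 1) * m.2) ∈ Q p (K + 1) m := by
    unfold Q; rw [mem_enl]; simp only; omega
  have b1 := mem_sqb.1 (h a1)
  have b2 := mem_sqb.1 (h a2)
  simp only [Prod.fst_zero, Prod.snd_zero] at b1 b2
  omega

/-- The core theorem from its leaves. -/
theorem fsStmt_of (hT : TrStmt) (h1 : Ph1Stmt) (h2 : Ph2Stmt) (hF : FinStmt) (hI : IniStmt) :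
    FSStmt := by
  intro b hb8
  have hb : 0 < b := lt_trans (by positivity) hb8
  obtain ⟨p, hp3, hTr⟩ := hT b hb8
  have hp : 1 ≤ p := by omega
  have hK := KK_ge hp
  have hh := h0_pos hb p
  have hlog : 0 ≤ Real.log (KK p ^ 2) := Real.log_nonneg (by nlinarith)
  refine ⟨700 * KK p * Real.exp (2 * h0 b p + 1), 2 * (2 * h0 b p + 1 + Real.log (KK p ^ 2)),
    by positivity, by positivity, fun γ hγ Λ => ?_⟩
  obtain ⟨K, hΛ⟩ := exists_sqb Λ
  refine ⟨1 / (2 * 4 ^ (K + 1)), by positivity, fun u hu hD => ?_⟩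
  set δ₀ := Real.exp (-γ / 2 + 2 * h0 b p + 1) with hδ
  have h0' : 0 ≤ δ₀ := (Real.exp_pos _).le
  have hs : KK p ^ 2 * δ₀ ≤ 1 := by
    have e : KK p ^ 2 = Real.exp (Real.log (KK p ^ 2)) := (Real.exp_log (by positivity)).symm
    rw [e, hδ, ← Real.exp_add]
    exact Real.exp_le_one_iff.2 (by linarith)
  have hfin := hF b p δ₀ Λ (sqb 0 K) u (K + 1) hb hp3 h0' hs
    (fun m _ h => not_Q_subset hp K m (h.trans hΛ)) hu (by
      rw [le_div_iff₀ (by positivity)] at hD; linarith)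
  have down : ∀ n : ℕ, ∀ j : ℕ, j + n = K + 1 →
      Claim b p δ₀ Λ (sqb 0 K) u (700 * KK p * δ₀ * D Λ u) j := by
    intro n
    induction n with
    | zero => intro j hj; rw [add_zero] at hj; rwa [hj]
    | succ n ih =>
      intro j hj
      exact h1 b p δ₀ Λ _ u _ j hb hp3 h0' hs (up_mem_sqb hp K)
        (h2 b p δ₀ Λ _ u _ j hb hp3 h0' hs hTr (ih (j + 1) (by omega)))
  have := hI b γ p Λ (sqb 0 K) u _ hb hp3 (by linarith) hΛ (down (K + 1) 0 (zero_add _))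
  have e : 700 * KK p * Real.exp (2 * h0 b p + 1) * Real.exp (-γ / 2) * D Λ u =
      700 * KK p * δ₀ * D Λ u := by
    rw [hδ, add_assoc (-γ / 2), Real.exp_add (-γ / 2)]; ring
  rw [e]; exact this

theorem varianceConst_pos {J : Finset P} (hJ : IsAdmissible J) : 0 < varianceConst J := by
  unfold varianceConst
  have h1 : (0 : ℝ) < J.card := by exact_mod_cast Finset.card_pos.2 ⟨_, hJ.2.1⟩
  have h2 := Finset.single_le_sum (f := fun y : P => ((y.1 : ℝ)) ^ 2) (fun y _ => sq_nonneg _)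
    hJ.2.1
  simp only [Int.cast_one, one_pow] at h2
  apply div_pos (by linarith) (by positivity)

theorem isAdmissible_box {ρ : ℕ} (hρ : 1 ≤ ρ) : IsAdmissible (boxInteraction ρ) := by
  have m : ∀ y : P, y ∈ boxInteraction ρ ↔
      (y.1 ≠ 0 ∨ y.2 ≠ 0) ∧ (-(ρ : ℤ) ≤ y.1 ∧ y.1 ≤ ρ) ∧ -(ρ : ℤ) ≤ y.2 ∧ y.2 ≤ ρ := by
    intro y
    unfold boxInteraction box
    simp only [Finset.mem_erase, Finset.mem_product, Finset.mem_Icc, ne_eq, Prod.ext_iff,
      Prod.fst_zero, Prod.snd_zero, not_and_or]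
  refine ⟨by rw [m]; simp, by rw [m]; simp only; omega, fun y hy => ?_, fun y hy => ?_⟩
  · rw [m] at hy ⊢; simp only; omega
  · rw [m] at hy ⊢; simp only; omega

/-- The last clause of S0201 from the limit statement. -/
theorem abs_sub_le_of (h3 : E3Stmt) (h4 : E4Stmt) {J : Finset P} (hJ : IsAdmissible J) {L : ℕ}
    (hL : 2 ≤ L) {βeff : ℝ → ℝ} {βc : ℝ} (h : ∀ β, βc ≤ β → Lim J β L (βeff β)) :
    ∃ c : ℝ, 0 < c ∧ ∃ C β₀ : ℝ, ∀ β : ℝ, β₀ ≤ β → abs (βeff β - β) ≤ C * Real.exp (-c * β) := by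
  obtain ⟨a, ha, C, β₀, hC, H⟩ := h3 J hJ
  refine ⟨a, ha, C, max (max β₀ βc) 1, fun β hβ => ?_⟩
  simp only [max_le_iff] at hβ
  have e1 := H β hβ.1.1 L _ hL (h β hβ.1.2)
  have e2 := h4 J hJ β L _ (by linarith [hβ.2]) hL (h β hβ.1.2)
  have : 0 ≤ C * Real.exp (-a * β) := by positivity
  rw [abs_le]; constructor <;> linarith

/-- S0202 from the positivity of the threshold, the limit statement at the threshold, `E2`, `E4`. -/
theorem s0202_of (h2 : E2Stmt) (h4 : E4Stmt)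
    (hpos : ∀ J : Finset P, IsAdmissible J → 0 < criticalTemp J)
    (hlim : ∀ J : Finset P, IsAdmissible J → ∃ L : ℕ, 2 ≤ L ∧
      Lim J (criticalTemp J) L (8 * Real.pi * varianceConst J)) :
    Tendsto (fun ρ : ℕ => criticalTemp (boxInteraction ρ) /
      (8 * Real.pi * varianceConst (boxInteraction ρ))) atTop (𝓝 1) := by
  rw [Metric.tendsto_nhds]
  intro ε hε
  filter_upwards [h2 (ε / 2) (by linarith), eventually_ge_atTop 1] with ρ hR hρ
  have hJ := isAdmissible_box hρ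
  have hv : 0 < 8 * Real.pi * varianceConst (boxInteraction ρ) := by
    have := varianceConst_pos hJ; positivity
  obtain ⟨L, hL, hl⟩ := hlim _ hJ
  have lo := h4 _ hJ _ L _ (hpos _ hJ) hL hl
  have hi : criticalTemp (boxInteraction ρ) ≤
      (1 + ε / 2) * (8 * Real.pi * varianceConst (boxInteraction ρ)) :=
    csInf_le ⟨0, fun β hβ => hβ.1.le⟩ ⟨by positivity, hR⟩
  rw [Real.dist_eq, abs_lt]
  have a1 := (one_le_div hv).2 lo
  have a2 := (div_le_iff₀ hv).2 hi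
  constructor <;> linarith

end Crest.Agent.T145.FS
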