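import Crest.Agent.T145.GffDef2_8
import Crest.Agent.T145.GeoB_51
import Crest.Agent.T145.Brg_14
import Crest.Agent.T145.FsAsm_70

/-!
# Row 145, module (b): the gap, T5, EXIT, and the statements S0200, S0202 (helper11)
-/

set_option autoImplicit false

namespace Crest.Agent.T145

open Finset Filter Topology Crest.ProbabilityR.HeightModel

namespace T511

/-- the one-point family -/
def fa (Λ : Lat) (h : Λ.Ok) : Fa := ⟨Λ.J, Λ.xy, Λ.τ, Λ.τ, h.1, h.2⟩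

theorem fa_mem {Λ : Lat} (h : Λ.Ok) : (fa Λ h).Mem Λ := ⟨rfl, rfl, le_rfl, le_rfl⟩

theorem mem_ok {F : Fa} {Λ : Lat} (h : F.Mem Λ) : Λ.Ok :=
  ⟨h.1 ▸ F.adm, F.pos.trans_le h.2.2.1⟩

theorem e0_pos {Λ : Lat} (h : Λ.Ok) : 0 < Λ.e0 :=
  div_pos (lt_of_lt_of_le one_pos h.one_le_a) h.pos

theorem inv_e0_le {Λ : Lat} (h : Λ.Ok) : 1 / Λ.e0 ≤ Λ.τ := by
  have := h.one_le_a
  have h2 := h.pos
  rw [Lat.e0, one_div_div, div_le_iff₀ (by linarith)]
  nlinarith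

theorem tI_eq {Λ : Lat} (h : Λ.Ok) : Λ.tI = Λ.gI * Λ.e0 := by
  rw [Lat.gI, div_mul_cancel₀ _ (e0_pos h).ne']

theorem tendsto_gN (h1 : T1mStmt) {Λ : Lat} (h : Λ.Ok) : Tendsto Λ.gN atTop (𝓝 Λ.gI) :=
  (h1.1 Λ h).1.div_const _

theorem tendsto_pow2 : Tendsto (fun j : ℕ => 2 ^ j) atTop atTop :=
  tendsto_pow_atTop_atTop_of_one_lt (by norm_num)

/-- a positive sequence bounded by `1` cannot double `M` times -/
theorem no_double {y : ℕ → ℝ} {c : ℝ} {M : ℕ} (hc : c ≤ y 0) (hM : 1 < 2 ^ M * c) (h1 : y M ≤ 1) :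
    ∃ n < M, ¬ 2 * y n ≤ y (n + 1) := by
  by_contra hn
  push Not at hn
  have key : ∀ n ≤ M, 2 ^ n * y 0 ≤ y n := fun n => by
    induction n with
    | zero => simp
    | succ n ih =>
      intro h
      have := hn n (by omega)
      have := ih (by omega)
      rw [pow_succ]; linarith
  have := key M le_rfl
  have h2 : (2 : ℝ) ^ M * c ≤ 2 ^ M * y 0 := by gcongr
  linarith

theorem exists_pow (c : ℝ) (hc : 0 < c) : ∃ M : ℕ, 1 < 2 ^ M * c := by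
  obtain ⟨M, hM⟩ := pow_unbounded_of_one_lt (1 / c) (one_lt_two (α := ℝ))
  exact ⟨M, (div_lt_iff₀ hc).1 hM⟩

/-- below the critical stiffness a charge is non-small at arbitrarily large dyadic scales -/
theorem charge (h1 : T1mStmt) (hS : StepStmt) {Λ : Lat} (h : Λ.Ok) (hg : Λ.gI < 2 / Real.pi) :
    ∃ (q₀ : ℕ) (c : ℝ), 0 < c ∧ ∃ᶠ j in atTop, ∃ q : ℤ, 1 ≤ q ∧ q ≤ q₀ ∧ c ≤ Λ.aq (2 ^ j) q := by
  obtain ⟨k, q₀, l₀, c, hk, hc, H⟩ := hS (fa Λ h) ((2 / Real.pi - Λ.gI) / 2) (by linarith)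
  refine ⟨q₀, c, hc, ?_⟩
  have e1 : ∀ᶠ l in atTop, Λ.gN l ≤ 2 / Real.pi - (2 / Real.pi - Λ.gI) / 2 :=
    (tendsto_gN h1 h).eventually (ge_mem_nhds (by linarith))
  obtain ⟨j₀, hj₀⟩ := eventually_atTop.1 (tendsto_pow2.eventually (e1.and (eventually_ge_atTop l₀)))
  refine frequently_atTop.2 fun j₁ => ?_
  have hh : ∀ n, j₀ ≤ max j₀ j₁ + k * n := fun n => le_add_right (le_max_left _ _)
  have hp := (H Λ (fa_mem h) _ (hj₀ _ (hh 0)).2).1
  obtain ⟨M, hM⟩ := exists_pow _ hp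
  obtain ⟨n, -, hn⟩ := no_double (y := fun n => Λ.Y (2 ^ (max j₀ j₁ + k * n))) le_rfl hM
    (H Λ (fa_mem h) _ (hj₀ _ (hh M)).2).2.1
  refine ⟨max j₀ j₁ + k * n, le_add_right (le_max_right _ _), ?_⟩
  refine ((H Λ (fa_mem h) _ (hj₀ _ (hh n)).2).2.2.2 (hj₀ _ (hh n)).1).resolve_left fun h2 => hn ?_
  have e : 2 ^ k * 2 ^ (max j₀ j₁ + k * n) = 2 ^ (max j₀ j₁ + k * (n + 1)) := by ring
  rwa [e] at h2

end T511

open T511

/-- **T5a**: the gap -/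
theorem gapStmt (h1 : T1mStmt) (h2 : T2Stmt) (hS : StepStmt) : GapStmt := by
  intro Λ h
  by_contra hn
  push Not at hn
  have hg : 0 < Λ.gI := lt_of_le_of_ne (h1.1 Λ h).2.1 (Ne.symm hn.1)
  have ht : 0 < Λ.tI := by rw [tI_eq h]; exact mul_pos hg (e0_pos h)
  obtain ⟨q₀, c, hc, hf⟩ := charge h1 hS h hn.2
  obtain ⟨δ, hδ, H⟩ := h2 (fa Λ h) (Λ.tI / 2) (q₀ + 1) (c / 2) (by linarith)
    (by have : (0 : ℝ) ≤ q₀ := Nat.cast_nonneg _; linarith) (by linarith)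
  obtain ⟨l, hl⟩ := ((h1.1 Λ h).2.2.2.2.2 ht δ hδ).exists
  obtain ⟨j, ⟨q, q1, q2, q3⟩, hw⟩ := (hf.and_eventually hl).exists
  have q4 : |(q : ℝ)| ≤ q₀ + 1 := by
    have a1 : (1 : ℝ) ≤ q := by exact_mod_cast q1
    have a2 : (q : ℝ) ≤ q₀ := by exact_mod_cast q2
    rw [abs_of_pos (by linarith)]; linarith
  have := H Λ (fa_mem h) l _ hw q (by omega) q4
  linarith

/-- zero stiffness gives the finite-size criterion at arbitrarily large scales -/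
theorem lok_of_zero (h1 : T1mStmt) (hS : StepStmt) (hG : G2Stmt) {Λ : Lat} (h : Λ.Ok)
    (hg : Λ.gI = 0) : ∃ q₀ : ℕ, ∀ δ : ℝ, 0 < δ → ∀ L₀ : ℕ, ∃ (L : ℕ) (q : ℤ), L₀ ≤ L ∧ 1 ≤ L ∧
      1 ≤ q ∧ q ≤ q₀ ∧ Λ.Lok L q δ := by
  obtain ⟨q₀, c, hc, hf⟩ := charge h1 hS h (by rw [hg]; positivity)
  refine ⟨q₀, fun δ hδ L₀ => ?_⟩
  obtain ⟨ε, k, hε, HG⟩ := hG (fa Λ h) q₀ c δ hc hδ
  have ht : Tendsto Λ.tN atTop (𝓝 0) := by
    have := (h1.1 Λ h).1
    rwa [tI_eq h, hg, zero_mul] at this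
  have c1 : Tendsto (fun l : ℕ => ε * l) atTop atTop :=
    tendsto_natCast_atTop_atTop.const_mul_atTop hε
  obtain ⟨l, hl1, hl2⟩ := ((ht.eventually (ge_mem_nhds hε)).and
    (c1.eventually (eventually_ge_atTop 1))).exists
  obtain ⟨j, ⟨q, q1, q2, q3⟩, hj1, hj2⟩ := (hf.and_eventually (tendsto_pow2.eventually
    ((c1.eventually (eventually_ge_atTop (l : ℝ))).and (eventually_ge_atTop L₀)))).exists
  exact ⟨2 ^ k * 2 ^ j, q, hj2.trans (Nat.le_mul_of_pos_left _ (by positivity)),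
    Nat.one_le_iff_ne_zero.2 (by positivity), q1, q2,
    HG Λ (fa_mem h) l (2 ^ j) q q1 q2 ⟨hl2, hj1⟩ hl1 q3⟩

/-- **T5** without the seam -/
theorem t5aStmt (h1 : T1mStmt) (h2 : T2Stmt) (hS : StepStmt) (hG : G2Stmt) (hP : PeiAStmt)
    (hR : RghStmt) : T5AStmt := by
  intro Λ h
  have hpi : 0 < 2 / Real.pi := by positivity
  have key : Λ.gI = 0 → ¬ Λ.Rough := fun hg => by
    obtain ⟨q₀, H⟩ := lok_of_zero h1 hS hG h hg
    obtain ⟨δ, L₀, hδ, HP⟩ := hP (fa Λ h) q₀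
    obtain ⟨L, q, a1, -, a2, a3, a4⟩ := H δ hδ L₀
    exact HP Λ (fa_mem h) L q a1 a2 a3 a4
  have hgap := gapStmt h1 h2 hS Λ h
  exact ⟨⟨fun hr => hgap.resolve_left fun h0 => key h0 hr, fun hg => hR Λ h (by linarith)⟩,
    ⟨fun hr => hgap.resolve_right fun hg => hr (hR Λ h (by linarith)), key⟩⟩

theorem PeiStmt.peiA (hP : PeiStmt) : PeiAStmt := fun F q₀ => by
  obtain ⟨δ, C, c, L₀, hδ, -, H⟩ := hP F q₀
  exact ⟨δ, L₀, hδ, fun Λ hΛ L q a1 a2 a3 a4 => (H Λ hΛ L q a1 a2 a3 a4).1⟩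

theorem T5Stmt.t5A (h : T5Stmt) : T5AStmt := fun Λ hΛ => ⟨(h Λ hΛ).1, (h Λ hΛ).2.1⟩

/-- **T5** -/
theorem t5Stmt (h1 : T1mStmt) (h2 : T2Stmt) (hS : StepStmt) (hG : G2Stmt) (hP : PeiStmt)
    (hR : RghStmt) : T5Stmt := by
  intro Λ h
  have := t5aStmt h1 h2 hS hG hP.peiA hR Λ h
  refine ⟨this.1, this.2, fun hg hJ => ?_⟩
  obtain ⟨q₀, H⟩ := lok_of_zero h1 hS hG h hg
  obtain ⟨δ, C, c, L₀, hδ, hc, HP⟩ := hP (fa Λ h) q₀
  obtain ⟨L, q, a1, a0, a2, a3, a4⟩ := H δ hδ L₀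
  exact ⟨C, c, L, hc, a0, (HP Λ (fa_mem h) L q a1 a2 a3 a4).2 hJ⟩

/-- **EXIT** -/
theorem exitStmt (hd : T1dStmt) (ha : T1aStmt) (h2 : T2Stmt) (hS : StepStmt) (hG : G2Stmt) :
    ExitStmt := by
  intro F ε₀ hε₀
  obtain ⟨k, q₀, l₀, c, hk, hc, H⟩ := hS F (ε₀ / 2) (by linarith)
  refine ⟨q₀, fun y₀ δ hy₀ hδ => ?_⟩
  obtain ⟨ε, k', hε, HG⟩ := hG F q₀ c δ hc hδ
  obtain ⟨δ₂, hδ₂, H2⟩ := h2 F (ε / 2) (q₀ + 1) (c / 2) (by linarith)
    (by have : (0 : ℝ) ≤ q₀ := Nat.cast_nonneg _; linarith) (by linarith)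
  obtain ⟨C, HA⟩ := ha F
  obtain ⟨d, hd0, hd1, hd2⟩ : ∃ d : ℝ, 0 < d ∧ d ≤ ε / 2 ∧ d ≤ δ₂ :=
    ⟨min (ε / 2) δ₂, lt_min (by linarith) hδ₂, min_le_left _ _, min_le_right _ _⟩
  obtain ⟨η, hη0, hη1, hη2⟩ : ∃ η : ℝ, 0 < η ∧ η ≤ d / 4 ∧ η * (|F.τ₂| + 1) ≤ ε₀ / 2 := by
    refine ⟨min (d / 4) (ε₀ / 2 / (|F.τ₂| + 1)), lt_min (by linarith) (by positivity),
      min_le_left _ _, ?_⟩
    exact (le_div_iff₀ (by positivity)).1 (min_le_right _ _)
  obtain ⟨l₁, HD⟩ := hd.2.1 F η hη0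
  obtain ⟨p, hp⟩ := exists_pow d hd0
  obtain ⟨l₂, hl₂⟩ := exists_nat_ge (1 / d)
  -- the main induction
  have main : ∀ (i : ℕ) (y : ℝ), 0 < y → ∃ N : ℕ, ∀ Λ, F.Mem Λ → ∀ j : ℕ,
      l₀ + l₁ + l₂ ≤ 2 ^ j → (∀ n, Λ.gN (2 ^ (j + n)) ≤ 2 / Real.pi - ε₀ / 2) →
      y ≤ Λ.Y (2 ^ j) → Λ.tN (2 ^ j) ≤ i * (d / 2) →
      ∃ (n : ℕ) (q : ℤ), n ≤ N ∧ 1 ≤ q ∧ q ≤ q₀ ∧ Λ.Lok (2 ^ (j + n)) q δ := by
    have step : ∀ y : ℝ, 0 < y → ∃ (N : ℕ) (y' : ℝ), 0 < y' ∧ ∀ Λ, F.Mem Λ → ∀ j : ℕ,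
        l₀ + l₁ + l₂ ≤ 2 ^ j → (∀ n, Λ.gN (2 ^ (j + n)) ≤ 2 / Real.pi - ε₀ / 2) →
        y ≤ Λ.Y (2 ^ j) →
        (∃ (n : ℕ) (q : ℤ), n ≤ N ∧ 1 ≤ q ∧ q ≤ q₀ ∧ Λ.Lok (2 ^ (j + n)) q δ) ∨
        0 < Λ.tN (2 ^ j) ∧ ∃ n ≤ N, y' ≤ Λ.Y (2 ^ (j + n)) ∧
          Λ.tN (2 ^ (j + n)) ≤ Λ.tN (2 ^ j) - d / 2 := by
      intro y hy
      obtain ⟨M, hM⟩ := exists_pow (min c 1 ^ p * y) (by positivity)
      refine ⟨k * (p + M + 1) + k', min c 1 ^ (p + M + 1) * y, by positivity,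
        fun Λ hΛ j hj hg hY => ?_⟩
      have big : ∀ n, l₀ + l₁ + l₂ ≤ 2 ^ (j + n) := fun n =>
        hj.trans (Nat.pow_le_pow_right two_pos (by omega))
      have e : ∀ n, 2 ^ k * 2 ^ (j + k * n) = 2 ^ (j + k * (n + 1)) := fun n => by ring
      have hY' : ∀ n, min c 1 ^ n * y ≤ Λ.Y (2 ^ (j + k * n)) := fun n => by
        induction n with
        | zero => simpa using hY
        | succ n ih =>
          have a1 := H Λ hΛ _ (le_trans (by omega) (big (k * n)))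
          have a2 := a1.2.2.1
          rw [e] at a2
          calc min c 1 ^ (n + 1) * y = min c 1 * (min c 1 ^ n * y) := by ring
            _ ≤ c * Λ.Y (2 ^ (j + k * n)) :=
              mul_le_mul (min_le_left _ _) ih (by positivity) hc.le
            _ ≤ _ := a2
      have mono : ∀ a b, a ≤ b → Λ.tN (2 ^ (j + b)) ≤ Λ.tN (2 ^ (j + a)) + η := fun a b hab => by
        have := HD Λ hΛ (2 ^ (j + a)) (2 ^ (b - a)) (le_trans (by omega) (big a))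
          Nat.one_le_two_pow
        rwa [← pow_add, show b - a + (j + a) = j + b by omega] at this
      obtain ⟨n, hnM, hn⟩ := no_double (y := fun n => Λ.Y (2 ^ (j + k * (p + n)))) (hY' p) hM
        (H Λ hΛ _ (le_trans (by omega) (big _))).2.1
      obtain ⟨q, q1, q2, q3⟩ := ((H Λ hΛ _ (le_trans (by omega) (big (k * (p + n))))).2.2.2
        (hg _)).resolve_left fun h2 => hn (by rwa [e] at h2)
      have sep : ∀ d' : ℝ, d ≤ d' → Sep d' (2 ^ (j + k * n)) (2 ^ (j + k * (p + n))) := by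
        intro d' hd'
        have b1 : (l₂ : ℝ) ≤ ((2 ^ (j + k * n) : ℕ) : ℝ) := by
          exact_mod_cast le_trans (by omega) (big (k * n))
        have b2 : 1 ≤ d * l₂ := by rwa [div_le_iff₀ hd0, mul_comm] at hl₂
        have b3 : (2 : ℝ) ^ p ≤ 2 ^ (k * p) :=
          pow_le_pow_right₀ one_le_two (Nat.le_mul_of_pos_left _ hk)
        have b4 : (0 : ℝ) < 2 ^ (j + k * n) := by positivity
        refine ⟨b2.trans (mul_le_mul hd' b1 (Nat.cast_nonneg _) (by linarith)), ?_⟩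
        push_cast
        rw [show j + k * (p + n) = j + k * n + k * p by ring, pow_add _ (j + k * n)]
        have b5 : 1 ≤ d' * 2 ^ (k * p) := by
          have : (2 : ℝ) ^ p * d ≤ 2 ^ (k * p) * d' := by gcongr
          linarith
        nlinarith
      by_cases ht : Λ.tN (2 ^ (j + k * n)) ≤ ε
      · left
        have := HG Λ hΛ _ _ q q1 q2 (sep ε (by linarith)) ht q3
        rw [← pow_add, show k' + (j + k * (p + n)) = j + (k * (p + n) + k') by ring] at this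
        refine ⟨_, q, ?_, q1, q2, this⟩
        have : k * (p + n) ≤ k * (p + M + 1) := Nat.mul_le_mul_left _ (by omega)
        omega
      · right
        push Not at ht
        have q4 : |(q : ℝ)| ≤ q₀ + 1 := by
          have a1 : (1 : ℝ) ≤ q := by exact_mod_cast q1
          have a2 : (q : ℝ) ≤ q₀ := by exact_mod_cast q2
          rw [abs_of_pos (by linarith)]; linarith
        have drop : Λ.tN (2 * 2 ^ (j + k * (p + n))) ≤ Λ.tN (2 ^ (j + k * n)) - d := by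
          by_contra hdr
          push Not at hdr
          have := H2 Λ hΛ _ _ ⟨⟨_, rfl⟩, sep δ₂ hd2, by linarith, by linarith⟩ q (by omega) q4
          linarith
        have m1 := mono 0 (k * n) (Nat.zero_le _)
        have m2 := mono (k * (p + n) + 1) (k * (p + n + 1)) (by nlinarith)
        rw [← pow_succ', add_assoc] at drop
        rw [add_zero] at m1
        refine ⟨by linarith, k * (p + n + 1), ?_, le_trans ?_ (hY' _), by linarith⟩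
        · have : k * (p + n + 1) ≤ k * (p + M + 1) := Nat.mul_le_mul_left _ (by omega)
          omega
        · exact mul_le_mul_of_nonneg_right (pow_le_pow_of_le_one (by positivity)
            (min_le_right _ _) (by omega)) hy.le
    intro i
    induction i with
    | zero =>
      intro y hy
      obtain ⟨N, y', -, hN⟩ := step y hy
      refine ⟨N, fun Λ hΛ j hj hg hY ht => (hN Λ hΛ j hj hg hY).resolve_right fun h => ?_⟩
      simp only [Nat.cast_zero, zero_mul] at ht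
      linarith [h.1]
    | succ i ih =>
      intro y hy
      obtain ⟨N, y', hy', hN⟩ := step y hy
      obtain ⟨N', hN'⟩ := ih y' hy'
      refine ⟨N + N', fun Λ hΛ j hj hg hY ht => ?_⟩
      rcases hN Λ hΛ j hj hg hY with ⟨n, q, a1, a2⟩ | ⟨-, n, a1, a2, a3⟩
      · exact ⟨n, q, by omega, a2⟩
      · obtain ⟨n', q, b1, b2⟩ := hN' Λ hΛ (j + n)
          (hj.trans (Nat.pow_le_pow_right two_pos (by omega)))
          (fun m => by rw [add_assoc]; exact hg _) a2 (by push_cast at ht; linarith)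
        exact ⟨n + n', q, by omega, by rwa [← add_assoc]⟩
  obtain ⟨i, hi⟩ := exists_nat_ge (2 / d)
  obtain ⟨N, hN⟩ := main i y₀ hy₀
  refine ⟨2 ^ N, l₀ + l₁ + l₂, fun Λ hΛ j hj hg hY => ?_⟩
  have hok := mem_ok hΛ
  obtain ⟨n, q, a1, a2, a3, a4⟩ := hN Λ hΛ j hj (fun n => by
    have b1 := HD Λ hΛ (2 ^ j) (2 ^ n) (le_trans (by omega) hj) Nat.one_le_two_pow
    rw [← pow_add, add_comm] at b1
    have b2 := e0_pos hok
    have b3 : η / Λ.e0 ≤ ε₀ / 2 := by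
      have c1 := inv_e0_le hok
      have c2 : Λ.τ ≤ |F.τ₂| + 1 := by linarith [hΛ.2.2.2, le_abs_self F.τ₂]
      calc η / Λ.e0 = η * (1 / Λ.e0) := by ring
        _ ≤ η * (|F.τ₂| + 1) := by gcongr; linarith
        _ ≤ _ := hη2
    have b4 : Λ.gN (2 ^ (j + n)) ≤ Λ.gN (2 ^ j) + η / Λ.e0 := by
      rw [Lat.gN, Lat.gN, ← add_div]; gcongr
    linarith) hY (by
    have b1 := (HA Λ hΛ (2 ^ j) Nat.one_le_two_pow).2.1
    have b2 : 2 ≤ i * d := (div_le_iff₀ hd0).1 hi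
    linarith)
  refine ⟨2 ^ (j + n), q, Nat.pow_le_pow_right two_pos (by omega), ?_, a2, a3, a4⟩
  rw [← pow_add]
  exact Nat.pow_le_pow_right two_pos (by omega)

namespace T511

theorem isRough_iff (h5 : T5AStmt) {J : Finset Pt} (hJ : IsAdmissible J) {β : ℝ} (hβ : 0 < β) :
    IsRough J β ↔ 2 / Real.pi ≤ (dg J β).gI :=
  ((boxStmt mdlStmt geoStmt J β hJ hβ).2).trans (h5 _ (dg_ok hJ hβ)).1

/-- `β_eff ≤ β` -/
theorem gI_le (h1 : T1mStmt) {J : Finset Pt} (hJ : IsAdmissible J) {β : ℝ} (hβ : 0 < β) :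
    4 * Real.pi ^ 2 * varianceConst J * (dg J β).gI ≤ β := by
  have h := dg_ok hJ hβ
  have a1 := (h1.1 _ h).2.2.1
  have a2 := h.a_eq
  have a3 : (0 : ℝ) < J.card := by exact_mod_cast h.card_pos
  have hv := FS.varianceConst_pos hJ
  have e : (dg J β).τ / (dg J β).a = β / (4 * Real.pi ^ 2 * varianceConst J) := by
    rw [a2]; simp only [dg]; field_simp
  rw [e, le_div_iff₀ (by positivity)] at a1
  linarith

theorem le_of_rough (h1 : T1mStmt) (h5 : T5AStmt) {J : Finset Pt} (hJ : IsAdmissible J) {β : ℝ}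
    (hβ : 0 < β) (hr : IsRough J β) : 8 * Real.pi * varianceConst J ≤ β := by
  have a1 := (isRough_iff h5 hJ hβ).1 hr
  have a2 := gI_le h1 hJ hβ
  have hv := FS.varianceConst_pos hJ
  have a3 : 4 * Real.pi ^ 2 * varianceConst J * (2 / Real.pi) = 8 * Real.pi * varianceConst J := by
    field_simp; ring
  have a4 : 4 * Real.pi ^ 2 * varianceConst J * (2 / Real.pi) ≤
      4 * Real.pi ^ 2 * varianceConst J * (dg J β).gI := by gcongr
  linarith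

theorem le_crit (h1 : T1mStmt) (h5 : T5AStmt) (hE : FS.E1Stmt) {J : Finset Pt}
    (hJ : IsAdmissible J) : 8 * Real.pi * varianceConst J ≤ criticalTemp J :=
  le_csInf (hE J hJ) fun _ hb => le_of_rough h1 h5 hJ hb.1 hb.2

theorem crit_le {J : Finset Pt} {β : ℝ} (hβ : 0 < β) (hr : IsRough J β) : criticalTemp J ≤ β :=
  csInf_le ⟨0, fun _ hb => hb.1.le⟩ ⟨hβ, hr⟩

theorem crit_pos (h1 : T1mStmt) (h5 : T5AStmt) (hE : FS.E1Stmt) {J : Finset Pt}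
    (hJ : IsAdmissible J) : 0 < criticalTemp J :=
  lt_of_lt_of_le (by have := FS.varianceConst_pos hJ; positivity) (le_crit h1 h5 hE hJ)

theorem dg_at (J : Finset Pt) (β β' : ℝ) :
    (dg J β).at' (β' * J.card / (4 * Real.pi ^ 2)) = dg J β' := rfl

/-- `β ↦ g_∞` is monotone -/
theorem gI_mono (h1 : T1mStmt) {J : Finset Pt} (hJ : IsAdmissible J) {β β' : ℝ} (hβ : 0 < β)
    (h : β ≤ β') : (dg J β).gI ≤ (dg J β').gI :=
  (h1.1 _ (dg_ok hJ hβ)).2.2.2.1 (dg_ok hJ hβ).pos (dg_ok hJ (hβ.trans_le h)).pos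
    (by simp only [dg]; gcongr)

/-- the stiffness is at least critical from the threshold on -/
theorem le_gI (h1 : T1mStmt) (h5 : T5AStmt) (hE : FS.E1Stmt) {J : Finset Pt}
    (hJ : IsAdmissible J) {β : ℝ} (hβ : criticalTemp J ≤ β) : 2 / Real.pi ≤ (dg J β).gI := by
  have hc := crit_pos h1 h5 hE hJ
  refine le_trans ?_ (gI_mono h1 hJ hc hβ)
  by_contra hn
  push Not at hn
  have hu := (h1.1 _ (dg_ok hJ hc)).2.2.2.2.1 _ (dg_ok hJ hc).pos _ hn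
  have hcont : Tendsto (fun b : ℝ => b * J.card / (4 * Real.pi ^ 2)) (𝓝[>] criticalTemp J)
      (𝓝[Set.Ioi 0] (dg J (criticalTemp J)).τ) := by
    refine tendsto_nhdsWithin_iff.2 ⟨?_, ?_⟩
    · exact ((by fun_prop : Continuous fun b : ℝ => b * J.card / (4 * Real.pi ^ 2)).tendsto _).mono_left
        nhdsWithin_le_nhds
    · filter_upwards [self_mem_nhdsWithin] with b hb using (dg_ok hJ (hc.trans hb)).pos
  obtain ⟨b, hb1, hb2⟩ := ((hcont.eventually hu).and self_mem_nhdsWithin).exists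
  obtain ⟨b', hb', hlt⟩ := exists_lt_of_csInf_lt (hE J hJ) hb2
  have a1 := (isRough_iff h5 hJ hb'.1).1 hb'.2
  have a2 := gI_mono h1 hJ hb'.1 hlt.le
  have a3 : (dg J b).gI < 2 / Real.pi := hb1
  linarith

/-- below the threshold the stiffness vanishes -/
theorem gI_eq_zero (h5 : T5AStmt) {J : Finset Pt} (hJ : IsAdmissible J) {β : ℝ} (hβ : 0 < β)
    (h : β < criticalTemp J) : (dg J β).gI = 0 :=
  (h5 _ (dg_ok hJ hβ)).2.1 fun hr =>
    not_lt.2 (crit_le hβ ((boxStmt mdlStmt geoStmt J β hJ hβ).2.2 hr)) h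

end T511

/-- **S0200** -/
theorem s0200_of (h1 : T1mStmt) (h5 : T5AStmt) (hE : FS.E1Stmt) (J : Finset Pt)
    (hJ : IsAdmissible J) :
    {β : ℝ | 0 < β ∧ IsRough J β}.Nonempty ∧ 0 < criticalTemp J ∧
      (∀ β : ℝ, 0 < β → β < criticalTemp J → ⨆ R : ℕ, boxVariance J β (R + 1) < ⊤) ∧
      ∀ β : ℝ, criticalTemp J ≤ β → IsRough J β :=
  ⟨hE J hJ, crit_pos h1 h5 hE hJ, fun _ hβ h => lt_top_iff_ne_top.2 fun hr =>
    not_lt.2 (crit_le hβ hr) h, fun _ hβ =>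
    (isRough_iff h5 hJ ((crit_pos h1 h5 hE hJ).trans_le hβ)).2 (le_gI h1 h5 hE hJ hβ)⟩

/-- **S0202** -/
theorem s0202_of (h1 : T1mStmt) (h5 : T5AStmt) (hE : FS.E1Stmt) (h2 : FS.E2Stmt) :
    Tendsto (fun ρ : ℕ => criticalTemp (boxInteraction ρ) /
      (8 * Real.pi * varianceConst (boxInteraction ρ))) atTop (𝓝 1) := by
  rw [Metric.tendsto_nhds]
  intro ε hε
  filter_upwards [h2 (ε / 2) (by linarith), eventually_ge_atTop 1] with ρ hR hρ
  have hJ := FS.isAdmissible_box hρ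
  have hv : 0 < 8 * Real.pi * varianceConst (boxInteraction ρ) := by
    have := FS.varianceConst_pos hJ; positivity
  have lo := le_crit h1 h5 hE hJ
  have hi : criticalTemp (boxInteraction ρ) ≤
      (1 + ε / 2) * (8 * Real.pi * varianceConst (boxInteraction ρ)) :=
    csInf_le ⟨0, fun β hβ => hβ.1.le⟩ ⟨by positivity, hR⟩
  rw [Real.dist_eq, abs_lt]
  have a1 := (one_le_div hv).2 lo
  have a2 := (div_le_iff₀ hv).2 hi
  constructor <;> linarith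

end Crest.Agent.T145
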