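import Crest.Agent.T145.MbDef2_25
import Crest.Agent.T145.T5_11
import Crest.Agent.T145.CorB_59

/-!
# Row 145, module MB: BADG and Y0 (helper10)
-/

set_option autoImplicit false

namespace Crest.Agent.T145.Mb

open Finset

/-- an almost decreasing nonnegative sequence has few drops -/
theorem Bad10.count {t : ℕ → ℝ} {δ : ℝ} {a d : ℕ} {S : Finset ℕ} (h0 : ∀ j, 0 ≤ t j)
    (hm : ∀ j j', a ≤ j → j ≤ j' → t j' ≤ t j + δ / 2)
    (hS : ∀ i ∈ S, ∀ j, i = j + d → t (i + 1) ≤ t j - δ) (n : ℕ) :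
    ∀ j, a ≤ j → (d + 1) * n ≤ (S.filter fun i => j + d ≤ i).card → n * (δ / 2) ≤ t j := by
  induction n with
  | zero => intro j _ _; simpa using h0 j
  | succ n ih =>
    intro j hj hc
    have hne : (S.filter fun i => j + d ≤ i).Nonempty := card_pos.1 (by nlinarith)
    obtain ⟨i, hi, hmin⟩ := exists_min_image _ id hne
    obtain ⟨hi, hji⟩ := mem_filter.1 hi
    have hsub : (S.filter fun i => j + d ≤ i) ⊆
        (S.filter fun k => i + 1 + d ≤ k) ∪ Ico i (i + (d + 1)) := fun k hk => by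
      have := hmin k hk
      simp only [id] at this
      by_cases h : i + 1 + d ≤ k
      · exact mem_union_left _ (mem_filter.2 ⟨(mem_filter.1 hk).1, h⟩)
      · exact mem_union_right _ (mem_Ico.2 ⟨this, by omega⟩)
    have h1 := (card_le_card hsub).trans (card_union_le _ _)
    rw [Nat.card_Ico] at h1
    have h2 := ih (i + 1) (by omega) (by rw [mul_add] at hc; omega)
    have h3 := hS i hi (i - d) (by omega)
    have h4 := hm j (i - d) hj (by omega)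
    push_cast
    linarith

theorem badGStmt (ha : T1aStmt) (hd : T1dStmt) (h2 : T2Stmt) : BadGStmt := by
  intro F q₀ c θ₀ hc hθ
  obtain ⟨δ, hδ, H2⟩ := h2 F θ₀ (q₀ + 1) (c / 2) hθ
    (by have : (0 : ℝ) ≤ q₀ := Nat.cast_nonneg _; linarith) (by linarith)
  obtain ⟨C, HA⟩ := ha F
  obtain ⟨l₀, HD⟩ := hd.2.1 F (δ / 2) (by linarith)
  obtain ⟨d, hd1⟩ := T511.exists_pow δ hδ
  obtain ⟨M, hM⟩ := exists_nat_gt (1 / (δ / 2))
  refine ⟨(d + 1) * M, l₀ + d + d, fun Λ hΛ S hS => ?_⟩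
  by_contra hn
  have key := Bad10.count (t := fun j => Λ.tN (2 ^ j)) (δ := δ) (a := l₀ + d) (d := d) (S := S)
    (fun j => (HA Λ hΛ _ Nat.one_le_two_pow).1) (fun j j' h1 h2 => ?_) (fun i hi j e => ?_) M
    (l₀ + d) le_rfl ?_
  · have := (HA Λ hΛ (2 ^ (l₀ + d)) Nat.one_le_two_pow).2.1
    rw [div_lt_iff₀ (by linarith)] at hM
    linarith
  · have := HD Λ hΛ (2 ^ j) (2 ^ (j' - j)) (le_trans (by omega) Nat.lt_two_pow_self.le)
      Nat.one_le_two_pow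
    rwa [← pow_add, Nat.sub_add_cancel h2] at this
  · obtain ⟨h1, h3, q, q1, q2, q3⟩ := hS i hi
    by_contra hdr
    have q4 : |(q : ℝ)| ≤ q₀ + 1 := by
      have a1 : (1 : ℝ) ≤ q := by exact_mod_cast q1
      have a2 : (q : ℝ) ≤ q₀ := by exact_mod_cast q2
      rw [abs_of_pos (by linarith)]; linarith
    have b1 : (2 : ℝ) ^ d ≤ 2 ^ j := pow_le_pow_right₀ one_le_two (by omega)
    have b2 : (0 : ℝ) < 2 ^ j := by positivity
    have := H2 Λ hΛ (2 ^ j) (2 ^ i) ⟨⟨_, rfl⟩, ⟨by push_cast; nlinarith, by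
      push_cast; rw [e, pow_add]; nlinarith⟩, by rwa [← pow_succ'], by
        rw [← pow_succ']; linarith [not_le.1 hdr]⟩ q (by omega) q4
    linarith
  · rw [filter_true_of_mem fun i hi => (hS i hi).1]
    omega

theorem y0Stmt : Y0Stmt := by
  intro F l hl
  by_cases h : F.τ₁ ≤ F.τ₂
  · have ok : (⟨F.J, F.xy, F.τ₂⟩ : Lat).Ok := ⟨F.adm, F.pos.trans_le h⟩
    have h0 : (0 : Pt) ∈ sq 0 l := self_mem_sq 0 hl
    refine ⟨(⟨F.J, F.xy, F.τ₂⟩ : Lat).Y l, (ok.cen_Nr h0).ph_pos _, fun Λ hΛ => ?_⟩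
    have e : Λ = (⟨F.J, F.xy, F.τ₂⟩ : Lat).at' Λ.τ := by
      obtain ⟨J, xy, τ⟩ := Λ
      obtain ⟨rfl, rfl, -⟩ := hΛ
      rfl
    rw [e]
    exact (ok.loc_at_Nr (F.pos.trans_le hΛ.2.2.1) hΛ.2.2.2 (ok.anch_Nr h0)).ph _
  · exact ⟨1, one_pos, fun Λ hΛ => absurd (hΛ.2.2.1.trans hΛ.2.2.2) h⟩

end Crest.Agent.T145.Mb
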