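import Crest.Agent.T145.MidA_76

/-!
# Row 145: limit orbits at and above the threshold; the infinite slope (helper76)
-/

set_option autoImplicit false

namespace Crest.Agent.T145.Mid

open Finset Filter Topology Real

variable {F : Fa} {φ : Fw} {P : Par} {Λ : Lat}

theorem ev_mem (hΛ : F.Mem Λ) (h2 : Λ.τ < F.τ₂) : ∀ᶠ τ in 𝓝[≥] Λ.τ, F.Mem (Λ.at' τ) := by
  filter_upwards [self_mem_nhdsWithin, mem_nhdsWithin_of_mem_nhds (Iio_mem_nhds h2)] with τ h1 h3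
  exact hΛ.at' (hΛ.le_tau.trans h1) (le_of_lt h3)

/-- windows above a rough point -/
theorem ev_win (hm : T1mStmt) (hd : T1dStmt) (hΛ : F.Mem Λ) (h2 : Λ.τ < F.τ₂) (hg : 2 / π ≤ Λ.gI)
    {δ : ℝ} (hδ : 0 < δ) : ∀ᶠ l : ℕ in atTop, ∀ᶠ τ in 𝓝[≥] Λ.τ,
      |(Λ.at' τ).gN l - Λ.gI| ≤ δ ∧ (∀ L, l ≤ L → Λ.gI - δ ≤ (Λ.at' τ).gN L) ∧
      ∀ j, (l : ℝ) ≤ δ * ((2 ^ j : ℕ) : ℝ) → (Λ.at' τ).Win (th F) δ l (2 ^ j) := by
  obtain ⟨δ₁, h1, hw⟩ := exists_of_ev (win_of F hδ)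
  obtain ⟨δ₂, h0, a1, a2, a3⟩ := exists_of_ev ((ev_mul_le 2 h1).and ((ev_le hδ).and
    (ev_le (show 0 < 1 / π by positivity))))
  obtain ⟨l₀, hl₀⟩ := (ev_l hm hd hΛ.ok h0).exists
  filter_upwards [ev_l hm hd hΛ.ok h0, ev_one_le hδ,
    tendsto_natCast_atTop_atTop.eventually_ge_atTop (δ * l₀), eventually_ge_atTop l₀] with l b1 b2 b3 b4
  filter_upwards [ev_mem hΛ h2, self_mem_nhdsWithin, mem_nhdsWithin_of_mem_nhds b1.2] with τ c1 c2 c3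
  have c3 : |(Λ.at' τ).gN l - Λ.gI| ≤ δ₂ := c3
  have low : ∀ L, l₀ ≤ L → Λ.gI - δ₂ ≤ (Λ.at' τ).gN L := fun L hL => by
    have := gN_mono hd hΛ.ok L hΛ.tau_pos c2
    have e : (Λ.at' Λ.τ).gN L = Λ.gN L := rfl
    linarith [(abs_le.1 (hl₀.1 L hL)).1]
  refine ⟨c3.trans a2, fun L hL => by linarith [low L (b4.trans hL)], fun j hj => ?_⟩
  have : l₀ ≤ 2 ^ (j + 1) := by
    have d1 : (l₀ : ℝ) ≤ ((2 ^ j : ℕ) : ℝ) := le_of_mul_le_mul_left (b3.trans hj) hδ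
    have d2 : l₀ ≤ 2 ^ j := by exact_mod_cast d1
    exact d2.trans (Nat.pow_le_pow_right two_pos (by omega))
  have d3 := low _ this
  have e : 2 / π = 2 * (1 / π) := by ring
  exact hw _ c1 l j ⟨b2, hj⟩ (by linarith) (by linarith [(abs_le.1 c3).2])

theorem ev_cw (hm : T1mStmt) (hd : T1dStmt) (F : Fa) {δ : ℝ} (hδ : 0 < δ) : ∃ δ', 0 < δ' ∧
    ∀ Λ, F.Mem Λ → Λ.τ < F.τ₂ → 2 / π ≤ Λ.gI → Λ.gI ≤ 2 / π + δ' → ∀ᶠ l : ℕ in atTop,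
      ∀ᶠ τ in 𝓝[≥] Λ.τ, ∀ᶠ N in atTop, Cw (th F) δ (Λ.at' τ) l N := by
  obtain ⟨δ₁, h1, hw⟩ := exists_of_ev (cw_of F hδ)
  refine ⟨δ₁ / 2, half_pos h1, fun Λ hΛ h2 g1 g2 => ?_⟩
  filter_upwards [ev_win hm hd hΛ h2 g1 (half_pos h1), ev_one_le hδ] with l b1 b2
  filter_upwards [ev_mem hΛ h2, b1] with τ c1 c2
  filter_upwards [ev_le_pow hδ l, tendsto_two_pow.eventually_ge_atTop l] with N d1 d2
  have d3 := c2.2.1 (2 ^ (N + 1)) (d2.trans (Nat.pow_le_pow_right two_pos (by omega)))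
  have d4 := abs_le.1 c2.1
  exact hw _ c1 l N ⟨b2, d1⟩ (abs_le.2 ⟨by linarith, by linarith⟩) (by linarith)

/-- the flow variable converges to the limiting stiffness -/
theorem lim_x (hm : T1mStmt) (hd : T1dStmt) (hX : VxStmt) (hD : DnStmt) (O : Odd F (th F) φ P) :
    ∃ δ', 0 < δ' ∧ ∀ Λ, F.Mem Λ → Λ.τ < F.τ₂ → 2 / π ≤ Λ.gI → Λ.gI ≤ 2 / π + δ' →
      Tendsto (xI φ Λ) atTop (𝓝 (φ.κ * (Λ.gI - 2 / π))) := by
  obtain ⟨δ', h0, hc⟩ := ev_cw hm hd F P.δ0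
  refine ⟨δ', h0, fun Λ hΛ h2 g1 g2 => KT.tendsto_of_abs fun ε hε => ?_⟩
  have hκ := O.κ_pos
  obtain ⟨δ₃, h3, hl⟩ := link hX hD O (th_pos hΛ) (half_pos hε)
  obtain ⟨l, ⟨b1, b2⟩, b3⟩ := (((hc Λ hΛ h2 g1 g2).and (ev_win hm hd hΛ h2 g1 h3)).and
    (ev_l hm hd hΛ.ok (show 0 < ε / 2 / φ.κ by positivity))).exists
  have b1 := b1.self_of_nhdsWithin Set.self_mem_Ici
  have b2 := (b2.self_of_nhdsWithin Set.self_mem_Ici).2.2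
  obtain ⟨m, a1, hl⟩ := hl l
  obtain ⟨a2, B, ht⟩ := lim O l
  filter_upwards [eventually_ge_atTop a1, eventually_ge_atTop a2] with k k1 k2
  have c1 : |xI φ Λ k - φ.κ * (Λ.gN l - 2 / π)| ≤ ε / 2 :=
    le_of_tendsto ((ht Λ hΛ b1 k k2).1.sub_const _).abs
      (((ev_V hΛ b1 k).and (eventually_ge_atTop _)).mono fun N hN =>
        (hl Λ N k hN.1 k1 hN.2 fun j hj _ => b2 j hj).1)
  have c2 : |φ.κ * (Λ.gN l - Λ.gI)| ≤ ε / 2 := by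
    rw [abs_mul, abs_of_pos hκ, ← le_div_iff₀' hκ]; exact b3.1 l le_rfl
  have c3 := abs_le.1 c1
  have c4 := abs_le.1 c2
  rw [abs_le]; constructor <;> nlinarith

/-- the data of an infinite orbit -/
structure Inf (F : Fa) (φ : Fw) (P : Par) (ε : ℝ) (l a : ℕ) (Λ : Lat) : Prop where
  mem : F.Mem Λ
  cw : ∀ᶠ N in atTop, Cw (th F) P.δ Λ l N
  small : ∀ k, a ≤ k → ∀ᶠ N in atTop, φ.η Λ N k ≤ ε
  tx : ∀ k, a ≤ k → Tendsto (fun N => φ.x Λ N k) atTop (𝓝 (xI φ Λ k))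
  ty : ∀ k, a ≤ k → Tendsto (fun N => φ.y Λ N k) atTop (𝓝 (yI φ Λ k))
  step : ∀ k, a ≤ k → KT.Step P.C P.d (xI φ Λ) (yI φ Λ) k ∧ |xI φ Λ k| + yI φ Λ k ≤ ε
  lim : Tendsto (xI φ Λ) atTop (𝓝 (φ.κ * (Λ.gI - 2 / π)))
  ge : 2 / π ≤ Λ.gI

theorem Inf.mono {ε : ℝ} {l a a' : ℕ} (h : Inf F φ P ε l a Λ) (ha : a ≤ a') : Inf F φ P ε l a' Λ :=
  ⟨h.mem, h.cw, fun k hk => h.small k (ha.trans hk), fun k hk => h.tx k (ha.trans hk),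
    fun k hk => h.ty k (ha.trans hk), fun k hk => h.step k (ha.trans hk), h.lim, h.ge⟩

/-- orbits at and above the threshold -/
theorem crit_orbit (hm : T1mStmt) (hd : T1dStmt) (hX : VxStmt) (hD : DnStmt) (O : Odd F (th F) φ P)
    (hΛ : F.Mem Λ) (h2 : Λ.τ < F.τ₂) (hc : Λ.Crit) {ε : ℝ} (hε : 0 < ε) (hε0 : ε ≤ P.ε₀) :
    ∀ᶠ l : ℕ in atTop, ∃ a, ∀ᶠ τ in 𝓝[≥] Λ.τ, Inf F φ P ε l a (Λ.at' τ) := by
  have hκ := O.κ_pos
  obtain ⟨δ₁, h1, hw⟩ := ev_cw hm hd F P.δ0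
  obtain ⟨δ₂, h2', hx⟩ := lim_x hm hd hX hD O
  obtain ⟨δ₃, h3, hl⟩ := link hX hD O (th_pos hΛ) (show 0 < ε / 3 by linarith)
  have g1 : 2 / π ≤ Λ.gI := hc.2.1.ge
  filter_upwards [hw Λ hΛ h2 g1 (by linarith [hc.2.1]), ev_win hm hd hΛ h2 g1 h3,
    ev_win hm hd hΛ h2 g1 (show 0 < ε / 3 / φ.κ by positivity)] with l b1 b2 b3
  obtain ⟨m, a1, hl⟩ := hl l
  obtain ⟨a2, B, ht⟩ := lim O l
  obtain ⟨a3, h13, hs⟩ := lim_step O l a1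
  refine ⟨max a2 a3, ?_⟩
  have u := (hm.1 Λ hΛ.ok).2.2.2.2.1 Λ.τ hΛ.tau_pos (2 / π + δ₂)
    (show Λ.gI < _ by linarith [hc.2.1])
  have u' := u.filter_mono (nhdsWithin_mono _ (show Set.Ici Λ.τ ⊆ Set.Ioi 0 from
    fun τ hτ => hΛ.tau_pos.trans_le hτ))
  filter_upwards [ev_mem hΛ h2, b1, b2, b3, u', self_mem_nhdsWithin,
    mem_nhdsWithin_of_mem_nhds (Iio_mem_nhds h2)] with τ c1 c2 c3 c4 c5 c6 c7
  have g2 : 2 / π ≤ (Λ.at' τ).gI :=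
    g1.trans ((hm.1 Λ hΛ.ok).2.2.2.1 hΛ.tau_pos (hΛ.tau_pos.trans_le c6) c6)
  have sm : ∀ k, a1 ≤ k → ∀ᶠ N in atTop, φ.η (Λ.at' τ) N k ≤ ε := fun k hk =>
    ((ev_V c1 c2 k).and (eventually_ge_atTop _)).mono fun N hN => by
      obtain ⟨d1, -, d2⟩ := hl _ N k hN.1 hk hN.2 fun j hj _ => c3.2.2 j hj
      have d3 : |φ.κ * ((Λ.at' τ).gN l - 2 / π)| ≤ ε / 3 := by
        rw [abs_mul, abs_of_pos hκ, ← le_div_iff₀' hκ, ← hc.2.1]; exact c4.1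
      have := abs_add_le (φ.x (Λ.at' τ) N k - φ.κ * ((Λ.at' τ).gN l - 2 / π))
        (φ.κ * ((Λ.at' τ).gN l - 2 / π))
      rw [sub_add_cancel] at this
      unfold Fw.η; linarith
  exact ⟨c1, c2, fun k hk => sm k (h13.trans (le_of_max_le_right hk)),
    fun k hk => (ht _ c1 c2 k (le_of_max_le_left hk)).1,
    fun k hk => (ht _ c1 c2 k (le_of_max_le_left hk)).2.1,
    fun k hk => hs _ c1 c2 ε hε0 sm k (le_of_max_le_right hk), hx _ c1 c7 g2 c5.le, g2⟩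

variable {ε : ℝ} {l a : ℕ}

theorem Inf.y_le (h : Inf F φ P ε l a Λ) (hε : KT.om P.C P.d ε ≤ 1 / 100) {j k : ℕ} (hj : a ≤ j)
    (hk : j ≤ k) : yI φ Λ j ≤ yI φ Λ k * (5 / 4) ^ (k - j) := by
  induction k, hk using Nat.le_induction with
  | base => simp
  | succ k hk ih =>
    obtain ⟨s, hs⟩ := h.step k (hj.trans hk)
    have h1 := (abs_le.1 (KT.St.abs_dy s (s.w_le P.C0 P.d0.le hs) hε)).1
    have h2 : |xI φ Λ k| + yI φ Λ k ≤ 1 / 100 :=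
      hs.trans ((KT.le_om P.C0 (s.eta_pos.le.trans hs)).trans hε)
    have h3 : 0 < yI φ Λ k := s.pos
    have h4 : yI φ Λ k ≤ yI φ Λ (k + 1) * (5 / 4) := by nlinarith
    rw [Nat.succ_sub hk, pow_succ', ← mul_assoc]
    exact ih.trans (by gcongr)

theorem Inf.x_nonneg (h : Inf F φ P ε l a Λ) (O : Odd F (th F) φ P) (hε : KT.om P.C P.d ε ≤ 1 / 100)
    (j : ℕ) (hj : a ≤ j) : 0 ≤ xI φ Λ j :=
  (mul_nonneg O.κ_pos.le (sub_nonneg.2 h.ge)).trans (le_of_tendsto h.lim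
    ((eventually_ge_atTop j).mono fun _ hn =>
      (KT.drift P.C0 P.d0.le hε hn fun k h1 _ => h.step k (hj.trans h1)).1))

theorem Inf.y_small (h : Inf F φ P ε l a Λ) (O : Odd F (th F) φ P) (hε : KT.om P.C P.d ε ≤ 1 / 100)
    {k : ℕ} (hk : 2 * a + 1 ≤ k) : yI φ Λ k ≤ 5 / 2 / k := by
  have h1 := KT.rough_y P.C0 P.d0.le hε h.step (h.x_nonneg O hε) k (by omega)
  have h2 : (2 * a + 1 : ℝ) ≤ k := by exact_mod_cast hk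
  have h3 : 0 < yI φ Λ k := (h.step k (by omega)).1.pos
  have h4 : (0 : ℝ) ≤ a := Nat.cast_nonneg a
  rw [le_div_iff₀ (by linarith)]
  nlinarith

/-- the limit orbit against the torus variance -/
theorem inf_vt (hX : VxStmt) (O : Odd F (th F) φ P) (hε : KT.om P.C P.d ε ≤ 1 / 100) (l a : ℕ) :
    ∃ (a₁ : ℕ) (C₁ : ℝ), 0 ≤ C₁ ∧ ∀ Λ, Inf F φ P ε l a Λ → ∀ k, a₁ ≤ k → ∀ᶠ N in atTop,
      |φ.κ * (Vt Λ (16 * 2 ^ N) (φ.r k) - 2 / π) - xI φ Λ k| ≤ C₁ / (k : ℝ) ^ 2 := by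
  obtain ⟨C, hC, hX⟩ := hX F (th F) φ P O
  obtain ⟨B₁, -, hX⟩ := hX l
  obtain ⟨a1, B, hB, hX⟩ := hX a
  have t1 := (tendsto_pow_const_mul_const_pow_of_abs_lt_one 2
    (show |max P.θ (1 / 2)| < 1 by rw [abs_of_nonneg P.max0]; exact P.max1)).const_mul B
  rw [mul_zero] at t1
  obtain ⟨a2, h2⟩ := eventually_atTop.1 (t1.eventually (ge_mem_nhds one_pos))
  refine ⟨max (2 * a + 1) (max a1 a2), C * 25 * 257 + 3, by positivity, fun Λ h k hk => ?_⟩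
  simp only [max_le_iff] at hk
  have k0 : (0 : ℝ) < k := by exact_mod_cast (show 0 < k by omega)
  have y0 : 0 < yI φ Λ k := (h.step k (by omega)).1.pos
  have hy : ∀ᶠ N in atTop, ∀ j ∈ Icc a k, |φ.y Λ N j| ≤ 2 * yI φ Λ k * (5 / 4) ^ (k - j) :=
    (eventually_all_finset _).2 fun j hj => by
      have j0 : 0 < yI φ Λ j := (h.step j (mem_Icc.1 hj).1).1.pos
      refine (h.ty j (mem_Icc.1 hj).1).abs.eventually (ge_mem_nhds ?_)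
      rw [abs_of_pos j0]
      linarith [h.y_le hε (mem_Icc.1 hj).1 (mem_Icc.1 hj).2]
  filter_upwards [ev_V h.mem h.cw k, hy, (tendsto_sub_atTop (φ.w * k)).eventually
    (ev_pow_le P.θ0.le P.θ1 B₁ (show 0 < 1 / (k : ℝ) ^ 2 by positivity)),
    KT.ev_abs (h.tx k (by omega)) (show 0 < 1 / (k : ℝ) ^ 2 by positivity)] with N hV n1 n2 n3
  have x1 := hX Λ N k hV hk.2.1 _ (fun j j1 j2 => n1 j (mem_Icc.2 ⟨j1, j2⟩)) (φ.r k) (16 * 2 ^ N)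
    le_rfl (r_le hV.le) le_rfl
  have x2 := mul_le_mul_of_nonneg_left (fac_le hV.le) (show 0 ≤ C * (2 * yI φ Λ k) ^ 2 by positivity)
  have x3 : (2 * yI φ Λ k) ^ 2 ≤ 25 * (1 / (k : ℝ) ^ 2) := by
    have := h.y_small O hε hk.1
    calc _ ≤ (2 * (5 / 2 / (k : ℝ))) ^ 2 := by gcongr
      _ = _ := by ring
  have x4 : B * max P.θ (1 / 2) ^ k ≤ 1 / (k : ℝ) ^ 2 := by
    rw [le_div_iff₀ (by positivity)]; linarith [h2 k hk.2.2]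
  have x5 := mul_le_mul_of_nonneg_left x3 hC
  have e : (C * 25 * 257 + 3) / (k : ℝ) ^ 2 =
    C * (25 * (1 / (k : ℝ) ^ 2)) * 257 + 3 * (1 / (k : ℝ) ^ 2) := by ring
  linarith [abs_sub_le (φ.κ * (Vt Λ (16 * 2 ^ N) (φ.r k) - 2 / π)) (φ.x Λ N k) (xI φ Λ k)]

theorem exists_eps (P : Par) : ∃ ε, 0 < ε ∧ ε ≤ P.ε₀ ∧ KT.om P.C P.d ε ≤ 1 / 1000 := by
  obtain ⟨ε, h0, h⟩ := KT.exists_om_le P.C P.d0 (show (0 : ℝ) < 1 / 1000 by norm_num)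
  exact ⟨min ε P.ε₀, lt_min h0 P.ε0, min_le_right _ _, h _ (lt_min h0 P.ε0).le (min_le_left _ _)⟩

theorem lt_fa2 (h : Λ.Ok) : Λ.τ < (Λ.fa2 h).τ₂ := by
  have := h.2
  change Λ.τ < 2 * Λ.τ
  linarith

/-- (P2) -/
theorem slopeStmt (hO : OddStmt) (hm : T1mStmt) (hd : T1dStmt) (hX : VxStmt) (hD : DnStmt)
    (hM : MoStmt) : Top.SlopeStmt := by
  intro Λ _ hc
  have hΛ := Lat.mem_fa2 hc.1
  set F := Λ.fa2 hc.1
  have h2 : Λ.τ < F.τ₂ := lt_fa2 hc.1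
  obtain ⟨φ, P, O⟩ := hO F (th F) (th_pos hΛ)
  have hκ := O.κ_pos
  have τ0 := hΛ.tau_pos
  have τ2 := hΛ.tau2_pos
  obtain ⟨ε, e0, e1, e2⟩ := exists_eps P
  have e3 : KT.om P.C P.d ε ≤ 1 / 100 := e2.trans (by norm_num)
  obtain ⟨l, a, hI⟩ := (crit_orbit hm hd hX hD O hΛ h2 hc e0 e1).exists
  have I0 : Inf F φ P ε l a Λ := hI.self_of_nhdsWithin Set.self_mem_Ici
  have x0 : Tendsto (xI φ Λ) atTop (𝓝 0) := by simpa [hc.2.1] using I0.lim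
  obtain ⟨a1, C₁, hC₁, hv⟩ := inf_vt hX O e3 l a
  have t1 : Tendsto (fun k : ℕ => C₁ / (k : ℝ) ^ 2) atTop (𝓝 0) :=
    tendsto_const_nhds.div_atTop ((tendsto_pow_atTop two_ne_zero).comp tendsto_natCast_atTop_atTop)
  obtain ⟨a2, h3⟩ := eventually_atTop.1 (t1.eventually
    (ge_mem_nhds (show 0 < φ.κ * (1 / π) by positivity)))
  have t2 : Tendsto (fun μ : ℝ => Λ.τ + μ) (𝓝[>] 0) (𝓝[≥] Λ.τ) := by
    refine tendsto_nhdsWithin_iff.2 ⟨?_, eventually_mem_nhdsWithin.mono fun μ hμ => ?_⟩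
    · simpa using (tendsto_const_nhds (x := Λ.τ)).add (tendsto_id.mono_left
        (nhdsWithin_le_nhds (a := (0 : ℝ)) (s := Set.Ioi 0)))
    · exact Set.mem_Ici.2 (le_add_of_nonneg_right (Set.mem_Ioi.1 hμ).le)
  set b := max (max a 1) (max a1 a2) with hb
  have key := KT.slope (c := φ.κ * (1 / π) ^ 2 / (Λ.τ * F.τ₂)) (C₁ := 2 * C₁) (a := b)
    (X := fun μ => xI φ (Λ.at' (Λ.τ + μ))) (Y := fun μ => yI φ (Λ.at' (Λ.τ + μ)))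
    (L := fun μ => φ.κ * ((Λ.at' (Λ.τ + μ)).gI - 2 / π)) P.C0 P.d0 P.d1 e2 (by positivity)
    (I0.mono (by omega)).step x0 ?_
  · have t3 : Tendsto (fun τ : ℝ => τ - Λ.τ) (𝓝[>] Λ.τ) (𝓝[>] 0) := by
      refine tendsto_nhdsWithin_iff.2 ⟨?_, eventually_mem_nhdsWithin.mono fun τ hτ => ?_⟩
      · simpa using (tendsto_id.mono_left (nhdsWithin_le_nhds (a := Λ.τ)
          (s := Set.Ioi Λ.τ))).sub_const Λ.τ
      · exact sub_pos.2 (show Λ.τ < τ from hτ)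
    refine ((key.comp t3).atTop_div_const hκ).congr fun τ => ?_
    simp only [Function.comp, add_sub_cancel]
    field_simp
  filter_upwards [t2.eventually hI, self_mem_nhdsWithin] with μ I μ0
  have μ0 : 0 < μ := μ0
  refine ⟨(I.mono (by omega)).step, I.lim, fun k hk => ?_⟩
  obtain ⟨N, ⟨n1, n2⟩, n3, n4⟩ := (((hv Λ I0 k (by omega)).and (hv _ I k (by omega))).and
    ((eventually_ge_atTop (φ.w * k)).and
      (tendsto_two_pow.eventually_ge_atTop (2 * Λ.rg + 8)))).exists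
  have m1 := hM Λ (Λ.τ + μ) (16 * 2 ^ N) (φ.r k) hc.1 (by linarith) Nat.one_le_two_pow (r_le n3)
    (by have : 0 < 2 ^ N := by positivity
        omega)
  have n1 := abs_le.1 n1
  have n2 := abs_le.1 n2
  have v1 : 1 / π ≤ Vt Λ (16 * 2 ^ N) (φ.r k) := by
    have := I0.x_nonneg O e3 k (by omega)
    have := h3 k (by omega)
    have e : 2 / π = 2 * (1 / π) := by ring
    rw [e] at n1
    refine le_of_mul_le_mul_left ?_ hκ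
    linarith
  have v2 : μ / (Λ.τ * F.τ₂) ≤ Λ.τ⁻¹ - (Λ.τ + μ)⁻¹ := by
    have : Λ.τ + μ ≤ F.τ₂ := I.mem.tau_le
    rw [inv_sub_inv τ0.ne' (by positivity), add_sub_cancel_left]
    gcongr
  have v3 : (1 / π) ^ 2 * (μ / (Λ.τ * F.τ₂)) ≤
      Vt Λ (16 * 2 ^ N) (φ.r k) ^ 2 * (Λ.τ⁻¹ - (Λ.τ + μ)⁻¹) := by gcongr
  have v4 := mul_le_mul_of_nonneg_left (v3.trans m1) hκ.le
  have k1 : (1 : ℝ) ≤ k := by exact_mod_cast (show 1 ≤ k by omega)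
  have v5 : C₁ / (k : ℝ) ^ 2 ≤ C₁ * (k : ℝ) ^ (-1 - P.d) := by
    rw [div_eq_mul_inv, ← Real.rpow_natCast, ← Real.rpow_neg (by linarith)]
    exact mul_le_mul_of_nonneg_left (Real.rpow_le_rpow_of_exponent_le k1
      (by push_cast; linarith [P.d1])) hC₁
  have e : φ.κ * (1 / π) ^ 2 / (Λ.τ * F.τ₂) * μ = φ.κ * ((1 / π) ^ 2 * (μ / (Λ.τ * F.τ₂))) := by ring
  rw [e]
  nlinarith

end Crest.Agent.T145.Mid
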