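import Crest.Agent.T145.KtL_54

/-!
# Row 145 (helper54): the discrete Kosterlitz-Thouless flow, part M (adapters for the glue)
-/

set_option autoImplicit false

namespace Crest.Agent.T145.KT

open Filter Topology Finset

/-- the cumulative size is dominated by `Abd` -/
theorem sz_le_Abd {C B θ : ℝ} {a K n : ℕ} {x y p q : ℕ → ℝ} (hC : 0 ≤ C) (hB : 0 ≤ B) (hθ : 0 ≤ θ)
    (h1 : a ≤ n) (h2 : n ≤ K) (h0 : 0 ≤ |x n| + y n) (h3 : |x n| + y n ≤ 1) :
    |p n| + |q n| + C * (|x n| + y n) * (B + ∑ j ∈ Icc a K, θ ^ (j - n) * (|p j| + |q j|)) ≤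
      Abd (1 + C) B θ a K x y p q n := by
  have a1 : |p n| + |q n| ≤ ∑ j ∈ Icc a K, θ ^ Nat.dist j n * (|p j| + |q j|) := by
    simpa using single_le_sum (f := fun j => θ ^ Nat.dist j n * (|p j| + |q j|))
      (fun j _ => by positivity) (mem_Icc.2 ⟨h1, h2⟩)
  have a2 : (|x n| + y n) * ∑ j ∈ Icc a K, θ ^ (j - n) * (|p j| + |q j|) ≤
      ∑ j ∈ Icc a K, θ ^ Nat.dist j n * (|p j| + |q j|) +
        (|x n| + y n) * ∑ j ∈ Icc a n, (|p j| + |q j|) := by
    have e : Icc a n = (Icc a K).filter (· ≤ n) := by ext j; simp only [mem_Icc, mem_filter]; omega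
    rw [e, sum_filter, mul_sum, mul_sum, ← sum_add_distrib]
    refine sum_le_sum fun j _ => ?_
    split_ifs with hj
    · rw [show j - n = 0 by omega, pow_zero, one_mul]; exact le_add_of_nonneg_left (by positivity)
    · rw [show Nat.dist j n = j - n by unfold Nat.dist; omega, mul_zero, add_zero]
      exact mul_le_of_le_one_left (by positivity) h3
  have a3 := mul_le_of_le_one_left hB h3
  have a4 : 0 ≤ (|x n| + y n) * ∑ j ∈ Icc a n, (|p j| + |q j|) := by positivity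
  have a5 := mul_le_mul_of_nonneg_left (add_le_add a3 a2) hC
  rw [Abd]; linarith

/-- the standard instance of `Inv` -/
theorem Inv.of_deriv {C δ θ M B τ ε b : ℝ} {a K n : ℕ} {x y : ℝ → ℕ → ℝ} {p q : ℕ → ℝ}
    (O : Orb C δ θ M B τ ε a K (x b) (y b) p q) (h1 : a ≤ n) (h2 : n < K)
    (hx : HasDerivAt (fun b => x b n) (p n) b) (hy : HasDerivAt (fun b => y b n) (q n) b) :
    Inv C δ θ M B τ a K (x b) (y b) p q (fun b => x b n ^ 2 - y b n ^ 2)
      (2 * (x b n * p n - y b n * q n)) b n := by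
  have := (O.st n h1 h2).e_nonneg
  have := (O.st n h1 h2).pos
  have := (O.ln n h1 h2).A_nonneg
  refine ⟨((hx.pow 2).sub (hy.pow 2)).congr_deriv (by simp; ring), ?_, ?_⟩ <;>
    rw [sub_self, abs_zero] <;> positivity

/-- on a rough orbit `y` decays like `1 / n`, uniformly -/
theorem rough_y {C δ ε : ℝ} {x y : ℕ → ℝ} (hC : 0 ≤ C) (hδ : 0 ≤ δ) (hε : om C δ ε ≤ 1 / 100) {a : ℕ}
    (h : ∀ j, a ≤ j → Step C δ x y j ∧ |x j| + y j ≤ ε) (hx : ∀ j, a ≤ j → 0 ≤ x j) (n : ℕ)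
    (hn : a ≤ n) : y n * ((n : ℝ) - a) ≤ 5 / 4 := by
  obtain ⟨L, hL, -, -, hs⟩ := sup hC hδ hε h hx
  suffices k : 4 / 5 * ((n : ℝ) - a) ≤ 1 / y n by
    rw [le_div_iff₀ (h n hn).1.pos] at k; linarith
  induction n, hn using Nat.le_induction with
  | base => simpa using (h a le_rfl).1.pos.le
  | succ n hn ih =>
    obtain ⟨s, hη⟩ := h n hn
    obtain ⟨k1, k2, k3⟩ := hs n hn
    have y0 := s.pos
    have y1 := s.pos'
    have x0 := hx n hn
    have m0 : 0 ≤ min ε (3 * x n) := le_min (s.eta_pos.le.trans hη) (by linarith)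
    have k4 : 30 * om C δ (min ε (3 * x n)) * x n * (x n - L) ≤ 30 * (1 / 100) * x n * x n := by
      have := om_nonneg (δ := δ) hC m0
      have := (om_mono hC hδ m0 (min_le_left _ _)).trans hε
      have := sub_nonneg.2 k1
      gcongr; linarith
    have k5 : y n ≤ 23 / 20 * x n := by
      refine (abs_le_of_sq_le_sq' ?_ (by positivity)).2
      nlinarith [(abs_le.1 k3).1, sq_nonneg L]
    have k6 := (abs_le.1 (St.dy s ((s.w_le hC hδ hη).trans hε) le_rfl)).2
    have k7 := mul_le_mul_of_nonneg_right (k2 n le_rfl) y0.le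
    have k8 := mul_le_mul_of_nonneg_right k5 y0.le
    have k9 : 1 / y n + 4 / 5 ≤ 1 / y (n + 1) := by
      rw [div_add' _ _ _ y0.ne', div_le_div_iff₀ y0 y1]
      nlinarith [mul_pos y0 y0, mul_pos (mul_pos y0 y0) y0]
    push_cast; linarith

end Crest.Agent.T145.KT
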