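import Crest.Agent.T145.MidDef2_76
import Crest.Agent.T145.Soft_23
import Crest.Agent.T145.KtM_54

/-!
# Row 145: base of the middle glue (helper76): windows near the threshold, the soft link, limit orbits
-/

set_option autoImplicit false

namespace Crest.Agent.T145.Mid

open Finset Filter Topology Real

/-- the lower stiffness used for all windows -/
noncomputable def th (F : Fa) : ℝ := 1 / (π * F.τ₂)

theorem th_pos {F : Fa} {Λ : Lat} (h : F.Mem Λ) : 0 < th F := by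
  have := h.tau2_pos; unfold th; positivity

theorem win_of (F : Fa) {δ : ℝ} (hδ : 0 < δ) : ∀ᶠ δ' in 𝓝[>] (0 : ℝ), ∀ Λ, F.Mem Λ → ∀ l j : ℕ,
    Sep δ l (2 ^ j) → 1 / π ≤ Λ.gN (2 ^ (j + 1)) → Λ.gN l - Λ.gN (2 ^ (j + 1)) ≤ δ' →
      Λ.Win (th F) δ l (2 ^ j) := by
  obtain ⟨C, -, hC⟩ := F.exists_bound
  filter_upwards [ev_mul_le C hδ, ev_pos] with δ' h1 h0 Λ hΛ l j hs h2 h3
  have e0 := hΛ.e0_pos
  have e1 := hΛ.e0_ge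
  have e2 := (hC Λ hΛ).2.2.1
  have t2 := hΛ.tau2_pos
  refine ⟨⟨j, rfl⟩, hs, ?_, ?_⟩
  · rw [← pow_succ', ← hΛ.ok.gN_mul, th, ← one_div_mul_one_div]
    exact mul_le_mul h2 e1 (by positivity) (le_trans (by positivity) h2)
  · rw [← pow_succ', ← hΛ.ok.gN_mul, ← hΛ.ok.gN_mul, ← sub_mul]
    nlinarith

theorem cw_of (F : Fa) {δ : ℝ} (hδ : 0 < δ) : ∀ᶠ δ' in 𝓝[>] (0 : ℝ), ∀ Λ, F.Mem Λ → ∀ l j : ℕ,
    Sep δ l (2 ^ j) → |Λ.gN l - 2 / π| ≤ δ' → 2 / π - δ' ≤ Λ.gN (2 ^ (j + 1)) →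
      Cw (th F) δ Λ l j := by
  obtain ⟨δ₁, h1, hw⟩ := exists_of_ev (win_of F hδ)
  filter_upwards [ev_mul_le 2 h1, ev_le hδ, ev_le (show 0 < 1 / π by positivity)] with δ' a1 a2 a3 Λ
    hΛ l j hs h2 h3
  have e : 2 / π = 2 * (1 / π) := by ring
  exact ⟨hw Λ hΛ l j hs (by linarith) (by linarith [(abs_le.1 h2).2]), h2.trans a2⟩

theorem tendsto_gN (hm : T1mStmt) {Λ : Lat} (h : Λ.Ok) : Tendsto Λ.gN atTop (𝓝 Λ.gI) :=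
  (hm.1 Λ h).1.div_const _

theorem cont_gN (hd : T1dStmt) {Λ : Lat} (h : Λ.Ok) (l : ℕ) :
    Tendsto (fun τ => (Λ.at' τ).gN l) (𝓝 Λ.τ) (𝓝 (Λ.gN l)) :=
  (hd.2.2 Λ l h).1.continuousAt (Ioi_mem_nhds h.2)

theorem gN_mono (hd : T1dStmt) {Λ : Lat} (h : Λ.Ok) (l : ℕ) {τ τ' : ℝ} (h0 : 0 < τ) (h1 : τ ≤ τ') :
    (Λ.at' τ).gN l ≤ (Λ.at' τ').gN l :=
  (hd.2.2 Λ l h).2.2 h0 (h0.trans_le h1) h1

/-- lower ends of windows near the threshold -/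
theorem ev_l (hm : T1mStmt) (hd : T1dStmt) {Λ : Lat} (h : Λ.Ok) {δ : ℝ} (hδ : 0 < δ) :
    ∀ᶠ l : ℕ in atTop, (∀ L, l ≤ L → |Λ.gN L - Λ.gI| ≤ δ) ∧
      ∀ᶠ τ in 𝓝 Λ.τ, |(Λ.at' τ).gN l - Λ.gI| ≤ δ := by
  obtain ⟨l₀, h0⟩ := eventually_atTop.1 (KT.ev_abs (tendsto_gN hm h) (half_pos hδ))
  filter_upwards [eventually_ge_atTop l₀] with l hl
  refine ⟨fun L hL => (h0 L (hl.trans hL)).trans (by linarith), ?_⟩
  filter_upwards [KT.ev_abs (cont_gN hd h l) (half_pos hδ)] with τ hτ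
  linarith [abs_sub_le ((Λ.at' τ).gN l) (Λ.gN l) Λ.gI, h0 l hl]

theorem ev_one_le {δ : ℝ} (hδ : 0 < δ) : ∀ᶠ l : ℕ in atTop, 1 ≤ δ * l :=
  (tendsto_natCast_atTop_atTop.const_mul_atTop hδ).eventually_ge_atTop 1

theorem ev_le_pow {δ : ℝ} (hδ : 0 < δ) (l : ℕ) : ∀ᶠ j : ℕ in atTop, (l : ℝ) ≤ δ * ((2 ^ j : ℕ) : ℝ) :=
  ((tendsto_natCast_atTop_atTop.comp tendsto_two_pow).const_mul_atTop hδ).eventually_ge_atTop _

theorem ev_pow_le {θ : ℝ} (h0 : 0 ≤ θ) (h1 : θ < 1) (B : ℝ) {ε : ℝ} (hε : 0 < ε) :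
    ∀ᶠ k : ℕ in atTop, B * θ ^ k ≤ ε := by
  have := (tendsto_pow_atTop_nhds_zero_of_lt_one h0 h1).const_mul B
  rw [mul_zero] at this
  exact this.eventually (ge_mem_nhds hε)

variable {F : Fa} {θ₀ : ℝ} {φ : Fw} {P : Par}

theorem Fw.V.down {Λ : Lat} {l N k j : ℕ} (h : φ.V F θ₀ P Λ l N k) (hj : j ≤ k) :
    φ.V F θ₀ P Λ l N j :=
  ⟨h.1, h.2.1, le_trans (by gcongr) h.2.2⟩

theorem Fw.V.le {Λ : Lat} {l N k : ℕ} (h : φ.V F θ₀ P Λ l N k) : φ.w * k ≤ N :=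
  le_trans (le_add_right (by gcongr; omega)) h.2.2

theorem Odd.κ_pos (O : Odd F θ₀ φ P) : 0 < φ.κ :=
  mul_pos pi_pos (log_pos (one_lt_pow₀ one_lt_two (by have := O.w1; omega)))

theorem Odd.le_mul (O : Odd F θ₀ φ P) (k : ℕ) : k ≤ φ.w * k := Nat.le_mul_of_pos_left k O.w1

theorem Par.max0 (P : Par) : 0 ≤ max P.θ (1 / 2) := le_max_of_le_right (by norm_num)

theorem Par.max1 (P : Par) : max P.θ (1 / 2) < 1 := max_lt P.θ1 (by norm_num)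

theorem ev_V {Λ : Lat} {l : ℕ} (hΛ : F.Mem Λ) (h : ∀ᶠ N in atTop, Cw θ₀ P.δ Λ l N) (k : ℕ) :
    ∀ᶠ N in atTop, φ.V F θ₀ P Λ l N k :=
  (h.and (eventually_ge_atTop _)).mono fun _ hN => ⟨hΛ, hN.1, hN.2⟩

/-- the error factor of `VxStmt` at `ρ = r_k`, `n = 16 · 2 ^ N` -/
theorem fac_le {k N : ℕ} (h : φ.w * k ≤ N) : ((φ.r k : ℝ) / φ.r k *
    (1 + φ.r k * ((16 * 2 ^ N : ℕ) : ℝ) ^ 2 / (2 ^ N) ^ 3)) ≤ 257 := by
  have h0 : (0 : ℝ) < φ.r k := by unfold Fw.r; positivity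
  have h1 : (φ.r k : ℝ) ≤ 2 ^ N := by
    unfold Fw.r; exact_mod_cast Nat.pow_le_pow_right two_pos h
  rw [div_self h0.ne', one_mul]
  have : (φ.r k : ℝ) * ((16 * 2 ^ N : ℕ) : ℝ) ^ 2 / (2 ^ N) ^ 3 ≤ 256 := by
    rw [div_le_iff₀ (by positivity)]
    push_cast
    have : (0 : ℝ) < (2 ^ N) ^ 2 := by positivity
    nlinarith
  linarith

theorem r_le {k N : ℕ} (h : φ.w * k ≤ N) : 16 * φ.r k ≤ 16 * 2 ^ N :=
  Nat.mul_le_mul_left _ (Nat.pow_le_pow_right two_pos h)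

/-- in a good window `x` is the stiffness and `y` is small -/
theorem link (hX : VxStmt) (hD : DnStmt) (O : Odd F θ₀ φ P) (h0 : 0 < θ₀) {ε : ℝ} (hε : 0 < ε) :
    ∃ δ₃, 0 < δ₃ ∧ ∀ l, ∃ m a₁, ∀ Λ N k, φ.V F θ₀ P Λ l N k → a₁ ≤ k → φ.w * k + m ≤ N →
      (∀ j, (l : ℝ) ≤ δ₃ * ((2 ^ j : ℕ) : ℝ) → j ≤ φ.w * k + m → Λ.Win θ₀ δ₃ l (2 ^ j)) →
      |φ.x Λ N k - φ.κ * (Λ.gN l - 2 / π)| ≤ ε ∧ 0 < φ.y Λ N k ∧ φ.y Λ N k ≤ ε := by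
  obtain ⟨C, hC, hX⟩ := hX F θ₀ φ P O
  have hκ := O.κ_pos
  obtain ⟨ε', e0, e1, e2, e3⟩ := exists_of_ev ((ev_le hε).and ((ev_le one_pos).and
    (ev_mul_le (C * 257) (show 0 < ε / 4 by linarith))))
  obtain ⟨δa, ma, ha, hE⟩ := O.ent ε' e0
  obtain ⟨δb, hb, hD⟩ := hD F θ₀ 1 (ε / 4 / φ.κ) h0 le_rfl (by positivity)
  refine ⟨min δa δb, lt_min ha hb, fun l => ?_⟩
  obtain ⟨B₁, -, hX⟩ := hX l
  obtain ⟨a1, hE⟩ := hE l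
  obtain ⟨a2, hp⟩ := O.pos l
  obtain ⟨a3, h3⟩ := eventually_atTop.1 (ev_le_pow (lt_min ha hb) l)
  obtain ⟨a4, B, -, hX⟩ := hX (max a1 (max a2 a3))
  obtain ⟨m1, hm1⟩ := eventually_atTop.1 (ev_pow_le P.θ0.le P.θ1 B₁ (show 0 < ε / 4 by linarith))
  obtain ⟨a5, h5⟩ := eventually_atTop.1 (ev_pow_le P.max0 P.max1 B (show 0 < ε / 4 by linarith))
  refine ⟨max ma m1, max (max a1 (max a2 a3)) (max a4 a5), fun Λ N k hV hk hN hW => ?_⟩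
  simp only [max_le_iff] at hk
  have hy : ∀ j, max a1 (max a2 a3) ≤ j → j ≤ k → 0 < φ.y Λ N j ∧ φ.y Λ N j ≤ ε' := fun j j1 j2 => by
    simp only [max_le_iff] at j1
    obtain ⟨c, c0, hc⟩ := hp j j1.2.1
    have w1 : φ.w * j + ma ≤ φ.w * k + max ma m1 := add_le_add (by gcongr) (le_max_left _ _)
    exact ⟨c0.trans_le (hc Λ N (hV.down j2)), hE Λ N j (hV.down j2) j1.1 (w1.trans hN)
      ((hW _ (h3 _ (le_add_right (j1.2.2.trans (O.le_mul j)))) w1).mono_d (min_le_left _ _))⟩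
  have hk' := hy k (by simp only [max_le_iff]; exact hk.1) le_rfl
  refine ⟨?_, hk'.1, hk'.2.trans e1⟩
  have x1 := hX Λ N k hV hk.2.1 ε' (fun j j1 j2 => by
    rw [abs_of_pos (hy j j1 j2).1]
    exact (hy j j1 j2).2.trans (le_mul_of_one_le_right e0.le (one_le_pow₀ (by norm_num))))
    (φ.r k) (16 * 2 ^ N) le_rfl (r_le hV.le) le_rfl
  have x2 := hD Λ hV.1 l _ ((hW _ (h3 _ (hk.1.2.2.trans (O.le_mul k))) le_self_add).mono_d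
    (min_le_right _ _)) (16 * 2 ^ N) (r_le hV.le)
  have x3 := hm1 (N - φ.w * k) (by have := le_max_right ma m1; omega)
  have x4 := h5 k hk.2.2
  have x5 := mul_le_mul_of_nonneg_left (fac_le hV.le) (show 0 ≤ C * ε' ^ 2 by positivity)
  have x6 : C * ε' ^ 2 * 257 ≤ ε / 4 := by
    have : C * 257 * ε' * ε' ≤ C * 257 * ε' * 1 := by gcongr
    nlinarith
  have x7 : |φ.κ * (Vt Λ (16 * 2 ^ N) (φ.r k) - Λ.gN l)| ≤ ε / 4 := by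
    rw [abs_mul, abs_of_pos hκ, ← le_div_iff₀' hκ]; exact x2
  have x8 := abs_le.1 x1
  have x9 := abs_le.1 x7
  rw [abs_le]; constructor <;> nlinarith

/-! ## limit orbits -/

/-- the infinite volume orbit -/
noncomputable def xI (φ : Fw) (Λ : Lat) (k : ℕ) : ℝ := limUnder atTop fun N => φ.x Λ N k

noncomputable def yI (φ : Fw) (Λ : Lat) (k : ℕ) : ℝ := limUnder atTop fun N => φ.y Λ N k

theorem tendsto_lim {f : ℕ → ℝ} (h : ∀ ε, 0 < ε → ∃ N₀, ∀ N N', N₀ ≤ N → N ≤ N' → |f N - f N'| ≤ ε) :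
    Tendsto f atTop (𝓝 (limUnder atTop f)) := by
  refine CauchySeq.tendsto_limUnder (Metric.cauchySeq_iff'.2 fun ε hε => ?_)
  obtain ⟨N₀, h⟩ := h (ε / 2) (half_pos hε)
  exact ⟨N₀, fun n hn => by
    rw [Real.dist_eq, abs_sub_comm]; exact (h N₀ n le_rfl hn).trans_lt (half_lt_self hε)⟩

theorem tendsto_sub_atTop (c : ℕ) : Tendsto (fun N : ℕ => N - c) atTop atTop :=
  tendsto_atTop.2 fun b => (eventually_ge_atTop (b + c)).mono fun _ h => by omega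

theorem lim (O : Odd F θ₀ φ P) (l : ℕ) : ∃ (a₁ : ℕ) (B : ℝ), ∀ Λ, F.Mem Λ →
    (∀ᶠ N in atTop, Cw θ₀ P.δ Λ l N) → ∀ k, a₁ ≤ k →
      Tendsto (fun N => φ.x Λ N k) atTop (𝓝 (xI φ Λ k)) ∧
      Tendsto (fun N => φ.y Λ N k) atTop (𝓝 (yI φ Λ k)) ∧ 0 < yI φ Λ k ∧
      ∀ N, φ.V F θ₀ P Λ l N k → |φ.x Λ N k - xI φ Λ k| ≤ B * P.θ ^ (N - φ.w * k) := by
  obtain ⟨a1, B, h1⟩ := O.ambx l
  obtain ⟨a2, h2⟩ := O.amby l
  obtain ⟨a3, h3⟩ := O.pos l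
  refine ⟨max a1 (max a2 a3), B, fun Λ hΛ hW k hk => ?_⟩
  simp only [max_le_iff] at hk
  have hV := ev_V (φ := φ) hΛ hW k
  obtain ⟨N₁, hN₁⟩ := eventually_atTop.1 hV
  have tx : Tendsto (fun N => φ.x Λ N k) atTop (𝓝 (xI φ Λ k)) := tendsto_lim fun ε hε => by
    obtain ⟨N₂, hN₂⟩ := eventually_atTop.1
      ((tendsto_sub_atTop (φ.w * k)).eventually (ev_pow_le P.θ0.le P.θ1 B hε))
    exact ⟨max N₁ N₂, fun N N' n1 n2 => (h1 Λ N N' k (hN₁ N (le_of_max_le_left n1))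
      (hN₁ N' ((le_of_max_le_left n1).trans n2)) n2 hk.1).trans (hN₂ N (le_of_max_le_right n1))⟩
  have ty : Tendsto (fun N => φ.y Λ N k) atTop (𝓝 (yI φ Λ k)) := tendsto_lim fun ε hε => by
    obtain ⟨N₂, hN₂⟩ := h2 k hk.2.1 ε hε
    exact ⟨max N₁ N₂, fun N N' n1 n2 => hN₂ Λ N N' (hN₁ N (le_of_max_le_left n1))
      (hN₁ N' ((le_of_max_le_left n1).trans n2)) (le_of_max_le_right n1)
      ((le_of_max_le_right n1).trans n2)⟩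
  obtain ⟨c, c0, hc⟩ := h3 k hk.2.2
  refine ⟨tx, ty, c0.trans_le (ge_of_tendsto ty (hV.mono fun N => hc Λ N)), fun N hN => ?_⟩
  exact le_of_tendsto ((tendsto_const_nhds.sub tx).abs)
    ((hV.and (eventually_ge_atTop N)).mono fun N' h => h1 Λ N N' k hN h.1 h.2 hk.1)

/-- the flow equations are closed under limits -/
theorem st_lim {ι : Type*} {l : Filter ι} [l.NeBot] {e x y x' y' : ι → ℝ} {E X Y X' Y' : ℝ}
    (h : ∀ᶠ i in l, KT.St (e i) (x i) (y i) (x' i) (y' i)) (he : Tendsto e l (𝓝 E))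
    (hx : Tendsto x l (𝓝 X)) (hy : Tendsto y l (𝓝 Y)) (hx' : Tendsto x' l (𝓝 X'))
    (hy' : Tendsto y' l (𝓝 Y')) (h0 : 0 < Y) (h0' : 0 < Y') : KT.St E X Y X' Y' :=
  ⟨h0, h0', le_of_tendsto_of_tendsto (((hx'.sub hx).add (hy.pow 2)).abs) (he.mul (hy.pow 2))
      (h.mono fun _ h => h.hx),
    le_of_tendsto_of_tendsto ((((hy'.log h0'.ne').sub (hy.log h0.ne')).add hx).abs)
      (he.mul (hx.abs.add hy)) (h.mono fun _ h => h.hy)⟩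

theorem tendsto_er {Λ : Lat} {k : ℕ} {X Y : ℝ} (hx : Tendsto (fun N => φ.x Λ N k) atTop (𝓝 X))
    (hy : Tendsto (fun N => φ.y Λ N k) atTop (𝓝 Y)) :
    Tendsto (fun N => φ.er P Λ N k) atTop (𝓝 (P.C * (|X| + Y) ^ P.d)) := by
  have h1 := ((hx.abs.add hy).rpow_const (Or.inr P.d0.le)).add
    ((tendsto_pow_atTop_nhds_zero_of_lt_one P.θ0.le P.θ1).comp (tendsto_sub_atTop (φ.w * k)))
  rw [add_zero] at h1
  exact h1.const_mul P.C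

/-- the limit of small orbits is an orbit -/
theorem lim_step (O : Odd F θ₀ φ P) (l a : ℕ) : ∃ a₁, a ≤ a₁ ∧ ∀ Λ, F.Mem Λ →
    (∀ᶠ N in atTop, Cw θ₀ P.δ Λ l N) → ∀ ε, ε ≤ P.ε₀ →
    (∀ k, a ≤ k → ∀ᶠ N in atTop, φ.η Λ N k ≤ ε) → ∀ k, a₁ ≤ k →
      KT.Step P.C P.d (xI φ Λ) (yI φ Λ) k ∧ |xI φ Λ k| + yI φ Λ k ≤ ε := by
  obtain ⟨a1, B, h1⟩ := lim O l
  obtain ⟨a2, h2⟩ := O.step l a
  refine ⟨max a (max a1 a2), le_max_left _ _, fun Λ hΛ hW ε hε hb k hk => ?_⟩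
  simp only [max_le_iff] at hk
  obtain ⟨t1, t2, t3, -⟩ := h1 Λ hΛ hW k hk.2.1
  obtain ⟨u1, u2, u3, -⟩ := h1 Λ hΛ hW (k + 1) (by omega)
  have hB : ∀ᶠ N in atTop, φ.Ball Λ N P.ε₀ a k := by
    have := (eventually_all_finset (Icc a k)).2 fun j hj => hb j (mem_Icc.1 hj).1
    exact this.mono fun N hN j j1 j2 => (hN j (mem_Icc.2 ⟨j1, j2⟩)).trans hε
  refine ⟨st_lim (((ev_V hΛ hW k).and hB).mono fun N hN => h2 Λ N k hN.1 hk.2.2 hN.2)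
    (tendsto_er t1 t2) t1 t2 u1 u2 t3 u3, le_of_tendsto (t1.abs.add t2) (hb k hk.1)⟩

end Crest.Agent.T145.Mid
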