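import Crest.Agent.T145.MidSc_54
import Crest.Agent.T145.MidA_76
import Crest.Agent.T145.VxDef_35

/-!
# Row 145 (helper54): the critical flow, `Vx.CritXy`
-/

set_option autoImplicit false

namespace Crest.Agent.T145.Mid

open Finset Filter Topology S54 Real

namespace S54

/-- the finite-volume orbit at the threshold -/
theorem crit_orbit {Λ : Lat} (hc : Λ.Crit) {φ : Fw} {P : Par}
    (O : Odd (Λ.fa2 hc.1) (1 / π * (1 / (2 * Λ.τ))) φ P) (hV : VxStmt) (hD : DnStmt) (h1 : T1mStmt)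
    (hd : T1dStmt) : ∃ (l a : ℕ) (C₁ : ℝ), 0 ≤ C₁ ∧ ∀ᶠ k : ℕ in atTop, ∀ᶠ N in atTop,
      φ.V (Λ.fa2 hc.1) (1 / π * (1 / (2 * Λ.τ))) P Λ l N k ∧ φ.Ball Λ N P.ε₀ a k ∧ 0 < φ.y Λ N k ∧
      φ.η Λ N k ≤ 5 / k ∧ |φ.x Λ N k - 1 / k| ≤ C₁ * (k : ℝ) ^ (-1 - P.d) := by
  have θ0 : 0 < 1 / π * (1 / (2 * Λ.τ)) := by have := hc.1.2; positivity
  obtain ⟨ε₁, ε1, hε⟩ := KT.exists_om_le P.C P.d0 (show (0 : ℝ) < 1 / 100 by norm_num)
  have ε0 := lt_min ε1 P.ε0
  obtain ⟨δ₁, δ1, δ2, hb⟩ := ball O θ0 hV hD ε0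
  obtain ⟨-, l, a₀, -, -, -, G, -⟩ := horizon h1 hd hc δ1
  obtain ⟨a₂, c₂, -, hb⟩ := hb l a₀
  have hW : ∀ᶠ N in atTop, Cw (1 / π * (1 / (2 * Λ.τ))) P.δ Λ l N :=
    (eventually_ge_atTop a₀).mono fun N hN => cw_mono ((G N).2 N hN le_rfl) δ2
  have hΛ := Lat.mem_fa2 hc.1
  obtain ⟨a₃, B, hl⟩ := lim O l
  obtain ⟨a₄, -, hs⟩ := lim_step O l a₂
  have hs := hs Λ hΛ hW _ (min_le_right _ _) fun k hk =>
    (eventually_ge_atTop (φ.w * k + c₂)).mono fun N hN => (hb Λ N k (G N) hk hN).2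
  have t0 : Tendsto (xI φ Λ) atTop (𝓝 0) := by
    refine KT.tendsto_of_abs fun t ht => ?_
    obtain ⟨δ₃, δ3, -, hb⟩ := ball O θ0 hV hD ht
    obtain ⟨-, l', a', -, -, -, G', -⟩ := horizon h1 hd hc δ3
    obtain ⟨a₅, c₅, -, hb⟩ := hb l' a'
    filter_upwards [eventually_ge_atTop (a₃ + a₅)] with k hk
    rw [sub_zero]
    refine le_of_tendsto (hl Λ hΛ hW k (by omega)).1.abs
      ((eventually_ge_atTop (φ.w * k + c₅)).mono fun n hn => ?_)
    obtain ⟨b1, b2⟩ := hb _ n k (G' n) (by omega) hn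
    exact (le_add_of_nonneg_right b1.le).trans b2
  obtain ⟨r1, r2, -⟩ := KT.crit P.C0 P.d0 P.d1 (hε _ ε0.le (min_le_left _ _)) hs t0
  obtain ⟨C₁, C1, m, -, hm⟩ := KT.bigO_iff.1 r1
  refine ⟨l, a₂, C₁ + 1, by linarith, ?_⟩
  filter_upwards [eventually_ge_atTop (a₂ + a₃ + m + 1), KT.eventually_le_div P.d0 one_half_pos r1,
    KT.eventually_le_div P.d0 one_half_pos r2] with k hk e1 e2
  have k1 : (1 : ℝ) ≤ k := by exact_mod_cast (show 1 ≤ k by omega)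
  have u0 : 0 < (k : ℝ) ^ (-1 - P.d) := by positivity
  have u1 : (k : ℝ) ^ (-1 - P.d) ≤ 1 / k := by
    rw [one_div, ← rpow_neg_one]; exact rpow_le_rpow_of_exponent_le k1 (by linarith [P.d0])
  obtain ⟨t1, t2, -⟩ := hl Λ hΛ hW k (by omega)
  filter_upwards [ev_V hΛ hW k, eventually_ge_atTop (φ.w * k + c₂), KT.ev_abs t1 u0, KT.ev_abs t2 u0]
    with N n1 n2 n3 n4
  refine ⟨n1, fun j j1 j2 => (hb Λ N j (G N) j1 (by have := mul_gap O.w1 j2; omega)).2.trans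
    (min_le_right _ _), (hb Λ N k (G N) (by omega) n2).1, ?_,
    (abs_sub_le _ (xI φ Λ k) _).trans (by linarith [hm k (by omega)])⟩
  have a1 := abs_le.1 e1
  have a2 := abs_le.1 e2
  have a3 := abs_le.1 n3
  have a4 := abs_le.1 n4
  have e3 : (1 : ℝ) / 2 / k = 1 / 2 * (1 / k) := by ring
  have e4 : (5 : ℝ) / k = 5 * (1 / k) := by ring
  have a5 : |φ.x Λ N k| ≤ 5 / 2 * (1 / k) := by rw [abs_le]; constructor <;> linarith
  rw [Fw.η]; linarith

/-- the index of a scale -/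
theorem index {φ : Fw} (hw : 1 ≤ φ.w) {r : ℕ} (hr : r ≠ 0) :
    φ.r (Nat.log 2 r / φ.w) ≤ r ∧ r ≤ φ.r (Nat.log 2 r / φ.w + 1) :=
  ⟨(Nat.pow_le_pow_right two_pos (Nat.mul_div_le _ _)).trans (Nat.pow_log_le_self 2 hr),
    (Nat.lt_pow_succ_log_self one_lt_two r).le.trans
      (Nat.pow_le_pow_right two_pos (Nat.lt_mul_div_succ _ hw))⟩

theorem log_r (φ : Fw) (k : ℕ) : log (φ.r k) = k * log (2 ^ φ.w) := by
  rw [Fw.r, pow_mul]; push_cast; rw [log_pow]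

end S54

theorem critXy (hO : OpeStmt) (hV : VxStmt) (hD : DnStmt) (h1 : T1mStmt) (hd : T1dStmt) :
    Vx.CritXy := by
  intro b hc
  obtain ⟨φ, P, O, Op⟩ := hO ((xyL b).fa2 hc.1) (1 / π * (1 / (2 * (xyL b).τ))) rfl rfl
    (by have := hc.1.2; positivity)
  obtain ⟨l, a, C₁, C1, H⟩ := crit_orbit hc O hV hD h1 hd
  obtain ⟨a₁, hn⟩ := O.nu l
  obtain ⟨a₂, B₂, hg⟩ := O.gj l
  obtain ⟨a₃, B₃, ho⟩ := Op l a
  obtain ⟨L, hL⟩ : ∃ L, L = log (2 ^ φ.w) := ⟨_, rfl⟩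
  have hκ : φ.κ = π * L := by rw [hL]; rfl
  have L0 : 0 < L := hL ▸ log_pos (one_lt_pow₀ one_lt_two (by have := O.w1; omega))
  have C0 := P.C0
  have d0 := P.d0
  obtain ⟨G, hG⟩ : ∃ G, G = (2 * L) ^ (1 + P.d) := ⟨_, rfl⟩
  have G0 : 0 ≤ G := by rw [hG]; positivity
  have c1 : 0 ≤ 10 * P.C * L := by positivity
  have c2 : 0 ≤ (C₁ + 25 * P.C + 3) / (π * L) * G := by positivity
  have c3 : 0 ≤ (P.C * 5 ^ (1 + P.d) + 1) * G := by positivity
  refine ⟨2 ^ P.s, 10 * P.C * L + (C₁ + 25 * P.C + 3) / (π * L) * G + (P.C * 5 ^ (1 + P.d) + 1) * G,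
    P.d, d0, ?_⟩
  have tk : Tendsto (fun r => Nat.log 2 r / φ.w) atTop atTop := tendsto_atTop.2 fun n =>
    (eventually_ge_atTop (2 ^ (n * φ.w))).mono fun r hr =>
      (Nat.le_div_iff_mul_le O.w1).2 (Nat.le_log_of_pow_le one_lt_two hr)
  filter_upwards [tk.eventually (H.and ((eventually_ge_atTop (a₁ + a₂ + a₃ + 1)).and
    (KT.eventually_geom P.θ0.le P.θ1 |B₂| 0))), eventually_ne_atTop 0] with r ⟨H, hk, hθ⟩ hr
  obtain ⟨r1, r2⟩ := index O.w1 hr
  generalize Nat.log 2 r / φ.w = k at *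
  have k1 : (1 : ℝ) ≤ k := by exact_mod_cast (show 1 ≤ k by omega)
  have rp : ∀ j, (0 : ℝ) < φ.r j := fun j => by exact_mod_cast Nat.two_pow_pos _
  have r0 : (0 : ℝ) < r := by positivity
  have t1 : k * L ≤ log r := by
    rw [hL, ← log_r]; exact log_le_log (rp k) (by exact_mod_cast r1)
  have t2 : log r ≤ (k + 1) * L := by
    have := log_le_log r0 (show (r : ℝ) ≤ φ.r (k + 1) by exact_mod_cast r2)
    rwa [log_r, ← hL, Nat.cast_succ] at this
  have t0 : 0 < log r := lt_of_lt_of_le (by positivity) t1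
  have t3 : log r / (2 * L) ≤ k := by rw [div_le_iff₀ (by positivity)]; nlinarith
  obtain ⟨u, hu⟩ : ∃ u, u = (k : ℝ) ^ (-1 - P.d) := ⟨_, rfl⟩
  have u0 : 0 < u := by rw [hu]; positivity
  have u1 : u ≤ G * log r ^ (-1 - P.d) := by
    rw [hu, hG]
    refine (rpow_le_rpow_of_nonpos (by positivity) t3 (by linarith)).trans (le_of_eq ?_)
    rw [div_rpow t0.le (by positivity), show -1 - P.d = -(1 + P.d) by ring,
      rpow_neg (show 0 ≤ 2 * L by positivity), div_inv_eq_mul, mul_comm]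
  have u2 : 1 / (k : ℝ) ^ 2 ≤ u := by
    rw [hu, one_div, ← rpow_two, ← rpow_neg (by linarith)]
    exact rpow_le_rpow_of_exponent_le k1 (by linarith [P.d1])
  have v0 : 0 ≤ log r ^ (-1 - P.d) := by positivity
  obtain ⟨N, ⟨n1, n2, n3, n4, n5⟩, n6, n7⟩ := (H.and
    (((tendsto_sub_atTop_nat (φ.w * k)).eventually (exists_pow (B := B₂) P.θ0.le P.θ1 u0)).and
      ((tendsto_sub_atTop_nat (φ.w * k)).eventually (exists_pow (B := B₃) P.θ0.le P.θ1 u0)))).exists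
  rw [← hu] at n5
  have y1 : φ.y (xyL b) N k ≤ 5 / k := (le_add_of_nonneg_left (abs_nonneg _)).trans n4
  have e1 : P.C * φ.η (xyL b) N k ^ (1 + P.d) ≤ P.C * 5 ^ (1 + P.d) * u := by
    rw [mul_assoc]
    refine mul_le_mul_of_nonneg_left ((rpow_le_rpow (add_nonneg (abs_nonneg _) n3.le) n4
      (by linarith)).trans (le_of_eq ?_)) C0
    rw [div_rpow (by norm_num) (by linarith), hu, show -1 - P.d = -(1 + P.d) by ring,
      rpow_neg (by linarith), div_eq_mul_inv]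
  have e2 := mul_le_mul_of_nonneg_left u1 (show 0 ≤ P.C * 5 ^ (1 + P.d) + 1 by positivity)
  have p1 := mul_nonneg c1 v0
  have p2 := mul_nonneg c2 v0
  have p3 := mul_nonneg c3 v0
  refine ⟨fun z c h => (hn _ N k n1 (by omega) r c z r1 r2 h).trans ?_, ⟨2 ^ N, fun m z h => ?_⟩, ?_⟩
  · rw [mul_comm _ (log r), ← div_div]
    refine div_le_div_of_nonneg_right ?_ (sq_nonneg _)
    rw [le_div_iff₀ t0]
    have : φ.y (xyL b) N k * log r ≤ 5 / k * (k * (2 * L)) := by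
      rw [div_le_iff₀ (by positivity)] at t3; gcongr
    rw [show 5 / (k : ℝ) * (k * (2 * L)) = 10 * L by field_simp; ring] at this
    nlinarith
  · have g := hg _ N k n1 (by omega) r m z r1 r2 h
    have g1 : P.C * φ.y (xyL b) N k ^ 2 ≤ P.C * (25 * u) := by
      refine mul_le_mul_of_nonneg_left ((pow_le_pow_left₀ n3.le y1 2).trans ?_) C0
      rw [show (5 / (k : ℝ)) ^ 2 = 25 * (1 / k ^ 2) by ring]; linarith
    have g2 : B₂ * P.θ ^ k ≤ u := by
      refine le_trans ?_ ((hθ.trans (show _ ≤ 1 / (k : ℝ) ^ 2 by gcongr; norm_num)).trans u2)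
      rw [pow_zero, mul_one]
      exact mul_le_mul (le_abs_self _) (pow_le_pow_of_le_one P.θ0.le P.θ1.le (by omega))
        (pow_nonneg P.θ0.le _) (abs_nonneg _)
    have g3 : |1 / (k : ℝ) - L / log r| ≤ u := by
      refine le_trans ?_ u2
      rw [show 1 / (k : ℝ) - L / log r = (log r - k * L) / (k * log r) by field_simp, abs_div,
        abs_of_nonneg (sub_nonneg.2 t1), abs_of_pos (by positivity), div_le_div_iff₀ (by positivity)
        (by positivity)]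
      nlinarith [mul_le_mul_of_nonneg_left t1 (show (0 : ℝ) ≤ k by linarith),
        mul_le_mul_of_nonneg_right (show log r - k * L ≤ L by linarith) (sq_nonneg (k : ℝ))]
    have g4 : |π * L * (gJ (m.W 0) z r - (2 / π + 1 / (π * log r)))| ≤ (C₁ + 25 * P.C + 3) * u := by
      rw [show π * L * (gJ (m.W 0) z r - (2 / π + 1 / (π * log r))) =
        π * L * (gJ (m.W 0) z r - 2 / π) - L / log r by field_simp; ring]
      rw [hκ] at g
      have := abs_le.1 g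
      have := abs_le.1 g3
      have := abs_le.1 n5
      rw [abs_le]; constructor <;> linarith
    rw [abs_mul, abs_of_pos (by positivity), ← le_div_iff₀' (by positivity), mul_div_right_comm] at g4
    have := mul_le_mul_of_nonneg_left u1 (show 0 ≤ (C₁ + 25 * P.C + 3) / (π * L) by positivity)
    linarith
  · obtain ⟨α, ξ, s1, s2, s3⟩ := ho _ N k n1 (by omega) n2 r r1 r2
    exact ⟨α, ξ, 2 ^ N, s1, s2, fun z => ⟨fun c h => ((s3 z).1 c h).trans
      (div_le_div_of_nonneg_right (by linarith) (sq_nonneg _)), fun m h => ((s3 z).2 m h).trans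
      (div_le_div_of_nonneg_right (by linarith) (sq_nonneg _))⟩⟩

end Crest.Agent.T145.Mid
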