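import Crest.Agent.T145.MidSc_54

/-!
# Row 145 (helper54): the exit scale below the threshold, `Top.ScaleStmt`
-/

set_option autoImplicit false

namespace Crest.Agent.T145.Mid

open Finset Filter Topology S54

namespace S54

/-- the orbit is not small at the horizon -/
theorem exit {F : Fa} {θ₀ δ' : ℝ} {φ : Fw} {P : Par} (O : Odd F θ₀ φ P) (hV : VxStmt) (hU : UpStmt)
    (hδ : 0 < δ') (l a : ℕ) : ∃ k₀ K₀ : ℕ, ∀ c : ℕ, ∃ ε₂, 0 < ε₂ ∧ ∀ Λ N K, φ.V F θ₀ P Λ l N K →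
      K₀ ≤ K → φ.w * K + k₀ ≤ N → N ≤ φ.w * K + c → 0 < φ.y Λ N K →
      (∀ j, a ≤ j → j < K → |φ.y Λ N j| ≤ 5 / 4 * φ.y Λ N (j + 1)) →
      Λ.gN (2 ^ (N + 2)) ≤ 2 / Real.pi - δ' → ε₂ ≤ φ.η Λ N K := by
  obtain ⟨C, C0, hv⟩ := hV F θ₀ φ P O
  obtain ⟨B₁, B1, hv⟩ := hv l
  obtain ⟨a₁, B, B0, hv⟩ := hv a
  have κ0 := kappa_pos O.w1
  obtain ⟨δ, δ0, hu⟩ := hU F (δ' / 4) (by positivity)
  obtain ⟨m, hm⟩ := exists_nat_ge (1 / δ)
  rw [div_le_iff₀ δ0] at hm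
  have m1 : 1 ≤ m := Nat.one_le_iff_ne_zero.2 fun h => by rw [h] at hm; norm_num at hm
  have t0 : 0 < φ.κ * δ' / 16 := by positivity
  obtain ⟨k₁, h₁⟩ := eventually_atTop.1 (exists_pow (B := B) (le_max_of_le_left P.θ0.le)
    (max_lt P.θ1 (show (1 / 2 : ℝ) < 1 by norm_num)) t0)
  obtain ⟨k₂, h₂⟩ := eventually_atTop.1 (exists_pow (B := B₁) P.θ0.le P.θ1 t0)
  refine ⟨k₂ + m, a₁ + k₁, fun c => ?_⟩
  obtain ⟨E, hE⟩ : ∃ E : ℝ, E = 4 * m * 2 ^ c * (1 + 256 * (4 * m) ^ 3) := ⟨_, rfl⟩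
  have E0 : 0 ≤ E := by rw [hE]; positivity
  refine ⟨min 1 (φ.κ * δ' / 8 / (C * E + 1)), by positivity, fun Λ N K hK K1 N1 N2 y0 hy hg => ?_⟩
  by_contra hc
  obtain ⟨c1, c2⟩ := lt_min_iff.1 (not_le.1 hc)
  rw [lt_div_iff₀ (by positivity)] at c2
  have hY : ∀ j, j ≤ K → a ≤ j → |φ.y Λ N j| ≤ φ.y Λ N K * (5 / 4) ^ (K - j) := fun j j2 => by
    induction j2 using Nat.decreasingInduction with
    | self => intro _; simp [abs_of_pos y0]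
    | of_succ i hi ih =>
      intro j1
      rw [show K - i = K - (i + 1) + 1 by omega, pow_succ, ← mul_assoc]
      linarith [hy i j1 hi, ih (by omega), le_abs_self (φ.y Λ N (i + 1))]
  have r1 : φ.r K ≤ 2 ^ N := Nat.pow_le_pow_right two_pos (by omega)
  have r2 : 2 ^ N ≤ 4 * m * 2 ^ N := Nat.le_mul_of_pos_left _ (by omega)
  have k1 := hv Λ N K hK (by omega) _ (fun j j1 j2 => hY j j2 j1) (4 * m * 2 ^ N) (16 * (4 * m * 2 ^ N))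
    (r1.trans r2) le_rfl (by omega)
  have k2 := hu Λ hK.1 (2 ^ (N + 2)) (4 * m * 2 ^ N) _ ⟨by
    have : m ≤ 2 ^ (N + 2) := (Nat.lt_two_pow_self.le).trans (Nat.pow_le_pow_right two_pos (by omega))
    have : (m : ℝ) ≤ (2 ^ (N + 2) : ℕ) := by exact_mod_cast this
    nlinarith, by
    push_cast
    have : (0 : ℝ) < 2 ^ N := by positivity
    rw [pow_add]; nlinarith⟩ le_rfl
  have k3 : ((4 * m * 2 ^ N : ℕ) : ℝ) / φ.r K * (1 + (4 * m * 2 ^ N : ℕ) *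
      ((16 * (4 * m * 2 ^ N) : ℕ) : ℝ) ^ 2 / (2 ^ N) ^ 3) ≤ E := by
    have a1 : (0 : ℝ) < φ.r K := by exact_mod_cast Nat.two_pow_pos _
    have a2 : (2 : ℝ) ^ N ≤ 2 ^ c * φ.r K := by
      rw [Fw.r]; push_cast; rw [← pow_add]; exact pow_le_pow_right₀ one_le_two (by omega)
    rw [hE]
    refine mul_le_mul ?_ (le_of_eq ?_) (by positivity) (by positivity)
    · rw [div_le_iff₀ a1, mul_assoc (4 * (m : ℝ))]; push_cast; gcongr
    · push_cast; field_simp; ring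
  have k4 := mul_le_mul_of_nonneg_left k3 (show 0 ≤ C * φ.y Λ N K ^ 2 by positivity)
  have k5 := h₁ K (by omega)
  have k6 := h₂ (N - φ.w * K) (by omega)
  have k7 := mul_le_mul_of_nonneg_left (k2.trans (add_le_add_left hg _)) κ0.le
  have x0 := abs_nonneg (φ.x Λ N K)
  have x1 := neg_abs_le (φ.x Λ N K)
  have k8 : C * E * φ.y Λ N K ^ 2 ≤ C * E * φ.η Λ N K := by
    rw [Fw.η] at c1 ⊢; gcongr; nlinarith
  have k9 : 0 ≤ C * E * φ.η Λ N K := le_trans (by positivity) k8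
  have := (abs_le.1 k1).1
  rw [Fw.η] at *
  linarith

/-- from the flow horizon to dyadic scales -/
theorem log_scale {bc A : ℝ} {w c : ℕ} {N K : ℝ → ℕ}
    (h : Tendsto (fun b => √(bc - b) * K b) (𝓝[<] bc) (𝓝 A))
    (hN : ∀ᶠ b in 𝓝[<] bc, w * K b ≤ N b ∧ N b ≤ w * K b + c) (i : ℕ) :
    Tendsto (fun b => √(bc - b) * Real.log ((2 ^ (N b + i) : ℕ) : ℝ)) (𝓝[<] bc)
      (𝓝 (A * w * Real.log 2)) := by
  have t0 : Tendsto (fun b => √(bc - b)) (𝓝[<] bc) (𝓝 0) := by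
    simpa using (((tendsto_id (x := 𝓝 bc)).const_sub bc).mono_left nhdsWithin_le_nhds).sqrt
  have t1 : Tendsto (fun b => √(bc - b) * ((N b + i : ℕ) : ℝ)) (𝓝[<] bc) (𝓝 (A * w)) := by
    have u := (h.mul_const (w : ℝ)).add (t0.mul_const ((c : ℝ) + i))
    rw [zero_mul, add_zero] at u
    refine tendsto_of_tendsto_of_tendsto_of_le_of_le' (h.mul_const (w : ℝ)) u
      (hN.mono fun b k => ?_) (hN.mono fun b k => ?_)
    · have : ((w * K b : ℕ) : ℝ) ≤ (N b + i : ℕ) := by exact_mod_cast (show _ ≤ _ by omega)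
      rw [mul_assoc]; gcongr; rwa [Nat.cast_mul, mul_comm] at this
    · have : ((N b + i : ℕ) : ℝ) ≤ (w * K b + c + i : ℕ) := by exact_mod_cast (show _ ≤ _ by omega)
      rw [mul_assoc, ← mul_add]; gcongr; push_cast at this ⊢; linarith
  refine (t1.mul_const _).congr fun b => ?_
  rw [Nat.cast_pow, Real.log_pow, mul_assoc]; norm_num

end S54

theorem scaleStmt (hL : LinStmt) (hV : VxStmt) (hU : UpStmt) (hD : DnStmt) (h1 : T1mStmt)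
    (hd : T1dStmt) : Top.ScaleStmt := by
  intro bc hc
  have bc0 : 0 < bc := hc.1.2
  obtain ⟨θ₀, hθ₀⟩ : ∃ θ₀, θ₀ = 1 / Real.pi * (1 / (2 * bc)) := ⟨_, rfl⟩
  have θ₀0 : 0 < θ₀ := by have := Real.pi_pos; rw [hθ₀]; positivity
  obtain ⟨F, hF⟩ : ∃ F, F = (xyL bc).fa2 hc.1 := ⟨_, rfl⟩
  have hor : ∀ δ, 0 < δ → ∃ (δ' : ℝ) (l a : ℕ) (N : ℝ → ℕ), 0 < δ' ∧ Tendsto N (𝓝[<] bc) atTop ∧
      (∀ n, Aw F θ₀ δ (xyL bc) l a n) ∧ ∀ᶠ b₀ in 𝓝[<] bc,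
      (∀ b ∈ Set.Icc b₀ bc, Aw F θ₀ δ (xyL b) l a (N b₀)) ∧ δ' ≤ (xyL b₀).gN (2 ^ (N b₀ + 1)) ∧
      (xyL b₀).gN (2 ^ (N b₀ + 2)) ≤ 2 / Real.pi - δ' := fun δ hδ => by
    rw [hF, hθ₀]; exact horizon h1 hd hc hδ
  obtain ⟨φ, P, P', p, q, O, L⟩ := hL F θ₀ (hF ▸ rfl) (hF ▸ rfl) θ₀0
  have w1 := O.w1
  have C0 : 0 ≤ max P.C P'.C := le_max_of_le_left P.C0
  have d0 : 0 < min P.d P'.d := lt_min P.d0 P'.d0
  have θ0 : 0 ≤ max P.θ P'.θ := le_max_of_le_left P.θ0.le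
  have θ1 : max P.θ P'.θ < 1 := max_lt P.θ1 P'.θ1
  obtain ⟨ε₁, ε1, hprm⟩ := KT.exists_prm C0 d0 (min_lt_of_left_lt P.d1) θ0 θ1 P'.C0
  obtain ⟨ε, ε0, e1, e2, e3, e4⟩ : ∃ ε, 0 < ε ∧ ε ≤ ε₁ ∧ ε ≤ 1 ∧ ε ≤ P.ε₀ ∧ ε ≤ P'.ε₀ :=
    ⟨min (min ε₁ 1) (min P.ε₀ P'.ε₀), lt_min (lt_min ε1 one_pos) (lt_min P.ε0 P'.ε0),
      (min_le_left _ _).trans (min_le_left _ _), (min_le_left _ _).trans (min_le_right _ _),
      (min_le_right _ _).trans (min_le_left _ _), (min_le_right _ _).trans (min_le_right _ _)⟩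
  obtain ⟨δ₁, δ1, δ2, hball⟩ := ball O θ₀0 hV hD ε0
  obtain ⟨δ', l, a₀, N, δ'0, tN, Gc, hG⟩ := hor (min δ₁ P'.δ) (lt_min δ1 P'.δ0)
  obtain ⟨a₂, c₂, a2, hball⟩ := hball l a₀
  obtain ⟨s₁, hstep⟩ := O.step l a₂
  obtain ⟨c, c0, hlin⟩ := L.lin
  obtain ⟨s₂, hlin⟩ := hlin l a₂
  obtain ⟨s₃, hder⟩ := L.der l
  obtain ⟨s₄, hamb⟩ := L.amb l a₂
  obtain ⟨s₅, B₅, hax⟩ := O.ambx l
  obtain ⟨s₆, hay⟩ := O.amby l
  obtain ⟨s₇, hpos⟩ := O.pos l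
  obtain ⟨a, ha⟩ : ∃ a, a = a₂ + s₁ + s₂ + s₃ + s₄ + s₅ + s₆ + s₇ + 1 := ⟨_, rfl⟩
  obtain ⟨B, B0, hlin⟩ := hlin a (by omega)
  obtain ⟨k₁, K₀, hexit⟩ := S54.exit O hV hU δ'0 l a
  obtain ⟨k₀, hk₀⟩ := (exists_pow (B := max P.C P'.C) θ0 θ1 ε1).exists
  obtain ⟨c₀, hc₀⟩ : ∃ c₀, c₀ = c₂ + φ.w + P.s + P'.s + k₀ + k₁ := ⟨_, rfl⟩
  obtain ⟨ε₂, ε2, hexit⟩ := hexit (c₀ + φ.w)
  have prm := hprm B _ ε B0 (by positivity) hk₀ ε0 e1
  have vP : ∀ b n k, Aw F θ₀ (min δ₁ P'.δ) (xyL b) l a₀ n → a₂ ≤ k → φ.w * k + c₀ ≤ n →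
      φ.V F θ₀ P (xyL b) l n k ∧ φ.V F θ₀ P' (xyL b) l n k ∧ 0 < φ.y (xyL b) n k ∧
      ∀ e, ε ≤ e → φ.Ball (xyL b) n e a₂ k := fun b n k A k1 k2 => by
    have := mul_gap w1 (Nat.zero_le k)
    have W := A.2 n (by omega) le_rfl
    refine ⟨⟨A.1, cw_mono W ((min_le_left _ _).trans δ2), by rw [mul_add]; omega⟩,
      ⟨A.1, cw_mono W (min_le_right _ _), by rw [mul_add]; omega⟩,
      (hball _ n k (A.mono (min_le_left _ _)) k1 (by omega)).1, fun e he j j1 j2 => ?_⟩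
    have := mul_gap w1 j2
    exact (hball _ n j (A.mono (min_le_left _ _)) j1 (by omega)).2.trans he
  have orb : ∀ b n K, Aw F θ₀ (min δ₁ P'.δ) (xyL b) l a₀ n → φ.w * K + c₀ ≤ n →
      KT.Orb (max P.C P'.C) (min P.d P'.d) (max P.θ P'.θ) P'.C B (max P.C P'.C * max P.θ P'.θ ^ k₀) ε a K
        (φ.x (xyL b) n) (φ.y (xyL b) n) (p (xyL b) n) (q (xyL b) n) ∧ ∀ j, a ≤ j → j < K →
      c - KT.er (max P.C P'.C) (min P.d P'.d) (max P.θ P'.θ) (max P.C P'.C * max P.θ P'.θ ^ k₀) K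
        (φ.x (xyL b) n) (φ.y (xyL b) n) j * (1 + KT.Abd P'.C B (max P.θ P'.θ) a K (φ.x (xyL b) n)
          (φ.y (xyL b) n) (p (xyL b) n) (q (xyL b) n) j) ≤ p (xyL b) n j := fun b n K A hK => by
    have v : ∀ j, a ≤ j → j ≤ K → _ := fun j j1 j2 =>
      vP b n j A (by omega) (by have := mul_gap w1 j2; omega)
    have hη : ∀ j, a ≤ j → j ≤ K → 0 ≤ φ.η (xyL b) n j ∧ φ.η (xyL b) n j ≤ 1 ∧
        k₀ + (K - j) ≤ n - φ.w * j := fun j j1 j2 =>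
      ⟨add_nonneg (abs_nonneg _) (v j j1 j2).2.2.1.le, (v j j1 j2).2.2.2 1 e2 j (by omega) le_rfl,
        by have := mul_gap w1 j2; omega⟩
    have e' : ∀ j, a ≤ j → j < K → _ := fun j j1 j2 => er_le (P := P') (le_max_right P.C _) d0.le
      (min_le_right _ _) (le_max_right P.θ _) θ1.le (hη j j1 j2.le).1 (hη j j1 j2.le).2.1 (hη j j1 j2.le).2.2
    have ln : ∀ j, a ≤ j → j < K → _ := fun j j1 j2 => hlin (xyL b) n K j (v K (by omega) le_rfl).2.1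
      ((v K (by omega) le_rfl).2.2.2 _ e4) j1 j2
    refine ⟨⟨fun j j1 j2 => (v j j1 j2).2.2.2 ε le_rfl j (by omega) le_rfl, fun j j1 j2 =>
      (hstep _ n j (v j j1 j2.le).1 (by omega) ((v j j1 j2.le).2.2.2 _ e3)).mono
        (er_le (le_max_left _ _) d0.le (min_le_left _ _) (le_max_left _ _) θ1.le (hη j j1 j2.le).1
          (hη j j1 j2.le).2.1 (hη j j1 j2.le).2.2).2, fun j j1 j2 => (ln j j1 j2).1.mono
      (v j j1 j2.le).2.2.1.le (e' j j1 j2).1 (e' j j1 j2).2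
      (Abd_mono P'.C0 P'.θ0.le (le_max_right _ _))⟩, fun j j1 j2 => le_trans (sub_le_sub_left
        (mul_le_mul (e' j j1 j2).2 (add_le_add_right (Abd_mono P'.C0 P'.θ0.le (le_max_right _ _)) 1)
          (add_nonneg zero_le_one (ln j j1 j2).1.A_nonneg) ((e' j j1 j2).1.trans (e' j j1 j2).2)) c) (ln j j1 j2).2⟩
  obtain ⟨K, hKd⟩ : ∃ K : ℝ → ℕ, ∀ b, K b = (N b - c₀) / φ.w := ⟨_, fun _ => rfl⟩
  have hK : ∀ᶠ b₀ in 𝓝[<] bc, φ.w * K b₀ + c₀ ≤ N b₀ ∧ N b₀ ≤ φ.w * K b₀ + (c₀ + φ.w) :=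
    (tN.eventually_ge_atTop c₀).mono fun b₀ k => by
      have := Nat.div_add_mod (N b₀ - c₀) φ.w
      have := Nat.mod_lt (N b₀ - c₀) w1
      rw [hKd]; omega
  have tK : Tendsto K (𝓝[<] bc) atTop := tendsto_atTop.2 fun n =>
    (tN.eventually_ge_atTop (n * φ.w + c₀)).mono fun b₀ k => by
      rw [hKd, Nat.le_div_iff_mul_le w1]; omega
  have ul : ∀ k, a ≤ k → ∀ f : Lat → ℕ → ℝ, (∀ t, 0 < t → ∃ N₀, ∀ Λ n n', φ.V F θ₀ P Λ l n k →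
      φ.V F θ₀ P Λ l n' k → φ.V F θ₀ P' Λ l n k → φ.V F θ₀ P' Λ l n' k → φ.Ball Λ n P'.ε₀ a₂ k →
      φ.Ball Λ n' P'.ε₀ a₂ k → N₀ ≤ n → n ≤ n' → |f Λ n - f Λ n'| ≤ t) →
      (∀ n, φ.V F θ₀ P' (xyL bc) l n k → ContinuousAt (fun b => f (xyL b) n) bc) →
      ∃ L, Tendsto (f (xyL bc)) atTop (𝓝 L) ∧ ∀ t, 0 < t → ∀ᶠ b₀ in 𝓝[<] bc, ∀ b ∈ Set.Icc b₀ bc,
        |f (xyL b) (N b₀) - L| ≤ t := fun k hk f f1 f2 =>
    ulim (f := fun b n => f (xyL b) n) (fun _ _ _ A hn => A.anti hn) Gc tN (hG.mono fun _ k => k.1)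
      (fun t ht => by
        obtain ⟨N₀, f1⟩ := f1 t ht
        refine ⟨N₀ + (φ.w * k + c₀), fun b n n' A A' n1 n2 => ?_⟩
        obtain ⟨v1, v2, -, v3⟩ := vP b n k A (by omega) (by omega)
        obtain ⟨v4, v5, -, v6⟩ := vP b n' k A' (by omega) (by omega)
        exact f1 _ n n' v1 v4 v2 v5 (v3 _ e4) (v6 _ e4) (by omega) n2)
      ((eventually_ge_atTop (φ.w * k + c₀)).mono fun n hn => f2 n (vP bc n k (Gc n) (by omega) hn).2.1)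
  choose! X hX using fun k hk => ul k hk (fun Λ n => φ.x Λ n k) (fun t ht => by
      obtain ⟨N₀, h⟩ := eventually_atTop.1 (exists_pow (B := B₅) P.θ0.le P.θ1 ht)
      exact ⟨N₀ + φ.w * k, fun Λ n n' v1 v2 _ _ _ _ n1 n2 =>
        (hax Λ n n' k v1 v2 n2 (by omega)).trans (h _ (by omega))⟩)
    fun n v => (hder _ n k v (by omega)).1.continuousAt
  choose! Y hY using fun k hk => ul k hk (fun Λ n => φ.y Λ n k) (fun t ht => by
      obtain ⟨N₀, h⟩ := hay k (by omega) t ht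
      exact ⟨N₀, fun Λ n n' v1 v2 _ _ _ _ n1 n2 => h Λ n n' v1 v2 n1 (by omega)⟩)
    fun n v => (hder _ n k v (by omega)).2.1.continuousAt
  choose! P₀ hP using fun k hk => ul k hk (fun Λ n => p Λ n k) (fun t ht => by
      obtain ⟨N₀, h⟩ := hamb k (by omega) t ht
      exact ⟨N₀, fun Λ n n' _ _ v1 v2 v3 v4 n1 n2 => (le_add_of_nonneg_right (abs_nonneg _)).trans
        (h Λ n n' v1 v2 v3 v4 n1 (by omega))⟩)
    fun n v => (hder _ n k v (by omega)).2.2.1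
  choose! Q₀ hQ using fun k hk => ul k hk (fun Λ n => q Λ n k) (fun t ht => by
      obtain ⟨N₀, h⟩ := hamb k (by omega) t ht
      exact ⟨N₀, fun Λ n n' _ _ v1 v2 v3 v4 n1 n2 => (le_add_of_nonneg_left (abs_nonneg _)).trans
        (h Λ n n' v1 v2 v3 v4 n1 (by omega))⟩)
    fun n v => (hder _ n k v (by omega)).2.2.2
  have fam : KT.Fam (max P.C P'.C) (min P.d P'.d) (max P.θ P'.θ) P'.C B
      (max P.C P'.C * max P.θ P'.θ ^ k₀) ε ε₂ c |B₅| bc 0 a K (fun b₀ b => φ.x (xyL b) (N b₀))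
      (fun b₀ b => φ.y (xyL b) (N b₀)) (fun b₀ b => p (xyL b) (N b₀)) (fun b₀ b => q (xyL b) (N b₀))
      (fun b₀ b n => φ.x (xyL b) (N b₀) n ^ 2 - φ.y (xyL b) (N b₀) n ^ 2)
      (fun b₀ b n => 2 * (φ.x (xyL b) (N b₀) n * p (xyL b) (N b₀) n -
        φ.y (xyL b) (N b₀) n * q (xyL b) (N b₀) n)) X Y P₀ Q₀ := by
    refine ⟨prm, by omega, c0, ε2, ?_, fun n hn t ht => ?_, tK, ?_, ?_, ?_, ?_, ?_⟩
    · filter_upwards [hG, hK] with b₀ k1 k2 b hb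
      have o := (orb b _ _ (k1.1 b hb) k2.1).1
      refine ⟨o, fun n n1 n2 => ?_⟩
      have := mul_gap w1 n2.le
      have d := hder _ _ n (vP b _ n (k1.1 b hb) (by omega) (by omega)).2.1 (by omega)
      exact KT.Inv.of_deriv (x := fun b => φ.x (xyL b) (N b₀)) (y := fun b => φ.y (xyL b) (N b₀))
        o n1 n2 d.1 d.2.1
    · filter_upwards [(hX n hn).2 t ht, (hY n hn).2 t ht, (hP n hn).2 t ht, (hQ n hn).2 t ht]
        with b₀ k1 k2 k3 k4 b hb using ⟨k1 b hb, k2 b hb, k3 b hb, k4 b hb⟩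
    · filter_upwards [hK] with b₀ k2 n n1 n2
      have := mul_gap w1 n2
      rw [pow_zero, mul_one]
      refine (le_of_tendsto ((hX n n1).1.const_sub _).abs ((eventually_ge_atTop (N b₀)).mono
        fun n' hn => hax _ _ n' n (vP bc _ n (Gc _) (by omega) (by omega)).1
          (vP bc _ n (Gc _) (by omega) (by omega)).1 hn (by omega))).trans ?_
      exact mul_le_mul (le_abs_self _) ((pow_le_pow_left₀ P.θ0.le (le_max_left _ _) _).trans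
        (pow_le_pow_of_le_one θ0 θ1.le (by omega))) (pow_nonneg P.θ0.le _) (abs_nonneg _)
    · refine KT.tendsto_of_abs fun t ht => ?_
      obtain ⟨δ₃, δ3, -, hb⟩ := ball O θ₀0 hV hD ht
      obtain ⟨-, l', a', -, -, -, G', -⟩ := hor δ₃ δ3
      obtain ⟨a₃, c₃, -, hb⟩ := hb l' a'
      filter_upwards [eventually_ge_atTop (a + a₃)] with k hk
      rw [sub_zero]
      refine le_of_tendsto (hX k (by omega)).1.abs
        ((eventually_ge_atTop (φ.w * k + c₃)).mono fun n hn => ?_)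
      obtain ⟨b1, b2⟩ := hb _ n k (G' n) (by omega) hn
      exact (le_add_of_nonneg_right b1.le).trans b2
    · obtain ⟨c₁, c1, h⟩ := hpos a (by omega)
      exact c1.trans_le (ge_of_tendsto (hY a le_rfl).1 ((eventually_ge_atTop (φ.w * a + c₀)).mono
        fun n hn => h _ n (vP bc n a (Gc n) (by omega) hn).1))
    · refine ((eventually_ge_atTop a).mono fun n hn => ?_).frequently
      filter_upwards [hK, tK.eventually_gt_atTop n] with b₀ k1 k2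
      exact (orb bc _ _ (Gc _) k1.1).2 n hn k2
    · filter_upwards [hG, hK, tK.eventually_ge_atTop (a + K₀), self_mem_nhdsWithin]
        with b₀ k1 k2 k3 (k4 : b₀ < bc)
      have A := k1.1 b₀ ⟨le_rfl, k4.le⟩
      have v := vP b₀ _ (K b₀) A (by omega) k2.1
      have o := (orb b₀ _ _ A k2.1).1
      refine hexit _ _ _ v.1 (by omega) (by omega) k2.2 v.2.2.1 (fun j j1 j2 => ?_) k1.2.2
      have s := o.st j j1 j2
      have w := (prm.wn o j1 j2).trans prm.w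
      have := (abs_le.1 (s.abs_dy w le_rfl)).1
      rw [abs_of_pos s.pos]
      nlinarith [s.pos, s.e_nonneg]
  obtain ⟨A, A0, hA⟩ := fam.scale
  have hN' : ∀ᶠ b in 𝓝[<] bc, φ.w * K b ≤ N b ∧ N b ≤ φ.w * K b + (c₀ + φ.w) :=
    hK.mono fun b k => ⟨by omega, k.2⟩
  refine ⟨A * φ.w * Real.log 2, mul_pos (mul_pos A0 (by exact_mod_cast w1)) (Real.log_pos one_lt_two),
    fun t ht => ⟨δ', δ'0, ?_⟩⟩
  filter_upwards [hG, KT.ev_abs (log_scale hA hN' 1) ht, KT.ev_abs (log_scale hA hN' 2) ht]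
    with b k1 k2 k3 using ⟨⟨_, k2, k1.2.1⟩, _, k3, k1.2.2⟩

end Crest.Agent.T145.Mid
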