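import Crest.Agent.T145.MidMo_32
import Crest.Agent.T145.RJ_57
import Crest.Agent.T145.BrB_73
import Crest.Agent.T145.Soft_23

/-!
# Row 145: MID UP and DN, the link between the torus variance and the box stiffness (helper74)
-/

set_option autoImplicit false

namespace Crest.Agent.T145.Mid

open Finset Filter Topology

namespace Up74

theorem vr_near {L : Type*} [AddCommGroup L] {W : L → ℝ} (h : Cen W) (f g : L →+ ℝ) {e : ℝ}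
    (he : 0 < e) : |Vr W (f - g) (f - g) - Vr W f f| ≤ e * Vr W f f + (1 + e⁻¹) * Vr W g g := by
  have h1 := h.abs_vr_le f g
  have a0 := h.vr_nonneg f
  have b0 := h.vr_nonneg g
  have h2 : 2 * (√(Vr W f f) * √(Vr W g g)) ≤ e * Vr W f f + e⁻¹ * Vr W g g := by
    have h3 := mul_nonneg (inv_pos.2 he).le (sq_nonneg (e * √(Vr W f f) - √(Vr W g g)))
    have e1 : e⁻¹ * (e * √(Vr W f f) - √(Vr W g g)) ^ 2 = e * √(Vr W f f) ^ 2 +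
        e⁻¹ * √(Vr W g g) ^ 2 - 2 * (√(Vr W f f) * √(Vr W g g)) := by field_simp; ring
    rw [e1, Real.sq_sqrt a0, Real.sq_sqrt b0] at h3
    linarith
  rw [h.vr_sub, abs_le] at *
  constructor <;> linarith [h1.1, h1.2]

theorem amb_of {Λ : Lat} {m : Mdl Pt} {D : Finset Pt} (h : Nc.Amb Λ m D) : Λ.Amb m D := by
  have hE : ∀ e ∈ Λ.edI D, e ∈ m.ed := fun e he =>
    (h.near.1 e (Or.inl (Lat.mem_edI.1 he).2.1)).2 (Lat.mem_edI.1 he).1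
  exact ⟨h.ctr, h.anch, hE, fun e he => h.near.2.1 e (hE e he) (Or.inl (Lat.mem_edI.1 he).2.1)⟩

theorem Au_nn {u : Pt → ℝ} {ρ : ℕ} (hρ : 1 ≤ ρ) (hu : Sup (bl 0 (2 * ρ)) u) :
    nnL.Au (bl 0 (3 * ρ)) u = A0 u := by
  obtain ⟨k, hk⟩ : ∃ k, 3 * ρ = k + 1 := ⟨3 * ρ - 1, by omega⟩
  rw [hk, Mo32.A0_dv (R := k) fun x hx => hu x fun h => hx (bl_mono _ (by omega) h)]
  simp only [Lat.Au, nnL, div_one]

theorem En_nn {u : Pt → ℝ} {ρ : ℕ} (hρ : 1 ≤ ρ) (hu : Sup (bl 0 (2 * ρ)) u) :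
    nnL.En (bl 0 (3 * ρ)) u u = nnL.En (bl 0 (2 * ρ + 1)) u u := by
  refine Lat.En_subset (bl_mono _ (by omega)) (fun e he hn => ?_) u
  obtain ⟨h1, -, -⟩ := Lat.mem_edI.1 he
  rw [Lat.mem_edI, not_and] at hn
  have h2 := hn h1
  rw [RJ57.nn_Jp, mem_insert, mem_singleton, Prod.ext_iff, Prod.ext_iff] at h1
  simp only [Prod.fst_sub, Prod.snd_sub] at h1
  rw [mem_bl, mem_bl] at h2
  rw [hu e.1, hu e.2] <;> rw [mem_bl] <;> simp only [Prod.fst_zero, Prod.snd_zero] at h2 ⊢ <;>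
    push_cast at h2 ⊢ <;> omega

theorem size {ρ : ℝ} (hρ : 1 ≤ ρ) {n : ℝ} (h0 : 0 ≤ n) (hn : n ≤ 7 * ρ) :
    n * n / ρ ^ 3 + (n + n) / ρ ^ 2 ≤ 63 / ρ ∧ n * n / ρ ^ 4 + (n + n) / ρ ^ 2 ≤ 63 / ρ := by
  have h1 : n * n / ρ ^ 3 ≤ 49 / ρ := by
    rw [div_le_div_iff₀ (by positivity) (by positivity)]
    nlinarith [mul_le_mul hn hn h0 (by positivity), mul_nonneg h0 h0]
  have h2 : (n + n) / ρ ^ 2 ≤ 14 / ρ := by
    rw [div_le_div_iff₀ (by positivity) (by positivity)]; nlinarith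
  have h3 : n * n / ρ ^ 4 ≤ n * n / ρ ^ 3 :=
    div_le_div_of_nonneg_left (mul_nonneg h0 h0) (by positivity) (pow_le_pow_right₀ hρ (by norm_num))
  have e : 63 / ρ = 49 / ρ + 14 / ρ := by ring
  constructor <;> linarith

/-- what both links use -/
structure Cmp (Λ : Lat) (ρ n : ℕ) (η : ℝ) : Prop where
  amb : Nc.Amb Λ (Om.Tb Λ n 0) (bl 0 (3 * ρ))
  vr : |Λ.e0 ^ 2 * (Vt Λ n ρ * Ec ρ) - Vr ((Om.Tb Λ n 0).W 0) (pr (Λ.Au (bl 0 (3 * ρ)) (Xi.chi ρ)))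
    (pr (Λ.Au (bl 0 (3 * ρ)) (Xi.chi ρ)))| ≤ η
  en : |Λ.En (bl 0 (3 * ρ)) (Xi.chi ρ) (Xi.chi ρ) - Λ.e0 * Ec ρ| ≤ η

theorem cmp (hC : ChiStmt) (F : Fa) {η : ℝ} (hη : 0 < η) : ∃ c : ℝ, ∀ Λ, F.Mem Λ → ∀ ρ n : ℕ,
    c ≤ ρ → 16 * ρ ≤ n → Cmp Λ ρ n η := by
  obtain ⟨C, hC1, hC⟩ := hC
  obtain ⟨C₀, hR⟩ := rjStmt F
  obtain ⟨T, hT1, hT⟩ := F.exists_bound
  set B : ℝ := T * C + η with hB
  have B0 : 0 < B := by positivity
  set e : ℝ := η / (2 * B) with he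
  have e0 : 0 < e := by positivity
  set σ : ℝ := min η (η / (2 * (1 + e⁻¹) * T)) with hσ
  have σ0 : 0 < σ := by positivity
  refine ⟨max T (|C₀| * C ^ 2 * 63 / σ), fun Λ hΛ ρ n hρ hn => ?_⟩
  obtain ⟨t1, -, t3, -, -, t6, -, -⟩ := hT Λ hΛ
  have ok := hΛ.ok
  have ρ1 : (1 : ℝ) ≤ ρ := hT1.trans ((le_max_left _ _).trans hρ)
  have ρ1' : 1 ≤ ρ := by exact_mod_cast ρ1
  have hrg : Λ.rg ≤ ρ := by exact_mod_cast t6.trans ((le_max_left _ _).trans hρ)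
  obtain ⟨s1, s2, s3, s4⟩ := hC ρ ρ1'
  have amb : Nc.Amb Λ (Om.Tb Λ n 0) (bl 0 (3 * ρ)) := Om.amb_Tb ok 0 (by omega)
  have A := amb_of amb
  obtain ⟨r1, r2, -, -⟩ := (hR Λ hΛ ((0 : Pt).1 - (3 * ρ : ℕ), (0 : Pt).2 - (3 * ρ : ℕ)) (2 * (3 * ρ) + 1)
    (2 * (3 * ρ) + 1)).2 _ _ C ρ ρ1 s1 s1
  have eD : rc ((0 : Pt).1 - (3 * ρ : ℕ), (0 : Pt).2 - (3 * ρ : ℕ)) (2 * (3 * ρ) + 1) (2 * (3 * ρ) + 1) =
      bl 0 (3 * ρ) := (bl_eq_sq 0 _).symm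
  rw [eD, Au_nn ρ1' s2] at r1
  rw [eD, En_nn ρ1' s2] at r2
  obtain ⟨z1, z2⟩ := size ρ1 (n := ((2 * (3 * ρ) + 1 : ℕ) : ℝ)) (Nat.cast_nonneg _) (by push_cast; linarith)
  have sm : ∀ x : ℝ, 0 ≤ x → x ≤ 63 / ρ → C₀ * C ^ 2 * x ≤ σ := fun x h0 hx => by
    have h1 : |C₀| * C ^ 2 * 63 / σ ≤ ρ := (le_max_right _ _).trans hρ
    rw [div_le_iff₀ σ0] at h1
    calc C₀ * C ^ 2 * x ≤ |C₀| * C ^ 2 * (63 / ρ) := by gcongr; exact le_abs_self _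
      _ ≤ σ := by rw [← mul_div_assoc, div_le_iff₀ (by linarith)]; linarith
  have en : |Λ.En (bl 0 (3 * ρ)) (Xi.chi ρ) (Xi.chi ρ) - Λ.e0 * Ec ρ| ≤ η :=
    r2.trans ((sm _ (by positivity) z1).trans (min_le_left _ _))
  refine ⟨amb, ?_, en⟩
  have v1 := A.vr_le ok (RJ57.f2_mono r1 (sm _ (by positivity) z2))
  have v2 := A.vr_Au ok (Xi.chi ρ)
  have v3 := vr_near A.cen (pr (Λ.Au (bl 0 (3 * ρ)) (Xi.chi ρ)))
    (pr (Λ.Au (bl 0 (3 * ρ)) (Xi.chi ρ) - Λ.e0 • A0 (Xi.chi ρ))) e0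
  rw [← pr_sub, sub_sub_cancel, pr_smul, Vr_smul_smul] at v3
  rw [Vt, div_mul_cancel₀ _ (by linarith)]
  refine v3.trans ?_
  have b1 : Λ.En (bl 0 (3 * ρ)) (Xi.chi ρ) (Xi.chi ρ) ≤ B := by
    have := mul_le_mul t3 s4 (by linarith) (by linarith)
    linarith [(abs_le.1 en).2]
  have b2 : e * B = η / 2 := by rw [he]; field_simp
  have b3 : (1 + e⁻¹) * (T * σ) ≤ η / 2 := by
    have h1 : σ ≤ η / (2 * (1 + e⁻¹) * T) := min_le_right _ _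
    rw [le_div_iff₀ (by positivity)] at h1
    linarith
  have b4 := mul_le_mul_of_nonneg_left (v2.trans b1) e0.le
  have b5 := mul_le_mul_of_nonneg_left (v1.trans (mul_le_mul_of_nonneg_right t1 σ0.le))
    (show 0 ≤ 1 + e⁻¹ by positivity)
  linarith

/-- division by `e₀² E` -/
theorem fin {c E T V g x : ℝ} (c0 : 0 < c) (hT : 1 / c ≤ T) (hE : 1 ≤ E) (x0 : 0 ≤ x)
    (h : c ^ 2 * (V * E) - g * c * (c * E) ≤ x) : V - g ≤ T ^ 2 * x := by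
  rw [div_le_iff₀ c0] at hT
  have h1 : 1 ≤ (T * c) ^ 2 := one_le_pow₀ hT
  by_contra hn
  push Not at hn
  have h2 : T ^ 2 * x * (c ^ 2 * E) < (V - g) * (c ^ 2 * E) := mul_lt_mul_of_pos_right hn (by positivity)
  have h3 : x * 1 ≤ x * ((T * c) ^ 2 * E) :=
    mul_le_mul_of_nonneg_left (one_le_mul_of_one_le_of_one_le h1 hE) x0
  nlinarith

end Up74

open Up74

/-- UP -/
theorem upStmt (hC : ChiStmt) (hx : T1xStmt) (ha : T1aStmt) : UpStmt := by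
  intro F ε hε
  obtain ⟨T, hT1, hT⟩ := F.exists_bound
  obtain ⟨_, ha⟩ := ha F
  set η : ℝ := ε / (4 * T ^ 2) with hη
  have η0 : 0 < η := by positivity
  obtain ⟨c, hc⟩ := cmp hC F η0
  obtain ⟨C, hC1, hC⟩ := hC
  refine exists_of_ev ?_
  filter_upwards [ev_sep_mem (hx F (max C (4 * 7 ^ 2)) η η0), ev_large' c] with δ h1 h2 Λ hΛ l ρ n hs hn
  have ok := hΛ.ok
  have k := hc Λ hΛ ρ n (h2 l ρ hs).2.2 hn
  have ρ1 := hs.one_le_L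
  have ρ0 : (0 : ℝ) ≤ ρ := Nat.cast_nonneg _
  obtain ⟨s1, -, s3, -⟩ := hC ρ ρ1
  obtain ⟨a0, a1, -⟩ := ha Λ hΛ l hs.one_le_l
  have reg : Reg (bl 0 (3 * ρ)) (max C (4 * 7 ^ 2)) l ρ := by
    have h3 : ((2 * (3 * ρ) + 1 : ℕ) : ℝ) ≤ 7 * ρ := by exact_mod_cast (by omega)
    have h := brStmt.2.2.2.2.2.1 ((0 : Pt).1 - (3 * ρ : ℕ), (0 : Pt).2 - (3 * ρ : ℕ)) _ _ l ρ 7
      (by norm_num) h3 h3
    have h4 := le_max_right C (4 * 7 ^ 2)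
    rw [bl_eq_sq]
    exact ⟨h.1.trans (by gcongr), h.2.trans (by gcongr)⟩
  have h4 := le_max_left C (4 * 7 ^ 2)
  have h3 := h1 Λ hΛ l ρ hs _ _ (Xi.chi ρ) (fun _ => 0) (amb_of k.amb) reg
    ⟨fun i x => (s1.1 i x).trans (by gcongr), fun i j x => (s1.2 i j x).trans (by gcongr)⟩
    fun e _ => by rw [abs_zero]; positivity
  have e0 : dv (Λ.edI (bl 0 (3 * ρ))) (fun _ => (0 : ℝ)) = 0 := by funext x; simp [dv]
  rw [e0, pr_zero, add_zero] at h3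
  simp only [zero_mul, sum_const_zero, mul_zero, add_zero, ne_eq, OfNat.ofNat_ne_zero,
    not_false_eq_true, zero_pow] at h3
  have h5 := ((amb_of k.amb).cen.vr_le_M _).trans h3
  have h6 := mul_le_mul_of_nonneg_left (abs_le.1 k.en).2 a0
  have h7 := mul_le_of_le_one_left η0.le a1
  have h8 := fin (V := Vt Λ n ρ) (g := Λ.gN l) (x := 4 * η) ok.e0_pos (hT Λ hΛ).2.2.2.1 s3 (by positivity)
    (by rw [ok.gN_mul]; nlinarith [(abs_le.1 k.vr).2])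
  have h9 : T ^ 2 * (4 * η) = ε := by rw [hη]; field_simp
  linarith

/-- DN -/
theorem dnStmt (hC : ChiStmt) (hD : DlgStmt) (ha : T1aStmt) : DnStmt := by
  refine Soft.of_ev fun F θ₀ K ε hθ _ hε => ?_
  obtain ⟨T, hT1, hT⟩ := F.exists_bound
  obtain ⟨_, ha⟩ := ha F
  set η : ℝ := ε / (3 * T ^ 2) with hη
  have η0 : 0 < η := by positivity
  obtain ⟨c, hc⟩ := cmp hC F η0
  obtain ⟨C, hC1, hC⟩ := hC
  have hK : (1 : ℝ) ≤ max C 2 := hC1.trans (le_max_left _ _)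
  filter_upwards [Soft.ev hD F hθ hK η0, ev_large' c] with δ h1 h2 Λ hΛ l ρ hw n hn
  have ok := hΛ.ok
  have k := hc Λ hΛ ρ n (h2 l ρ hw.sep).2.2 hn
  have ρ1 := hw.one_le_L
  have ρ0 : (0 : ℝ) ≤ ρ := Nat.cast_nonneg _
  obtain ⟨s1, s2, s3, -⟩ := hC ρ ρ1
  obtain ⟨a0, a1, -⟩ := ha Λ hΛ l hw.one_le_l
  have h4 := le_max_left C 2
  have h3 := (h1 Λ hΛ l ρ hw _ _ 0 (Xi.chi ρ) (amb_of k.amb)
    (k.amb.near.loc ok k.amb.ctr k.amb.anch k.amb.sub)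
    ⟨fun i x => (s1.1 i x).trans (by gcongr), fun i j x => (s1.2 i j x).trans (by gcongr)⟩
    fun x hx => by
      have h5 : x ∈ bl 0 (2 * ρ) := by by_contra h; exact hx (s2 x h)
      have h6 : 2 * ρ ≤ ⌊max C 2 * (ρ : ℝ)⌋₊ := Nat.le_floor (by
        push_cast; exact mul_le_mul_of_nonneg_right (le_max_right _ _) ρ0)
      have h7 : ⌊(ρ : ℝ) / max C 2⌋₊ ≤ ρ := Nat.floor_le_of_le (div_le_self ρ0 hK)
      exact ⟨bl_mono _ h6 h5, bl_subset_bl h5 (by omega)⟩).1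
  have h6 : |Λ.tN l * (Λ.En (bl 0 (3 * ρ)) (Xi.chi ρ) (Xi.chi ρ) - Λ.e0 * Ec ρ)| ≤ η := by
    rw [abs_mul, abs_of_nonneg a0]
    exact (mul_le_of_le_one_left (abs_nonneg _) a1).trans k.en
  have h9 : T ^ 2 * (3 * η) = ε := by rw [hη]; field_simp
  have v := abs_le.1 k.vr
  rw [abs_le] at h3 h6
  have h7 := fin (V := Vt Λ n ρ) (g := Λ.gN l) (x := 3 * η) ok.e0_pos (hT Λ hΛ).2.2.2.1 s3 (by positivity)
    (by rw [ok.gN_mul]; linarith [v.2, h3.2, h6.2])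
  have h8 := fin (V := -Vt Λ n ρ) (g := -Λ.gN l) (x := 3 * η) ok.e0_pos (hT Λ hΛ).2.2.2.1 s3
    (by positivity) (by rw [neg_mul (Λ.gN l), ok.gN_mul]; linarith [v.1, h3.1, h6.1])
  rw [abs_le]; constructor <;> linarith

end Crest.Agent.T145.Mid
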