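import Crest.Agent.T145.MidDef2_76
import Crest.Agent.T145.Soft_23

/-!
# Row 145: the flow variable `x` is the normalised variance, `VxStmt` (helper81)
-/

set_option autoImplicit false

namespace Crest.Agent.T145.Mid

open Finset

namespace Vx81

/-- the sup norm as a natural number -/
def tn (x : Pt) : ℕ := max x.1.natAbs x.2.natAbs

theorem sn_eq (x : Pt) : sn x = tn x := by
  simp only [sn, tn, Nat.cast_max, Nat.cast_natAbs, Int.cast_abs]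

theorem mem_bl_tn {x : Pt} {R : ℕ} : x ∈ bl 0 R ↔ tn x ≤ R := by
  simp only [mem_bl, tn, Prod.fst_zero, Prod.snd_zero]; omega

theorem tn_le {x : Pt} {n : ℕ} (h : x ∈ Qd n) : 2 * tn x ≤ n := by
  simp only [Qd, mem_sq, tn] at h ⊢; omega

theorem card_le {R : ℕ} (h : 1 ≤ R) : ((bl (0 : Pt) R).card : ℝ) ≤ 9 * (R : ℝ) ^ 2 := by
  have : (1 : ℝ) ≤ R := by exact_mod_cast h
  rw [card_bl]; push_cast; nlinarith

theorem sum_succ (g : ℕ → ℝ) (R : ℕ) :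
    ∑ x ∈ bl 0 (R + 1), g (tn x) = ∑ x ∈ bl 0 R, g (tn x) + 8 * (R + 1) * g (R + 1) := by
  have h := bl_mono (0 : Pt) (Nat.le_add_right R 1)
  have c := card_sdiff_add_card_eq_card h
  rw [card_bl, card_bl] at c
  have c' : (bl (0 : Pt) (R + 1) \ bl 0 R).card = 8 * (R + 1) := by nlinarith
  rw [← sum_sdiff h, add_comm, sum_congr (s₁ := bl 0 (R + 1) \ bl 0 R) rfl (g := fun _ => g (R + 1))
    fun x hx => by simp only [mem_sdiff, mem_bl_tn] at hx; congr 1; omega, sum_const, c']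
  simp

theorem shell {ρ : ℝ} (hρ : 0 < ρ) (R : ℕ) :
    ∑ x ∈ bl 0 R, min (tn x : ℝ) ρ ^ 2 / (tn x : ℝ) ^ 3 ≤ 32 * ρ * R / (R + ρ) := by
  induction R with
  | zero =>
    refine (sum_eq_zero fun x hx => ?_).trans_le (by simp)
    rw [Nat.le_zero.1 (mem_bl_tn.1 hx)]; simp
  | succ R ih =>
    rw [sum_succ (fun t => min (t : ℝ) ρ ^ 2 / (t : ℝ) ^ 3)]
    push_cast
    have R0 : (0 : ℝ) ≤ R := Nat.cast_nonneg R
    have m0 : 0 ≤ min ((R : ℝ) + 1) ρ := le_min (by linarith) hρ.le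
    have h1 : min ((R : ℝ) + 1) ρ * (R + 1 + ρ) ≤ 2 * (R + 1) * ρ := by
      nlinarith [mul_le_mul_of_nonneg_right (min_le_left ((R : ℝ) + 1) ρ) hρ.le,
        mul_le_mul_of_nonneg_right (min_le_right ((R : ℝ) + 1) ρ) (by linarith : (0 : ℝ) ≤ R + 1)]
    have h2 : 8 * ((R : ℝ) + 1) * (min ((R : ℝ) + 1) ρ ^ 2 / (R + 1) ^ 3) ≤
        32 * ρ ^ 2 / ((R + ρ) * (R + 1 + ρ)) := by
      have h3 := pow_le_pow_left₀ (by positivity) h1 2
      calc _ = 8 * (min ((R : ℝ) + 1) ρ * (R + 1 + ρ)) ^ 2 / ((R + 1) ^ 2 * (R + 1 + ρ) ^ 2) := by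
            field_simp
        _ ≤ 8 * (2 * (R + 1) * ρ) ^ 2 / ((R + 1) ^ 2 * (R + 1 + ρ) ^ 2) := by gcongr
        _ = 32 * ρ ^ 2 / ((R + 1 + ρ) * (R + 1 + ρ)) := by field_simp; ring
        _ ≤ _ := by gcongr; linarith
    have h4 : 32 * ρ * ((R : ℝ) + 1) / (R + 1 + ρ) =
        32 * ρ * R / (R + ρ) + 32 * ρ ^ 2 / ((R + ρ) * (R + 1 + ρ)) := by field_simp; ring
    linarith

theorem shell' {ρ : ℝ} (hρ : 0 < ρ) (R : ℕ) :
    ∑ x ∈ bl 0 R, min (tn x : ℝ) ρ ^ 2 / (tn x : ℝ) ^ 3 ≤ 32 * ρ := by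
  refine (shell hρ R).trans ?_
  rw [div_le_iff₀ (by positivity)]
  nlinarith [mul_pos hρ hρ]

/-- the hypotheses of the summation -/
structure Hy (G : Pt → ℝ) (y : ℕ → ℝ) (r : ℕ → ℕ) (C₀ D Y : ℝ) (S W M n a k : ℕ) : Prop where
  h0 : ∀ x, |G x| ≤ C₀
  D0 : 0 ≤ D
  hr : ∀ j, r (j + 1) = W * r j
  hW : 2 ≤ W
  r1 : ∀ j, 1 ≤ r j
  hS : 1 ≤ S
  ak : a ≤ k
  hM : ∀ j, j ≤ k → S * r j ≤ M
  hn : 2 * M ≤ n
  hy : ∀ j, a ≤ j → j ≤ k → |y j| ≤ Y * (5 / 4) ^ (k - j)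
  hK : ∀ j, a ≤ j → j ≤ k → ∀ x, 2 * tn x ≤ n → S * r j < tn x →
    |G x| ≤ D * y j ^ 2 / (r j * ((min (tn x) M : ℕ) : ℝ) ^ 3)

variable {G : Pt → ℝ} {y : ℕ → ℝ} {r : ℕ → ℕ} {C₀ D Y : ℝ} {S W M n a k : ℕ}

theorem Hy.ysq (h : Hy G y r C₀ D Y S W M n a k) {j : ℕ} (h1 : a ≤ j) (h2 : j ≤ k) :
    y j ^ 2 ≤ Y ^ 2 * (25 / 16) ^ (k - j) := by
  have := pow_le_pow_left₀ (abs_nonneg _) (h.hy j h1 h2) 2
  rwa [sq_abs, mul_pow, ← pow_mul, mul_comm (k - j), pow_mul, show ((5 : ℝ) / 4) ^ 2 = 25 / 16 by norm_num]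
    at this

theorem Hy.inner (h : Hy G y r C₀ D Y S W M n a k) (j : ℕ) (h1 : a ≤ j) : j ≤ k →
    ∑ x ∈ bl 0 (S * r j), |G x| * (tn x : ℝ) ^ 3 ≤ 9 * C₀ * ((S * r a : ℕ) : ℝ) ^ 5 +
      36 * D * S ^ 2 * W ^ 2 * Y ^ 2 * (25 / 16) ^ (k - j) * r j := by
  have D0 := h.D0
  have C0 : 0 ≤ C₀ := (abs_nonneg _).trans (h.h0 0)
  induction j, h1 using Nat.le_induction with
  | base =>
    intro _
    have := sum_le_card_nsmul (bl 0 (S * r a)) (fun x => |G x| * (tn x : ℝ) ^ 3)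
      (C₀ * ((S * r a : ℕ) : ℝ) ^ 3) fun x hx => mul_le_mul (h.h0 x)
        (pow_le_pow_left₀ (Nat.cast_nonneg _) (by exact_mod_cast mem_bl_tn.1 hx) 3) (by positivity) C0
    rw [nsmul_eq_mul] at this
    refine (this.trans (mul_le_mul_of_nonneg_right (card_le (Nat.mul_pos h.hS (h.r1 a)))
      (by positivity))).trans (le_add_of_le_of_nonneg (le_of_eq (by ring)) (by positivity))
  | succ j h1 ih =>
    intro h2
    have ih := ih (by omega)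
    have hr : (1 : ℝ) ≤ r j := by exact_mod_cast h.r1 j
    have hW : (2 : ℝ) ≤ W := by exact_mod_cast h.hW
    have sub : bl (0 : Pt) (S * r j) ⊆ bl 0 (S * r (j + 1)) :=
      bl_mono _ (Nat.mul_le_mul_left _ (by rw [h.hr]; exact Nat.le_mul_of_pos_left _ (by have := h.hW; omega)))
    have b := sum_le_card_nsmul (bl 0 (S * r (j + 1)) \ bl 0 (S * r j)) (fun x => |G x| * (tn x : ℝ) ^ 3)
      (D * y j ^ 2 / r j) fun x hx => by
        simp only [mem_sdiff, mem_bl_tn, not_le] at hx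
        have e := h.hM _ h2
        have k1 := h.hK j h1 (by omega) x (by have := h.hn; omega) hx.2
        have t0 : (0 : ℝ) < tn x := by exact_mod_cast (by omega : 0 < tn x)
        rw [min_eq_left (by omega)] at k1
        refine (mul_le_mul_of_nonneg_right k1 (by positivity)).trans (le_of_eq ?_)
        field_simp
    rw [nsmul_eq_mul] at b
    have c : ((bl (0 : Pt) (S * r (j + 1)) \ bl 0 (S * r j)).card : ℝ) ≤ 9 * (S * (W * r j)) ^ 2 := by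
      refine le_trans (by exact_mod_cast card_le_card sdiff_subset)
        ((card_le (Nat.mul_pos h.hS (h.r1 (j + 1)))).trans (le_of_eq ?_))
      rw [h.hr]; push_cast; ring
    have ys := h.ysq h1 (by omega : j ≤ k)
    have e : k - j = k - (j + 1) + 1 := by omega
    rw [e, pow_succ (25 / 16 : ℝ)] at ys ih
    have b2 : 9 * ((S : ℝ) * (W * r j)) ^ 2 * (D * y j ^ 2 / r j) ≤
        9 * D * S ^ 2 * W ^ 2 * (Y ^ 2 * ((25 / 16) ^ (k - (j + 1)) * (25 / 16))) * r j := by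
      refine le_of_eq_of_le (b := 9 * D * S ^ 2 * W ^ 2 * y j ^ 2 * r j) (by field_simp) ?_
      gcongr
    have b3 := (b.trans (mul_le_mul_of_nonneg_right c (by positivity))).trans b2
    rw [← sum_sdiff sub, h.hr]
    push_cast at ih ⊢
    have p0 : 0 ≤ D * S ^ 2 * W ^ 2 * Y ^ 2 * (25 / 16) ^ (k - (j + 1)) * r j := by positivity
    rw [h.hr] at b3
    linarith [mul_le_mul_of_nonneg_left hW p0]

theorem Hy.outer (h : Hy G y r C₀ D Y S W M n a k) {ρ : ℝ} (hρ : 0 < ρ) :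
    ∑ x ∈ Qd n \ bl 0 (S * r k), |G x| * min (tn x : ℝ) ρ ^ 2 ≤
      D * Y ^ 2 / r k * (32 * ρ + ρ ^ 2 * (n : ℝ) ^ 2 / (M : ℝ) ^ 3) := by
  have D0 := h.D0
  have hr : (0 : ℝ) < r k := by exact_mod_cast h.r1 k
  have M0 : 0 < M := (Nat.mul_pos h.hS (h.r1 k)).trans_le (h.hM k le_rfl)
  have M0' : (0 : ℝ) < M := by exact_mod_cast M0
  have ys := h.ysq h.ak le_rfl
  rw [Nat.sub_self, pow_zero, mul_one] at ys
  calc _ ≤ ∑ x ∈ Qd n \ bl 0 (S * r k),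
        D * Y ^ 2 / r k * (min (tn x : ℝ) ρ ^ 2 / (tn x : ℝ) ^ 3 + ρ ^ 2 / (M : ℝ) ^ 3) := by
        refine sum_le_sum fun x hx => ?_
        simp only [mem_sdiff, mem_bl_tn, not_le] at hx
        have k1 := h.hK k h.ak le_rfl x (tn_le hx.1) hx.2
        have t0 : (0 : ℝ) < tn x := by exact_mod_cast (by omega : 0 < tn x)
        have m0 : 0 ≤ min (tn x : ℝ) ρ := le_min t0.le hρ.le
        refine (mul_le_mul_of_nonneg_right k1 (by positivity)).trans ?_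
        rcases le_total (tn x) M with e | e
        · rw [min_eq_left e]
          calc _ = D * y k ^ 2 / r k * (min (tn x : ℝ) ρ ^ 2 / (tn x : ℝ) ^ 3 + 0) := by field_simp; ring
            _ ≤ _ := by gcongr; positivity
        · rw [min_eq_right e]
          calc _ = D * y k ^ 2 / r k * (0 + min (tn x : ℝ) ρ ^ 2 / (M : ℝ) ^ 3) := by field_simp; ring
            _ ≤ _ := by gcongr; exacts [by positivity, min_le_right _ _]
    _ ≤ ∑ x ∈ Qd n,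
        D * Y ^ 2 / r k * (min (tn x : ℝ) ρ ^ 2 / (tn x : ℝ) ^ 3 + ρ ^ 2 / (M : ℝ) ^ 3) :=
        sum_le_sum_of_subset_of_nonneg sdiff_subset fun x _ _ => by positivity
    _ ≤ _ := by
        rw [← mul_sum, sum_add_distrib, sum_const, Qd, card_sq, nsmul_eq_mul]
        refine mul_le_mul_of_nonneg_left (add_le_add ?_ (le_of_eq (by push_cast; ring))) (by positivity)
        refine le_trans (sum_le_sum_of_subset_of_nonneg (fun x hx => ?_) fun x _ _ => by positivity)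
          (shell' hρ n)
        exact mem_bl_tn.2 (by have := tn_le hx; omega)

theorem Hy.all (h : Hy G y r C₀ D Y S W M n a k) {ρ : ℕ} (hρ : r k ≤ ρ) :
    ∑ x ∈ bl 0 (r k), |G x| * sn x ^ 3 / ρ + ∑ x ∈ Qd n \ bl 0 (r k), |G x| * min (sn x) ρ ^ 2 ≤
      18 * C₀ * ((S * r a : ℕ) : ℝ) ^ 5 / r k +
        D * (72 * S ^ 2 * W ^ 2 + 32) * Y ^ 2 * (ρ / r k * (1 + ρ * (n : ℝ) ^ 2 / (M : ℝ) ^ 3)) := by
  have D0 := h.D0
  have hr : (0 : ℝ) < r k := by exact_mod_cast h.r1 k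
  have hρ' : (r k : ℝ) ≤ ρ := by exact_mod_cast hρ
  have i1 := h.inner k h.ak le_rfl
  rw [Nat.sub_self, pow_zero, mul_one] at i1
  have i2 := h.outer (hr.trans_le hρ')
  set I := ∑ x ∈ bl 0 (S * r k), |G x| * (tn x : ℝ) ^ 3 with hI
  have e : I / r k = ∑ x ∈ bl 0 (S * r k), |G x| * (tn x : ℝ) ^ 3 / r k := sum_div _ _ _
  simp only [sn_eq]
  have a1 : ∑ x ∈ bl 0 (r k), |G x| * (tn x : ℝ) ^ 3 / ρ ≤ I / r k := by
    rw [e]
    refine (sum_le_sum fun x _ => ?_).trans (sum_le_sum_of_subset_of_nonneg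
      (bl_mono _ (Nat.le_mul_of_pos_left _ h.hS)) fun x _ _ => by positivity)
    gcongr
  have a2 : ∑ x ∈ Qd n \ bl 0 (r k), |G x| * min (tn x : ℝ) ρ ^ 2 ≤
      I / r k + ∑ x ∈ Qd n \ bl 0 (S * r k), |G x| * min (tn x : ℝ) ρ ^ 2 := by
    rw [← sum_inter_add_sum_sdiff _ (bl 0 (S * r k)), e]
    refine add_le_add ((sum_le_sum fun x hx => ?_).trans (sum_le_sum_of_subset_of_nonneg
      inter_subset_right fun x _ _ => by positivity)) (sum_le_sum_of_subset_of_nonneg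
      (sdiff_subset_sdiff sdiff_subset Subset.rfl) fun x _ _ => by positivity)
    simp only [mem_inter, mem_sdiff, mem_bl_tn, not_le] at hx
    have t1 : (r k : ℝ) ≤ tn x := by exact_mod_cast hx.1.2.le
    rw [mul_div_assoc]
    refine mul_le_mul_of_nonneg_left ((pow_le_pow_left₀ (le_min (by positivity) (by positivity))
      (min_le_left _ _) 2).trans ?_) (abs_nonneg _)
    rw [le_div_iff₀ hr, pow_succ _ 2]
    exact mul_le_mul_of_nonneg_left t1 (by positivity)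
  have a3 : I / r k ≤ 9 * C₀ * ((S * r a : ℕ) : ℝ) ^ 5 / r k + 36 * D * S ^ 2 * W ^ 2 * Y ^ 2 :=
    (div_le_div_of_nonneg_right i1 hr.le).trans (le_of_eq (by field_simp))
  have q1 : 1 ≤ (ρ : ℝ) / r k := (one_le_div hr).2 hρ'
  have q0 : 0 ≤ ρ * (n : ℝ) ^ 2 / (M : ℝ) ^ 3 := by positivity
  have a4 : D * Y ^ 2 / r k * (32 * ρ + ρ ^ 2 * (n : ℝ) ^ 2 / (M : ℝ) ^ 3) =
      D * Y ^ 2 * (ρ / r k * (32 + ρ * (n : ℝ) ^ 2 / (M : ℝ) ^ 3)) := by ring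
  set u := (ρ : ℝ) / r k
  set v := ρ * (n : ℝ) ^ 2 / (M : ℝ) ^ 3
  have a5 : 72 * D * S ^ 2 * W ^ 2 * Y ^ 2 * 1 ≤ 72 * D * S ^ 2 * W ^ 2 * Y ^ 2 * (u * (1 + v)) :=
    mul_le_mul_of_nonneg_left (by nlinarith) (by positivity)
  have a6 : D * Y ^ 2 * (u * (32 + v)) ≤ D * Y ^ 2 * (32 * (u * (1 + v))) :=
    mul_le_mul_of_nonneg_left (by nlinarith) (by positivity)
  have a7 : 18 * C₀ * ((S * r a : ℕ) : ℝ) ^ 5 / r k = 2 * (9 * C₀ * ((S * r a : ℕ) : ℝ) ^ 5 / r k) := by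
    ring
  linarith

variable {F : Fa} {θ₀ : ℝ} {φ : Fw} {P : Par} {Λ : Lat} {l N j : ℕ}

theorem V_mono (h : φ.V F θ₀ P Λ l N k) (hj : j ≤ k) : φ.V F θ₀ P Λ l N j :=
  ⟨h.1, h.2.1, le_trans (by gcongr) h.2.2⟩

theorem rg_lt (w1 : 1 ≤ φ.w) (h : φ.V F θ₀ P Λ l N j) (hj : F.base.rg ≤ j) : Λ.rg + 2 ≤ 2 ^ N := by
  have h1 := Nat.lt_two_pow_self (n := N)
  have h2 := h.2.2
  have h3 := Nat.mul_le_mul_right (j + 1) w1
  rw [h.1.rg_eq]; omega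

theorem Sr_le (w1 : 1 ≤ φ.w) (h : φ.V F θ₀ P Λ l N j) : 2 ^ (P.s + 1) * φ.r j ≤ 2 ^ N := by
  rw [Fw.r, ← pow_add]
  refine Nat.pow_le_pow_right two_pos ?_
  have h2 := h.2.2
  rw [mul_add, mul_one] at h2; omega

/-- the pointwise bound on the two-point function on the torus -/
theorem pt (h : Odd F θ₀ φ P) (l : ℕ) : ∃ a₁, ∀ Λ N j n x, φ.V F θ₀ P Λ l N j → a₁ ≤ j →
    16 * 2 ^ N ≤ n → 2 * tn x ≤ n → 2 ^ (P.s + 1) * φ.r j < tn x →
    |Om.K Λ n x| ≤ P.C * (2 * 2 ^ (P.s + 1)) ^ 3 * φ.y Λ N j ^ 2 /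
      (φ.r j * ((min (tn x) (2 ^ N) : ℕ) : ℝ) ^ 3) := by
  obtain ⟨a₁, H⟩ := h.kb l
  refine ⟨max a₁ F.base.rg, fun Λ N j n x hV hj hn hx ht => ?_⟩
  have hΛ := hV.1.ok
  have rg := rg_lt h.w1 hV ((le_max_right _ _).trans hj)
  have e3 := Sr_le h.w1 hV
  have H := H Λ N j hV ((le_max_left _ _).trans hj)
  have r1 : 1 ≤ φ.r j := Nat.one_le_two_pow
  have C0 := P.C0
  generalize 2 ^ N = M at *
  generalize φ.r j = q at *
  have e5 : 2 ^ (P.s + 1) = 2 * 2 ^ P.s := pow_succ' _ _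
  have e6 : (2 : ℝ) ^ (P.s + 1) = ((2 * 2 ^ P.s : ℕ) : ℝ) := by push_cast; ring
  rw [e5] at e3 ht
  rw [e6]
  have T0 : 0 < 2 ^ P.s := by positivity
  generalize 2 ^ P.s = T at *
  set u := min (tn x) (2 * M + 1) with hu
  set r' := (u - 1) / (2 * T) with hr'
  have e1 : 2 * T * r' ≤ u - 1 := Nat.mul_div_le _ _
  have e2 : u - 1 < 2 * T * (r' + 1) := Nat.lt_mul_div_succ _ (by omega)
  have e4 : q ≤ r' := (Nat.le_div_iff_mul_le (by omega)).2 (by rw [mul_comm]; omega)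
  have e7 : min (tn x) M ≤ 2 * (2 * T) * r' := by
    have : 2 * T * (r' + 1) ≤ 2 * T * (2 * r') := Nat.mul_le_mul_left _ (by omega)
    have : 2 * T * (2 * r') = 2 * (2 * T) * r' := by ring
    omega
  rw [mul_assoc] at e1
  have e8 : 0 < T * r' := Nat.mul_pos T0 (by omega)
  generalize hc : T * r' = c at *
  have tx : tn x = max x.1.natAbs x.2.natAbs := rfl
  set b : Pt := (min 0 x.1 - (M + Λ.rg + 1 : ℕ), min 0 x.2 - (M + Λ.rg + 1 : ℕ)) with hb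
  have sub : ∀ z, z = 0 ∨ z = x → bl z (M + Λ.rg) ⊆ sq b n := fun z hz y hy => by
    rcases hz with rfl | rfl <;> simp only [hb, mem_bl, mem_sq, Prod.fst_zero, Prod.snd_zero] at hy ⊢ <;>
      omega
  have amb : ∀ z, z = 0 ∨ z = x → Nc.Amb Λ (Om.Tc Λ n b) (bl z c) := fun z hz =>
    Om.amb_Tc hΛ fun y hy => (bl_subset_bl hy (by omega)).trans (sub z hz)
  have k1 := H r' (Om.Tc Λ n b) 0 x e4 (by omega) (hc ▸ amb 0 (Or.inl rfl)) (hc ▸ amb x (Or.inr rfl))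
    (hc ▸ disjoint_left.2 fun y h1 h2 => by
      simp only [mem_bl, Prod.fst_zero, Prod.snd_zero] at h1 h2; omega)
  rw [← (Om.om_Tc hΛ (by omega) (Om.depG_JJ 0 x) (union_subset
    ((bl_mono _ (by omega)).trans (sub 0 (Or.inl rfl)))
    ((bl_mono _ (by omega)).trans (sub x (Or.inr rfl))))).2] at k1
  refine k1.trans ?_
  have q0 : (0 : ℝ) < q := by exact_mod_cast r1
  have r0 : (0 : ℝ) < r' := by exact_mod_cast (by omega : 0 < r')
  have m0 : (0 : ℝ) < ((min (tn x) M : ℕ) : ℝ) := by exact_mod_cast (by omega : 0 < min (tn x) M)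
  have e9 : ((min (tn x) M : ℕ) : ℝ) ≤ 2 * ((2 * T : ℕ) : ℝ) * r' := by exact_mod_cast e7
  have T1 : (0 : ℝ) < ((2 * T : ℕ) : ℝ) := by exact_mod_cast (by omega : 0 < 2 * T)
  calc _ = P.C * (2 * ((2 * T : ℕ) : ℝ)) ^ 3 * φ.y Λ N j ^ 2 /
        (q * (2 * ((2 * T : ℕ) : ℝ) * r') ^ 3) := by field_simp
    _ ≤ _ := by gcongr

end Vx81

open Vx81 in
theorem vxStmt (hG : VgStmt) : VxStmt := fun F θ₀ φ P h => by
  obtain ⟨C₀, C0, hC⟩ := hG F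
  have κ0 : 0 ≤ φ.κ := mul_nonneg Real.pi_pos.le (Real.log_nonneg (one_le_pow₀ one_le_two))
  have P0 := P.C0
  set D : ℝ := P.C * (2 * 2 ^ (P.s + 1)) ^ 3 with hD
  set E : ℝ := D * (72 * ((2 ^ (P.s + 1) : ℕ) : ℝ) ^ 2 * ((2 ^ φ.w : ℕ) : ℝ) ^ 2 + 32) with hE
  have D0 : 0 ≤ D := by positivity
  refine ⟨P.C + φ.κ * C₀ * E, by positivity, fun l => ?_⟩
  obtain ⟨a₁, H1⟩ := pt h l
  obtain ⟨a₂, B, H2⟩ := h.gj l
  refine ⟨|B|, abs_nonneg B, fun a => ?_⟩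
  set a' := max a a₁ with ha'
  set A : ℝ := 18 * C₀ * ((2 ^ (P.s + 1) * φ.r a' : ℕ) : ℝ) ^ 5 with hA
  have A0 : 0 ≤ A := by positivity
  refine ⟨max (max a' a₂) F.base.rg, |B| + φ.κ * C₀ * A, by positivity,
    fun Λ N k hV hk Y hY ρ n hρ hn hN => ?_⟩
  have hΛ := hV.1.ok
  have rg := rg_lt h.w1 hV ((le_max_right _ _).trans hk)
  have k1 : a' ≤ k := ((le_max_left _ _).trans (le_max_left _ _)).trans hk
  have k2 : a₂ ≤ k := ((le_max_right _ _).trans (le_max_left _ _)).trans hk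
  have r1 : ∀ j, 1 ≤ φ.r j := fun _ => Nat.one_le_two_pow
  have hr : ∀ j, φ.r (j + 1) = 2 ^ φ.w * φ.r j := fun j => by rw [Fw.r, Fw.r, ← pow_add]; ring_nf
  have hW : 2 ≤ 2 ^ φ.w := Nat.le_self_pow (by have := h.w1; omega) 2
  obtain ⟨g1, g2⟩ := hC Λ hV.1 n (by omega)
  have g2 := g2 ρ (φ.r k) (r1 k) hρ hn
  have hy : Hy (Om.K Λ n) (φ.y Λ N) φ.r C₀ D Y (2 ^ (P.s + 1)) (2 ^ φ.w) (2 ^ N) n a' k :=
    ⟨g1, D0, hr, hW, r1, Nat.one_le_two_pow, k1, fun j hj => Sr_le h.w1 (V_mono hV hj), by omega,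
      fun j h1 h2 => hY j ((le_max_left _ _).trans h1) h2,
      fun j h1 h2 x h3 h4 => H1 Λ N j n x (V_mono hV h2) ((le_max_right _ _).trans h1) hN h3 h4⟩
  have g3 := (g2.trans (mul_le_mul_of_nonneg_left (hy.all hρ) C0))
  have g4 := H2 Λ N k hV k2 (φ.r k) (Om.Tb Λ n 0) 0 le_rfl
    (by rw [hr]; exact Nat.le_mul_of_pos_left _ (by omega)) (Om.amb_Tb hΛ 0 (by omega))
  have ys := hy.ysq k1 le_rfl
  rw [Nat.sub_self, pow_zero, mul_one] at ys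
  have rk : (0 : ℝ) < φ.r k := by exact_mod_cast r1 k
  have q1 : 1 ≤ (ρ : ℝ) / φ.r k := (one_le_div rk).2 (by exact_mod_cast hρ)
  have q0 : 0 ≤ ρ * (n : ℝ) ^ 2 / (2 ^ N) ^ 3 := by positivity
  rw [← hA, ← hE, Nat.cast_pow, Nat.cast_ofNat] at g3
  set u := (ρ : ℝ) / φ.r k * (1 + ρ * (n : ℝ) ^ 2 / (2 ^ N) ^ 3) with hu
  have u1 : 1 ≤ u := by rw [hu]; nlinarith
  have θ0 := P.θ0
  have t2 : P.θ ^ k ≤ max P.θ (1 / 2) ^ k := pow_le_pow_left₀ θ0.le (le_max_left _ _) _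
  have t3 : A / φ.r k ≤ A * max P.θ (1 / 2) ^ k := by
    rw [div_eq_mul_inv]
    refine mul_le_mul_of_nonneg_left (le_trans ?_
      (pow_le_pow_left₀ (by norm_num) (le_max_right _ _) k)) A0
    rw [one_div, inv_pow]
    refine inv_anti₀ (by positivity) ?_
    have : 2 ^ k ≤ φ.r k := Nat.pow_le_pow_right two_pos (Nat.le_mul_of_pos_left _ h.w1)
    exact_mod_cast this
  have e : φ.κ * (Vt Λ n ρ - 2 / Real.pi) - φ.x Λ N k =
      (φ.κ * (gJ ((Om.Tb Λ n 0).W 0) 0 (φ.r k) - 2 / Real.pi) - φ.x Λ N k) +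
        φ.κ * (Vt Λ n ρ - gJ ((Om.Tb Λ n 0).W 0) 0 (φ.r k)) := by ring
  have b1 : B * (P.θ ^ (N - φ.w * k) + P.θ ^ k) ≤
      |B| * (P.θ ^ (N - φ.w * k) + max P.θ (1 / 2) ^ k) :=
    mul_le_mul (le_abs_self B) (add_le_add le_rfl t2) (by positivity) (abs_nonneg B)
  have b2 : P.C * φ.y Λ N k ^ 2 ≤ P.C * (Y ^ 2 * u) :=
    mul_le_mul_of_nonneg_left (ys.trans (le_mul_of_one_le_right (sq_nonneg Y) u1)) P0
  have b3 := mul_le_mul_of_nonneg_left g3 κ0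
  have b4 := mul_le_mul_of_nonneg_left t3 (mul_nonneg κ0 C0)
  rw [e]
  refine (abs_add_le _ _).trans ?_
  rw [abs_mul, abs_of_nonneg κ0]
  linarith

end Crest.Agent.T145.Mid
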