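import Crest.Agent.T145.AllD_21
import Crest.Agent.T145.MidB_76
import Crest.Agent.T145.MidVar_29
import Crest.Agent.T145.MidVg_19
import Crest.Agent.T145.MidMo_32
import Crest.Agent.T145.MidVx_81
import Crest.Agent.T145.MidUp_74
import Crest.Agent.T145.MidScale_54
import Crest.Agent.T145.MidCrit_54
import Crest.Agent.T145.FlA_51
import Crest.Agent.T145.FlBare_80
import Crest.Agent.T145.FlBeta_3
import Crest.Agent.T145.FlCc_87
import Crest.Agent.T145.FlCm_62
import Crest.Agent.T145.FlCone_64
import Crest.Agent.T145.FlCore_82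
import Crest.Agent.T145.FlEnt2_65
import Crest.Agent.T145.FlEntLow_80
import Crest.Agent.T145.FlFar_57
import Crest.Agent.T145.FlKb_14
import Crest.Agent.T145.FlKs_11
import Crest.Agent.T145.FlLink_65
import Crest.Agent.T145.FlLj_36
import Crest.Agent.T145.FlLoc_94
import Crest.Agent.T145.FlLow_84
import Crest.Agent.T145.FlNeu_31
import Crest.Agent.T145.FlOA_98
import Crest.Agent.T145.FlOC_64
import Crest.Agent.T145.FlOnu_14
import Crest.Agent.T145.FlOpe_4
import Crest.Agent.T145.FlOpe_64
import Crest.Agent.T145.FlRate_98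
import Crest.Agent.T145.FlSY_60
import Crest.Agent.T145.FlSmW_31
import Crest.Agent.T145.FlSoft_45
import Crest.Agent.T145.FlStepX_44
import Crest.Agent.T145.FlStepY_74
import Crest.Agent.T145.FlStep_58
import Crest.Agent.T145.FlSw_22
import Crest.Agent.T145.FlXf_91
import Crest.Agent.T145.MbBad_10

/-!
# Row 145: the odd flow and the middle glue without hypotheses (helper76)
-/

set_option autoImplicit false

namespace Crest.Agent.T145.Fin

section fl
open Fl

theorem kb : KbStmt := kbStmt semiStmt prodStmt Fl.bareStmt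
theorem loc : LocStmt := locStmt Fl.rateStmt
theorem lj : LjStmt := ljStmt semiStmt prodStmt Fl.bareStmt loc Fl.swStmt (betaStmt kb)
theorem far : FarStmt := farStmt semiStmt prodStmt Fl.rateStmt
theorem cm : CmStmt := cmStmt lj kb far semiStmt
theorem neu : NeuStmt := neuStmt lj kb
theorem cc : CcStmt := ccStmt semiStmt prodStmt cm xfStmt
theorem stepY : StepYStmt := stepYStmt fusStmt far (siteYStmt prodStmt lj kb cc)
theorem stepX : StepXStmt := stepXStmt semiStmt prodStmt neu cm xfStmt
theorem step : Fl.StepStmt := Fl.stepStmt kb stepY stepX akStmt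
theorem sg : SgStmt := sgStmt Kr.U.gffA All.t1m
theorem sc : ScStmt := scStmt All.t2p All.r1c All.pdec All.t1m
theorem low : LowStmt := lowStmt sg sc
theorem link : LinkStmt := linkStmt neu sg All.t1a
theorem core : CoreStmt := coreStmt All.gd (ksWStmt Kr.U.kOdd Kr.U.q All.t1m) low (smallWStmt low sg)
  (entLowStmt All.step2 All.t2 All.t1m Mb.y0Stmt All.afac) link purStmt
  (ent2Stmt semiStmt prodStmt fusStmt Fl.bareStmt cm akStmt)
theorem oStep : Leaf OStep := leaf_step step
theorem lOdd : Leaf Mid.Odd :=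
  leaf_odd oStep leaf_pos leaf_ent leaf_nu leaf_kb leaf_gj leaf_ambx leaf_amby
theorem odd : Mid.OddStmt := oddStmt core lOdd
theorem ope : Mid.OpeStmt := opeStmt core lOdd (leaf_ope (opeFStmt cm kb))

end fl

theorem vx : Mid.VxStmt := Mid.vxStmt (Mid.vgStmt Mid.varStmt)
theorem up : Mid.UpStmt := Mid.upStmt Mid.chiStmt All.t1x All.t1a
theorem dn : Mid.DnStmt := Mid.dnStmt Mid.chiStmt All.dlg All.t1a
theorem slope : Top.SlopeStmt := Mid.slopeStmt odd All.t1m All.t1d vx dn (Mid.moStmt Mid.chiStmt)
theorem critXy : Vx.CritXy := Mid.critXy ope vx dn All.t1m All.t1d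
theorem scale (hL : Mid.LinStmt) : Top.ScaleStmt := Mid.scaleStmt hL vx up dn All.t1m All.t1d

end Crest.Agent.T145.Fin
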