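import Crest.Agent.T145.ApxA_16

/-!
# Row 145, module (b), APX (helper16): `apxStmt`
-/

set_option autoImplicit false

namespace Crest.Agent.T145.Apx16

open Finset Real

/-! ## The two-dimensional bases -/

/-- tensor product -/
def tn (g h : ℤ → ℝ) (x : Pt) : ℝ := g x.1 * h x.2

/-- basis functions -/
noncomputable def E2 (s L : ℕ) (k : ℕ × ℕ) : Pt → ℝ := tn (ec s L k.1) (ec s L k.2)

/-- eigenvalues -/
noncomputable def La (s L : ℕ) (k : ℕ × ℕ) : ℝ := la s L k.1 + la s L k.2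

/-- linear combinations -/
noncomputable def cb (H : Finset (ℕ × ℕ)) (a : ℕ × ℕ → ℝ) (U : ℕ × ℕ → Pt → ℝ) (x : Pt) : ℝ :=
  ∑ k ∈ H, a k * U k x

theorem ip_tn (L : ℕ) (g h g' h' : ℤ → ℝ) : ip (sq 0 L) (tn g h) (tn g' h') =
    (∑ t ∈ Ico (0 : ℤ) (0 + L), g t * g' t) * ∑ t ∈ Ico (0 : ℤ) (0 + L), h t * h' t := by
  rw [sum_mul_sum, ip, sq, sum_product]
  exact sum_congr rfl fun a _ => sum_congr rfl fun b _ => by simp only [tn]; ring

theorem E2_orth {s L : ℕ} (hs : s ≤ 1) {k m : ℕ × ℕ} (hk : k ∈ range L ×ˢ range L)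
    (hm : m ∈ range L ×ˢ range L) (h : k ≠ m) : ip (sq 0 L) (E2 s L k) (E2 s L m) = 0 := by
  simp only [mem_product, mem_range] at hk hm
  rw [E2, E2, ip_tn]
  by_cases h1 : k.1 = m.1
  · rw [ec_orth hs hk.2 hm.2 fun h2 => h (Prod.ext h1 h2), mul_zero]
  · rw [ec_orth hs hk.1 hm.1 h1, zero_mul]

theorem E2_nrm {s L : ℕ} (hs : s ≤ 1) {k : ℕ × ℕ} (hk : k ∈ range L ×ˢ range L) :
    (L : ℝ) ^ 2 / 4 ≤ ip (sq 0 L) (E2 s L k) (E2 s L k) := by
  simp only [mem_product, mem_range] at hk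
  rw [E2, ip_tn]
  have h1 := ec_nrm hs hk.1
  have h0 : (0 : ℝ) ≤ L / 2 := by positivity
  calc (L : ℝ) ^ 2 / 4 = L / 2 * (L / 2) := by ring
    _ ≤ _ := mul_le_mul h1 (ec_nrm hs hk.2) h0 (h0.trans h1)

theorem lap_E2 (s L : ℕ) (k : ℕ × ℕ) (x : Pt) : lap (E2 s L k) x = La s L k * E2 s L k x := by
  have h1 := ec_eig s L k.1 x.1
  have h2 := ec_eig s L k.2 x.2
  simp only [lap, E2, tn, La]
  linear_combination ec s L k.2 x.2 * h1 + ec s L k.1 x.1 * h2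

theorem lap_cb (H : Finset (ℕ × ℕ)) (a : ℕ × ℕ → ℝ) (U : ℕ × ℕ → Pt → ℝ) (x : Pt) :
    lap (cb H a U) x = ∑ k ∈ H, a k * lap (U k) x := by
  simp only [lap, cb, mul_sum, ← sum_sub_distrib, ← sum_add_distrib]
  exact sum_congr rfl fun k _ => by ring

theorem rf_cb {L : ℕ} {σ : ℝ} (H : Finset (ℕ × ℕ)) (a : ℕ × ℕ → ℝ) {U : ℕ × ℕ → Pt → ℝ}
    (h : ∀ k, Rf L σ (U k)) : Rf L σ (cb H a U) := fun t => by
  simp only [cb, mul_sum]
  refine ⟨?_, ?_, ?_, ?_⟩ <;> refine sum_congr rfl fun k _ => ?_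
  · rw [(h k t).1]; ring
  · rw [(h k t).2.1]; ring
  · rw [(h k t).2.2.1]; ring
  · rw [(h k t).2.2.2]; ring

theorem rf_tn {L : ℕ} {σ : ℝ} {g h : ℤ → ℝ} (g1 : g (-1) = σ * g 0) (g2 : g L = σ * g (L - 1))
    (h1 : h (-1) = σ * h 0) (h2 : h L = σ * h (L - 1)) : Rf L σ (tn g h) := fun t => by
  simp only [tn, g1, g2, h1, h2]
  exact ⟨by ring, by ring, by ring, by ring⟩

theorem rf_E2 {s L : ℕ} (hL : 0 < L) (k : ℕ × ℕ) : Rf L ((-1) ^ s) (E2 s L k) :=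
  rf_tn (by simpa using ec_refl s L k.1 0) (ec_hi hL _) (by simpa using ec_refl s L k.2 0)
    (ec_hi hL _)

theorem ip_cb_left (X : Finset Pt) (H : Finset (ℕ × ℕ)) (a : ℕ × ℕ → ℝ) (U : ℕ × ℕ → Pt → ℝ)
    (g : Pt → ℝ) : ip X (cb H a U) g = ∑ k ∈ H, a k * ip X (U k) g := by
  simp only [ip, cb, sum_mul, mul_sum]
  rw [sum_comm]
  exact sum_congr rfl fun k _ => sum_congr rfl fun x _ => by ring

theorem ip_comm (X : Finset Pt) (f g : Pt → ℝ) : ip X f g = ip X g f :=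
  sum_congr rfl fun _ _ => mul_comm _ _

theorem ip_cb_cb {X : Finset Pt} {H : Finset (ℕ × ℕ)} {U : ℕ × ℕ → Pt → ℝ}
    (ho : ∀ k ∈ H, ∀ m ∈ H, k ≠ m → ip X (U k) (U m) = 0) (a b : ℕ × ℕ → ℝ) :
    ip X (cb H a U) (cb H b U) = ∑ k ∈ H, a k * b k * ip X (U k) (U k) := by
  rw [ip_cb_left]
  refine sum_congr rfl fun k hk => ?_
  rw [ip_comm, ip_cb_left, sum_eq_single_of_mem k hk fun m hm h => by rw [ho m hm k hk h, mul_zero]]
  ring

theorem La_ge {s L N : ℕ} (hs : s ≤ 1) {k : ℕ × ℕ} (hk : k ∈ range L ×ˢ range L)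
    (h : N ≤ k.1 + s ∨ N ≤ k.2 + s) : 4 * (N : ℝ) ^ 2 / (L : ℝ) ^ 2 ≤ La s L k := by
  simp only [mem_product, mem_range] at hk
  have h1 := la_ge hs hk.1
  have h2 := la_ge hs hk.2
  have h3 : ∀ j : ℕ, N ≤ j → 4 * (N : ℝ) ^ 2 / (L : ℝ) ^ 2 ≤ 4 * (j : ℝ) ^ 2 / (L : ℝ) ^ 2 :=
    fun j hj => by
      have : (N : ℝ) ≤ j := by exact_mod_cast hj
      gcongr
  have h4 : ∀ j : ℕ, 0 ≤ 4 * (j : ℝ) ^ 2 / (L : ℝ) ^ 2 := fun j => by positivity
  rw [La]
  rcases h with h | h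
  · linarith [h3 _ h, h4 (k.2 + s)]
  · linarith [h3 _ h, h4 (k.1 + s)]

/-- low modes and a remainder of small energy -/
theorem spectral {s L N : ℕ} (hs : s ≤ 1) (hN : 1 ≤ N) (hNL : N ≤ L) {K : ℝ} {f : Pt → ℝ}
    (hf : ∀ x, |f x| ≤ K / (L : ℝ) ^ 2) (h0 : s = 0 → ∑ x ∈ sq 0 L, f x = 0) :
    ∃ (a : ℕ × ℕ → ℝ) (w : Pt → ℝ), (∀ k ∈ range N ×ˢ range N, |a k| ≤ K) ∧ Rf L ((-1) ^ s) w ∧
      (∀ x ∈ sq 0 L, f x = lap (cb (range N ×ˢ range N) a (E2 s L)) x + lap w x) ∧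
      ∑ e ∈ nnL.edT (sq 0 L), gr w e ^ 2 ≤ K ^ 2 / (2 * (N : ℝ) ^ 2) := by
  have hL0 : 0 < L := by omega
  have hL : (0 : ℝ) < L := by exact_mod_cast hL0
  have hN' : (0 : ℝ) < N := by exact_mod_cast hN
  set I := range L ×ˢ range L with hI
  set Lo := range N ×ˢ range N with hLo
  have hsub : Lo ⊆ I := product_subset_product (range_subset_range.2 hNL) (range_subset_range.2 hNL)
  set n : ℕ × ℕ → ℝ := fun k => ip (sq 0 L) (E2 s L k) (E2 s L k) with hn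
  set c : ℕ × ℕ → ℝ := fun k => ip (sq 0 L) f (E2 s L k) / n k with hc
  have hn0 : ∀ k ∈ I, 0 < n k := fun k hk => lt_of_lt_of_le (by positivity) (E2_nrm hs hk)
  have hexp : ∀ x ∈ sq 0 L, f x = cb I c (E2 s L) x := fun x hx =>
    complete (by rw [card_sq, card_product, card_range, pow_two])
      (fun k hk m hm => E2_orth hs hk hm) (fun k hk => (hn0 k hk).ne') f hx
  have hK : 0 ≤ K := by
    have := (abs_nonneg _).trans (hf 0)
    rwa [le_div_iff₀ (by positivity), zero_mul] at this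
  have hcard : ((sq 0 L).card : ℝ) = (L : ℝ) ^ 2 := by rw [card_sq]; push_cast; ring
  -- eigenvalues
  have hLa : ∀ k ∈ I, c k = 0 ∨ 4 / (L : ℝ) ^ 2 ≤ La s L k := fun k hk => by
    by_cases h : 1 ≤ k.1 + s ∨ 1 ≤ k.2 + s
    · right; simpa using La_ge hs hk h
    · left
      obtain rfl : s = 0 := by omega
      obtain rfl : k = (0, 0) := Prod.ext (by omega) (by omega)
      simp [hc, ip, E2, tn, ec, th, h0 rfl]
  have hca : ∀ k ∈ I, c k / La s L k * La s L k = c k := fun k hk => by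
    rcases hLa k hk with h | h
    · simp [h]
    · exact div_mul_cancel₀ _ (lt_of_lt_of_le (by positivity) h).ne'
  refine ⟨fun k => c k / La s L k, cb (I \ Lo) (fun k => c k / La s L k) (E2 s L), fun k hk => ?_,
    rf_cb _ _ (rf_E2 hL0), fun x hx => ?_, ?_⟩
  · have hk' := hsub hk
    rcases hLa k hk' with h | h
    · simp [h, hK]
    have h1 : |ip (sq 0 L) f (E2 s L k)| ≤ K := by
      refine (abs_sum_le_sum_abs _ _).trans ?_
      refine (sum_le_card_nsmul _ _ (K / (L : ℝ) ^ 2) fun x _ => ?_).trans ?_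
      · rw [abs_mul, E2, tn, abs_mul]
        have h2 : |ec s L k.1 x.1| * |ec s L k.2 x.2| ≤ 1 :=
          mul_le_one₀ (abs_cos_le_one _) (abs_nonneg _) (abs_cos_le_one _)
        exact (mul_le_of_le_one_right (abs_nonneg _) h2).trans (hf x)
      · rw [nsmul_eq_mul, hcard]; exact le_of_eq (by field_simp)
    have h2 : 0 < La s L k := lt_of_lt_of_le (by positivity) h
    have h3 : 1 ≤ n k * La s L k :=
      calc (1 : ℝ) = (L : ℝ) ^ 2 / 4 * (4 / (L : ℝ) ^ 2) := by field_simp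
        _ ≤ _ := mul_le_mul (E2_nrm hs hk') h (by positivity) (hn0 k hk').le
    simp only [hc]
    rw [div_div, abs_div, abs_of_pos (mul_pos (hn0 k hk') h2)]
    exact (div_le_self (abs_nonneg _) h3).trans h1
  · rw [hexp x hx, lap_cb, lap_cb, add_comm, sum_sdiff hsub, cb]
    exact sum_congr rfl fun k hk => by rw [lap_E2, ← mul_assoc, hca k hk]
  · refine ((rf_cb _ _ (rf_E2 hL0)).energy (neg_one_pow_eq_or ℝ s)).trans ?_
    have h1 : ∑ x ∈ sq 0 L, cb (I \ Lo) (fun k => c k / La s L k) (E2 s L) x *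
        lap (cb (I \ Lo) (fun k => c k / La s L k) (E2 s L)) x =
        ∑ k ∈ I \ Lo, c k / La s L k * c k * n k := by
      rw [← ip_cb_cb fun k hk m hm => E2_orth hs (sdiff_subset hk) (sdiff_subset hm), ip]
      refine sum_congr rfl fun x _ => ?_
      rw [lap_cb]
      congr 1
      exact sum_congr rfl fun k hk => by rw [lap_E2, ← mul_assoc, hca k (sdiff_subset hk)]
    have h2 : ∑ k ∈ I, c k * c k * n k ≤ K ^ 2 / (L : ℝ) ^ 2 := by
      rw [← ip_cb_cb fun k hk m hm => E2_orth hs hk hm, ip]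
      refine (sum_le_card_nsmul _ _ ((K / (L : ℝ) ^ 2) ^ 2) fun x hx => ?_).trans ?_
      · rw [← hexp x hx, ← pow_two, ← sq_abs]
        exact pow_le_pow_left₀ (abs_nonneg _) (hf x) 2
      · rw [nsmul_eq_mul, hcard]; exact le_of_eq (by field_simp)
    have h3 : ∑ k ∈ I \ Lo, c k / La s L k * c k * n k ≤
        ∑ k ∈ I, (L : ℝ) ^ 2 / (4 * (N : ℝ) ^ 2) * (c k * c k * n k) := by
      refine le_trans (sum_le_sum fun k hk => ?_)
        (sum_le_sum_of_subset_of_nonneg sdiff_subset fun k hk _ =>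
          mul_nonneg (by positivity) (mul_nonneg (mul_self_nonneg _) (hn0 k hk).le))
      have hk' := mem_sdiff.1 hk
      have h4 : 4 * (N : ℝ) ^ 2 / (L : ℝ) ^ 2 ≤ La s L k := La_ge hs hk'.1 (by
        have := hk'.2
        simp only [hLo, mem_product, mem_range] at this
        omega)
      have h5 : 1 / La s L k ≤ (L : ℝ) ^ 2 / (4 * (N : ℝ) ^ 2) := by
        exact (one_div_le_one_div_of_le (by positivity) h4).trans_eq (one_div_div _ _)
      calc c k / La s L k * c k * n k = 1 / La s L k * (c k * c k * n k) := by ring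
        _ ≤ _ := mul_le_mul_of_nonneg_right h5 (mul_nonneg (mul_self_nonneg _) (hn0 k hk'.1).le)
    rw [← mul_sum] at h3
    rw [h1]
    calc _ ≤ 2 * ((L : ℝ) ^ 2 / (4 * (N : ℝ) ^ 2) * (K ^ 2 / (L : ℝ) ^ 2)) := by
          refine mul_le_mul_of_nonneg_left (h3.trans ?_) (by norm_num)
          exact mul_le_mul_of_nonneg_left h2 (by positivity)
      _ = _ := by field_simp; ring

/-! ## Smoothness -/

/-- bounded by one, steps at most `η` -/
def S0 (g : ℤ → ℝ) (η : ℝ) : Prop := (∀ t, |g t| ≤ 1) ∧ ∀ t, |g (t + 1) - g t| ≤ η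

/-- and second differences at most `η²` -/
def S1 (g : ℤ → ℝ) (η : ℝ) : Prop :=
  S0 g η ∧ ∀ t, |g (t + 1 + 1) - g (t + 1) - (g (t + 1) - g t)| ≤ η ^ 2

theorem S0.nonneg {g : ℤ → ℝ} {η : ℝ} (h : S0 g η) : 0 ≤ η := (abs_nonneg _).trans (h.2 0)

theorem S0.mono {g : ℤ → ℝ} {η η' : ℝ} (h : S0 g η) (h' : η ≤ η') : S0 g η' :=
  ⟨h.1, fun t => (h.2 t).trans h'⟩

theorem S1.mono {g : ℤ → ℝ} {η η' : ℝ} (h : S1 g η) (h' : η ≤ η') : S1 g η' :=
  ⟨h.1.mono h', fun t => (h.2 t).trans (pow_le_pow_left₀ h.1.nonneg h' 2)⟩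

theorem abs_mul_le {a b A B : ℝ} (ha : |a| ≤ A) (hb : |b| ≤ B) : |a * b| ≤ A * B := by
  rw [abs_mul]; exact mul_le_mul ha hb (abs_nonneg _) ((abs_nonneg _).trans ha)

theorem S1.mul {g h : ℤ → ℝ} {η η' : ℝ} (hg : S1 g η) (hh : S1 h η') :
    S1 (fun t => g t * h t) (η + η') := by
  refine ⟨⟨fun t => by simpa using abs_mul_le (hg.1.1 t) (hh.1.1 t), fun t => ?_⟩, fun t => ?_⟩
  · have h1 := abs_le.1 (abs_mul_le (hg.1.2 t) (hh.1.1 t))
    have h2 := abs_le.1 (abs_mul_le (hg.1.1 (t + 1)) (hh.1.2 t))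
    rw [abs_le]; constructor <;> nlinarith
  · have h1 := abs_le.1 (abs_mul_le (hg.2 t) (hh.1.1 t))
    have h2 := abs_le.1 (abs_mul_le (hg.1.1 (t + 1 + 1)) (hh.2 t))
    have h3 := abs_le.1 (abs_mul_le (hg.1.2 (t + 1)) (hh.1.2 t))
    rw [abs_le]; constructor <;> nlinarith

theorem S1.refl {g : ℤ → ℝ} {η : ℝ} (hg : S1 g η) (c : ℤ) : S1 (fun t => g (c - t)) η := by
  refine ⟨⟨fun t => hg.1.1 _, fun t => ?_⟩, fun t => ?_⟩
  · have := hg.1.2 (c - (t + 1))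
    rwa [show c - (t + 1) + 1 = c - t by ring, abs_sub_comm] at this
  · have := hg.2 (c - (t + 1 + 1))
    rw [show c - (t + 1 + 1) + 1 + 1 = c - t by ring,
      show c - (t + 1 + 1) + 1 = c - (t + 1) by ring] at this
    convert this using 2
    ring

theorem s1_ec (s L k : ℕ) : S1 (ec s L k) (th s L k) := by
  refine ⟨⟨fun t => abs_cos_le_one _, fun t => ?_⟩, fun t => ?_⟩
  · refine (abs_cos_sub_cos_le _ _).trans (le_of_eq ?_)
    rw [← abs_of_nonneg (th_nonneg s L k)]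
    congr 1
    rw [abs_of_nonneg (th_nonneg s L k)]
    push_cast; ring
  · have h1 := ec_eig s L k (t + 1)
    rw [add_sub_cancel_right] at h1
    have h2 : |la s L k| ≤ th s L k ^ 2 := by
      have := one_sub_sq_div_two_le_cos (x := th s L k)
      have := cos_le_one (th s L k)
      rw [la, abs_le]; constructor <;> nlinarith [sq_nonneg (th s L k)]
    have h3 := abs_mul_le h2 (abs_cos_le_one (th s L k * (((t + 1 : ℤ) : ℝ) + 1 / 2) - s * (π / 2)))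
    rw [← ec, ← h1, mul_one, ← abs_neg] at h3
    convert h3 using 2
    ring

theorem th_le {s L k N : ℕ} (hs : s ≤ 1) (hk : k < N) : th s L k ≤ 4 * N / L := by
  have : ((k + s : ℕ) : ℝ) ≤ N := by exact_mod_cast (by omega : k + s ≤ N)
  have := pi_le_four
  rw [th]
  gcongr

theorem df_tn {g h : ℤ → ℝ} {η : ℝ} (hg : S0 g η) (hh : S0 h η) (i : Fin 2) (x : Pt) :
    |df i (tn g h) x| ≤ η := by
  fin_cases i
  · have := abs_mul_le (hg.2 x.1) (hh.1 x.2)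
    simp only [df, ev, tn, Fin.zero_eta, Matrix.cons_val_zero, Prod.fst_add, Prod.snd_add, add_zero]
    rw [mul_one] at this
    convert this using 2; ring
  · have := abs_mul_le (hg.1 x.1) (hh.2 x.2)
    simp only [df, ev, tn, Fin.mk_one, Matrix.cons_val_one, Matrix.cons_val_zero, Prod.fst_add,
      Prod.snd_add, add_zero]
    rw [one_mul] at this
    convert this using 2; ring

theorem df2_tn {g h : ℤ → ℝ} {η : ℝ} (hg : S1 g η) (hh : S1 h η) (i j : Fin 2) (x : Pt) :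
    |df j (df i (tn g h)) x| ≤ η ^ 2 := by
  have h1 := abs_mul_le (hg.2 x.1) (hh.1.1 x.2)
  have h2 := abs_mul_le (hg.1.1 x.1) (hh.2 x.2)
  have h3 := abs_mul_le (hg.1.2 x.1) (hh.1.2 x.2)
  rw [mul_one] at h1
  rw [one_mul] at h2
  rw [← pow_two] at h3
  fin_cases i <;> fin_cases j <;>
    simp only [df, ev, tn, Fin.zero_eta, Fin.mk_one, Matrix.cons_val_one, Matrix.cons_val_zero,
      Prod.fst_add, Prod.snd_add, add_zero]
  · convert h1 using 2; ring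
  · convert h3 using 2; ring
  · convert h3 using 2; ring
  · convert h2 using 2; ring

theorem df_cb (H : Finset (ℕ × ℕ)) (a : ℕ × ℕ → ℝ) (U : ℕ × ℕ → Pt → ℝ) (i : Fin 2) :
    df i (cb H a U) = cb H a fun k => df i (U k) := by
  funext x
  simp only [df, cb, ← sum_sub_distrib, mul_sub]

theorem abs_cb_le {N : ℕ} {a : ℕ × ℕ → ℝ} {U : ℕ × ℕ → Pt → ℝ} {K B : ℝ} {x : Pt}
    (ha : ∀ k ∈ range N ×ˢ range N, |a k| ≤ K) (hU : ∀ k ∈ range N ×ˢ range N, |U k x| ≤ B) :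
    |cb (range N ×ˢ range N) a U x| ≤ (N : ℝ) ^ 2 * K * B := by
  refine (abs_sum_le_sum_abs _ _).trans
    ((sum_le_card_nsmul _ _ (K * B) fun k hk => abs_mul_le (ha k hk) (hU k hk)).trans (le_of_eq ?_))
  rw [nsmul_eq_mul, card_product, card_range]; push_cast; ring

/-- a low-mode combination of tensor products is smooth -/
theorem sm2_cb {N : ℕ} {a : ℕ × ℕ → ℝ} {g : ℕ → ℤ → ℝ} {K A L K' c : ℝ} (hL : 0 < L) (hA : 1 ≤ A)
    (hK : 0 ≤ K) (ha : ∀ k ∈ range N ×ˢ range N, |a k| ≤ K) (hg : ∀ k < N, S1 (g k) (A / L))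
    {T : ℝ} (hc : |c| ≤ T) (hK' : T * ((N : ℝ) ^ 2 * K * A ^ 2) ≤ K') :
    Sm2 (c • cb (range N ×ˢ range N) a fun k => tn (g k.1) (g k.2)) K' L ∧
      ∀ x, |(c • cb (range N ×ˢ range N) a fun k => tn (g k.1) (g k.2)) x| ≤ K' := by
  have hm : ∀ k ∈ range N ×ˢ range N, S1 (g k.1) (A / L) ∧ S1 (g k.2) (A / L) := fun k hk => by
    simp only [mem_product, mem_range] at hk
    exact ⟨hg _ hk.1, hg _ hk.2⟩
  have hd : ∀ (i : Fin 2) (u : Pt → ℝ), df i (c • u) = c • df i u := fun i u => by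
    funext x; simp [df, mul_sub]
  have hT : 0 ≤ T := (abs_nonneg _).trans hc
  have hA2 : A ≤ A ^ 2 := by nlinarith
  refine ⟨⟨fun i x => ?_, fun i j x => ?_⟩, fun x => ?_⟩
  · rw [hd, df_cb]
    refine (abs_mul_le hc (abs_cb_le ha fun k hk => df_tn (hm k hk).1.1 (hm k hk).2.1 i x)).trans ?_
    calc T * ((N : ℝ) ^ 2 * K * (A / L)) = T * ((N : ℝ) ^ 2 * K * A) / L := by ring
      _ ≤ T * ((N : ℝ) ^ 2 * K * A ^ 2) / L := by gcongr
      _ ≤ _ := by gcongr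
  · rw [hd, hd, df_cb, df_cb]
    refine (abs_mul_le hc (abs_cb_le ha fun k hk => df2_tn (hm k hk).1 (hm k hk).2 i j x)).trans ?_
    calc T * ((N : ℝ) ^ 2 * K * (A / L) ^ 2) = T * ((N : ℝ) ^ 2 * K * A ^ 2) / L ^ 2 := by ring
      _ ≤ _ := by gcongr
  · refine (abs_mul_le hc (abs_cb_le (B := 1) ha fun k hk => ?_)).trans (le_trans ?_ hK')
    · simpa [tn] using abs_mul_le ((hm k hk).1.1.1 x.1) ((hm k hk).2.1.1 x.2)
    · gcongr; linarith

/-! ## The cut-off -/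

theorem exists_cut (hSm : SmStmt) {r : ℕ} (hr : 1 ≤ r) : ∃ ρ : ℤ → ℝ, S1 ρ (10 / r) ∧
    (∀ t : ℤ, t ≤ r → ρ t = 0) ∧ ∀ t : ℤ, 2 * r ≤ t → ρ t = 1 := by
  obtain ⟨h1, -, -, ⟨χ, c1, c2, c3, c4, c5, c6, -⟩, -⟩ := hSm
  have hr' : (0 : ℝ) < r := by exact_mod_cast hr
  have h := h1 χ 10 r (-1) ![1, 0] hr' c1 c2 c3 (fun i => by fin_cases i <;> simp)
  refine ⟨fun t => χ (t / r + -1), ⟨⟨fun t => ?_, fun t => ?_⟩, fun t => ?_⟩, fun t ht => c5 _ ?_,
    fun t ht => c6 _ ?_⟩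
  · rw [abs_of_nonneg (c4 _).1]; exact (c4 _).2
  · simpa [df, ev, co] using h.1 0 (t, 0)
  · have := h.2 0 0 (t, 0)
    refine le_trans (le_of_eq ?_) (this.trans ?_)
    · simp [df, ev, co]
    · rw [div_pow]; gcongr; norm_num
  · have : (t : ℝ) ≤ r := by exact_mod_cast ht
    have : (t : ℝ) / r ≤ 1 := (div_le_one hr').2 this
    linarith
  · have : (2 * r : ℝ) ≤ t := by exact_mod_cast ht
    have : 2 ≤ (t : ℝ) / r := (le_div_iff₀ hr').2 this
    linarith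

theorem S0.cut {ρ g : ℤ → ℝ} {η δ b : ℝ} (hρ : S0 ρ δ) (hg : S0 g η) (hb : 0 ≤ b)
    (h : ∀ t, ρ (t + 1) ≠ ρ t → |g t| ≤ b) : S0 (fun t => ρ t * g t) (η + δ * b) := by
  refine ⟨fun t => by simpa using abs_mul_le (hρ.1 t) (hg.1 t), fun t => ?_⟩
  have h1 := abs_le.1 (abs_mul_le (hρ.1 (t + 1)) (hg.2 t))
  have h2 : |(ρ (t + 1) - ρ t) * g t| ≤ δ * b := by
    by_cases h0 : ρ (t + 1) = ρ t
    · rw [h0, sub_self, zero_mul, abs_zero]; exact mul_nonneg hρ.nonneg hb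
    · exact abs_mul_le (hρ.2 t) (h t h0)
  have h3 := abs_le.1 h2
  rw [abs_le]; constructor <;> nlinarith

theorem abs_ec_one (L k : ℕ) (t : ℤ) : |ec 1 L k t| ≤ th 1 L k * |(t : ℝ) + 1 / 2| := by
  rw [ec, Nat.cast_one, one_mul, cos_sub_pi_div_two]
  refine abs_sin_le_abs.trans (le_of_eq ?_)
  rw [abs_mul, abs_of_nonneg (th_nonneg _ _ _)]

/-- the cut sine -/
noncomputable def et (ρ : ℤ → ℝ) (L k : ℕ) (t : ℤ) : ℝ := ρ (L - 1 - t) * (ρ t * ec 1 L k t)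

theorem s0_et {ρ : ℤ → ℝ} {r L : ℕ} (hr : 1 ≤ r) (hL : 0 < L) (h : S1 ρ (10 / r))
    (h0 : ∀ t : ℤ, t ≤ r → ρ t = 0) (h1 : ∀ t : ℤ, 2 * r ≤ t → ρ t = 1) (k : ℕ) :
    S0 (et ρ L k) (61 * th 1 L k) := by
  have hr' : (0 : ℝ) < r := by exact_mod_cast hr
  have hr1 : (1 : ℝ) ≤ r := by exact_mod_cast hr
  have hθ := th_nonneg 1 L k
  have hj : ∀ t : ℤ, ρ (t + 1) ≠ ρ t → r ≤ t ∧ t < 2 * r := fun t ht => by
    constructor
    · by_contra h2
      exact ht (by rw [h0 _ (by omega), h0 _ (by omega)])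
    · by_contra h2
      exact ht (by rw [h1 _ (by omega), h1 _ (by omega)])
  have hb : ∀ t : ℤ, 0 ≤ t → t ≤ 2 * r → |ec 1 L k t| ≤ th 1 L k * (3 * r) := fun t a b => by
    refine (abs_ec_one L k t).trans (mul_le_mul_of_nonneg_left ?_ hθ)
    have : (0 : ℝ) ≤ t := by exact_mod_cast a
    have : (t : ℝ) ≤ 2 * r := by exact_mod_cast b
    rw [abs_le]; constructor <;> linarith
  have A := h.1.cut (s1_ec 1 L k).1 (b := th 1 L k * (3 * r)) (by positivity) fun t ht =>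
    hb t (by have := hj t ht; omega) (by have := hj t ht; omega)
  have B := (h.refl (L - 1)).1.cut A (b := th 1 L k * (3 * r)) (by positivity) fun t ht => by
    have h2 := hj (L - 1 - (t + 1)) (by
      rw [show (L : ℤ) - 1 - (t + 1) + 1 = L - 1 - t by ring]; exact ht.symm)
    have h3 := hb (L - 1 - t) (by omega) (by omega)
    rw [ec_refl' hL, abs_mul, abs_neg_one_pow, one_mul] at h3
    simpa using abs_mul_le (h.1.1 t) h3
  refine B.mono (le_of_eq ?_)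
  field_simp; ring

theorem energy_cut {L r : ℕ} (hr : 1 ≤ r) (h4 : 4 * r ≤ L) {v : Pt → ℝ} {B : ℝ}
    (hd : ∀ i x, |df i v x| ≤ B) (h0 : ∀ x ∈ sq (2 * r, 2 * r) (L - 4 * r), v x = 0) :
    ∑ e ∈ nnL.edT (sq 0 L), gr v e ^ 2 ≤ 48 * r * L * B ^ 2 := by
  classical
  set Q := sq ((2 * r : ℤ), (2 * r : ℤ)) (L - 4 * r) with hQ
  set X := sq (-1, -1) (L + 2) with hX
  have hQX : Q ⊆ X := fun x => by rw [mem_sq, mem_sq]; dsimp only; omega
  have h1 : ∑ e ∈ nnL.edT (sq 0 L), gr v e ^ 2 ≤ ∑ e ∈ nnL.edT (X \ Q), gr v e ^ 2 := by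
    rw [← sum_filter_ne_zero]
    refine sum_le_sum_of_subset_of_nonneg (fun e he => ?_) fun _ _ _ => sq_nonneg _
    rw [mem_filter, mem_nnT] at he
    obtain ⟨⟨h2, h3⟩, h5⟩ := he
    rw [mem_nnT]
    refine ⟨h2, ?_⟩
    have h6 : e.1 ∈ X ∧ e.2 ∈ X := by
      simp only [hX, mem_sq, Prod.ext_iff, Prod.fst_zero, Prod.snd_zero] at h2 h3 ⊢
      omega
    by_contra h7
    simp only [mem_sdiff, h6, true_and, not_or, not_not] at h7
    exact h5 (by rw [gr, h0 _ h7.1, h0 _ h7.2]; simp)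
  refine h1.trans ((sum_le_card_nsmul _ _ (B ^ 2) fun e he => ?_).trans ?_)
  · rw [← sq_abs]
    refine pow_le_pow_left₀ (abs_nonneg _) ?_ 2
    rcases (mem_nnT.1 he).1 with h | h
    · rw [gr, h, show (e.1.1 + 1, e.1.2) = e.1 + ev 0 by simp [ev, Prod.ext_iff]]
      exact hd 0 e.1
    · rw [gr, h, show (e.1.1, e.1.2 + 1) = e.1 + ev 1 by simp [ev, Prod.ext_iff]]
      exact hd 1 e.1
  · rw [nsmul_eq_mul]
    refine mul_le_mul_of_nonneg_right ?_ (sq_nonneg _)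
    have h2 := nnL.card_edT_le (X \ Q)
    have h3 : nnL.Jp.card = 2 := by rw [nn_Jp]; rfl
    have h5 : (X \ Q).card + (L - 4 * r) ^ 2 = (L + 2) ^ 2 := by
      rw [← card_sq ((2 * r : ℤ), (2 * r : ℤ)), ← card_sq (-1, -1)]
      exact card_sdiff_add_card_eq_card hQX
    have h6 : (nnL.edT (X \ Q)).card ≤ 48 * r * L := by
      rw [h3] at h2
      generalize (nnL.edT (X \ Q)).card = p at h2
      generalize (X \ Q).card = q at h2 h5
      obtain ⟨m, rfl⟩ := Nat.exists_eq_add_of_le h4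
      rw [Nat.add_sub_cancel_left] at h5
      nlinarith
    exact_mod_cast h6

/-! ## Assembly -/

theorem au_smul (Λ : Lat) (B : Finset Pt) (c : ℝ) (u : Pt → ℝ) :
    Λ.Au B (c • u) = c • Λ.Au B u := by
  funext x
  simp only [Lat.Au, dv, Pi.smul_apply, smul_eq_mul, mul_sum]
  exact sum_congr rfl fun e _ => by ring

theorem num1 {K ε N : ℝ} (hε : 0 < ε) (h1 : 1 ≤ N) (h : 8 * K ^ 2 / ε ≤ N) :
    K ^ 2 / (2 * N ^ 2) ≤ ε / 16 := by
  have h1 : 8 * K ^ 2 ≤ N * ε := (div_le_iff₀ hε).1 h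
  rw [div_le_div_iff₀ (by positivity) (by positivity)]
  nlinarith [mul_le_mul_of_nonneg_left ‹1 ≤ N› (by positivity : 0 ≤ N * ε)]

theorem num2 {C K ε L : ℝ} (hε : 0 < ε) (hL : 1 ≤ L) (h : 12 * (|C| * K ^ 2) / ε ≤ L) :
    C * K ^ 2 * (L * L / L ^ 4 + (L + L) / L ^ 2) ≤ ε / 4 := by
  have hL' : 0 < L := by linarith
  have h3 : L * L / L ^ 4 + (L + L) / L ^ 2 ≤ 3 / L := by
    rw [div_add_div _ _ (by positivity) (by positivity), div_le_div_iff₀ (by positivity) hL']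
    have : L ^ 5 * 1 ≤ L ^ 5 * L := by gcongr
    nlinarith
  have h6 : 12 * (|C| * K ^ 2) ≤ L * ε := (div_le_iff₀ hε).1 h
  calc _ ≤ |C| * K ^ 2 * (3 / L) := by gcongr; exact le_abs_self _
    _ ≤ ε / 4 := by rw [mul_div_assoc', div_le_div_iff₀ hL' (by norm_num)]; linarith

theorem num3 {B ε M r L : ℝ} (hε : 0 < ε) (hL : 0 < L) (hr : 0 ≤ r) (h1 : r * M ≤ L)
    (h : 16 * (48 * B ^ 2) / ε ≤ M) : 48 * r * L * (B / L) ^ 2 ≤ ε / 16 := by
  have h5 : 16 * (48 * B ^ 2) ≤ M * ε := (div_le_iff₀ hε).1 h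
  have h6 : 48 * r * L * (B / L) ^ 2 = r * (48 * B ^ 2) / L := by field_simp
  rw [h6, div_le_div_iff₀ hL (by norm_num)]
  nlinarith [mul_le_mul_of_nonneg_left h5 hr, mul_le_mul_of_nonneg_left h1 hε.le]

theorem num4 {M r L : ℝ} (hL : 0 < L) (hr : 1 ≤ r) (hM : 0 ≤ M) (h : L ≤ (r + 1) * M) :
    10 / r ≤ 20 * M / L := by
  rw [div_le_div_iff₀ (by positivity) hL]
  nlinarith [mul_le_mul_of_nonneg_left hr hM]

theorem apx (hRJ : RJStmt) (hSm : SmStmt) : ApxStmt := by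
  intro F K₀ ε hε
  obtain ⟨C, hC'⟩ := hRJ F
  have hC : ∀ Λ, F.Mem Λ → ∀ (L : ℕ) (u : Pt → ℝ) (K : ℝ), (1 : ℝ) ≤ L → Sm2 u K L →
      F2 (Λ.edI (sq 0 L)) (Λ.Au (sq 0 L) u - Λ.e0 • nnL.Au (sq 0 L) u)
        (C * K ^ 2 * ((L : ℝ) * L / (L : ℝ) ^ 4 + ((L : ℝ) + L) / (L : ℝ) ^ 2)) :=
    fun Λ hΛ L u K h1 h2 => ((hC' Λ hΛ 0 L L).2 u u K L h1 h2 h2).1
  clear hC'
  set K := |K₀| with hKd
  have hK : 0 ≤ K := abs_nonneg _
  obtain ⟨N, hN⟩ := exists_nat_ge (8 * K ^ 2 / ε + 1)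
  have hN1' : (1 : ℝ) ≤ N := by
    have : 0 ≤ 8 * K ^ 2 / ε := by positivity
    linarith
  have hN1 : 1 ≤ N := by exact_mod_cast hN1'
  have hNε : K ^ 2 / (2 * (N : ℝ) ^ 2) ≤ ε / 16 := num1 hε hN1' (by linarith)
  obtain ⟨M, hM⟩ := exists_nat_ge (16 * (48 * (248 * N ^ 3 * K) ^ 2) / ε + 4)
  have hM4' : (4 : ℝ) ≤ M := by
    have : 0 ≤ 16 * (48 * (248 * N ^ 3 * K) ^ 2) / ε := by positivity
    linarith
  have hM4 : 4 ≤ M := by exact_mod_cast hM4'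
  set A : ℝ := 40 * M + 4 * N with hA
  have hA1 : 1 ≤ A := by linarith
  obtain ⟨K', hK'⟩ := exists_nat_ge (|F.τ₂| * ((N : ℝ) ^ 2 * K * A ^ 2) + M)
  have hK'1 : |F.τ₂| * ((N : ℝ) ^ 2 * K * A ^ 2) ≤ K' := by linarith
  have hK'2 : M ≤ K' := by
    have : 0 ≤ |F.τ₂| * ((N : ℝ) ^ 2 * K * A ^ 2) := by positivity
    exact_mod_cast (by linarith : (M : ℝ) ≤ K')
  obtain ⟨L₁, hL₁⟩ := exists_nat_ge (12 * (|C| * K' ^ 2) / ε)
  refine ⟨K', L₁ + N + M, by omega, fun Λ hΛ L hL f hs hf₀ => ?_⟩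
  have hOk : Λ.Ok := ⟨hΛ.1 ▸ F.adm, F.pos.trans_le hΛ.2.2.1⟩
  have hL0 : 0 < L := by omega
  have hL' : (0 : ℝ) < L := by exact_mod_cast hL0
  have hL1 : (1 : ℝ) ≤ L := by exact_mod_cast hL0
  have hf : ∀ x, |f x| ≤ K / (L : ℝ) ^ 2 := fun x =>
    (hf₀ x).trans (div_le_div_of_nonneg_right (le_abs_self _) (by positivity))
  have ha := hOk.one_le_a
  have hτ := hOk.pos
  have he0 : 0 < Λ.e0 := div_pos (by linarith) hτ
  have hc : |Λ.e0⁻¹| ≤ |F.τ₂| := by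
    rw [abs_of_pos (inv_pos.2 he0), Lat.e0, inv_div]
    exact (div_le_self hτ.le ha).trans (hΛ.2.2.2.trans (le_abs_self _))
  -- from nearest neighbours to `Λ`
  have key : ∀ (ed : Finset (Pt × Pt)) (P : Pt → Prop) (u : Pt → ℝ), Λ.edI (sq 0 L) ⊆ ed →
      Sm2 (Λ.e0⁻¹ • u) K' L → G2 ed P (f - nnL.Au (sq 0 L) u) (ε / 4) →
      G2 ed P (f - Λ.Au (sq 0 L) (Λ.e0⁻¹ • u)) ε := fun ed P u hed hu h => by
    have h1 := f2_iff.1 (hC Λ hΛ L _ K' hL1 hu)
    have h5 : (L₁ : ℝ) ≤ L := by exact_mod_cast (by omega : L₁ ≤ L)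
    have h2 := num2 hε hL1 (hL₁.trans h5)
    refine (h.sub (h1.mono (P' := P) hed (fun x _ => ⟨trivial, rfl⟩) h2)).mono subset_rfl
      (fun x hx => ⟨hx, ?_⟩) (by linarith)
    rw [au_smul nnL, smul_smul, mul_inv_cancel₀ he0.ne', one_smul]
    show f x - Λ.Au (sq 0 L) _ x = f x - nnL.Au (sq 0 L) u x - (Λ.Au (sq 0 L) _ x - nnL.Au (sq 0 L) u x)
    ring
  have hAL : ∀ s k, s ≤ 1 → k < N → th s L k ≤ 4 * N / L := fun s k h1 h2 => th_le h1 h2
  refine ⟨fun h0 => ?_, ?_⟩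
  · obtain ⟨a, w, a1, a2, a3, a4⟩ := spectral (s := 0) (by omega) hN1 (by omega) hf fun _ => h0
    rw [pow_zero] at a2
    have hu := sm2_cb (g := ec 0 L) hL' hA1 hK a1 (fun k hk => (s1_ec 0 L k).mono
      ((hAL 0 k (by omega) hk).trans (by gcongr; linarith))) hc hK'1
    refine ⟨_, hu.1, hu.2, f2_iff.2 (key _ _ _ subset_rfl hu.1 ?_)⟩
    refine G2.mono (ed := nnL.edI (sq 0 L)) (P := fun _ => True) ⟨gr w, fun x _ => ?_, le_rfl⟩
      (nnI_subset hOk _) (fun x _ => ⟨trivial, rfl⟩) ?_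
    · rw [Pi.sub_apply, nn_Au]
      by_cases hx : x ∈ sq 0 L
      · have h1 : Rf L 1 (cb (range N ×ˢ range N) a (E2 0 L)) :=
          rf_cb _ _ fun k => by simpa using rf_E2 (s := 0) hL0 k
        rw [a2.dv_edI hx, a3 x hx, ← h1.dv_edI hx]
        exact add_sub_cancel_left _ _
      · rw [hs x hx, dv_off _ hx, dv_off _ hx, sub_zero]
    · refine (sum_le_sum_of_subset_of_nonneg (Lat.edI_subset_edT _) fun _ _ _ => sq_nonneg _).trans ?_
      linarith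
  · obtain ⟨a, w, a1, a2, a3, a4⟩ := spectral (s := 1) le_rfl hN1 (by omega) hf (by omega)
    have hr1 : 1 ≤ L / M := (Nat.le_div_iff_mul_le (by omega)).2 (by omega)
    have hr2 : L / M * M ≤ L := Nat.div_mul_le_self _ _
    have hr3 : L < (L / M + 1) * M := by
      rw [mul_comm]; exact Nat.lt_mul_div_succ _ (by omega)
    have hr4 : L / K' ≤ L / M := Nat.div_le_div_left hK'2 (by omega)
    generalize L / M = r at hr1 hr2 hr3 hr4
    have hr' : (1 : ℝ) ≤ r := by exact_mod_cast hr1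
    have hr5 : 4 * r ≤ L := le_trans (by rw [mul_comm]; exact Nat.mul_le_mul_left _ hM4) hr2
    have hr6 : (r : ℝ) * M ≤ L := by exact_mod_cast hr2
    have hr7 : (L : ℝ) ≤ (r + 1) * M := by exact_mod_cast hr3.le
    obtain ⟨ρ, ρ1, ρ2, ρ3⟩ := exists_cut hSm hr1
    have h10 : (10 : ℝ) / r ≤ 20 * M / L := num4 hL' hr' (by positivity) hr7
    have hu := sm2_cb (g := et ρ L) hL' hA1 hK a1 (fun k hk =>
      ((ρ1.refl (L - 1)).mul (ρ1.mul (s1_ec 1 L k))).mono (by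
        have := hAL 1 k le_rfl hk
        have h2 : A / L = 20 * M / L + (20 * M / L + 4 * N / L) := by rw [hA]; ring
        linarith)) hc hK'1
    have hz : ∀ (k : ℕ) (t : ℤ), (t ≤ r ∨ L - 1 - t ≤ r) → et ρ L k t = 0 := fun k t ht => by
      rcases ht with ht | ht <;> simp [et, ρ2 _ ht]
    refine ⟨_, hu.1, hu.2, fun x hx y hy => ?_,
      f2a_iff.2 (key _ _ _ (Lat.edI_subset_edT _) hu.1 ?_)⟩
    · have h1 : ¬ ((x.1 ≤ r ∨ L - 1 - x.1 ≤ r) ∨ (x.2 ≤ r ∨ L - 1 - x.2 ≤ r)) := fun h => hx (by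
        rcases h with h | h <;> simp [cb, tn, hz _ _ h])
      rw [mem_bl] at hy
      rw [mem_sq]
      simp only [Prod.fst_zero, Prod.snd_zero]
      omega
    · set u₁ := cb (range N ×ˢ range N) a fun k => tn (et ρ L k.1) (et ρ L k.2) with hu₁
      set u₀ := cb (range N ×ˢ range N) a (E2 1 L) with hu₀
      have h1 : Rf L 1 u₁ := rf_cb _ _ fun k => by
        have e1 : ∀ j, et ρ L j (-1) = 1 * et ρ L j 0 := fun j => by
          rw [hz _ _ (by omega), hz _ _ (by omega), mul_zero]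
        have e2 : ∀ j, et ρ L j L = 1 * et ρ L j (L - 1) := fun j => by
          rw [hz _ _ (by omega), hz _ _ (by omega), mul_zero]
        exact rf_tn (e1 _) (e2 _) (e1 _) (e2 _)
      have h2 : ∑ e ∈ nnL.edT (sq 0 L), gr (u₁ - u₀) e ^ 2 ≤
          48 * r * L * (248 * N ^ 3 * K / L) ^ 2 := by
        refine energy_cut hr1 hr5 (fun i x => ?_) fun x hx => ?_
        · have b1 : |df i u₁ x| ≤ (N : ℝ) ^ 2 * K * (61 * (4 * N / L)) := by
            rw [hu₁, df_cb]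
            refine abs_cb_le a1 fun k hk => ?_
            simp only [mem_product, mem_range] at hk
            exact df_tn ((s0_et hr1 hL0 ρ1 ρ2 ρ3 _).mono (by linarith [hAL 1 _ le_rfl hk.1]))
              ((s0_et hr1 hL0 ρ1 ρ2 ρ3 _).mono (by linarith [hAL 1 _ le_rfl hk.2])) i x
          have b2 : |df i u₀ x| ≤ (N : ℝ) ^ 2 * K * (4 * N / L) := by
            rw [hu₀, df_cb]
            refine abs_cb_le a1 fun k hk => ?_
            simp only [mem_product, mem_range] at hk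
            exact df_tn ((s1_ec 1 L _).1.mono (hAL 1 _ le_rfl hk.1))
              ((s1_ec 1 L _).1.mono (hAL 1 _ le_rfl hk.2)) i x
          have b3 : df i (u₁ - u₀) x = df i u₁ x - df i u₀ x := by simp only [df, Pi.sub_apply]; ring
          rw [b3]
          refine (abs_sub _ _).trans ((add_le_add b1 b2).trans (le_of_eq ?_))
          ring
        · rw [mem_sq] at hx
          dsimp only at hx
          rw [Pi.sub_apply, sub_eq_zero]
          refine sum_congr rfl fun k _ => ?_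
          simp only [tn, E2, et]
          rw [ρ3 x.1 (by omega), ρ3 x.2 (by omega), ρ3 (L - 1 - x.1) (by omega),
            ρ3 (L - 1 - x.2) (by omega)]
          ring
      have h3 : 48 * r * L * (248 * N ^ 3 * K / L) ^ 2 ≤ ε / 16 :=
        num3 hε hL' (by positivity) hr6 (by linarith)
      have g1 : G2 (nnL.edT (sq 0 L)) (· ∈ sq 0 L) (lap w) (ε / 16) :=
        ⟨gr w, fun x hx => (dv_gr w hx).symm, a4.trans hNε⟩
      have g2 : G2 (nnL.edT (sq 0 L)) (· ∈ sq 0 L) (lap (u₁ - u₀)) (ε / 16) :=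
        ⟨gr _, fun x hx => (dv_gr _ hx).symm, h2.trans h3⟩
      refine (g1.sub g2).mono (nnT_subset hOk _) (fun x hx => ⟨hx, ?_⟩) (by linarith)
      rw [Pi.sub_apply, Pi.sub_apply, nn_Au, h1.dv_edI hx, a3 x hx]
      simp only [lap, Pi.sub_apply]
      ring

end Crest.Agent.T145.Apx16

namespace Crest.Agent.T145

/-- APX -/
theorem apxStmt (hRJ : RJStmt) (hSm : SmStmt) : ApxStmt := Apx16.apx hRJ hSm

end Crest.Agent.T145
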