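import Crest.Agent.T145.GffDef_8

/-!
# Row 145, module (b): `fluxStmt` (helper36)

The fluxes of the field `x / |x|²` through the sides of the boxes are differences of `arctan`; a Coons patch
of the boundary defect (set to zero on the four vertices of `i₀`) is added as a stream function.
-/

set_option autoImplicit false

namespace Crest.Agent.T145

open Finset Real

namespace Fx36

/-- angle function -/
noncomputable def A (a b : ℝ) : ℝ := arctan (b / a)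

lemma abs_A (a b : ℝ) : |A a b| ≤ 2 := by
  have h1 := arctan_lt_pi_div_two (b / a)
  have h2 := neg_pi_div_two_lt_arctan (b / a)
  have := pi_le_four
  unfold A; rw [abs_le]; constructor <;> linarith

lemma A_add_pos {a b : ℝ} (h : 0 < a * b) : A a b + A b a = π / 2 := by
  have ha : a ≠ 0 := by rintro rfl; simp at h
  have h1 : 0 < b / a := by
    have : b / a = a * b / (a * a) := by field_simp
    rw [this]; exact div_pos h (mul_self_pos.2 ha)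
  unfold A; rw [← inv_div b a, arctan_inv_of_pos h1]; ring

lemma A_add_neg {a b : ℝ} (h : a * b < 0) : A a b + A b a = -(π / 2) := by
  have ha : a ≠ 0 := by rintro rfl; simp at h
  have h1 : b / a < 0 := by
    have : b / a = a * b / (a * a) := by field_simp
    rw [this]; exact div_neg_of_neg_of_pos h (mul_self_pos.2 ha)
  unfold A; rw [← inv_div b a, arctan_inv_of_neg h1]; ring

lemma mvt {a : ℝ} (ha : a ≠ 0) (b : ℝ) :
    ∃ t, b ≤ t ∧ t ≤ b + 1 ∧ A a (b + 1) - A a b = a / (a ^ 2 + t ^ 2) := by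
  have hd : ∀ t, HasDerivAt (fun t => A a t) (a / (a ^ 2 + t ^ 2)) t := fun t => by
    have h := ((hasDerivAt_id t).div_const a).arctan
    have ha2 : 0 < a ^ 2 := by positivity
    have : (1 : ℝ) / (1 + (id t / a) ^ 2) * (1 / a) = a / (a ^ 2 + t ^ 2) := by
      simp only [id]; field_simp
    rw [this] at h; exact h
  obtain ⟨t, ht, h⟩ := exists_hasDerivAt_eq_slope (fun t => A a t) (fun t => a / (a ^ 2 + t ^ 2))
    (show b < b + 1 by linarith) (fun t _ => (hd t).continuousAt.continuousWithinAt) fun t _ => hd t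
  refine ⟨t, ht.1.le, ht.2.le, ?_⟩
  rw [h]; simp

lemma dA_le {a : ℝ} (ha : a ≠ 0) (b : ℝ) : |A a (b + 1) - A a b| ≤ 1 / |a| := by
  obtain ⟨t, -, -, h⟩ := mvt ha b
  have ha' : 0 < |a| := abs_pos.2 ha
  have h2 : 0 < a ^ 2 + t ^ 2 := by positivity
  rw [h, abs_div, abs_of_pos h2, div_le_div_iff₀ h2 ha', ← pow_two, sq_abs]
  nlinarith [sq_nonneg t]

/-- the flux through a side is the field at the centre of the box -/
lemma dA_near {a x y : ℝ} (ha : a ≠ 0) (hax : |a - x| ≤ 1 / 2) (hr : 1 ≤ x ^ 2 + y ^ 2)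
    (hx : |x| ≤ x ^ 2) :
    |A a (y - 1 / 2 + 1) - A a (y - 1 / 2) - x / (x ^ 2 + y ^ 2)| ≤ 30 / (x ^ 2 + y ^ 2) := by
  obtain ⟨t, h1, h2, h⟩ := mvt ha (y - 1 / 2)
  rw [h]
  obtain ⟨u, rfl⟩ : ∃ u, a = x + u := ⟨a - x, by ring⟩
  obtain ⟨v, rfl⟩ : ∃ v, t = y + v := ⟨t - y, by ring⟩
  have hu : |u| ≤ 1 / 2 := by simpa using hax
  have hv : |v| ≤ 1 / 2 := abs_le.2 ⟨by linarith, by linarith⟩
  have hu2 : u ^ 2 ≤ 1 / 4 := by rw [← sq_abs]; nlinarith [abs_nonneg u]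
  have hv2 : v ^ 2 ≤ 1 / 4 := by rw [← sq_abs]; nlinarith [abs_nonneg v]
  set r := x ^ 2 + y ^ 2 with hr'
  set s := (x + u) ^ 2 + (y + v) ^ 2 with hs'
  have hs : r ≤ 12 * s := by
    nlinarith [sq_nonneg (x + 3 / 2 * u), sq_nonneg (y + 3 / 2 * v), sq_nonneg (2 * x + 3 * u),
      sq_nonneg (2 * y + 3 * v)]
  have hs0 : 0 < s := by linarith
  have hr0 : 0 < r := by linarith
  have e : (x + u) / s - x / r = (u * r + x * (r - s)) / (s * r) := by field_simp; ring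
  have hb : |u * r + x * (r - s)| ≤ 5 / 2 * r := by
    have e2 : x * (r - s) = -(2 * x ^ 2 * u + 2 * (x * y) * v + x * (u ^ 2 + v ^ 2)) := by
      rw [hr', hs']; ring
    have b1 : |u * r| ≤ r / 2 := by rw [abs_mul, abs_of_pos hr0]; nlinarith
    have b2 : |2 * x ^ 2 * u| ≤ x ^ 2 := by
      rw [abs_mul, abs_of_nonneg (by positivity : (0 : ℝ) ≤ 2 * x ^ 2)]; nlinarith [sq_nonneg x]
    have hxy : |x * y| ≤ r / 2 := by
      rw [abs_le]; constructor <;> nlinarith [sq_nonneg (x + y), sq_nonneg (x - y)]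
    have b3 : |2 * (x * y) * v| ≤ r / 2 := by
      rw [abs_mul, abs_mul, abs_two]; nlinarith [abs_nonneg (x * y), abs_nonneg v]
    have b4 : |x * (u ^ 2 + v ^ 2)| ≤ x ^ 2 / 2 := by
      rw [abs_mul, abs_of_nonneg (by positivity : (0 : ℝ) ≤ u ^ 2 + v ^ 2)]
      nlinarith [abs_nonneg x, sq_nonneg u, sq_nonneg v]
    have b5 := abs_add_le (u * r) (x * (r - s))
    have b6 := abs_add_three (2 * x ^ 2 * u) (2 * (x * y) * v) (x * (u ^ 2 + v ^ 2))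
    rw [e2, abs_neg] at b5
    rw [e2]
    nlinarith [sq_nonneg y]
  rw [e, abs_div, abs_of_pos (mul_pos hs0 hr0), div_le_div_iff₀ (mul_pos hs0 hr0) hr0]
  nlinarith [mul_le_mul_of_nonneg_right hb hr0.le, mul_pos hr0 hr0,
    mul_le_mul_of_nonneg_right hs hr0.le]

lemma int_abs_le_sq (x : ℤ) : |(x : ℝ)| ≤ (x : ℝ) ^ 2 := by
  have : |x| ≤ x ^ 2 := by
    rcases eq_or_ne x 0 with rfl | h
    · simp
    · have := Int.one_le_abs h
      rw [← sq_abs]; nlinarith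
  exact_mod_cast this

lemma tele (F : ℤ → ℝ) (a : ℤ) (k : ℕ) : ∑ y ∈ Ico a (a + k), (F (y + 1) - F y) = F (a + k) - F a := by
  induction k with
  | zero => simp
  | succ k ih =>
    have : Ico a (a + (k + 1 : ℕ)) = insert (a + k) (Ico a (a + k)) := by
      ext y; simp only [mem_Ico, mem_insert]; push_cast; omega
    rw [this, sum_insert (by simp), ih]; push_cast; ring_nf

/-- the sharp sum over one side of a square ring -/
lemma side_sum {n : ℕ} (hn : 1 ≤ n) :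
    ∑ y ∈ Icc (-(n : ℤ)) n, 1 / ((n : ℝ) ^ 2 + (y : ℝ) ^ 2) ≤ π / 2 * (n : ℝ)⁻¹ + 90 / (n : ℝ) ^ 2 := by
  have hn' : (1 : ℝ) ≤ n := by exact_mod_cast hn
  have ha : (n : ℝ) + 1 / 2 ≠ 0 := by positivity
  set F : ℤ → ℝ := fun y => A (n + 1 / 2) (y - 1 / 2) with hF
  have ht : ∑ y ∈ Icc (-(n : ℤ)) n, (F (y + 1) - F y) = π / 2 := by
    have : Icc (-(n : ℤ)) n = Ico (-(n : ℤ)) (-(n : ℤ) + (2 * n + 1 : ℕ)) := by
      ext y; simp only [mem_Ico, mem_Icc]; push_cast; omega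
    rw [this, tele]
    have e1 : (((-(n : ℤ) + (2 * n + 1 : ℕ) : ℤ) : ℝ) - 1 / 2) / (n + 1 / 2) = 1 := by
      rw [div_eq_one_iff_eq ha]; push_cast; ring
    have e2 : (((-(n : ℤ) : ℤ) : ℝ) - 1 / 2) / (n + 1 / 2) = -1 := by
      rw [div_eq_iff ha]; push_cast; ring
    simp only [hF, A]; rw [e1, e2, arctan_neg, arctan_one]; ring
  have hp : ∀ y ∈ Icc (-(n : ℤ)) n, 1 / ((n : ℝ) ^ 2 + (y : ℝ) ^ 2) ≤
      (F (y + 1) - F y) * (n : ℝ)⁻¹ + 30 / (n : ℝ) ^ 3 := fun y _ => by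
    have h := dA_near (x := n) (y := y) ha (by simp [abs_of_nonneg]) (by nlinarith [sq_nonneg (y : ℝ)])
      (by rw [abs_of_nonneg (by linarith)]; nlinarith)
    have e : F (y + 1) = A (n + 1 / 2) (y - 1 / 2 + 1) := by simp only [hF]; push_cast; ring_nf
    rw [e]
    have h1 := (abs_le.1 h).1
    have hr : 0 < (n : ℝ) ^ 2 + (y : ℝ) ^ 2 := by positivity
    have h2 : 30 / ((n : ℝ) ^ 2 + (y : ℝ) ^ 2) ≤ 30 / (n : ℝ) ^ 2 :=
      div_le_div_of_nonneg_left (by norm_num) (by positivity) (by nlinarith [sq_nonneg (y : ℝ)])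
    have h3 : (n : ℝ) / ((n : ℝ) ^ 2 + (y : ℝ) ^ 2) ≤
        A (n + 1 / 2) (y - 1 / 2 + 1) - F y + 30 / (n : ℝ) ^ 2 := by simp only [hF]; linarith
    have h4 := mul_le_mul_of_nonneg_right h3 (by positivity : (0 : ℝ) ≤ (n : ℝ)⁻¹)
    calc _ = (n : ℝ) / ((n : ℝ) ^ 2 + (y : ℝ) ^ 2) * (n : ℝ)⁻¹ := by field_simp
      _ ≤ _ := h4
      _ = _ := by field_simp
  refine (sum_le_sum hp).trans ?_
  rw [sum_add_distrib, ← sum_mul, ht, sum_const, Int.card_Icc, nsmul_eq_mul]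
  have : ((((n : ℤ) + 1 - -(n : ℤ)).toNat : ℕ) : ℝ) = 2 * n + 1 := by
    have : ((n : ℤ) + 1 - -(n : ℤ)).toNat = 2 * n + 1 := by omega
    rw [this]; push_cast; ring
  rw [this]
  have : (2 * (n : ℝ) + 1) * (30 / (n : ℝ) ^ 3) ≤ 90 / (n : ℝ) ^ 2 := by
    rw [mul_div_assoc', div_le_div_iff₀ (by positivity) (by positivity)]
    nlinarith [mul_nonneg (sub_nonneg.2 hn') (by positivity : (0 : ℝ) ≤ (n : ℝ) ^ 2)]
  linarith

lemma sum_inv_sq (W : ℕ) : ∑ n ∈ Icc 1 W, 1 / (n : ℝ) ^ 2 ≤ 2 := by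
  have : ∀ W : ℕ, ∑ n ∈ Icc 1 (W + 1), 1 / (n : ℝ) ^ 2 ≤ 2 - 1 / ((W : ℝ) + 1) := fun W => by
    induction W with
    | zero => norm_num
    | succ k ih =>
      rw [sum_Icc_succ_top (by omega)]
      have : 1 / (((k + 1 + 1 : ℕ) : ℝ)) ^ 2 ≤ 1 / ((k : ℝ) + 1) - 1 / (((k + 1 : ℕ) : ℝ) + 1) := by
        push_cast
        rw [div_sub_div _ _ (by positivity) (by positivity), div_le_div_iff₀ (by positivity) (by positivity)]
        nlinarith [(Nat.cast_nonneg k : (0 : ℝ) ≤ k)]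
      linarith
  cases W with
  | zero => simp
  | succ k => have h := this k; have : 0 < 1 / ((k : ℝ) + 1) := by positivity
              linarith

lemma sum_inv (W : ℕ) : ∑ n ∈ Icc 1 W, (n : ℝ)⁻¹ ≤ 1 + log W := by
  have h := harmonic_le_one_add_log W
  rw [harmonic_eq_sum_Icc] at h
  push_cast at h; exact h

/-- half of the shell decomposition -/
lemma half (S : Finset Pt) (a b : Pt → ℤ) (W : ℕ) (H : ℕ → ℤ → ℝ) (hH : ∀ n y, 0 ≤ H n y)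
    (hinj : ∀ p q, a p = a q → b p = b q → p = q)
    (hS : ∀ p ∈ S, a p ≠ 0 ∧ |a p| ≤ W ∧ |b p| ≤ |a p|) :
    ∑ p ∈ S, H (a p).natAbs (b p) ≤ 2 * ∑ n ∈ Icc 1 W, ∑ y ∈ Icc (-(n : ℤ)) n, H n y := by
  classical
  rw [sum_sigma' (Icc 1 W) (fun n => Icc (-(n : ℤ)) n) fun n y => H n y]
  set φ : Pt → (Σ _ : ℕ, ℤ) := fun p => ⟨(a p).natAbs, b p⟩ with hφ
  have hm : ∀ p ∈ S, φ p ∈ (Icc 1 W).sigma fun n => Icc (-(n : ℤ)) n := fun p hp => by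
    obtain ⟨h1, h2, h3⟩ := hS p hp
    simp only [hφ, mem_sigma, mem_Icc, Int.natCast_natAbs]
    rw [abs_le] at h3
    refine ⟨⟨by omega, ?_⟩, h3⟩
    have : ((a p).natAbs : ℤ) ≤ W := by rwa [Int.natCast_natAbs]
    exact_mod_cast this
  rw [← sum_fiberwise_of_maps_to hm, mul_sum]
  refine sum_le_sum fun q _ => ?_
  have e : ∑ p ∈ S with φ p = q, H (a p).natAbs (b p) = ∑ p ∈ S with φ p = q, H q.1 q.2 :=
    sum_congr rfl fun p hp => by rw [← (mem_filter.1 hp).2]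
  rw [e, sum_const, nsmul_eq_mul]
  refine mul_le_mul_of_nonneg_right ?_ (hH _ _)
  have : (S.filter fun p => φ p = q).card ≤ ({(q.1 : ℤ), -(q.1 : ℤ)} : Finset ℤ).card := by
    refine card_le_card_of_injOn a (fun p hp => ?_) fun p hp p' hp' h => ?_
    · have := (mem_filter.1 (mem_coe.1 hp)).2
      subst this
      simp only [hφ, coe_insert, coe_singleton, Set.mem_insert_iff, Set.mem_singleton_iff]
      omega
    · have h1 := (mem_filter.1 (mem_coe.1 hp)).2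
      have h2 := (mem_filter.1 (mem_coe.1 hp')).2
      have h3 : (φ p).2 = (φ p').2 := by rw [h1, h2]
      exact hinj _ _ h h3
  have h2 : (S.filter fun p => φ p = q).card ≤ 2 := this.trans card_le_two
  exact_mod_cast h2

/-- summing a pointwise bound -/
lemma key (W : ℕ) (hW : 1 ≤ W) (i₀ : Pt) (S : Finset Pt) (G : Pt → ℝ) (l m : ℝ) (hl : 0 ≤ l) (hm : 0 ≤ m)
    (hS : ∀ i ∈ S, i ≠ i₀ ∧ |i.1 - i₀.1| ≤ W ∧ |i.2 - i₀.2| ≤ W)
    (hG : ∀ i ∈ S, ∀ n : ℝ, 1 ≤ n → n ≤ W → |((i.1 - i₀.1 : ℤ) : ℝ)| ≤ n → |((i.2 - i₀.2 : ℤ) : ℝ)| ≤ n →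
      n ^ 2 ≤ ((i.1 - i₀.1 : ℤ) : ℝ) ^ 2 + ((i.2 - i₀.2 : ℤ) : ℝ) ^ 2 →
      G i ≤ l * (1 / (((i.1 - i₀.1 : ℤ) : ℝ) ^ 2 + ((i.2 - i₀.2 : ℤ) : ℝ) ^ 2)) +
        m * (1 / n ^ 3 + 1 / (n * W))) :
    ∑ i ∈ S, G i ≤ l * (2 * π * log W + 728) + 36 * m := by
  classical
  have hW' : (1 : ℝ) ≤ W := by exact_mod_cast hW
  set H : ℕ → ℤ → ℝ := fun n y => l * (1 / ((n : ℝ) ^ 2 + (y : ℝ) ^ 2)) + m * (1 / (n : ℝ) ^ 3 + 1 / (n * W))
    with hH
  have hH0 : ∀ n y, 0 ≤ H n y := fun n y => by simp only [hH]; positivity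
  have hne : ∀ i ∈ S, i.1 - i₀.1 ≠ 0 ∨ i.2 - i₀.2 ≠ 0 := fun i hi => by
    by_contra h
    push Not at h
    exact (hS i hi).1 (Prod.ext (by omega) (by omega))
  have cast : ∀ x : ℤ, ((x.natAbs : ℕ) : ℝ) = |(x : ℝ)| := fun x => by
    rw [← Int.cast_natCast, Int.natCast_natAbs]; push_cast; rfl
  have one : ∀ x y : ℤ, (x ≠ 0 ∨ y ≠ 0) → |x| ≤ W → |y| ≤ |x| →
      (1 : ℝ) ≤ |(x : ℝ)| ∧ |(x : ℝ)| ≤ W ∧ |(y : ℝ)| ≤ |(x : ℝ)| ∧ x ≠ 0 := fun x y h h1 h2 => by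
    have hx : x ≠ 0 := by
      rintro rfl
      simp only [abs_zero, abs_nonpos_iff] at h2
      simp [h2] at h
    exact ⟨by exact_mod_cast Int.one_le_abs hx, by exact_mod_cast h1, by exact_mod_cast h2, hx⟩
  rw [← sum_filter_add_sum_filter_not S fun i => |i.2 - i₀.2| ≤ |i.1 - i₀.1|]
  have h1 := half (S.filter fun i => |i.2 - i₀.2| ≤ |i.1 - i₀.1|) (fun i => i.1 - i₀.1) (fun i => i.2 - i₀.2)
    W H hH0 (fun p q h h' => Prod.ext (by omega) (by omega)) fun p hp => by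
      obtain ⟨hp, h⟩ := mem_filter.1 hp
      exact ⟨(one _ _ (hne p hp) (hS p hp).2.1 h).2.2.2, (hS p hp).2.1, h⟩
  have h2 := half (S.filter fun i => ¬ |i.2 - i₀.2| ≤ |i.1 - i₀.1|) (fun i => i.2 - i₀.2)
    (fun i => i.1 - i₀.1) W H hH0 (fun p q h h' => Prod.ext (by omega) (by omega)) fun p hp => by
      obtain ⟨hp, h⟩ := mem_filter.1 hp
      exact ⟨(one _ _ (hne p hp).symm (hS p hp).2.2 (not_le.1 h).le).2.2.2, (hS p hp).2.2, (not_le.1 h).le⟩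
  have g1 : ∑ i ∈ S with |i.2 - i₀.2| ≤ |i.1 - i₀.1|, G i ≤
      ∑ i ∈ S with |i.2 - i₀.2| ≤ |i.1 - i₀.1|, H (i.1 - i₀.1).natAbs (i.2 - i₀.2) :=
    sum_le_sum fun i hi => by
      obtain ⟨hi, h⟩ := mem_filter.1 hi
      obtain ⟨a1, a2, a3, -⟩ := one _ _ (hne i hi) (hS i hi).2.1 h
      have := hG i hi _ a1 a2 le_rfl a3 (by rw [sq_abs]; nlinarith [sq_nonneg ((i.2 - i₀.2 : ℤ) : ℝ)])
      simp only [hH, cast, sq_abs]; exact this
  have g2 : ∑ i ∈ S with ¬ |i.2 - i₀.2| ≤ |i.1 - i₀.1|, G i ≤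
      ∑ i ∈ S with ¬ |i.2 - i₀.2| ≤ |i.1 - i₀.1|, H (i.2 - i₀.2).natAbs (i.1 - i₀.1) :=
    sum_le_sum fun i hi => by
      obtain ⟨hi, h⟩ := mem_filter.1 hi
      obtain ⟨a1, a2, a3, -⟩ := one _ _ (hne i hi).symm (hS i hi).2.2 (not_le.1 h).le
      have := hG i hi _ a1 a2 a3 le_rfl (by rw [sq_abs]; nlinarith [sq_nonneg ((i.1 - i₀.1 : ℤ) : ℝ)])
      simp only [hH, cast, sq_abs]; rw [add_comm (((i.2 - i₀.2 : ℤ) : ℝ) ^ 2)]; exact this
  have g3 : ∀ n ∈ Icc 1 W, ∑ y ∈ Icc (-(n : ℤ)) n, H n y ≤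
      l * (π / 2) * (n : ℝ)⁻¹ + (90 * l + 3 * m) * (1 / (n : ℝ) ^ 2) + 3 * m / W := fun n hn => by
    have hn1 := (mem_Icc.1 hn).1
    have hn' : (1 : ℝ) ≤ n := by exact_mod_cast hn1
    simp only [hH]
    rw [sum_add_distrib, ← mul_sum, sum_const, Int.card_Icc, nsmul_eq_mul]
    have : ((((n : ℤ) + 1 - -(n : ℤ)).toNat : ℕ) : ℝ) = 2 * n + 1 := by
      have : ((n : ℤ) + 1 - -(n : ℤ)).toNat = 2 * n + 1 := by omega
      rw [this]; push_cast; ring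
    rw [this]
    have a1 := mul_le_mul_of_nonneg_left (side_sum hn1) hl
    have a2 : (2 * (n : ℝ) + 1) * (m * (1 / (n : ℝ) ^ 3 + 1 / (n * W))) ≤
        3 * n * (m * (1 / (n : ℝ) ^ 3 + 1 / (n * W))) :=
      mul_le_mul_of_nonneg_right (by linarith) (by positivity)
    have a3 : 3 * n * (m * (1 / (n : ℝ) ^ 3 + 1 / (n * W))) = 3 * m * (1 / (n : ℝ) ^ 2) + 3 * m / W := by
      field_simp
    have a4 : l * (π / 2 * (n : ℝ)⁻¹ + 90 / (n : ℝ) ^ 2) =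
        l * (π / 2) * (n : ℝ)⁻¹ + 90 * l * (1 / (n : ℝ) ^ 2) := by ring
    linarith
  have g4 := sum_le_sum g3
  rw [sum_add_distrib, sum_add_distrib, ← mul_sum, ← mul_sum, sum_const, Nat.card_Icc, nsmul_eq_mul] at g4
  have g5 : ((W + 1 - 1 : ℕ) : ℝ) * (3 * m / W) = 3 * m := by
    rw [Nat.add_sub_cancel]; field_simp
  have g6 := mul_le_mul_of_nonneg_left (sum_inv W) (by positivity : 0 ≤ l * (π / 2))
  have g7 := mul_le_mul_of_nonneg_left (sum_inv_sq W) (by positivity : 0 ≤ 90 * l + 3 * m)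
  have g8 := mul_le_mul_of_nonneg_left pi_le_four hl
  nlinarith

lemma alg {X Y a0 a1 a2 a3 q : ℝ} (q0 : 0 ≤ q) (s0 : a0 ^ 2 ≤ 45000 * q) (s1 : a1 ^ 2 ≤ 45000 * q)
    (s2 : a2 ^ 2 ≤ 45000 * q) (s3 : a3 ^ 2 ≤ 45000 * q) (c0 : X * a0 ≤ 150 * q) (c1 : X * a1 ≤ 150 * q)
    (c2 : Y * a2 ≤ 150 * q) (c3 : Y * a3 ≤ 150 * q) :
    ((X + a0 - -(X + a1)) / 2) ^ 2 + ((Y + a2 - -(Y + a3)) / 2) ^ 2 ≤ 1 * (X ^ 2 + Y ^ 2) + 360000 * q ∧
    ((X + a0 + -(X + a1) - (Y + a2) - -(Y + a3)) / 4) ^ 2 ≤ 0 * (X ^ 2 + Y ^ 2) + 360000 * q ∧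
    (X + a0) ^ 2 + (-(X + a1)) ^ 2 + (Y + a2) ^ 2 + (-(Y + a3)) ^ 2 ≤ 4 * (X ^ 2 + Y ^ 2) + 360000 * q := by
  refine ⟨?_, ?_, ?_⟩
  · linarith [sq_nonneg (a0 - a1), sq_nonneg (a2 - a3), show
      ((X + a0 - -(X + a1)) / 2) ^ 2 + ((Y + a2 - -(Y + a3)) / 2) ^ 2 = X ^ 2 + Y ^ 2 + X * a0 + X * a1 +
        Y * a2 + Y * a3 + (a0 ^ 2 + a1 ^ 2 + a2 ^ 2 + a3 ^ 2) / 2 - (a0 - a1) ^ 2 / 4 - (a2 - a3) ^ 2 / 4 by ring]
  · linarith [sq_nonneg (a0 + a1), sq_nonneg (a0 + a2), sq_nonneg (a0 - a3), sq_nonneg (a1 - a2),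
      sq_nonneg (a1 + a3), sq_nonneg (a2 + a3), show
      ((X + a0 + -(X + a1) - (Y + a2) - -(Y + a3)) / 4) ^ 2 = (a0 ^ 2 + a1 ^ 2 + a2 ^ 2 + a3 ^ 2) / 4 -
        ((a0 + a1) ^ 2 + (a0 + a2) ^ 2 + (a0 - a3) ^ 2 + (a1 - a2) ^ 2 + (a1 + a3) ^ 2 + (a2 + a3) ^ 2) / 16 by ring]
  · linarith [sq_nonneg X, sq_nonneg Y, show
      (X + a0) ^ 2 + (-(X + a1)) ^ 2 + (Y + a2) ^ 2 + (-(Y + a3)) ^ 2 = 2 * (X ^ 2 + Y ^ 2) +
        2 * (X * a0 + X * a1 + Y * a2 + Y * a3) + (a0 ^ 2 + a1 ^ 2 + a2 ^ 2 + a3 ^ 2) by ring]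

/-- the three pointwise bounds -/
lemma pt {x y n W : ℝ} (f : Fin 4 → ℝ) (hn : 1 ≤ n) (hW : n ≤ W) (hx : |x| ≤ n) (hy : |y| ≤ n)
    (hr : n ^ 2 ≤ x ^ 2 + y ^ 2)
    (h0 : |f 0 - x / (x ^ 2 + y ^ 2)| ≤ 150 * (1 / n ^ 2 + 1 / W))
    (h1 : |-f 1 - x / (x ^ 2 + y ^ 2)| ≤ 150 * (1 / n ^ 2 + 1 / W))
    (h2 : |f 2 - y / (x ^ 2 + y ^ 2)| ≤ 150 * (1 / n ^ 2 + 1 / W))
    (h3 : |-f 3 - y / (x ^ 2 + y ^ 2)| ≤ 150 * (1 / n ^ 2 + 1 / W)) :
    tl f ≤ 1 * (1 / (x ^ 2 + y ^ 2)) + 360000 * (1 / n ^ 3 + 1 / (n * W)) ∧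
    sa f ≤ 0 * (1 / (x ^ 2 + y ^ 2)) + 360000 * (1 / n ^ 3 + 1 / (n * W)) ∧
    ∑ d, f d ^ 2 ≤ 4 * (1 / (x ^ 2 + y ^ 2)) + 360000 * (1 / n ^ 3 + 1 / (n * W)) := by
  have hn0 : 0 < n := by linarith
  have hW0 : 0 < W := by linarith
  have hr0 : 0 < x ^ 2 + y ^ 2 := by nlinarith
  set e := 150 * (1 / n ^ 2 + 1 / W) with he
  set q := 1 / n ^ 3 + 1 / (n * W) with hq
  have q0 : 0 ≤ q := by positivity
  have e0 : 0 ≤ e := by positivity
  have e1 : 1 / n * e = 150 * q := by rw [he, hq]; field_simp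
  have e2 : e ^ 2 ≤ 45000 * q := by
    have a1 : (1 / n ^ 2) ^ 2 ≤ 1 / n ^ 3 := by
      rw [div_pow, one_pow, ← pow_mul]
      exact one_div_le_one_div_of_le (by positivity) (pow_le_pow_right₀ hn (by norm_num))
    have a2 : (1 / W) ^ 2 ≤ 1 / (n * W) := by
      rw [div_pow, one_pow]
      exact one_div_le_one_div_of_le (by positivity) (by nlinarith)
    rw [he, hq]; nlinarith [sq_nonneg (1 / n ^ 2 - 1 / W)]
  have hd : ∀ z : ℝ, |z| ≤ n → |z / (x ^ 2 + y ^ 2)| ≤ 1 / n := fun z hz => by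
    rw [abs_div, abs_of_pos hr0, div_le_div_iff₀ hr0 hn0]; nlinarith
  have hX := hd x hx
  have hY := hd y hy
  have hs : (x / (x ^ 2 + y ^ 2)) ^ 2 + (y / (x ^ 2 + y ^ 2)) ^ 2 = 1 / (x ^ 2 + y ^ 2) := by field_simp
  set X := x / (x ^ 2 + y ^ 2)
  set Y := y / (x ^ 2 + y ^ 2)
  have sqb : ∀ z : ℝ, |z| ≤ e → z ^ 2 ≤ 45000 * q := fun z hz => by
    rw [← sq_abs]; exact (pow_le_pow_left₀ (abs_nonneg _) hz 2).trans e2
  have crs : ∀ Z z : ℝ, |Z| ≤ 1 / n → |z| ≤ e → Z * z ≤ 150 * q := fun Z z hZ hz => by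
    rw [← e1]
    exact (le_abs_self _).trans (by rw [abs_mul]; exact mul_le_mul hZ hz (abs_nonneg _) (by positivity))
  obtain ⟨a0, ha0⟩ : ∃ a, f 0 = X + a := ⟨f 0 - X, by ring⟩
  obtain ⟨a1, ha1⟩ : ∃ a, f 1 = -(X + a) := ⟨-f 1 - X, by ring⟩
  obtain ⟨a2, ha2⟩ : ∃ a, f 2 = Y + a := ⟨f 2 - Y, by ring⟩
  obtain ⟨a3, ha3⟩ : ∃ a, f 3 = -(Y + a) := ⟨-f 3 - Y, by ring⟩
  rw [ha0, add_sub_cancel_left] at h0
  rw [ha1, neg_neg, add_sub_cancel_left] at h1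
  rw [ha2, add_sub_cancel_left] at h2
  rw [ha3, neg_neg, add_sub_cancel_left] at h3
  have s0 := sqb _ h0
  have s1 := sqb _ h1
  have s2 := sqb _ h2
  have s3 := sqb _ h3
  have c0 := crs _ _ hX h0
  have c1 := crs _ _ hX h1
  have c2 := crs _ _ hY h2
  have c3 := crs _ _ hY h3
  rw [tl, sa, Fin.sum_univ_four, ha0, ha1, ha2, ha3, ← hs]
  exact alg q0 s0 s1 s2 s3 c0 c1 c2 c3

/-- Coons patch -/
noncomputable def coons (W : ℝ) (w : ℤ) (cW cE cS cN : ℤ → ℝ) (X Y : ℤ) : ℝ :=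
  (1 - X / W) * cW Y + X / W * cE Y + (1 - Y / W) * cS X + Y / W * cN X -
    ((1 - X / W) * ((1 - Y / W) * cS 0 + Y / W * cN 0) + X / W * ((1 - Y / W) * cS w + Y / W * cN w))

lemma cvx {s a b M : ℝ} (h0 : 0 ≤ s) (h1 : s ≤ 1) (ha : |a| ≤ M) (hb : |b| ≤ M) :
    |(1 - s) * a + s * b| ≤ M := by
  rw [abs_le] at *
  constructor <;> nlinarith [ha.1, ha.2, hb.1, hb.2]

lemma stream (w : ℕ) (hw : 1 ≤ w) (a b : ℤ) (ha : 1 ≤ a) (ha' : a + 1 < w) (hb : 1 ≤ b) (hb' : b + 1 < w)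
    (cW cE cS cN : ℤ → ℝ) (c1 : cW 0 = cS 0) (c2 : cE 0 = cS w) (c3 : cW w = cN 0) (c4 : cE w = cN w)
    (hB : ∀ t : ℤ, 0 ≤ t → t ≤ w → |cW t| ≤ 10 ∧ |cE t| ≤ 10 ∧ |cS t| ≤ 10 ∧ |cN t| ≤ 10)
    (hD : ∀ t : ℤ, |cW (t + 1) - cW t| ≤ 10 / w ∧ |cE (t + 1) - cE t| ≤ 10 / w ∧
      |cS (t + 1) - cS t| ≤ 10 / w ∧ |cN (t + 1) - cN t| ≤ 10 / w) :
    ∃ χ : ℤ → ℤ → ℝ, (∀ t, χ 0 t = cW t ∧ χ w t = cE t ∧ χ t 0 = cS t ∧ χ t w = cN t) ∧
      (χ a b = 0 ∧ χ (a + 1) b = 0 ∧ χ a (b + 1) = 0 ∧ χ (a + 1) (b + 1) = 0) ∧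
      (∀ X Y : ℤ, 0 ≤ X → X ≤ w → 0 ≤ Y → Y < w → |χ X (Y + 1) - χ X Y| ≤ 50 / w ∨
        (|χ X (Y + 1) - χ X Y| ≤ 60 ∧ a ≤ X ∧ X ≤ a + 1 ∧ b - 1 ≤ Y ∧ Y ≤ b + 1)) ∧
      ∀ X Y : ℤ, 0 ≤ X → X < w → 0 ≤ Y → Y ≤ w → |χ (X + 1) Y - χ X Y| ≤ 50 / w ∨
        (|χ (X + 1) Y - χ X Y| ≤ 60 ∧ a - 1 ≤ X ∧ X ≤ a + 1 ∧ b ≤ Y ∧ Y ≤ b + 1) := by
  have hw' : (0 : ℝ) < w := by exact_mod_cast hw
  have un : ∀ t : ℤ, 0 ≤ t → t ≤ w → 0 ≤ (t : ℝ) / w ∧ (t : ℝ) / w ≤ 1 := fun t h h' =>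
    ⟨div_nonneg (by exact_mod_cast h) hw'.le, (div_le_one hw').2 (by exact_mod_cast h')⟩
  set K := coons w w cW cE cS cN with hK
  obtain ⟨-, -, z1, z2⟩ := hB 0 le_rfl (by omega)
  obtain ⟨-, -, z3, z4⟩ := hB w (by omega) le_rfl
  have bK : ∀ X Y : ℤ, 0 ≤ X → X ≤ w → 0 ≤ Y → Y ≤ w → |K X Y| ≤ 30 := fun X Y h1 h2 h3 h4 => by
    obtain ⟨s0, s1⟩ := un X h1 h2
    obtain ⟨t0, t1⟩ := un Y h3 h4
    have a1 := abs_le.1 (cvx s0 s1 (hB Y h3 h4).1 (hB Y h3 h4).2.1)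
    have a2 := abs_le.1 (cvx t0 t1 (hB X h1 h2).2.2.1 (hB X h1 h2).2.2.2)
    have a3 := abs_le.1 (cvx s0 s1 (cvx t0 t1 z1 z2) (cvx t0 t1 z3 z4))
    simp only [hK, coons]; rw [abs_le]; constructor <;> linarith [a1.1, a1.2, a2.1, a2.2, a3.1, a3.2]
  have dv : ∀ p q : ℝ, |p| ≤ 10 → |q| ≤ 10 → |(p - q) / w| ≤ 20 / w := fun p q hp hq => by
    rw [abs_div, abs_of_pos hw']
    exact div_le_div_of_nonneg_right ((abs_sub _ _).trans (by linarith)) hw'.le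
  have vK : ∀ X Y : ℤ, 0 ≤ X → X ≤ w → |K X (Y + 1) - K X Y| ≤ 50 / w := fun X Y h1 h2 => by
    obtain ⟨s0, s1⟩ := un X h1 h2
    have a1 := abs_le.1 (cvx s0 s1 (hD Y).1 (hD Y).2.1)
    have a2 := abs_le.1 (dv _ _ (hB X h1 h2).2.2.2 (hB X h1 h2).2.2.1)
    have a3 := abs_le.1 (cvx s0 s1 (dv _ _ z2 z1) (dv _ _ z4 z3))
    have e : K X (Y + 1) - K X Y = ((1 - X / w) * (cW (Y + 1) - cW Y) + X / w * (cE (Y + 1) - cE Y)) +
        (cN X - cS X) / w - ((1 - X / w) * ((cN 0 - cS 0) / w) + X / w * ((cN w - cS w) / w)) := by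
      simp only [hK, coons]; push_cast; ring
    have : (50 : ℝ) / w = 10 / w + 20 / w + 20 / w := by ring
    rw [e, abs_le]; constructor <;> linarith [a1.1, a1.2, a2.1, a2.2, a3.1, a3.2]
  have hK' : ∀ X Y : ℤ, 0 ≤ Y → Y ≤ w → |K (X + 1) Y - K X Y| ≤ 50 / w := fun X Y h1 h2 => by
    obtain ⟨s0, s1⟩ := un Y h1 h2
    have a1 := abs_le.1 (cvx s0 s1 (hD X).2.2.1 (hD X).2.2.2)
    have a2 := abs_le.1 (dv _ _ (hB Y h1 h2).2.1 (hB Y h1 h2).1)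
    have a3 := abs_le.1 (cvx s0 s1 (dv _ _ z3 z1) (dv _ _ z4 z2))
    have e : K (X + 1) Y - K X Y = ((1 - Y / w) * (cS (X + 1) - cS X) + Y / w * (cN (X + 1) - cN X)) +
        (cE Y - cW Y) / w - ((1 - Y / w) * ((cS w - cS 0) / w) + Y / w * ((cN w - cN 0) / w)) := by
      simp only [hK, coons]; push_cast; ring
    have : (50 : ℝ) / w = 10 / w + 20 / w + 20 / w := by ring
    rw [e, abs_le]; constructor <;> linarith [a1.1, a1.2, a2.1, a2.2, a3.1, a3.2]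
  have hww : ((w : ℤ) : ℝ) / w = 1 := by push_cast; exact div_self hw'.ne'
  set χ : ℤ → ℤ → ℝ := fun X Y => if (a ≤ X ∧ X ≤ a + 1) ∧ b ≤ Y ∧ Y ≤ b + 1 then 0 else K X Y with hχ
  have bχ : ∀ X Y : ℤ, 0 ≤ X → X ≤ w → 0 ≤ Y → Y ≤ w → |χ X Y| ≤ 30 := fun X Y h1 h2 h3 h4 => by
    simp only [hχ]; split_ifs
    · norm_num
    · exact bK X Y h1 h2 h3 h4
  refine ⟨χ, fun t => ⟨?_, ?_, ?_, ?_⟩, ⟨?_, ?_, ?_, ?_⟩, fun X Y h1 h2 h3 h4 => ?_,
    fun X Y h1 h2 h3 h4 => ?_⟩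
  · simp only [hχ]; rw [if_neg (by omega)]; simp [hK, coons]
  · simp only [hχ]; rw [if_neg (by omega)]; simp only [hK, coons, hww]; ring
  · simp only [hχ]; rw [if_neg (by omega)]; simp only [hK, coons, c1, c2]; push_cast; ring
  · simp only [hχ]; rw [if_neg (by omega)]; simp only [hK, coons, hww, c3, c4]; ring
  · simp only [hχ]; rw [if_pos (by omega)]
  · simp only [hχ]; rw [if_pos (by omega)]
  · simp only [hχ]; rw [if_pos (by omega)]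
  · simp only [hχ]; rw [if_pos (by omega)]
  · by_cases h : a ≤ X ∧ X ≤ a + 1 ∧ b - 1 ≤ Y ∧ Y ≤ b + 1
    · exact Or.inr ⟨(abs_sub _ _).trans (by
        linarith [bχ X (Y + 1) h1 h2 (by omega) (by omega), bχ X Y h1 h2 h3 h4.le]), h⟩
    · left; simp only [hχ]; rw [if_neg (by omega), if_neg (by omega)]; exact vK X Y h1 h2
  · by_cases h : a - 1 ≤ X ∧ X ≤ a + 1 ∧ b ≤ Y ∧ Y ≤ b + 1
    · exact Or.inr ⟨(abs_sub _ _).trans (by
        linarith [bχ (X + 1) Y (by omega) (by omega) h3 h4, bχ X Y h1 h2.le h3 h4]), h⟩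
    · left; simp only [hχ]; rw [if_neg (by omega), if_neg (by omega)]; exact hK' X Y h3 h4

/-- coordinate of a vertex seen from the centre of the box `a` -/
noncomputable def al (a X : ℤ) : ℝ := ((X - a : ℤ) : ℝ) - 1 / 2

lemma al_succ (a X : ℤ) : al a (X + 1) = al a X + 1 := by unfold al; push_cast; ring

lemma al_pos {a X : ℤ} (h : a < X) : 0 < al a X := by
  have : (1 : ℝ) ≤ ((X - a : ℤ) : ℝ) := by exact_mod_cast (by omega : 1 ≤ X - a)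
  unfold al; linarith

lemma al_neg {a X : ℤ} (h : X ≤ a) : al a X < 0 := by
  have : ((X - a : ℤ) : ℝ) ≤ 0 := by exact_mod_cast (by omega : X - a ≤ 0)
  unfold al; linarith

lemma al_ne (a X : ℤ) : al a X ≠ 0 := by
  rcases lt_or_ge a X with h | h
  · exact (al_pos h).ne'
  · exact (al_neg h).ne

lemma AA (a b X Y : ℤ) : A (al a X) (al b Y) + A (al b Y) (al a X) =
    π / 2 * ((if a < X then 1 else -1) * if b < Y then 1 else -1) := by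
  split_ifs with h1 h2 h2
  · rw [A_add_pos (mul_pos (al_pos h1) (al_pos h2))]; ring
  · rw [A_add_neg (mul_neg_of_pos_of_neg (al_pos h1) (al_neg (not_lt.1 h2)))]; ring
  · rw [A_add_neg (mul_neg_of_neg_of_pos (al_neg (not_lt.1 h1)) (al_pos h2))]; ring
  · rw [A_add_pos (mul_pos_of_neg_of_neg (al_neg (not_lt.1 h1)) (al_neg (not_lt.1 h2)))]; ring

/-- main field plus stream correction on one side -/
lemma side_err {α x y c n W : ℝ} (hα : α ≠ 0) (hax : |α - x| ≤ 1 / 2) (hn : 1 ≤ n) (hW : n ≤ W)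
    (hr : n ^ 2 ≤ x ^ 2 + y ^ 2) (hx : |x| ≤ x ^ 2)
    (hc : |c| ≤ 50 / W ∨ (|c| ≤ 60 ∧ |x| ≤ 1 ∧ |y| ≤ 1)) :
    |A α (y - 1 / 2 + 1) - A α (y - 1 / 2) + c - x / (x ^ 2 + y ^ 2)| ≤ 150 * (1 / n ^ 2 + 1 / W) := by
  have hn2 : 1 ≤ n ^ 2 := by nlinarith
  have h := dA_near hα hax (hn2.trans hr) hx
  have h1 : 30 / (x ^ 2 + y ^ 2) ≤ 30 / n ^ 2 := div_le_div_of_nonneg_left (by norm_num) (by linarith) hr
  have h2 : |c| ≤ 120 / n ^ 2 + 50 / W := by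
    have p1 : 0 ≤ 120 / n ^ 2 := by positivity
    have p2 : 0 ≤ 50 / W := div_nonneg (by norm_num) (by linarith)
    rcases hc with hc | ⟨hc, b1, b2⟩
    · linarith
    · have : 60 ≤ 120 / n ^ 2 := by
        rw [le_div_iff₀ (by linarith)]
        have := sq_abs x
        have := sq_abs y
        nlinarith [abs_nonneg x, abs_nonneg y]
      linarith
  have p3 : 0 ≤ 1 / W := div_nonneg (by norm_num) (by linarith)
  have e : A α (y - 1 / 2 + 1) - A α (y - 1 / 2) + c - x / (x ^ 2 + y ^ 2) =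
      (A α (y - 1 / 2 + 1) - A α (y - 1 / 2) - x / (x ^ 2 + y ^ 2)) + c := by ring
  have e1 : 150 * (1 / n ^ 2 + 1 / W) = 30 / n ^ 2 + (120 / n ^ 2 + 50 / W) + 100 * (1 / W) := by ring
  rw [e, e1]
  linarith [abs_add_le (A α (y - 1 / 2 + 1) - A α (y - 1 / 2) - x / (x ^ 2 + y ^ 2)) c]

lemma mem_sq0 {W : ℕ} {i : Pt} : i ∈ sq 0 W ↔ 0 ≤ i.1 ∧ i.1 < W ∧ 0 ≤ i.2 ∧ i.2 < W := by
  simp [sq, and_assoc]

lemma main (W : ℕ) (a b : ℤ) (ha : (W : ℤ) ≤ 8 * a) (ha' : 2 * a + 2 ≤ W) (hb : (W : ℤ) ≤ 8 * b)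
    (hb' : 2 * b + 2 ≤ W) (hW : 8 ≤ W) :
    ∃ f, Flux W (a, b) f ∧ ∀ i ∈ sq 0 W, ∀ n : ℝ, 1 ≤ n → n ≤ W →
      n ^ 2 ≤ ((i.1 - a : ℤ) : ℝ) ^ 2 + ((i.2 - b : ℤ) : ℝ) ^ 2 →
      |f i 0 - ((i.1 - a : ℤ) : ℝ) / (((i.1 - a : ℤ) : ℝ) ^ 2 + ((i.2 - b : ℤ) : ℝ) ^ 2)| ≤
        150 * (1 / n ^ 2 + 1 / W) ∧
      |-f i 1 - ((i.1 - a : ℤ) : ℝ) / (((i.1 - a : ℤ) : ℝ) ^ 2 + ((i.2 - b : ℤ) : ℝ) ^ 2)| ≤
        150 * (1 / n ^ 2 + 1 / W) ∧
      |f i 2 - ((i.2 - b : ℤ) : ℝ) / (((i.1 - a : ℤ) : ℝ) ^ 2 + ((i.2 - b : ℤ) : ℝ) ^ 2)| ≤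
        150 * (1 / n ^ 2 + 1 / W) ∧
      |-f i 3 - ((i.2 - b : ℤ) : ℝ) / (((i.1 - a : ℤ) : ℝ) ^ 2 + ((i.2 - b : ℤ) : ℝ) ^ 2)| ≤
        150 * (1 / n ^ 2 + 1 / W) := by
  have hW' : (8 : ℝ) ≤ W := by exact_mod_cast hW
  have hW0 : (0 : ℝ) < W := by linarith
  set u : ℝ := π / (2 * W) with hu
  have uW : u * ((W : ℤ) : ℝ) = π / 2 := by rw [hu]; push_cast; field_simp
  have u0 : 0 ≤ u := by positivity
  have u2 : u ≤ 2 / W := by
    rw [hu, div_le_div_iff₀ (by positivity) hW0]; nlinarith [pi_le_four]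
  have ut : ∀ t : ℤ, 0 ≤ t → t ≤ W → 0 ≤ u * t ∧ u * t ≤ 2 := fun t h h' =>
    ⟨mul_nonneg u0 (by exact_mod_cast h), by
      have : u * t ≤ u * ((W : ℤ) : ℝ) := mul_le_mul_of_nonneg_left (by exact_mod_cast h') u0
      linarith [pi_le_four]⟩
  have far : ∀ c : ℤ, (W : ℤ) ≤ 8 * c → 2 * c + 2 ≤ W → ∀ β : ℝ,
      |A (al c 0) (β + 1) - A (al c 0) β| ≤ 8 / W ∧ |A (al c W) (β + 1) - A (al c W) β| ≤ 8 / W :=
    fun c h h' β => by
      have h1 : (W : ℝ) ≤ 8 * c := by exact_mod_cast h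
      have h2 : 2 * (c : ℝ) + 2 ≤ W := by exact_mod_cast h'
      have k1 : W / 8 ≤ |al c 0| := by
        rw [abs_of_neg (al_neg (by omega))]; unfold al; push_cast; linarith
      have k2 : W / 8 ≤ |al c W| := by
        rw [abs_of_pos (al_pos (by omega))]; unfold al; push_cast; linarith
      have k : ∀ z : ℝ, W / 8 ≤ z → 1 / z ≤ 8 / W := fun z hz => by
        rw [div_le_div_iff₀ (by linarith) hW0]; linarith
      exact ⟨(dA_le (al_ne _ _) β).trans (k _ k1), (dA_le (al_ne _ _) β).trans (k _ k2)⟩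
  have p4 := pi_le_four
  have p0 := pi_pos
  obtain ⟨χ, hb1, ⟨z1, z2, z3, z4⟩, hv, hh⟩ := stream W (by omega) a b (by omega) (by omega) (by omega)
    (by omega) (fun y => -(u * y) - A (al a 0) (al b y) + π / 2) (fun y => u * y - A (al a W) (al b y))
    (fun x => A (al b 0) (al a x) + u * x) (fun x => A (al b W) (al a x) - u * x + π / 2)
    (by have := AA a b 0 0; rw [if_neg (by omega), if_neg (by omega)] at this; simp only [Int.cast_zero]; linarith)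
    (by have := AA a b W 0; rw [if_pos (by omega), if_neg (by omega)] at this; simp only [Int.cast_zero]; linarith)
    (by have := AA a b 0 W; rw [if_neg (by omega), if_pos (by omega)] at this; simp only [Int.cast_zero]; linarith)
    (by have := AA a b W W; rw [if_pos (by omega), if_pos (by omega)] at this; linarith)
    (fun t h h' => by
      obtain ⟨t0, t1⟩ := ut t h h'
      have b1 := abs_le.1 (abs_A (al a 0) (al b t))
      have b2 := abs_le.1 (abs_A (al a W) (al b t))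
      have b3 := abs_le.1 (abs_A (al b 0) (al a t))
      have b4 := abs_le.1 (abs_A (al b W) (al a t))
      simp only [abs_le]
      refine ⟨⟨?_, ?_⟩, ⟨?_, ?_⟩, ⟨?_, ?_⟩, ?_, ?_⟩ <;> linarith [b1.1, b1.2, b2.1, b2.2, b3.1, b3.2, b4.1, b4.2])
    (fun t => by
      have b1 := abs_le.1 (far a ha ha' (al b t)).1
      have b2 := abs_le.1 (far a ha ha' (al b t)).2
      have b3 := abs_le.1 (far b hb hb' (al a t)).1
      have b4 := abs_le.1 (far b hb hb' (al a t)).2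
      have : (10 : ℝ) / W = 2 / W + 8 / W := by ring
      simp only [abs_le, al_succ]; push_cast
      refine ⟨⟨?_, ?_⟩, ⟨?_, ?_⟩, ⟨?_, ?_⟩, ?_, ?_⟩ <;> linarith [b1.1, b1.2, b2.1, b2.2, b3.1, b3.2, b4.1, b4.2])
  set Fh : ℤ → ℤ → ℝ := fun X Y =>
    A (al a X) (al b (Y + 1)) - A (al a X) (al b Y) + (χ X (Y + 1) - χ X Y) with hFh
  set Fv : ℤ → ℤ → ℝ := fun X Y =>
    A (al b Y) (al a (X + 1)) - A (al b Y) (al a X) + -(χ (X + 1) Y - χ X Y) with hFv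
  refine ⟨fun i => ![Fh (i.1 + 1) i.2, -Fh i.1 i.2, Fv i.1 (i.2 + 1), -Fv i.1 i.2],
    ⟨mem_sq0.2 (by simp only []; omega), fun d => ?_, fun i hi => ⟨fun hne => ?_, ?_, ?_, fun h => ?_,
      fun h => ?_⟩⟩, fun i hi n hn hnW hr => ?_⟩
  · have e0 : ∀ c : ℤ, al c c = -(1 / 2) := fun c => by simp [al]
    have e1 : ∀ c : ℤ, al c (c + 1) = 1 / 2 := fun c => by rw [al_succ, e0]; ring
    have a1 : A (1 / 2) (1 / 2) = π / 4 := by unfold A; rw [div_self (by norm_num), arctan_one]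
    have a2 : A (1 / 2) (-(1 / 2)) = -(π / 4) := by
      unfold A; rw [neg_div, div_self (by norm_num), arctan_neg, arctan_one]
    have a3 : A (-(1 / 2)) (1 / 2) = -(π / 4) := by
      unfold A; rw [div_neg, div_self (by norm_num), arctan_neg, arctan_one]
    have a4 : A (-(1 / 2)) (-(1 / 2)) = π / 4 := by unfold A; rw [div_self (by norm_num), arctan_one]
    simp only [hFh, hFv, e0, e1, a1, a2, a3, a4, z1, z2, z3, z4]
    fin_cases d <;> simp <;> ring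
  · have s1 := AA a b (i.1 + 1) (i.2 + 1)
    have s2 := AA a b (i.1 + 1) i.2
    have s3 := AA a b i.1 (i.2 + 1)
    have s4 := AA a b i.1 i.2
    have hne' : i.1 ≠ a ∨ i.2 ≠ b := by
      by_contra h
      push Not at h
      exact hne (Prod.ext h.1 h.2)
    rw [Fin.sum_univ_four]
    simp only [hFh, hFv, Matrix.cons_val_zero, Matrix.cons_val_one, Matrix.cons_val]
    split_ifs at s1 s2 s3 s4 <;> first | omega | linarith
  · split_ifs with h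
    · simp
    · have : i.1 + 1 = W := by
        rw [mem_sq0] at h hi; simp only [Prod.fst_add, Prod.snd_add] at h; omega
      simp only [Matrix.cons_val_zero, hFh, this, (hb1 _).2.1]; push_cast; ring
  · split_ifs with h
    · simp
    · have : i.2 + 1 = W := by
        rw [mem_sq0] at h hi; simp only [Prod.fst_add, Prod.snd_add] at h; omega
      simp only [Matrix.cons_val, hFv, this, (hb1 _).2.2.2]; push_cast; ring
  · simp only [Matrix.cons_val_zero, Matrix.cons_val_one, hFh, h, (hb1 _).1]; push_cast; ring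
  · simp only [Matrix.cons_val, hFv, h, (hb1 _).2.2.1]; push_cast; ring
  · rw [mem_sq0] at hi
    have cst : ∀ z : ℤ, -1 ≤ z → z ≤ 1 → |(z : ℝ)| ≤ 1 := fun z h h' => by
      exact_mod_cast abs_le.2 ⟨h, h'⟩
    have ax : ∀ c X : ℤ, |al c X - ((X - c : ℤ) : ℝ)| ≤ 1 / 2 ∧
        |al c (X + 1) - ((X - c : ℤ) : ℝ)| ≤ 1 / 2 := fun c X => by
      rw [al_succ]; unfold al; constructor <;> rw [abs_le] <;> constructor <;> linarith
    simp only [Matrix.cons_val_zero, Matrix.cons_val_one, Matrix.cons_val, neg_neg, hFh, hFv]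
    refine ⟨?_, ?_, ?_, ?_⟩
    · rw [al_succ b]
      exact side_err (al_ne _ _) (ax a i.1).2 hn hnW hr (int_abs_le_sq _)
        ((hv (i.1 + 1) i.2 (by omega) (by omega) (by omega) (by omega)).imp id fun h =>
          ⟨h.1, cst _ (by omega) (by omega), cst _ (by omega) (by omega)⟩)
    · rw [al_succ b]
      exact side_err (al_ne _ _) (ax a i.1).1 hn hnW hr (int_abs_le_sq _)
        ((hv i.1 i.2 (by omega) (by omega) (by omega) (by omega)).imp id fun h =>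
          ⟨h.1, cst _ (by omega) (by omega), cst _ (by omega) (by omega)⟩)
    · rw [al_succ a, add_comm (((i.1 - a : ℤ) : ℝ) ^ 2)]
      exact side_err (al_ne _ _) (ax b i.2).2 hn hnW (by linarith) (int_abs_le_sq _)
        ((hh i.1 (i.2 + 1) (by omega) (by omega) (by omega) (by omega)).imp (by rw [abs_neg]; exact id)
          fun h => ⟨by rw [abs_neg]; exact h.1, cst _ (by omega) (by omega), cst _ (by omega) (by omega)⟩)
    · rw [al_succ a, add_comm (((i.1 - a : ℤ) : ℝ) ^ 2)]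
      exact side_err (al_ne _ _) (ax b i.2).1 hn hnW (by linarith) (int_abs_le_sq _)
        ((hh i.1 i.2 (by omega) (by omega) (by omega) (by omega)).imp (by rw [abs_neg]; exact id)
          fun h => ⟨by rw [abs_neg]; exact h.1, cst _ (by omega) (by omega), cst _ (by omega) (by omega)⟩)

end Fx36

open Fx36 in
theorem fluxStmt : FluxStmt := by
  refine ⟨13000000, 1 / 100, by norm_num, Filter.eventually_atTop.2 ⟨40, fun W hW => ?_⟩⟩
  refine ⟨sq ((W / 4 : ℕ), (W / 4 : ℕ)) (W / 8), ?_, fun i₀ hi₀ => ?_⟩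
  · have h1 : (W : ℝ) ≤ 10 * ((W / 8 : ℕ) : ℝ) := by exact_mod_cast (by omega : W ≤ 10 * (W / 8))
    have : (sq ((W / 4 : ℕ), (W / 4 : ℕ)) (W / 8)).card = (W / 8) * (W / 8) := by
      simp only [sq, card_product, Int.card_Ico, add_sub_cancel_left, Int.toNat_natCast]
    rw [this]; push_cast
    nlinarith [(Nat.cast_nonneg W : (0 : ℝ) ≤ W)]
  · obtain ⟨a, b⟩ := i₀
    simp only [sq, mem_product, mem_Ico] at hi₀
    obtain ⟨f, hf, hb⟩ := main W a b (by omega) (by omega) (by omega) (by omega) (by omega)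
    have hS : ∀ i ∈ (sq 0 W).erase (a, b), i ≠ (a, b) ∧ |i.1 - a| ≤ W ∧ |i.2 - b| ≤ W := fun i hi => by
      obtain ⟨h1, h2⟩ := mem_erase.1 hi
      rw [mem_sq0] at h2
      exact ⟨h1, abs_le.2 ⟨by omega, by omega⟩, abs_le.2 ⟨by omega, by omega⟩⟩
    have P := fun i (hi : i ∈ (sq 0 W).erase (a, b)) n hn hnW hx hy hr =>
      pt (f i) hn hnW hx hy hr (hb i (mem_of_mem_erase hi) n hn hnW hr).1
        (hb i (mem_of_mem_erase hi) n hn hnW hr).2.1 (hb i (mem_of_mem_erase hi) n hn hnW hr).2.2.1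
        (hb i (mem_of_mem_erase hi) n hn hnW hr).2.2.2
    have k1 := key W (by omega) (a, b) _ (fun i => tl (f i)) 1 360000 (by norm_num) (by norm_num) hS
      fun i hi n a1 a2 a3 a4 a5 => (P i hi n a1 a2 a3 a4 a5).1
    have k2 := key W (by omega) (a, b) _ (fun i => sa (f i)) 0 360000 (by norm_num) (by norm_num) hS
      fun i hi n a1 a2 a3 a4 a5 => (P i hi n a1 a2 a3 a4 a5).2.1
    have k3 := key W (by omega) (a, b) _ (fun i => ∑ d, f i d ^ 2) 4 360000 (by norm_num) (by norm_num) hS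
      fun i hi n a1 a2 a3 a4 a5 => (P i hi n a1 a2 a3 a4 a5).2.2
    refine ⟨f, hf, by linarith, by linarith, ?_⟩
    rw [← add_sum_erase _ _ hf.1]
    have hl : 1 ≤ log W := by
      rw [le_log_iff_exp_le (by exact_mod_cast (by omega : 0 < W))]
      have : (40 : ℝ) ≤ W := by exact_mod_cast hW
      linarith [exp_one_lt_d9]
    have h0 : ∑ d, f (a, b) d ^ 2 ≤ 16 := by
      simp only [hf.2.1, Fin.sum_univ_four]; nlinarith [pi_le_four, pi_pos]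
    nlinarith [pi_le_four, pi_pos]

end Crest.Agent.T145
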