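import Crest.Agent.T145.GfHiA_19
import Crest.Agent.T145.GffDef_8
import Crest.Agent.T145.GeoB_51

/-!
# Row 145 (helper19): `HiStmt` (T3a, high modes)
-/

set_option autoImplicit false
set_option linter.unusedVariables false

namespace Crest.Agent.T145.Hi19

open Finset Matrix

/-! ## flows -/
section flows
variable {V : Type*} [DecidableEq V] {ed ed' : Finset (V × V)} {f g : V → ℝ} {n m : ℝ}

omit [DecidableEq V] in
theorem f2_le (h : F2 ed f n) (hn : n ≤ m) : F2 ed f m := h.imp fun φ h => ⟨h.1, h.2.trans hn⟩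

omit [DecidableEq V] in
theorem f2_zero (ed : Finset (V × V)) : F2 ed (0 : V → ℝ) 0 :=
  ⟨0, by ext x; simp [dv], by simp⟩

omit [DecidableEq V] in
theorem f2_add (h : F2 ed f n) (h' : F2 ed g m) : F2 ed (f + g) (2 * n + 2 * m) := by
  obtain ⟨φ, rfl, a⟩ := h
  obtain ⟨ψ, rfl, b⟩ := h'
  refine ⟨φ + ψ, by ext x; simp [dv, add_mul, sum_add_distrib], ?_⟩
  have : ∑ e ∈ ed, (φ + ψ) e ^ 2 ≤ ∑ e ∈ ed, (2 * φ e ^ 2 + 2 * ψ e ^ 2) :=
    sum_le_sum fun e _ => by simp only [Pi.add_apply]; nlinarith [sq_nonneg (φ e - ψ e)]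
  rw [sum_add_distrib, ← mul_sum, ← mul_sum] at this
  linarith

omit [DecidableEq V] in
theorem f2_smul (c : ℝ) (h : F2 ed f n) : F2 ed (c • f) (c ^ 2 * n) := by
  obtain ⟨φ, rfl, a⟩ := h
  refine ⟨c • φ, by ext x; simp [dv, mul_sum, mul_assoc], ?_⟩
  simp only [Pi.smul_apply, smul_eq_mul, mul_pow, ← mul_sum]
  exact mul_le_mul_of_nonneg_left a (sq_nonneg c)

theorem f2_union (hd : Disjoint ed ed') (h : F2 ed f n) (h' : F2 ed' g m) :
    F2 (ed ∪ ed') (f + g) (n + m) := by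
  obtain ⟨φ, rfl, a⟩ := h
  obtain ⟨ψ, rfl, b⟩ := h'
  have e1 : ∀ F : V × V → ℝ → ℝ, ∑ e ∈ ed ∪ ed', F e (if e ∈ ed then φ e else ψ e) =
      ∑ e ∈ ed, F e (φ e) + ∑ e ∈ ed', F e (ψ e) := fun F => by
    rw [sum_union hd]
    congr 1
    · exact sum_congr rfl fun e he => by rw [if_pos he]
    · exact sum_congr rfl fun e he => by rw [if_neg (disjoint_right.1 hd he)]
  refine ⟨fun e => if e ∈ ed then φ e else ψ e, ?_, ?_⟩
  · ext x
    exact (e1 fun e y => y * (ind (e.2 = x) - ind (e.1 = x))).symm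
  · rw [e1 fun e y => y ^ 2]; linarith

theorem f2_mono (hs : ed ⊆ ed') (h : F2 ed f n) : F2 ed' f n := by
  have := f2_union disjoint_sdiff h (f2_zero (ed' \ ed))
  rwa [union_sdiff_of_subset hs, add_zero, add_zero] at this

theorem f2_sum {κ : Type*} [DecidableEq κ] (I : Finset κ) (E : κ → Finset (V × V)) (F : κ → V → ℝ)
    (N : κ → ℝ) (hd : ∀ i ∈ I, ∀ j ∈ I, i ≠ j → Disjoint (E i) (E j))
    (h : ∀ i ∈ I, F2 (E i) (F i) (N i)) : F2 (I.biUnion E) (∑ i ∈ I, F i) (∑ i ∈ I, N i) := by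
  induction I using Finset.induction_on with
  | empty => simpa using f2_zero ∅
  | insert a I ha ih =>
    rw [biUnion_insert, sum_insert ha, sum_insert ha]
    refine f2_union ?_ (h a (mem_insert_self _ _)) (ih (fun i hi j hj => hd i (mem_insert_of_mem hi) j
      (mem_insert_of_mem hj)) fun i hi => h i (mem_insert_of_mem hi))
    exact (disjoint_biUnion_right _ _ _).2 fun i hi =>
      hd a (mem_insert_self _ _) i (mem_insert_of_mem hi) fun e => ha (e ▸ hi)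

end flows

/-! ## block averages -/

/-- the block of side `r` that contains `x` -/
noncomputable def blk (r : ℕ) (x : Pt) : Finset Pt := sq (r * (x.1 / r), r * (x.2 / r)) r

theorem Plo_eq (r : ℕ) (f : Pt → ℝ) (x : Pt) : Plo r f x = (∑ y ∈ blk r x, f y) / (r : ℝ) ^ 2 := rfl

theorem blk_eq (r : ℕ) (x : Pt) : blk r x = sq (tile 0 r (tileOf 0 r x)) r := by
  simp [blk, tile, tileOf]

variable {r R : ℕ} {x y : Pt} {D : Finset Pt}

theorem mem_blk (hr : 0 < r) : y ∈ blk r x ↔ y.1 / r = x.1 / r ∧ y.2 / r = x.2 / r := by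
  rw [blk_eq, mem_tile_iff hr]; simp [tileOf]

theorem card_blk (r : ℕ) (x : Pt) : (blk r x).card = r ^ 2 := card_sq _ _

theorem self_mem_blk (hr : 0 < r) (x : Pt) : x ∈ blk r x := (mem_blk hr).2 ⟨rfl, rfl⟩

theorem blk_of_mem (hr : 0 < r) (h : y ∈ blk r x) : blk r y = blk r x := by
  rw [mem_blk hr] at h
  rw [blk, blk, h.1, h.2]

theorem blk_comm (hr : 0 < r) : y ∈ blk r x ↔ x ∈ blk r y := by
  rw [mem_blk hr, mem_blk hr, eq_comm, eq_comm (a := y.2 / r)]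

theorem blk_zero (r : ℕ) : blk r 0 = sq 0 r := by simp [blk, Prod.zero_eq_mk]

theorem blk_top (hx : x ∈ sq 0 r) : blk r x = sq 0 r := by
  have hr : 0 < r := by rw [mem_sq] at hx; simp only [Prod.fst_zero] at hx; omega
  rw [← blk_zero] at hx ⊢
  exact blk_of_mem hr hx

/-- `D` is a union of blocks -/
def Sat (r : ℕ) (D : Finset Pt) : Prop := ∀ x ∈ D, blk r x ⊆ D

theorem sat_blk (hR : 0 < R) (h : r ∣ R) (z : Pt) : Sat r (blk R z) := by
  obtain ⟨j, rfl⟩ := h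
  have hr : 0 < r := Nat.pos_of_mul_pos_right hR
  intro x hx y hy
  rw [mem_blk hr] at hy
  rw [mem_blk hR] at hx ⊢
  push_cast at hx ⊢
  have h0 : (0 : ℤ) ≤ r := by positivity
  rw [← Int.ediv_ediv_of_nonneg h0, ← Int.ediv_ediv_of_nonneg h0,
    ← Int.ediv_ediv_of_nonneg h0, ← Int.ediv_ediv_of_nonneg h0] at hx ⊢
  rw [hy.1, hy.2]; exact hx

theorem sat_sq (hR : 0 < R) (h : r ∣ R) : Sat r (sq 0 R) := blk_zero R ▸ sat_blk hR h 0

theorem sum_Plo_mul (hr : 0 < r) (hD : Sat r D) (f g : Pt → ℝ) :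
    ∑ x ∈ D, Plo r f x * g x = ∑ x ∈ D, f x * Plo r g x := by
  have e : ∀ (f : Pt → ℝ), ∀ x ∈ D, Plo r f x = ∑ y ∈ D, ind (y ∈ blk r x) * f y / (r : ℝ) ^ 2 :=
    fun f x hx => by
      rw [Plo_eq, ← sum_div, ← sum_subset (hD x hx) fun y _ hy => by rw [ind_neg hy, zero_mul]]
      exact congrArg (· / _) (sum_congr rfl fun y hy => by rw [ind_pos hy, one_mul])
  rw [sum_congr rfl fun x hx => by rw [e f x hx, sum_mul], sum_comm]
  refine sum_congr rfl fun x hx => ?_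
  rw [e g x hx, mul_sum]
  refine sum_congr rfl fun y _ => ?_
  rw [ind_congr (blk_comm hr)]; ring

theorem Plo_const (hr : 0 < r) (c : ℝ) (x : Pt) : Plo r (fun _ => c) x = c := by
  rw [Plo_eq, sum_const, card_blk, nsmul_eq_mul]
  push_cast
  field_simp

theorem sum_Plo (hr : 0 < r) (hD : Sat r D) (f : Pt → ℝ) : ∑ x ∈ D, Plo r f x = ∑ x ∈ D, f x := by
  simpa [Plo_const hr] using sum_Plo_mul hr hD f fun _ => 1

theorem Plo_Plo (hr : 0 < r) (f : Pt → ℝ) : Plo r (Plo r f) = Plo r f := funext fun x => by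
  rw [Plo_eq r (Plo r f), sum_congr rfl fun y hy => by rw [Plo_eq, blk_of_mem hr hy, ← Plo_eq]]
  exact Plo_const hr _ x

theorem Plo_one (f : Pt → ℝ) : Plo 1 f = f := funext fun x => by
  have : blk 1 x = {x} := by ext y; rw [mem_blk one_pos]; simp [Prod.ext_iff]
  rw [Plo_eq, this]; simp

theorem abs_Plo_le (hr : 0 < r) {f : Pt → ℝ} {K : ℝ} (h : ∀ y ∈ blk r x, |f y| ≤ K) :
    |Plo r f x| ≤ K := by
  have h0 : (0 : ℝ) < (r : ℝ) ^ 2 := by positivity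
  rw [Plo_eq, abs_div, abs_of_pos h0, div_le_iff₀ h0]
  refine (abs_sum_le_sum_abs _ _).trans ((sum_le_card_nsmul _ _ K h).trans (le_of_eq ?_))
  rw [card_blk, nsmul_eq_mul]; push_cast; ring

theorem Plo_cfg (r : ℕ) (x : Pt) (s : Cfg Pt) :
    Plo r (fun z => (s z : ℝ)) x = pr (fun y => ind (y ∈ blk r x) / (r : ℝ) ^ 2) s := by
  rw [pr_of_fsupp _ s (U := blk r x) fun y hy => by rw [ind_neg hy, zero_div], Plo_eq, sum_div]
  exact sum_congr rfl fun y hy => by rw [ind_pos hy]; ring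

/-! ## flows of bands -/

variable {Λ : Lat}

theorem f2_sq (hR : R1Stmt) (hΛ : Λ.Ok) {a : Pt} {f : Pt → ℝ} (hs : Sup (sq a r) f)
    (h0 : ∑ x ∈ sq a r, f x = 0) :
    F2 (Λ.edI (sq a r)) f (2 * (r : ℝ) ^ 2 * ∑ x ∈ sq a r, f x ^ 2) :=
  f2_le (hR Λ a r r f hΛ hs h0).1 (le_of_eq (by rw [two_mul]; rfl))

theorem f2_bdd (hR : R1Stmt) (hΛ : Λ.Ok) {a : Pt} {f : Pt → ℝ} (hs : Sup (sq a r) f)
    (h0 : ∑ x ∈ sq a r, f x = 0) {κ : ℝ} (hκ : ∀ x ∈ sq a r, |f x| ≤ κ) :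
    F2 (Λ.edI (sq a r)) f (2 * (r : ℝ) ^ 4 * κ ^ 2) := by
  refine f2_le (f2_sq hR hΛ hs h0) ?_
  have : ∑ x ∈ sq a r, f x ^ 2 ≤ (r : ℝ) ^ 2 * κ ^ 2 := by
    refine (sum_le_card_nsmul _ _ (κ ^ 2) fun x hx => ?_).trans (le_of_eq ?_)
    · exact sq_le_sq' (abs_le.1 (hκ x hx)).1 (abs_le.1 (hκ x hx)).2
    · rw [card_sq, nsmul_eq_mul]; push_cast; ring
  nlinarith [mul_le_mul_of_nonneg_left this (sq_nonneg (r : ℝ))]

theorem f2_tiles (hR : R1Stmt) (hΛ : Λ.Ok) {L : ℕ} (hr : 0 < r) (hL : r ∣ L) {f : Pt → ℝ}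
    (hs : Sup (sq 0 L) f) (h0 : ∀ x ∈ sq 0 L, ∑ y ∈ blk r x, f y = 0) :
    F2 (Λ.edI (sq 0 L)) f (2 * (r : ℝ) ^ 2 * ∑ x ∈ sq 0 L, f x ^ 2) := by
  obtain ⟨k, rfl⟩ := hL
  rw [mul_comm r k] at *
  have h := f2_sum (sq 0 k) (fun i => Λ.edI (sq (tile 0 r i) r))
    (fun i x => ind (x ∈ sq (tile 0 r i) r) * f x)
    (fun i => 2 * (r : ℝ) ^ 2 * ∑ x ∈ sq (tile 0 r i) r, f x ^ 2)
    (fun i _ j _ hij => Lat.disjoint_edI (tile_disjoint 0 r hij)) fun i hi => by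
      refine f2_le (f2_sq hR hΛ (fun x hx => by rw [ind_neg hx, zero_mul]) ?_) (le_of_eq ?_)
      · have hx := self_mem_sq (tile 0 r i) hr
        have := h0 _ (tile_subset 0 r hi hx)
        rw [blk_eq, (mem_tile_iff hr).1 hx] at this
        rw [← this]
        exact sum_congr rfl fun x hx => by rw [ind_pos hx, one_mul]
      · exact congrArg (_ * ·) (sum_congr rfl fun x hx => by rw [ind_pos hx, one_mul])
  rw [← mul_sum, ← sum_tiling] at h
  have e : (∑ i ∈ sq 0 k, fun x => ind (x ∈ sq (tile 0 r i) r) * f x) = f := by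
    ext x
    rw [Finset.sum_apply]
    by_cases hx : x ∈ sq 0 (k * r)
    · rw [sum_eq_single_of_mem (tileOf 0 r x) ((tileOf_mem hr).2 hx) fun i _ hi => by
        rw [ind_neg fun h => hi ((mem_tile_iff hr).1 h).symm, zero_mul],
        ind_pos ((mem_tile_iff hr).2 rfl), one_mul]
    · simp [hs x hx]
  rw [e] at h
  exact f2_mono (biUnion_subset.2 fun i hi => Lat.edI_mono (tile_subset 0 r hi)) h

/-- difference of two block averages on the square of side `2 ^ N` -/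
noncomputable def bd (N k k' : ℕ) (σ : Pt → ℝ) (x : Pt) : ℝ :=
  ind (x ∈ sq 0 (2 ^ N)) * (Plo (2 ^ k) σ x - Plo (2 ^ k') σ x)

/-- weighted sum of the squares of the bands -/
noncomputable def Q (N k k' : ℕ) (σ : Pt → ℝ) : ℝ :=
  ∑ j ∈ Ico k k', 2 ^ j * ∑ x ∈ sq 0 (2 ^ N), bd N j (j + 1) σ x ^ 2

theorem Q_nonneg (N k k' : ℕ) (σ : Pt → ℝ) : 0 ≤ Q N k k' σ :=
  sum_nonneg fun j _ => mul_nonneg (by positivity) (sum_nonneg fun x _ => sq_nonneg _)

theorem f2_band (hR : R1Stmt) (hΛ : Λ.Ok) {N j : ℕ} (hj : j + 1 ≤ N) (σ : Pt → ℝ) :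
    F2 (Λ.edI (sq 0 (2 ^ N))) (bd N j (j + 1) σ)
      (8 * 4 ^ j * ∑ x ∈ sq 0 (2 ^ N), bd N j (j + 1) σ x ^ 2) := by
  have p : ∀ i : ℕ, 0 < 2 ^ i := fun i => by positivity
  refine f2_le (f2_tiles hR hΛ (p (j + 1)) (pow_dvd_pow 2 hj)
    (fun x hx => by rw [bd, ind_neg hx, zero_mul]) fun x hx => ?_) (le_of_eq ?_)
  · rw [sum_congr rfl fun y hy => by
      rw [bd, ind_pos (sat_sq (p N) (pow_dvd_pow 2 hj) x hx hy), one_mul], sum_sub_distrib,
      sum_Plo (p j) (sat_blk (p _) (pow_dvd_pow 2 (Nat.le_succ j)) x),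
      sum_Plo (p _) (sat_blk (p _) dvd_rfl x), sub_self]
  · congr 1
    push_cast
    rw [← pow_mul, show (4 : ℝ) = 2 ^ 2 by norm_num, ← pow_mul]; ring

theorem f2_bd (hR : R1Stmt) (hΛ : Λ.Ok) {N k k' : ℕ} (hk : k ≤ k') (hN : k' ≤ N) (σ : Pt → ℝ) :
    F2 (Λ.edI (sq 0 (2 ^ N))) (bd N k k' σ) (8 * 2 ^ k' * Q N k k' σ) := by
  induction k', hk using Nat.le_induction with
  | base =>
    have : bd N k k σ = 0 := funext fun x => by simp [bd]
    rw [this]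
    simpa [Q] using f2_zero _
  | succ j hj ih =>
    have e : bd N k (j + 1) σ = bd N k j σ + bd N j (j + 1) σ := funext fun x => by
      simp only [bd, Pi.add_apply]; ring
    rw [e]
    refine f2_le (f2_add (ih (by omega)) (f2_band hR hΛ hN σ)) (le_of_eq ?_)
    rw [Q, Q, sum_Ico_succ_top hj, show (4 : ℝ) ^ j = 2 ^ j * 2 ^ j by rw [← mul_pow]; norm_num]
    ring

theorem bare (hB : BrStmt) (hΛ : Λ.Ok) {L : ℕ} (hL : 0 < L) {f : Pt → ℝ} {n : ℝ}
    (h : F2 (Λ.edI (sq 0 L)) f n) :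
    Ex (Λ.WN L) (fun s => pr f s ^ 2) ≤ Λ.τ * n ∧ M (Λ.WN L) (pr f) ≤ bb Λ.τ n := by
  have h0 := self_mem_sq (0 : Pt) hL
  obtain ⟨φ, h1, h2⟩ := h
  have := hB.2.1 Λ (Λ.Nr (sq 0 L) 0) f n hΛ (hΛ.ctr_Nr _ _) (hΛ.anch_Nr h0) (Λ.edI (sq 0 L))
    subset_rfl (fun _ _ => rfl) ⟨φ, fun x _ => congrFun h1 x, h2⟩
  refine ⟨?_, this.2.1⟩
  have e := (hΛ.cen_Nr h0).Vr_eq (pr f) (pr f)
  simp only [← _root_.sq] at e
  exact e ▸ this.1

theorem band_cfg {N j : ℕ} (hj : j + 1 ≤ N) (hR : R1Stmt) (hΛ : Λ.Ok) (hx : x ∈ sq 0 (2 ^ N)) :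
    ∃ g : Pt → ℝ, F2 (Λ.edI (sq 0 (2 ^ N))) g 32 ∧
      ∀ s : Cfg Pt, bd N j (j + 1) (fun z => (s z : ℝ)) x = pr g s := by
  have p : ∀ i : ℕ, 0 < 2 ^ i := fun i => by positivity
  have hsub : blk (2 ^ j) x ⊆ blk (2 ^ (j + 1)) x :=
    sat_blk (p _) (pow_dvd_pow 2 (Nat.le_succ j)) x x (self_mem_blk (p _) x)
  refine ⟨fun y => ind (y ∈ blk (2 ^ j) x) / ((2 ^ j : ℕ) : ℝ) ^ 2 -
    ind (y ∈ blk (2 ^ (j + 1)) x) / ((2 ^ (j + 1) : ℕ) : ℝ) ^ 2, ?_, fun s => by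
      rw [bd, ind_pos hx, one_mul, Plo_cfg, Plo_cfg, pr_sub']; rfl⟩
  have cnt : ∀ {r : ℕ} (hr : 0 < r), blk r x ⊆ blk (2 ^ (j + 1)) x →
      ∑ y ∈ blk (2 ^ (j + 1)) x, ind (y ∈ blk r x) / (r : ℝ) ^ 2 = 1 := fun {r} hr h => by
    rw [← sum_subset h fun y _ hy => by rw [ind_neg hy, zero_div],
      sum_congr rfl fun y hy => by rw [ind_pos hy], sum_const, card_blk, nsmul_eq_mul]
    push_cast
    field_simp
  refine f2_mono (Lat.edI_mono (sat_sq (p N) (pow_dvd_pow 2 hj) x hx))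
    (f2_le (f2_bdd hR hΛ (κ := 1 / ((2 : ℝ) ^ j) ^ 2) (fun y hy => ?_) ?_ fun y hy => ?_) (le_of_eq ?_))
  · have hy' : y ∉ blk (2 ^ (j + 1)) x := hy
    rw [ind_neg fun h => hy (hsub h), ind_neg hy']; simp
  · change ∑ y ∈ blk (2 ^ (j + 1)) x, _ = _
    rw [sum_sub_distrib, cnt (p _) hsub, cnt (p _) subset_rfl, sub_self]
  · have h1 := ind_nonneg (y ∈ blk (2 ^ j) x)
    have h2 := ind_le_one (y ∈ blk (2 ^ j) x)
    have h3 : ind (y ∈ blk (2 ^ (j + 1)) x) = 1 := ind_pos hy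
    have h4 : (0 : ℝ) < (2 ^ j) ^ 2 := by positivity
    push_cast
    rw [h3, pow_succ (2 : ℝ) j, mul_pow, mul_comm, ← div_div, ← sub_div, abs_div, abs_of_pos h4]
    refine div_le_div_of_nonneg_right (abs_le.2 ⟨?_, ?_⟩) h4.le <;> linarith
  · push_cast
    field_simp
    ring

theorem ex_Q (hR : R1Stmt) (hB : BrStmt) (hΛ : Λ.Ok) {N k k' : ℕ} (hN : k' ≤ N) :
    Ig (Λ.WN (2 ^ N)) (fun s => Q N k k' fun z => (s z : ℝ)) ∧
      Ex (Λ.WN (2 ^ N)) (fun s => Q N k k' fun z => (s z : ℝ)) ≤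
        32 * Λ.τ * ((2 : ℝ) ^ N) ^ 2 * 2 ^ k' := by
  have hL : 0 < 2 ^ N := by positivity
  have hW : Cen (Λ.WN (2 ^ N)) := hΛ.cen_Nr (self_mem_sq 0 hL)
  have one : ∀ j ∈ Ico k k', ∀ x ∈ sq 0 (2 ^ N),
      Ig (Λ.WN (2 ^ N)) (fun s => bd N j (j + 1) (fun z => (s z : ℝ)) x ^ 2) ∧
        Ex (Λ.WN (2 ^ N)) (fun s => bd N j (j + 1) (fun z => (s z : ℝ)) x ^ 2) ≤ Λ.τ * 32 :=
    fun j hj x hx => by
      obtain ⟨g, g1, g2⟩ := band_cfg (j := j) (by have := (mem_Ico.1 hj).2; omega) hR hΛ hx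
      simp only [g2]
      exact ⟨hW.ig ((Tame.hom _).pow 2), (bare hB hΛ hL g1).1⟩
  have two : ∀ j ∈ Ico k k', Ig (Λ.WN (2 ^ N)) fun s =>
      2 ^ j * ∑ x ∈ sq 0 (2 ^ N), bd N j (j + 1) (fun z => (s z : ℝ)) x ^ 2 := fun j hj =>
    (Ig.sum _ fun x hx => (one j hj x hx).1).const_mul _
  refine ⟨Ig.sum _ two, ?_⟩
  unfold Q
  rw [Ex_sum _ two]
  have hτ := hΛ.2
  refine (sum_le_sum (g := fun j => 32 * Λ.τ * ((2 : ℝ) ^ N) ^ 2 * 2 ^ j) fun j hj => ?_).trans ?_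
  · rw [Ex_const_mul, Ex_sum _ fun x hx => (one j hj x hx).1, mul_comm]
    refine mul_le_mul_of_nonneg_right ((sum_le_card_nsmul _ _ _ fun x hx => (one j hj x hx).2).trans
      (le_of_eq ?_)) (by positivity)
    rw [card_sq, nsmul_eq_mul]; push_cast; ring
  · rw [← mul_sum]
    refine mul_le_mul_of_nonneg_left ?_ (by positivity)
    refine (sum_le_sum_of_subset_of_nonneg (t := range k') (fun j hj => mem_range.2 (mem_Ico.1 hj).2)
      fun j _ _ => by positivity).trans ?_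
    rw [geom_sum_eq (by norm_num)]
    norm_num

/-! ## the main statement -/

theorem per_int {B : Finset Pt} {G : (B → ℝ) → ℝ} (hG : Per G) (k : ℤ) (ψ : B → ℝ) :
    G (fun x => ψ x - k) = G ψ := by
  induction k using Int.induction_on generalizing ψ with
  | zero => simp
  | succ i ih =>
    rw [← ih ψ, ← hG.2.2 fun x => ψ x - ((i + 1 : ℤ) : ℝ)]
    congr 1; ext x; push_cast; ring
  | pred i ih =>
    rw [← ih ψ, ← hG.2.2 fun x => ψ x - ((-i : ℤ) : ℝ), ← ih fun x => ψ x - ((-i : ℤ) : ℝ) + 1,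
      ← ih fun x => ψ x - ((-i - 1 : ℤ) : ℝ)]
    congr 1; ext x; push_cast; ring

/-- rescaled restriction -/
noncomputable def lf (μ : ℝ) (B : Finset Pt) (f : Pt → ℝ) : B → ℝ := fun x => Real.sqrt μ * f x

theorem lf_dot {μ : ℝ} (hμ : 0 ≤ μ) (B : Finset Pt) (f g : Pt → ℝ) :
    lf μ B f ⬝ᵥ lf μ B g = μ * ∑ x ∈ B, f x * g x := by
  rw [← sum_coe_sort B, mul_sum]
  refine sum_congr rfl fun x _ => ?_
  simp only [lf]
  rw [mul_mul_mul_comm, Real.mul_self_sqrt hμ]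

theorem lf_sub (μ : ℝ) (B : Finset Pt) (f g : Pt → ℝ) :
    lf μ B f - lf μ B g = lf μ B fun x => f x - g x := funext fun x => by
  simp only [lf, Pi.sub_apply]; ring

theorem e2_eq {μ : ℝ} (hμ : 0 < μ) {B : Finset Pt} {G : (B → ℝ) → ℝ} (hG : Per G) (m σ : Pt → ℝ)
    (T : Cfg Pt →+ ℝ) (s : Cfg Pt) (k : ℤ) :
    ∫ ξ, res μ m T s ξ * G (obs μ σ ξ) ∂gs B =
      ob (lf μ B m) (fun ζ => G fun x => ζ x / Real.sqrt μ) (T s) (lf μ B fun x => σ x - k) := by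
  have h0 : Real.sqrt μ ≠ 0 := (Real.sqrt_pos.2 hμ).ne'
  refine MeasureTheory.integral_congr_ae (Filter.Eventually.of_forall fun ξ => ?_)
  simp only [res, dotProduct, lf, mul_sum, mul_assoc]
  rw [← per_int hG k]
  congr 2
  ext x
  simp only [obs, Pi.add_apply, lf]
  field_simp
  ring

theorem bb_mono {τ τ' n : ℝ} (h : τ ≤ τ') (hn : 0 ≤ n) : bb τ n ≤ bb τ' n := by
  have := Real.cosh_pos (Real.sqrt n)
  unfold bb
  gcongr

end Crest.Agent.T145.Hi19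

namespace Crest.Agent.T145

open Finset Matrix Hi19

set_option maxHeartbeats 1000000 in
theorem hiStmt (hR : R1Stmt) (hB : BrStmt) : HiStmt := by
  intro F K ε a hε
  set τ := |F.τ₂| with hτ
  set W2 : ℝ := 4 ^ a with hW2
  obtain ⟨ζ, hζ, H⟩ := assemble (Real.exp (W2 * K ^ 2 / 2)) W2
    (τ * (256 * W2 ^ 2 + K + 8 * K ^ 2 * W2 ^ 2)) (W2 * K) τ ε hε (abs_nonneg _)
  obtain ⟨b₀, hb₀⟩ := pow_unbounded_of_one_lt (256 * τ * W2 / ζ) (show (1 : ℝ) < 4 by norm_num)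
  refine ⟨b₀, fun Λ hm b c hb => ?_⟩
  intro L μ u T G hu hT hG
  have hΛ : Λ.Ok := ⟨hm.1 ▸ F.adm, F.pos.trans_le hm.2.2.1⟩
  have hΛτ : Λ.τ ≤ τ := hm.2.2.2.trans (le_abs_self _)
  have hτ0 := hΛ.2
  set N := a + b + c with hN
  have hL : 0 < L := by positivity
  have hLR : (L : ℝ) = 2 ^ N := by simp [L, hN]
  have hL0 : (0 : ℝ) < L := by exact_mod_cast hL
  have hr : 0 < 2 ^ c := by positivity
  have hμ : 0 < μ := by positivity
  have hμL : μ * (L : ℝ) ^ 2 = W2 := by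
    simp only [μ, hW2]
    field_simp
    rw [← pow_mul, mul_comm, pow_mul]; norm_num
  have hW20 : 0 < W2 := by positivity
  have hK : 0 ≤ K := (abs_nonneg _).trans (hu 0 (self_mem_sq 0 hL))
  have hW : Cen (Λ.WN L) := hΛ.cen_Nr (self_mem_sq 0 hL)
  let B := sq 0 L
  have hBdef : B = sq 0 L := rfl
  have hS : Sat (2 ^ c) B := sat_sq hL (pow_dvd_pow 2 (by omega))
  have hcard : (B.card : ℝ) = (L : ℝ) ^ 2 := by rw [hBdef, card_sq]; push_cast; ring
  set m := Plo (2 ^ c) u with hmdef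
  have hPm : Plo (2 ^ c) m = m := Plo_Plo hr u
  have hmK : ∀ x ∈ B, |m x| ≤ K := fun x hx => abs_Plo_le hr fun y hy => hu y (hS x hx hy)
  set av : (Pt → ℝ) → ℝ := fun f => (∑ x ∈ B, f x) / (L : ℝ) ^ 2 with hav
  have hsum : ∀ f, ∑ x ∈ B, f x = (L : ℝ) ^ 2 * av f := fun f => by simp only [hav]; field_simp
  have htop : ∀ f, ∀ x ∈ B, Plo (2 ^ N) f x = av f := fun f x hx => by
    rw [Plo_eq, blk_top hx]
  have havm : |av m| ≤ K := by
    rw [← htop m 0 (self_mem_sq 0 hL)]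
    exact abs_Plo_le hL fun y hy => hmK y (by rwa [blk_zero] at hy)
  set σ : Cfg Pt → Pt → ℝ := fun s z => (s z : ℝ) with hσ
  set k : Cfg Pt → ℤ := fun s => ⌊av (σ s)⌋ with hk
  have hk0 : ∀ s, 0 ≤ av (σ s) - k s := fun s => sub_nonneg.2 (Int.floor_le _)
  have hk1 : ∀ s, av (σ s) - k s ≤ 1 := fun s => by
    have := Int.lt_floor_add_one (av (σ s))
    simp only [hk]; linarith
  set fU : Pt → ℝ := fun x => ind (x ∈ B) * (μ * (m x - av m)) with hfU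
  have FU : F2 (Λ.edI B) fU (2 * (L : ℝ) ^ 4 * (μ * (2 * K)) ^ 2) := by
    refine f2_bdd hR hΛ (fun x hx => by simp only [hfU]; rw [ind_neg hx, zero_mul]) ?_ fun x hx => ?_
    · rw [sum_congr rfl fun x hx => by simp only [hfU]; rw [ind_pos hx, one_mul], ← mul_sum,
        sum_sub_distrib, hsum, sum_const, nsmul_eq_mul, hcard, sub_self, mul_zero]
    · simp only [hfU]
      rw [ind_pos hx, one_mul, abs_mul, abs_of_pos hμ]
      exact mul_le_mul_of_nonneg_left ((abs_sub _ _).trans (by linarith [hmK x hx])) hμ.le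
  have prB : ∀ (g : Pt → ℝ) (s : Cfg Pt),
      pr (fun x => ind (x ∈ B) * g x) s = ∑ x ∈ B, σ s x * g x := fun g s => by
    rw [pr_of_fsupp _ s (U := B) fun x hx => by rw [ind_neg hx, zero_mul]]
    exact sum_congr rfl fun x hx => by rw [ind_pos hx, one_mul, mul_comm]
  have I2 : ∀ s s', ∑ x ∈ B, (σ s x - k s) * (Plo (2 ^ c) (σ s') x - k s') =
      ∑ x ∈ B, (Plo (2 ^ c) (σ s) x - k s) * (Plo (2 ^ c) (σ s') x - k s') := fun s s' => by
    simp only [sub_mul, mul_sub, sum_sub_distrib, ← sum_mul]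
    rw [sum_Plo_mul hr hS, Plo_Plo hr, sum_Plo hr hS]
  obtain ⟨q1, q2⟩ := ex_Q hR hB hΛ (N := N) (k := c) (k' := N) le_rfl
  obtain ⟨q3, q4⟩ := ex_Q hR hB hΛ (N := N) (k := 0) (k' := c) (by omega)
  have iT := hW.ig ((Tame.hom (pr T)).pow 2)
  have iU := hW.ig ((Tame.hom (pr fU)).pow 2)
  have i1 := (q1.const_mul (8 * 2 ^ N)).const_mul (μ ^ 2)
  have key := H B (Cfg Pt) (Λ.WN L) (lf μ B m) (fun s => lf μ B fun x => σ s x - k s)
    (fun s => lf μ B fun x => Plo (2 ^ c) (σ s) x - k s) (fun s => pr T s)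
    (fun s => μ ^ 2 * (8 * 2 ^ N * Q N c N (σ s)) + pr T s ^ 2 + pr fU s ^ 2)
    (fun s => μ ^ 2 * (8 * 2 ^ c * Q N 0 c (σ s))) (fun ζ => G fun x => ζ x / Real.sqrt μ) hW
    (hG.1.comp (by fun_prop)) (fun _ => hG.2.1 _)
    (fun s => by
      rw [lf_dot hμ.le, lf_dot hμ.le]
      simp only [mul_sub, sum_sub_distrib]
      rw [← sum_Plo_mul hr hS, hPm])
    (fun s s' => by rw [lf_dot hμ.le, lf_dot hμ.le, I2])
    (by
      rw [lf_dot hμ.le]
      refine Real.exp_le_exp.2 (div_le_div_of_nonneg_right ?_ two_pos.le)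
      rw [← hμL, mul_assoc, ← hcard, ← nsmul_eq_mul]
      refine mul_le_mul_of_nonneg_left (sum_le_card_nsmul _ _ _ fun x hx => ?_) hμ.le
      rw [← _root_.sq]
      exact sq_le_sq' (abs_le.1 (hmK x hx)).1 (abs_le.1 (hmK x hx)).2)
    ((i1.add iT).add iU) ((q3.const_mul _).const_mul _)
    (fun s => by
      have := Q_nonneg N c N (σ s)
      have : 0 ≤ μ ^ 2 * (8 * 2 ^ N * Q N c N (σ s)) := by positivity
      nlinarith [sq_nonneg (pr fU s)])
    (fun s => by have := Q_nonneg N 0 c (σ s); positivity)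
    (by
      rw [Ex_add (i1.add iT) iU, Ex_add i1 iT, Ex_const_mul, Ex_const_mul]
      have a1 := (bare hB hΛ hL hT).1
      have a2 := (bare hB hΛ hL FU).1
      have a3 : μ ^ 2 * (8 * 2 ^ N * Ex (Λ.WN L) fun s => Q N c N (σ s)) ≤ Λ.τ * (256 * W2 ^ 2) := by
        refine (mul_le_mul_of_nonneg_left (mul_le_mul_of_nonneg_left q2 (by positivity))
          (by positivity)).trans (le_of_eq ?_)
        rw [← hμL, hLR]; ring
      have a4 : 2 * (L : ℝ) ^ 4 * (μ * (2 * K)) ^ 2 = 8 * K ^ 2 * W2 ^ 2 := by rw [← hμL]; ring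
      rw [a4] at a2
      refine le_trans ?_ (mul_le_mul_of_nonneg_right hΛτ (by positivity))
      linarith)
    (by
      rw [Ex_const_mul, Ex_const_mul]
      refine (mul_le_mul_of_nonneg_left (mul_le_mul_of_nonneg_left q4 (by positivity))
        (by positivity)).trans ?_
      have a1 : μ ^ 2 * (8 * 2 ^ c * (32 * Λ.τ * ((2 : ℝ) ^ N) ^ 2 * 2 ^ c)) =
          256 * Λ.τ * W2 / 4 ^ b := by
        simp only [μ, hW2, hLR, hN]
        rw [show (4 : ℝ) = 2 * 2 by norm_num, mul_pow, mul_pow, pow_add, pow_add]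
        field_simp
        norm_num
      rw [a1, div_le_iff₀ (by positivity)]
      rw [div_lt_iff₀ hζ] at hb₀
      have a2 : (4 : ℝ) ^ b₀ ≤ 4 ^ b := pow_le_pow_right₀ (by norm_num) hb
      nlinarith [mul_le_mul_of_nonneg_right hΛτ hW20.le, mul_le_mul_of_nonneg_right a2 hζ.le])
    (fun s => by
      refine ⟨pr fU s, ?_, ?_⟩
      · have := Q_nonneg N c N (σ s)
        have : 0 ≤ μ ^ 2 * (8 * 2 ^ N * Q N c N (σ s)) := by positivity
        nlinarith [sq_nonneg (pr T s)]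
      · have e : lf μ B m ⬝ᵥ (lf μ B fun x => σ s x - k s) =
            pr fU s + W2 * (av m * (av (σ s) - k s)) := by
          rw [lf_dot hμ.le, hfU, prB, ← hμL]
          simp only [mul_sub, sum_sub_distrib, mul_left_comm _ μ, ← mul_sum, ← sum_mul,
            mul_comm (m _) (σ s _), hsum m, hsum (σ s)]
          ring
        rw [e]
        refine (abs_add_le _ _).trans (add_le_add le_rfl ?_)
        rw [abs_mul, abs_of_pos hW20, abs_mul, abs_of_nonneg (hk0 s)]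
        exact mul_le_mul_of_nonneg_left
          ((mul_le_of_le_one_right (abs_nonneg _) (hk1 s)).trans havm) hW20.le)
    (fun s' K' η h1 h2 => by
      have n1 : 0 ≤ μ ^ 2 * (8 * 2 ^ N * Q N c N (σ s')) := by
        have := Q_nonneg N c N (σ s'); positivity
      have n2 : 0 ≤ μ ^ 2 * (8 * 2 ^ c * Q N 0 c (σ s')) := by
        have := Q_nonneg N 0 c (σ s'); positivity
      have h1' : μ ^ 2 * (8 * 2 ^ N * Q N c N (σ s')) ≤ K' := by
        nlinarith [sq_nonneg (pr T s'), sq_nonneg (pr fU s')]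
      have f1 := f2_smul 2 (f2_le (f2_smul μ (f2_bd hR hΛ (by omega : c ≤ N) le_rfl (σ s'))) h1')
      have f2 := f2_smul 2 (f2_le (f2_smul μ (f2_bd hR hΛ (Nat.zero_le c) (by omega : c ≤ N) (σ s'))) h2)
      have g1 := (bare hB hΛ hL f1).2
      have g2 := (bare hB hΛ hL f2).2
      rw [pr_smul, show (2 : ℝ) ^ 2 = 4 by norm_num] at g1 g2
      refine ⟨pr (μ • bd N 0 c (σ s')), pr (μ • bd N c N (σ s')), fun s => ?_, fun s => ?_,
        g1.trans (bb_mono hΛτ (by linarith)), g2.trans (bb_mono hΛτ (by linarith))⟩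
      · have e : ∑ x ∈ B, (σ s x - k s) * (Plo (2 ^ c) (σ s') x - k s') =
            pr (bd N c N (σ s')) s + (L : ℝ) ^ 2 * ((av (σ s) - k s) * (av (σ s') - k s')) := by
          unfold bd
          rw [prB, sum_congr rfl (f := fun x => σ s x * (Plo (2 ^ c) (σ s') x - Plo (2 ^ N) (σ s') x))
            fun x hx => by rw [htop _ x hx]]
          simp only [sub_mul, mul_sub, sum_sub_distrib, ← mul_sum, ← sum_mul, sum_Plo hr hS,
            hsum (σ s), hsum (σ s'), sum_const, nsmul_eq_mul, hcard]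
          ring
        rw [lf_dot hμ.le, ← I2, e, pr_smul, mul_add, ← mul_assoc μ, hμL]
        refine add_le_add le_rfl (mul_le_of_le_one_right hW20.le ?_)
        exact mul_le_one₀ (hk1 s) (hk0 s') (hk1 s')
      · rw [lf_sub, lf_sub, lf_dot hμ.le, pr_smul]
        refine congrArg (μ * ·) ?_
        unfold bd
        rw [prB, pow_zero, Plo_one]
        simp only [sub_sub_sub_cancel_right, sub_mul, mul_sub, sum_sub_distrib]
        rw [sum_Plo_mul hr hS, sum_Plo_mul hr hS, Plo_Plo hr]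
        ring)
  unfold E2
  rw [funext fun s => e2_eq hμ hG m (fun z => (s z : ℝ)) (pr T) s (k s),
    funext fun s => e2_eq hμ hG m (Plo (2 ^ c) fun z => (s z : ℝ)) (pr T) s (k s)]
  exact key

end Crest.Agent.T145

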