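import Crest.Agent.T145.JUn_88
import Crest.Agent.T145.Fkg_86
import Crest.Agent.T145.Loc_51

/-!
# Row 145, (b) T3: the Fisher kernel: signs, Cramér–Rao, dual criterion (`jStmt`, helper88)
-/

set_option autoImplicit false
set_option linter.unusedVariables false
set_option linter.unusedSectionVars false
set_option linter.style.haveILetI false

namespace Crest.Agent.T145

namespace J88

open MeasureTheory Finset

section l2
variable {Ω : Type*} [MeasurableSpace Ω] {P : Measure Ω} {X Y : Ω → ℝ}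

theorem imul (hX : MemLp X 2 P) (hY : MemLp Y 2 P) : Integrable (fun ω => X ω * Y ω) P :=
  hX.integrable_mul hY

theorem add3 {f g k : Ω → ℝ} (hf : Integrable f P) (hg : Integrable g P) (hk : Integrable k P) :
    ∫ ω, f ω + g ω + k ω ∂P = ∫ ω, f ω ∂P + ∫ ω, g ω ∂P + ∫ ω, k ω ∂P := by
  rw [← integral_add hf hg]
  exact integral_add (hf.add hg) hk

theorem cs (hX : MemLp X 2 P) (hY : MemLp Y 2 P) :
    (∫ ω, X ω * Y ω ∂P) ^ 2 ≤ (∫ ω, X ω ^ 2 ∂P) * ∫ ω, Y ω ^ 2 ∂P := by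
  have h : ∀ t : ℝ, 0 ≤ (∫ ω, Y ω ^ 2 ∂P) * (t * t) + (2 * ∫ ω, X ω * Y ω ∂P) * t +
      ∫ ω, X ω ^ 2 ∂P := fun t => by
    have e : ∀ ω, (X ω + t * Y ω) ^ 2 = Y ω ^ 2 * (t * t) + 2 * (X ω * Y ω) * t + X ω ^ 2 :=
      fun ω => by ring
    have h0 : 0 ≤ ∫ ω, (X ω + t * Y ω) ^ 2 ∂P := integral_nonneg fun ω => sq_nonneg _
    have i1 := hY.integrable_sq.mul_const (t * t)
    have i2 := ((imul hX hY).const_mul 2).mul_const t
    simp_rw [e] at h0
    rwa [add3 i1 i2 hX.integrable_sq, integral_mul_const,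
      integral_mul_const, integral_const_mul] at h0
  have := discrim_le_zero h
  rw [discrim] at this
  nlinarith

theorem cs' (hX : MemLp X 2 P) (hY : MemLp Y 2 P) :
    ∫ ω, X ω * Y ω ∂P ≤ Real.sqrt (∫ ω, X ω ^ 2 ∂P) * Real.sqrt (∫ ω, Y ω ^ 2 ∂P) := by
  rw [← Real.sqrt_mul (integral_nonneg fun ω => sq_nonneg _)]
  exact (le_abs_self _).trans (Real.abs_le_sqrt (cs hX hY))

end l2

section main
variable {Λ : Lat} {B : Finset Pt} {μ : ℝ} {r : Pt}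

/-- the noise, as a function of heights and observation -/
noncomputable def gg (μ : ℝ) (a : B → ℝ) (s : Cfg Pt) (ψ : B → ℝ) : ℝ :=
  ∑ x : B, a x * (μ * (ψ x - s x))

/-- the score in the direction `a` -/
noncomputable def zz (Λ : Lat) (μ : ℝ) (a ψ : B → ℝ) : ℝ := ∑ x : B, a x * Λ.sc B μ ψ x

theorem gg_ob (hμ : 0 < μ) (a : B → ℝ) (p : Cfg Pt × (B → ℝ)) :
    gg μ a p.1 (ob μ p) = Real.sqrt μ * (a ⬝ᵥ p.2) := by
  simp only [gg, ob, obs, dotProduct, Finset.mul_sum]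
  refine Finset.sum_congr rfl fun x _ => ?_
  have hs := (Real.sqrt_pos.2 hμ).ne'
  have e := Real.mul_self_sqrt hμ.le
  generalize Real.sqrt μ = t at hs e
  subst e
  field_simp
  ring

theorem gg_inv (μ : ℝ) (a : B → ℝ) : Inv (gg μ a) := fun s ψ h =>
  Finset.sum_congr rfl fun x _ => by
    rw [Finsupp.add_apply, cst_of_mem h x.2, sh_apply]; push_cast; ring

theorem gg_meas (μ : ℝ) (a : B → ℝ) (s : Cfg Pt) : Measurable (gg μ a s) := by
  unfold gg; fun_prop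

theorem gg_tame (μ : ℝ) (a ψ : B → ℝ) : Tame fun s => gg μ a s ψ :=
  Tame.sum _ fun x _ => (((Tame.const _).sub (Tame.ev x.1)).const_mul _).const_mul _

theorem gg_anti (hμ : 0 < μ) {a : B → ℝ} (ha : ∀ x, 0 ≤ a x) (ψ : B → ℝ) :
    Antitone fun s => gg μ a s ψ := fun s t hst =>
  Finset.sum_le_sum fun x _ => mul_le_mul_of_nonneg_left (mul_le_mul_of_nonneg_left
    (sub_le_sub_left (Int.cast_le.2 (hst x)) _) hμ.le) (ha x)

theorem ex_gg (h : Λ.Ok) (hμ : 0 < μ) (a ψ : B → ℝ) :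
    Ex (Λ.post B μ ψ) (fun s => gg μ a s ψ) = zz Λ μ a ψ := by
  have hs := post_se h hμ ψ
  have hw := post_wt h hμ ψ
  unfold gg zz
  rw [Ex_sum _ fun x _ => hs.ig ((((Tame.const _).sub (Tame.ev x.1)).const_mul _).const_mul _)]
  refine Finset.sum_congr rfl fun x _ => ?_
  rw [Ex_const_mul, Ex_const_mul, Ex_sub (hw.ig_const _) (hs.ig (Tame.ev x.1)), hw.ex_const, Lat.sc]

theorem zz_meas (h : Λ.Ok) (hμ : 0 < μ) (a : B → ℝ) : Measurable (zz Λ μ a) := by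
  rw [← funext (ex_gg h hμ a)]
  exact meas_ex Λ μ (gg_meas μ a)

theorem zz_shift (h : Λ.Ok) (hμ : 0 < μ) (a ψ : B → ℝ) (k : ℤ) :
    zz Λ μ a (sh k ψ) = zz Λ μ a ψ := by
  rw [← ex_gg h hμ, ← ex_gg h hμ, ex_shift Λ μ (gg_inv μ a)]

variable {W : Cfg Pt → ℝ}

theorem xi_int (hW : Wt W) (c : ℝ) (a : B → ℝ) (n : ℕ) :
    Integrable (fun p => (c * (a ⬝ᵥ p.2)) ^ n) (PP W B) := by
  simp_rw [mul_pow]
  exact (int_snd hW (dot_int_pow a n)).const_mul _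

theorem xi_meas (c : ℝ) (a : B → ℝ) : Measurable fun p : Cfg Pt × (B → ℝ) => c * (a ⬝ᵥ p.2) :=
  ((cont_dot a).measurable.comp measurable_snd).const_mul c

theorem xi_l2 (hW : Wt W) (c : ℝ) (a : B → ℝ) : MemLp (fun p => c * (a ⬝ᵥ p.2)) 2 (PP W B) :=
  (memLp_two_iff_integrable_sq (xi_meas c a).aestronglyMeasurable).2 (xi_int hW c a 2)

theorem xi_cov (hW : Wt W) (c d : ℝ) (a b : B → ℝ) :
    ∫ p, c * (a ⬝ᵥ p.2) * (d * (b ⬝ᵥ p.2)) ∂PP W B = c * d * (a ⬝ᵥ b) := by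
  rw [integral_snd hW fun ξ => c * (a ⬝ᵥ ξ) * (d * (b ⬝ᵥ ξ)), ← dot_cov, ← integral_const_mul]
  exact integral_congr_ae (Filter.Eventually.of_forall fun ξ => by ring)

theorem fst_meas (F : Cfg Pt → ℝ) : Measurable fun p : Cfg Pt × (B → ℝ) => F p.1 :=
  (Measurable.of_discrete (f := F)).comp measurable_fst

theorem fst_l2 (hW : Wt W) {F : Cfg Pt → ℝ} (hF : Ig W fun s => F s ^ 2) :
    MemLp (fun p => F p.1) 2 (PP W B) :=
  (memLp_two_iff_integrable_sq (fst_meas F).aestronglyMeasurable).2 (int_fst hW hF)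

theorem fst_xi (hW : Wt W) (F : Cfg Pt → ℝ) (c : ℝ) (a : B → ℝ) :
    ∫ p, F p.1 * (c * (a ⬝ᵥ p.2)) ∂PP W B = 0 := by
  rw [integral_mul hW F fun ξ => c * (a ⬝ᵥ ξ), integral_const_mul, dot_mean]; simp

variable (h : Λ.Ok) (hμ : 0 < μ) (hr : r ∈ B) (hW : Wt ((Λ.Nr B r).W 0))
include h hμ hr hW

theorem unfold2 (a b : B → ℝ) :
    Integrable (fun p => Ex (Λ.post B μ (ob μ p)) fun s => gg μ a s (ob μ p) * gg μ b s (ob μ p))
      (PP ((Λ.Nr B r).W 0) B) ∧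
    ∫ p, Ex (Λ.post B μ (ob μ p)) (fun s => gg μ a s (ob μ p) * gg μ b s (ob μ p))
      ∂PP ((Λ.Nr B r).W 0) B = μ * (a ⬝ᵥ b) := by
  obtain ⟨I, E⟩ := unfold h hμ hr hW (G := fun s ψ => gg μ a s ψ * gg μ b s ψ)
    (fun s => (gg_meas μ a s).mul (gg_meas μ b s))
    (fun s ψ k => by simp only [gg_inv μ a s ψ k, gg_inv μ b s ψ k])
    (by simp only [gg_ob hμ]; exact imul (xi_l2 hW _ a) (xi_l2 hW _ b))
  refine ⟨I, ?_⟩
  rw [← E]
  simp only [gg_ob hμ]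
  rw [xi_cov hW, Real.mul_self_sqrt hμ.le]

omit hr hW in
theorem zz_sq_le (a ψ : B → ℝ) :
    zz Λ μ a ψ ^ 2 ≤ Ex (Λ.post B μ ψ) fun s => gg μ a s ψ * gg μ a s ψ := by
  have := (post_wt h hμ ψ).ex_sq_le ((post_se h hμ ψ).ig ((gg_tame μ a ψ).pow 2))
  rw [ex_gg h hμ] at this
  simpa only [pow_two] using this

theorem zz_l2 (a : B → ℝ) : MemLp (fun p => zz Λ μ a (ob μ p)) 2 (PP ((Λ.Nr B r).W 0) B) := by
  have m := (zz_meas h hμ a).comp (meas_ob μ)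
  refine (memLp_two_iff_integrable_sq m.aestronglyMeasurable).2
    ((unfold2 h hμ hr hW a a).1.mono' (m.pow_const 2).aestronglyMeasurable
      (Filter.Eventually.of_forall fun p => ?_))
  rw [Real.norm_of_nonneg (sq_nonneg _)]
  exact zz_sq_le h hμ a _

theorem zz_sq (a : B → ℝ) :
    ∫ p, zz Λ μ a (ob μ p) ^ 2 ∂PP ((Λ.Nr B r).W 0) B ≤ μ * (a ⬝ᵥ a) := by
  rw [← (unfold2 h hμ hr hW a a).2]
  exact integral_mono (zz_l2 h hμ hr hW a).integrable_sq (unfold2 h hμ hr hW a a).1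
    fun p => zz_sq_le h hμ a _

theorem zz_mul_le {a b : B → ℝ} (ha : ∀ x, 0 ≤ a x) (hb : ∀ x, 0 ≤ b x) :
    ∫ p, zz Λ μ a (ob μ p) * zz Λ μ b (ob μ p) ∂PP ((Λ.Nr B r).W 0) B ≤ μ * (a ⬝ᵥ b) := by
  rw [← (unfold2 h hμ hr hW a b).2]
  refine integral_mono (imul (zz_l2 h hμ hr hW a) (zz_l2 h hμ hr hW b))
    (unfold2 h hμ hr hW a b).1 fun p => ?_
  have hs := post_se h hμ (ob μ p)
  have hl : LSM (Λ.post B μ (ob μ p)) :=
    pm_W Λ μ (ob μ p) ▸ Mdl.lsm (fun e he => (pm_fm h μ _ e he).lc') (pm_nn Λ μ _) 0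
  have := hl.cv_nonneg_anti (post_wt h hμ _) (gg_anti hμ ha (ob μ p)) (gg_anti hμ hb (ob μ p))
    (hs.ig (gg_tame μ a _)) (hs.ig (gg_tame μ b _)) (hs.ig ((gg_tame μ a _).mul (gg_tame μ b _)))
  rw [Cv, ex_gg h hμ, ex_gg h hμ] at this
  exact sub_nonneg.1 this

/-- the score is the conditional expectation of the noise -/
theorem key (a : B → ℝ) {Φ : (B → ℝ) → ℝ} (mΦ : Measurable Φ) (hΦ : ∀ ψ k, Φ (sh k ψ) = Φ ψ)
    (l2 : MemLp (fun p => Φ (ob μ p)) 2 (PP ((Λ.Nr B r).W 0) B)) :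
    ∫ p, Real.sqrt μ * (a ⬝ᵥ p.2) * Φ (ob μ p) ∂PP ((Λ.Nr B r).W 0) B =
      ∫ p, zz Λ μ a (ob μ p) * Φ (ob μ p) ∂PP ((Λ.Nr B r).W 0) B := by
  have E := (unfold h hμ hr hW (G := fun s ψ => gg μ a s ψ * Φ ψ)
    (fun s => (gg_meas μ a s).mul mΦ) (fun s ψ k => by simp only [gg_inv μ a s ψ k, hΦ])
    (by simp only [gg_ob hμ]; exact imul (xi_l2 hW _ a) l2)).2
  simpa only [gg_ob hμ, Ex_mul_const, ex_gg h hμ] using E

omit h hμ hr hW in
theorem zz_single (ψ : B → ℝ) (x : B) : zz Λ μ (Pi.single x 1) ψ = Λ.sc B μ ψ x := by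
  rw [zz, Finset.sum_eq_single x (fun y _ hy => by simp [hy]) (by simp)]
  simp

/-- the Fisher kernel for a general rooted free model -/
noncomputable def JJ (Λ : Lat) (B : Finset Pt) (r : Pt) (μ : ℝ) (x y : B) : ℝ :=
  E2 ((Λ.Nr B r).W 0) B fun s ξ =>
    Λ.sc _ μ (obs μ (fun z => (s z : ℝ)) ξ) x * Λ.sc _ μ (obs μ (fun z => (s z : ℝ)) ξ) y

theorem sc_l2 (x : B) : MemLp (fun p => Λ.sc B μ (ob μ p) x) 2 (PP ((Λ.Nr B r).W 0) B) := by
  simpa only [zz_single] using zz_l2 h hμ hr hW (Pi.single x 1)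

theorem JJ_eq (x y : B) : JJ Λ B r μ x y =
    ∫ p, Λ.sc B μ (ob μ p) x * Λ.sc B μ (ob μ p) y ∂PP ((Λ.Nr B r).W 0) B :=
  E2_eq hW (imul (sc_l2 h hμ hr hW x) (sc_l2 h hμ hr hW y))

theorem qf_eq (m : Pt → ℝ) : qf (JJ Λ B r μ) m =
    ∫ p, zz Λ μ (fun x => m x) (ob μ p) ^ 2 ∂PP ((Λ.Nr B r).W 0) B := by
  have i : ∀ x y : B, Integrable (fun p => m x * (Λ.sc B μ (ob μ p) x * Λ.sc B μ (ob μ p) y) * m y)
      (PP ((Λ.Nr B r).W 0) B) := fun x y =>
    ((imul (sc_l2 h hμ hr hW x) (sc_l2 h hμ hr hW y)).const_mul _).mul_const _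
  simp only [qf, JJ_eq h hμ hr hW, ← integral_const_mul, ← integral_mul_const]
  simp_rw [← integral_finsetSum _ fun y _ => i _ y]
  rw [← integral_finsetSum _ fun x _ => integrable_finsetSum _ fun y _ => i x y]
  refine integral_congr_ae (Filter.Eventually.of_forall fun p => ?_)
  simp only [zz, pow_two, Finset.sum_mul_sum]
  exact Finset.sum_congr rfl fun x _ => Finset.sum_congr rfl fun y _ => by ring

omit h hμ hr hW in
theorem dot_ip (f m : Pt → ℝ) : (fun x : B => f x) ⬝ᵥ (fun x : B => m x) = ip B f m :=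
  Finset.sum_coe_sort B fun x => f x * m x

theorem ker : Ker (JJ Λ B r μ) μ := by
  refine ⟨fun x y => ?_, fun x y hxy => ?_, fun m => ⟨?_, ?_⟩⟩
  · simp only [JJ, mul_comm]
  · have := zz_mul_le h hμ hr hW (a := Pi.single x 1) (b := Pi.single y 1)
      (fun z => by rw [Pi.single_apply]; split_ifs <;> norm_num)
      (fun z => by rw [Pi.single_apply]; split_ifs <;> norm_num)
    simp only [zz_single, single_dotProduct, Pi.single_eq_of_ne hxy, mul_zero] at this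
    rwa [JJ_eq h hμ hr hW]
  · rw [qf_eq h hμ hr hW]; exact integral_nonneg fun p => sq_nonneg _
  · rw [qf_eq h hμ hr hW, ← dot_ip]; exact zz_sq h hμ hr hW _

theorem cr (hC : Cen ((Λ.Nr B r).W 0)) (f m : Pt → ℝ) (hf : ∑ x ∈ B, f x = 0) :
    ip B f m ^ 2 ≤ (Vr ((Λ.Nr B r).W 0) (pr f) (pr f) + ip B f f / μ) * qf (JJ Λ B r μ) m := by
  set a : B → ℝ := fun x => f x with ha
  set b : B → ℝ := fun x => m x with hb
  set Y : Cfg Pt → ℝ := fun s => ∑ x : B, f x * (s x : ℝ) with hY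
  have tY : Tame Y := Tame.sum _ fun x _ => (Tame.ev x.1).const_mul _
  have hs := Real.sqrt_pos.2 hμ
  have eU : ∀ p : Cfg Pt × (B → ℝ), a ⬝ᵥ ob μ p = Y p.1 + (Real.sqrt μ)⁻¹ * (a ⬝ᵥ p.2) := fun p => by
    simp only [ob, obs, dotProduct, hY, ha, Finset.mul_sum, ← Finset.sum_add_distrib]
    exact Finset.sum_congr rfl fun x _ => by ring
  have lY : MemLp (fun p => Y p.1) 2 (PP ((Λ.Nr B r).W 0) B) := fst_l2 hW (hC.ig (tY.pow 2))
  have lX := xi_l2 hW (Real.sqrt μ)⁻¹ a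
  have lU : MemLp (fun p => a ⬝ᵥ ob μ p) 2 (PP ((Λ.Nr B r).W 0) B) := by
    simp only [eU]; exact lY.add lX
  have k := key h hμ hr hW b (Φ := fun ψ => a ⬝ᵥ ψ) (cont_dot a).measurable
    (fun ψ k => by
      have : ∑ x : B, a x = 0 := (Finset.sum_coe_sort B f).trans hf
      simp only [dotProduct, sh_apply, mul_add, Finset.sum_add_distrib, ← Finset.sum_mul, this,
        zero_mul, add_zero]) lU
  have k1 : ∫ p, Real.sqrt μ * (b ⬝ᵥ p.2) * (a ⬝ᵥ ob μ p) ∂PP ((Λ.Nr B r).W 0) B = ip B f m := by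
    simp only [eU, mul_add]
    rw [integral_add (imul (xi_l2 hW _ b) lY) (imul (xi_l2 hW _ b) lX), xi_cov hW,
      mul_inv_cancel₀ hs.ne', one_mul, dotProduct_comm, dot_ip]
    simp_rw [mul_comm _ (Y _)]
    rw [fst_xi hW, zero_add]
  have k2 : ∫ p, (a ⬝ᵥ ob μ p) ^ 2 ∂PP ((Λ.Nr B r).W 0) B =
      Vr ((Λ.Nr B r).W 0) (pr f) (pr f) + ip B f f / μ := by
    have e : ∀ p : Cfg Pt × (B → ℝ), (a ⬝ᵥ ob μ p) ^ 2 = Y p.1 ^ 2 +
        2 * (Y p.1 * ((Real.sqrt μ)⁻¹ * (a ⬝ᵥ p.2))) +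
        (Real.sqrt μ)⁻¹ * (a ⬝ᵥ p.2) * ((Real.sqrt μ)⁻¹ * (a ⬝ᵥ p.2)) := fun p => by
      rw [eU]; ring
    simp only [e]
    rw [add3 lY.integrable_sq ((imul lY lX).const_mul 2) (imul lX lX), integral_const_mul,
      fst_xi hW,
      xi_cov hW, integral_fst hW fun s => Y s ^ 2, dot_ip, ← mul_inv, Real.mul_self_sqrt hμ.le,
      hC.Vr_eq, mul_zero, add_zero, div_eq_inv_mul]
    congr 1
    refine Ex_congr fun s hs => ?_
    have : pr f s = Y s := by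
      rw [pr_of_zero f s (U := B) fun x hx => Mdl.W_ne_zero hs fun h' =>
        hx (Finset.mem_of_mem_erase h'), hY]
      exact (Finset.sum_coe_sort B fun x => f x * (s x : ℝ)).symm
    rw [this, pow_two]
  rw [← k1, k, ← k2, qf_eq h hμ hr hW, mul_comm]
  exact cs (zz_l2 h hμ hr hW b) lU

omit h hμ hr hW in
theorem clamp_pt {N : ℝ} (hN : 0 < N) (z t : ℝ) :
    t * (z - N * max (-1) (min 1 (z / N))) ≤ (6 * z ^ 2 + t ^ 4 / 640) / Real.sqrt N := by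
  have hs := Real.sqrt_pos.2 hN
  have e := Real.mul_self_sqrt hN.le
  rw [le_div_iff₀ hs]
  by_cases hz : |z| ≤ N
  · have h1 : z / N ≤ 1 := (div_le_one hN).2 ((le_abs_self z).trans hz)
    have h2 : -1 ≤ z / N := by rw [le_div_iff₀ hN]; linarith [neg_abs_le z]
    rw [min_eq_right h1, max_eq_right h2, mul_div_cancel₀ _ hN.ne', sub_self]
    have : 0 ≤ 6 * z ^ 2 + t ^ 4 / 640 := by positivity
    simpa using this
  · have hz' : N < |z| := not_le.1 hz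
    have h1 : |z - N * max (-1) (min 1 (z / N))| ≤ |z| := by
      rcases le_total 0 z with h0 | h0
      · rw [abs_of_nonneg h0] at hz' ⊢
        rw [min_eq_left ((one_le_div hN).2 hz'.le), max_eq_right (by norm_num), abs_le]
        constructor <;> linarith
      · rw [abs_of_nonpos h0] at hz' ⊢
        have : z / N ≤ -1 := by rw [div_le_iff₀ hN]; linarith
        rw [min_eq_right (by linarith), max_eq_left this, abs_le]
        constructor <;> linarith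
    have h2 : t * (z - N * max (-1) (min 1 (z / N))) ≤ |t| * |z| :=
      (le_abs_self _).trans (by rw [abs_mul]; exact mul_le_mul_of_nonneg_left h1 (abs_nonneg t))
    refine (mul_le_mul_of_nonneg_right h2 hs.le).trans ?_
    rw [← sq_abs z, ← Even.pow_abs (by decide : Even 4) t]
    generalize |z| = y at hz'
    generalize |t| = u
    generalize Real.sqrt N = n at hs e
    subst e
    have hy : 0 < y := lt_trans (mul_pos hs hs) hz'
    have a1 : n * u ≤ 5 * (n * n) + u ^ 2 / 20 := by nlinarith [sq_nonneg (10 * n - u)]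
    have a2 : y * u ^ 2 ≤ 8 * y ^ 2 + u ^ 4 / 32 := by nlinarith [sq_nonneg (16 * y - u ^ 2)]
    nlinarith [mul_le_mul_of_nonneg_left a1 hy.le, mul_le_mul_of_nonneg_left hz'.le hy.le]

theorem dual (hC : Cen ((Λ.Nr B r).W 0)) (m T : Pt → ℝ) {ε A N : ℝ} (hN : 0 < N) (hA : 0 ≤ A)
    (hG : ∀ G : (B → ℝ) → ℝ, Per G → |E2 ((Λ.Nr B r).W 0) B fun s ξ =>
      res μ m (pr T) s ξ * G (obs μ (fun z => (s z : ℝ)) ξ)| ≤ ε)
    (h2 : μ * ip B m m ≤ A) (h4 : Ex ((Λ.Nr B r).W 0) (fun s => pr T s ^ 4) ≤ A ^ 2) :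
    qf (JJ Λ B r μ) m ≤ N * ε + 4 * (A + 1) ^ 2 / Real.sqrt N +
      Real.sqrt (qf (JJ Λ B r μ) m) * Real.sqrt (Vr ((Λ.Nr B r).W 0) (pr T) (pr T)) := by
  haveI := PP_prob hW B
  set a : B → ℝ := fun x => m x with ha
  set P := PP ((Λ.Nr B r).W 0) B with hP
  have tT : Tame fun s : Cfg Pt => pr T s := Tame.hom _
  have lZ := zz_l2 h hμ hr hW a
  have lX := xi_l2 hW (Real.sqrt μ) a
  have lT : MemLp (fun p => pr T p.1) 2 P := fst_l2 hW (hC.ig (tT.pow 2))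
  set R : Cfg Pt × (B → ℝ) → ℝ := fun p => Real.sqrt μ * (a ⬝ᵥ p.2) - pr T p.1 with hR
  have lR : MemLp R 2 P := lX.sub lT
  have mR : Measurable R := (xi_meas _ a).sub (fst_meas fun s => pr T s)
  set Φ : (B → ℝ) → ℝ := fun ψ => max (-1) (min 1 (zz Λ μ a ψ / N)) with hΦ
  have mΦ : Measurable Φ :=
    measurable_const.max (measurable_const.min ((zz_meas h hμ a).div_const N))
  have bΦ : ∀ ψ, |Φ ψ| ≤ 1 := fun ψ =>
    abs_le.2 ⟨le_max_left _ _, max_le (by norm_num) (min_le_left _ _)⟩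
  have pΦ : Per Φ := ⟨mΦ, bΦ, fun ψ => by
    have : (fun x => ψ x + 1) = sh 1 ψ := funext fun x => by simp [sh_apply]
    simp only [hΦ, this, zz_shift h hμ]⟩
  have lΦ : MemLp (fun p => Φ (ob μ p)) 2 P :=
    MemLp.of_bound (mΦ.comp (meas_ob μ)).aestronglyMeasurable 1
      (Filter.Eventually.of_forall fun p => bΦ _)
  have g1 : |∫ p, R p * Φ (ob μ p) ∂P| ≤ ε := by
    have := hG Φ pΦ
    rwa [E2_eq hW (imul lR lΦ)] at this
  have q1 := qf_eq h hμ hr hW m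
  have qA : ∫ p, zz Λ μ a (ob μ p) ^ 2 ∂P ≤ A :=
    (zz_sq h hμ hr hW a).trans (by rwa [dot_ip])
  have k := key h hμ hr hW a (zz_meas h hμ a) (zz_shift h hμ a) lZ
  -- fourth moment of the residual
  have i4X := xi_int hW (Real.sqrt μ) a 4
  have i4T : Integrable (fun p => pr T p.1 ^ 4) P := int_fst hW (hC.ig (tT.pow 4))
  have p4 : ∀ p, R p ^ 4 ≤ 8 * ((Real.sqrt μ * (a ⬝ᵥ p.2)) ^ 4 + pr T p.1 ^ 4) := fun p => by
    simp only [hR]
    generalize Real.sqrt μ * (a ⬝ᵥ p.2) = x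
    generalize pr T p.1 = y
    nlinarith [sq_nonneg (x + y), sq_nonneg (x ^ 2 - y ^ 2), sq_nonneg (x - y),
      mul_nonneg (sq_nonneg (x + y)) (sq_nonneg (x - y)), sq_nonneg ((x + y) ^ 2),
      sq_nonneg (x ^ 2 + y ^ 2)]
  have i4 : Integrable (fun p => R p ^ 4) P :=
    ((i4X.add i4T).const_mul 8).mono' (mR.pow_const 4).aestronglyMeasurable
      (Filter.Eventually.of_forall fun p => by
        rw [Real.norm_of_nonneg (by positivity)]; exact p4 p)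
  have e4X : ∫ p, (Real.sqrt μ * (a ⬝ᵥ p.2)) ^ 4 ∂P ≤ 144 * (A + 1) ^ 2 := by
    rw [integral_snd hW fun ξ => (Real.sqrt μ * (a ⬝ᵥ ξ)) ^ 4]
    have := dot_four (Real.sqrt μ • a) (v := A + 1) (by linarith) (by
      rw [smul_dotProduct, dotProduct_smul, smul_eq_mul, smul_eq_mul, ← mul_assoc,
        Real.mul_self_sqrt hμ.le, dot_ip]; linarith)
    simpa only [smul_dotProduct, smul_eq_mul] using this
  have e4 : ∫ p, R p ^ 4 ∂P ≤ 1160 * (A + 1) ^ 2 := by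
    refine (integral_mono i4 ((i4X.add i4T).const_mul 8) p4).trans ?_
    rw [integral_const_mul]
    simp only [Pi.add_apply]
    rw [integral_add i4X i4T, integral_fst hW fun s => pr T s ^ 4]
    nlinarith
  have g2 : ∫ p, R p * (zz Λ μ a (ob μ p) - N * Φ (ob μ p)) ∂P ≤ 4 * (A + 1) ^ 2 / Real.sqrt N := by
    have i1 := lZ.integrable_sq.const_mul 6
    have i2 := i4.div_const 640
    refine (integral_mono (imul lR (lZ.sub (lΦ.const_mul N))) ((i1.add i2).div_const _)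
      fun p => clamp_pt hN _ _).trans ?_
    rw [integral_div]
    simp only [Pi.add_apply]
    rw [integral_add i1 i2, integral_const_mul, integral_div]
    refine div_le_div_of_nonneg_right ?_ (Real.sqrt_nonneg N)
    nlinarith [sq_nonneg (A - 1)]
  have g3 : ∫ p, zz Λ μ a (ob μ p) * pr T p.1 ∂P ≤
      Real.sqrt (qf (JJ Λ B r μ) m) * Real.sqrt (Vr ((Λ.Nr B r).W 0) (pr T) (pr T)) := by
    have := cs' lZ lT
    rw [integral_fst hW fun s => pr T s ^ 2] at this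
    rw [q1, hC.Vr_eq]
    simpa only [pow_two] using this
  have e : ∀ p : Cfg Pt × (B → ℝ), Real.sqrt μ * (a ⬝ᵥ p.2) * zz Λ μ a (ob μ p) =
      N * (R p * Φ (ob μ p)) + R p * (zz Λ μ a (ob μ p) - N * Φ (ob μ p)) +
        zz Λ μ a (ob μ p) * pr T p.1 := fun p => by simp only [hR]; ring
  have j1 := (imul lR lΦ).const_mul N
  have j2 : Integrable (fun p => R p * (zz Λ μ a (ob μ p) - N * Φ (ob μ p))) P :=
    imul lR (lZ.sub (lΦ.const_mul N))
  simp only [e] at k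
  rw [← hP, add3 j1 j2 (imul lZ lT), integral_const_mul] at k
  have k' : qf (JJ Λ B r μ) m = ∫ p, zz Λ μ a (ob μ p) * zz Λ μ a (ob μ p) ∂P := by
    rw [q1]; simp only [pow_two, ha, hP]
  have := mul_le_mul_of_nonneg_left ((le_abs_self _).trans g1) hN.le
  linarith

end main

end J88

theorem jStmt : JStmt := fun Λ L μ h hL hμ => by
  have hr : (0 : Pt) ∈ sq 0 L := self_mem_sq 0 hL
  have hC : Cen ((Λ.Nr (sq 0 L) 0).W 0) := (h.ctr_Nr _ _).cen (h.anch_Nr hr)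
  exact ⟨J88.ker h hμ hr hC.wt, J88.cr h hμ hr hC.wt hC,
    fun m T ε A N hN hA _ hG h2 h4 => J88.dual h hμ hr hC.wt hC m T hN hA hG h2 h4⟩

end Crest.Agent.T145
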