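import Crest.Agent.T145.GffDef_8
import Crest.Agent.T145.GeoB_51
import Crest.Agent.T145.CutC_7
import Crest.Agent.T145.CorB_59

/-!
# Row 145, module (b): LINE and G2 (helper52)
-/

set_option autoImplicit false

namespace Crest.Agent.T145

open Finset

namespace L52

theorem mem_rc0 {x : Pt} {n₁ n₂ : ℕ} :
    x ∈ rc 0 n₁ n₂ ↔ 0 ≤ x.1 ∧ x.1 < n₁ ∧ 0 ≤ x.2 ∧ x.2 < n₂ := by
  simp [rc, and_assoc]

theorem ok_of {F : Fa} {Λ : Lat} (h : F.Mem Λ) : Λ.Ok :=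
  ⟨h.1 ▸ F.adm, F.pos.trans_le h.2.2.1⟩

theorem nn_Jp : nnL.Jp = {(1, 0), (0, 1)} := by
  show nn.filter posD = _
  decide

theorem nn_ok : nnL.Ok := ⟨admissible_nn, one_pos⟩

theorem anch_WR {Λ : Lat} (h : Λ.Ok) (n₁ n₂ : ℕ) :
    (Λ.Nr (rc 0 n₁ n₂) 0).Anch :=
  h.anch_Nr_rect fun x hx z => by
    rw [mem_rc0] at hx ⊢
    simp only [Prod.fst_zero, Prod.snd_zero]
    omega

theorem cen_WR {Λ : Lat} (h : Λ.Ok) (n₁ n₂ : ℕ) : Cen (Λ.WR n₁ n₂) :=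
  (h.ctr_Nr _ _).cen (anch_WR h n₁ n₂)

theorem map_rc_swap (n₁ n₂ : ℕ) :
    (rc 0 n₁ n₂).map (Equiv.prodComm ℤ ℤ).toEmbedding = rc 0 n₂ n₁ := by
  ext x; rw [mem_map_equiv, mem_rc0, mem_rc0]; simp; omega

theorem vr_swap {Λ : Lat} (h : Λ.Ok) (n₁ n₂ : ℕ) (f g : Pt → ℝ) :
    Vr (Λ.WR n₂ n₁) (pr f) (pr g) =
      Vr (Λ.WR n₁ n₂) (pr fun x => f x.swap) (pr fun x => g x.swap) := by
  have := (h.sym_swap.iso_Nr h (rc 0 n₁ n₂) 0).Vr_pr (h.ctr_Nr _ _).1 f g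
  rw [map_rc_swap] at this
  exact this

theorem ph_swap {Λ : Lat} (h : Λ.Ok) (n₁ n₂ : ℕ) (f : Pt → ℝ) :
    Ph (Λ.WR n₂ n₁) (pr f) = Ph (Λ.WR n₁ n₂) (pr fun x => f x.swap) := by
  have := (h.sym_swap.iso_Nr h (rc 0 n₁ n₂) 0).Ph_pr (h.ctr_Nr _ _).1 f
  rw [map_rc_swap] at this
  exact this

theorem vr_add_le {L : Type*} [AddCommGroup L] {W : L → ℝ} (h : Cen W) (f g : L →+ ℝ) :
    Vr W (f + g) (f + g) ≤ 2 * Vr W f f + 2 * Vr W g g := by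
  have h1 := h.wt.Vr_nonneg h.se (f - g)
  rw [h.se.Vr_sub_left, h.se.Vr_sub_right, h.se.Vr_sub_right] at h1
  rw [h.se.Vr_add_left, h.se.Vr_add_right, h.se.Vr_add_right]
  linarith

theorem vr_sub_le {L : Type*} [AddCommGroup L] {W : L → ℝ} (h : Cen W) (f g : L →+ ℝ) :
    Vr W (f - g) (f - g) ≤ 2 * Vr W f f + 2 * Vr W g g := by
  have := vr_add_le h f (-g)
  rwa [Vr_neg_left, Vr_neg_right, neg_neg, ← sub_eq_add_neg] at this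

/-- horizontal flow -/
noncomputable def hor (ψ : ℤ → ℝ) (e : Pt × Pt) : ℝ := ind (e.2 - e.1 = (1, 0)) * ψ e.1.1

theorem sum_ind_eq {α : Type*} (S : Finset α) (a : α) (c : ℝ) :
    ∑ e ∈ S, ind (e = a) * c = ind (a ∈ S) * c := by
  classical
  simp only [ind_eq_ite, ite_mul, one_mul, zero_mul, sum_ite_eq']

theorem dv_hor {Λ : Lat} (h : Λ.Ok) (B : Finset Pt) (ψ : ℤ → ℝ) (x : Pt) :
    dv (Λ.edI B) (hor ψ) x =
      ind (x - (1, 0) ∈ B ∧ x ∈ B) * ψ (x.1 - 1) - ind (x ∈ B ∧ x + (1, 0) ∈ B) * ψ x.1 := by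
  have h1 : ∀ e : Pt × Pt, hor ψ e * (ind (e.2 = x) - ind (e.1 = x)) =
      ind (e = (x - (1, 0), x)) * ψ (x.1 - 1) - ind (e = (x, x + (1, 0))) * ψ x.1 := by
    rintro ⟨a, b⟩
    rw [mul_sub]
    congr 1
    · by_cases he : (a, b) = (x - (1, 0), x)
      · obtain ⟨rfl, rfl⟩ := Prod.mk.inj he
        simp [hor, ind_pos]
      · rw [ind_neg he, zero_mul, hor, mul_right_comm, ← ind_and, ind_neg, zero_mul]
        rintro ⟨h1, h2⟩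
        exact he (by simp only at h1 h2; rw [← h2, ← h1]; simp)
    · by_cases he : (a, b) = (x, x + (1, 0))
      · obtain ⟨rfl, rfl⟩ := Prod.mk.inj he
        simp [hor, ind_pos]
      · rw [ind_neg he, zero_mul, hor, mul_right_comm, ← ind_and, ind_neg, zero_mul]
        rintro ⟨h1, h2⟩
        exact he (by simp only at h1 h2; rw [← h2, ← h1]; simp)
  rw [dv, sum_congr rfl fun e _ => h1 e, sum_sub_distrib, sum_ind_eq, sum_ind_eq]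
  congr 2 <;> refine ind_congr ?_ <;> rw [Lat.mem_edI] <;> simp [h.e1]

theorem sum_hor_le (Λ : Lat) (n₁ n₂ : ℕ) (ψ : ℤ → ℝ) :
    ∑ e ∈ Λ.edI (rc 0 n₁ n₂), hor ψ e ^ 2 ≤ n₂ * ∑ a ∈ Ico (0 : ℤ) n₁, ψ a ^ 2 := by
  classical
  have h1 : ∑ x ∈ rc 0 n₁ n₂, ψ x.1 ^ 2 = n₂ * ∑ a ∈ Ico (0 : ℤ) n₁, ψ a ^ 2 := by
    rw [rc, sum_product, mul_sum]
    simp
  have h2 : ∑ e ∈ Λ.edI (rc 0 n₁ n₂), hor ψ e ^ 2 =
      ∑ e ∈ (Λ.edI (rc 0 n₁ n₂)).filter (fun e => e.2 - e.1 = (1, 0)), ψ e.1.1 ^ 2 := by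
    rw [sum_filter]
    refine sum_congr rfl fun e _ => ?_
    split_ifs with he
    · simp [hor, ind_pos he]
    · simp [hor, ind_neg he]
  rw [← h1, h2]
  rw [← sum_image (f := fun x : Pt => ψ x.1 ^ 2) (g := fun e : Pt × Pt => e.1)]
  · refine sum_le_sum_of_subset_of_nonneg (fun x hx => ?_) fun _ _ _ => sq_nonneg _
    obtain ⟨e, he, rfl⟩ := mem_image.1 hx
    exact (Lat.mem_edI.1 (mem_filter.1 he).1).2.1
  · intro e he e' he' h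
    simp only [coe_filter, Set.mem_ofPred_eq] at he he' h
    exact Prod.ext h (by rw [← sub_add_cancel e.2 e.1, he.2, h, ← he'.2]; simp)

/-- clamp to `[0, 1]` -/
noncomputable def cl (t : ℝ) : ℝ := max 0 (min t 1)

theorem cl_mem (t : ℝ) : 0 ≤ cl t ∧ cl t ≤ 1 :=
  ⟨le_max_left _ _, max_le zero_le_one (min_le_right _ _)⟩

theorem cl_lip (s t : ℝ) : |cl s - cl t| ≤ |s - t| :=
  (abs_max_sub_max_le_max _ _ _ _).trans (max_le (by simp)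
    ((abs_min_sub_min_le_max _ _ _ _).trans (max_le le_rfl (by simp))))

theorem cl_of_nonpos {t : ℝ} (h : t ≤ 0) : cl t = 0 := max_eq_left ((min_le_left _ _).trans h)

theorem cl_of_ge {t : ℝ} (h : 1 ≤ t) : cl t = 1 := by rw [cl, min_eq_right h, max_eq_right zero_le_one]

theorem cl_of_mem {t : ℝ} (h0 : 0 ≤ t) (h : t ≤ 1) : cl t = t := by
  rw [cl, min_eq_left h, max_eq_right h0]

/-- the smeared flow of `col - uniform` -/
noncomputable def ps (n₁ n₂ m : ℕ) (c a : ℤ) : ℝ :=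
  (cl (((a : ℝ) + 1) / n₁) - cl (((a : ℝ) - c + 1) / m)) / n₂

/-- the remainder -/
noncomputable def rm (n₂ m : ℕ) (c a : ℤ) : ℝ := (cl (((a : ℝ) - c + 1) / m) - ind (c ≤ a)) / n₂

/-- uniform density -/
noncomputable def un (n₁ n₂ : ℕ) (x : Pt) : ℝ := ind (x ∈ rc 0 n₁ n₂) / ((n₁ : ℝ) * n₂)

theorem ps_neg (n₁ n₂ m : ℕ) {c a : ℤ} (hc : 0 ≤ c) (ha : a < 0) : ps n₁ n₂ m c a = 0 := by
  have h1 : (a : ℝ) + 1 ≤ 0 := by exact_mod_cast ha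
  have h2 : (0 : ℝ) ≤ c := by exact_mod_cast hc
  rw [ps, cl_of_nonpos (div_nonpos_of_nonpos_of_nonneg h1 (by positivity)),
    cl_of_nonpos (div_nonpos_of_nonpos_of_nonneg (by linarith) (by positivity))]
  simp

theorem abs_ps_le (n₁ n₂ m : ℕ) (c a : ℤ) : |ps n₁ n₂ m c a| ≤ 1 / n₂ := by
  rw [ps, abs_div, Nat.abs_cast]
  refine div_le_div_of_nonneg_right (abs_le.2 ⟨?_, ?_⟩) (by positivity)
  · linarith [(cl_mem (((a : ℝ) + 1) / n₁)).1, (cl_mem (((a : ℝ) - c + 1) / m)).2]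
  · linarith [(cl_mem (((a : ℝ) + 1) / n₁)).2, (cl_mem (((a : ℝ) - c + 1) / m)).1]

theorem ps_lip (n₁ n₂ m : ℕ) (c a : ℤ) :
    |ps n₁ n₂ m c (a + 1) - ps n₁ n₂ m c a| ≤ (1 / n₁ + 1 / m) / n₂ := by
  rw [ps, ps, ← sub_div, abs_div, Nat.abs_cast]
  refine div_le_div_of_nonneg_right ?_ (by positivity)
  have h1 := cl_lip ((((a + 1 : ℤ) : ℝ) + 1) / n₁) (((a : ℝ) + 1) / n₁)
  have h2 := cl_lip ((((a + 1 : ℤ) : ℝ) - c + 1) / m) (((a : ℝ) - c + 1) / m)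
  rw [← sub_div, abs_div, Nat.abs_cast] at h1 h2
  push_cast at h1 h2 ⊢
  rw [show (a : ℝ) + 1 + 1 - (a + 1) = 1 by ring, abs_one] at h1
  rw [show (a : ℝ) + 1 - c + 1 - (a - c + 1) = 1 by ring, abs_one] at h2
  rw [abs_le] at h1 h2 ⊢
  constructor <;> linarith [h1.1, h1.2, h2.1, h2.2]

theorem sum_rm_le (n₁ n₂ : ℕ) {m : ℕ} (hm : 1 ≤ m) (c : ℤ) :
    ∑ a ∈ Ico (0 : ℤ) n₁, rm n₂ m c a ^ 2 ≤ m / (n₂ : ℝ) ^ 2 := by
  have hm' : (0 : ℝ) < m := by exact_mod_cast hm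
  have h0 : ∀ a, a ∉ Ico c (c + m) → rm n₂ m c a ^ 2 = 0 := fun a ha => by
    rw [mem_Ico, not_and_or, not_le, not_lt] at ha
    rcases ha with ha | ha
    · have : (a : ℝ) + 1 ≤ c := by exact_mod_cast ha
      rw [rm, ind_neg (not_le.2 ha),
        cl_of_nonpos (div_nonpos_of_nonpos_of_nonneg (by linarith) hm'.le)]
      simp
    · have : (c : ℝ) + m ≤ a := by exact_mod_cast ha
      rw [rm, ind_pos (by omega), cl_of_ge ((one_le_div hm').2 (by linarith))]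
      simp
  calc _ ≤ ∑ a ∈ Ico (0 : ℤ) n₁ ∪ Ico c (c + m), rm n₂ m c a ^ 2 :=
        sum_le_sum_of_subset_of_nonneg subset_union_left fun _ _ _ => sq_nonneg _
    _ = ∑ a ∈ Ico c (c + m), rm n₂ m c a ^ 2 :=
        (sum_subset subset_union_right fun a _ ha => h0 a ha).symm
    _ ≤ ∑ _a ∈ Ico c (c + m), 1 / (n₂ : ℝ) ^ 2 := sum_le_sum fun a _ => by
        rw [rm, div_pow]
        refine div_le_div_of_nonneg_right ?_ (by positivity)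
        have h1 := cl_mem (((a : ℝ) - c + 1) / m)
        have h2 := ind_nonneg (c ≤ a)
        have h3 := ind_le_one (c ≤ a)
        nlinarith
    _ = _ := by simp [div_eq_mul_inv]

theorem col_eq {Λ : Lat} (h : Λ.Ok) {n₁ n₂ : ℕ} (m : ℕ) {c : ℤ} (hc : 0 ≤ c) (hc' : c < n₁)
    (h2 : 1 ≤ n₂) : col n₂ c - un n₁ n₂ = dv (nnL.edI (rc 0 n₁ n₂)) (hor (ps n₁ n₂ m c)) +
      dv (Λ.edI (rc 0 n₁ n₂)) (hor (rm n₂ m c)) := by
  have hn₁ : (0 : ℝ) < n₁ := by exact_mod_cast (by omega : 0 < n₁)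
  have hn₂ : (0 : ℝ) < n₂ := by exact_mod_cast h2
  have key : ∀ a : ℤ, -1 ≤ a → a < n₁ →
      ps n₁ n₂ m c a + rm n₂ m c a = (((a : ℝ) + 1) / n₁ - ind (c ≤ a)) / n₂ := fun a h0 h1 => by
    have h0' : (-1 : ℝ) ≤ a := by exact_mod_cast h0
    have h1' : (a : ℝ) + 1 ≤ n₁ := by exact_mod_cast h1
    rw [ps, rm, cl_of_mem (div_nonneg (by linarith) hn₁.le) ((div_le_one hn₁).2 h1')]
    ring
  funext x
  rw [Pi.add_apply, dv_hor h, dv_hor nn_ok, Pi.sub_apply]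
  by_cases hx : x ∈ rc 0 n₁ n₂
  · have hx' := mem_rc0.1 hx
    have e1 : ∀ p : Prop, (p ↔ 1 ≤ x.1) →
        ind p * ps n₁ n₂ m c (x.1 - 1) + ind p * rm n₂ m c (x.1 - 1) =
          ((x.1 : ℝ) / n₁ - ind (c ≤ x.1 - 1)) / n₂ := fun p hp => by
      rw [← mul_add, key _ (by omega) (by omega)]
      by_cases h1 : 1 ≤ x.1
      · rw [ind_pos (hp.2 h1)]; push_cast; ring
      · rw [ind_neg (mt hp.1 h1), ind_neg (by omega), show x.1 = 0 by omega]; simp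
    have e2 : ∀ p : Prop, (p ↔ x.1 + 1 < n₁) →
        ind p * ps n₁ n₂ m c x.1 + ind p * rm n₂ m c x.1 =
          (((x.1 : ℝ) + 1) / n₁ - ind (c ≤ x.1)) / n₂ := fun p hp => by
      rw [← mul_add, key _ (by omega) (by omega)]
      by_cases h1 : x.1 + 1 < n₁
      · rw [ind_pos (hp.2 h1), one_mul]
      · have : (x.1 : ℝ) + 1 = n₁ := by exact_mod_cast (by omega : x.1 + 1 = n₁)
        rw [ind_neg (mt hp.1 h1), ind_pos (by omega), this, div_self hn₁.ne']; simp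
    have e3 := e1 (x - (1, 0) ∈ rc 0 n₁ n₂ ∧ x ∈ rc 0 n₁ n₂) (by
      rw [mem_rc0, mem_rc0]; simp only [Prod.fst_sub, Prod.snd_sub]; omega)
    have e4 := e2 (x ∈ rc 0 n₁ n₂ ∧ x + (1, 0) ∈ rc 0 n₁ n₂) (by
      rw [mem_rc0, mem_rc0]; simp only [Prod.fst_add, Prod.snd_add]; omega)
    have e5 : col n₂ c x = (ind (c ≤ x.1) - ind (c ≤ x.1 - 1)) / n₂ := by
      rw [col]
      congr 1
      rcases lt_trichotomy x.1 c with h1 | h1 | h1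
      · rw [ind_neg (by omega), ind_neg (by omega), ind_neg (by omega), sub_zero]
      · rw [ind_pos (by omega), ind_pos (by omega), ind_neg (by omega), sub_zero]
      · rw [ind_neg (by omega), ind_pos (by omega), ind_pos (by omega), sub_self]
    rw [e5, un, ind_pos hx]
    have e6 : (1 : ℝ) / (n₁ * n₂) = 1 / n₁ / n₂ := by rw [div_div]
    rw [e6]
    linear_combination e4 - e3
  · rw [ind_neg fun h' => hx h'.2, ind_neg fun h' => hx h'.1, un, ind_neg hx, col, ind_neg]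
    · simp
    · intro h'
      exact hx (mem_rc0.2 (by omega))

/-- a primitive of the smeared flow -/
noncomputable def pf (ψ : ℤ → ℝ) (κ : ℝ) (x : Pt) : ℝ := κ * ∑ j ∈ Ico (0 : ℤ) x.1, ψ j

theorem df0_pf {ψ : ℤ → ℝ} (hψ : ∀ a, a < 0 → ψ a = 0) (κ : ℝ) (x : Pt) :
    pf ψ κ (x + (1, 0)) - pf ψ κ x = κ * ψ x.1 := by
  rw [pf, pf, ← mul_sub]
  congr 1
  simp only [Prod.fst_add]
  by_cases hx : 0 ≤ x.1
  · rw [← insert_Ico_right_eq_Ico_add_one hx, sum_insert (by simp)]; ring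
  · rw [Ico_eq_empty (by omega), Ico_eq_empty (by omega), hψ _ (by omega)]; simp

theorem df1_pf (ψ : ℤ → ℝ) (κ : ℝ) (x : Pt) : pf ψ κ (x + (0, 1)) - pf ψ κ x = 0 := by simp [pf]

theorem sm2_pf {ψ : ℤ → ℝ} (hψ : ∀ a, a < 0 → ψ a = 0) {κ K L : ℝ}
    (h1 : ∀ a, |κ * ψ a| ≤ K / L) (h2 : ∀ a, |κ * ψ (a + 1) - κ * ψ a| ≤ K / L ^ 2) :
    Sm2 (pf ψ κ) K L := by
  have e0 : df 0 (pf ψ κ) = fun x => κ * ψ x.1 := funext (df0_pf hψ κ)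
  have e1 : df 1 (pf ψ κ) = fun _ => 0 := funext (df1_pf ψ κ)
  have p1 := (abs_nonneg _).trans (h1 0)
  have p2 := (abs_nonneg _).trans (h2 0)
  refine ⟨Fin.forall_fin_two.2 ⟨fun x => ?_, fun x => ?_⟩, Fin.forall_fin_two.2
    ⟨Fin.forall_fin_two.2 ⟨fun x => ?_, fun x => ?_⟩, fun j x => ?_⟩⟩
  · rw [e0]; exact h1 x.1
  · rw [e1]; simpa using p1
  · rw [e0]; simpa [df, ev] using h2 x.1
  · rw [e0]; simpa [df, ev] using p2
  · rw [e1]; simpa [df, ev] using p2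

theorem Au_pf {ψ : ℤ → ℝ} (hψ : ∀ a, a < 0 → ψ a = 0) (B : Finset Pt) {κ : ℝ} (hκ : κ ≠ 0) :
    κ • nnL.Au B (pf ψ κ⁻¹) = dv (nnL.edI B) (hor ψ) := by
  funext x
  rw [Pi.smul_apply, Lat.Au, dv, dv, smul_eq_mul, mul_sum]
  refine sum_congr rfl fun e he => ?_
  rw [← mul_assoc]
  congr 1
  have h1 := (Lat.mem_edI.1 he).1
  rw [nn_Jp, mem_insert, mem_singleton] at h1
  show κ * ((pf ψ κ⁻¹ e.2 - pf ψ κ⁻¹ e.1) / 1) = _
  rcases h1 with h1 | h1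
  · rw [hor, ind_pos h1, ← add_sub_cancel e.1 e.2, h1, df0_pf hψ]
    field_simp
  · rw [hor, ind_neg (by rw [h1]; decide), ← add_sub_cancel e.1 e.2, h1, df1_pf]
    simp

theorem sep_mono {δ δ' : ℝ} {l L L' : ℕ} (h : Sep δ l L) (hδ : δ ≤ δ') (hL : L ≤ L') :
    Sep δ' l L' := by
  have h0 : (0 : ℝ) ≤ l := Nat.cast_nonneg _
  have h1 : (L : ℝ) ≤ L' := Nat.cast_le.2 hL
  have h2 : (0 : ℝ) ≤ L := Nat.cast_nonneg _
  have h3 : 0 < δ := by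
    by_contra h4
    nlinarith [h.1]
  exact ⟨by nlinarith [h.1], by nlinarith [h.2]⟩

theorem sep_ge {δ : ℝ} {l L : ℕ} (h : Sep δ l L) (h1 : δ ≤ 1) : 1 ≤ δ * L := by
  have h2 : (0 : ℝ) ≤ l := Nat.cast_nonneg _
  nlinarith [h.1, h.2]

theorem vr_F2 (hB : BrStmt) {Λ : Lat} (h : Λ.Ok) {n₁ n₂ : ℕ} {f : Pt → ℝ} {n : ℝ}
    (hf : F2 (Λ.edI (rc 0 n₁ n₂)) f n) : Vr (Λ.WR n₁ n₂) (pr f) (pr f) ≤ Λ.τ * n := by
  obtain ⟨φ, h1, h2⟩ := hf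
  exact (hB.2.1 Λ _ f n h (h.ctr_Nr _ _) (anch_WR h n₁ n₂) _ Subset.rfl (fun _ _ => rfl)
    ⟨φ, fun x _ => congrFun h1 x, h2⟩).1

theorem num1 {L a b δ : ℝ} (hL : 1 ≤ L) (ha0 : 0 ≤ a) (ha : a ≤ 2 * L) (hb : b ≤ 2 * L)
    (hδ : 1 / L ≤ δ) : a * b / L ^ 2 ≤ 4 ∧ a * b / L ^ 4 + (a + b) / L ^ 2 ≤ 8 * δ := by
  have hL0 : 0 < L := by linarith
  have h0 : a * b ≤ 4 * L ^ 2 := by nlinarith
  have h1 : a * b / L ^ 4 ≤ 4 * (1 / L) := by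
    rw [mul_one_div, div_le_div_iff₀ (by positivity) hL0]
    have h2 : L ^ 3 ≤ L ^ 4 := pow_le_pow_right₀ hL (by norm_num)
    nlinarith
  have h2 : (a + b) / L ^ 2 ≤ 4 * (1 / L) := by
    rw [mul_one_div, div_le_div_iff₀ (by positivity) hL0]
    nlinarith
  exact ⟨by rwa [div_le_iff₀ (by positivity)], by linarith⟩

theorem sm2_ps {n₁ n₂ m L : ℕ} {c : ℤ} (hc : 0 ≤ c) {κ T δ' : ℝ} (hL : 1 ≤ L) (a1 : L ≤ n₁) (b1 : L ≤ n₂)
    (hκ : 0 ≤ κ) (hT : κ ≤ T) (hδ' : 0 < δ') (hm : δ' * L ≤ m) :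
    Sm2 (pf (ps n₁ n₂ m c) κ) (16 + (1 + 1 / δ') * T) L := by
  have hL0 : (0 : ℝ) < L := by exact_mod_cast hL
  have hT0 := hκ.trans hT
  refine sm2_pf (fun a => ps_neg n₁ n₂ m hc) (fun a => ?_) fun a => ?_
  · rw [abs_mul, abs_of_nonneg hκ]
    have h1 : |ps n₁ n₂ m c a| ≤ 1 / L := (abs_ps_le n₁ n₂ m c a).trans (by gcongr)
    calc _ ≤ T * (1 / L) := by gcongr
      _ = T / L := by ring
      _ ≤ _ := by
        gcongr
        have : 0 ≤ 1 / δ' * T := by positivity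
        linarith
  · rw [← mul_sub, abs_mul, abs_of_nonneg hκ]
    have h1 : |ps n₁ n₂ m c (a + 1) - ps n₁ n₂ m c a| ≤ (1 / L + 1 / (δ' * L)) / L :=
      (ps_lip n₁ n₂ m c a).trans (by gcongr)
    calc _ ≤ T * ((1 / L + 1 / (δ' * L)) / L) := by gcongr
      _ = (1 + 1 / δ') * T / L ^ 2 := by field_simp
      _ ≤ _ := by gcongr; linarith

theorem rm_le {n₂ m L : ℕ} (n₁ : ℕ) (c : ℤ) {δ' δ : ℝ} (hL : 1 ≤ L) (b1 : L ≤ n₂) (hm0 : 1 ≤ m)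
    (hδ' : 0 < δ') (hm : m ≤ δ' * L + 1) (hδ : 1 / (L : ℝ) ≤ δ) :
    (n₂ : ℝ) * ∑ a ∈ Ico (0 : ℤ) n₁, rm n₂ m c a ^ 2 ≤ δ' + δ := by
  have hL0 : (0 : ℝ) < L := by exact_mod_cast hL
  have hn : (0 : ℝ) < n₂ := by exact_mod_cast hL.trans b1
  calc _ ≤ n₂ * (m / (n₂ : ℝ) ^ 2) := by gcongr; exact sum_rm_le n₁ n₂ hm0 c
    _ = m / n₂ := by field_simp
    _ ≤ (δ' * L + 1) / L := by gcongr
    _ = δ' + 1 / L := by field_simp
    _ ≤ _ := by linarith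

/-- one column against the uniform density -/
theorem col_un (hB : BrStmt) (hR : RJStmt) (hT : T1xStmt) (F : Fa) {ε : ℝ} (hε : 0 < ε) :
    ∃ δ : ℝ, 0 < δ ∧ ∀ Λ, F.Mem Λ → ∀ l L n₁ n₂ : ℕ, Sep δ l L → Λ.tN l ≤ δ → L ≤ n₁ → n₁ ≤ 2 * L →
      L ≤ n₂ → n₂ ≤ 2 * L → ∀ c : ℤ, 0 ≤ c → c < n₁ →
        Vr (Λ.WR n₁ n₂) (pr (col n₂ c - un n₁ n₂)) (pr (col n₂ c - un n₁ n₂)) ≤ ε := by
  obtain ⟨C₀, hC₀⟩ := hR F
  obtain ⟨T, hT1, hT2⟩ : ∃ T : ℝ, 1 ≤ T ∧ F.τ₂ ≤ T := ⟨_, le_max_right F.τ₂ 1, le_max_left _ _⟩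
  obtain ⟨C, hC, hC'⟩ : ∃ C : ℝ, 0 ≤ C ∧ C₀ ≤ C := ⟨_, le_max_right C₀ 0, le_max_left _ _⟩
  obtain ⟨δ', hδ'0, hδ'⟩ : ∃ δ' : ℝ, 0 < δ' ∧ T * δ' = ε / 16 :=
    ⟨ε / (16 * T), by positivity, by field_simp⟩
  obtain ⟨K, hK⟩ : ∃ K : ℝ, K = 16 + (1 + 1 / δ') * T := ⟨_, rfl⟩
  have hK0 : 4 * 2 ^ 2 ≤ K := by
    have : 0 ≤ (1 + 1 / δ') * T := by positivity
    linarith
  obtain ⟨δ₁, hδ₁, h₁⟩ := hT F K (ε / 32) (by positivity)
  obtain ⟨δ, hδ0, hδ, hδ1, hδS⟩ : ∃ δ : ℝ, 0 < δ ∧ δ ≤ δ₁ ∧ δ ≤ 1 ∧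
      δ * (2 * T + 16 * C * K ^ 2 + 32 * T * C * K ^ 2) ≤ ε / 2 := by
    refine ⟨min δ₁ (min 1 (ε / 2 / (2 * T + 16 * C * K ^ 2 + 32 * T * C * K ^ 2))), by positivity,
      min_le_left _ _, (min_le_right _ _).trans (min_le_left _ _), ?_⟩
    rw [← le_div_iff₀ (by positivity)]
    exact (min_le_right _ _).trans (min_le_right _ _)
  refine ⟨δ, hδ0, fun Λ hΛ l L n₁ n₂ hs hθ a1 a2 b1 b2 c c1 c2 => ?_⟩
  have h := ok_of hΛ
  have hτ : Λ.τ ≤ T := hΛ.2.2.2.trans hT2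
  have hτ0 := h.pos
  have hL := sep_ge hs hδ1
  have hL1 : (1 : ℝ) ≤ L := hL.trans (mul_le_of_le_one_left (Nat.cast_nonneg L) hδ1)
  have hL0 : (0 : ℝ) < L := one_pos.trans_le hL1
  have hLn : 1 ≤ L := by exact_mod_cast hL1
  have hLi : 1 / (L : ℝ) ≤ δ := by rw [div_le_iff₀ hL0]; exact hL
  have a2' : (n₁ : ℝ) ≤ 2 * L := by exact_mod_cast a2
  have b2' : (n₂ : ℝ) ≤ 2 * L := by exact_mod_cast b2
  obtain ⟨m, hm0, hm1, hm2⟩ : ∃ m : ℕ, 1 ≤ m ∧ δ' * L ≤ m ∧ (m : ℝ) ≤ δ' * L + 1 :=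
    ⟨⌈δ' * L⌉₊, Nat.one_le_iff_ne_zero.2 (Nat.ceil_pos.2 (by positivity)).ne', Nat.le_ceil _,
      (Nat.ceil_lt_add_one (by positivity)).le⟩
  have he0 : 0 < Λ.e0 := div_pos (one_pos.trans_le h.one_le_a) hτ0
  have he1 : Λ.e0⁻¹ ≤ T := by
    rw [Lat.e0, inv_div]
    exact (div_le_self hτ0.le h.one_le_a).trans hτ
  have hsm := sm2_ps c1 hLn a1 b1 (inv_nonneg.2 he0.le) he1 hδ'0 hm1
  have hd := col_eq h m c1 c2 (hLn.trans b1)
  rw [← Au_pf (fun a => ps_neg n₁ n₂ m c1) _ he0.ne'] at hd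
  rw [← hK] at hsm
  generalize pf (ps n₁ n₂ m c) Λ.e0⁻¹ = u at hsm hd
  obtain ⟨r1, -, r3, -⟩ := (hC₀ Λ hΛ 0 n₁ n₂).2 u u K L hL1 hsm hsm
  have hreg : Reg (rc 0 n₁ n₂) K l L := by
    obtain ⟨g1, g2⟩ := hB.2.2.2.2.2.1 0 n₁ n₂ l L 2 (by norm_num) a2' b2'
    exact ⟨g1.trans (by gcongr), g2.trans (by gcongr)⟩
  have hM := h₁ Λ hΛ l L (sep_mono hs hδ le_rfl) _ _ u 0
    (hB.2.2.1 Λ 0 0 n₁ n₂ h (mem_rc0.2 (by simp; omega))) hreg hsm fun _ _ => by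
      simp only [Pi.zero_apply, abs_zero]; exact div_nonneg (by linarith) hL0.le
  have hz : pr (dv (Λ.edI (rc 0 n₁ n₂)) 0) = 0 := AddMonoidHom.ext fun s => by simp [hB.1]
  simp only [hz, add_zero, Pi.zero_apply, zero_mul, sum_const_zero, mul_zero, ne_eq,
    OfNat.ofNat_ne_zero, not_false_eq_true, zero_pow] at hM
  have hc := cen_WR h n₁ n₂
  have hA := (hc.vr_le_M (pr (Λ.Au (rc 0 n₁ n₂) u))).trans hM
  have hE0 : 0 ≤ Λ.En (rc 0 n₁ n₂) u u :=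
    sum_nonneg fun e _ => div_nonneg (mul_self_nonneg _) hτ0.le
  obtain ⟨n1, n2⟩ := num1 hL1 (Nat.cast_nonneg n₁) a2' b2' hLi
  have hE1 : Λ.En (rc 0 n₁ n₂) u u ≤ C * K ^ 2 * 4 :=
    ((le_abs_self _).trans r3).trans (by gcongr)
  have hA' : Λ.tN l * Λ.En (rc 0 n₁ n₂) u u ≤ δ * (C * K ^ 2 * 4) :=
    (mul_le_mul_of_nonneg_right hθ hE0).trans (by gcongr)
  have hBv := (vr_F2 hB h r1).trans (show _ ≤ T * (C * K ^ 2 * (8 * δ)) from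
    (mul_le_mul_of_nonneg_left (b := _) (c := C * K ^ 2 * (8 * δ)) (by gcongr) hτ0.le).trans
      (by gcongr))
  have hH := (vr_F2 hB h ⟨hor (rm n₂ m c), rfl, (sum_hor_le Λ n₁ n₂ _).trans
    (rm_le n₁ c hLn b1 hm0 hδ'0 hm2 hLi)⟩).trans (show _ ≤ T * (δ' + δ) by gcongr)
  rw [hd, ← sub_sub_cancel (Λ.Au (rc 0 n₁ n₂) u) (Λ.e0 • nnL.Au (rc 0 n₁ n₂) u), pr_add, pr_sub]
  have h5 := vr_sub_le hc (pr (Λ.Au (rc 0 n₁ n₂) u))
    (pr (Λ.Au (rc 0 n₁ n₂) u - Λ.e0 • nnL.Au (rc 0 n₁ n₂) u))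
  refine (vr_add_le hc _ _).trans ?_
  linarith

theorem growth {a lo hi : ℝ} (h0 : 0 < lo) (h1 : lo ≤ a) (h2 : a ≤ 1 - hi) (h3 : 0 ≤ hi) :
    a + lo * hi ^ 2 / 4 ≤ 2 * a * (1 + a ^ 2) / (1 + a) ^ 2 := by
  have ha : 0 < a := h0.trans_le h1
  rw [le_div_iff₀ (by positivity)]
  have h4 : hi ^ 2 ≤ (1 - a) ^ 2 := pow_le_pow_left₀ h3 (by linarith) 2
  have h5 : (1 + a) ^ 2 ≤ 4 := by nlinarith
  have h6 : lo * hi ^ 2 / 4 * (1 + a) ^ 2 ≤ a * (1 - a) ^ 2 :=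
    calc _ ≤ lo * hi ^ 2 / 4 * 4 := by gcongr
      _ = lo * hi ^ 2 := by ring
      _ ≤ _ := by gcongr
  nlinarith

theorem growth0 {a : ℝ} (ha : 0 ≤ a) : a ≤ 2 * a * (1 + a ^ 2) / (1 + a) ^ 2 := by
  rw [le_div_iff₀ (by positivity)]
  nlinarith [mul_nonneg ha (sq_nonneg (1 - a))]

/-- accumulation of the growth steps -/
theorem iter {b : ℕ → ℝ} {c γ η t : ℝ} {k : ℕ} (hγ : 0 ≤ γ) (hη : 0 ≤ η) (hc : c ≤ b 0)
    (hct : c ≤ t) (hk : k * η ≤ c / 2)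
    (h : ∀ j, j < k → c / 2 ≤ b j → min (b j + γ) t - η ≤ b (j + 1)) :
    ∀ j, j ≤ k → min (c + j * γ) t - j * η ≤ b j := by
  intro j
  induction j with
  | zero => intro _; simpa using Or.inl hc
  | succ j ih =>
    intro hj
    have h1 := ih (by omega)
    have h2 : (j : ℝ) * η ≤ k * η := by gcongr; omega
    have h3 : c ≤ min (c + j * γ) t := le_min (by nlinarith [Nat.cast_nonneg (α := ℝ) j]) hct
    have h4 := h j (by omega) (by linarith)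
    have h5 : 0 ≤ (j : ℝ) * η := by positivity
    push_cast
    refine le_trans ?_ h4
    rw [add_mul _ _ η, one_mul, ← sub_sub, sub_le_sub_iff_right]
    refine le_min ?_ (by linarith [min_le_right (c + ((j : ℝ) + 1) * γ) t])
    rcases le_total (c + j * γ) t with h6 | h6
    · rw [min_eq_left h6] at h1
      linarith [min_le_left (c + ((j : ℝ) + 1) * γ) t]
    · rw [min_eq_right h6] at h1
      linarith [min_le_right (c + ((j : ℝ) + 1) * γ) t]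

/-- moving the charge from the two middle columns to any line -/
theorem move (hA : AFacStmt) {Λ : Lat} (h : Λ.Ok) {n₁ n₂ : ℕ} {q κ : ℝ} (f g k : Pt → ℝ)
    (h1 : Vr (Λ.WR n₁ n₂) (pr (k - f)) (pr (k - f)) ≤ κ)
    (h2 : Vr (Λ.WR n₁ n₂) (pr (k - g)) (pr (k - g)) ≤ κ) :
    Ph (Λ.WR n₁ n₂) (q • pr (f + g)) - 2 * |q| * Real.sqrt κ ≤
      Ph (Λ.WR n₁ n₂) ((2 * q) • pr k) := by
  have hc := cen_WR h n₁ n₂
  have h3 := (hA.2.1 _ _ 0 (q • pr (f + g)) (q • (pr (k - f) + pr (k - g))) hc).2.2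
  have e : q • pr (f + g) + q • (pr (k - f) + pr (k - g)) = (2 * q) • pr k := by
    rw [pr_add, pr_sub, pr_sub]; module
  rw [e, Vr_smul_left, Vr_smul_right] at h3
  have h4 := vr_add_le hc (pr (k - f)) (pr (k - g))
  have h5 : Real.sqrt (q * (q * Vr (Λ.WR n₁ n₂) (pr (k - f) + pr (k - g))
      (pr (k - f) + pr (k - g)))) ≤ 2 * |q| * Real.sqrt κ := by
    have hκ : 0 ≤ κ := (hc.wt.Vr_nonneg hc.se _).trans h1
    rw [Real.sqrt_le_left (by positivity), mul_pow, mul_pow, sq_abs, Real.sq_sqrt hκ]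
    nlinarith [sq_nonneg q]
  linarith [(abs_le.1 (h3.trans h5)).1]

theorem line_col {n₁ n₂ : ℕ} {c : ℤ} (h0 : 0 ≤ c) (h1 : c < n₁) : Line n₁ n₂ (col n₂ c) :=
  Or.inl ⟨c, h0, h1, rfl⟩

theorem line_row {n₁ n₂ : ℕ} {c : ℤ} (h0 : 0 ≤ c) (h1 : c < n₂) : Line n₁ n₂ (row n₁ c) :=
  Or.inr ⟨c, h0, h1, rfl⟩

theorem line_sd {L : ℕ} (hL : 1 ≤ L) (d : Fin 4) : Line L L (sd L d) := by
  fin_cases d
  · exact line_col (by omega) (by omega)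
  · exact line_col (by omega) (by omega)
  · exact line_row (by omega) (by omega)
  · exact line_row (by omega) (by omega)

end L52

open L52 in
theorem lineStmt (hB : BrStmt) (hR : RJStmt) (hT : T1xStmt) : LineStmt := fun F ε hε => by
  obtain ⟨δ, hδ, H⟩ := col_un hB hR hT F (show 0 < ε / 4 by positivity)
  refine ⟨δ, hδ, fun Λ hΛ l L n₁ n₂ hs hθ a1 a2 b1 b2 f g hf hg => ?_⟩
  have key : ∀ f, Line n₁ n₂ f →
      Vr (Λ.WR n₁ n₂) (pr (f - un n₁ n₂)) (pr (f - un n₁ n₂)) ≤ ε / 4 := by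
    rintro f (⟨c, c1, c2, rfl⟩ | ⟨c, c1, c2, rfl⟩)
    · exact H Λ hΛ l L n₁ n₂ hs hθ a1 a2 b1 b2 c c1 c2
    · have e : (fun x : Pt => (row n₁ c - un n₁ n₂) x.swap) = col n₁ c - un n₂ n₁ := by
        funext x
        simp only [Pi.sub_apply, row, col, un, mem_rc0, Prod.fst_swap, Prod.snd_swap, mul_comm]
        congr 2
        exact ind_congr (by tauto)
      rw [vr_swap (ok_of hΛ), e]
      exact H Λ hΛ l L n₂ n₁ hs hθ b1 b2 a1 a2 c c1 c2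
  rw [← sub_sub_sub_cancel_right f g (un n₁ n₂), pr_sub]
  linarith [vr_sub_le (cen_WR (ok_of hΛ) n₁ n₂) (pr (f - un n₁ n₂)) (pr (g - un n₁ n₂)),
    key f hf, key g hg]

open L52 in
theorem g2Stmt (hG : G1Stmt) (hL : LineStmt) (hA : AFacStmt) : G2Stmt := fun F q₀ c₀ δ₀ hc₀ hδ₀ => by
  set c := min c₀ (1 / 2) with hcd
  set δ' := min δ₀ 1 with hδd
  have hc : 0 < c := by positivity
  have hc1 : c ≤ 1 / 2 := min_le_right _ _
  have hδ' : 0 < δ' := by positivity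
  have hδ1 : δ' ≤ 1 := min_le_right _ _
  set γ := c / 4 * (δ' / 2) ^ 2 / 4 with hγ
  have hγ0 : 0 < γ := by positivity
  obtain ⟨k, hk⟩ := exists_nat_ge (1 / γ)
  rw [div_le_iff₀ hγ0] at hk
  set η := min c δ' / (8 * (k + 1)) with hη
  have hη0 : 0 < η := by positivity
  have hηk : (k + 1) * η = min c δ' / 8 := by rw [hη]; field_simp
  have hm1 := min_le_left c δ'
  have hm2 := min_le_right c δ'
  have hk0 : (0 : ℝ) ≤ k := Nat.cast_nonneg _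
  obtain ⟨n₀, hn₀⟩ := hG F q₀ η hη0
  set κ := min δ' ((η / (2 * Real.pi * (q₀ + 1))) ^ 2) with hκ
  obtain ⟨δ, hδ, H⟩ := hL F κ (by have := Real.pi_pos; positivity)
  refine ⟨min δ (1 / (n₀ + 1)), k, by positivity, fun Λ hΛ l L q q1 q2 hs hθ ha => ?_⟩
  have h := ok_of hΛ
  have hn : n₀ + 1 ≤ L := by
    have h0 : (1 : ℝ) / (n₀ + 1) ≤ 1 := by
      rw [div_le_one (by positivity)]; linarith [Nat.cast_nonneg (α := ℝ) n₀]
    have h1 := sep_ge (sep_mono hs (min_le_right _ _) le_rfl) h0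
    rw [one_div, inv_mul_eq_div, one_le_div (by positivity)] at h1
    exact_mod_cast h1
  have hθ' : Λ.tN l ≤ δ := hθ.trans (min_le_left _ _)
  have hκη : 2 * |Real.pi * q| * Real.sqrt κ ≤ η := by
    have p0 := Real.pi_pos
    have h1 : Real.sqrt κ ≤ η / (2 * Real.pi * (q₀ + 1)) :=
      Real.sqrt_le_iff.2 ⟨by positivity, min_le_right _ _⟩
    have h2 : (q : ℝ) ≤ q₀ + 1 := by exact_mod_cast (by omega : q ≤ q₀ + 1)
    have h3 : (0 : ℝ) ≤ q := by exact_mod_cast (by omega : 0 ≤ q)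
    rw [abs_of_nonneg (by positivity)]
    calc _ ≤ 2 * (Real.pi * (q₀ + 1)) * (η / (2 * Real.pi * (q₀ + 1))) := by gcongr
      _ = η := by field_simp
  -- one doubling
  have dbl : ∀ L' n₁ n₂ : ℕ, L ≤ L' → n₁ = L' → L' ≤ n₂ → n₂ ≤ 2 * L' → ∀ f, Line (2 * n₁) n₂ f →
      let a := Ph (Λ.WR n₁ n₂) ((2 * Real.pi * q) • pr (col n₂ (n₁ - 1)))
      2 * a * (1 + a ^ 2) / (1 + a) ^ 2 - 2 * η ≤
        Ph (Λ.WR (2 * n₁) n₂) ((2 * Real.pi * q) • pr f) := by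
    intro L' n₁ n₂ h1 h2 h3 h4 f hf a
    have h5 := hn₀ Λ hΛ n₁ n₂ q (by omega) (by omega) q1 q2
    have h6 := H Λ hΛ l L' (2 * n₁) n₂ (sep_mono hs (min_le_left _ _) h1) hθ' (by omega) (by omega) h3 h4 f
    have h7 := move hA h (q := Real.pi * q) _ _ f
      (h6 (col n₂ (n₁ - 1)) hf (line_col (by omega) (by omega)))
      (h6 (col n₂ n₁) hf (line_col (by omega) (by omega)))
    rw [← mul_assoc] at h7
    simp only at h5
    linarith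
  have step : ∀ L' : ℕ, L ≤ L' → c / 2 ≤ Λ.aq L' q →
      min (Λ.aq L' q + γ) (1 - δ' / 2) - 4 * η ≤ Λ.aq (2 * L') q := by
    intro L' h1 h2
    have h3 := dbl L' L' L' h1 rfl le_rfl (by omega) (row (2 * L') (L' - 1))
      (line_row (by omega) (by omega))
    have h4 := dbl L' L' (2 * L') h1 rfl (by omega) le_rfl (sd (2 * L') 0) (line_sd (by omega) 0)
    have e : Ph (Λ.WR L' (2 * L')) ((2 * Real.pi * q) • pr (col (2 * L') (L' - 1))) =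
        Ph (Λ.WR (2 * L') L') ((2 * Real.pi * q) • pr (row (2 * L') (L' - 1))) := by
      rw [← pr_smul, ← pr_smul, ph_swap h]; rfl
    simp only at h3 h4
    rw [← e] at h3
    change 2 * Λ.aq L' q * (1 + Λ.aq L' q ^ 2) / (1 + Λ.aq L' q) ^ 2 - 2 * η ≤ _ at h3
    change _ ≤ Λ.aq (2 * L') q at h4
    generalize Ph (Λ.WR L' (2 * L')) ((2 * Real.pi * q) • pr (col (2 * L') (L' - 1))) = a' at h3 h4
    have h5 := growth0 (a := Λ.aq L' q) (by linarith)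
    have h6 : c / 4 ≤ a' := by nlinarith
    rcases le_total a' (1 - δ' / 2) with h7 | h7
    · have h8 := growth (by positivity) h6 h7 (by positivity)
      linarith [min_le_left (Λ.aq L' q + γ) (1 - δ' / 2)]
    · linarith [min_le_right (Λ.aq L' q + γ) (1 - δ' / 2), growth0 (a := a') (by linarith)]
  have hp : ∀ j : ℕ, L ≤ 2 ^ j * L := fun j => Nat.le_mul_of_pos_left _ (by positivity)
  have fin := iter (b := fun j => Λ.aq (2 ^ j * L) q) (c := c) (γ := γ) (η := 4 * η)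
    (t := 1 - δ' / 2) (k := k) hγ0.le (by positivity)
    (by rw [pow_zero, one_mul]; exact (min_le_left c₀ (1 / 2)).trans ha) (by linarith) (by nlinarith)
    (fun j _ hj => by
      have := step _ (hp j) hj
      rwa [← mul_assoc, ← pow_succ'] at this) k le_rfl
  have hδ₀' : δ' ≤ δ₀ := min_le_left _ _
  refine ⟨?_, fun d => ?_⟩
  · rw [min_eq_right (by linarith)] at fin
    nlinarith
  · have h1 : 1 ≤ 2 ^ k * L := (by omega : 1 ≤ L).trans (hp k)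
    exact (H Λ hΛ l (2 ^ k * L) _ _ (sep_mono hs (min_le_left _ _) (hp k)) hθ' le_rfl (by omega) le_rfl
      (by omega) _ _ (line_sd h1 0) (line_sd h1 d)).trans ((min_le_left _ _).trans hδ₀')

end Crest.Agent.T145
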