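import Crest.Agent.T145.LoA_21
import Crest.Agent.T145.BrB_73
import Crest.Agent.T145.RJ_57

/-!
# Row 145, (b) T3a, low modes: `loStmt : LoStmt` (helper21)
-/

set_option autoImplicit false
set_option linter.unusedVariables false
set_option linter.unusedSectionVars false
set_option linter.style.haveILetI false

namespace Crest.Agent.T145

open MeasureTheory Finset Matrix

namespace Lo21

/-! ## Gaussian noise -/
section noise
variable {κ : Type} [Fintype κ] [DecidableEq κ]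

theorem cm (h : κ → ℝ) (F : (κ → ℝ) → ℝ) :
    ∫ ξ, F (ξ + h) ∂Gs.gm (1 : Matrix κ κ ℝ) = ∫ ξ, F ξ * Gs.cmd 1 h ξ ∂Gs.gm (1 : Matrix κ κ ℝ) := by
  have := Gs.integral_shift (C := (1 : Matrix κ κ ℝ)) PosSemidef.one h F
  simpa only [one_mulVec, smul_eq_mul, mul_comm] using this

theorem abs_dot_norm (a ξ : κ → ℝ) : |a ⬝ᵥ ξ| ≤ l1 a * ‖ξ‖ := by
  rw [l1, Finset.sum_mul]
  refine (Finset.abs_sum_le_sum_abs _ _).trans (Finset.sum_le_sum fun i _ => ?_)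
  rw [abs_mul]
  exact mul_le_mul_of_nonneg_left (norm_le_pi_norm ξ i) (abs_nonneg _)

theorem int_dot (a : κ → ℝ) {F : (κ → ℝ) → ℝ} (mF : Measurable F) (hF : ∀ ξ, |F ξ| ≤ 1) :
    Integrable (fun ξ => a ⬝ᵥ ξ * F ξ) (Gs.gm (1 : Matrix κ κ ℝ)) ∧
      |∫ ξ, a ⬝ᵥ ξ * F ξ ∂Gs.gm (1 : Matrix κ κ ℝ)| ≤ 2 * Real.exp (a ⬝ᵥ a / 2) := by
  have hb : Integrable (fun ξ => Real.exp (a ⬝ᵥ ξ) + Real.exp ((-a) ⬝ᵥ ξ))
      (Gs.gm (1 : Matrix κ κ ℝ)) := (Gs.int_exp _ a).add (Gs.int_exp _ (-a))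
  have hp : ∀ ξ, |a ⬝ᵥ ξ * F ξ| ≤ Real.exp (a ⬝ᵥ ξ) + Real.exp ((-a) ⬝ᵥ ξ) := fun ξ => by
    rw [abs_mul, neg_dotProduct]
    refine (mul_le_of_le_one_right (abs_nonneg _) (hF ξ)).trans ?_
    linarith [Real.add_one_le_exp |a ⬝ᵥ ξ|, exp_abs_le (a ⬝ᵥ ξ)]
  refine ⟨int_of ((Gs.cont_dot a).measurable.mul mF) hb hp, (abs_int_le hb hp).trans_eq ?_⟩
  rw [integral_add (Gs.int_exp _ a) (Gs.int_exp _ (-a)), Gs.mgf PosSemidef.one,
    Gs.mgf PosSemidef.one]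
  simp only [one_mulVec, neg_dotProduct, dotProduct_neg, neg_neg]
  ring

theorem der_cm (a : κ → ℝ) {F : (κ → ℝ) → ℝ} (mF : Measurable F) (hF : ∀ ξ, |F ξ| ≤ 1) :
    HasDerivAt (fun t : ℝ => ∫ ξ, F (ξ + t • a) ∂Gs.gm (1 : Matrix κ κ ℝ))
      (∫ ξ, a ⬝ᵥ ξ * F ξ ∂Gs.gm (1 : Matrix κ κ ℝ)) 0 := by
  have ha := Gs.dot_self_nonneg a
  have e : ∀ (t : ℝ) (ξ : κ → ℝ),
      Gs.cmd 1 (t • a) ξ = Real.exp (t * (a ⬝ᵥ ξ) - t ^ 2 * (a ⬝ᵥ a) / 2) := fun t ξ => by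
    simp only [Gs.cmd, one_mulVec, smul_dotProduct, dotProduct_smul, smul_eq_mul]
    congr 1; ring
  simp only [cm, e]
  have mc : ∀ t : ℝ, Measurable fun ξ : κ → ℝ =>
      Real.exp (t * (a ⬝ᵥ ξ) - t ^ 2 * (a ⬝ᵥ a) / 2) := fun t =>
    (((Gs.cont_dot a).measurable.const_mul t).sub_const _).exp
  have := (hasDerivAt_integral_of_dominated_loc_of_deriv_le (μ := Gs.gm (1 : Matrix κ κ ℝ))
    (x₀ := (0 : ℝ)) (s := Metric.ball 0 1)
    (F := fun t ξ => F ξ * Real.exp (t * (a ⬝ᵥ ξ) - t ^ 2 * (a ⬝ᵥ a) / 2))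
    (F' := fun t ξ => F ξ * (Real.exp (t * (a ⬝ᵥ ξ) - t ^ 2 * (a ⬝ᵥ a) / 2) *
      (a ⬝ᵥ ξ - t * (a ⬝ᵥ a))))
    (bound := fun ξ => (1 + a ⬝ᵥ a) * Real.exp (2 * l1 a * ‖ξ‖))
    (Metric.ball_mem_nhds _ one_pos)
    (Filter.Eventually.of_forall fun t => (mF.mul (mc t)).aestronglyMeasurable)
    (Gs.int_bdd (c := 1) (mF.mul (mc 0)) fun ξ => by simpa using hF ξ)
    (mF.mul ((mc 0).mul ((Gs.cont_dot a).measurable.sub_const _))).aestronglyMeasurable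
    (Filter.Eventually.of_forall fun ξ t ht => ?_) ((Gs.int_exp_norm _ _).const_mul _)
    (Filter.Eventually.of_forall fun ξ t _ => ?_)).2
  · simpa [mul_comm] using this
  · have ht1 : |t| ≤ 1 := by simpa using (mem_ball_zero_iff.1 ht).le
    have h1 := abs_dot_norm a ξ
    set x := l1 a * ‖ξ‖
    have h2 : Real.exp (t * (a ⬝ᵥ ξ) - t ^ 2 * (a ⬝ᵥ a) / 2) ≤ Real.exp x := by
      refine Real.exp_le_exp.2 ?_
      have h3 : t * (a ⬝ᵥ ξ) ≤ |a ⬝ᵥ ξ| := (le_abs_self _).trans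
        (by rw [abs_mul]; exact mul_le_of_le_one_left (abs_nonneg _) ht1)
      have : 0 ≤ t ^ 2 * (a ⬝ᵥ a) / 2 := by positivity
      linarith
    have h3 : |a ⬝ᵥ ξ - t * (a ⬝ᵥ a)| ≤ (1 + a ⬝ᵥ a) * Real.exp x := by
      have h4 : |t * (a ⬝ᵥ a)| ≤ a ⬝ᵥ a := by
        rw [abs_mul, abs_of_nonneg ha]; exact mul_le_of_le_one_left ha ht1
      have h5 := Real.add_one_le_exp x
      have h6 := (abs_nonneg _).trans h1
      refine (abs_sub _ _).trans ?_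
      nlinarith
    rw [Real.norm_eq_abs, abs_mul, abs_mul, abs_of_pos (Real.exp_pos _), mul_assoc 2, two_mul,
      Real.exp_add]
    refine (mul_le_of_le_one_left (by positivity) (hF ξ)).trans ?_
    calc _ ≤ Real.exp x * ((1 + a ⬝ᵥ a) * Real.exp x) :=
          mul_le_mul h2 h3 (abs_nonneg _) (Real.exp_pos _).le
      _ = _ := by ring
  · refine HasDerivAt.const_mul _ (HasDerivAt.exp ?_)
    have h1 := ((hasDerivAt_id t).mul_const (a ⬝ᵥ ξ)).sub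
      (((hasDerivAt_pow 2 t).mul_const (a ⬝ᵥ a)).div_const 2)
    exact h1.congr_deriv (by norm_num; ring)

end noise

/-! ## blocks -/
section blocks
variable {n r : ℕ}

/-- extension by zero -/
noncomputable def ext (η : sq 0 n → ℝ) (i : Pt) : ℝ := if h : i ∈ sq 0 n then η ⟨i, h⟩ else 0

/-- block average -/
noncomputable def avg (n r : ℕ) (f : Pt → ℝ) (i : sq 0 n) : ℝ :=
  (∑ y ∈ sq (tile 0 r i) r, f y) / (r : ℝ) ^ 2

/-- block constant density -/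
noncomputable def lift (r : ℕ) (η : sq 0 n → ℝ) (x : Pt) : ℝ := ext η (tileOf 0 r x) / (r : ℝ) ^ 2

/-- block of a site -/
def bk (hr : 0 < r) (x : sq 0 (n * r)) : sq 0 n := ⟨tileOf 0 r x, (tileOf_mem hr).2 x.2⟩

theorem ext_bk (hr : 0 < r) (η : sq 0 n → ℝ) (x : sq 0 (n * r)) :
    ext η (tileOf 0 r x) = η (bk hr x) := dif_pos _

theorem plo_eq (hr : 0 < r) (f : Pt → ℝ) (x : sq 0 (n * r)) : Plo r f x = avg n r f (bk hr x) := by
  simp [Plo, avg, bk, tile, tileOf]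

theorem sup_lift (hr : 0 < r) (η : sq 0 n → ℝ) : Sup (sq 0 (n * r)) (lift r η) := fun x hx => by
  rw [lift, ext, dif_neg (mt (tileOf_mem hr).1 hx), zero_div]

theorem sum_lift (hr : 0 < r) (η : sq 0 n → ℝ) (f : Pt → ℝ) :
    ∑ x ∈ sq 0 (n * r), lift r η x * f x = η ⬝ᵥ avg n r f := by
  rw [sum_tiling, ← Finset.sum_coe_sort]
  refine Finset.sum_congr rfl fun i _ => ?_
  rw [avg, ← mul_div_assoc, Finset.mul_sum, Finset.sum_div]
  refine Finset.sum_congr rfl fun x hx => ?_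
  rw [lift, (mem_tile_iff hr).1 hx, ext, dif_pos i.2]
  ring

theorem avg_ext (hr : 0 < r) (w : sq 0 n → ℝ) : avg n r (fun x => ext w (tileOf 0 r x)) = w := by
  funext i
  have h : (0 : ℝ) < r := by exact_mod_cast hr
  rw [avg, Finset.sum_congr rfl fun x hx => by rw [(mem_tile_iff hr).1 hx, ext, dif_pos i.2],
    Finset.sum_const, card_sq, nsmul_eq_mul]
  push_cast
  field_simp

theorem avg_one (hr : 0 < r) : avg n r (fun _ => 1) = fun _ => 1 := by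
  funext i
  have h : (0 : ℝ) < r := by exact_mod_cast hr
  rw [avg, Finset.sum_const, card_sq, nsmul_eq_mul]
  push_cast
  field_simp

theorem sum_lift1 (hr : 0 < r) (η : sq 0 n → ℝ) : ∑ x ∈ sq 0 (n * r), lift r η x = ∑ i, η i := by
  simpa [avg_one hr, dotProduct] using sum_lift hr η fun _ => 1

theorem pr_lift (hr : 0 < r) (η : sq 0 n → ℝ) (s : Cfg Pt) :
    pr (lift r η) s = η ⬝ᵥ avg n r fun z => (s z : ℝ) := by
  rw [pr_of_fsupp _ s (sup_lift hr η), sum_lift hr]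

theorem abs_lift {η : sq 0 n → ℝ} {c : ℝ} (hc : 0 ≤ c) (h : ∀ i, |η i| ≤ c) (x : Pt) :
    |lift r η x| ≤ c / (r : ℝ) ^ 2 := by
  rw [lift, abs_div, abs_of_nonneg (sq_nonneg (r : ℝ))]
  refine div_le_div_of_nonneg_right ?_ (sq_nonneg _)
  unfold ext
  split_ifs
  · exact h _
  · simpa using hc

theorem abs_avg (hr : 0 < r) {u : Pt → ℝ} {K : ℝ} (h : ∀ x ∈ sq 0 (n * r), |u x| ≤ K) (i : sq 0 n) :
    |avg n r u i| ≤ K := by
  have h0 : (0 : ℝ) < r := by exact_mod_cast hr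
  rw [avg, abs_div, abs_of_nonneg (sq_nonneg (r : ℝ)), div_le_iff₀ (by positivity)]
  refine (Finset.abs_sum_le_sum_abs _ _).trans ((Finset.sum_le_card_nsmul _ _ K fun x hx =>
    h x (tile_subset 0 r i.2 hx)).trans_eq ?_)
  rw [card_sq, nsmul_eq_mul]
  push_cast
  ring

/-- isometric embedding of the block space -/
noncomputable def up (hr : 0 < r) (v : sq 0 n → ℝ) (x : sq 0 (n * r)) : ℝ := v (bk hr x) / r

theorem up_dot (hr : 0 < r) (v w : sq 0 n → ℝ) : up hr v ⬝ᵥ up hr w = v ⬝ᵥ w := by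
  have h := sum_lift hr v fun x => ext w (tileOf 0 r x)
  rw [avg_ext hr, ← Finset.sum_coe_sort] at h
  rw [← h]
  refine Finset.sum_congr rfl fun x _ => ?_
  rw [lift, ext_bk hr, ext_bk hr, up, up]
  ring

/-- normalised block sums -/
noncomputable def SS (n : ℕ) (hr : 0 < r) : Matrix (sq 0 n) (sq 0 (n * r)) ℝ :=
  Matrix.of fun i => up hr (Pi.single i 1)

theorem dot_SS (hr : 0 < r) (v : sq 0 n → ℝ) (ξ : sq 0 (n * r) → ℝ) :
    v ⬝ᵥ (SS n hr *ᵥ ξ) = up hr v ⬝ᵥ ξ := by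
  rw [dotProduct_mulVec]
  congr 1
  funext x
  simp [vecMul, dotProduct, SS, up, Pi.single_apply, div_eq_mul_inv]

theorem mp_SS (hr : 0 < r) : MeasurePreserving (fun ξ => SS n hr *ᵥ ξ)
    (Gs.gm (1 : Matrix (sq 0 (n * r)) (sq 0 (n * r)) ℝ)) (Gs.gm (1 : Matrix (sq 0 n) (sq 0 n) ℝ)) := by
  refine ⟨Gs.meas_mulVec _, ?_⟩
  rw [Gs.map_mulVec PosSemidef.one, Matrix.mul_one]
  congr 1
  ext i j
  have := up_dot hr (Pi.single i 1) (Pi.single j 1 : sq 0 n → ℝ)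
  rw [single_dotProduct, one_mul, Pi.single_apply] at this
  rw [Matrix.one_apply, ← this]
  rfl

end blocks

theorem core (F : Fa) (θ₀ K ε W : ℝ) (n : ℕ) (hn : 0 < n) (hθ₀ : 0 < θ₀) (hε : 0 < ε) (hW : 0 < W) :
    ∃ K' ε₁ : ℝ, 1 ≤ K' ∧ 0 < ε₁ ∧ ∀ Λ, F.Mem Λ → ∀ (r L : ℕ) (θ : ℝ), 0 < r → L = n * r → θ₀ ≤ θ →
    ∀ (u : Pt → ℝ) (G : (sq 0 L → ℝ) → ℝ), (∀ x ∈ sq 0 L, |u x| ≤ K) → Sm2 u K L →
    Λ.Stein L θ u K' ε₁ → Per G →
    |E2 (Λ.WN L) (sq 0 L) fun s ξ => res ((W / L) ^ 2) (Plo r u) (θ⁻¹ • Λ.X L u) s ξ *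
      G (obs ((W / L) ^ 2) (Plo r fun z => (s z : ℝ)) ξ)| ≤ ε := by
  obtain ⟨CE, hCE⟩ := rjStmt F
  haveI : Nonempty (sq 0 n) := ⟨⟨0, self_mem_sq 0 hn⟩⟩
  have hn0 : (1 : ℝ) ≤ n := by exact_mod_cast hn
  set α : ℝ := W / n with hα
  set C : ℝ := 1 + |K| + 2 * Real.exp (α ^ 2 * (dd (sq 0 n) * K ^ 2) / 2) +
    θ₀⁻¹ ^ 2 * (|CE| * K ^ 2) + |F.τ₂| * (2 * (n : ℝ) ^ 4) with hC
  have c1 : 0 ≤ |K| := abs_nonneg _
  have c2 : 0 ≤ 2 * Real.exp (α ^ 2 * (dd (sq 0 n) * K ^ 2) / 2) := by positivity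
  have c3 : 0 ≤ θ₀⁻¹ ^ 2 * (|CE| * K ^ 2) := by positivity
  have c4 : 0 ≤ |F.τ₂| * (2 * (n : ℝ) ^ 4) := by positivity
  obtain ⟨T, ε₁, hT, hε₁, H⟩ := main (sq 0 n) α (C := C) (by linarith) hε
  have hTn : T ≤ T * n ^ 2 := le_mul_of_one_le_right (by linarith) (one_le_pow₀ hn0)
  refine ⟨100 * (T * n ^ 2), θ₀ * ε₁, by linarith, by positivity, ?_⟩
  rintro Λ hΛ r L θ hr rfl hθ u G hu hsm hst ⟨mG, bG, pG⟩
  have ok : Λ.Ok := ⟨hΛ.1 ▸ F.adm, F.pos.trans_le hΛ.2.2.1⟩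
  have hL : 1 ≤ n * r := Nat.mul_pos hn hr
  have hr0 : (0 : ℝ) < r := by exact_mod_cast hr
  have hL1 : (1 : ℝ) ≤ (n * r : ℕ) := by exact_mod_cast hL
  have hθ0 := hθ₀.trans_le hθ
  have cen := ok.cen_WN hL
  haveI := law_prob cen.wt
  set μ : ℝ := (W / (n * r : ℕ)) ^ 2 with hμ
  have hs : Real.sqrt μ = α / r := by
    rw [hμ, Real.sqrt_sq (by positivity), hα]; push_cast; field_simp
  have hα0 : 0 < α := by positivity
  set P := Gs.gm (1 : Matrix (sq 0 (n * r)) (sq 0 (n * r)) ℝ) with hP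
  set m := avg n r u with hm
  set a := α • up hr m with ha
  set Gv : (sq 0 n → ℝ) → (sq 0 (n * r) → ℝ) → ℝ :=
    fun v ξ => G fun x => v (bk hr x) + ξ x / Real.sqrt μ with hGv
  have mGv : ∀ v, Measurable (Gv v) := fun v => mG.comp (by fun_prop)
  have bGv : ∀ v ξ, |Gv v ξ| ≤ 1 := fun v ξ => bG _
  have sh : ∀ v w ξ, Gv (v + w) ξ = Gv v (ξ + α • up hr w) := fun v w ξ => by
    simp only [hGv, Pi.add_apply, Pi.smul_apply, smul_eq_mul, up, hs]
    congr 1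
    funext x
    field_simp
    ring
  have hmK : ∀ i, |m i| ≤ K := abs_avg hr hu
  have key := H _ P (fun ξ => SS n hr *ᵥ ξ) (Gv 0) (fun v => ∫ ξ, Gv v ξ ∂P)
    (fun v => ∫ ξ, a ⬝ᵥ ξ * Gv v ξ ∂P) m (Cfg Pt) (law (Λ.WN (n * r)))
    (fun s => avg n r fun z => (s z : ℝ)) (fun s => θ⁻¹ * Λ.X (n * r) u s) (mp_SS hr) (mGv 0)
    (bGv 0) (fun v => ?_) (fun k v => ?_) (fun v => ?_) (fun v => ?_)
    (fun i => (hmK i).trans (by linarith [le_abs_self K])) Measurable.of_discrete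
    Measurable.of_discrete Measurable.of_discrete Measurable.of_discrete
    ((law_integrable cen.wt).2 (cen.ig (((Tame.hom _).const_mul _).pow 2))) ?_ (fun i j => ?_) ?_
  · rw [St, law_integral cen.wt] at key
    refine le_trans (le_of_eq ?_) key
    unfold E2
    congr 2
    funext s
    have e : gs (sq 0 (n * r)) = P := Gs.gm_one.symm
    rw [e, ← integral_const_mul, ← integral_sub (int_dot a (mGv _) (bGv _)).1
      ((Gs.int_bdd (mGv _) (bGv _)).const_mul _)]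
    refine integral_congr_ae (Filter.Eventually.of_forall fun ξ => ?_)
    have e1 : Real.sqrt μ * ∑ x : sq 0 (n * r), Plo r u x * ξ x = a ⬝ᵥ ξ := by
      simp only [ha, dotProduct, Finset.mul_sum, plo_eq hr, Pi.smul_apply, up, smul_eq_mul, hs]
      exact Finset.sum_congr rfl fun x _ => by ring
    have e2 : G (obs μ (Plo r fun z => (s z : ℝ)) ξ) = Gv (avg n r fun z => (s z : ℝ)) ξ := by
      simp only [hGv, ← plo_eq hr]; rfl
    simp only [res, e1, e2, AddMonoidHom.smul_apply, smul_eq_mul]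
    ring
  · have e : ∀ ξ, Gv v ξ = Gv 0 (ξ + α • up hr v) := fun ξ => by rw [← sh, zero_add]
    simp only [e]
    rw [hP, cm]
    refine integral_congr_ae (Filter.Eventually.of_forall fun ξ => ?_)
    simp only [Gs.cmd, one_mulVec, smul_dotProduct, dotProduct_smul, dot_SS, up_dot]
  · have hp : Function.Periodic G 1 := pG
    refine integral_congr_ae (Filter.Eventually.of_forall fun ξ => ?_)
    simp only [hGv]
    rw [← hp.zsmul k fun x => v (bk hr x) + ξ x / Real.sqrt μ]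
    congr 1
    funext x
    simp [add_right_comm]
  · have e : ∀ (t : ℝ) ξ, Gv (v + t • m) ξ = Gv v (ξ + t • a) := fun t ξ => by
      rw [sh, ha]
      congr 2
      funext x
      simp only [Pi.smul_apply, up, smul_eq_mul]
      ring
    simp only [e]
    exact der_cm a (mGv v) (bGv v)
  · refine (int_dot a (mGv v) (bGv v)).2.trans ?_
    have h1 : m ⬝ᵥ m ≤ dd (sq 0 n) * K ^ 2 := by
      rw [← sum_cst]
      exact Finset.sum_le_sum fun i _ => by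
        rw [← pow_two, ← sq_abs]; exact pow_le_pow_left₀ (abs_nonneg _) (hmK i) 2
    have h2 : a ⬝ᵥ a ≤ α ^ 2 * (dd (sq 0 n) * K ^ 2) := by
      rw [ha, smul_dotProduct, dotProduct_smul, up_dot, smul_eq_mul, smul_eq_mul, ← mul_assoc,
        ← pow_two]
      exact mul_le_mul_of_nonneg_left h1 (sq_nonneg _)
    have h3 := Real.exp_le_exp.2 (div_le_div_of_nonneg_right h2 two_pos.le)
    linarith
  · have h1 := ok.vr_WN hL (ok.f2_Au (sq 0 (n * r)) u)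
    have h2 := ((hCE Λ hΛ 0 (n * r) (n * r)).2 u u K _ hL1 hsm hsm).2.2.1
    have h3 : ((n * r : ℕ) : ℝ) * (n * r : ℕ) / ((n * r : ℕ) : ℝ) ^ 2 = 1 := by field_simp
    rw [h3, mul_one] at h2
    rw [mul_div_cancel₀ _ ok.pos.ne', cen.Vr_eq] at h1
    have h4 : Λ.En (sq 0 (n * r)) u u ≤ |CE| * K ^ 2 :=
      ((le_abs_self _).trans h2).trans (mul_le_mul_of_nonneg_right (le_abs_self _) (sq_nonneg _))
    rw [law_integral cen.wt]
    simp only [mul_pow]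
    rw [Ex_const_mul]
    simp only [pow_two (Λ.X _ _ _)]
    have h5 : θ⁻¹ ^ 2 ≤ θ₀⁻¹ ^ 2 := by gcongr
    have h6 := mul_le_mul h5 (h1.trans h4)
      (by rw [← cen.Vr_eq]; exact cen.vr_nonneg _) (sq_nonneg _)
    exact h6.trans (by linarith)
  · set η : sq 0 n → ℝ := Pi.single i 1 - Pi.single j 1 with hη
    have e : ∀ s : Cfg Pt, avg n r (fun z => (s z : ℝ)) i - avg n r (fun z => (s z : ℝ)) j =
        pr (lift r η) s := fun s => by
      rw [pr_lift hr, hη, sub_dotProduct, single_dotProduct, single_dotProduct, one_mul, one_mul]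
    simp only [e]
    refine ⟨(law_integrable cen.wt).2 (cen.ig ((Tame.hom _).pow 2)), ?_⟩
    have h0 : ∀ k, |η k| ≤ 1 := fun k => by
      simp only [hη, Pi.sub_apply, Pi.single_apply]
      split_ifs <;> simp
    have h1 := ok.vr_WN hL (ok.r1_f2 (a := 0) (n₁ := n * r) (n₂ := n * r) (sup_lift hr η)
      ((sum_lift1 hr η).trans (by simp [hη, Finset.sum_sub_distrib])))
    have h2 : ∑ x ∈ rc 0 (n * r) (n * r), lift r η x ^ 2 ≤ ((n : ℝ) * r) ^ 2 * (1 / (r : ℝ) ^ 2) ^ 2 := by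
      refine (Finset.sum_le_card_nsmul _ _ ((1 / (r : ℝ) ^ 2) ^ 2) fun x _ => ?_).trans_eq ?_
      · rw [← sq_abs]; exact pow_le_pow_left₀ (abs_nonneg _) (abs_lift zero_le_one h0 x) 2
      · rw [show rc 0 (n * r) (n * r) = sq 0 (n * r) from rfl, card_sq, nsmul_eq_mul]
        push_cast
        ring
    rw [law_integral cen.wt]
    simp only [pow_two (pr _ _)]
    rw [← cen.Vr_eq]
    refine h1.trans (le_trans (mul_le_mul (hΛ.2.2.2.trans (le_abs_self _))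
      ((mul_le_mul_of_nonneg_left h2 (by positivity)).trans_eq
        (?_ : _ = 2 * (n : ℝ) ^ 4)) (by positivity) (abs_nonneg _)) (by linarith))
    push_cast
    field_simp
    ring
  · intro η q hq hqT hη φ
    have h0 : ∀ i, |η i| ≤ T := fun i => (Finset.single_le_sum (f := fun i => |η i|)
      (fun _ _ => abs_nonneg _) (Finset.mem_univ i)).trans hη
    have h1 := r1cStmt Λ (n * r) (T * n ^ 2) q (lift r η) 0 ok hL (sup_lift hr η)
      (fun x => (abs_lift (by linarith) h0 x).trans_eq (by push_cast; field_simp))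
      (fun d => by simp; positivity) (by rw [sum_lift1 hr, hq]; simp)
    have e0 : lift r η + side (n * r) 0 = lift r η := by funext x; simp [side]
    rw [e0] at h1
    have h2 := hst q _ (by linarith) h1
    rw [ip, sum_lift hr, ← hm] at h2
    rw [law_integral cen.wt]
    simp only [← pr_lift hr]
    set X := Λ.X (n * r) u
    set f := pr (lift r η)
    have e : (fun s => -(η ⬝ᵥ m) * Real.sin (f s - φ) - θ⁻¹ * X s * Real.cos (f s - φ)) =
        fun s => Real.cos φ * (-(η ⬝ᵥ m) * Real.sin (f s) - θ⁻¹ * X s * Real.cos (f s)) -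
          Real.sin φ * θ⁻¹ * (X s * Real.sin (f s) - θ * (η ⬝ᵥ m) * Real.cos (f s)) := by
      funext s
      rw [Real.sin_sub, Real.cos_sub]
      field_simp
      ring
    have t1 : Tame fun s => X s * Real.sin (f s) := (Tame.hom X).mul (Tame.sin _)
    have t2 : Tame fun s => θ * (η ⬝ᵥ m) * Real.cos (f s) := (Tame.cos _).const_mul _
    rw [e, Ex_sub (cen.ig ((((Tame.sin _).const_mul _).sub
      (((Tame.hom X).const_mul _).mul (Tame.cos _))).const_mul _))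
      (cen.ig ((t1.sub t2).const_mul _)), cen.ex_odd fun s => by simp; ring, zero_sub, abs_neg,
      Ex_const_mul, Ex_sub (cen.ig t1) (cen.ig t2), Ex_const_mul, abs_mul, abs_mul,
      abs_of_pos (inv_pos.2 hθ0)]
    calc _ ≤ 1 * θ₀⁻¹ * (θ₀ * ε₁) := mul_le_mul (mul_le_mul (Real.abs_sin_le_one _)
          (inv_anti₀ hθ₀ hθ) (by positivity) zero_le_one) h2 (abs_nonneg _) (by positivity)
      _ = ε₁ := by field_simp

end Lo21

/-- T3a, low modes -/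
theorem loStmt : LoStmt := by
  intro F θ₀ K ε a b hθ₀ hε
  obtain ⟨K', ε₁, h1, h2, H⟩ := Lo21.core F θ₀ K ε (2 ^ a) (2 ^ (a + b)) (by positivity) hθ₀ hε
    (by positivity)
  refine ⟨K', ε₁, h1, h2, fun Λ hΛ c θ hθ => ?_⟩
  exact H Λ hΛ (2 ^ c) _ θ (by positivity) (pow_add _ _ _) hθ

end Crest.Agent.T145
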