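import Crest.Agent.T145.PeiF_33

/-!
# Row 145, Peierls argument: `peiStmt` (helper33)
-/

set_option autoImplicit false

namespace Crest.Agent.T145.Pei

open Finset
open scoped ENNReal

/-- the seam at the level of the blocks -/
def smn (n : ℕ) (y : P) (d : Bool) : ℤ := if d = false ∧ y.2 = -1 ∧ 0 ≤ y.1 ∧ y.1 < n then 1 else 0

/-- the block decomposition of a domain in `bl 0 R` -/
noncomputable def mkD (Λt : Lat) (L q : ℕ) (a : ℝ) (R n : ℕ) (D : Finset Pt) : Dt :=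
  ⟨Λt, L, q, a, bl 0 R, bl 0 (R + 1), D, smn n, seam (n * L)⟩

theorem mem_bl0 {x : Pt} {r : ℕ} : x ∈ bl 0 r ↔ (-(r : ℤ) ≤ x.1 ∧ x.1 ≤ r) ∧ -(r : ℤ) ≤ x.2 ∧ x.2 ≤ r := by
  rw [mem_bl]; simp

theorem blk_iff {L : ℤ} {i y n : ℤ} (h0 : 0 ≤ i) (h1 : i < L) :
    (0 ≤ i + L * y ↔ 0 ≤ y) ∧ (i + L * y < n * L ↔ y < n) := by
  refine ⟨⟨fun h => ?_, fun h => by nlinarith⟩, fun h => ?_, fun h => by nlinarith⟩
  · by_contra h2; nlinarith
  · by_contra h2; nlinarith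

theorem seam_se {L n : ℕ} (y : P) (d : Bool) (i : Fin L) : seam (n * L) (se L y d i) = smn n y d := by
  have hi : ((i : ℕ) : ℤ) < L := by exact_mod_cast i.2
  have h0 : (0 : ℤ) ≤ (i : ℕ) := by positivity
  have h1 := blk_iff (y := y.1) (n := n) h0 hi
  have h2 : (L : ℤ) * (y.2 + 1) = 0 ↔ y.2 = -1 := by
    rw [mul_eq_zero]; omega
  unfold seam smn
  refine if_congr ?_ rfl rfl
  cases d
  · simp only [se, pt, cn, dir, e2, Bool.false_eq_true, if_false, if_true, Prod.fst_add,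
      Prod.snd_add, add_zero, zero_add, Nat.cast_mul, h1.1, h1.2, h2, true_and]
    refine ⟨fun h => h.2, fun h => ⟨?_, h⟩⟩
    rw [h.1]; ring
  · simp only [se, pt, cn, dir, e1, if_true, Prod.fst_add, Prod.snd_add, add_zero]
    constructor
    · intro h; omega
    · intro h; simp at h

theorem mkD_ok {Λt : Lat} (hΛ : Λt.Ok) {L q : ℕ} (hL : 0 < L) (hq : 0 < q) (a : ℝ) {R n : ℕ}
    (hn : n ≤ R) {D : Finset Pt} (hD : D ⊆ bl 0 R)
    (hD2 : ∀ x : ℤ, 0 ≤ x → x < (n * L : ℕ) → ((x, 0) : Pt) ∈ D) : (mkD Λt L q a R n D).Ok := by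
  have hL' : (0 : ℤ) < L := by exact_mod_cast hL
  refine ⟨hΛ, hL, hq, fun x hx => ?_, seam_se, fun e he => ?_, fun e he => ?_, fun e h1 h2 => ?_⟩
  · have := mem_bl0.1 (hD hx)
    have key : ∀ u : ℤ, -(R : ℤ) ≤ u → u ≤ R → -(R : ℤ) ≤ u / L ∧ u / L ≤ R := fun u h1 h2 =>
      ⟨(Int.le_ediv_iff_mul_le hL').2 (by nlinarith),
        Int.le_of_lt_add_one ((Int.ediv_lt_iff_lt_mul hL').2 (by nlinarith))⟩
    refine mem_bl0.2 ?_
    simp only [mkD, tileOf, Prod.fst_zero, Prod.snd_zero, sub_zero]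
    exact ⟨key _ this.1.1 this.1.2, key _ this.2.1 this.2.2⟩
  · obtain ⟨⟨v, e'⟩, hv, rfl⟩ := mem_image.1 he
    have a := (Lat.mem_edI.1 (mem_product.1 hv).2).2
    have a1 := mem_sq0.1 a.1
    have a2 := mem_sq0.1 a.2
    refine if_neg fun h => ?_
    have b1 : e'.1.2 + L * v.2 = -1 := h.1
    have b2 : e'.2.2 + L * v.2 = 0 := h.2.1
    have c1 := (blk_iff (y := v.2) (n := 0) a1.2.2.1 a1.2.2.2).1
    have c2 := (blk_iff (y := v.2) (n := 0) a2.2.2.1 a2.2.2.2).1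
    simp only [mkD] at c1 c2
    omega
  · refine if_neg fun h => (mem_sdiff.1 he).2 (mem_union_right _ ?_)
    have h1 := Int.emod_nonneg e.1.1 hL'.ne'
    have h2 := Int.emod_lt_of_pos e.1.1 hL'
    have h3 := Int.emod_add_mul_ediv e.1.1 L
    have h4 := blk_iff (y := e.1.1 / L) (n := n) h1 h2
    have h5 : e.1.1 < n * L := by exact_mod_cast h.2.2.2.2
    refine mem_image.2 ⟨((e.1.1 / L, -1), false, ⟨(e.1.1 % L).toNat, by simp only [mkD]; omega⟩),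
      mem_product.2 ⟨mem_bl0.2 ?_, mem_univ _⟩, ?_⟩
    · simp only; omega
    · simp only [se, pt, cn, dir, e2, mkD, Bool.false_eq_true, if_false, if_true, Prod.mk_add_mk,
        Int.toNat_of_nonneg h1, add_zero, h3]
      exact Prod.ext (Prod.ext rfl (by simp only; omega))
        (Prod.ext (by simp only; omega) (by simp only; omega))
  · refine if_neg fun h => h2 ?_
    have : e.2 = (e.1.1, 0) := Prod.ext h.2.2.1.symm h.2.1
    rw [this]
    exact hD2 _ h.2.2.2.1 h.2.2.2.2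

theorem vD_bdd {Λ : Lat} (h : Λ.Ok) {L : ℕ} (hL : 0 < L) {B : ℝ}
    (hB : ∀ R, Ex ((Λ.D (bl 0 R)).W 0) (fun s => ell L true true s ^ 2) ≤ B) : ¬ Λ.Rough := by
  have hL' : (0 : ℝ) < L := by exact_mod_cast hL
  set E := Λ.edI (sq 0 L) with hE
  choose N hN using fun i : Fin L =>
    sub_le_of_conn (h.conn_sq (self_mem_sq 0 hL) (pt_mem L true true i))
  set c := (Ex Λ.w fun k => Real.exp (1 * k)) + Ex Λ.w fun k => Real.exp (-1 * k) with hc
  set N' : ℝ := ((∑ i, (N i : ℝ)) / L) ^ 2 * E.card with hN'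
  refine Lat.not_rough_iff.2 ⟨2 * B + 2 * N' * (E.card * c), fun R => ?_⟩
  refine (h.vD_mono (le_add_self : R ≤ L + R)).trans ?_
  have hC := h.cen_D (bl 0 (L + R))
  have i1 : Ig ((Λ.D (bl 0 (L + R))).W 0) fun s => ell L true true s ^ 2 :=
    hC.ig ((Tame.hom _).pow 2)
  have i2 : ∀ e ∈ E, Ig ((Λ.D (bl 0 (L + R))).W 0) fun s => (dE e s : ℝ) ^ 2 := fun e _ =>
    hC.ig ((Tame.hom (dR e)).pow 2)
  have i3 := Ig.sum E i2
  have b : ∀ s : Cfg Pt, (s 0 : ℝ) ^ 2 ≤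
      2 * ell L true true s ^ 2 + 2 * N' * ∑ e ∈ E, (dE e s : ℝ) ^ 2 := by
    intro s
    have b1 : |(s 0 : ℝ) - ell L true true s| ≤ (∑ i, (N i : ℝ)) / L * ∑ e ∈ E, |(dE e s : ℝ)| := by
      have : (s 0 : ℝ) - ell L true true s = (∑ i, ((s 0 : ℝ) - s (pt L true true i))) / L := by
        rw [ell_apply, sum_sub_distrib, sum_const, card_univ, Fintype.card_fin, nsmul_eq_mul]
        field_simp
      rw [this, abs_div, abs_of_pos hL', div_mul_eq_mul_div, sum_mul]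
      exact div_le_div_of_nonneg_right
        ((abs_sum_le_sum_abs _ _).trans (sum_le_sum fun i _ => hN i s)) hL'.le
    have b2 : (∑ e ∈ E, |(dE e s : ℝ)|) ^ 2 ≤ E.card * ∑ e ∈ E, (dE e s : ℝ) ^ 2 := by
      simpa only [sq_abs] using sq_sum_le_card_mul_sum_sq (s := E) (f := fun e => |(dE e s : ℝ)|)
    have b3 : ((s 0 : ℝ) - ell L true true s) ^ 2 ≤ N' * ∑ e ∈ E, (dE e s : ℝ) ^ 2 := by
      rw [← sq_abs, hN', mul_assoc]
      refine (pow_le_pow_left₀ (abs_nonneg _) b1 2).trans ?_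
      rw [mul_pow]
      exact mul_le_mul_of_nonneg_left b2 (sq_nonneg _)
    nlinarith [sq_nonneg ((s 0 : ℝ) - 2 * ell L true true s)]
  refine (Ex_mono hC.wt.nonneg (hC.ig ((Tame.hom (evH 0)).pow 2))
    ((i1.const_mul 2).add (i3.const_mul _)) b).trans ?_
  rw [Ex_add (i1.const_mul 2) (i3.const_mul _), Ex_const_mul, Ex_const_mul, Ex_sum E i2]
  refine add_le_add (by linarith [hB (L + R)]) (mul_le_mul_of_nonneg_left ?_ (by positivity))
  rw [← nsmul_eq_mul]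
  refine sum_le_card_nsmul _ _ _ fun e he => edge_sq (h.ctr_D _) (h.anch_D _) ?_ rfl
  refine Lat.edT_mono (fun x hx => ?_) (Lat.edI_subset_edT _ he)
  rw [mem_sq0] at hx
  rw [mem_bl0]; push_cast; omega

theorem rect_bl0 (R : ℕ) : Rect (bl 0 R) := ⟨-R, R, -R, R, fun y => by rw [mem_bl0]; tauto⟩

theorem pei_one (F : Fa) {q : ℕ} (hq : 0 < q) : ∃ (δ : ℝ) (L₀ : ℕ), 0 < δ ∧
    ∀ Λ, F.Mem Λ → ∀ L : ℕ, L₀ ≤ L → Λ.Lok L q δ →
      ¬ Λ.Rough ∧ ∀ n R : ℕ, n * L ≤ R → Zs ((Λ.D (faces R)).Ws 0 (seam (n * L))) ≤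
        3 * Real.exp (-Real.log 4 * n) * Zs ((Λ.D (faces R)).W 0) := by
  obtain ⟨a, ha, h⟩ := exists_par hq
  have hq' : (1 : ℝ) ≤ q := by exact_mod_cast hq
  obtain ⟨δ₃, h3, Γ, K, hK, h⟩ := h (1 / (6 * a * q)) (by positivity) (by
    rw [mul_one_div, div_le_one (by positivity)]; nlinarith)
  refine ⟨δ₃ / 12, ⌈a + 32 * |F.τ₂| * a ^ 2⌉₊, by positivity, fun Λ hΛ L hL hl => ?_⟩
  have hτ : 0 < Λ.τ := F.pos.trans_le hΛ.2.2.1
  have hok : Λ.Ok := ⟨hΛ.1 ▸ F.adm, hτ⟩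
  have hL1 : a + 32 * |F.τ₂| * a ^ 2 ≤ L := Nat.ceil_le.1 hL
  have hL2 : 0 ≤ 32 * |F.τ₂| * a ^ 2 := by positivity
  have hL0 : 0 < L := by exact_mod_cast (by linarith : (0 : ℝ) < L)
  have hsp := spr_ok Λ.xy (δ := 1 / (6 * a * q)) hτ ha (n := L) (by linarith) (by
    rw [div_pow, mul_div_assoc', div_le_one (by positivity), mul_pow, mul_pow]
    nlinarith [sq_nonneg a, mul_le_mul_of_nonneg_left (one_le_pow₀ hq' : 1 ≤ (q : ℝ) ^ 2) (sq_nonneg a)])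
    (by nlinarith [mul_le_mul_of_nonneg_right (hΛ.2.2.2.trans (le_abs_self _)) (sq_nonneg a)])
  have key : ∀ {R n : ℕ} {D : Finset Pt}, (mkD Λ L q a R n D).Ok →
      ((mkD Λ L q a R n D).bm (1 / (6 * a * q)) Γ).Ok ∧
        ∃ H, ((mkD Λ L q a R n D).bm (1 / (6 * a * q)) Γ).Mo H K := by
    intro R n D hX
    refine h _ _ _ _ _ hsp (tsum_norm_one (Dt.cenN hX).wt) (by simp [T0, Dt.u_zero])
      ((Dt.T0_mom hX hl).trans (le_of_eq (by congr 1; ring))) _ _ (rect_bl0 R) fun y hy => ?_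
    simp only [mkD, mem_bl0, e1, e2, Prod.fst_add, Prod.snd_add] at hy ⊢
    push_cast; omega
  refine ⟨vD_bdd hok hL0 (B := 2 * K.toReal ^ 3 + 1) fun R => ?_, fun n R hn => ?_⟩
  · have hX := mkD_ok hok hL0 hq a (Nat.zero_le R) (Subset.refl _) fun x h1 h2 => by omega
    obtain ⟨hb, H, hM⟩ := key hX
    exact Dt.var_le hX hb hM hK
  have hn' : n ≤ R := (Nat.le_mul_of_pos_right n hL0).trans hn
  have hX := mkD_ok hok hL0 hq a hn' (D := faces R) (fun x hx => by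
    rw [faces, mem_sq] at hx; rw [mem_bl0]; push_cast at hx; omega) fun x h1 h2 => by
    rw [faces, mem_sq]; push_cast at h2 ⊢; omega
  obtain ⟨hb, -⟩ := key hX
  have hσ : ((mkD Λ L q a R n (faces R)).bm (1 / (6 * a * q)) Γ).Sm
      ((mkD Λ L q a R n (faces R)).σb 1) := by
    refine ⟨fun y _ => ⟨fun _ => by simp [Dt.σb, mkD, smn], fun h1 => ?_⟩, fun y h1 => ?_⟩
    · refine mul_eq_zero_of_right _ (if_neg fun h2 => h1 (mem_bl0.2 ?_))
      simp only [e2, Prod.fst_add, Prod.snd_add]; omega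
    · refine Prod.ext (by simp [Dt.σb, mkD, smn])
        (mul_eq_zero_of_right _ (if_neg fun h2 => h1 (mem_bl0.2 ?_)))
      push_cast; omega
  refine Dt.seam_le hX hb hσ (by positivity) ?_
  have e : (3 : ℝ≥0∞) * 2⁻¹ ^ (2 * n) = ENNReal.ofReal (3 * Real.exp (-Real.log 4 * n)) := by
    rw [mul_comm (-Real.log 4), Real.exp_nat_mul, Real.exp_neg, Real.exp_log (by norm_num),
      ENNReal.ofReal_mul (by norm_num), ENNReal.ofReal_pow (by norm_num), pow_mul,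
      ENNReal.ofReal_inv_of_pos (by norm_num), ← ENNReal.inv_pow]
    norm_num
  rw [← e]
  rcases Nat.eq_zero_or_pos n with rfl | hn0
  · have : (mkD Λ L q a R 0 (faces R)).σb 1 = 0 := by
      funext y
      refine Prod.ext (by simp [Dt.σb, mkD, smn]) (mul_eq_zero_of_right _ (if_neg fun h2 => ?_))
      omega
    rw [this]
    exact le_mul_of_one_le_left' (by norm_num)
  have hc : ∀ p, curl ((mkD Λ L q a R n (faces R)).σb 1) p =
      q * (smn n (p + e1) false - smn n p false) := fun p => by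
    simp [curl, Dt.σb, mkD, smn, mul_sub]
  refine Bm.seam hb hσ (p₁ := (-1, -1)) (p₂ := (n - 1, -1)) ?_ (fun p h1 h2 => ?_) (by simp)
  · rw [hc]; simp [smn, e1, hn0, hq.ne']
  · rw [hc, smn, smn, if_congr (Q := false = false ∧ p.2 = -1 ∧ 0 ≤ p.1 ∧ p.1 < n) _ rfl rfl,
      sub_self, mul_zero]
    simp only [ne_eq, Prod.ext_iff, e1, Prod.fst_add, Prod.snd_add, true_and] at h1 h2 ⊢
    constructor <;> intro h <;> omega

end Crest.Agent.T145.Pei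

namespace Crest.Agent.T145

theorem Pei.lok_mono {Λ : Lat} {L : ℕ} {q : ℤ} {δ δ' : ℝ} (h : Λ.Lok L q δ) (hδ : δ ≤ δ') :
    Λ.Lok L q δ' := ⟨by linarith [h.1], fun d => (h.2 d).trans hδ⟩

theorem peiStmt : PeiStmt := by
  intro F q₀
  suffices h : ∃ (δ : ℝ) (L₀ : ℕ), 0 < δ ∧ ∀ Λ, F.Mem Λ → ∀ (L : ℕ) (q : ℤ), L₀ ≤ L → 1 ≤ q →
      q ≤ q₀ → Λ.Lok L q δ → ¬ Λ.Rough ∧ ∀ n R : ℕ, n * L ≤ R →
        Zs ((Λ.D (faces R)).Ws 0 (seam (n * L))) ≤
          3 * Real.exp (-Real.log 4 * n) * Zs ((Λ.D (faces R)).W 0) by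
    obtain ⟨δ, L₀, h0, h⟩ := h
    exact ⟨δ, 3, Real.log 4, L₀, h0, Real.log_pos (by norm_num), fun Λ hΛ L q a b c d =>
      ⟨(h Λ hΛ L q a b c d).1, fun _ => (h Λ hΛ L q a b c d).2⟩⟩
  induction q₀ with
  | zero => exact ⟨1, 0, one_pos, fun _ _ _ _ _ _ _ => by omega⟩
  | succ k ih =>
    obtain ⟨δ, L₀, h0, h⟩ := ih
    obtain ⟨δ', L₁, h1, h'⟩ := Pei.pei_one F k.succ_pos
    refine ⟨min δ δ', max L₀ L₁, lt_min h0 h1, fun Λ hΛ L q a b c d => ?_⟩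
    by_cases hq : q ≤ k
    · exact h Λ hΛ L q ((le_max_left _ _).trans a) b hq (Pei.lok_mono d (min_le_left _ _))
    · obtain rfl : q = (k.succ : ℕ) := by omega
      exact h' Λ hΛ L ((le_max_right _ _).trans a) (Pei.lok_mono d (min_le_right _ _))

end Crest.Agent.T145
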