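import Crest.Agent.T145.SecC_62
import Crest.Agent.T145.BrB_73
import Crest.Agent.T145.Route_51

/-!
# Row 145, module (b), SEC (helper62), part D: the geometry; `secStmt`
-/

set_option autoImplicit false

namespace Crest.Agent.T145.Sec62

open Finset Real

/-- the points of the side `d` of `sq 0 l` -/
def pt (l : ℕ) : Fin 4 → ℕ → Pt :=
  ![fun j => ((l : ℤ) - 1, j), fun j => (0, j), fun j => (j, (l : ℤ) - 1), fun j => (j, 0)]

theorem pt_mem {l j : ℕ} (hj : j < l) (d : Fin 4) : pt l d j ∈ sq 0 l := by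
  fin_cases d <;> simp [pt, mem_sq] <;> omega

theorem pt_inj (l : ℕ) (d : Fin 4) {j j' : ℕ} (h : pt l d j = pt l d j') : j = j' := by
  fin_cases d <;> simpa [pt] using h

theorem sum_Ico_range (n : ℕ) (f : ℤ → ℝ) : ∑ j ∈ Ico (0 : ℤ) n, f j = ∑ j ∈ range n, f j := by
  refine sum_bij' (fun j _ => j.toNat) (fun j _ => (j : ℤ)) ?_ ?_ ?_ ?_ ?_
  · intro j hj; rw [mem_Ico] at hj; rw [mem_range]; omega
  · intro j hj; rw [mem_range] at hj; rw [mem_Ico]; omega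
  · intro j hj; rw [mem_Ico] at hj; omega
  · intro j _; simp
  · intro j hj; rw [mem_Ico] at hj; rw [Int.toNat_of_nonneg hj.1]

theorem sum_sd_mul {L : ℕ} (hL : 1 ≤ L) (d : Fin 4) (u : Pt → ℝ) :
    ∑ x ∈ sq 0 L, sd L d x * u x = (∑ j ∈ range L, u (pt L d j)) / L := by
  have h1 : (0 : ℤ) ≤ L - 1 := by omega
  have h2 : (L : ℤ) - 1 < L := by omega
  have h3 : (0 : ℤ) < L := by omega
  rw [sq_eq_rc]
  fin_cases d
  · exact (sum_mul_col h1 h2 u).trans (by rw [sum_Ico_range]; rfl)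
  · exact (sum_mul_col le_rfl h3 u).trans (by rw [sum_Ico_range]; rfl)
  · exact (sum_mul_row h1 h2 u).trans (by rw [sum_Ico_range]; rfl)
  · exact (sum_mul_row le_rfl h3 u).trans (by rw [sum_Ico_range]; rfl)

theorem pr_sd {L : ℕ} (hL : 1 ≤ L) (d : Fin 4) (s : Cfg Pt) :
    pr (sd L d) s = (∑ j ∈ range L, (s (pt L d j) : ℝ)) / L := by
  rw [pr_of_fsupp _ s (sup_sd hL d), sum_sd_mul hL]

theorem sum_range_mul' (W l : ℕ) (g : ℕ → ℝ) :
    ∑ j ∈ range (W * l), g j = ∑ t ∈ range W, ∑ j ∈ range l, g (l * t + j) := by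
  induction W with
  | zero => simp
  | succ W ih => rw [add_mul, one_mul, sum_range_add, ih, sum_range_succ, mul_comm W l]

theorem tile_pt (W l t j : ℕ) (d : Fin 4) :
    tile 0 l (pt W d t) + pt l d j = pt (W * l) d (l * t + j) := by
  fin_cases d <;> simp [pt, tile] <;> ring

theorem tileOf_add {l : ℕ} (i : Pt) {y : Pt} (hy : y ∈ sq 0 l) : tileOf 0 l (tile 0 l i + y) = i := by
  rw [mem_sq] at hy
  have hl : 0 < l := by simp only [Prod.fst_zero] at hy; omega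
  rw [← mem_tile_iff hl, mem_sq]
  simp only [Prod.fst_zero, Prod.snd_zero, Prod.fst_add, Prod.snd_add] at hy ⊢
  omega

theorem tile_add_mem {W l : ℕ} {i y : Pt} (hi : i ∈ sq 0 W) (hy : y ∈ sq 0 l) :
    tile 0 l i + y ∈ sq 0 (W * l) := by
  have hl : 0 < l := by rw [mem_sq] at hy; simp only [Prod.fst_zero] at hy; omega
  rw [← tileOf_mem hl, tileOf_add i hy]; exact hi

/-- the seams -/
noncomputable def Bd (W : ℕ) : Finset (Fin 2 × Pt) :=
  (univ ×ˢ sq 0 W).filter fun b => b.2 + ev b.1 ∈ sq 0 W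

theorem mem_Bd {W : ℕ} {b : Fin 2 × Pt} : b ∈ Bd W ↔ b.2 ∈ sq 0 W ∧ b.2 + ev b.1 ∈ sq 0 W := by
  simp [Bd]

def dpF : Fin 2 → Fin 4 := ![0, 2]
def dmF : Fin 2 → Fin 4 := ![1, 3]

/-- the edge `j` of the seam `b` -/
def se (l : ℕ) (b : Fin 2 × Pt) (j : ℕ) : Pt × Pt :=
  (tile 0 l b.2 + pt l (dpF b.1) j, tile 0 l (b.2 + ev b.1) + pt l (dmF b.1) j)

theorem se_sub (l : ℕ) (b : Fin 2 × Pt) (j : ℕ) : (se l b j).2 - (se l b j).1 = ev b.1 := by
  obtain ⟨u, i⟩ := b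
  fin_cases u <;> simp [se, tile, pt, dpF, dmF, ev] <;> ring

theorem ev_ne (u : Fin 2) : ev u ≠ 0 := by fin_cases u <;> simp [ev]

theorem ev_inj {u u' : Fin 2} (h : ev u = ev u') : u = u' := by
  fin_cases u <;> fin_cases u' <;> simp [ev] at h ⊢

/-- the spring system of the `W × W` boxes of side `l` -/
noncomputable def sys (Λ : Lat) {W : ℕ} (hW : 1 ≤ W) (l : ℕ) (κ : ℝ) :
    Sys (sq 0 W) (Bd W) (Cfg Pt) (Fin l → ℤ) where
  o := ⟨0, self_mem_sq 0 hW⟩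
  src b := ⟨b.1.2, (mem_Bd.1 b.2).1⟩
  tgt b := ⟨b.1.2 + ev b.1.1, (mem_Bd.1 b.2).2⟩
  dp b := dpF b.1.1
  dm b := dmF b.1.1
  W := Λ.WN l
  V k := ∏ j, Λ.w (k j)
  A d := (2 : ℤ) • ∑ j ∈ range l, evZ (pt l d j)
  B := (2 : ℤ) • ∑ j, Pi.evalAddMonoidHom (fun _ => ℤ) j
  N := 2 * l
  σ := ((2 * l : ℕ) : ℝ) ^ 2 / κ

variable {Λ : Lat} {W l : ℕ} {κ : ℝ}

theorem sys_A (hW : 1 ≤ W) (d : Fin 4) (s : Cfg Pt) :
    (sys Λ hW l κ).A d s = 2 * ∑ j ∈ range l, s (pt l d j) := by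
  simp [sys, AddMonoidHom.finsetSum_apply]

theorem sys_B (hW : 1 ≤ W) (k : Fin l → ℤ) : (sys Λ hW l κ).B k = 2 * ∑ j, k j := by
  simp [sys, AddMonoidHom.finsetSum_apply]

theorem sys_ok (hΛ : Λ.Ok) (hW : 1 ≤ W) (hl : 1 ≤ l) (hκ : 0 < κ) : (sys Λ hW l κ).Ok where
  W := hΛ.cen_WN hl
  V := RW.pi fun _ => RW.of_cen hΛ.fam.cen
  ne b h := ev_ne b.1.1 (by simpa [sys] using h)
  N := by simp only [sys]; omega
  σ := by simp only [sys]; positivity
  conn n h0 h := by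
    have st : ∀ (u : Fin 2) (x y : Pt) (hx : x ∈ sq 0 W) (hy : y ∈ sq 0 W), y = x + ev u →
        n ⟨x, hx⟩ = 0 → n ⟨y, hy⟩ = 0 := by
      rintro u x y hx hy rfl e
      exact (h ⟨(u, x), mem_Bd.2 ⟨hx, hy⟩⟩).trans e
    have k1 : ∀ (b : ℕ) (hx : ((0 : ℤ), (b : ℤ)) ∈ sq 0 W), n ⟨_, hx⟩ = 0 := fun b => by
      induction b with
      | zero => exact fun _ => h0
      | succ b ih =>
        intro hx
        have hx' : ((0 : ℤ), (b : ℤ)) ∈ sq 0 W := by
          rw [mem_sq] at hx ⊢; simp only [Prod.fst_zero, Prod.snd_zero] at hx ⊢; omega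
        exact st 1 _ _ hx' hx (by simp [ev]) (ih hx')
    have k2 : ∀ (a b : ℕ) (hx : ((a : ℤ), (b : ℤ)) ∈ sq 0 W), n ⟨_, hx⟩ = 0 := fun a b => by
      induction a with
      | zero => exact k1 b
      | succ a ih =>
        intro hx
        have hx' : ((a : ℤ), (b : ℤ)) ∈ sq 0 W := by
          rw [mem_sq] at hx ⊢; simp only [Prod.fst_zero, Prod.snd_zero] at hx ⊢; omega
        exact st 0 _ _ hx' hx (by simp [ev]) (ih hx')
    funext ⟨⟨a, b⟩, hx⟩
    have := mem_sq.1 hx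
    simp only [Prod.fst_zero, Prod.snd_zero] at this
    lift a to ℕ using this.1.1
    lift b to ℕ using this.2.1
    exact k2 a b hx

theorem sys_cR (hW : 1 ≤ W) (hl : 1 ≤ l) (d : Fin 4) :
    cR ((sys Λ hW l κ).A d) = ((2 * l : ℕ) : ℝ) • pr (sd l d) := AddMonoidHom.ext fun s => by
  have : (l : ℝ) ≠ 0 := by positivity
  rw [cR_apply, sys_A, AddMonoidHom.smul_apply, pr_sd hl, smul_eq_mul]
  push_cast; field_simp

theorem sys_sdF (hW : 1 ≤ W) (hl : 1 ≤ l) (g : Fin 4 → ℝ) :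
    (sys Λ hW l κ).sdF g = pr (side l g) := by
  have : ((2 * l : ℕ) : ℝ) ≠ 0 := by positivity
  rw [pr_side, Sys.sdF, Fintype.linearCombination_apply]
  refine sum_congr rfl fun d _ => ?_
  rw [sys_cR hW hl, smul_smul (_⁻¹)]
  simp only [sys]
  rw [inv_mul_cancel₀ this, one_smul]

theorem sys_V (hΛ : Λ.Ok) (hW : 1 ≤ W) (ζ : ℝ) :
    exp (-(4 * l * Λ.τ * ζ ^ 2) / 2) ≤ Ph (sys Λ hW l κ).V (ζ • cR (sys Λ hW l κ).B) := by
  have e : ζ • cR (sys Λ hW l κ).B = piH fun _ => zH (2 * ζ) := AddMonoidHom.ext fun k => by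
    rw [AddMonoidHom.smul_apply, cR_apply, sys_B, piH_apply]
    simp only [zH_apply, smul_eq_mul, ← mul_sum]
    push_cast; ring
  rw [e]
  refine le_of_le_of_eq ?_ (ph_pi (fun _ => RW.of_cen hΛ.fam.cen) _).symm
  refine le_trans (le_of_eq ?_) (prod_le_prod (fun _ _ => (exp_pos _).le)
    fun _ _ => ph_kern Λ.xy hΛ.pos (2 * ζ))
  rw [prod_const, ← exp_nat_mul, card_univ, Fintype.card_fin]
  congr 1; ring

theorem vr_sd (hΛ : Λ.Ok) (hl : 1 ≤ l) (d d' : Fin 4) :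
    Vr (Λ.WN l) (pr (sd l d) - pr (sd l d')) (pr (sd l d) - pr (sd l d')) ≤
      Λ.τ * (Λ.J.card * 144) := by
  have h := ((hΛ.fs_sd hl d).sub (hΛ.fs_sd hl d')).f2
  rw [sub_sub_sub_cancel_right] at h
  rw [← pr_sub]
  refine (hΛ.vr_WN hl h).trans (mul_le_mul_of_nonneg_left ?_ hΛ.pos.le)
  have h1 : ((Λ.edI (sq 0 l)).card : ℝ) ≤ (l : ℝ) ^ 2 * Λ.J.card := by
    have := (card_edI_le Λ (sq 0 l)).trans (Nat.mul_le_mul_left _ (card_filter_le Λ.J posD))
    rw [card_sq] at this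
    exact_mod_cast this
  have : (l : ℝ) ≠ 0 := by positivity
  refine (mul_le_mul_of_nonneg_right h1 (sq_nonneg _)).trans_eq ?_
  field_simp; ring

/-! ### fluxes -/

/-- outward direction -/
def dir : Fin 4 → Pt := ![(1, 0), (-1, 0), (0, 1), (0, -1)]

theorem flux_pt {i₀ : Pt} {f : Pt → Fin 4 → ℝ} (hf : Flux W i₀ f) {i : Pt} (hi : i ∈ sq 0 W)
    (d : Fin 4) : if i + dir d ∈ sq 0 W then sd W d i = 0 else f i d = π / 2 * sd W d i := by
  obtain ⟨-, h1, h2, h3, h4⟩ := hf.2.2 i hi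
  have hm := mem_sq.1 hi
  simp only [Prod.fst_zero, Prod.snd_zero] at hm
  have k : ∀ p : Prop, p → π / (2 * W) = π / 2 * (ind p / W) := fun p hp => by rw [ind_pos hp]; ring
  have k0 : ∀ p : Prop, ¬ p → ind p / (W : ℝ) = 0 := fun p hp => by rw [ind_neg hp, zero_div]
  split_ifs with h
  · rw [mem_sq] at h
    fin_cases d <;> refine k0 _ ?_ <;> simp [dir] at h <;> omega
  · fin_cases d
    · have h' : i + (1, 0) ∉ sq 0 W := h
      rw [if_neg h'] at h1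
      rw [mem_sq] at h'
      exact h1.trans (k _ (by simp at h'; omega))
    · rw [mem_sq] at h
      have : i.1 = 0 := by simp [dir] at h; omega
      exact (h3 this).trans (k _ (by omega))
    · have h' : i + (0, 1) ∉ sq 0 W := h
      rw [if_neg h'] at h2
      rw [mem_sq] at h'
      exact h2.trans (k _ (by simp at h'; omega))
    · rw [mem_sq] at h
      have : i.2 = 0 := by simp [dir] at h; omega
      exact (h4 this).trans (k _ (by omega))

theorem sum_shift (W : ℕ) (v : Pt) (g : Pt → ℝ) :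
    ∑ i ∈ (sq 0 W).filter (fun i => i + v ∈ sq 0 W), g (i + v) =
      ∑ i ∈ (sq 0 W).filter (fun i => i + -v ∈ sq 0 W), g i := by
  refine sum_bij' (fun i _ => i + v) (fun i _ => i + -v) ?_ ?_ ?_ ?_ ?_ <;> simp +contextual

theorem sum_Bd (W : ℕ) (g : Pt → Fin 4 → ℝ) :
    ∑ b ∈ Bd W, (g (b.2 + ev b.1) (dmF b.1) + g b.2 (dpF b.1)) =
      ∑ i ∈ sq 0 W, ∑ d, if i + dir d ∈ sq 0 W then g i d else 0 := by
  rw [Bd, sum_filter, sum_product, sum_comm (s := sq 0 W), Fin.sum_univ_two, Fin.sum_univ_four]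
  simp only [← sum_filter, sum_add_distrib]
  rw [sum_shift W _ fun i => g i (dmF 0), sum_shift W _ fun i => g i (dmF 1)]
  exact (show ∀ a b c d : ℝ, a + b + (c + d) = b + a + d + c from fun _ _ _ _ => by ring) _ _ _ _

theorem fx (hW : 1 ≤ W) {i₀ : Pt} {f : Pt → Fin 4 → ℝ} (hf : Flux W i₀ f) :
    (sys Λ hW l κ).Fx (fun i d => π / 2 * sd W d i) (fun i => f i) ⟨i₀, hf.1⟩ where
  id u := by
    let u' : Pt → Fin 4 → ℝ := fun x => if h : x ∈ sq 0 W then u ⟨x, h⟩ else 0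
    have hu : ∀ i : sq 0 W, u i = u' i := fun i => by simp [u']
    have H := sum_Bd W fun i d => f i d * u' i d
    rw [← sum_coe_sort, ← sum_coe_sort (sq 0 W)] at H
    simp only [hu]
    refine Eq.trans ?_ (congrArg _ H.symm)
    rw [← sum_add_distrib]
    refine sum_congr rfl fun i _ => ?_
    rw [← sum_add_distrib]
    refine sum_congr rfl fun d _ => ?_
    have := flux_pt hf i.2 d
    split_ifs at this ⊢ <;> simp [this]
  opp b := by
    obtain ⟨⟨u, i⟩, hb⟩ := b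
    obtain ⟨hi, hi'⟩ := mem_Bd.1 hb
    obtain ⟨-, h1, h2, -⟩ := hf.2.2 i hi
    fin_cases u
    · rw [if_pos (show i + (1, 0) ∈ sq 0 W from hi')] at h1; exact eq_neg_of_add_eq_zero_left h1
    · rw [if_pos (show i + (0, 1) ∈ sq 0 W from hi')] at h2; exact eq_neg_of_add_eq_zero_left h2
  chg i := by
    split_ifs with h
    · simp only [h, hf.2.1, sum_const, card_univ, Fintype.card_fin, nsmul_eq_mul]
      push_cast; ring
    · exact (hf.2.2 i i.2).1 fun e => h (Subtype.ext e)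
  pos i d := by
    have := flux_pt hf i.2 d
    split_ifs at this
    · simp [this]
    · rw [this]; exact mul_self_nonneg _

/-! ### the true model -/

/-- the box `i`, translated to the origin and rooted -/
noncomputable def boxH (l : ℕ) (i : Pt) : Cfg Pt →+ Cfg Pt :=
  ∑ y ∈ sq 0 l, (Finsupp.singleAddHom y).comp (evZ (tile 0 l i + y) - evZ (tile 0 l i))

theorem boxH_apply (l : ℕ) (i : Pt) (s : Cfg Pt) (y : Pt) :
    boxH l i s y = if y ∈ sq 0 l then s (tile 0 l i + y) - s (tile 0 l i) else 0 := by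
  simp [boxH, AddMonoidHom.finsetSum_apply, Finsupp.single_apply]
  split_ifs <;> simp

theorem WN_boxH (i : Pt) (s : Cfg Pt) : Λ.WN l (boxH l i s) =
    ∏ e : Λ.edI (sq 0 l), Λ.w (dE (tile 0 l i + e.1.1, tile 0 l i + e.1.2) s) := by
  rw [prod_coe_sort _ fun e : Pt × Pt => Λ.w (dE (tile 0 l i + e.1, tile 0 l i + e.2) s), Lat.WN,
    Mdl.W_of_eq]
  · simp only [Lat.Nr, Lat.N, Mdl.free, prod_const_one, mul_one]
    refine prod_congr rfl fun e he => ?_
    obtain ⟨-, h1, h2⟩ := Lat.mem_edI.1 he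
    simp [dE, boxH_apply, h1, h2]
  · intro x hx
    simp only [Lat.Nr, Mdl.free, mem_erase, not_and_or, not_not] at hx
    rcases hx with rfl | hx <;> simp [boxH_apply, *]

/-- boxes, seam gradients and levels of a configuration -/
noncomputable def Φ (Λ : Lat) (hW : 1 ≤ W) (l : ℕ) (κ : ℝ) : Cfg Pt →+
    ((sq 0 W → Cfg Pt) × (Bd W → Fin l → ℤ)) × ((sys Λ hW l κ).I → ℤ) :=
  AddMonoidHom.mk' (fun s => ((fun i => boxH l i s, fun b j => dE (se l b j) s),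
    fun i => s (tile 0 l i.1))) fun s t => by
      refine Prod.ext (Prod.ext ?_ ?_) rfl
      · funext i; simp
      · funext b j; simp [dE_add]

theorem ext_Φ (hW : 1 ≤ W) {s : Cfg Pt} (hs : s 0 = 0) (i : sq 0 W) :
    (sys Λ hW l κ).ext (sc _ _ (2 * l) (Φ Λ hW l κ s)).2 i = 2 * l * s (tile 0 l i) := by
  unfold Sys.ext
  split_ifs with h
  · rw [h]; simp [sys, tile, show ((0, 0) : Pt) = 0 from rfl, hs]
  · simp [sc_apply, Φ]

theorem A_Φ (hW : 1 ≤ W) {s : Cfg Pt} (hs : s 0 = 0) (i : sq 0 W) (d : Fin 4) :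
    (sys Λ hW l κ).A d (boxH l i s) + (sys Λ hW l κ).ext (sc _ _ (2 * l) (Φ Λ hW l κ s)).2 i =
      2 * ∑ j ∈ range l, s (tile 0 l i + pt l d j) := by
  rw [ext_Φ hW hs, sys_A, sum_congr rfl fun j hj => by
    rw [boxH_apply, if_pos (pt_mem (mem_range.1 hj) d)], sum_sub_distrib]
  simp; ring

/-- the edges kept -/
def emb (Λ : Lat) (W l : ℕ) : (sq 0 W × Λ.edI (sq 0 l)) ⊕ (Bd W × Fin l) → Pt × Pt :=
  Sum.elim (fun p => (tile 0 l p.1 + p.2.1.1, tile 0 l p.1 + p.2.1.2)) fun p => se l p.1 p.2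

theorem emb_mem (hΛ : Λ.Ok) (t : (sq 0 W × Λ.edI (sq 0 l)) ⊕ (Bd W × Fin l)) :
    emb Λ W l t ∈ Λ.edI (sq 0 (W * l)) := by
  rw [Lat.mem_edI]
  rcases t with ⟨i, e, he⟩ | ⟨⟨b, hb⟩, j⟩
  · obtain ⟨h0, h1, h2⟩ := Lat.mem_edI.1 he
    exact ⟨by simpa [emb] using h0, tile_add_mem i.2 h1, tile_add_mem i.2 h2⟩
  · refine ⟨?_, tile_add_mem (mem_Bd.1 hb).1 (pt_mem j.2 _), tile_add_mem (mem_Bd.1 hb).2 (pt_mem j.2 _)⟩
    simp only [emb, Sum.elim_inr, se_sub]
    obtain ⟨u, i⟩ := b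
    fin_cases u
    exacts [hΛ.e1, hΛ.e2]

theorem emb_inj : Function.Injective (emb Λ W l) := by
  have k : ∀ (p : sq 0 W × Λ.edI (sq 0 l)) (q : Bd W × Fin l),
      emb Λ W l (.inl p) ≠ emb Λ W l (.inr q) := fun p q h => by
    obtain ⟨-, h1, h2⟩ := Lat.mem_edI.1 p.2.2
    have e1 := congrArg (fun e => tileOf 0 l e.1) h
    have e2 := congrArg (fun e => tileOf 0 l e.2) h
    simp only [emb, Sum.elim_inl, Sum.elim_inr, se, tileOf_add _ h1, tileOf_add _ h2,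
      tileOf_add _ (pt_mem q.2.2 _)] at e1 e2
    exact ev_ne q.1.1.1 (by simpa [e1] using e2)
  rintro (p | q) (p' | q') h
  · obtain ⟨-, h1, -⟩ := Lat.mem_edI.1 p.2.2
    obtain ⟨-, h1', -⟩ := Lat.mem_edI.1 p'.2.2
    have e1 := congrArg (fun e => tileOf 0 l e.1) h
    simp only [emb, Sum.elim_inl, tileOf_add _ h1, tileOf_add _ h1'] at e1
    simp only [emb, Sum.elim_inl, e1, Prod.mk.injEq, add_right_inj] at h
    exact congrArg _ (Prod.ext (Subtype.ext e1) (Subtype.ext (Prod.ext h.1 h.2)))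
  · exact (k _ _ h).elim
  · exact (k _ _ h.symm).elim
  · have e0 := congrArg (fun e => e.2 - e.1) h
    have e1 := congrArg (fun e => tileOf 0 l e.1) h
    simp only [emb, Sum.elim_inr, se_sub] at e0
    simp only [emb, Sum.elim_inr, se, tileOf_add _ (pt_mem q.2.2 _), tileOf_add _ (pt_mem q'.2.2 _)] at e1
    have e2 := ev_inj e0
    have e3 := congrArg Prod.fst h
    simp only [emb, Sum.elim_inr, se, e1, e2, add_right_inj] at e3
    exact congrArg _ (Prod.ext (Subtype.ext (Prod.ext e2 e1)) (Fin.ext (pt_inj _ _ e3)))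

theorem glue (hΛ : Λ.Ok) (hW : 1 ≤ W) (hl : 1 ≤ l) (hκ : 0 < κ) :
    Ph (fun p => (sys Λ hW l κ).ρ (sc _ _ (2 * l) p))
      (((sys Λ hW l κ).Ξ fun i d => π / 2 * sd W d i).comp (sc _ _ (2 * l))) ≤ Λ.Y (W * l) := by
  have hS := sys_ok (κ := κ) hΛ hW hl hκ
  set A := (sq (0 : Pt) (W * l)).erase 0 with hA
  have hφ : ∀ s : Cfg Pt, (AddMonoidHom.id _ - resH A : Cfg Pt →+ Cfg Pt) s = 0 ↔ ∀ x, x ∉ A → s x = 0 := fun s => by
    simp only [AddMonoidHom.sub_apply, AddMonoidHom.id_apply, Finsupp.ext_iff, Finsupp.sub_apply,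
      resH_apply, Finsupp.zero_apply]
    exact forall_congr' fun x => by split_ifs with h <;> simp [h]
  obtain ⟨hR, H⟩ := (hS.rw.comp _ (sc_inj hS.Npos)).ph_sub2 (Φ Λ hW l κ)
    (AddMonoidHom.id _ - resH A) (fun s h1 h2 => by
      rw [hφ] at h2
      have h0 : s 0 = 0 := h2 0 (notMem_erase _ _)
      ext x
      by_cases hx : x ∈ sq 0 (W * l)
      · have hi := (tileOf_mem (k := W) hl).2 hx
        have hy : x - tile 0 l (tileOf 0 l x) ∈ sq 0 l := by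
          have := mem_sq.1 ((mem_tile_iff hl).2 (rfl : tileOf 0 l x = _))
          rw [mem_sq]
          simp only [Prod.fst_zero, Prod.snd_zero, Prod.fst_sub, Prod.snd_sub]
          omega
        have e1 := ext_Φ (Λ := Λ) (l := l) (κ := κ) hW h0 ⟨_, hi⟩
        have e2 := congrArg (fun p => p.1.1 ⟨_, hi⟩ (x - tile 0 l (tileOf 0 l x))) h1
        rw [h1, map_zero] at e1
        have e3 : s (tile 0 l (tileOf 0 l x)) = 0 := by
          have : (0 : ℤ) = 2 * l * s (tile 0 l (tileOf 0 l x)) := by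
            rw [← e1]; unfold Sys.ext; split_ifs <;> rfl
          exact (mul_eq_zero.1 this.symm).resolve_left (by omega)
        simpa [Φ, boxH_apply, hy, e3] using e2
      · exact h2 x fun h => hx (mem_of_mem_erase h))
    (((sys Λ hW l κ).Ξ fun i d => π / 2 * sd W d i).comp (sc _ _ (2 * l)))
  have hw := hΛ.fam
  set R := Λ.edI (sq 0 (W * l)) \ univ.image (emb Λ W l)
  have H2 := hR.ex_mul (G := fun s => ∏ e ∈ R, Λ.w (dE e s))
    (PD.prod fun e _ => hw.pd.comp (dH e)) (fun s => prod_nonneg fun e _ => hw.nonneg _)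
    (prod_pos fun e _ => hw.pos _) (pd_cos (((((sys Λ hW l κ).Ξ fun i d => π / 2 * sd W d i).comp
      (sc _ _ (2 * l)))).comp (Φ Λ hW l κ)))
  refine (H.trans H2).trans_eq ?_
  have e : (fun s => ind ((AddMonoidHom.id _ - resH A : Cfg Pt →+ Cfg Pt) s = 0) *
      (sys Λ hW l κ).ρ (sc _ _ (sys Λ hW l κ).N (Φ Λ hW l κ s)) * ∏ e ∈ R, Λ.w (dE e s)) =
      Λ.WN (W * l) := by
    funext s
    by_cases hs : ∀ x, x ∉ A → s x = 0
    · have h0 : s 0 = 0 := hs 0 (notMem_erase _ _)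
      rw [ind_pos ((hφ s).2 hs), one_mul, Lat.WN, Mdl.W_of_eq _ hs]
      simp only [Lat.Nr, Lat.N, Mdl.free, prod_const_one, mul_one]
      rw [← prod_sdiff (s₁ := univ.image (emb Λ W l)) (s₂ := Λ.edI (sq 0 (W * l))) fun e he => by
        obtain ⟨t, -, rfl⟩ := mem_image.1 he; exact emb_mem hΛ t, mul_comm,
        prod_image fun _ _ _ _ h => emb_inj h, Fintype.prod_sum_type, Fintype.prod_prod_type,
        Fintype.prod_prod_type, Sys.ρ, Sys.U, Sys.ψ_apply, prod_eq_one (f := fun b => gau _ _), mul_one]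
      · congr 2
        exact prod_congr rfl fun i _ => WN_boxH i s
      · intro b _
        have e1 := A_Φ (Λ := Λ) (l := l) (κ := κ) hW h0 ((sys Λ hW l κ).tgt b) ((sys Λ hW l κ).dm b)
        have e2 := A_Φ (Λ := Λ) (l := l) (κ := κ) hW h0 ((sys Λ hW l κ).src b) ((sys Λ hW l κ).dp b)
        have e3 : (sys Λ hW l κ).B (fun j => dE (se l b j) s) =
            2 * ∑ j ∈ range l, s (se l b j).2 - 2 * ∑ j ∈ range l, s (se l b j).1 := by
          rw [sys_B, Fin.sum_univ_eq_sum_range fun j => dE (se l b j) s, ← mul_sub, ← sum_sub_distrib]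
          rfl
        refine Eq.trans (congrArg _ ?_) (by simp [gau] : gau (sys Λ hW l κ).σ 0 = 1)
        exact (show ∀ a b c d e x y : ℤ, a + d = x → b + e = y → c = x - y → a - b - c + (d - e) = 0
          from fun _ _ _ _ _ _ _ h1 h2 h3 => by omega) _ _ _ _ _ _ _ e1 e2 e3
    · rw [ind_neg (mt (hφ s).1 hs), zero_mul, zero_mul]
      by_contra hn
      exact hs fun x hx => Mdl.W_ne_zero (Ne.symm hn) hx
  rw [e]
  refine Ex_congr fun s hs => ?_
  have h0 : s 0 = 0 := Mdl.W_ne_zero hs (notMem_erase _ _)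
  have hWl : 1 ≤ W * l := Nat.mul_pos hW hl
  congr 1
  rw [AddMonoidHom.comp_apply, AddMonoidHom.comp_apply, Sys.Ξ_apply, pr_side,
    AddMonoidHom.finsetSum_apply, sum_comm]
  refine sum_congr rfl fun d _ => ?_
  have e4 : ∀ i : sq 0 W, (((sys Λ hW l κ).A d ((sc _ _ (2 * l) (Φ Λ hW l κ s)).1.1 i) : ℝ) +
      (sys Λ hW l κ).ext (sc _ _ (2 * l) (Φ Λ hW l κ s)).2 i) =
      2 * ∑ j ∈ range l, (s (tile 0 l i + pt l d j) : ℝ) := fun i => by
    exact_mod_cast A_Φ (Λ := Λ) (l := l) (κ := κ) hW h0 i d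
  simp only [e4, mul_assoc, ← mul_sum]
  rw [sum_coe_sort (sq 0 W) fun i => sd W d i * (((sys Λ hW l κ).N : ℝ)⁻¹ *
      (2 * ∑ j ∈ range l, (s (tile 0 l i + pt l d j) : ℝ))), sum_sd_mul hW, AddMonoidHom.smul_apply,
    pr_sd hWl, smul_eq_mul, sum_range_mul', ← mul_sum, ← mul_sum]
  simp only [tile_pt, sys]
  have : (l : ℝ) ≠ 0 := by positivity
  have : (W : ℝ) ≠ 0 := by positivity
  push_cast; field_simp

theorem sector (hΛ : Λ.Ok) (hW : 1 ≤ W) (hl : 1 ≤ l) (hκ : 0 < κ) {i₀ : Pt} {f : Pt → Fin 4 → ℝ}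
    (hf : Flux W i₀ f) {E : ℝ} (hE : (1 / κ + Λ.τ / l) * (∑ i ∈ sq 0 W, ∑ d, f i d ^ 2) / 4 +
      (∑ i ∈ (sq 0 W).erase i₀, Vr (Λ.WN l) (pr (side l (f i))) (pr (side l (f i)))) / 2 ≤ E) :
    exp (-E) * Λ.Y l ≤ Ph (sys Λ hW l κ).ρ (((sys Λ hW l κ).Ξ fun i d => π / 2 * sd W d i) +
      ch _ (sys Λ hW l κ).N ((sys Λ hW l κ).Qd ⟨i₀, hf.1⟩)) := by
  have hS := sys_ok (κ := κ) hΛ hW hl hκ
  have hl' : (0 : ℝ) < l := by exact_mod_cast hl
  refine le_trans ?_ (hS.num (by have := hΛ.pos; positivity) (sys_V hΛ hW) (fx hW hf))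
  have hC := hΛ.cen_WN hl
  have e : ((sys Λ hW l κ).σ + 4 * l * Λ.τ) / ((sys Λ hW l κ).N : ℝ) ^ 2 = 1 / κ + Λ.τ / l := by
    simp only [sys]; push_cast; field_simp; ring
  have e' : (sys Λ hW l κ).W = Λ.WN l := rfl
  simp only [sys_sdF hW hl, e, e']
  rw [prod_coe_sort (sq 0 W) fun i => Ph (Λ.WN l) (pr (side l (f i))),
    sum_coe_sort (sq 0 W) fun i => ∑ d, f i d ^ 2, ← mul_prod_erase _ _ hf.1,
    show f i₀ = fun _ => π / 2 from funext hf.2.1, mul_comm, mul_assoc]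
  refine mul_le_mul_of_nonneg_left ?_ (hC.ph_pos _).le
  refine le_trans ?_ (mul_le_mul_of_nonneg_right (prod_le_prod (fun _ _ => (exp_pos _).le)
    fun i _ => hC.ph_ge (pr (side l (f i)))) (exp_pos _).le)
  rw [← exp_sum, ← exp_add, exp_le_exp, ← sum_div, sum_neg_distrib]
  linarith

end Crest.Agent.T145.Sec62

namespace Crest.Agent.T145

open Finset Real Sec62

theorem secStmt : SecStmt := by
  intro F W κ hW hκ
  obtain ⟨c, K, hc, H⟩ := den κ (κ * (|F.τ₂| * (F.J.card * 144))) hκ (by positivity)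
    (Fintype.card (Bd W)) (Fintype.card (sq (0 : Pt) W))
  refine ⟨c, K, hc, fun Λ hF l hl => ?_⟩
  have hΛ : Λ.Ok := ⟨hF.1 ▸ F.adm, F.pos.trans_le hF.2.2.1⟩
  have hS := sys_ok (κ := κ) hΛ hW hl hκ
  have hl' : (0 : ℝ) < l := by exact_mod_cast hl
  obtain ⟨h1, h2, h3⟩ := H (sys Λ hW l κ) hS rfl le_rfl (Fintype.card_subtype_le _) (fun d d' => by
    rw [sys_cR hW hl, sys_cR hW hl, ← smul_sub, Vr_smul_smul]
    have := (vr_sd hΛ hl d d').trans (mul_le_mul_of_nonneg_right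
      (hF.2.2.2.trans (le_abs_self _)) (by positivity))
    refine (mul_le_mul_of_nonneg_left this (sq_nonneg _)).trans_eq ?_
    simp only [sys, hF.1]
    field_simp) _ rfl
  set D := ∑ Q ∈ Fintype.piFinset fun _ : (sys Λ hW l κ).I => Rs (sys Λ hW l κ).N,
    Ph (sys Λ hW l κ).ρ (ch _ (sys Λ hW l κ).N Q)
  have hD : 0 < D := by linarith
  refine ⟨1 / D, by rwa [le_div_iff₀ hD], h3.imp (fun h => one_div_le_one_div_of_le hD h) fun h => ?_,
    fun I₀ E hI => ?_⟩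
  · simp only [sys_sdF hW hl] at h
    exact h
  have H := hS.main (fun i d => π / 2 * sd W d i) (I₀.subtype (· ∈ sq 0 W))
    (E := exp (-E) * Λ.Y l) fun i₀ hi => by
    obtain ⟨f, hf, hE⟩ := hI i₀ (mem_subtype.1 hi)
    exact sector hΛ hW hl hκ hf hE
  rw [card_subtype, filter_true_of_mem fun i hi => (hI i hi).choose_spec.1.1] at H
  have G := mul_le_mul_of_nonneg_left (glue hΛ hW hl hκ) hD.le
  rw [mul_assoc, mul_assoc, one_div, inv_mul_le_iff₀ hD]
  exact H.trans G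

end Crest.Agent.T145
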