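import Crest.Agent.T145.Sm_58
import Crest.Agent.T145.Tor_27

/-!
# Row 145, module (b): `Sm2` for rescaled profiles `x ↦ û (x / L)` (helper58)
-/

set_option autoImplicit false

namespace Crest.Agent.T145

open Finset S58 Crest.ProbabilityR.HeightModel
open Tor27 (Dv)

/-- the point `x / L` -/
noncomputable def rsc (L : ℝ) (x : Pt) : ℝ × ℝ := ((x.1 : ℝ) / L, (x.2 : ℝ) / L)

/-- real unit vectors -/
def evR : Fin 2 → ℝ × ℝ := ![(1, 0), (0, 1)]

theorem rsc_ev (L : ℝ) (x : Pt) (i : Fin 2) : rsc L (x + ev i) = rsc L x + (1 / L) • evR i := by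
  fin_cases i <;> simp [rsc, ev, evR, add_div]

theorem rsc_add (L : ℝ) (x y : Pt) : rsc L (x + y) = rsc L x + rsc L y := by
  simp [rsc, add_div]

theorem rsc_sub (L : ℝ) (x y : Pt) : rsc L (x - y) = rsc L x - rsc L y := by
  simp [rsc, sub_div]

namespace S58

theorem hasDerivAt_line {u : ℝ × ℝ → ℝ} (h : Differentiable ℝ u) (p v : ℝ × ℝ) (t : ℝ) :
    HasDerivAt (fun s : ℝ => u (p + s • v)) (Dv v u (p + t • v)) t := by
  have h1 : HasDerivAt (fun s : ℝ => p + s • v) v t := by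
    simpa using ((hasDerivAt_id t).smul_const v).const_add p
  exact (h _).hasFDerivAt.comp_hasDerivAt t h1

theorem mvt' {φ φ' : ℝ → ℝ} {K : ℝ} (h : ∀ s, HasDerivAt φ (φ' s) s) (b : ∀ s, |φ' s| ≤ K)
    (s t : ℝ) : |φ s - φ t| ≤ K * |s - t| :=
  mvt (fun s => (h s).differentiableAt) (fun s => by rw [(h s).deriv]; exact b s) s t

theorem line_le {u : ℝ × ℝ → ℝ} {K : ℝ} (h : Differentiable ℝ u) {v : ℝ × ℝ}
    (b : ∀ p, |Dv v u p| ≤ K) (p : ℝ × ℝ) (t : ℝ) : |u (p + t • v) - u p| ≤ K * |t| := by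
  simpa using mvt' (hasDerivAt_line h p v) (fun s => b _) t 0

end S58

/-- `û` has two bounded partial derivatives -/
structure C2b (u : ℝ × ℝ → ℝ) (K : ℝ) : Prop where
  d₀ : Differentiable ℝ u
  d₁ : ∀ i, Differentiable ℝ (Dv (evR i) u)
  b₁ : ∀ i p, |Dv (evR i) u p| ≤ K
  b₂ : ∀ i j p, |Dv (evR j) (Dv (evR i) u) p| ≤ K

theorem C2b.sm2 {u : ℝ × ℝ → ℝ} {K L : ℝ} (h : C2b u K) (hL : 0 < L) :
    Sm2 (fun x => u (rsc L x)) K L := by
  have hL' : |1 / L| = 1 / L := abs_of_pos (by positivity)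
  refine ⟨fun i x => ?_, fun i j x => ?_⟩
  · simp only [df, rsc_ev]
    have := line_le h.d₀ (h.b₁ i) (rsc L x) (1 / L)
    rwa [hL', mul_one_div] at this
  · rw [df_df]
    simp only [rsc_ev]
    set p := rsc L x
    have := mvt' (K := K * (1 / L))
      (φ := fun s => u (p + (1 / L) • evR j + s • evR i) - u (p + s • evR i))
      (fun s => (hasDerivAt_line h.d₀ _ _ s).fun_sub (hasDerivAt_line h.d₀ _ _ s)) (fun s => by
        have := line_le (h.d₁ i) (h.b₂ i j) (p + s • evR i) (1 / L)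
        rwa [hL', add_right_comm] at this) (1 / L) 0
    simp only [zero_smul, add_zero, sub_zero, hL'] at this
    have e : K / L ^ 2 = K * (1 / L) * (1 / L) := by ring
    rw [e]
    convert this using 2
    ring

/-- first differences against derivatives -/
theorem C2b.df_sub {u : ℝ × ℝ → ℝ} {K L : ℝ} (h : C2b u K) (hL : 0 < L) (i : Fin 2) (x : Pt) :
    |df i (fun x => u (rsc L x)) x - Dv (evR i) u (rsc L x) / L| ≤ K / L ^ 2 := by
  have hK : 0 ≤ K := (abs_nonneg _).trans (h.b₁ 0 0)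
  have hL' : |1 / L| = 1 / L := abs_of_pos (by positivity)
  simp only [df, rsc_ev]
  set p := rsc L x
  have := Tor27.mvt (φ := fun s => u (p + s • evR i) - u p - s * Dv (evR i) u p)
    (φ' := fun s => Dv (evR i) u (p + s • evR i) - Dv (evR i) u p) (t := 1 / L) (C := K * (1 / L))
    (fun s => by
      simpa using ((hasDerivAt_line h.d₀ p _ s).sub_const (u p)).fun_sub
        ((hasDerivAt_id s).mul_const (Dv (evR i) u p))) (by simp) (fun s hs => by
      refine (line_le (h.d₁ i) (h.b₂ i i) p s).trans ?_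
      rw [hL'] at hs
      exact mul_le_mul_of_nonneg_left hs hK)
  rw [hL'] at this
  have e : K / L ^ 2 = K * (1 / L) * (1 / L) := by ring
  rw [e]
  convert this using 2
  ring

theorem C2b.mono {u : ℝ × ℝ → ℝ} {K K' : ℝ} (h : C2b u K) (hK : K ≤ K') : C2b u K' :=
  ⟨h.d₀, h.d₁, fun i p => (h.b₁ i p).trans hK, fun i j p => (h.b₂ i j p).trans hK⟩

namespace S58

theorem fin_bdd {ι α : Type*} [Fintype ι] {f : ι → α → ℝ} (h : ∀ i, ∃ K, ∀ p, |f i p| ≤ K) :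
    ∃ K, 1 ≤ K ∧ ∀ i p, |f i p| ≤ K := by
  choose K hK using h
  refine ⟨1 + ∑ i, |K i|, le_add_of_nonneg_right (sum_nonneg fun _ _ => abs_nonneg _), fun i p => ?_⟩
  have := single_le_sum (f := fun i => |K i|) (fun _ _ => abs_nonneg _) (mem_univ i)
  linarith [hK i p, le_abs_self (K i)]

theorem c2b_of {u : ℝ × ℝ → ℝ} (d₀ : Differentiable ℝ u) (d₁ : ∀ i, Differentiable ℝ (Dv (evR i) u))
    (b₀ : ∃ K, ∀ p, |u p| ≤ K) (b₁ : ∀ i, ∃ K, ∀ p, |Dv (evR i) u p| ≤ K)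
    (b₂ : ∀ i j, ∃ K, ∀ p, |Dv (evR j) (Dv (evR i) u) p| ≤ K) :
    ∃ K, 1 ≤ K ∧ C2b u K ∧ ∀ p, |u p| ≤ K := by
  obtain ⟨K₀, h₀⟩ := b₀
  obtain ⟨K₁, k₁, h₁⟩ := fin_bdd b₁
  obtain ⟨K₂, k₂, h₂⟩ := fin_bdd (ι := Fin 2 × Fin 2)
    (f := fun ij => Dv (evR ij.2) (Dv (evR ij.1) u)) fun ij => b₂ ij.1 ij.2
  have a := le_abs_self K₀
  have b := abs_nonneg K₀
  exact ⟨|K₀| + K₁ + K₂, by linarith, ⟨d₀, d₁, fun i p => by linarith [h₁ i p],
    fun i j p => by linarith [h₂ (i, j) p]⟩, fun p => by linarith [h₀ p]⟩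

theorem contDiff_Dv {u : ℝ × ℝ → ℝ} {n : ℕ} (h : ContDiff ℝ (n + 1 : ℕ) u) (v : ℝ × ℝ) :
    ContDiff ℝ n (Dv v u) :=
  (h.fderiv_right (m := n) (by push_cast; exact le_rfl)).clm_apply contDiff_const

theorem compact_Dv {u : ℝ × ℝ → ℝ} (h : HasCompactSupport u) (v : ℝ × ℝ) :
    HasCompactSupport (Dv v u) :=
  (h.fderiv (𝕜 := ℝ)).mono fun p hp h0 => hp (by simp [Dv, h0])

theorem per_Dv {u : ℝ × ℝ → ℝ} (h : IsPeriodic u) (v : ℝ × ℝ) : IsPeriodic (Dv v u) := by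
  have key : ∀ c : ℝ × ℝ, (∀ x, u (x + c) = u x) → ∀ x, Dv v u (x + c) = Dv v u x := fun c hc x => by
    rw [Dv, Dv, ← fderiv_comp_add_right, funext hc]
  exact fun x => ⟨key _ (fun y => (h y).1) x, key _ (fun y => (h y).2) x⟩

theorem per_bdd {u : ℝ × ℝ → ℝ} (h : IsPeriodic u) (hc : Continuous u) : ∃ K, ∀ p, |u p| ≤ K := by
  obtain ⟨K, hK⟩ := (isCompact_Icc (a := ((0 : ℝ), (0 : ℝ))) (b := (1, 1))).exists_bound_of_continuousOn
    hc.continuousOn
  refine ⟨K, fun p => ?_⟩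
  have e : p = (Int.fract p.1, Int.fract p.2) + (((⌊p.1⌋ : ℤ) : ℝ), ((⌊p.2⌋ : ℤ) : ℝ)) := by
    ext <;> simp
  rw [e, Tor27.per_int h]
  exact hK _ ⟨⟨Int.fract_nonneg _, Int.fract_nonneg _⟩, (Int.fract_lt_one _).le, (Int.fract_lt_one _).le⟩

end S58

/-- periodic `C²` profiles -/
theorem c2b_periodic {u : ℝ × ℝ → ℝ} (hp : IsPeriodic u) (h : ContDiff ℝ 2 u) :
    ∃ K, 1 ≤ K ∧ C2b u K ∧ ∀ p, |u p| ≤ K := by
  have h1 : ∀ v, ContDiff ℝ (1 : ℕ) (Dv v u) := fun v => contDiff_Dv (n := 1) h v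
  exact c2b_of (h.differentiable (by norm_num)) (fun i => (h1 _).differentiable (by norm_num))
    (per_bdd hp h.continuous) (fun i => per_bdd (per_Dv hp _) (h1 _).continuous) fun i j =>
      per_bdd (per_Dv (per_Dv hp _) _) (contDiff_Dv (n := 0) (h1 _) _).continuous

/-- compactly supported `C²` profiles -/
theorem c2b_compact {u : ℝ × ℝ → ℝ} (hp : HasCompactSupport u) (h : ContDiff ℝ 2 u) :
    ∃ K, 1 ≤ K ∧ C2b u K ∧ ∀ p, |u p| ≤ K := by
  have h1 : ∀ v, ContDiff ℝ (1 : ℕ) (Dv v u) := fun v => contDiff_Dv (n := 1) h v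
  have b : ∀ {w : ℝ × ℝ → ℝ}, HasCompactSupport w → Continuous w → ∃ K, ∀ p, |w p| ≤ K :=
    fun hw hc => hw.exists_bound_of_continuous hc
  exact c2b_of (h.differentiable (by norm_num)) (fun i => (h1 _).differentiable (by norm_num))
    (b hp h.continuous) (fun i => b (compact_Dv hp _) (h1 _).continuous) fun i j =>
      b (compact_Dv (compact_Dv hp _) _) (contDiff_Dv (n := 0) (h1 _) _).continuous

/-- smooth functions on the torus -/
theorem sm2_periodic {u : ℝ × ℝ → ℝ} (h : IsSmoothPeriodic u) : ∃ K, 1 ≤ K ∧ (∀ p, |u p| ≤ K) ∧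
    ∀ L : ℝ, 0 < L → Sm2 (fun x : Pt => u ((x.1 : ℝ) / L, (x.2 : ℝ) / L)) K L := by
  obtain ⟨K, k, hK, b⟩ := c2b_periodic h.1 (h.2.of_le (by
    exact WithTop.coe_le_coe.2 (le_top : (2 : ℕ∞) ≤ ⊤)))
  exact ⟨K, k, b, fun L hL => hK.sm2 hL⟩

/-- compactly supported `C²` functions -/
theorem sm2_compact {u : ℝ × ℝ → ℝ} (hp : HasCompactSupport u) (h : ContDiff ℝ 2 u) :
    ∃ K, 1 ≤ K ∧ (∀ p, |u p| ≤ K) ∧
      ∀ L : ℝ, 0 < L → Sm2 (fun x : Pt => u ((x.1 : ℝ) / L, (x.2 : ℝ) / L)) K L := by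
  obtain ⟨K, k, hK, b⟩ := c2b_compact hp h
  exact ⟨K, k, b, fun L hL => hK.sm2 hL⟩

/-! ## Composition with a function of one variable -/

/-- `g ∘ u` -/
theorem Sm2.comp {u : Pt → ℝ} {g : ℝ → ℝ} {K K' L : ℝ} (h : Sm2 u K L) (hg : C11 g K') (hL : 0 < L) :
    Sm2 (fun x => g (u x)) (K' * (K + K ^ 2)) L := by
  have hK := h.nonneg hL
  have hK' := hg.nonneg
  refine ⟨fun i x => ?_, fun i j x => ?_⟩
  · refine (mvt hg.1 hg.2.1 _ _).trans ?_
    rw [mul_div_assoc]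
    refine mul_le_mul_of_nonneg_left ((h.1 i x).trans ?_) hK'
    gcongr
    nlinarith
  · rw [df_df]
    have h1 := abs_dd_le hg.1 hg.2.2 (u x) (df i u x) (df j u x)
    have h2 := mvt hg.1 hg.2.1 (u (x + ev j + ev i)) (u x + df j u x + df i u x)
    have e1 : u (x + ev j + ev i) - (u x + df j u x + df i u x) = df j (df i u) x := by
      simp only [df]; ring
    have e2 : ∀ j, u x + df j u x = u (x + ev j) := fun j => by simp only [df]; ring
    rw [e1] at h2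
    rw [e2 i] at h1
    have e3 : g (u x + df j u x) = g (u (x + ev j)) := by rw [e2]
    rw [e3] at h1
    have h3 : K' * |df i u x| * |df j u x| ≤ K' * (K / L) * (K / L) :=
      mul_le_mul (mul_le_mul_of_nonneg_left (h.1 i x) hK') (h.1 j x) (abs_nonneg _) (by positivity)
    have h4 := mul_le_mul_of_nonneg_left (h.2 i j x) hK'
    have e4 : K' * (K + K ^ 2) / L ^ 2 = K' * (K / L ^ 2) + K' * (K / L) * (K / L) := by ring
    rw [e4]
    have := abs_add_le (g (u (x + ev j + ev i)) - g (u x + df j u x + df i u x))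
      (g (u x + df j u x + df i u x) - g (u (x + ev j)) - g (u (x + ev i)) + g (u x))
    have e5 : g (u (x + ev j + ev i)) - g (u x + df j u x + df i u x) +
      (g (u x + df j u x + df i u x) - g (u (x + ev j)) - g (u (x + ev i)) + g (u x)) =
      g (u (x + ev j + ev i)) - g (u (x + ev j)) - g (u (x + ev i)) + g (u x) := by ring
    rw [e5] at this
    linarith

/-- oscillation on a ball -/
theorem Sm2.osc {u : Pt → ℝ} {K L : ℝ} (h : Sm2 u K L) {x y : Pt} {r : ℕ} (hy : y ∈ bl x r) :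
    |u y - u x| ≤ K / L * (2 * r) := by
  have hc : 0 ≤ K / L := (abs_nonneg _).trans (h.1 0 0)
  refine (h.lip x y).trans (mul_le_mul_of_nonneg_left ?_ hc)
  rw [l1_eq, Prod.fst_sub, Prod.snd_sub]
  rw [S58.mem_bl] at hy
  have a : |y.1 - x.1| ≤ r := abs_le.2 ⟨by omega, by omega⟩
  have b : |y.2 - x.2| ≤ r := abs_le.2 ⟨by omega, by omega⟩
  have a' : |((y.1 - x.1 : ℤ) : ℝ)| ≤ r := by exact_mod_cast a
  have b' : |((y.2 - x.2 : ℤ) : ℝ)| ≤ r := by exact_mod_cast b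
  linarith

/-- symmetric second difference -/
theorem Sm2.sym {u : Pt → ℝ} {K L : ℝ} (h : Sm2 u K L) (x y : Pt) :
    |u (x + y) + u (x - y) - 2 * u x| ≤ 2 * (K / L ^ 2) * (∑ i, |co i y|) ^ 2 := by
  have h1 := h.taylor x (x + y)
  have h2 := h.taylor x (x - y)
  rw [add_sub_cancel_left] at h1
  rw [sub_sub_cancel_left] at h2
  simp only [co_neg, abs_neg, mul_neg, sum_neg_distrib] at h2
  have := abs_add_le (u (x + y) - u x - ∑ i, df i u x * co i y)
    (u (x - y) - u x - -∑ i, df i u x * co i y)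
  have e : u (x + y) - u x - ∑ i, df i u x * co i y + (u (x - y) - u x - -∑ i, df i u x * co i y) =
    u (x + y) + u (x - y) - 2 * u x := by ring
  rw [e] at this
  linarith

end Crest.Agent.T145
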