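import Crest.Agent.T145.BrB_73
import Crest.Agent.T145.GffDef2_8

/-!
# Row 145, module (b): VB, STEP (helper29)
-/

set_option autoImplicit false

namespace Crest.Agent.T145

open Finset Filter

namespace St29

theorem vr_add_eta {L : Type*} [AddCommGroup L] {W : L → ℝ} (h : Cen W) (f g : L →+ ℝ) {η : ℝ}
    (hη : 0 < η) : Vr W (f + g) (f + g) ≤ (1 + η) * Vr W f f + (1 + 1 / η) * Vr W g g := by
  have h1 := h.vr_nonneg (η • f - g)
  rw [h.vr_sub, Vr_smul_smul, Vr_smul_left] at h1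
  rw [h.vr_add]
  have h2 : 2 * Vr W f g ≤ η * Vr W f f + 1 / η * Vr W g g := by
    have e : η * Vr W f f + 1 / η * Vr W g g - 2 * Vr W f g =
        (η ^ 2 * Vr W f f - 2 * (η * Vr W f g) + Vr W g g) / η := by field_simp; ring
    have := div_nonneg h1 hη.le
    linarith
  linarith

/-- side charges of total charge `2 π q`: flow to the east side -/
theorem f2_side {F : Fa} {Λ : Lat} (hΛ : F.Mem Λ) {l : ℕ} (hl : 1 ≤ l) {K : ℝ} {q : ℤ}
    {g : Fin 4 → ℝ} (hg : ∀ d, |g d| ≤ K) (hq : ∑ d, g d = 2 * Real.pi * q) :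
    F2 (Λ.edI (sq 0 l)) (side l g - (2 * Real.pi * q) • sd l 0)
      (F.base.Jp.card * (100 * K) ^ 2) := by
  have hp : (0 : ℝ) < l := by positivity
  have hK : 0 ≤ K := (abs_nonneg _).trans (hg 0)
  have h := r1cStmt Λ l K q 0 g hΛ.ok hl (fun _ _ => rfl)
    (fun x => by simpa using div_nonneg hK (sq_nonneg _)) hg (by simpa using hq)
  refine (h.f2.congr (funext fun x => by simp)).mono ?_
  have hc : ((Λ.edI (sq 0 l)).card : ℝ) ≤ (l : ℝ) ^ 2 * F.base.Jp.card := by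
    have := card_edI_le Λ (sq 0 l)
    rw [card_sq, hΛ.Jp_eq] at this
    exact_mod_cast this
  calc ((Λ.edI (sq 0 l)).card : ℝ) * (100 * K / l) ^ 2
      ≤ (l : ℝ) ^ 2 * F.base.Jp.card * (100 * K / l) ^ 2 := by gcongr
    _ = _ := by field_simp

theorem gN_mem (ha : T1aStmt) {F : Fa} {Λ : Lat} (hΛ : F.Mem Λ) {l : ℕ} (hl : 1 ≤ l) :
    0 ≤ Λ.gN l ∧ Λ.gN l ≤ F.τ₂ := by
  obtain ⟨C, hC⟩ := ha F
  obtain ⟨h0, h1, -⟩ := hC Λ hΛ l hl
  refine ⟨div_nonneg h0 hΛ.e0_pos.le, le_trans ?_ hΛ.inv_e0_le⟩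
  exact div_le_div_of_nonneg_right h1 hΛ.e0_pos.le

theorem tl_nonneg (f : Fin 4 → ℝ) : 0 ≤ tl f := by unfold tl; positivity
theorem sa_nonneg (f : Fin 4 → ℝ) : 0 ≤ sa f := by unfold sa; positivity

end St29

open St29 in
theorem vbStmt (h2 : R2Stmt) (ha : T1aStmt) : VbStmt := by
  intro F ε hε
  obtain ⟨C₂, hC₂⟩ := h2 F
  obtain ⟨Ca, hCa⟩ := ha F
  set T := |F.τ₂| + 1 with hT
  have hT0 : 0 < T := by positivity
  set η := ε / (2 * T) with hη
  have hη0 : 0 < η := by positivity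
  set n₀ : ℝ := F.base.Jp.card * (100 * 1) ^ 2 with hn₀
  set B := (1 + 1 / η) * T * 4 * T ^ 2 * |C₂| with hB
  refine ⟨(1 + 1 / η) * T * 2 * n₀, ⌈2 * B / ε⌉₊ + 1, fun Λ hΛ l hl f hf => ?_⟩
  have hl1 : 1 ≤ l := le_trans (Nat.le_add_left 1 _) hl
  have hp : (0 : ℝ) < l := by positivity
  have hok := hΛ.ok
  have he := hΛ.e0_pos
  have hc := hok.cen_WN hl1
  have hτ : Λ.τ ≤ T := hΛ.tau_le.trans (by rw [hT]; linarith [le_abs_self F.τ₂])
  have hie : 1 / Λ.e0 ≤ T := hΛ.inv_e0_le.trans (by rw [hT]; linarith [le_abs_self F.τ₂])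
  obtain ⟨r0, r1, -⟩ := hC₂ Λ hΛ l hl1
  obtain ⟨-, -, x01, x11, -⟩ := hCa Λ hΛ l hl1
  obtain ⟨g0, g1⟩ := gN_mem ha hΛ hl1
  have g1' : Λ.gN l ≤ T := g1.trans (by rw [hT]; linarith [le_abs_self F.τ₂])
  set a₁ := (f 0 - f 1) / 2 with ha₁
  set a₂ := (f 2 - f 3) / 2 with ha₂
  set c := (f 0 + f 1 - f 2 - f 3) / 4 with hc'
  set t := 1 / (Λ.e0 * l) with ht
  have hs : F2 (Λ.edI (sq 0 l)) (side l ![1, 1, -1, -1]) n₀ := by
    have := f2_side (K := 1) (q := 0) (g := ![1, 1, -1, -1]) hΛ hl1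
      (fun d => by fin_cases d <;> simp) (by simp [Fin.sum_univ_four])
    simpa [hn₀] using this
  have hν := (((r0.smul (-(a₁ * t))).add (r1.smul (-(a₂ * t)))).add (hs.smul c))
  set ν := -(a₁ * t) • (Λ.Au (sq 0 l) (co 0) - (Λ.e0 * l) • (sd l 0 - sd l 1)) +
    -(a₂ * t) • (Λ.Au (sq 0 l) (co 1) - (Λ.e0 * l) • (sd l 2 - sd l 3)) +
    c • side l ![1, 1, -1, -1] with hνd
  have hdec : side l f = ((a₁ * t) • Λ.Au (sq 0 l) (co 0) + (a₂ * t) • Λ.Au (sq 0 l) (co 1)) + ν := by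
    funext x
    have hte : t * (Λ.e0 * l) = 1 := by rw [ht]; field_simp
    rw [Fin.sum_univ_four] at hf
    simp only [hνd, side, Fin.sum_univ_four, Pi.add_apply, Pi.smul_apply, Pi.sub_apply, smul_eq_mul,
      Matrix.cons_val_zero, Matrix.cons_val_one, Matrix.cons_val]
    have e0 : f 0 = c + a₁ := by rw [hc', ha₁]; linarith
    have e1 : f 1 = c - a₁ := by rw [hc', ha₁]; linarith
    have e2 : f 2 = -c + a₂ := by rw [hc', ha₂]; linarith
    have e3 : f 3 = -c - a₂ := by rw [hc', ha₂]; linarith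
    rw [e0, e1, e2, e3]
    linear_combination (-(a₁ * (sd l 0 x - sd l 1 x)) - a₂ * (sd l 2 x - sd l 3 x)) * hte
  have hmain : Vr (Λ.WN l) ((a₁ * t) • Λ.X l (co 0) + (a₂ * t) • Λ.X l (co 1))
      ((a₁ * t) • Λ.X l (co 0) + (a₂ * t) • Λ.X l (co 1)) = Λ.gN l * tl f := by
    rw [hc.vr_add, Vr_smul_smul, Vr_smul_smul, Vr_smul_left, Vr_smul_right, x01, x11,
      hok.vr_X hl1, tl, ← ha₁, ← ha₂, Lat.gN, ht]
    field_simp
    ring
  have hv := hok.vr_WN hl1 hν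
  have h1 := vr_add_eta hc ((a₁ * t) • Λ.X l (co 0) + (a₂ * t) • Λ.X l (co 1)) (pr ν) hη0
  rw [hmain] at h1
  have hp' : pr (side l f) = ((a₁ * t) • Λ.X l (co 0) + (a₂ * t) • Λ.X l (co 1)) + pr ν := by
    rw [hdec, pr_add, pr_add, pr_smul, pr_smul]; rfl
  rw [hp']
  refine h1.trans ?_
  have htl := tl_nonneg f
  have hsa : sa f = c ^ 2 := rfl
  have htl' : tl f = a₁ ^ 2 + a₂ ^ 2 := rfl
  have hn0 : 0 ≤ n₀ := by positivity
  have htt : t ^ 2 * (C₂ * l) ≤ T ^ 2 * |C₂| / l := by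
    have e : t ^ 2 * (C₂ * l) = (1 / Λ.e0) ^ 2 * C₂ / l := by rw [ht]; field_simp
    rw [e]
    refine div_le_div_of_nonneg_right ?_ hp.le
    calc (1 / Λ.e0) ^ 2 * C₂ ≤ (1 / Λ.e0) ^ 2 * |C₂| := by gcongr; exact le_abs_self _
      _ ≤ T ^ 2 * |C₂| := by gcongr
  have hvv : Vr (Λ.WN l) (pr ν) (pr ν) ≤ T * (4 * (T ^ 2 * |C₂| / l) * tl f + 2 * n₀ * sa f) := by
    refine hv.trans ?_
    have e : 2 * (2 * ((-(a₁ * t)) ^ 2 * (C₂ * l) + (-(a₂ * t)) ^ 2 * (C₂ * l)) + c ^ 2 * n₀) =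
        4 * (t ^ 2 * (C₂ * l)) * tl f + 2 * n₀ * sa f := by rw [hsa, htl']; ring
    have hnn := hν.nonneg
    rw [e] at hnn ⊢
    calc Λ.τ * (4 * (t ^ 2 * (C₂ * l)) * tl f + 2 * n₀ * sa f)
        ≤ T * (4 * (t ^ 2 * (C₂ * l)) * tl f + 2 * n₀ * sa f) := by gcongr
      _ ≤ _ := by gcongr
  have hBl : B / l ≤ ε / 2 := by
    have : 2 * B / ε ≤ l := (Nat.le_ceil _).trans (by exact_mod_cast (Nat.le_succ _).trans hl)
    rw [div_le_iff₀ hε] at this
    rw [div_le_iff₀ hp]; linarith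
  have hηg : η * Λ.gN l ≤ ε / 2 := by
    calc η * Λ.gN l ≤ η * T := by gcongr
      _ = ε / 2 := by rw [hη]; field_simp
  have h3 : (1 + 1 / η) * Vr (Λ.WN l) (pr ν) (pr ν) ≤
      B / l * tl f + (1 + 1 / η) * T * 2 * n₀ * sa f := by
    calc (1 + 1 / η) * Vr (Λ.WN l) (pr ν) (pr ν)
        ≤ (1 + 1 / η) * (T * (4 * (T ^ 2 * |C₂| / l) * tl f + 2 * n₀ * sa f)) := by gcongr
      _ = _ := by rw [hB]; ring
  nlinarith [mul_le_mul_of_nonneg_right hBl htl, mul_le_mul_of_nonneg_right hηg htl]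

set_option maxHeartbeats 800000 in
open St29 in
theorem step2Stmt (hS : SecStmt) (hF : FluxStmt) (hV : VbStmt) (ha : T1aStmt) : Step2Stmt := by
  intro F ε hε
  have hπ := Real.pi_pos
  obtain ⟨C, c₁, hc₁, hW⟩ := hF
  obtain ⟨Cv, lv, hCv⟩ := hV F (ε / (4 * Real.pi)) (by positivity)
  obtain ⟨W₀, hW₀⟩ := eventually_atTop.1 hW
  set T := |F.τ₂| + 1 with hT
  have hT0 : 0 < T := by positivity
  set A := |C| + 1 with hA
  have hA0 : 0 < A := by positivity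
  have hCA : C ≤ A := by rw [hA]; linarith [le_abs_self C]
  set κ := 2 * A / ε with hκ
  have hκ0 : 0 < κ := by positivity
  set C' := ((T + ε / (4 * Real.pi)) * A + |Cv| * A) / 2 with hC'
  have hC'0 : 0 ≤ C' := by positivity
  -- choose `k₀`
  have hev : ∀ᶠ k : ℕ in atTop, W₀ ≤ 2 ^ k ∧ 2 * Real.exp C' / c₁ ≤ ((2 : ℝ) ^ k) ^ (ε / 2) := by
    refine ((tendsto_pow_atTop_atTop_of_one_lt (by norm_num : (1 : ℕ) < 2)).eventually_ge_atTop
      W₀).and ?_
    exact ((tendsto_rpow_atTop (half_pos hε)).comp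
      (tendsto_pow_atTop_atTop_of_one_lt (by norm_num : (1 : ℝ) < 2))).eventually_ge_atTop _
  obtain ⟨k₀, hk₀⟩ := eventually_atTop.1 hev
  refine ⟨k₀, fun k hk => ?_⟩
  obtain ⟨hkW, hk2⟩ := hk₀ k hk
  obtain ⟨I₀, hI₀, hfl⟩ := hW₀ _ hkW
  have hW1 : 1 ≤ 2 ^ k := Nat.one_le_two_pow
  obtain ⟨cS, K, hcS, hSec⟩ := hS F (2 ^ k) κ hW1 hκ0
  set w : ℝ := (2 : ℝ) ^ k with hw
  have hw1 : 1 ≤ w := one_le_pow₀ (by norm_num)
  have hw0 : 0 < w := by positivity
  have hcast : ((2 ^ k : ℕ) : ℝ) = w := by rw [hw]; push_cast; rfl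
  rw [hcast] at hI₀ hfl
  have hlog : 0 ≤ Real.log w := Real.log_nonneg hw1
  set n₁ : ℝ := F.base.Jp.card * (100 * K) ^ 2 with hn₁
  set Em := (Real.pi * T + ε / 2) * Real.log w + C' with hEm
  refine ⟨⌈K⌉₊, lv + ⌈2 * T * A / ε⌉₊ + 1,
    min (cS * (c₁ * w ^ 2) * Real.exp (-Em)) (cS ^ 2 * Real.exp (-(T * n₁))), by positivity,
    fun Λ hΛ l hl => ?_⟩
  have hl1 : 1 ≤ l := le_trans (Nat.le_add_left 1 _) hl
  have hp : (0 : ℝ) < l := by positivity
  have hok := hΛ.ok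
  have hc := hok.cen_WN hl1
  have hτ : Λ.τ ≤ T := hΛ.tau_le.trans (by rw [hT]; linarith [le_abs_self F.τ₂])
  obtain ⟨g0, g1⟩ := gN_mem ha hΛ hl1
  have g1' : Λ.gN l ≤ T := g1.trans (by rw [hT]; linarith [le_abs_self F.τ₂])
  have hY0 : 0 < Λ.Y l := hc.ph_pos _
  have hY1 : Λ.Y l ≤ 1 := (le_abs_self _).trans (hc.wt.abs_Ph_le _)
  obtain ⟨r, hr, halt, hmain⟩ := hSec Λ hΛ l hl1
  set E := (Real.pi * Λ.gN l + ε / 2) * Real.log w + C' with hE
  have hTl : T / l ≤ ε / (2 * A) := by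
    have : 2 * T * A / ε ≤ l := (Nat.le_ceil _).trans (by exact_mod_cast (by omega))
    rw [div_le_iff₀ hε] at this
    rw [div_le_div_iff₀ hp (by positivity)]; linarith
  have hkey := hmain I₀ E fun i₀ hi₀ => by
    obtain ⟨f, hf, h1, h2, h3⟩ := hfl i₀ hi₀
    refine ⟨f, hf, ?_⟩
    have hv : ∑ i ∈ (sq 0 (2 ^ k)).erase i₀,
        Vr (Λ.WN l) (pr (side l (f i))) (pr (side l (f i))) ≤
        (Λ.gN l + ε / (4 * Real.pi)) * (2 * Real.pi * Real.log w + A) + |Cv| * A := by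
      calc _ ≤ ∑ i ∈ (sq 0 (2 ^ k)).erase i₀,
            ((Λ.gN l + ε / (4 * Real.pi)) * tl (f i) + |Cv| * sa (f i)) := by
            refine sum_le_sum fun i hi => ?_
            have := hCv Λ hΛ l (by omega) (f i)
              ((hf.2.2 i (mem_of_mem_erase hi)).1 (ne_of_mem_erase hi))
            have h4 : Cv * sa (f i) ≤ |Cv| * sa (f i) :=
              mul_le_mul_of_nonneg_right (le_abs_self _) (sa_nonneg _)
            linarith
        _ ≤ _ := by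
            rw [sum_add_distrib, ← mul_sum, ← mul_sum]
            gcongr
            · linarith
            · linarith
    have hs0 : 0 ≤ ∑ i ∈ sq 0 (2 ^ k), ∑ d, f i d ^ 2 := by positivity
    have h5 : 1 / κ + Λ.τ / l ≤ ε / A := by
      have : Λ.τ / l ≤ T / l := by gcongr
      have e1 : 1 / κ = ε / (2 * A) := by rw [hκ]; field_simp
      have e2 : ε / A = ε / (2 * A) + ε / (2 * A) := by field_simp; ring
      linarith
    have h6 : (1 / κ + Λ.τ / l) * (∑ i ∈ sq 0 (2 ^ k), ∑ d, f i d ^ 2) ≤ ε * Real.log w := by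
      calc _ ≤ ε / A * (A * Real.log w) := by
            gcongr
            exact h3.trans (by gcongr)
        _ = _ := by field_simp
    have h7 : (Λ.gN l + ε / (4 * Real.pi)) * (2 * Real.pi * Real.log w + A) ≤
        (2 * Real.pi * Λ.gN l + ε / 2) * Real.log w + (T + ε / (4 * Real.pi)) * A := by
      have e : (Λ.gN l + ε / (4 * Real.pi)) * (2 * Real.pi * Real.log w + A) =
          (2 * Real.pi * Λ.gN l + ε / 2) * Real.log w + (Λ.gN l + ε / (4 * Real.pi)) * A := by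
        field_simp; ring
      rw [e]; gcongr
    rw [hE, hC']
    linarith
  have hr0 : 0 < r := hcS.trans_le hr
  refine ⟨hY0, hY1, ?_, ?_⟩
  · refine le_trans ?_ hkey
    refine mul_le_mul_of_nonneg_right ((min_le_left _ _).trans ?_) hY0.le
    have : -Em ≤ -E := by
      rw [hEm, hE]
      have : Real.pi * Λ.gN l ≤ Real.pi * T := by gcongr
      nlinarith
    gcongr
  · rcases halt with h12 | ⟨q, g, hq, hg, hsum, hph⟩
    · left
      refine le_trans ?_ hkey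
      refine mul_le_mul_of_nonneg_right ?_ hY0.le
      have e1 : w ^ (2 - Real.pi * Λ.gN l - ε) * w ^ (ε / 2) =
          w ^ 2 * Real.exp (-E) * Real.exp C' := by
        have e0 : w ^ 2 = Real.exp (2 * Real.log w) := by
          rw [← Real.exp_log (pow_pos hw0 2), Real.log_pow]; norm_num
        rw [← Real.rpow_add hw0, Real.rpow_def_of_pos hw0, e0, ← Real.exp_add, ← Real.exp_add, hE]
        congr 1; ring
      have hpos : 0 < w ^ (ε / 2) := Real.rpow_pos_of_pos hw0 _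
      have h8 : 2 * Real.exp C' ≤ w ^ (ε / 2) * c₁ := (div_le_iff₀ hc₁).1 hk2
      refine le_of_mul_le_mul_right ?_ hpos
      rw [e1]
      have hx : 0 < w ^ 2 * Real.exp (-E) := by positivity
      calc w ^ 2 * Real.exp (-E) * Real.exp C'
          ≤ w ^ 2 * Real.exp (-E) * (w ^ (ε / 2) * c₁ / 2) := by gcongr; linarith
        _ = 1 / 2 * (c₁ * w ^ 2) * Real.exp (-E) * w ^ (ε / 2) := by ring
        _ ≤ _ := by gcongr
    · right
      have hK : 0 ≤ K := (abs_nonneg _).trans (hg 0)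
      have hf2 := f2_side hΛ hl1 hg hsum
      set ν := side l g - (2 * Real.pi * q) • sd l 0 with hν
      have hv : Vr (Λ.WN l) (pr ν) (pr ν) ≤ T * n₁ :=
        (hok.vr_WN hl1 hf2).trans (by gcongr)
      have h9 := hc.ph_par (pr (side l g)) (pr ν)
      have e2 : pr (side l g) - pr ν = (2 * Real.pi * q) • pr (sd l 0) := by
        rw [hν, pr_sub, pr_smul]; abel
      rw [e2] at h9
      have h10 : Ph (Λ.WN l) (pr (side l g) + pr ν) ≤ 1 :=
        (le_abs_self _).trans (hc.wt.abs_Ph_le _)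
      have h11 : Real.exp (-(T * n₁)) ≤ Ph (Λ.WN l) (pr ν) ^ 2 := by
        have := hc.ph_ge (pr ν)
        calc Real.exp (-(T * n₁)) ≤ Real.exp (-Vr (Λ.WN l) (pr ν) (pr ν) / 2) ^ 2 := by
              rw [← Real.exp_nat_mul]; gcongr; push_cast; linarith
          _ ≤ _ := by gcongr
      have haq : cS ^ 2 * Real.exp (-(T * n₁)) ≤ Λ.aq l q := by
        have hq0 : 0 < Λ.aq l q := hc.ph_pos _
        calc cS ^ 2 * Real.exp (-(T * n₁))
            ≤ Ph (Λ.WN l) (pr (side l g)) ^ 2 * Ph (Λ.WN l) (pr ν) ^ 2 := by gcongr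
          _ ≤ _ := h9
          _ ≤ 1 * Λ.aq l q := mul_le_mul_of_nonneg_right h10 hq0.le
          _ = _ := one_mul _
      have hqK : |(q : ℝ)| ≤ K := by
        have h4 : |2 * Real.pi * q| ≤ 4 * K := by
          rw [← hsum, Fin.sum_univ_four]
          have := hg 0; have := hg 1; have := hg 2; have := hg 3
          have := abs_add_le (g 0 + g 1 + g 2) (g 3)
          have := abs_add_le (g 0 + g 1) (g 2)
          have := abs_add_le (g 0) (g 1)
          linarith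
        rw [abs_mul, abs_of_pos (by positivity : 0 < 2 * Real.pi)] at h4
        nlinarith [Real.pi_gt_three, abs_nonneg (q : ℝ)]
      refine ⟨|q|, Int.one_le_abs hq, ?_, (min_le_right _ _).trans (haq.trans (le_of_eq ?_))⟩
      · have : ((|q| : ℤ) : ℝ) ≤ (⌈K⌉₊ : ℝ) := by
          rw [Int.cast_abs]; exact hqK.trans (Nat.le_ceil _)
        exact_mod_cast this
      · rcases abs_choice q with h | h
        · rw [h]
        · rw [h, Lat.aq, Lat.aq, Int.cast_neg, mul_neg, neg_smul, Ph_neg]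

theorem Step2Stmt.step (h : Step2Stmt) : StepStmt := by
  intro F ε₀ hε₀
  have hπ := Real.pi_pos
  obtain ⟨k₀, hk₀⟩ := h F (Real.pi * ε₀ / 2) (by positivity)
  set k := k₀ + ⌈2 / (Real.pi * ε₀)⌉₊ + 1 with hk
  obtain ⟨q₀, l₀, c, hc, H⟩ := hk₀ k (by omega)
  refine ⟨k, q₀, l₀, c, by omega, hc, fun Λ hΛ l hl => ?_⟩
  obtain ⟨h1, h2, h3, h4⟩ := H Λ hΛ l hl
  refine ⟨h1, h2, h3, fun hg => h4.imp_left fun h5 => le_trans ?_ h5⟩
  refine mul_le_mul_of_nonneg_right ?_ h1.le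
  have h6 : Real.pi * ε₀ / 2 ≤ 2 - Real.pi * Λ.gN l - Real.pi * ε₀ / 2 := by
    have : Real.pi * Λ.gN l ≤ Real.pi * (2 / Real.pi - ε₀) := by gcongr
    have e : Real.pi * (2 / Real.pi - ε₀) = 2 - Real.pi * ε₀ := by field_simp
    linarith
  have h7 : 2 / (Real.pi * ε₀) ≤ (k : ℝ) := (Nat.le_ceil _).trans (by exact_mod_cast (by omega))
  rw [div_le_iff₀ (by positivity)] at h7
  rw [← Real.rpow_natCast, ← Real.rpow_mul (by norm_num)]
  calc (2 : ℝ) = 2 ^ (1 : ℝ) := (Real.rpow_one 2).symm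
    _ ≤ _ := by
      refine Real.rpow_le_rpow_of_exponent_le (by norm_num) ?_
      have : (k : ℝ) * (Real.pi * ε₀ / 2) ≤
          k * (2 - Real.pi * Λ.gN l - Real.pi * ε₀ / 2) := by gcongr
      linarith

theorem stepStmt (hS : SecStmt) (hF : FluxStmt) (hV : VbStmt) (ha : T1aStmt) : StepStmt :=
  (step2Stmt hS hF hV ha).step

end Crest.Agent.T145
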