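import Crest.Agent.T145.T2A_89

/-!
# Row 145, T2: charges vanish in a window (helper89)
-/

set_option autoImplicit false

namespace Crest.Agent.T145.T289

open Finset Crest.ProbabilityR.HeightModel

/-- the reference member of a family -/
def base (F : Fa) : Lat := ⟨F.J, F.xy, F.τ₁⟩

theorem base_ok (F : Fa) : (base F).Ok := ⟨F.adm, F.pos⟩

theorem mem_ok {F : Fa} {Λ : Lat} (h : F.Mem Λ) : Λ.Ok :=
  ⟨h.1 ▸ F.adm, F.pos.trans_le h.2.2.1⟩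

theorem mem_Jp {F : Fa} {Λ : Lat} (h : F.Mem Λ) : Λ.Jp = (base F).Jp := by
  unfold Lat.Jp; rw [h.1]; rfl

theorem mem_a {F : Fa} {Λ : Lat} (h : F.Mem Λ) : Λ.a = (base F).a := by
  unfold Lat.a; rw [mem_Jp h]

theorem mem_rg {F : Fa} {Λ : Lat} (h : F.Mem Λ) : Λ.rg = (base F).rg := by
  unfold Lat.rg; rw [h.1]; rfl

theorem e0_pos {Λ : Lat} (h : Λ.Ok) : 0 < Λ.e0 := div_pos (one_pos.trans_le h.one_le_a) h.pos

theorem e0_le {F : Fa} {Λ : Lat} (h : F.Mem Λ) : Λ.e0 ≤ (base F).e0 := by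
  unfold Lat.e0
  rw [mem_a h]
  exact div_le_div_of_nonneg_left (zero_le_one.trans (base_ok F).one_le_a) F.pos h.2.2.1

theorem sep_mono {δ δ' : ℝ} {l L : ℕ} (h : Sep δ l L) (hδ : δ ≤ δ') : Sep δ' l L :=
  ⟨h.1.trans (by gcongr), h.2.trans (by gcongr)⟩

theorem sep_two {δ : ℝ} {l L : ℕ} (h : Sep δ l L) (hδ : 0 ≤ δ) : Sep δ l (2 * L) :=
  ⟨h.1, h.2.trans (by gcongr; omega)⟩

theorem sep_sq {δ : ℝ} {l L : ℕ} (h : Sep δ l L) (hδ : 0 ≤ δ) : 1 ≤ δ ^ 2 * L := by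
  have := mul_le_mul_of_nonneg_left h.2 hδ
  linarith [h.1]

theorem sep_pos {δ : ℝ} {l L : ℕ} (h : Sep δ l L) (hδ : 0 ≤ δ) : 1 ≤ l ∧ 1 ≤ L := by
  constructor
  · rcases Nat.eq_zero_or_pos l with rfl | hl
    · have := h.1; norm_num at this
    · exact hl
  · rcases Nat.eq_zero_or_pos L with rfl | hl
    · have := sep_sq h hδ; norm_num at this
    · exact hl

theorem VR_eq {Λ : Lat} (h : Λ.Ok) {l : ℕ} (hl : 1 ≤ l) :
    Λ.VR l l = Λ.tN l * (Λ.e0 * (l : ℝ) ^ 2) := by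
  have := e0_pos h
  have : (0 : ℝ) < l := by exact_mod_cast hl
  unfold Lat.tN
  rw [div_mul_cancel₀ _ (by positivity)]
  rfl

theorem zero_mem_rc {n₁ n₂ : ℕ} (h1 : 1 ≤ n₁) (h2 : 1 ≤ n₂) : (0 : Pt) ∈ rc 0 n₁ n₂ := by
  simp only [mem_rc, Prod.fst_zero, Prod.snd_zero]; omega

/-- a functional with a flow of energy `C L`, scaled by `t / L`, has a small variance -/
theorem small_vr (hB : BrStmt) {Λ : Lat} (h : Λ.Ok) {n₁ n₂ L : ℕ} (h1 : 1 ≤ n₁) (h2 : 1 ≤ n₂)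
    {ed : Finset (Pt × Pt)} (hed : ed ⊆ Λ.edI (rc 0 n₁ n₂)) {f : Pt → ℝ} {C t K δ : ℝ}
    (hf : F2 ed f (C * L)) (ht : |t| ≤ K) (hδ : 0 ≤ δ) (hL : 1 ≤ δ ^ 2 * L) :
    Real.sqrt (Vr (Λ.WR n₁ n₂) ((t / L) • pr f) ((t / L) • pr f)) ≤
      K * Real.sqrt (Λ.τ * |C|) * δ := by
  obtain ⟨hc, ha, -, -⟩ := hB.2.2.1 Λ 0 0 n₁ n₂ h (zero_mem_rc h1 h2)
  obtain ⟨φ, hφ, hn⟩ := hf
  have hv := (hB.2.1 Λ _ f (C * L) h hc ha ed hed (fun _ _ => rfl) ⟨φ, fun x _ => by rw [hφ], hn⟩).1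
  have hτ := h.pos
  have hK : 0 ≤ K := (abs_nonneg _).trans ht
  have hL0 : (0 : ℝ) < L := by
    rcases Nat.eq_zero_or_pos L with rfl | hl
    · norm_num at hL
    · exact_mod_cast hl
  rw [Real.sqrt_le_left (by positivity), Vr_smul_left, Vr_smul_right, ← mul_assoc, ← pow_two, mul_pow,
    mul_pow, Real.sq_sqrt (by positivity)]
  have e1 : (t / L) ^ 2 ≤ K ^ 2 / L ^ 2 := by
    rw [div_pow, ← sq_abs t]; gcongr
  have e2 : Vr (Λ.WR n₁ n₂) (pr f) (pr f) ≤ Λ.τ * (|C| * L) :=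
    hv.trans (by gcongr; exact le_abs_self _)
  have e3 : 1 / (L : ℝ) ≤ δ ^ 2 := by rw [div_le_iff₀ hL0]; exact hL
  calc _ ≤ (t / L) ^ 2 * (Λ.τ * (|C| * L)) := by gcongr
    _ ≤ K ^ 2 / L ^ 2 * (Λ.τ * (|C| * L)) := by gcongr
    _ = K ^ 2 * (Λ.τ * |C|) * (1 / L) := by field_simp
    _ ≤ _ := by gcongr

theorem arith {L y e0 e1 θ θ' δ t K C ε : ℝ} (hL : 0 < L) (hy : 0 ≤ y) (he0 : 0 < e0) (he : e0 ≤ e1)
    (θ0 : 0 ≤ θ') (θ1 : θ' ≤ 1) (hδ : 0 < δ) (hsq : 1 ≤ δ ^ 2 * L) (ht2 : t ^ 2 ≤ K ^ 2)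
    (hw : θ - θ' ≤ δ) (hδA : (2 * (K ^ 2 * e1) + 2 * K ^ 2 * |C| * Real.sqrt (6 * e1)) * δ ≤ ε)
    (k : Real.sqrt (θ' * (e0 * (2 * L) ^ 2)) ≤ Real.sqrt (2 * y) + C * Real.sqrt (2 * (2 * L + L))) :
    2 * (t ^ 2 * e0 * θ) - ε ≤ (t / L) ^ 2 * y := by
  have he1 := he0.trans_le he
  have k2 := sqrt_step (c := |C| * Real.sqrt (6 * L)) (y := 2 * y) (by positivity) (by positivity)
    (by positivity) (k.trans (by
      rw [show (2 : ℝ) * (2 * L + L) = 6 * L by ring]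
      gcongr
      exact le_abs_self _))
  have k3 : Real.sqrt (θ' * (e0 * (2 * L) ^ 2)) ≤ Real.sqrt e1 * (2 * L) := by
    rw [Real.sqrt_le_left (by positivity), mul_pow (Real.sqrt e1), Real.sq_sqrt he1.le]
    calc _ ≤ 1 * (e1 * (2 * L) ^ 2) := by gcongr
      _ = _ := one_mul _
  have k4 : Real.sqrt (6 * L) * Real.sqrt e1 ≤ Real.sqrt (6 * e1) * δ * L := by
    rw [← Real.sqrt_mul (by positivity), Real.sqrt_le_left (by positivity), mul_pow, mul_pow,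
      Real.sq_sqrt (by positivity)]
    nlinarith [mul_le_mul_of_nonneg_left hsq (by positivity : (0 : ℝ) ≤ 6 * e1 * L)]
  have k5 : 2 * (|C| * Real.sqrt (6 * L)) * Real.sqrt (θ' * (e0 * (2 * L) ^ 2)) ≤
      4 * |C| * (Real.sqrt (6 * e1) * δ * L) * L := by
    calc _ ≤ 2 * (|C| * Real.sqrt (6 * L)) * (Real.sqrt e1 * (2 * L)) := by gcongr
      _ = 4 * |C| * (Real.sqrt (6 * L) * Real.sqrt e1) * L := by ring
      _ ≤ _ := by gcongr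
  have k6 : (2 * (e0 * θ') - 2 * |C| * Real.sqrt (6 * e1) * δ) * L ^ 2 ≤ y := by linarith
  have k7 : t ^ 2 * (2 * (e0 * θ') - 2 * |C| * Real.sqrt (6 * e1) * δ) ≤ (t / L) ^ 2 * y := by
    calc _ = (t / L) ^ 2 * ((2 * (e0 * θ') - 2 * |C| * Real.sqrt (6 * e1) * δ) * L ^ 2) := by
          field_simp
      _ ≤ _ := by gcongr
  have k8 : t ^ 2 * e0 * (θ - θ') ≤ K ^ 2 * e1 * δ :=
    (mul_le_mul_of_nonneg_left hw (by positivity)).trans (by gcongr)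
  have k9 : t ^ 2 * (2 * |C| * Real.sqrt (6 * e1) * δ) ≤
      K ^ 2 * (2 * |C| * Real.sqrt (6 * e1) * δ) := by gcongr
  linarith

theorem ar5 {δ ε A : ℝ} (hA : 0 ≤ A) (h0 : 0 < δ) (h : δ ≤ ε / (A + 1)) : A * δ ≤ ε := by
  rw [le_div_iff₀ (by positivity)] at h
  nlinarith

/-- the tilt of the double rectangle is Gaussian -/
theorem gauss_R (hX : T1xStmt) (hA : T1aStmt) (hD : T1dStmt) (hF : AFacStmt) (hB : BrStmt)
    (F : Fa) (K ε : ℝ) (hK : 0 ≤ K) (hε : 0 < ε) : ∃ δ : ℝ, 0 < δ ∧ ∀ Λ, F.Mem Λ → ∀ l L,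
      Sep δ l L → Λ.tN l - Λ.tN (2 * L) ≤ δ → ∀ t : ℝ, |t| ≤ K →
        Ph (Λ.WR (2 * L) L) ((t / L) • pr (Λ.Au (rc 0 (2 * L) L) (co 0))) ≤
          Real.exp (-(t ^ 2 * Λ.e0 * Λ.tN l)) + ε := by
  have he1 := e0_pos (base_ok F)
  set e1 := (base F).e0
  obtain ⟨R, ε₁, hR, hε₁, hG⟩ := hF.2.2 (2 * (K ^ 2 * e1)) ε hε
  obtain ⟨δ₁, hδ₁, hx⟩ := hX F (R * K + 16) ε₁ hε₁
  obtain ⟨C, hd⟩ := hD.1 F
  obtain ⟨_, ha⟩ := hA F
  set A : ℝ := 2 * (K ^ 2 * e1) + 2 * K ^ 2 * |C| * Real.sqrt (6 * e1) with hAe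
  have hA0 : 0 ≤ A := by positivity
  refine ⟨min δ₁ (ε₁ / (A + 1)), by positivity, fun Λ hΛ l L hs hw t ht => ?_⟩
  set δ := min δ₁ (ε₁ / (A + 1)) with hδe
  have hδ : 0 < δ := by positivity
  have hδA : A * δ ≤ ε₁ := ar5 hA0 hδ (min_le_right _ _)
  have h := mem_ok hΛ
  have he0 := e0_pos h
  have he := e0_le hΛ
  obtain ⟨hl, hL⟩ := sep_pos hs hδ.le
  have hL0 : (0 : ℝ) < L := by exact_mod_cast hL
  have hsq := sep_sq hs hδ.le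
  obtain ⟨θ0, θ1, -⟩ := ha Λ hΛ l hl
  obtain ⟨θ0', θ1', -⟩ := ha Λ hΛ (2 * L) (by omega)
  have ht2 : t ^ 2 ≤ K ^ 2 := by rw [← sq_abs t]; gcongr
  have hte : t ^ 2 * Λ.e0 ≤ K ^ 2 * e1 := by gcongr
  have hamb := hB.2.2.1 Λ 0 0 (2 * L) L h (zero_mem_rc (by omega) hL)
  have hc : Cen (Λ.WR (2 * L) L) := Mdl.Ctr.cen hamb.1 hamb.2.1
  have := (hG (Cfg Pt) (Λ.WR (2 * L) L) ((t / L) • pr (Λ.Au (rc 0 (2 * L) L) (co 0))) 0
    (2 * (t ^ 2 * Λ.e0 * Λ.tN l)) hc ?_ (fun z hz => ?_) ?_ (fun z _ => ?_)).2.2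
  · rw [add_zero] at this
    have e : -(2 * (t ^ 2 * Λ.e0 * Λ.tN l)) / 2 = -(t ^ 2 * Λ.e0 * Λ.tN l) := by ring
    rw [e] at this
    linarith [(abs_le.1 this).2]
  · rw [abs_of_nonneg (by positivity)]
    have : t ^ 2 * Λ.e0 * Λ.tN l ≤ K ^ 2 * e1 * 1 := by gcongr
    linarith
  · have hreg : Reg (rc 0 (2 * L) L) (R * K + 16) l L := by
      obtain ⟨r1, r2⟩ := hB.2.2.2.2.2.1 0 (2 * L) L l L 2 (by norm_num) (by push_cast; rfl)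
        (by linarith)
      have : 4 * (2 : ℝ) ^ 2 ≤ R * K + 16 := by linarith [mul_nonneg hR.le hK]
      exact ⟨r1.trans (by gcongr), r2.trans (by gcongr)⟩
    have hzt : |z * t| ≤ R * K + 16 := by
      rw [abs_mul]; linarith [mul_le_mul hz ht (abs_nonneg _) hR.le]
    have := hx Λ hΛ l L (sep_mono hs (min_le_left _ _)) _ _ (fun x => z * t / L * co 0 x)
      (fun _ => 0) hamb hreg (sm2_co hL0 hzt) (fun _ _ => by rw [abs_zero]; positivity)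
    rw [dv_zero, pr_zero, add_zero, Au_smul, pr_smul, En_smul] at this
    have e : z • (t / L) • pr (Λ.Au (rc 0 (2 * L) L) (co 0)) =
        (z * t / L) • pr (Λ.Au (rc 0 (2 * L) L) (co 0)) := by
      rw [smul_smul, mul_div_assoc]
    rw [e]
    refine this.trans ?_
    have hE := En_le h (rc 0 (2 * L) L)
    rw [card_rc] at hE
    push_cast at hE
    have : Λ.tN l * ((z * t / L) ^ 2 * Λ.En (rc 0 (2 * L) L) (co 0) (co 0)) ≤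
        Λ.tN l * ((z * t / L) ^ 2 * (2 * L * L * Λ.e0)) := by gcongr
    have e2 : Λ.tN l * ((z * t / L) ^ 2 * (2 * L * L * Λ.e0)) =
        2 * (t ^ 2 * Λ.e0 * Λ.tN l) * z ^ 2 := by field_simp
    simp only [zero_mul, sum_const_zero, mul_zero, add_zero, ne_eq, OfNat.ofNat_ne_zero,
      not_false_eq_true, zero_pow]
    linarith
  · rw [Vr_smul_left, Vr_smul_right, ← mul_assoc (t / L : ℝ), ← pow_two]
    change _ ≤ (t / L) ^ 2 * Λ.VR (2 * L) L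
    have hy : 0 ≤ Λ.VR (2 * L) L := hc.wt.Vr_nonneg hc.se _
    have k := hd Λ hΛ (2 * L) L 1 2 (by omega) hL le_rfl (by norm_num)
    rw [one_mul, VR_eq h (by omega)] at k
    push_cast at k
    exact arith hL0 hy he0 he θ0' θ1' hδ hsq ht2 hw (hAe ▸ hδA) (by simpa using k)
  · rw [smul_zero, hc.wt.M_zero]; exact hε₁.le

theorem summable_gau1 : Summable (gau 1) :=
  (Fam.cen ⟨false, 1, one_pos, rfl⟩ : Cen (gau 1)).se.summable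

theorem exp_le_gau (p : ℤ) : Real.exp (-(2 * Real.pi * p) ^ 2 / (2 * 1)) ≤ gau 1 p := by
  unfold gau
  have : (1 : ℝ) ≤ (2 * Real.pi) ^ 2 := by nlinarith [Real.pi_gt_three]
  refine Real.exp_le_exp.2 (div_le_div_of_nonneg_right ?_ (by norm_num))
  rw [mul_pow]
  nlinarith [sq_nonneg (p : ℝ)]

/-- T2 for one model -/
theorem one (hTb : TbStmt) (hS : SprStmt) {Λ : Lat} (h : Λ.Ok) {L : ℕ} (hL : 1 ≤ L) (hc : Cen (Λ.WN L))
    {f : Pt → ℝ} (hf : Sup (sq 0 L) f) (h0 : ∑ x ∈ sq 0 L, f x = 0) {g Ψ : ℝ} (hg0 : 0 ≤ g)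
    (hg : g ≤ Ph (Λ.WN L) (pr f) ^ 2) (hgΨ : g ≤ Ψ)
    (hΨ : Ph (Λ.WR (2 * L) L) (pr fun x => f x + f (x - ((L : ℤ), 0))) ≤ Ψ) (q : ℤ) :
    Real.exp (-(2 * Real.pi * q) ^ 2 / (2 * 1)) * Real.exp (-Λ.τ * (2 * Real.pi * q) ^ 2 / (2 * L)) *
      (Ph (Λ.WN L) (pr f - (2 * Real.pi * q) • pr (sd L 0)) *
        Ph (Λ.WN L) (pr f + (2 * Real.pi * q) • pr (sd L 1)) - g * Λ.aq L q ^ 2) ^ 2 ≤
      2 * (Ψ - g) * ∑' p, gau 1 p := by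
  obtain ⟨t1, t2⟩ := hTb Λ L L 1 h hL hL one_pos
  have t3 := (t2 f f hf hf).2
  have h0' : ∑ x ∈ rc 0 L L, f x = 0 := h0
  simp only [h0', sub_zero] at t3
  obtain ⟨s1, -⟩ := hS Λ.xy Λ.τ 1 L h.pos one_pos hL
  set c : ℤ → ℝ := fun p => Real.exp (-(2 * Real.pi * p) ^ 2 / (2 * 1)) *
    chi Λ.w L (2 * Real.pi * p) with hce
  have c0 : ∀ p, 0 ≤ c p := fun p =>
    mul_nonneg (Real.exp_pos _).le ((Real.exp_pos _).le.trans (s1 _).1)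
  have c1 : ∀ p, c p ≤ gau 1 p := fun p =>
    (mul_le_of_le_one_right (Real.exp_pos _).le (s1 _).2.1).trans (exp_le_gau p)
  have cs : Summable c := Summable.of_nonneg_of_le c0 c1 summable_gau1
  have p0 : ∀ ξ, 0 ≤ Ph (Λ.WN L) ξ := fun ξ => (hc.ph_pos ξ).le
  have p1 : ∀ ξ, Ph (Λ.WN L) ξ ≤ 1 := fun ξ => (abs_le.1 (hc.wt.abs_Ph_le ξ)).2
  have a1 : ∀ p, Λ.aq L p ^ 2 ≤ 1 := fun p => pow_le_one₀ (p0 _) (p1 _)
  have hD0 : 0 ≤ ∑' p, c p * Λ.aq L p ^ 2 := tsum_nonneg fun p => mul_nonneg (c0 p) (sq_nonneg _)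
  have hD1 : ∑' p, c p * Λ.aq L p ^ 2 ≤ ∑' p, gau 1 p :=
    Summable.tsum_le_tsum (fun p => (mul_le_of_le_one_right (c0 p) (a1 p)).trans (c1 p))
      (Summable.of_nonneg_of_le (fun p => mul_nonneg (c0 p) (sq_nonneg _))
        (fun p => mul_le_of_le_one_right (c0 p) (a1 p)) cs) summable_gau1
  have key := core (c := c) (a := Λ.aq L) (g := g) (Ψ := Ψ)
    (P := fun p => Ph (Λ.WN L) (pr f - (2 * Real.pi * p) • pr (sd L 0)) *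
      Ph (Λ.WN L) (pr f + (2 * Real.pi * p) • pr (sd L 1))) c0 (fun p => ?_) cs a1
    (fun p => mul_nonneg (p0 _) (p0 _)) (fun p => mul_le_one₀ (p1 _) (p0 _) (p1 _)) (fun p => ?_)
    (t3.trans (mul_le_mul_of_nonneg_right hΨ hD0)) q
  · refine le_trans ?_ (key.trans (by gcongr))
    gcongr
    exact mul_le_mul_of_nonneg_left (s1 _).1 (Real.exp_pos _).le
  · simp only [hce, Int.cast_neg, mul_neg, neg_sq]
    rw [show chi Λ.w L (-(2 * Real.pi * p)) = chi Λ.w L (2 * Real.pi * p) from (s1 _).2.2]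
  · have e1 := hc.ph_par (pr f) ((2 * Real.pi * p) • pr (sd L 0))
    have e2 := hc.ph_par (pr f) ((2 * Real.pi * p) • pr (sd L 1))
    have e3 : Ph (Λ.WN L) ((2 * Real.pi * p) • pr (sd L 1)) = Λ.aq L p := t1 _ ⟨p, rfl⟩
    rw [e3] at e2
    change _ * Λ.aq L p ^ 2 ≤ _ at e1
    simp only [Int.cast_neg, mul_neg, neg_smul, sub_neg_eq_add, ← sub_eq_add_neg]
    have e4 : g * Λ.aq L p ^ 2 ≤ Ph (Λ.WN L) (pr f) ^ 2 * Λ.aq L p ^ 2 := by gcongr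
    have e5 := mul_le_mul (e4.trans e1) (e4.trans e2) (by positivity) (mul_nonneg (p0 _) (p0 _))
    calc _ = g * Λ.aq L p ^ 2 * (g * Λ.aq L p ^ 2) := pow_two _
      _ ≤ _ := e5
      _ = _ := by ring

theorem ar1 {a b e : ℝ} (ha : 0 ≤ a) (hb : b ≤ e) (he : 0 ≤ e) :
    Real.exp (-a) ≤ Real.exp (-a) * Real.exp (-b) + e := by
  have j1 : Real.exp (-a) ≤ 1 := Real.exp_le_one_iff.2 (neg_nonpos.2 ha)
  have j2 := Real.add_one_le_exp (-b)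
  have j4 := Real.exp_pos (-a)
  nlinarith

theorem ar2 {γ ε a g P : ℝ} (hγ : 0 < γ) (k2 : ε ^ 2 ≤ a ^ 2) (hg : g ≤ 1 - γ)
    (k1 : a ^ 2 - 2 * (γ * ε ^ 2 / 4) ≤ P) : γ * ε ^ 2 / 2 ≤ P - g * a ^ 2 := by
  nlinarith [mul_le_mul_of_nonneg_left k2 hγ.le, mul_le_mul_of_nonneg_right hg (sq_nonneg a)]

theorem ar3 {q : ℤ} (hq : q ≠ 0) : (2 * Real.pi) ^ 2 ≤ (2 * Real.pi * q) ^ 2 := by
  have : (1 : ℝ) ≤ (q : ℝ) ^ 2 := by
    have : 1 ≤ q ^ 2 := by nlinarith [Int.one_le_abs hq, sq_abs q]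
    exact_mod_cast this
  rw [mul_pow _ (q : ℝ)]; nlinarith [sq_nonneg (2 * Real.pi)]

theorem ar4 {τ T a : ℝ} (h0 : 0 < τ) (h : τ ≤ T) (ha : 1 ≤ a) : 1 / (a / τ) ≤ T := by
  rw [one_div_div, div_le_iff₀ (by linarith)]
  nlinarith

end T289

set_option maxHeartbeats 800000 in
open T289 in
theorem t2Stmt (hTb : TbStmt) (hX : T1xStmt) (hA : T1aStmt) (hD : T1dStmt) (hM : T1mStmt)
    (hR : R2Stmt) (hF : AFacStmt) (hB : BrStmt) (hS : SprStmt) : T2Stmt := by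
  intro F θ₀ K ε hθ hK hε
  have hb := base_ok F
  have hτ₁ := F.pos
  have hπ := Real.pi_pos
  have ha1 := hb.one_le_a
  set T : ℝ := |F.τ₂| + 1 with hT
  have hT0 : 0 < T := by positivity
  set γ : ℝ := 1 - Real.exp (-((2 * Real.pi) ^ 2 / (base F).e0 * θ₀)) with hγ
  have hγ0 : 0 < γ := by
    have := e0_pos hb
    rw [hγ, sub_pos, Real.exp_lt_one_iff, neg_lt_zero]; positivity
  set cm : ℝ := Real.exp (-(2 * Real.pi * K) ^ 2 / (2 * 1)) *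
    Real.exp (-T * (2 * Real.pi * K) ^ 2 / 2) with hcm
  have hcm0 : 0 < cm := by positivity
  set D0 : ℝ := ∑' p, gau 1 p with hD0
  have hD0p : 0 < D0 := summable_gau1.tsum_pos (fun p => (gau_pos _ _).le) 0 (gau_pos _ _)
  set ε₃ : ℝ := cm * (γ * ε ^ 2 / 2) ^ 2 / (12 * D0) with hε₃
  have hε₃0 : 0 < ε₃ := by positivity
  set t₁ : ℝ := 2 * Real.pi * K * T with ht₁
  set κ₁ : ℝ := (2 * Real.pi * K) ^ 2 * T with hκ₁
  have hκ₁0 : 0 < κ₁ := by positivity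
  obtain ⟨δ₁, hδ₁, h1⟩ := gauss_R hX hA hD hF hB F t₁ ε₃ (by positivity) hε₃0
  obtain ⟨δ₂, hδ₂, h2⟩ := hM.2.1 F (ε₃ / κ₁) (by positivity)
  obtain ⟨C₂, h3⟩ := hR F
  obtain ⟨_, h4⟩ := hA F
  set C₃ : ℝ := 4 * ((base F).rg : ℝ) ^ 3 * (base F).Jp.card / F.τ₁ ^ 2 with hC₃
  set A₂ : ℝ := t₁ * Real.sqrt (T * |C₂|) + 1 with hA₂
  set A₃ : ℝ := t₁ * Real.sqrt (T * |C₃|) + 1 with hA₃
  refine ⟨min (min δ₁ δ₂) (min (γ * ε ^ 2 / 4 / A₂) (ε₃ / A₃)), by positivity,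
    fun Λ hΛ l L hW q hq hqK => ?_⟩
  set δ := min (min δ₁ δ₂) (min (γ * ε ^ 2 / 4 / A₂) (ε₃ / A₃)) with hδe
  have hδ : 0 < δ := by positivity
  have d1 : δ ≤ δ₁ := (min_le_left _ _).trans (min_le_left _ _)
  have d2 : δ ≤ δ₂ := (min_le_left _ _).trans (min_le_right _ _)
  have d3 : A₂ * δ ≤ γ * ε ^ 2 / 4 := by
    rw [mul_comm, ← le_div_iff₀ (by positivity)]
    exact (min_le_right _ _).trans (min_le_left _ _)
  have d4 : A₃ * δ ≤ ε₃ := by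
    rw [mul_comm, ← le_div_iff₀ (by positivity)]
    exact (min_le_right _ _).trans (min_le_right _ _)
  obtain ⟨-, hs, hθ', hw⟩ := hW
  have h := mem_ok hΛ
  have hτ := h.pos
  have hτT : Λ.τ ≤ T := by linarith [hΛ.2.2.2, le_abs_self F.τ₂]
  have he0 := e0_pos h
  obtain ⟨hl, hL⟩ := sep_pos hs hδ.le
  have hL1 : (1 : ℝ) ≤ L := by exact_mod_cast hL
  have hsq := sep_sq hs hδ.le
  have hc : Cen (Λ.WN L) := h.cen_Nr (self_mem_sq _ hL)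
  have hamb := hB.2.2.1 Λ 0 0 (2 * L) L h (zero_mem_rc (by omega) hL)
  have hcR : Cen (Λ.WR (2 * L) L) := Mdl.Ctr.cen hamb.1 hamb.2.1
  set ξ : ℝ := 2 * Real.pi * q with hξ
  have hξK : |ξ| ≤ 2 * Real.pi * K := by
    rw [hξ, abs_mul, abs_of_pos (by positivity)]; gcongr
  have hξ2 : ξ ^ 2 ≤ (2 * Real.pi * K) ^ 2 := by rw [← sq_abs ξ]; gcongr
  have hξ1 : (2 * Real.pi) ^ 2 ≤ ξ ^ 2 := ar3 hq
  have hie : 1 / Λ.e0 ≤ T := ar4 hτ hτT h.one_le_a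
  set t : ℝ := ξ / Λ.e0 with hte
  have ht : |t| ≤ t₁ := by
    rw [hte, abs_div, abs_of_pos he0, div_eq_mul_one_div]
    exact mul_le_mul hξK hie (by positivity) (by positivity)
  have hκ : t ^ 2 * Λ.e0 = ξ ^ 2 / Λ.e0 := by rw [hte]; field_simp
  have hκu : ξ ^ 2 / Λ.e0 ≤ κ₁ := by
    rw [div_eq_mul_one_div]
    exact mul_le_mul hξ2 hie (by positivity) (by positivity)
  have hκl : (2 * Real.pi) ^ 2 / (base F).e0 ≤ ξ ^ 2 / Λ.e0 := by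
    gcongr; exact e0_le hΛ
  have m1 := (h2 Λ hΛ).1 l L (sep_mono hs d2)
  have m2 := (h2 Λ hΛ).1 l (2 * L) (sep_two (sep_mono hs d2) hδ₂.le)
  obtain ⟨θ0, -⟩ := h4 Λ hΛ l hl
  set g : ℝ := Real.exp (-(ξ ^ 2 / Λ.e0 * (Λ.tN l + ε₃ / κ₁))) with hg
  have hgγ : g ≤ 1 - γ := by
    rw [hγ, sub_sub_cancel, hg]
    gcongr
    linarith
  set f : Pt → ℝ := (t / L) • Λ.Au (sq 0 L) (co 0) with hf
  have hpf : pr f = (t / L) • pr (Λ.Au (sq 0 L) (co 0)) := pr_smul _ _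
  -- the sides
  have hside := small_vr hB h hL hL subset_rfl (h3 Λ hΛ L hL).1 ht hδ.le hsq
  set ν := (t / L) • pr (Λ.Au (sq 0 L) (co 0) - (Λ.e0 * L) • (sd L 0 - sd L 1)) with hν
  have hνe : pr f = ξ • pr (sd L 0) - ξ • pr (sd L 1) + ν := by
    have : ξ = t / L * (Λ.e0 * L) := by rw [hte]; field_simp
    rw [hν, hpf, pr_sub, pr_smul, pr_sub, smul_sub, smul_smul, ← this, smul_sub]; abel
  have hη : Real.sqrt (Vr (Λ.WN L) ν ν) ≤ γ * ε ^ 2 / 4 := by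
    refine hside.trans (le_trans ?_ d3)
    gcongr
    rw [hA₂]
    have : t₁ * Real.sqrt (Λ.τ * |C₂|) ≤ t₁ * Real.sqrt (T * |C₂|) := by gcongr
    linarith
  have e3 : Ph (Λ.WN L) (ξ • pr (sd L 1)) = Λ.aq L q := (hTb Λ L L 1 h hL hL one_pos).1 _ ⟨q, rfl⟩
  have b1 : Λ.aq L q - γ * ε ^ 2 / 4 ≤ Ph (Λ.WN L) (pr f - ξ • pr (sd L 0)) := by
    have := (hF.2.1 _ (Λ.WN L) 0 (-(ξ • pr (sd L 1))) ν hc).2.2
    rw [Ph_neg, e3, show -(ξ • pr (sd L 1)) + ν = pr f - ξ • pr (sd L 0) by rw [hνe]; abel] at this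
    linarith [(abs_le.1 this).1]
  have b2 : Λ.aq L q - γ * ε ^ 2 / 4 ≤ Ph (Λ.WN L) (pr f + ξ • pr (sd L 1)) := by
    have := (hF.2.1 _ (Λ.WN L) 0 (ξ • pr (sd L 0)) ν hc).2.2
    rw [show ξ • pr (sd L 0) + ν = pr f + ξ • pr (sd L 1) by rw [hνe]; abel] at this
    change |_ - Λ.aq L q| ≤ _ at this
    linarith [(abs_le.1 this).1]
  -- the seam
  have hC : F2 (cr Λ L L) (dv (cr Λ L L) fun e => (co 0 e.2 - co 0 e.1) / Λ.τ) (C₃ * L) := by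
    refine ⟨_, rfl, (seam_sq h L L).trans ?_⟩
    rw [hC₃, mem_rg hΛ, mem_Jp hΛ]
    gcongr
    exact hΛ.2.2.1
  have hseam := small_vr hB h (by omega : 1 ≤ 2 * L) hL (Finset.filter_subset _ _) hC ht hδ.le hsq
  have hΨ : Ph (Λ.WR (2 * L) L) (pr fun x => f x + f (x - ((L : ℤ), 0))) ≤ g + 3 * ε₃ := by
    have k1 := h1 Λ hΛ l L (sep_mono hs d1) (hw.trans d1) t ht
    have k2 := (hF.2.1 _ (Λ.WR (2 * L) L) 0 (pr fun x => f x + f (x - ((L : ℤ), 0)))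
      ((t / L) • pr (dv (cr Λ L L) fun e => (co 0 e.2 - co 0 e.1) / Λ.τ)) hcR).2.2
    have k3 : (pr fun x => f x + f (x - ((L : ℤ), 0))) +
        (t / L) • pr (dv (cr Λ L L) fun e => (co 0 e.2 - co 0 e.1) / Λ.τ) =
        (t / L) • pr (Λ.Au (rc 0 (2 * L) L) (co 0)) := by
      rw [seam_eq, pr_add, smul_add, ← pr_smul _ fun x => _ + _]
      congr 2
      ext x
      simp only [hf, Pi.smul_apply, smul_eq_mul, mul_add]
      rfl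
    rw [k3] at k2
    have k4 : t₁ * Real.sqrt (Λ.τ * |C₃|) * δ ≤ ε₃ := by
      refine le_trans ?_ d4
      gcongr
      rw [hA₃]
      have : t₁ * Real.sqrt (Λ.τ * |C₃|) ≤ t₁ * Real.sqrt (T * |C₃|) := by gcongr
      linarith
    have k5 : Real.exp (-(t ^ 2 * Λ.e0 * Λ.tN l)) ≤ g + ε₃ := by
      rw [hκ, hg, mul_add, neg_add, Real.exp_add]
      refine ar1 (by positivity) ?_ hε₃0.le
      calc _ ≤ κ₁ * (ε₃ / κ₁) := by gcongr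
        _ = _ := by field_simp
    linarith [(abs_le.1 k2).1]
  have hgP : g ≤ Ph (Λ.WN L) (pr f) ^ 2 := by
    have k1 := hc.ph_ge (pr f)
    have k2 : Vr (Λ.WN L) (pr f) (pr f) = ξ ^ 2 / Λ.e0 * Λ.tN L := by
      rw [hpf, Vr_smul_left, Vr_smul_right, ← hκ]
      change _ * (_ * Λ.VR L L) = _
      rw [VR_eq h hL]; field_simp
    rw [k2] at k1
    refine le_trans ?_ (pow_le_pow_left₀ (Real.exp_pos _).le k1 2)
    rw [← Real.exp_nat_mul, hg]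
    gcongr
    have : ξ ^ 2 / Λ.e0 * Λ.tN L ≤ ξ ^ 2 / Λ.e0 * (Λ.tN l + ε₃ / κ₁) := by gcongr
    push_cast
    linarith
  have key := one hTb hS h hL hc (f := f)
    (fun x hx => by rw [hf, Pi.smul_apply, Lat.Au, sup_dv _ _ x hx, smul_zero])
    (by simp only [hf, Pi.smul_apply, smul_eq_mul, ← Finset.mul_sum, Lat.Au, sum_dv, mul_zero])
    (Real.exp_pos _).le hgP (by linarith) hΨ q
  by_contra hcon
  rw [not_le] at hcon
  have a1 : Λ.aq L q ≤ 1 := (abs_le.1 (hc.wt.abs_Ph_le _)).2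
  have k1 := prod_ge (hc.ph_pos _).le (hc.ph_pos _).le (hε.le.trans hcon.le) a1 (by positivity) b1 b2
  have k2 : ε ^ 2 ≤ Λ.aq L q ^ 2 := by gcongr
  have k3 : γ * ε ^ 2 / 2 ≤ Ph (Λ.WN L) (pr f - ξ • pr (sd L 0)) *
      Ph (Λ.WN L) (pr f + ξ • pr (sd L 1)) - g * Λ.aq L q ^ 2 := ar2 hγ0 k2 hgγ k1
  have k4 : cm ≤ Real.exp (-ξ ^ 2 / (2 * 1)) * Real.exp (-Λ.τ * ξ ^ 2 / (2 * L)) := by
    rw [hcm]
    gcongr Real.exp (-?_ / _) * Real.exp ?_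
    rw [neg_mul, neg_mul, neg_div, neg_div, neg_le_neg_iff]
    gcongr
    linarith
  have k5 : cm * (γ * ε ^ 2 / 2) ^ 2 ≤ 2 * (g + 3 * ε₃ - g) * D0 := le_trans (by gcongr) key
  have k6 : 2 * (g + 3 * ε₃ - g) * D0 = cm * (γ * ε ^ 2 / 2) ^ 2 / 2 := by
    rw [add_sub_cancel_left, hε₃]; field_simp; ring
  have k7 : 0 < cm * (γ * ε ^ 2 / 2) ^ 2 := by positivity
  linarith

end Crest.Agent.T145
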