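import Crest.Agent.T145.T3A_84

/-!
# Row 145 (b): `T3Stmt` from T3a, T3b, Cramér–Rao (helper84)
-/

set_option autoImplicit false

namespace Crest.Agent.T145
namespace T84

open Finset

theorem En_sub_const (Λ : Lat) (B : Finset Pt) (u : Pt → ℝ) (c : ℝ) :
    Λ.En B (fun x => u x - c) (fun x => u x - c) = Λ.En B u u :=
  sum_congr rfl fun e _ => by ring

theorem Au_sub_const (Λ : Lat) (B : Finset Pt) (u : Pt → ℝ) (c : ℝ) :
    Λ.Au B (fun x => u x - c) = Λ.Au B u := by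
  unfold Lat.Au; congr 1; funext e; ring

theorem Sm2.sub_const {u : Pt → ℝ} {K L : ℝ} (h : Sm2 u K L) (c : ℝ) :
    Sm2 (fun x => u x - c) K L := by
  have : ∀ i, df i (fun x => u x - c) = df i u := fun i => funext fun x => by simp [df]
  exact ⟨fun i x => by rw [this]; exact h.1 i x, fun i j x => by rw [this]; exact h.2 i j x⟩

theorem sm2_const (c : ℝ) {K L : ℝ} (hK : 0 ≤ K) (hL : 0 ≤ L) : Sm2 (fun _ => c) K L :=
  ⟨fun i x => by simp only [df, sub_self, abs_zero]; positivity,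
    fun i j x => by simp only [df, sub_self, abs_zero]; positivity⟩

theorem co_add (i : Fin 2) (x y : Pt) : co i (x + y) = co i x + co i y := by
  fin_cases i <;> simp [co]

theorem sm2_co (i : Fin 2) {K L : ℝ} (hK : 1 ≤ K) (hL : 0 < L) :
    Sm2 (fun x => co i x / L) K L := by
  have h : ∀ j, df j (fun x => co i x / L) = fun _ => co i (ev j) / L := fun j =>
    funext fun x => by simp only [df, co_add]; ring
  refine ⟨fun j x => ?_, fun j k x => ?_⟩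
  · rw [h, abs_div, abs_of_pos hL]
    gcongr
    refine le_trans ?_ hK
    fin_cases i <;> fin_cases j <;> simp [co, ev]
  · rw [h]; simp only [df, sub_self, abs_zero]; positivity

theorem co_le (i : Fin 2) {L : ℕ} {x : Pt} (hx : x ∈ sq 0 L) : |co i x / L| ≤ 1 := by
  rw [mem_sq] at hx
  simp only [Prod.fst_zero, Prod.snd_zero, zero_add] at hx
  have hL : (0 : ℝ) < L := by
    have : (0 : ℤ) < L := by omega
    exact_mod_cast this
  rw [abs_div, abs_of_pos hL, div_le_one hL]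
  have h1 : |x.1| ≤ L := by rw [abs_le]; omega
  have h2 : |x.2| ≤ L := by rw [abs_le]; omega
  fin_cases i
  · show |(x.1 : ℝ)| ≤ L; exact_mod_cast h1
  · show |(x.2 : ℝ)| ≤ L; exact_mod_cast h2

theorem En_co {Λ : Lat} (h : Λ.Ok) (i : Fin 2) {L : ℕ} (hL : 1 ≤ L) :
    Λ.En (sq 0 L) (fun x => co i x / L) (fun x => co i x / L) ≤ Λ.e0 := by
  have hL0 : (0 : ℝ) < L := by exact_mod_cast hL
  have hτ := h.pos
  have ha : Λ.a = ∑ y ∈ Λ.Jp, co i y ^ 2 := by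
    fin_cases i
    · simp [co, Lat.a]
    · simpa [co] using h.a_eq_snd
  rw [Lat.En, Lat.sum_edI, Lat.e0, ha, sum_div]
  refine sum_le_sum fun y _ => ?_
  have e : ∀ x : Pt, (co i (x + y) / L - co i x / L) * (co i (x + y) / L - co i x / L) / Λ.τ =
      co i y ^ 2 / Λ.τ / (L : ℝ) ^ 2 := fun x => by rw [co_add]; field_simp; ring
  simp only [e, sum_const, nsmul_eq_mul]
  have hc : (((sq (0 : Pt) L).filter fun x => x + y ∈ sq 0 L).card : ℝ) ≤ (L : ℝ) ^ 2 := by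
    have := card_filter_le (sq (0 : Pt) L) fun x => x + y ∈ sq 0 L
    rw [card_sq] at this
    exact_mod_cast this
  calc _ ≤ (L : ℝ) ^ 2 * (co i y ^ 2 / Λ.τ / (L : ℝ) ^ 2) := by gcongr
    _ = _ := by field_simp

theorem X_div (Λ : Lat) (L : ℕ) (u : Pt → ℝ) (c : ℝ) :
    Λ.X L (fun x => u x / c) = c⁻¹ • Λ.X L u := by
  rw [Lat.X, Lat.X, ← pr_smul]
  congr 1
  funext x
  simp only [Lat.Au, dv, Pi.smul_apply, smul_eq_mul, mul_sum]
  exact sum_congr rfl fun e _ => by ring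

theorem Au_zero {Λ : Lat} {B : Finset Pt} {u : Pt → ℝ} {x : Pt} (h : ∀ y ∈ bl x Λ.rg, u y = 0) :
    Λ.Au B u x = 0 := by
  refine sum_eq_zero fun e he => ?_
  have he' := (Lat.mem_edI.1 he).1
  have hx := h x (self_mem_bl _ _)
  dsimp only
  by_cases h1 : e.1 = x
  · rw [h e.2 (h1 ▸ Lat.edge_near he'), h1, hx]; simp
  · by_cases h2 : e.2 = x
    · rw [h e.1 (h2 ▸ Lat.edge_near' he'), h2, hx]; simp
    · simp [ind, h1, h2]

theorem cr_alg {E θ e Q : ℝ} (hE : 0 ≤ E) (hθ : 0 < θ) (he : 0 < e) (h : E ^ 2 ≤ (θ * E + e) * Q) :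
    E / θ - e / θ ^ 2 ≤ Q := by
  have h1 : 0 < θ * E + e := by positivity
  have h2 : (θ * E + e) * (E / θ - e / θ ^ 2) = E ^ 2 - (e / θ) ^ 2 := by field_simp; ring
  refine le_of_mul_le_mul_left ?_ h1
  rw [h2]; linarith [sq_nonneg (e / θ)]

theorem t3_alg {E B θ V e p Vf n Q ε : ℝ} (hE : 0 ≤ E) (hB : E ≤ B) (hθ : 0 < θ) (hθ1 : θ ≤ 1)
    (hV : 0 ≤ V) (he : 0 < e) (he1 : e ≤ 1) (hVf : 0 ≤ Vf)
    (hp : |p - E| ≤ e) (h1 : Real.sqrt Vf ≤ Real.sqrt V + e) (hn : n ≤ e) (hQ0 : 0 ≤ Q)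
    (hQ : Q ≤ E / θ + e) (h : p ^ 2 ≤ (Vf + n) * Q) (hε : 0 < ε)
    (h2 : e * (2 * B + 4) ≤ ε / 2) (h3 : 3 * B * e < ε ^ 2 / 2) : θ * E - ε ≤ V := by
  by_contra hc
  push Not at hc
  have hθE : θ * E ≤ E := by nlinarith
  have hVB : Real.sqrt V ≤ B + 1 := Real.sqrt_le_iff.2 ⟨by linarith, by nlinarith⟩
  have h4 : Vf ≤ V + 2 * e * (B + 1) + e := by
    have := pow_le_pow_left₀ (Real.sqrt_nonneg _) h1 2
    rw [Real.sq_sqrt hVf] at this
    nlinarith [Real.sq_sqrt hV, Real.sqrt_nonneg V]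
  have h5 : Vf + n ≤ θ * E - ε / 2 := by nlinarith
  have h6 : p ^ 2 ≤ (θ * E - ε / 2) * (E / θ + e) :=
    h.trans (mul_le_mul h5 hQ hQ0 (by linarith))
  have h7 : (θ * E - ε / 2) * (E / θ + e) = E ^ 2 + θ * E * e - ε / 2 * (E / θ) - ε / 2 * e := by
    field_simp; ring
  have h8 : E ≤ E / θ := by rw [le_div_iff₀ hθ]; linarith
  have h9 : E ^ 2 - 2 * e * E ≤ p ^ 2 := by
    obtain ⟨h10, h11⟩ := abs_le.1 hp
    nlinarith [sq_nonneg (p - E)]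
  have h10 : ε ≤ E := by linarith
  have h11 : θ * E * e ≤ B * e := by gcongr; linarith
  have h12 : ε / 2 * ε ≤ ε / 2 * (E / θ) := by gcongr; linarith
  have h13 : e * E ≤ e * B := by gcongr
  nlinarith

/-- the lower bound hypothesis of T3b -/
theorem low (hJ : JStmt) (hx : T1xStmt) (hB : BrStmt) (hM : T1mStmt) (hR : RJStmt) (F : Fa)
    {θ₀ K ε : ℝ} (h0 : 0 < θ₀) (hK : 1 ≤ K) (hε : 0 < ε) : ∃ W₀ δ : ℝ, 0 < δ ∧ ∀ W, W₀ ≤ W → 0 < W →
      ∀ Λ, F.Mem Λ → ∀ l L, Λ.Win θ₀ δ l L → ∀ m : Pt → ℝ, Sm2 m K L →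
        (∀ x, m x ≠ 0 → bl x ⌊(L : ℝ) / K⌋₊ ⊆ sq 0 L) →
        Λ.e0 / Λ.tN l * nnL.En (sq 0 L) m m - ε ≤ qf (Λ.Jm L ((W / L) ^ 2)) m := by
  obtain ⟨C, hC0, hC⟩ := En_le hR F
  set t : ℝ := θ₀ / 2 with ht
  have ht0 : 0 < t := by positivity
  set e : ℝ := ε * t ^ 2 / 6 with he
  have he0 : 0 < e := by positivity
  obtain ⟨δ₁, hδ₁, hX⟩ := hx F (4 * K) e he0
  obtain ⟨δ₂, hδ₂, hT⟩ := hM.2.2 F θ₀ 1 0 h0 one_pos
  set r : ℕ := ProbabilityR.HeightModel.interactionRange F.J with hr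
  set M₀ : ℝ := 1 + 2 * r * K + 2 * C * K ^ 2 / (t * ε) with hM₀
  have hM₁ : 1 ≤ M₀ := by
    have : 0 ≤ 2 * r * K + 2 * C * K ^ 2 / (t * ε) := by positivity
    linarith
  refine ⟨C * K / Real.sqrt e, min (min δ₁ δ₂) (1 / M₀), by positivity,
    fun W hW hW0 Λ hΛ l L hWin m hm hs => ?_⟩
  have hΛo := ok_of hΛ
  have hτ := hΛo.pos
  have hθ : t ≤ Λ.tN l :=
    (hT Λ hΛ l L (Win.mono hWin ((min_le_left _ _).trans (min_le_right _ _)))).2.1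
  have hθ0 : 0 < Λ.tN l := ht0.trans_le hθ
  have hLge : M₀ ≤ L := Sep.le (Sep.mono hWin.2.1 (min_le_right _ _)) (by positivity)
    (by rw [div_le_one (by positivity)]; exact hM₁) (by field_simp; rfl)
  have hL1' : (1 : ℝ) ≤ L := hM₁.trans hLge
  have hL1 : 1 ≤ L := by exact_mod_cast hL1'
  have hL0 : (0 : ℝ) < L := by linarith
  obtain ⟨-, hE2, hE3⟩ := hC Λ hΛ L hL1 m K hm
  have hE0 := En_nonneg hΛo (sq 0 L) m
  have hμ0 : 0 < (W / L) ^ 2 := by positivity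
  obtain ⟨hKer, hb, -⟩ := hJ Λ L _ hΛo hL1 hμ0
  have h1 := hb (Λ.Au (sq 0 L) m) m (sum_Au _ _ _)
  rw [ip_Au] at h1
  have hReg : Reg (sq 0 L) (4 * K) l L := by
    have := hB.2.2.2.2.2.1 0 L L l L 1 le_rfl (by simp) (by simp)
    exact ⟨this.1.trans (by gcongr; linarith), this.2.trans (by gcongr; linarith)⟩
  have h2 := hX Λ hΛ l L (Sep.mono hWin.2.1 ((min_le_left _ _).trans (min_le_left _ _)))
    (Λ.Nr (sq 0 L) 0) (sq 0 L) m 0 (hB.2.2.1 Λ 0 0 L L hΛo (self_mem_sq 0 hL1)) hReg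
    (Sm2.mono hm (by linarith) hL0.le) (fun e _ => by simp only [Pi.zero_apply, abs_zero]; positivity)
  have hdv : dv (Λ.edI (sq 0 L)) 0 = 0 := funext fun x => by simp [dv]
  simp only [hdv, pr_zero, add_zero, Pi.zero_apply, zero_mul, sum_const_zero, mul_zero, ne_eq,
    OfNat.ofNat_ne_zero, not_false_eq_true, zero_pow] at h2
  have h3 := (cen_WN hΛo hL1).vr_le_M (pr (Λ.Au (sq 0 L) m))
  have h4 : ∀ x ∈ sq (0 : Pt) L, |Λ.Au (sq 0 L) m x| ≤ C * K / (L : ℝ) ^ 2 := fun x _ => by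
    by_cases h5 : ∀ y ∈ bl x Λ.rg, m y = 0
    · rw [Au_zero h5, abs_zero]; positivity
    · push Not at h5
      obtain ⟨y, hy, hy0⟩ := h5
      refine hE3 x (Subset.trans (bl_subset_bl (mem_bl_comm.1 hy) ?_) (hs y hy0))
      have hrg : Λ.rg = r := by rw [hr, Lat.rg, hΛ.1]
      refine Nat.le_floor ?_
      rw [le_div_iff₀ (by linarith), hrg]
      push_cast
      have : 0 ≤ 2 * C * K ^ 2 / (t * ε) := by positivity
      linarith
  have h5 : ip (sq 0 L) (Λ.Au (sq 0 L) m) (Λ.Au (sq 0 L) m) / (W / L) ^ 2 ≤ e := by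
    have h6 := ip_le h4
    rw [card_sq] at h6
    push_cast at h6
    have h7 : C * K ≤ W * Real.sqrt e := (div_le_iff₀ (Real.sqrt_pos.2 he0)).1 hW
    have h8 : (C * K) ^ 2 ≤ W ^ 2 * e := by
      have := pow_le_pow_left₀ (by positivity) h7 2
      rwa [mul_pow W, Real.sq_sqrt he0.le] at this
    rw [div_le_iff₀ hμ0]
    refine h6.trans ?_
    rw [show (L : ℝ) ^ 2 * (C * K / (L : ℝ) ^ 2) ^ 2 = (C * K) ^ 2 / (L : ℝ) ^ 2 by field_simp,
      show e * (W / L) ^ 2 = W ^ 2 * e / (L : ℝ) ^ 2 by field_simp]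
    gcongr
  set θ := Λ.tN l
  set E := Λ.En (sq 0 L) m m
  have h6 : E ^ 2 ≤ (θ * E + 3 * e) * qf (Λ.Jm L ((W / L) ^ 2)) m :=
    h1.trans (mul_le_mul_of_nonneg_right (by unfold Lat.WN at h3 ⊢; linarith) (hKer.2.2 _).1)
  have h7 := cr_alg hE0 hθ0 (by positivity) h6
  have h8 : 3 * e / θ ^ 2 ≤ ε / 2 := by
    rw [div_le_iff₀ (by positivity), he]
    have : t ^ 2 ≤ θ ^ 2 := by gcongr
    nlinarith
  have h9 : C * K ^ 2 / L / θ ≤ ε / 2 := by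
    have h10 : 2 * C * K ^ 2 / (t * ε) ≤ L := by
      have : 0 ≤ 2 * r * K := by positivity
      linarith
    rw [div_le_iff₀ (by positivity)] at h10
    rw [div_le_iff₀ hθ0, div_le_iff₀ hL0]
    have : (L : ℝ) * (t * ε) ≤ L * (θ * ε) := by gcongr
    linarith
  have h10 : Λ.e0 / θ * nnL.En (sq 0 L) m m ≤ E / θ + C * K ^ 2 / L / θ := by
    rw [div_mul_eq_mul_div, ← add_div]
    gcongr
    linarith [(abs_le.1 hE2).1]
  linarith

end T84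

open T84 in
theorem t3Stmt (hA : T3aStmt) (hb : T3bStmt) (hJ : JStmt) (hx : T1xStmt) (h1a : T1aStmt)
    (hM : T1mStmt) (hB : BrStmt) (hR : RJStmt) (h3 : R3Stmt) (hS : SmStmt) : T3Stmt := by
  intro F θ₀ K ε h0 hK hε
  obtain ⟨C, hC0, hC⟩ := En_le hR F
  obtain ⟨C₁, h1a⟩ := h1a F
  have hτ₁ := F.pos
  set t : ℝ := θ₀ / 2 with ht
  have ht0 : 0 < t := by positivity
  set a₀ : ℝ := ∑ y ∈ F.J.filter posD, (y.1 : ℝ) ^ 2 with ha₀
  have ha0 : 0 ≤ a₀ := Finset.sum_nonneg fun _ _ => sq_nonneg _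
  set B : ℝ := C * K ^ 2 with hBd
  have hB0 : 0 ≤ B := by positivity
  set e : ℝ := min 1 (min (ε / 2 / (2 * B + 4)) (ε ^ 2 / 2 / (3 * B + 1))) with he
  have he0 : 0 < e := by positivity
  have he1 : e ≤ 1 := min_le_left _ _
  have he2 : e * (2 * B + 4) ≤ ε / 2 :=
    (le_div_iff₀ (by positivity)).1 ((min_le_right _ _).trans (min_le_left _ _))
  have he3 : 3 * B * e < ε ^ 2 / 2 := by
    have : e * (3 * B + 1) ≤ ε ^ 2 / 2 :=
      (le_div_iff₀ (by positivity)).1 ((min_le_right _ _).trans (min_le_right _ _))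
    linarith
  set T : ℝ := max F.τ₂ 1 with hT
  have hT0 : 0 < T := lt_max_of_lt_right one_pos
  set eR : ℝ := e ^ 2 / (T * (B + 1)) with heR
  obtain ⟨KR, LR, hR3⟩ := h3 F K eR (by positivity)
  set Kb : ℝ := max (2 * K) (a₀ / F.τ₁ / t) with hKb
  obtain ⟨K', ε₂, hK', hε₂, hb⟩ := hb Kb (e / 2) (by positivity)
  obtain ⟨W₀, δ₁, hδ₁, hlow⟩ := low hJ hx hB hM hR F h0 hK' hε₂
  obtain ⟨a, ha⟩ := pow_unbounded_of_one_lt (max W₀ (|KR| / Real.sqrt e)) (one_lt_two : (1 : ℝ) < 2)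
  have hW1 : (1 : ℝ) ≤ 2 ^ a := one_le_pow₀ one_le_two
  obtain ⟨ε₁, L₀, hε₁, hb⟩ := hb (2 ^ a) (by positivity)
  obtain ⟨δ₂, hδ₂, hA⟩ := hA F θ₀ (2 ^ a) ε₁ h0 hW1 hε₁
  obtain ⟨δ₃, hδ₃, hT3⟩ := hM.2.2 F θ₀ (δ₂ / (a₀ / F.τ₁ + 1)) 0 h0 (by positivity)
  set M₀ : ℝ := 1 + LR + L₀ + 2 * B / (t * e) with hM₀
  have hM₂ : 0 ≤ 2 * B / (t * e) := by positivity
  have hLR : (0 : ℝ) ≤ LR := Nat.cast_nonneg _
  have hL₀ : (0 : ℝ) ≤ L₀ := Nat.cast_nonneg _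
  have hM₁ : 1 ≤ M₀ := by linarith
  refine ⟨min (min δ₁ δ₂) (min δ₃ (1 / M₀)), by positivity, fun Λ hΛ l L hW u₀ hu₀ => ?_⟩
  have hΛo := ok_of hΛ
  have hτ := hΛo.pos
  have hW₁ := Win.mono hW ((min_le_left _ _).trans (min_le_left _ _))
  have hW₂ := Win.mono hW ((min_le_left _ _).trans (min_le_right _ _))
  have hW₃ := Win.mono hW ((min_le_right _ _).trans (min_le_left _ _))
  have hW₄ := Win.mono hW ((min_le_right _ _).trans (min_le_right _ _))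
  obtain ⟨hd, hθ, -⟩ := hT3 Λ hΛ l L hW₃
  have hθ0 : 0 < Λ.tN l := ht0.trans_le hθ
  have hLge : M₀ ≤ L := Sep.le hW₄.2.1 (by positivity)
    (by rw [div_le_one (by positivity)]; exact hM₁) (by field_simp; rfl)
  have hL1' : (1 : ℝ) ≤ L := hM₁.trans hLge
  have hL1 : 1 ≤ L := by exact_mod_cast hL1'
  have hL0 : (0 : ℝ) < L := by linarith
  have hl1 : 1 ≤ l := by
    by_contra hl
    have : l = 0 := by omega
    have h5 := hW.2.1.1
    rw [this] at h5; norm_num at h5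
  have hθ1 : Λ.tN l ≤ 1 := (h1a Λ hΛ l hl1).2.1
  have hcen := cen_WN hΛo hL1
  have he00 : 0 ≤ Λ.e0 := div_nonneg (zero_le_one.trans hΛo.one_le_a) hτ.le
  have he0le : Λ.e0 ≤ a₀ / F.τ₁ := by
    have : Λ.a = a₀ := by rw [ha₀, Lat.a, Lat.Jp, hΛ.1]
    have h5 := hΛ.2.2.1
    rw [Lat.e0, this]; gcongr
  set u : Pt → ℝ := fun x => u₀ x - u₀ 0 with hud
  have hu : Sm2 u K L := Sm2.sub_const hu₀ _
  have hub : ∀ x ∈ sq 0 L, |u x| ≤ 2 * K := fun x hx =>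
    (osc_sq hS hu₀ (self_mem_sq 0 hL1) hx).trans_eq (by field_simp)
  show Λ.tN l * Λ.En (sq 0 L) u₀ u₀ - ε ≤ Vr (Λ.WN L) (pr (Λ.Au _ u₀)) (pr (Λ.Au _ u₀))
  rw [← En_sub_const Λ _ u₀ (u₀ 0), ← Au_sub_const Λ _ u₀ (u₀ 0), ← hud]
  obtain ⟨hE1, hE2, -⟩ := hC Λ hΛ L hL1 u K hu
  have hE0 := En_nonneg hΛo (sq 0 L) u
  have hμ0 : 0 < ((2 : ℝ) ^ a / L) ^ 2 := by positivity
  obtain ⟨hKer, hcr, -⟩ := hJ Λ L _ hΛo hL1 hμ0
  have hQ := hb L (by exact_mod_cast (by linarith : (L₀ : ℝ) ≤ L)) (Λ.e0 / Λ.tN l)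
    (Λ.Jm L ((2 ^ a / L) ^ 2)) (by positivity) (le_max_of_le_right (by gcongr)) hKer
    (by
      have hE : Λ.En (sq 0 L) (fun _ => 1) (fun _ => 1) = 0 := by simp [Lat.En]
      have := hA Λ hΛ l L hW₂ a (fun _ => 1) le_rfl (sm2_const 1 (by positivity) hL0.le)
        (fun _ _ => by rwa [abs_one]) (by
          rw [hE]; linarith [hcen.wt.Vr_nonneg hcen.se (Λ.X L fun _ => 1)])
      rwa [hE, zero_div, zero_add] at this)
    (fun i => by
      have hE := En_co hΛo i hL1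
      have hE' := En_nonneg hΛo (sq 0 L) fun x => co i x / L
      refine (hA Λ hΛ l L hW₂ a _ le_rfl (sm2_co i hW1 hL0) (fun x hx => (co_le i hx).trans hW1)
        ?_).trans (by gcongr)
      have h5 : Vr (Λ.WN L) (Λ.X L (co i)) (Λ.X L (co i)) = Λ.tN L * Λ.e0 * (L : ℝ) ^ 2 := by
        have h6 : Vr (Λ.WN L) (Λ.X L (co 0)) (Λ.X L (co 0)) = Λ.tN L * Λ.e0 * (L : ℝ) ^ 2 := by
          have : 0 < Λ.e0 := div_pos (one_pos.trans_le hΛo.one_le_a) hτ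
          rw [Lat.tN]; field_simp
        fin_cases i
        · exact h6
        · exact (h1a Λ hΛ L hL1).2.2.2.1.trans h6
      rw [X_div, Vr_smul_left, Vr_smul_right, h5,
        show (L : ℝ)⁻¹ * ((L : ℝ)⁻¹ * (Λ.tN L * Λ.e0 * (L : ℝ) ^ 2)) = Λ.tN L * Λ.e0 by field_simp]
      have h6 : δ₂ / (a₀ / F.τ₁ + 1) * Λ.e0 ≤ δ₂ := by
        rw [div_mul_eq_mul_div, div_le_iff₀ (by positivity)]
        exact mul_le_mul_of_nonneg_left (by linarith) hδ₂.le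
      have h7 := mul_le_mul_of_nonneg_right (abs_le.1 hd).2 he00
      have h8 := mul_le_mul_of_nonneg_left hE hθ0.le
      linarith)
    (fun m hm _ hs => hlow _ ((le_max_left _ _).trans ha.le) (by positivity) Λ hΛ l L hW₁ m hm hs)
    u (Sm2.mono hu (le_max_of_le_left (by linarith)) hL0.le)
    (fun x hx => (hub x hx).trans (le_max_left _ _))
  obtain ⟨f, hf, hF2⟩ := hR3 Λ hΛ L (by exact_mod_cast (by linarith : (LR : ℝ) ≤ L)) u hu
  have hV := (bare_WN hB hΛo hL1 hF2).1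
  obtain ⟨φ, hφ, hφ2⟩ := hF2
  have hfe : f = Λ.Au (sq 0 L) u - dv (Λ.edI (sq 0 L)) φ := by rw [← hφ]; abel
  have hτT : Λ.τ ≤ T := hΛ.2.2.2.trans (le_max_left _ _)
  have heT : eR * (T * (B + 1)) = e ^ 2 := by rw [heR]; field_simp
  have heR0 : 0 < eR := by positivity
  set θ := Λ.tN l
  set E := Λ.En (sq 0 L) u u with hEd
  refine t3_alg (B := B) (e := e) hE0 hE1 hθ0 hθ1 (hcen.wt.Vr_nonneg hcen.se _) he0 he1
    (hcen.wt.Vr_nonneg hcen.se (pr f)) ?_ ?_ ?_ (hKer.2.2 _).1 (hQ.trans ?_) (hcr f u ?_) hε he2 he3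
  · have h5 : ip (sq 0 L) f u - E = -∑ e ∈ Λ.edI (sq 0 L), φ e * (u e.2 - u e.1) := by
      rw [hEd, ← ip_Au, ← ip_dv (ends Λ _), hfe]
      simp only [ip, Pi.sub_apply, sub_mul, Finset.sum_sub_distrib]; ring
    rw [h5, abs_neg]
    refine abs_le_of_sq_le_sq' ?_ he0.le |> abs_le.2
    refine (Finset.sum_mul_sq_le_sq_mul_sq _ _ _).trans ?_
    have h6 : ∑ e ∈ Λ.edI (sq 0 L), (u e.2 - u e.1) ^ 2 = Λ.τ * E := by
      rw [hEd, Lat.En, Finset.mul_sum]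
      exact Finset.sum_congr rfl fun e _ => by field_simp
    rw [h6, ← heT]
    gcongr
    linarith
  · have h5 := Vr_tri hcen (pr (Λ.Au (sq 0 L) u)) (-pr (Λ.Au (sq 0 L) u - f))
    rw [← pr_neg, ← pr_add, show Λ.Au (sq 0 L) u + -(Λ.Au (sq 0 L) u - f) = f by abel, pr_neg,
      Vr_neg_left, Vr_neg_right, neg_neg] at h5
    refine h5.trans (add_le_add le_rfl (Real.sqrt_le_iff.2 ⟨he0.le, hV.trans ?_⟩))
    rw [← heT]
    nlinarith [mul_nonneg heR0.le (mul_nonneg hT0.le hB0)]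
  · have h6 := ip_le (B := sq 0 L) (f := f) (C := KR / (L : ℝ) ^ 2) fun x _ => hf x
    rw [card_sq] at h6
    push_cast at h6
    have h7 : |KR| ≤ 2 ^ a * Real.sqrt e :=
      (div_le_iff₀ (Real.sqrt_pos.2 he0)).1 ((le_max_right _ _).trans ha.le)
    have h8 : KR ^ 2 ≤ (2 ^ a) ^ 2 * e := by
      have := pow_le_pow_left₀ (abs_nonneg _) h7 2
      rwa [mul_pow, Real.sq_sqrt he0.le, sq_abs] at this
    rw [div_le_iff₀ hμ0]
    refine h6.trans ?_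
    rw [show (L : ℝ) ^ 2 * (KR / (L : ℝ) ^ 2) ^ 2 = KR ^ 2 / (L : ℝ) ^ 2 by field_simp,
      show e * (2 ^ a / L) ^ 2 = (2 ^ a) ^ 2 * e / (L : ℝ) ^ 2 by field_simp]
    gcongr
  · have h9 : B / L / θ ≤ e / 2 := by
      have h10 : 2 * B / (t * e) ≤ L := by linarith
      rw [div_le_iff₀ (by positivity)] at h10
      rw [div_le_iff₀ hθ0, div_le_iff₀ hL0]
      have : (L : ℝ) * (t * e) ≤ L * (θ * e) := by gcongr
      linarith
    have h10 : Λ.e0 / θ * nnL.En (sq 0 L) u u ≤ E / θ + B / L / θ := by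
      rw [div_mul_eq_mul_div, ← add_div]
      gcongr
      linarith [(abs_le.1 hE2).1]
    linarith
  · rw [hfe]
    simp only [Pi.sub_apply, Finset.sum_sub_distrib, sum_Au, sum_dv (ends Λ _), sub_zero]

end Crest.Agent.T145
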