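import Crest.Agent.T145.TLimA_87

/-!
# Row 145, module (b): the torus limit of S0201, `TLimStmt` (helper87)
-/

set_option autoImplicit false

noncomputable section

namespace Crest.Agent.T145

open Finset Filter Topology Crest.ProbabilityR.HeightModel Tor27

namespace TL87

variable {Λ : Lat} {n : ℕ} {w : ℝ × ℝ → ℝ}

theorem sp_smul (h : IsSmoothPeriodic w) (a : ℝ) : IsSmoothPeriodic fun p => a * w p :=
  sp_mul ⟨fun _ => ⟨rfl, rfl⟩, contDiff_const⟩ h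

theorem cen (hΛ : Λ.Ok) (n : ℕ) : Cen (WT Λ n) := hΛ.cen_T n

theorem tI_nonneg (hm : T1mStmt) (hΛ : Λ.Ok) : 0 ≤ Λ.tI :=
  hΛ.gI_mul ▸ mul_nonneg (hm.1 Λ hΛ).2.1 hΛ.e0_pos.le

theorem ET_le (hΛ : Λ.Ok) (h : IsSmoothPeriodic w) {c : ℝ} (hc : 0 ≤ c) :
    ∀ᶠ n in atTop, c * ET Λ n (sc n w) ≤ c * (|Λ.e0 * en w| + 1) :=
  (ET_bdd hΛ h).mono fun _ h => mul_le_mul_of_nonneg_left h hc

/-- upper bound without the edges across the seam -/
theorem up_D (hx : T1xStmt) (hm : T1mStmt) (hΛ : Λ.Ok) (h : IsSmoothPeriodic w) {ε : ℝ}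
    (hε : 0 < ε) : ∀ᶠ n in atTop,
      M (WT Λ n) (pr (Λ.Au (sq 0 n) (sc n w))) ≤ Λ.tI * ET Λ n (sc n w) / 2 + ε := by
  obtain ⟨K, hK1, hK⟩ := sm2_sc h
  obtain ⟨δ, hδ, h1⟩ := hx (Λ.fa hΛ) (4 * K ^ 2) (ε / 2) (half_pos hε)
  obtain ⟨C, hC⟩ : ∃ C, C = |Λ.e0 * en w| + 1 := ⟨_, rfl⟩
  have hC0 : 0 < C := hC ▸ by positivity
  obtain ⟨l, h2, h3⟩ := ((ev_sep_atTop hδ).and ((hm.1 Λ hΛ).1.eventually
    (gt_mem_nhds (lt_add_of_pos_right _ (div_pos hε hC0))))).exists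
  filter_upwards [h2, ET_bdd hΛ h] with n h4 h5
  have hn := h4.L_pos'
  have hτ := hΛ.pos
  have hKn : (n : ℝ) ≤ K * n := le_mul_of_one_le_left hn.le hK1
  have h6 := h1 Λ (Lat.mem_fa hΛ) l n h4 (Λ.T n) (sq 0 n) (sc n w) (fun _ => 0) (hΛ.amb_T n)
    (reg_rc 0 l n hK1 hKn hKn) (Sm2.mono' (hK n h4.one_le_L) (by nlinarith) hn.le)
    fun _ _ => by rw [abs_zero]; positivity
  rw [dv_zero, pr_zero, add_zero] at h6
  simp only [zero_mul, sum_const_zero, mul_zero, add_zero, ne_eq, OfNat.ofNat_ne_zero,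
    not_false_eq_true, zero_pow] at h6
  have h7 : 0 ≤ Λ.En (sq 0 n) (sc n w) (sc n w) :=
    sum_nonneg fun _ _ => div_nonneg (mul_self_nonneg _) hτ.le
  have h8 : Λ.En (sq 0 n) (sc n w) (sc n w) ≤ ET Λ n (sc n w) :=
    sum_le_sum_of_subset_of_nonneg (Lat.edI_subset_T n) fun _ _ _ =>
      div_nonneg (mul_self_nonneg _) hτ.le
  have h9 := mul_le_mul_of_nonneg_left h8 (tI_nonneg hm hΛ)
  have h10 := mul_le_mul_of_nonneg_left (h8.trans (hC ▸ h5)) (div_pos hε hC0).le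
  rw [div_mul_cancel₀ _ hC0.ne'] at h10
  have h11 := mul_le_mul_of_nonneg_right h3.le h7
  change M ((Λ.T n).W 0) _ ≤ _
  nlinarith

theorem up_T (hx : T1xStmt) (hm : T1mStmt) (hΛ : Λ.Ok) (h : IsSmoothPeriodic w) :
    Up atTop (WT Λ) (fun n => pr (AT Λ n (sc n w))) fun n => Λ.tI * ET Λ n (sc n w) := by
  obtain ⟨C, hC⟩ := wrap hΛ h
  have h1 : Up atTop (WT Λ) (fun n => pr (Λ.Au (sq 0 n) (sc n w)))
      fun n => Λ.tI * ET Λ n (sc n w) := fun t ε hε => by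
    filter_upwards [up_D hx hm hΛ (sp_smul h t) hε] with n hn
    have e : Λ.Au (sq 0 n) (sc n fun p => t * w p) = t • Λ.Au (sq 0 n) (sc n w) := by
      rw [Lat.Au, Lat.Au, ← dv_smul]
      exact dv_congr fun e _ => by simp only [sc]; ring
    have e2 : ET Λ n (sc n fun p => t * w p) = t ^ 2 * ET Λ n (sc n w) := ET_smul t _
    rw [e, e2, pr_smul, mul_left_comm] at hn
    exact hn
  have h2 := h1.add (cen hΛ) (ET_le hΛ h (tI_nonneg hm hΛ))
    (small hΛ (tendsto_const_div_atTop_nhds_zero_nat C)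
      (eventually_atTop.2 ⟨1, fun n hn => (hC n hn).f2a _⟩))
  simpa only [← pr_add, add_sub_cancel] using h2

/-- dyadic sides -/
def dy : Filter ℕ := map (fun j : ℕ => 2 ^ j) atTop

theorem dy_le : dy ≤ atTop := tendsto_two_pow

/-- the lower bound holds for `w` -/
def G (Λ : Lat) (w : ℝ × ℝ → ℝ) : Prop :=
  Lo dy (WT Λ) (fun n => pr (AT Λ n (sc n w))) fun n => Λ.tI * ET Λ n (sc n w)

theorem G.add (hx : T1xStmt) (hm : T1mStmt) (hΛ : Λ.Ok) {w' : ℝ × ℝ → ℝ} (h : IsSmoothPeriodic w)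
    (h' : IsSmoothPeriodic w') (g : G Λ w) (g' : G Λ w') : G Λ fun p => 1 * w p + 1 * w' p :=
  fun ε hε => by
    filter_upwards [g (ε / 5) (by positivity), g' (ε / 5) (by positivity),
      ((up_T hx hm hΛ (sp_add (sp_smul h 1) (sp_smul h' (-1)))).mono dy_le).vr
        (cen hΛ) (ε := ε / 5) (by positivity)] with n h1 h2 h3
    have e : ∀ b : ℝ, (sc n fun p => 1 * w p + b * w' p) =
        fun x => 1 * sc n w x + b * sc n w' x := fun _ => rfl
    have h4 := congrArg (Λ.tI * ·) (ET_par (Λ := Λ) (n := n) (sc n w) (sc n w'))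
    have hs : SE (WT Λ n) := (hΛ.cen_T n).se
    simp only [e, AT_lin, pr_add, pr_smul, hs.Vr_add_left, hs.Vr_add_right, Vr_smul_left,
      Vr_smul_right] at h3 h4 ⊢
    linarith

theorem G.shift (hΛ : Λ.Ok) (h : IsPeriodic w) (c : Pt)
    (g : G Λ fun p => w (p + (1 / 2 : ℝ) • ((c.1 : ℝ), (c.2 : ℝ)))) : G Λ w := fun ε hε => by
  have h0 := g ε hε
  rw [dy, eventually_map] at h0 ⊢
  filter_upwards [h0, eventually_ge_atTop 1] with j h1 hj
  obtain ⟨j, rfl⟩ := Nat.exists_eq_add_of_le' hj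
  have h2 := tsh_inv hΛ (n := 2 ^ (j + 1)) (by positivity) (2 ^ j * c.1, 2 ^ j * c.2)
    (g := sc (2 ^ (j + 1)) w)
    (g' := sc (2 ^ (j + 1)) fun p => w (p + (1 / 2 : ℝ) • ((c.1 : ℝ), (c.2 : ℝ)))) fun x hx => by
      rw [sc_tsh h _ hx, sc_add, sc]
      congr 2
      ext <;> simp <;> field_simp <;> ring
  rwa [h2.1, h2.2] at h1

theorem trunc {u : Pt → ℝ} {K L : ℝ} {B : Finset Pt} (h : Sm2 u K L)
    (hB : ∀ x ∈ B, u x ≠ 0 → bl x 2 ⊆ B) : Sm2 (fun x => if x ∈ B then u x else 0) K L := by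
  have key : ∀ x y : Pt, y ∉ B → y ∈ bl x 2 → (if x ∈ B then u x else 0) = 0 := fun x y hy hxy => by
    split_ifs with hx
    · by_contra hu
      exact hy (hB x hx hu hxy)
    · rfl
  have all : ∀ x : Pt, (∀ y ∈ sq x 3, (if y ∈ B then u y else 0) = u y) ∨
      ∀ y ∈ sq x 3, (if y ∈ B then u y else 0) = 0 := fun x => by
    by_cases hs : sq x 3 ⊆ B
    · exact Or.inl fun y hy => if_pos (hs hy)
    · obtain ⟨z, hz, hz'⟩ := not_subset.1 hs
      exact Or.inr fun y hy => key y z hz' (by rw [mem_sq] at hy hz; rw [mem_bl]; omega)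
  have hK : 0 ≤ K / L := (abs_nonneg _).trans (h.1 0 0)
  have hK2 : 0 ≤ K / L ^ 2 := (abs_nonneg _).trans (h.2 0 0 0)
  have m : ∀ (x : Pt) (i j : Fin 2), x ∈ sq x 3 ∧ x + ev i ∈ sq x 3 ∧ x + ev j + ev i ∈ sq x 3 :=
    fun x i j => by
      simp only [mem_sq]
      fin_cases i <;> fin_cases j <;> simp [ev] <;> omega
  refine ⟨fun i x => ?_, fun i j x => ?_⟩
  · rcases all x with a | a <;> simp only [df, a _ (m x i i).1, a _ (m x i i).2.1]
    · exact h.1 i x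
    · simpa using hK
  · rcases all x with a | a <;>
      simp only [df, a _ (m x i j).1, a _ (m x i j).2.1, a _ (m x j i).2.1, a _ (m x i j).2.2]
    · exact h.2 i j x
    · simpa using hK2

theorem cos_lt {a : ℤ} (h0 : 0 ≤ a) (h1 : a < n)
    (h : Real.cos (2 * Real.pi * ((a : ℝ) / n)) < 1 / 2) : (n : ℤ) < 8 * a ∧ 8 * a < 7 * n := by
  have hn : (0 : ℝ) < n := by exact_mod_cast h0.trans_lt h1
  have key : ∀ t : ℝ, |t| ≤ 1 / 8 → 1 / 2 ≤ Real.cos (2 * Real.pi * t) := fun t ht => by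
    have h2 : |2 * Real.pi * t| ≤ 1 := by
      rw [abs_mul, abs_of_pos Real.two_pi_pos]
      nlinarith [Real.pi_le_four, Real.pi_pos, abs_nonneg t]
    have := Real.one_sub_sq_div_two_le_cos (x := 2 * Real.pi * t)
    nlinarith [abs_le.1 h2]
  have h0' : (0 : ℝ) ≤ a := by exact_mod_cast h0
  have h1' : (a : ℝ) < n := by exact_mod_cast h1
  constructor <;> by_contra! hc
  · have hc' : 8 * (a : ℝ) ≤ n := by exact_mod_cast hc
    refine h.not_ge (key _ ?_)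
    rw [abs_of_nonneg (by positivity), div_le_iff₀ hn]
    linarith
  · have hc' : 7 * (n : ℝ) ≤ 8 * a := by exact_mod_cast hc
    have h2 := key ((a - n) / n) (by
      rw [abs_div, abs_of_pos hn, div_le_iff₀ hn, abs_le]; constructor <;> linarith)
    rw [sub_div, div_self hn.ne', mul_sub, mul_one, Real.cos_sub_two_pi] at h2
    exact h.not_ge h2

/-- functions that vanish near the seams: the Dirichlet limit -/
theorem G.van (hD : DlgStmt) (hm : T1mStmt) (hΛ : Λ.Ok) (h0 : 0 < Λ.tI) (h : IsSmoothPeriodic w)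
    (h1 : ∀ p, 1 / 2 ≤ Real.cos (2 * Real.pi * p.1) → w p = 0)
    (h2 : ∀ p, 1 / 2 ≤ Real.cos (2 * Real.pi * p.2) → w p = 0) : G Λ w := fun ε hε => by
  obtain ⟨K, hK1, hK⟩ := sm2_sc h
  obtain ⟨C, hC⟩ : ∃ C, C = |Λ.e0 * en w| + 1 := ⟨_, rfl⟩
  have hC0 : 0 < C := hC ▸ by positivity
  obtain ⟨δ, l, -, hl, h3⟩ := Soft.exists_l hm hD hΛ h0 (K := 16 * K) (by linarith) (half_pos hε)
    (div_pos (half_pos hε) hC0)
  rw [dy, eventually_map]
  filter_upwards [h3, tendsto_two_pow.eventually (ET_bdd hΛ h),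
    tendsto_two_pow.eventually_ge_atTop (16 * Λ.rg + 16)] with j h4 h5 h6
  have h7 := h4.2
  generalize 2 ^ j = n at h5 h6 h7
  have hn : (0 : ℝ) < n := by exact_mod_cast (by omega : 0 < n)
  have hτ := hΛ.pos
  have key : ∀ x ∈ sq 0 n, sc n w x ≠ 0 → ∀ r s : ℕ, 8 * (r + s) ≤ n →
      ∀ y ∈ bl x r, bl y s ⊆ sq 0 n := fun x hx hw r s hrs y hy z hz => by
    have hx' := mem_sq0.1 hx
    have a1 := cos_lt hx'.1 hx'.2.1 (not_le.1 fun hc => hw (h1 _ hc))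
    have a2 := cos_lt hx'.2.2.1 hx'.2.2.2 (not_le.1 fun hc => hw (h2 _ hc))
    rw [mem_bl] at hy hz
    rw [mem_sq0]
    omega
  obtain ⟨D, hD'⟩ : ∃ D, D = (sq 0 n).filter fun x => bl x Λ.rg ⊆ sq 0 n := ⟨_, rfl⟩
  have hD1 : D ⊆ sq 0 n := hD' ▸ filter_subset _ _
  have hD2 : ∀ x ∈ D, bl x Λ.rg ⊆ sq 0 n := fun x hx => by
    rw [hD', mem_filter] at hx
    exact hx.2
  have hD3 : ∀ x ∈ sq 0 n, sc n w x ≠ 0 → ∀ r : ℕ, 16 * r ≤ n → bl x r ⊆ D :=
    fun x hx hw r hr y hy => by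
      have := key x hx hw r Λ.rg (by omega) y hy
      rw [hD', mem_filter]
      exact ⟨this (self_mem_bl _ _), this⟩
  have hE : Λ.edI D ⊆ (Λ.T n).ed := (Lat.edI_mono hD1).trans (Lat.edI_subset_T n)
  have hz : ∀ e ∈ (Λ.T n).ed, e ∉ Λ.edI D → sc n w e.2 - sc n w e.1 = 0 := fun e he he' => by
    have a : ∀ x ∈ sq 0 n, e.1 = x ∨ e.2 = x → sc n w x = 0 := fun x hx hex => by
      by_contra hw
      have b := hD3 x hx hw Λ.rg (by omega)
      refine he' (Lat.edT_subset_edI (D := {x}) (fun y hy => mem_singleton.1 hy ▸ b)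
        (Lat.T_ed_touch (fun y hy => mem_singleton.1 hy ▸ b.trans hD1) he ?_))
      simpa only [mem_singleton] using hex
    rw [a _ (Lat.T_ed_mem he).1 (Or.inl rfl), a _ (Lat.T_ed_mem he).2 (Or.inr rfl), sub_zero]
  obtain ⟨u, hu⟩ : ∃ u : Pt → ℝ, u = fun x => if x ∈ sq 0 n then sc n w x else 0 := ⟨_, rfl⟩
  have hu1 : ∀ e ∈ Λ.edI D, u e.2 - u e.1 = sc n w e.2 - sc n w e.1 := fun e he => by
    simp only [hu, if_pos (hD1 (Lat.mem_edI.1 he).2.1), if_pos (hD1 (Lat.mem_edI.1 he).2.2)]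
  have e1 : Λ.Au D u = AT Λ n (sc n w) :=
    (dv_congr fun e he => by rw [hu1 e he]).trans
      (dv_subset hE fun e he he' => by rw [hz e he he', zero_div])
  have e2 : Λ.En D u u = ET Λ n (sc n w) :=
    (sum_congr rfl fun e he => by rw [hu1 e he]).trans
      (sum_subset hE fun e he he' => by rw [hz e he he', zero_mul, zero_div])
  have h8 := (h7 (Λ.T n) D 0 u ⟨hΛ.ctr_T n, hΛ.anch_T n, hE, fun _ _ => rfl⟩ (hΛ.loc_D_T hD2)
    (hu ▸ trunc (Sm2.mono' (hK n (by omega)) (by linarith) hn.le) fun x hx hw =>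
      key x hx hw 0 2 (by omega) x (self_mem_bl _ _)) fun x hx => by
      have hx1 : x ∈ sq 0 n := by
        by_contra hc
        exact hx (by simp only [hu, if_neg hc])
      have hx2 : sc n w x ≠ 0 := by simpa only [hu, if_pos hx1] using hx
      have b1 : n ≤ ⌊16 * K * n⌋₊ := Nat.le_floor (by nlinarith)
      have b2 : (16 : ℝ) * ⌊(n : ℝ) / (16 * K)⌋₊ ≤ n := by
        have := Nat.floor_le (a := (n : ℝ) / (16 * K)) (by positivity)
        rw [le_div_iff₀ (by positivity)] at this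
        nlinarith [Nat.cast_nonneg (α := ℝ) ⌊(n : ℝ) / (16 * K)⌋₊]
      refine ⟨?_, hD3 x hx1 hx2 _ (by exact_mod_cast b2)⟩
      have := mem_sq0.1 hx1
      rw [mem_bl]
      simp only [Prod.fst_zero, Prod.snd_zero]
      omega).1
  rw [e1, e2] at h8
  have h9 : 0 ≤ ET Λ n (sc n w) := sum_nonneg fun _ _ => div_nonneg (mul_self_nonneg _) hτ.le
  have h10 := mul_le_mul_of_nonneg_left (hC ▸ h5 : ET Λ n (sc n w) ≤ C)
    (div_pos (half_pos hε) hC0).le
  rw [div_mul_cancel₀ _ hC0.ne'] at h10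
  have h11 := mul_le_mul_of_nonneg_right (abs_le.1 hl).1 h9
  change _ ≤ Vr ((Λ.T n).W 0) _ _
  nlinarith [(abs_le.1 h8).1]

/-- periodic cut-off: `0` near `ℤ`, `1` near `ℤ + 1 / 2` -/
def ch (t : ℝ) : ℝ := Real.smoothTransition (1 / 2 - Real.cos (2 * Real.pi * t))

theorem ch_add (t : ℝ) : ch (t + 1) = ch t := by
  rw [ch, ch, mul_add, mul_one, Real.cos_add_two_pi]

theorem ch_smooth : ContDiff ℝ (⊤ : ℕ∞) ch :=
  Real.smoothTransition.contDiff.comp (by fun_prop)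

theorem ch_zero {t : ℝ} (h : 1 / 2 ≤ Real.cos (2 * Real.pi * t)) : ch t = 0 :=
  Real.smoothTransition.zero_of_nonpos (by linarith)

theorem ch_one {t : ℝ} (h : 1 / 2 ≤ Real.cos (2 * Real.pi * t)) : ch (t + 1 / 2) = 1 :=
  Real.smoothTransition.one_of_one_le (by
    rw [mul_add, show 2 * Real.pi * (1 / 2) = Real.pi by ring, Real.cos_add_pi]; linarith)

theorem sp_ch1 (a b : ℝ) : IsSmoothPeriodic fun p => a + b * ch p.1 :=
  ⟨fun _ => ⟨by simp [ch_add], by simp⟩,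
    contDiff_const.add (contDiff_const.mul (ch_smooth.comp contDiff_fst))⟩

theorem sp_ch2 (a b : ℝ) : IsSmoothPeriodic fun p => a + b * ch p.2 :=
  ⟨fun _ => ⟨by simp, by simp [ch_add]⟩,
    contDiff_const.add (contDiff_const.mul (ch_smooth.comp contDiff_snd))⟩

theorem sp_shift (h : IsSmoothPeriodic w) (c : ℝ × ℝ) : IsSmoothPeriodic fun p => w (p + c) :=
  ⟨fun x => ⟨by simp only [add_right_comm x _ c, (h.1 _).1],
    by simp only [add_right_comm x _ c, (h.1 _).2]⟩, h.2.comp (contDiff_id.add contDiff_const)⟩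

theorem G.all (hx : T1xStmt) (hD : DlgStmt) (hm : T1mStmt) (hΛ : Λ.Ok) (h0 : 0 < Λ.tI)
    (h : IsSmoothPeriodic w) : G Λ w := by
  have step : ∀ w, IsSmoothPeriodic w →
      (∀ p, 1 / 2 ≤ Real.cos (2 * Real.pi * p.1) → w p = 0) → G Λ w := fun w h h1 => by
    have a := sp_mul (sp_ch2 0 1) h
    have b := sp_mul (sp_ch2 1 (-1)) h
    have := G.add hx hm hΛ a b
      (G.van hD hm hΛ h0 a (fun p hp => by simp [h1 p hp]) fun p hp => by simp [ch_zero hp])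
      (G.shift hΛ b.1 (0, 1) (G.van hD hm hΛ h0 (sp_shift b _)
        (fun p hp => mul_eq_zero_of_right _ (h1 _ (by simpa using hp)))
        fun p hp => mul_eq_zero_of_left (by have := ch_one hp; simp at this ⊢; linarith) _))
    convert this using 2 with p
    ring
  have a := sp_mul (sp_ch1 0 1) h
  have b := sp_mul (sp_ch1 1 (-1)) h
  have := G.add hx hm hΛ a b (step _ a fun p hp => by simp [ch_zero hp])
    (G.shift hΛ b.1 (1, 0) (step _ (sp_shift b _)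
      fun p hp => mul_eq_zero_of_left (by have := ch_one hp; simp at this ⊢; linarith) _))
  convert this using 2 with p
  ring

theorem Dv_lin {f g : ℝ × ℝ → ℝ} (hf : IsSmoothPeriodic f) (hg : IsSmoothPeriodic g) (a b : ℝ)
    (v q : ℝ × ℝ) : Dv v (fun p => a * f p + b * g p) q = a * Dv v f q + b * Dv v g q := by
  have h1 := ((hf.2.differentiable (by simp) q).hasFDerivAt.const_mul a).fun_add
    ((hg.2.differentiable (by simp) q).hasFDerivAt.const_mul b)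
  rw [Dv, h1.fderiv]
  simp [Dv]

theorem sum_Dv (hΛ : Λ.Ok) (h : IsSmoothPeriodic w) (q : ℝ × ℝ) :
    ∑ y ∈ Λ.Jp, Dv ((y.1 : ℝ), (y.2 : ℝ)) (Dv ((y.1 : ℝ), (y.2 : ℝ)) w) q =
      Λ.a * flatLaplacian w q := by
  have e : ∀ y : ℝ × ℝ, Dv y (Dv y w) q = y.1 ^ 2 * Dv (1, 0) (Dv (1, 0) w) q +
      y.2 ^ 2 * Dv (0, 1) (Dv (0, 1) w) q +
      y.1 * y.2 * (Dv (1, 0) (Dv (0, 1) w) q + Dv (0, 1) (Dv (1, 0) w) q) := fun y => by
    rw [Dv_eq, show Dv y w = _ from funext (Dv_eq w y), Dv_lin (sp_Dv h _) (sp_Dv h _),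
      Dv_lin (sp_Dv h _) (sp_Dv h _)]
    ring
  rw [sum_congr rfl fun y _ => e _]
  simp only [sum_add_distrib, ← sum_mul, hΛ.sum_mixed]
  rw [lap_eq h, ← hΛ.a_eq_snd, ← Lat.a]
  ring

theorem AT_lf [NeZero n] (hn : 2 * Λ.rg < n) (z : ZMod n × ZMod n) : AT Λ n (sc n w) (lf z) =
    (∑ y ∈ Λ.Jp, (gr w (cz n y) (z - cz n y) - gr w (cz n y) z)) / Λ.τ := by
  have inj : ∀ a b : ZMod n × ZMod n, lf a = lf b ↔ a = b := fun a b =>
    ⟨fun h => by rw [← cz_lf a, h, cz_lf], fun h => h ▸ rfl⟩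
  rw [AT, dv, sum_edges hn, sum_comm, sum_div]
  refine sum_congr rfl fun y _ => ?_
  simp only [sc_lf, inj, ← eq_sub_iff_add_eq, ind_eq_ite, mul_sub, mul_ite, mul_one, mul_zero,
    sum_sub_distrib, sum_ite_eq', mem_univ, if_true, gr, sub_div]

/-- the force of the statement is `A û` up to a small flow -/
theorem rest (hΛ : Λ.Ok) (h : IsSmoothPeriodic w) : ∃ C : ℝ, ∀ n : ℕ, 2 * Λ.rg < n →
    F2A (Λ.T n).ed (Λ.T n).A (torF n (fun p => -flatLaplacian w p) -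
      AT Λ n (sc n fun p => 2 * Real.pi / Λ.e0 * w p)) (C / n) := by
  choose K h0 hK using fun y : Pt => gr_tay h y.1 y.2
  obtain ⟨C, hC⟩ : ∃ C, C = 2 * Real.pi / Λ.a * ∑ y ∈ Λ.Jp, K y := ⟨_, rfl⟩
  refine ⟨8 * C ^ 2, fun n hn => ?_⟩
  have : NeZero n := ⟨by omega⟩
  have hn0 := npos (n := n)
  have hn1 : (1 : ℝ) ≤ n := by exact_mod_cast NeZero.pos n
  have ha := hΛ.a_pos
  have hτ := hΛ.pos
  obtain ⟨g, hg⟩ : ∃ g, g = AT Λ n (sc n fun p => 2 * Real.pi / Λ.e0 * w p) := ⟨_, rfl⟩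
  have hg0 : ∑ z : ZMod n × ZMod n, g (lf z) = 0 := by rw [← sum_sq0, hg, sum_AT]
  have h1 : ∀ z : ZMod n × ZMod n,
      |2 * Real.pi * -flatLaplacian w (pt z) / (n : ℝ) ^ 2 - g (lf z)| ≤ C / n / (n : ℝ) ^ 2 :=
    fun z => by
      have e : 2 * Real.pi * -flatLaplacian w (pt z) / (n : ℝ) ^ 2 - g (lf z) =
          2 * Real.pi / Λ.a * ∑ y ∈ Λ.Jp, (gr w (cz n y) z - gr w (cz n y) (z - cz n y) -
            Dv ((y.1 : ℝ), (y.2 : ℝ)) (Dv ((y.1 : ℝ), (y.2 : ℝ)) w) (pt z) / (n : ℝ) ^ 2) := by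
        have e1 : g = (2 * Real.pi / Λ.e0) • AT Λ n (sc n w) := hg.trans (AT_smul _ _)
        rw [e1, Pi.smul_apply, AT_lf hn, smul_eq_mul, Lat.e0]
        simp only [sum_sub_distrib, ← sum_div, sum_Dv hΛ h]
        field_simp
        ring
      rw [e, abs_mul, abs_of_pos (by positivity), hC, div_div _ (n : ℝ), ← pow_succ',
        mul_div_assoc _ (∑ y ∈ Λ.Jp, K y), sum_div]
      exact mul_le_mul_of_nonneg_left
        ((abs_sum_le_sum_abs _ _).trans (sum_le_sum fun y _ => (hK y n z).2)) (by positivity)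
  have h2 := avg_le h1
  rw [sum_sub_distrib, hg0, sub_zero, ← sum_div, ← mul_sum] at h2
  have h3 : ∀ z : ZMod n × ZMod n, |torF n (fun p => -flatLaplacian w p) (lf z) - g (lf z)| ≤
      2 * (C / n / (n : ℝ) ^ 2) := fun z => by
    have b1 := abs_le.1 (h1 z)
    have b2 : |2 * Real.pi * (∑ y : ZMod n × ZMod n, -flatLaplacian w (pt y)) / (n : ℝ) ^ 2 /
        (n : ℝ) ^ 2| ≤ C / n / (n : ℝ) ^ 2 := by
      rw [abs_div, abs_of_pos (by positivity : (0 : ℝ) < (n : ℝ) ^ 2)]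
      gcongr
    rw [torF_lf, fn, sub_div, mul_sub, ← mul_div_assoc, ← mul_div_assoc, ← mul_div_assoc]
    rw [abs_le] at b2 ⊢
    constructor <;> linarith [b1.1, b1.2, b2.1, b2.2]
  obtain ⟨φ, h4, h5⟩ := (r1Stmt Λ 0 n n
    (fun x => if x ∈ sq 0 n then torF n (fun p => -flatLaplacian w p) x - g x else 0) hΛ
    (fun x hx => if_neg hx) (by
      rw [← sq_eq_rc, sum_congr rfl fun x hx => if_pos hx, sum_sq0, sum_sub_distrib, hg0]
      simp only [torF_lf, ← mul_sum, Tor27.sum_fn, mul_zero, sub_zero])).1.subset (Lat.edI_subset_T n)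
  refine ⟨φ, fun x hx => ?_, h5.trans ?_⟩
  · rw [← h4, ← hg]
    exact (if_pos (mem_of_mem_erase hx)).symm
  · have h6 := avg_le (n := n) (K := 4 * C ^ 2 / (n : ℝ) ^ 4) (a := fun z =>
      (torF n (fun p => -flatLaplacian w p) (lf z) - g (lf z)) ^ 2) fun z => by
        rw [abs_pow]
        exact (pow_le_pow_left₀ (abs_nonneg _) (h3 z) 2).trans_eq (by field_simp; ring)
    rw [← sq_eq_rc, sum_congr rfl fun x hx => by rw [if_pos hx], sum_sq0]
    calc _ ≤ ((n : ℝ) ^ 2 + (n : ℝ) ^ 2) * (4 * C ^ 2 / (n : ℝ) ^ 4) := by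
          gcongr
          exact (le_abs_self _).trans h6
      _ = 8 * C ^ 2 / n / n := by field_simp; ring
      _ ≤ _ := div_le_self (by positivity) hn1

/-- the torus limit for every lattice -/
theorem lim (hx : T1xStmt) (hD : DlgStmt) (hm : T1mStmt) (hΛ : Λ.Ok) (h0 : 0 < Λ.gI)
    (h : IsSmoothPeriodic w) :
    Tendsto (fun n => M (WT Λ n) (pr (torF n fun p => -flatLaplacian w p))) dy
      (𝓝 (2 * Real.pi ^ 2 * Λ.gI * en w)) := by
  have h1 := hΛ.gI_pos_iff.1 h0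
  have h2 := sp_smul h (2 * Real.pi / Λ.e0)
  obtain ⟨C, hC⟩ := rest hΛ h
  have hs := (small hΛ (tendsto_const_div_atTop_nhds_zero_nat C)
    (eventually_atTop.2 ⟨2 * Λ.rg + 1, hC⟩)).mono dy_le
  have hb := (ET_le hΛ h2 h1.le).filter_mono dy_le
  have hv : Tendsto (fun n => Λ.tI * ET Λ n (sc n fun p => 2 * Real.pi / Λ.e0 * w p)) dy
      (𝓝 (Λ.tI * ((2 * Real.pi / Λ.e0) ^ 2 * (Λ.e0 * en w)))) :=
    ((((tendsto_ET hΛ h).const_mul _).congr fun n => (ET_smul _ _).symm).const_mul _).mono_left dy_le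
  have h3 := tendsto_M (cen hΛ)
    (((up_T hx hm hΛ h2).mono dy_le).add (cen hΛ) hb hs)
    (Lo.add (cen hΛ) hb (G.all hx hD hm hΛ h1 h2) hs) hv
  simp only [← pr_add, add_sub_cancel] at h3
  have := hΛ.e0_pos
  rw [show Λ.tI * ((2 * Real.pi / Λ.e0) ^ 2 * (Λ.e0 * en w)) / 2 = 2 * Real.pi ^ 2 * Λ.gI * en w by
    rw [← hΛ.gI_mul]; field_simp] at h3
  exact h3

end TL87

open TL87 in
/-- **the torus limit of S0201** -/
theorem tLimStmt (hx : T1xStmt) (hD : DlgStmt) (hm : T1mStmt) : TLimStmt := fun J β hJ hβ h0 w h => by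
  have hΛ : (dg J β).Ok := ⟨hJ, div_pos (mul_pos hβ (card_J_pos hJ)) (by positivity)⟩
  have h1 := (lim hx hD hm hΛ h0 h).congr' (f₂ := fun n : ℕ =>
    Real.log (torusLaplace J β n fun x => -flatLaplacian w x)) (by
      filter_upwards [dy_le (eventually_gt_atTop (2 * interactionRange J))] with n hn
      exact (torStmt mdlStmt geoStmt J β hJ hβ n _ hn).symm)
  have := var_pos hJ
  rw [show 2 * Real.pi ^ 2 * (dg J β).gI * en w = 4 * Real.pi ^ 2 * varianceConst J * (dg J β).gI /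
    (2 * varianceConst J) * en w by field_simp; ring, dy, tendsto_map'_iff] at h1
  exact h1

end Crest.Agent.T145
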