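import Crest.Agent.T145.ApiT_98

/-!
# Row 145, module (b): analysis for TB and G1 (helper32)
-/

set_option autoImplicit false

namespace Crest.Agent.T145

open Finset

namespace B32

/-- share of the edge `x y` given to the end `x` (times `(1 + α) ^ 2`) -/
noncomputable def sh (α x y : ℝ) : ℝ := if x ≤ y then 2 * α else 1 + α ^ 2

theorem mixed {α x y z : ℝ} (h0 : 0 ≤ α) (h1 : α ≤ 1) (hx : 0 ≤ x) (hy : x ≤ y) (hz : 0 ≤ z)
    (h : α ^ 2 * x ^ 2 ≤ y * z) : 2 * α * (1 + α ^ 2) * x ≤ 2 * α * y + (1 + α ^ 2) * z := by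
  rcases (hx.trans hy).eq_or_lt with e | hy0
  · have : x = 0 := le_antisymm (e ▸ hy) hx
    rw [this, ← e, mul_zero, mul_zero, zero_add]; positivity
  refine le_of_mul_le_mul_left ?_ hy0
  obtain ⟨d, rfl⟩ : ∃ d, y = x + d := ⟨y - x, by ring⟩
  have hd : 0 ≤ d := by linarith
  have a1 : 0 ≤ x ^ 2 * α ^ 2 * (1 - α) ^ 2 := by positivity
  have a2 : 0 ≤ α * (1 - α) * (1 + α) * x * d :=
    mul_nonneg (mul_nonneg (mul_nonneg (mul_nonneg h0 (by linarith)) (by linarith)) hx) hd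
  have a3 : 0 ≤ α * d ^ 2 := by positivity
  have a4 := mul_le_mul_of_nonneg_left h (by positivity : 0 ≤ 1 + α ^ 2)
  nlinarith

theorem pt_ineq {α x y z : ℝ} (h0 : 0 ≤ α) (h1 : α ≤ 1) (hx : 0 ≤ x) (hy : 0 ≤ y) (hz : 0 ≤ z)
    (h : α ^ 2 * x ^ 2 ≤ y * z) :
    2 * α * (1 + α ^ 2) * x ^ 2 ≤ sh α x y * (x * y) + sh α x z * (x * z) := by
  have key : 2 * α * (1 + α ^ 2) * x ≤ sh α x y * y + sh α x z * z := by
    unfold sh
    split_ifs with a b b
    · have : α ^ 2 ≤ 1 := by nlinarith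
      have h2 : α * (α ^ 2 * x) ≤ α * x :=
        mul_le_mul_of_nonneg_left (by nlinarith) h0
      nlinarith [mul_le_mul_of_nonneg_left a h0, mul_le_mul_of_nonneg_left b h0]
    · exact mixed h0 h1 hx a hz h
    · have := mixed h0 h1 hx b hy (by rwa [mul_comm z])
      linarith
    · have h2 : 2 * α * x ≤ y + z :=
        (pow_le_pow_iff_left₀ (by positivity) (by positivity) two_ne_zero).1
          (by nlinarith [sq_nonneg (y - z)])
      nlinarith [mul_le_mul_of_nonneg_left h2 (by positivity : 0 ≤ 1 + α ^ 2)]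
  nlinarith [mul_le_mul_of_nonneg_left key hx]

theorem sh_add (α x y : ℝ) : sh α x y + sh α y x ≤ (1 + α) ^ 2 := by
  unfold sh
  split_ifs with a b b
  · nlinarith [sq_nonneg (1 - α)]
  · nlinarith
  · nlinarith
  · exact absurd (le_of_not_ge a) b

theorem sh_bd {α : ℝ} (h0 : 0 ≤ α) (x y : ℝ) : 0 ≤ sh α x y ∧ sh α x y ≤ (1 + α) ^ 2 := by
  unfold sh
  split_ifs <;> constructor <;> nlinarith [sq_nonneg α]

theorem summable_shift {a : ℤ → ℝ} (h0 : ∀ p, 0 ≤ a p) (hs : Summable fun p => a p ^ 2) (q : ℤ) :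
    Summable fun p => a p * a (p + q) := by
  have h2 := (Equiv.addRight q).summable_iff.2 hs
  simp only [Function.comp_def, Equiv.coe_addRight] at h2
  exact Summable.of_nonneg_of_le (fun p => mul_nonneg (h0 _) (h0 _))
    (fun p => by nlinarith [sq_nonneg (a p - a (p + q)), mul_nonneg (h0 p) (h0 (p + q))])
    (hs.add h2)

/-- the sequence lemma -/
theorem seq {a : ℤ → ℝ} {α : ℝ} {q : ℤ} (h0 : ∀ p, 0 ≤ a p) (hs : Summable fun p => a p ^ 2)
    (hα0 : 0 ≤ α) (hα1 : α ≤ 1) (h : ∀ p, α ^ 2 * a p ^ 2 ≤ a (p + q) * a (p + -q)) :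
    2 * α * (1 + α ^ 2) * ∑' p, a p ^ 2 ≤ (1 + α) ^ 2 * ∑' p, a p * a (p + -q) := by
  have hu : ∀ r : ℤ, Summable fun p => sh α (a p) (a (p + r)) * (a p * a (p + r)) := fun r =>
    Summable.of_nonneg_of_le (fun p => mul_nonneg (sh_bd hα0 _ _).1 (mul_nonneg (h0 _) (h0 _)))
      (fun p => mul_le_mul_of_nonneg_right (sh_bd hα0 _ _).2 (mul_nonneg (h0 _) (h0 _)))
      ((summable_shift h0 hs r).mul_left _)
  have hv := (Equiv.addRight (-q)).summable_iff.2 (hu q)
  have e := (Equiv.addRight (-q)).tsum_eq fun p => sh α (a p) (a (p + q)) * (a p * a (p + q))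
  simp only [Function.comp_def, Equiv.coe_addRight, neg_add_cancel_right] at hv e
  rw [← tsum_mul_left, ← tsum_mul_left]
  refine ((hs.mul_left _).tsum_le_tsum (fun p => pt_ineq hα0 hα1 (h0 p) (h0 _) (h0 _) (h p))
    ((hu q).add (hu (-q)))).trans ?_
  rw [(hu q).tsum_add (hu (-q)), ← e, ← hv.tsum_add (hu (-q))]
  refine (hv.add (hu (-q))).tsum_le_tsum (fun p => ?_) ((summable_shift h0 hs (-q)).mul_left _)
  have := mul_le_mul_of_nonneg_right (sh_add α (a p) (a (p + -q)))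
    (mul_nonneg (h0 p) (h0 (p + -q)))
  nlinarith

theorem summable_exp_abs : Summable fun p : ℤ => Real.exp (-|(p : ℝ)|) := by
  refine summable_int_iff_summable_nat_and_neg.2 ⟨?_, ?_⟩ <;>
    simpa using Real.summable_exp_neg_nat

theorem summable_gauss {s : ℝ} (hs : 0 < s) (b α : ℝ) (hb : 1 ≤ b) :
    Summable fun p : ℤ => Real.exp (-(b * p - α) ^ 2 / s) := by
  refine Summable.of_nonneg_of_le (fun p => (Real.exp_pos _).le) (fun p => ?_)
    (summable_exp_abs.mul_left (Real.exp (s + |α|)))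
  rw [← Real.exp_add, Real.exp_le_exp, div_le_iff₀ hs]
  have h1 : |(p : ℝ)| ≤ |b * p - α| + |α| := by
    have : |b * p| ≤ |b * p - α| + |α| := by simpa using abs_add_le (b * p - α) α
    rw [abs_mul, abs_of_pos (by linarith : 0 < b)] at this
    nlinarith [abs_nonneg (p : ℝ)]
  rw [← sq_abs (b * p - α)]
  nlinarith [sq_nonneg (|b * p - α| - s), mul_le_mul_of_nonneg_left h1 hs.le, abs_nonneg (b * p - α)]

theorem prod_cos {L : Type*} [AddCommGroup L] {W : L → ℝ} (hW : Wt W) (hs : SE W)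
    (g₁ g₂ : L →+ ℝ) (A B : L → ℝ) :
    HasSum (fun a : L × L => (W a.1 * Real.exp (g₁ a.1)) * (W a.2 * Real.exp (g₂ a.2)) *
      Real.cos (A a.1 + B a.2)) (Zs W ^ 2 *
      (Ex W (fun s => Real.exp (g₁ s) * Real.cos (A s)) *
        Ex W (fun s => Real.exp (g₂ s) * Real.cos (B s)) -
      Ex W (fun s => Real.exp (g₁ s) * Real.sin (A s)) *
        Ex W (fun s => Real.exp (g₂ s) * Real.sin (B s)))) := by
  have key : ∀ F G : L → ℝ, Ig W F → Ig W G →
      HasSum (fun a : L × L => (W a.1 * F a.1) * (W a.2 * G a.2))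
        ((Zs W * Ex W F) * (Zs W * Ex W G)) := fun F G hF hG => by
    rw [← hW.tsum_eq, ← hW.tsum_eq]
    exact (Summable.hasSum hF).mul (Summable.hasSum hG) (summable_mul_of_summable_norm
      (f := fun a => W a * F a) (g := fun a => W a * G a) (Summable.norm hF) (Summable.norm hG))
  have t := (key _ _ (hs.ig ((Tame.exp g₁).mul (Tame.cos A)))
    (hs.ig ((Tame.exp g₂).mul (Tame.cos B)))).sub (key _ _ (hs.ig ((Tame.exp g₁).mul (Tame.sin A)))
    (hs.ig ((Tame.exp g₂).mul (Tame.sin B))))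
  have e : ∀ {f g : L × L → ℝ} {a b : ℝ}, HasSum f a → g = f → b = a → HasSum g b :=
    fun h h1 h2 => h1 ▸ h2 ▸ h
  refine e t (funext fun a => ?_) (by ring)
  rw [Real.cos_add]; ring

theorem fubini {ι : Type*} {u : ι → ℝ} {c : ℤ → ℝ} (hu : Summable u) (hc : Summable c)
    (θ : ι → ℤ → ℝ) : ∑' a, u a * ∑' p, c p * Real.cos (θ a p) =
      ∑' p, c p * ∑' a, u a * Real.cos (θ a p) := by
  have h1 : Summable fun p : ι × ℤ => u p.1 * c p.2 :=
    summable_mul_of_summable_norm (f := u) (g := c) hu.norm hc.norm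
  have h2 : Summable (Function.uncurry fun a p => u a * (c p * Real.cos (θ a p))) := by
    refine Summable.of_norm_bounded h1.norm fun p => ?_
    simp only [Function.uncurry, norm_mul]
    refine mul_le_mul_of_nonneg_left ?_ (norm_nonneg _)
    exact mul_le_of_le_one_right (norm_nonneg _) (Real.abs_cos_le_one _)
  simp only [← tsum_mul_left]
  rw [← h2.tsum_comm]
  exact tsum_congr fun p => tsum_congr fun a => by ring

/-- two independent copies, one spring, Poisson summation over the relative height -/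
theorem poisson {L : Type*} [AddCommGroup L] {W : L → ℝ} (hW : Wt W) (hs : SE W) {S : ℝ → ℝ}
    {c ζ : ℤ → ℝ} {K α : ℝ} (hc : Summable c)
    (hP : ∀ t β, ∑' k : ℤ, S (t + k) * Real.cos (α * k + β) =
      K * ∑' p, c p * Real.cos (ζ p * t + β))
    (sE sW g₁ g₂ h₁ h₂ : L →+ ℝ) {x : ℝ}
    (hx : HasSum (fun p : (L × L) × ℤ => W p.1.1 * W p.1.2 * S (sW p.1.2 - sE p.1.1 + p.2) *
      (Real.exp (g₁ p.1.1 + g₂ p.1.2) * Real.cos (α * p.2 + (h₁ p.1.1 + h₂ p.1.2)))) x) :
    x = K * Zs W ^ 2 * ∑' p, c p *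
      (Ex W (fun s => Real.exp (g₁ s) * Real.cos ((h₁ - ζ p • sE) s)) *
        Ex W (fun s => Real.exp (g₂ s) * Real.cos ((h₂ + ζ p • sW) s)) -
      Ex W (fun s => Real.exp (g₁ s) * Real.sin ((h₁ - ζ p • sE) s)) *
        Ex W (fun s => Real.exp (g₂ s) * Real.sin ((h₂ + ζ p • sW) s))) := by
  have hus : Summable fun a : L × L =>
      (W a.1 * Real.exp (g₁ a.1)) * (W a.2 * Real.exp (g₂ a.2)) :=
    summable_mul_of_summable_norm (f := fun a => W a * Real.exp (g₁ a))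
      (g := fun a => W a * Real.exp (g₂ a)) (hs g₁).norm (hs g₂).norm
  have e1 : x = ∑' a : L × L, K * ((W a.1 * Real.exp (g₁ a.1)) * (W a.2 * Real.exp (g₂ a.2)) *
      ∑' p, c p * Real.cos ((h₁ - ζ p • sE) a.1 + (h₂ + ζ p • sW) a.2)) := by
    rw [← hx.tsum_eq, hx.summable.tsum_prod]
    refine tsum_congr fun a => ?_
    have e : ∀ p, (h₁ - ζ p • sE) a.1 + (h₂ + ζ p • sW) a.2 =
        ζ p * (sW a.2 - sE a.1) + (h₁ a.1 + h₂ a.2) := fun p => by
      simp only [AddMonoidHom.sub_apply, AddMonoidHom.add_apply, AddMonoidHom.smul_apply,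
        smul_eq_mul]
      ring
    simp only [e]
    rw [mul_left_comm, ← hP, ← tsum_mul_left]
    refine tsum_congr fun k => ?_
    rw [Real.exp_add]
    ring
  rw [e1, tsum_mul_left, fubini hus hc, mul_assoc, ← tsum_mul_left (a := Zs W ^ 2)]
  congr 1
  refine tsum_congr fun p => ?_
  rw [(prod_cos hW hs g₁ g₂ (fun s => (h₁ - ζ p • sE) s) fun s => (h₂ + ζ p • sW) s).tsum_eq]
  ring

end B32

end Crest.Agent.T145
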