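import Crest.Agent.T145.GffDef_8
import Crest.Agent.T145.GeoB_51
import Crest.Agent.T145.CorB_59
import Crest.Agent.T145.TbA_32

/-!
# Row 145, module (b): TB (two rectangles, one spring) and G1 (growth of the charge) (helper32)
-/

set_option autoImplicit false

namespace Crest.Agent.T145

open Finset

namespace B32

theorem mem_rc {a x : Pt} {n₁ n₂ : ℕ} :
    x ∈ rc a n₁ n₂ ↔ (a.1 ≤ x.1 ∧ x.1 < a.1 + n₁) ∧ a.2 ≤ x.2 ∧ x.2 < a.2 + n₂ := by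
  simp only [rc, mem_product, mem_Ico]

theorem rect_rc {a x y : Pt} {n₁ n₂ : ℕ} (hx : x ∈ rc a n₁ n₂) (hy : y ∈ rc a n₁ n₂) :
    Rect (rc a n₁ n₂) x y := fun z => by rw [mem_rc] at *; omega

theorem zero_mem {n₁ n₂ : ℕ} (h₁ : 1 ≤ n₁) (h₂ : 1 ≤ n₂) : (0 : Pt) ∈ rc 0 n₁ n₂ := by
  rw [mem_rc]; simp only [Prod.fst_zero, Prod.snd_zero]; omega

theorem anch {Λ : Lat} (h : Λ.Ok) {a r : Pt} {n₁ n₂ : ℕ} (hr : r ∈ rc a n₁ n₂) :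
    (Λ.Nr (rc a n₁ n₂) r).Anch := h.anch_Nr_rect fun _ hx => rect_rc hx hr

theorem cen_WR {Λ : Lat} (h : Λ.Ok) {n₁ n₂ : ℕ} (h₁ : 1 ≤ n₁) (h₂ : 1 ≤ n₂) : Cen (Λ.WR n₁ n₂) :=
  (h.ctr_Nr _ _).cen (anch h (zero_mem h₁ h₂))

theorem osc {Λ : Lat} (h : Λ.Ok) {B : Finset Pt} {x y : Pt} (hB : Rect B x y) (s : Cfg Pt) :
    |(s y : ℝ) - s x| ≤ ∑ e ∈ Λ.edI B, |(dE e s : ℝ)| := by
  obtain ⟨φ, h1, -, -, -, h5⟩ := h.exists_flow _ x rfl hB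
  rw [h5 fun z => (s z : ℝ)]
  refine (abs_sum_le_sum_abs _ _).trans (sum_le_sum fun e _ => ?_)
  rw [zsmul_eq_mul, abs_mul, dE_cast]
  exact mul_le_of_le_one_left (abs_nonneg _) (by exact_mod_cast h1 e)

/-- the column `{c} × [0, n)` -/
noncomputable def cm (n : ℕ) (c : ℤ) : Finset Pt :=
  (Finset.Ico (0 : ℤ) n).map ⟨fun j => (c, j), fun _ _ h => (Prod.mk.inj h).2⟩

theorem mem_cm {n : ℕ} {c : ℤ} {x : Pt} : x ∈ cm n c ↔ x.1 = c ∧ 0 ≤ x.2 ∧ x.2 < n := by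
  simp only [cm, mem_map, mem_Ico]
  exact ⟨fun ⟨j, hj, e⟩ => e ▸ ⟨rfl, hj⟩, fun ⟨e, hj⟩ => ⟨x.2, hj, e ▸ rfl⟩⟩

theorem col_off {n : ℕ} {c : ℤ} {x : Pt} (h : x ∉ cm n c) : col n c x = 0 := by
  rw [col, ind_neg fun h' => h (mem_cm.2 h'), zero_div]

theorem pr_col (n : ℕ) (c : ℤ) (s : Cfg Pt) :
    pr (col n c) s = (∑ j ∈ Finset.Ico (0 : ℤ) n, (s (c, j) : ℝ)) / n := by
  rw [pr_of_fsupp _ s fun x hx => col_off hx, cm, sum_map, sum_div]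
  refine sum_congr rfl fun j hj => ?_
  change col n c (c, j) * (s (c, j) : ℝ) = _
  rw [col, ind_pos ⟨rfl, mem_Ico.1 hj⟩]; ring

theorem col_sup {n₁ n₂ : ℕ} {c : ℤ} (h0 : 0 ≤ c) (h1 : c < n₁) : Sup (rc 0 n₁ n₂) (col n₂ c) :=
  fun x hx => col_off fun h => hx (by
    rw [mem_cm] at h; rw [mem_rc]; simp only [Prod.fst_zero, Prod.snd_zero]; omega)

theorem sum_col {n₁ n₂ : ℕ} {c : ℤ} (h0 : 0 ≤ c) (h1 : c < n₁) (h₂ : 1 ≤ n₂) :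
    ∑ x ∈ rc 0 n₁ n₂, col n₂ c x = 1 := by
  rw [← pr_cst_one, pr_col, sum_congr rfl fun j hj => by
    rw [cst_of_mem 1 (by
      rw [mem_Ico] at hj; rw [mem_rc]; simp only [Prod.fst_zero, Prod.snd_zero]; omega)]]
  have : (n₂ : ℝ) ≠ 0 := by positivity
  simp [this]

theorem ph_refl {Λ : Lat} (h : Λ.Ok) {n₁ n₂ : ℕ} (h₁ : 1 ≤ n₁) (h₂ : 1 ≤ n₂) (p : ℤ) :
    Ph (Λ.WR n₁ n₂) ((2 * Real.pi * p) • pr (col n₂ 0)) =
      Ph (Λ.WR n₁ n₂) ((2 * Real.pi * p) • pr (col n₂ (n₁ - 1))) := by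
  have hB : (rc 0 n₁ n₂).map (Lat.rf1 (n₁ - 1)).toEmbedding = rc 0 n₁ n₂ := by
    ext x
    rw [mem_map_equiv, mem_rc, mem_rc]
    simp only [Lat.rf1, Equiv.prodCongr_symm, Equiv.prodCongr_apply, Prod.map_fst, Prod.map_snd,
      Equiv.subLeft_symm_apply, Equiv.refl_symm, Equiv.coe_refl, id, Prod.fst_zero, Prod.snd_zero]
    omega
  have := (h.sym_rf1 (n₁ - 1)).Ph_Nr h hB (zero_mem h₁ h₂) (zero_mem h₁ h₂)
    (f := (2 * Real.pi * p) • col n₂ 0) (q := p) (by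
      simp only [Pi.smul_apply, smul_eq_mul]
      rw [← mul_sum, sum_col le_rfl (by omega) h₂, mul_one])
  rw [← pr_smul, ← pr_smul, Lat.WR, this]
  congr 2
  funext x
  simp only [Pi.smul_apply, Lat.rf1_apply, col]
  rw [ind_congr (q := x.1 = n₁ - 1 ∧ 0 ≤ x.2 ∧ x.2 < n₂) (by omega)]

/-- the seam -/
noncomputable def sm (n₁ n₂ : ℕ) : Finset (Pt × Pt) :=
  (Finset.Ico (0 : ℤ) n₂).map ⟨fun j => (((n₁ : ℤ) - 1, j), ((n₁ : ℤ), j)),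
    fun _ _ h => (Prod.mk.inj (Prod.mk.inj h).1).2⟩

/-- gluing two configurations and a relative height -/
noncomputable def gl (n₁ n₂ : ℕ) (p : (Cfg Pt × Cfg Pt) × ℤ) : Cfg Pt :=
  p.1.1 + mapH (Equiv.addRight ((n₁ : ℤ), (0 : ℤ))) p.1.2 + cst (rc ((n₁ : ℤ), 0) n₁ n₂) p.2

/-- rooted configurations on the rectangle -/
def Sp (n₁ n₂ : ℕ) (s : Cfg Pt) : Prop := ∀ x, x ∉ (rc 0 n₁ n₂).erase 0 → s x = 0

variable {Λ : Lat} {n₁ n₂ : ℕ}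

theorem Sp.off {s : Cfg Pt} (h : Sp n₁ n₂ s) {x : Pt} (hx : x ∉ rc 0 n₁ n₂) : s x = 0 :=
  h x fun h' => hx (mem_of_mem_erase h')

theorem Sp.root {s : Cfg Pt} (h : Sp n₁ n₂ s) : s 0 = 0 := h 0 (notMem_erase _ _)

theorem gl_apply (p : (Cfg Pt × Cfg Pt) × ℤ) (x : Pt) : gl n₁ n₂ p x =
    p.1.1 x + p.1.2 (x - ((n₁ : ℤ), 0)) + cst (rc ((n₁ : ℤ), 0) n₁ n₂) p.2 x := by
  simp only [gl, Finsupp.add_apply, mapH_apply, sub_eq_add_neg]; rfl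

theorem gl_left {p : (Cfg Pt × Cfg Pt) × ℤ} (hb : Sp n₁ n₂ p.1.2) {x : Pt}
    (hx : x ∈ rc 0 n₁ n₂) : gl n₁ n₂ p x = p.1.1 x := by
  rw [mem_rc] at hx
  simp only [Prod.fst_zero, Prod.snd_zero] at hx
  rw [gl_apply, hb.off, cst_of_notMem, add_zero, add_zero] <;> rw [mem_rc] <;>
    simp only [Prod.fst_zero, Prod.snd_zero, Prod.fst_sub, Prod.snd_sub] <;> omega

theorem gl_right {p : (Cfg Pt × Cfg Pt) × ℤ} (ha : Sp n₁ n₂ p.1.1) {x : Pt}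
    (hx : x ∈ rc 0 n₁ n₂) : gl n₁ n₂ p (x + ((n₁ : ℤ), 0)) = p.1.2 x + p.2 := by
  rw [mem_rc] at hx
  simp only [Prod.fst_zero, Prod.snd_zero] at hx
  rw [gl_apply, ha.off, cst_of_mem, zero_add, add_sub_cancel_right] <;> rw [mem_rc] <;>
    simp only [Prod.fst_zero, Prod.snd_zero, Prod.fst_add, Prod.snd_add] <;> omega

theorem gl_sp {p : (Cfg Pt × Cfg Pt) × ℤ} (h₁ : 1 ≤ n₁) (h₂ : 1 ≤ n₂) (ha : Sp n₁ n₂ p.1.1)
    (hb : Sp n₁ n₂ p.1.2) : Sp (2 * n₁) n₂ (gl n₁ n₂ p) := fun x hx => by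
  by_cases h0 : x = 0
  · rw [h0, gl_left hb (zero_mem h₁ h₂), ha.root]
  have hx' : x ∉ rc 0 (2 * n₁) n₂ := fun h => hx (mem_erase.2 ⟨h0, h⟩)
  rw [mem_rc] at hx'
  simp only [Prod.fst_zero, Prod.snd_zero] at hx'
  push_cast at hx'
  rw [gl_apply, ha.off, hb.off, cst_of_notMem, add_zero, add_zero] <;> rw [mem_rc] <;>
    simp only [Prod.fst_zero, Prod.snd_zero, Prod.fst_sub, Prod.snd_sub] <;> omega

theorem gl_inj (h₁ : 1 ≤ n₁) (h₂ : 1 ≤ n₂) {p p' : (Cfg Pt × Cfg Pt) × ℤ} (ha : Sp n₁ n₂ p.1.1)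
    (hb : Sp n₁ n₂ p.1.2) (ha' : Sp n₁ n₂ p'.1.1) (hb' : Sp n₁ n₂ p'.1.2)
    (h : gl n₁ n₂ p = gl n₁ n₂ p') : p = p' := by
  have hk : p.2 = p'.2 := by
    have := gl_right ha (zero_mem h₁ h₂)
    rwa [h, gl_right ha' (zero_mem h₁ h₂), hb.root, hb'.root, zero_add, zero_add, eq_comm] at this
  refine Prod.ext (Prod.ext ?_ ?_) hk <;> ext x <;> by_cases hx : x ∈ rc 0 n₁ n₂
  · rw [← gl_left hb hx, h, gl_left hb' hx]
  · rw [ha.off hx, ha'.off hx]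
  · have := gl_right ha hx
    rw [h, gl_right ha' hx, hk] at this
    exact (add_right_cancel this).symm
  · rw [hb.off hx, hb'.off hx]

theorem gl_surj {s : Cfg Pt} (hs : Sp (2 * n₁) n₂ s) :
    ∃ p, Sp n₁ n₂ p.1.1 ∧ Sp n₁ n₂ p.1.2 ∧ gl n₁ n₂ p = s := by
  let b : Cfg Pt := pw (rc 0 n₁ n₂) (mapH (Equiv.addRight ((n₁ : ℤ), (0 : ℤ))).symm s) 0 -
    cst (rc 0 n₁ n₂) (s ((n₁ : ℤ), 0))
  have hb1 : ∀ x ∈ rc 0 n₁ n₂, b x = s (x + ((n₁ : ℤ), 0)) - s ((n₁ : ℤ), 0) := fun x hx => by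
    simp only [b, Finsupp.sub_apply, pw_of_mem _ _ hx, cst_of_mem _ hx]; rfl
  have hb2 : ∀ x, x ∉ rc 0 n₁ n₂ → b x = 0 := fun x hx => by
    simp only [b, Finsupp.sub_apply, pw_of_notMem _ _ hx, cst_of_notMem _ hx]; rfl
  have ha : Sp n₁ n₂ (pw (rc 0 n₁ n₂) s 0) := fun x hx => by
    rw [pw_apply]; split_ifs with h
    · rw [show x = 0 from by_contra fun h0 => hx (mem_erase.2 ⟨h0, h⟩), hs.root]
    · rfl
  have hb : Sp n₁ n₂ b := fun x hx => by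
    by_cases h : x ∈ rc 0 n₁ n₂
    · rw [hb1 x h, show x = 0 from by_contra fun h0 => hx (mem_erase.2 ⟨h0, h⟩), zero_add, sub_self]
    · exact hb2 x h
  refine ⟨((pw (rc 0 n₁ n₂) s 0, b), s ((n₁ : ℤ), 0)), ha, hb, ?_⟩
  ext x
  by_cases h : x ∈ rc 0 n₁ n₂
  · rw [gl_left hb h]; exact pw_of_mem _ _ h
  by_cases h' : x - ((n₁ : ℤ), 0) ∈ rc 0 n₁ n₂
  · have := gl_right (p := ((pw (rc 0 n₁ n₂) s 0, b), s ((n₁ : ℤ), 0))) ha h'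
    rw [sub_add_cancel] at this
    rw [this]
    simp only [hb1 _ h', sub_add_cancel]
  · rw [gl_apply, ha.off h, hb.off h', cst_of_notMem, hs.off, add_zero, add_zero] <;>
      rw [mem_rc] at * <;>
      simp only [Prod.fst_zero, Prod.snd_zero, Prod.fst_sub, Prod.snd_sub] at * <;> omega

theorem WR_eq {s : Cfg Pt} (hs : Sp n₁ n₂ s) :
    Λ.WR n₁ n₂ s = ∏ e ∈ Λ.edI (rc 0 n₁ n₂), Λ.w (dE e s) := by
  simp only [Lat.WR, Mdl.W, Lat.Nr_A, Lat.Nr_ed, Lat.Nr_w, Lat.Nr_site, prod_const_one, mul_one]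
  rw [ind_pos (by exact hs), one_mul]

theorem WR_sp {s : Cfg Pt} (hs : Λ.WR n₁ n₂ s ≠ 0) : Sp n₁ n₂ s := Md.W_off hs

/-- the unglued weight -/
noncomputable def U (Λ : Lat) (n₁ n₂ : ℕ) (κ : ℝ) : Cfg Pt → ℝ :=
  (Λ.Nr (rc 0 (2 * n₁) n₂) 0).ung (Λ.edI (rc 0 n₁ n₂) ∪ Λ.edI (rc ((n₁ : ℤ), 0) n₁ n₂))
    ({()} : Finset Unit) (fun _ => sm n₁ n₂) Λ.w κ 0

theorem card_sm : (sm n₁ n₂).card = n₂ := by simp [sm]

theorem sum_sm (s : Cfg Pt) : ∑ e ∈ sm n₁ n₂, (dE e s : ℝ) =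
    ∑ j ∈ Finset.Ico (0 : ℤ) n₂, ((s ((n₁ : ℤ), j) : ℝ) - s ((n₁ : ℤ) - 1, j)) := by
  simp only [sm, sum_map, dE_cast]; rfl

theorem disj : Disjoint (rc 0 n₁ n₂) (rc ((n₁ : ℤ), 0) n₁ n₂) :=
  disjoint_left.2 fun x h h' => by
    rw [mem_rc] at *; simp only [Prod.fst_zero, Prod.snd_zero] at *; omega

theorem mem_add {x : Pt} : x + ((n₁ : ℤ), 0) ∈ rc ((n₁ : ℤ), 0) n₁ n₂ ↔ x ∈ rc 0 n₁ n₂ := by
  rw [mem_rc, mem_rc]
  simp only [Prod.fst_zero, Prod.snd_zero, Prod.fst_add, Prod.snd_add]; omega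

theorem U_sp {κ : ℝ} {s : Cfg Pt} (hs : U Λ n₁ n₂ κ s ≠ 0) : Sp (2 * n₁) n₂ s :=
  Md.of_ind_ne (left_ne_zero_of_mul (left_ne_zero_of_mul (left_ne_zero_of_mul hs)))

theorem U_gl (h₁ : 1 ≤ n₁) (h₂ : 1 ≤ n₂) (κ : ℝ) {p : (Cfg Pt × Cfg Pt) × ℤ} (ha : Sp n₁ n₂ p.1.1)
    (hb : Sp n₁ n₂ p.1.2) : U Λ n₁ n₂ κ (gl n₁ n₂ p) = Λ.WR n₁ n₂ p.1.1 * Λ.WR n₁ n₂ p.1.2 *
      spr Λ.w n₂ κ (pr (col n₂ 0) p.1.2 - pr (col n₂ (n₁ - 1)) p.1.1 + p.2) := by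
  simp only [U, Mdl.ung, Mdl.Ws, Mdl.keep_A, Mdl.keep_ed, Mdl.keep_w, Mdl.keep_site, Lat.Nr_A,
    Lat.Nr_w, Lat.Nr_site, prod_const_one, mul_one, Pi.zero_apply, add_zero, prod_singleton, card_sm]
  rw [ind_pos (by exact gl_sp h₁ h₂ ha hb), one_mul, prod_union (Lat.disjoint_edI disj), WR_eq ha, WR_eq hb]
  congr 2
  · refine prod_congr rfl fun e he => ?_
    rw [Lat.mem_edI] at he
    rw [Md.dE_congr (gl_left hb he.2.1) (gl_left hb he.2.2)]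
  · symm
    refine prod_nbij' (fun e => (e.1 + ((n₁ : ℤ), 0), e.2 + ((n₁ : ℤ), 0)))
      (fun e => (e.1 - ((n₁ : ℤ), 0), e.2 - ((n₁ : ℤ), 0))) (fun e he => ?_) (fun e he => ?_)
      (fun e _ => by simp) (fun e _ => by simp) fun e he => ?_
    · rw [Lat.mem_edI] at he ⊢
      exact ⟨by simpa using he.1, mem_add.2 he.2.1, mem_add.2 he.2.2⟩
    · rw [Lat.mem_edI] at he ⊢
      exact ⟨by simpa using he.1, mem_add.1 (by simpa using he.2.1), mem_add.1 (by simpa using he.2.2)⟩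
    · rw [Lat.mem_edI] at he
      simp only [dE, gl_right ha he.2.1, gl_right ha he.2.2, add_sub_add_right_eq_sub]
  · have hn : (n₂ : ℝ) ≠ 0 := by positivity
    have e : ∀ j ∈ Finset.Ico (0 : ℤ) n₂, ((gl n₁ n₂ p ((n₁ : ℤ), j) : ℝ) -
        gl n₁ n₂ p ((n₁ : ℤ) - 1, j)) = p.1.2 (0, j) - p.1.1 ((n₁ : ℤ) - 1, j) + p.2 := by
      intro j hj
      rw [mem_Ico] at hj
      have e1 := gl_right ha (x := (0, j)) (by
        rw [mem_rc]; simp only [Prod.fst_zero, Prod.snd_zero]; omega)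
      simp only [Prod.mk_add_mk, zero_add, add_zero] at e1
      rw [e1, gl_left hb (by rw [mem_rc]; simp only [Prod.fst_zero, Prod.snd_zero]; omega)]
      push_cast; ring
    rw [sum_sm, sum_congr rfl e, pr_col, pr_col, sum_add_distrib, sum_sub_distrib]
    simp only [sum_const, Int.card_Ico, sub_zero, Int.toNat_natCast, nsmul_eq_mul]
    field_simp

theorem pr_gl {f₁ f₂ : Pt → ℝ} (hf₁ : Sup (rc 0 n₁ n₂) f₁) (hf₂ : Sup (rc 0 n₁ n₂) f₂)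
    {p : (Cfg Pt × Cfg Pt) × ℤ} (ha : Sp n₁ n₂ p.1.1) (hb : Sp n₁ n₂ p.1.2) :
    pr (fun x => f₁ x + f₂ (x - ((n₁ : ℤ), 0))) (gl n₁ n₂ p) =
      (∑ x ∈ rc 0 n₁ n₂, f₂ x) * p.2 + (pr f₁ p.1.1 + pr f₂ p.1.2) := by
  have e := pr_mapH (Equiv.addRight ((n₁ : ℤ), (0 : ℤ))).symm f₂ (gl n₁ n₂ p)
  have e' : (fun x => f₂ (x - ((n₁ : ℤ), 0))) =
      fun x => f₂ ((Equiv.addRight ((n₁ : ℤ), (0 : ℤ))).symm x) := by
    funext x; rw [sub_eq_add_neg]; rfl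
  rw [pr_add', AddMonoidHom.add_apply, e', ← e, pr_of_fsupp _ _ hf₁, pr_of_fsupp _ _ hf₂,
    pr_of_fsupp _ _ hf₁, pr_of_fsupp _ _ hf₂, sum_mul, ← sum_add_distrib, ← sum_add_distrib,
    ← sum_add_distrib]
  refine sum_congr rfl fun x hx => ?_
  rw [gl_left hb hx, mapH_apply, Equiv.symm_symm, Equiv.coe_addRight]
  simp only [gl_right ha hx]
  push_cast; ring

theorem hasSum_U (h₁ : 1 ≤ n₁) (h₂ : 1 ≤ n₂) (κ : ℝ) {F : Cfg Pt → ℝ}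
    {G : (Cfg Pt × Cfg Pt) × ℤ → ℝ} (hF : Ig (U Λ n₁ n₂ κ) F)
    (hG : ∀ p, Sp n₁ n₂ p.1.1 → Sp n₁ n₂ p.1.2 → F (gl n₁ n₂ p) = G p) :
    HasSum (fun p : (Cfg Pt × Cfg Pt) × ℤ => Λ.WR n₁ n₂ p.1.1 * Λ.WR n₁ n₂ p.1.2 *
      spr Λ.w n₂ κ (pr (col n₂ 0) p.1.2 - pr (col n₂ (n₁ - 1)) p.1.1 + p.2) * G p)
      (∑' s, U Λ n₁ n₂ κ s * F s) := by
  have k : ∀ p : (Cfg Pt × Cfg Pt) × ℤ, Λ.WR n₁ n₂ p.1.1 * Λ.WR n₁ n₂ p.1.2 *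
      spr Λ.w n₂ κ (pr (col n₂ 0) p.1.2 - pr (col n₂ (n₁ - 1)) p.1.1 + p.2) * G p ≠ 0 →
      Sp n₁ n₂ p.1.1 ∧ Sp n₁ n₂ p.1.2 := fun p hp =>
    have := left_ne_zero_of_mul (left_ne_zero_of_mul hp)
    ⟨WR_sp (left_ne_zero_of_mul this), WR_sp (right_ne_zero_of_mul this)⟩
  refine (hasSum_iff_hasSum_of_ne_zero_bij (fun p => gl n₁ n₂ p.1) ?_ ?_ ?_).1 (Summable.hasSum hF)
  · rintro ⟨p, hp⟩ ⟨p', hp'⟩ h
    exact Subtype.ext (gl_inj h₁ h₂ (k p hp).1 (k p hp).2 (k p' hp').1 (k p' hp').2 h)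
  · intro s hs
    obtain ⟨p, ha, hb, rfl⟩ := gl_surj (U_sp (left_ne_zero_of_mul hs))
    refine ⟨⟨p, ?_⟩, rfl⟩
    rw [Function.mem_support, ← U_gl h₁ h₂ κ ha hb, ← hG p ha hb]
    exact hs
  · rintro ⟨p, hp⟩
    simp only
    rw [U_gl h₁ h₂ κ (k p hp).1 (k p hp).2, hG p (k p hp).1 (k p hp).2]

theorem ung (hU : UngStmt) (h : Λ.Ok) (h₁ : 1 ≤ n₁) (h₂ : 1 ≤ n₂) {κ : ℝ} (hκ : 0 < κ) :
    Cen (U Λ n₁ n₂ κ) ∧ Loc (Λ.WR (2 * n₁) n₂) (U Λ n₁ n₂ κ) := by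
  have hs : ∀ e ∈ sm n₁ n₂, ∃ j : ℤ, 0 ≤ j ∧ j < n₂ ∧ e = (((n₁ : ℤ) - 1, j), ((n₁ : ℤ), j)) :=
    fun e he => by
      obtain ⟨j, hj, rfl⟩ := mem_map.1 he
      exact ⟨j, (mem_Ico.1 hj).1, (mem_Ico.1 hj).2, rfl⟩
  have := hU Pt Unit (Λ.Nr (rc 0 (2 * n₁) n₂) 0)
    (Λ.edI (rc 0 n₁ n₂) ∪ Λ.edI (rc ((n₁ : ℤ), 0) n₁ n₂)) {()} (fun _ => sm n₁ n₂) Λ.w κ
    (h.ctr_Nr _ _) (anch h (zero_mem (by omega) h₂)) h.fam hκ
    (union_subset (Lat.edI_mono fun x hx => ?_) (Lat.edI_mono fun x hx => ?_))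
    (fun _ _ => ⟨card_pos.1 (by rw [card_sm]; omega), fun e he => ?_, ?_, fun _ _ => rfl⟩)
    (fun _ _ _ _ hb => absurd rfl hb) ⟨2, fun s hs x => ?_⟩
  · exact ⟨this.1, this.2.2.1⟩
  · rw [mem_rc] at *; simp only [Prod.fst_zero, Prod.snd_zero] at *; omega
  · rw [mem_rc] at *; simp only [Prod.fst_zero, Prod.snd_zero] at *; omega
  · obtain ⟨j, h0, h1, rfl⟩ := hs e he
    refine Lat.mem_edI.2 ⟨by simpa using h.e1, ?_, ?_⟩ <;> rw [mem_rc] <;>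
      simp only [Prod.fst_zero, Prod.snd_zero] <;> omega
  · refine disjoint_left.2 fun e he he' => ?_
    obtain ⟨j, h0, h1, rfl⟩ := hs e he
    rcases mem_union.1 he' with h' | h' <;> rw [Lat.mem_edI, mem_rc, mem_rc] at h' <;>
      simp only [Prod.fst_zero, Prod.snd_zero] at h' <;> omega
  · have hs : Sp (2 * n₁) n₂ s := hs
    rw [sum_union (Lat.disjoint_edI disj), sum_singleton, sum_sm]
    set D₁ := ∑ e ∈ Λ.edI (rc 0 n₁ n₂), |(dE e s : ℝ)|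
    set D₂ := ∑ e ∈ Λ.edI (rc ((n₁ : ℤ), 0) n₁ n₂), |(dE e s : ℝ)|
    set T := ∑ j ∈ Finset.Ico (0 : ℤ) n₂, ((s ((n₁ : ℤ), j) : ℝ) - s ((n₁ : ℤ) - 1, j)) with hT
    have d1 : 0 ≤ D₁ := sum_nonneg fun _ _ => abs_nonneg _
    have d2 : 0 ≤ D₂ := sum_nonneg fun _ _ => abs_nonneg _
    have d3 := abs_nonneg T
    have a1 : ∀ y ∈ rc 0 n₁ n₂, |(s y : ℝ)| ≤ D₁ := fun y hy => by
      simpa [hs.root] using osc h (rect_rc (zero_mem h₁ h₂) hy) s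
    by_cases hx : x ∈ rc 0 n₁ n₂
    · linarith [a1 x hx]
    by_cases hx' : x ∈ rc ((n₁ : ℤ), 0) n₁ n₂
    · have a2 : |(n₂ : ℝ) * s x - T| ≤ n₂ * (D₁ + D₂) := by
        have e1 : ∀ c : ℝ, (n₂ : ℝ) * c = ∑ _j ∈ Finset.Ico (0 : ℤ) n₂, c := fun c => by simp
        rw [e1, e1, hT, ← sum_sub_distrib]
        refine (abs_sum_le_sum_abs _ _).trans (sum_le_sum fun j hj => ?_)
        rw [mem_Ico] at hj
        have b1 := a1 ((n₁ : ℤ) - 1, j) (by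
          rw [mem_rc]; simp only [Prod.fst_zero, Prod.snd_zero]; omega)
        have b2 := osc h (rect_rc (x := ((n₁ : ℤ), j)) (by rw [mem_rc]; simp only []; omega) hx') s
        rw [abs_le] at *
        constructor <;> linarith [b1.1, b1.2, b2.1, b2.2]
      have hn : (1 : ℝ) ≤ n₂ := by exact_mod_cast h₂
      have a3 : (n₂ : ℝ) * |(s x : ℝ)| ≤ n₂ * (D₁ + D₂) + |T| := by
        have := abs_add_le ((n₂ : ℝ) * s x - T) T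
        rw [sub_add_cancel, abs_mul, abs_of_pos (by linarith : (0 : ℝ) < n₂)] at this
        linarith
      have : |(s x : ℝ)| ≤ D₁ + D₂ + |T| :=
        le_of_mul_le_mul_left (by nlinarith) (by linarith : (0 : ℝ) < n₂)
      linarith
    · rw [hs.off (by
        rw [mem_rc] at *; simp only [Prod.fst_zero, Prod.snd_zero] at *; omega)]
      simp only [Int.cast_zero, abs_zero]
      positivity

theorem c_bd (hS : SprStmt) (h : Λ.Ok) (h₂ : 1 ≤ n₂) {κ : ℝ} (hκ : 0 < κ) (ζ : ℝ) :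
    Real.exp (-(1 / κ + Λ.τ / n₂) * ζ ^ 2 / 2) ≤ Real.exp (-ζ ^ 2 / (2 * κ)) * chi Λ.w n₂ ζ ∧
      Real.exp (-ζ ^ 2 / (2 * κ)) * chi Λ.w n₂ ζ ≤ Real.exp (-ζ ^ 2 / (2 * κ)) := by
  have := (hS Λ.xy Λ.τ κ n₂ h.pos hκ h₂).1 ζ
  refine ⟨le_of_eq_of_le ?_ (mul_le_mul_of_nonneg_left this.1 (Real.exp_pos _).le),
    mul_le_of_le_one_right (Real.exp_pos _).le this.2.1⟩
  rw [← Real.exp_add]; congr 1; ring

theorem two_pi : 1 ≤ 2 * Real.pi := by linarith [Real.pi_gt_three]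

theorem c_summable (hS : SprStmt) (h : Λ.Ok) (h₂ : 1 ≤ n₂) {κ : ℝ} (hκ : 0 < κ) (α : ℝ) :
    Summable fun p : ℤ => Real.exp (-(2 * Real.pi * p - α) ^ 2 / (2 * κ)) *
      chi Λ.w n₂ (2 * Real.pi * p - α) :=
  Summable.of_nonneg_of_le (fun _ => (Real.exp_pos _).le.trans (c_bd hS h h₂ hκ _).1)
    (fun _ => (c_bd hS h h₂ hκ _).2) (summable_gauss (by positivity) _ α two_pi)

theorem sum_U (hU : UngStmt) (hS : SprStmt) (h : Λ.Ok) (h₁ : 1 ≤ n₁) (h₂ : 1 ≤ n₂) {κ : ℝ}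
    (hκ : 0 < κ) (G H g₁ g₂ k₁ k₂ : Cfg Pt →+ ℝ) (α : ℝ)
    (hG : ∀ p, Sp n₁ n₂ p.1.1 → Sp n₁ n₂ p.1.2 → G (gl n₁ n₂ p) = g₁ p.1.1 + g₂ p.1.2)
    (hH : ∀ p, Sp n₁ n₂ p.1.1 → Sp n₁ n₂ p.1.2 →
      H (gl n₁ n₂ p) = α * p.2 + (k₁ p.1.1 + k₂ p.1.2)) :
    ∑' s, U Λ n₁ n₂ κ s * (Real.exp (G s) * Real.cos (H s)) =
      Real.sqrt (2 * Real.pi / κ) * Zs (Λ.WR n₁ n₂) ^ 2 * ∑' p : ℤ,
        Real.exp (-(2 * Real.pi * p - α) ^ 2 / (2 * κ)) * chi Λ.w n₂ (2 * Real.pi * p - α) *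
      (Ex (Λ.WR n₁ n₂) (fun s => Real.exp (g₁ s) *
          Real.cos ((k₁ - (2 * Real.pi * p - α) • pr (col n₂ (n₁ - 1))) s)) *
        Ex (Λ.WR n₁ n₂) (fun s => Real.exp (g₂ s) *
          Real.cos ((k₂ + (2 * Real.pi * p - α) • pr (col n₂ 0)) s)) -
      Ex (Λ.WR n₁ n₂) (fun s => Real.exp (g₁ s) *
          Real.sin ((k₁ - (2 * Real.pi * p - α) • pr (col n₂ (n₁ - 1))) s)) *
        Ex (Λ.WR n₁ n₂) (fun s => Real.exp (g₂ s) *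
          Real.sin ((k₂ + (2 * Real.pi * p - α) • pr (col n₂ 0)) s))) :=
  poisson (cen_WR h h₁ h₂).wt (cen_WR h h₁ h₂).se (S := spr Λ.w n₂ κ) (c_summable hS h h₂ hκ α)
    (fun t β => (hS Λ.xy Λ.τ κ n₂ h.pos hκ h₂).2.2.2.1 t α β) _ _ g₁ g₂ k₁ k₂
    (hasSum_U h₁ h₂ κ ((ung hU h h₁ h₂ hκ).1.ig ((Tame.exp G).mul (Tame.cos _)))
      fun p ha hb => by rw [hG p ha hb, hH p ha hb])

theorem sum_cos (hU : UngStmt) (hS : SprStmt) (h : Λ.Ok) (h₁ : 1 ≤ n₁) (h₂ : 1 ≤ n₂) {κ : ℝ}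
    (hκ : 0 < κ) (H k₁ k₂ : Cfg Pt →+ ℝ) (α : ℝ)
    (hH : ∀ p, Sp n₁ n₂ p.1.1 → Sp n₁ n₂ p.1.2 →
      H (gl n₁ n₂ p) = α * p.2 + (k₁ p.1.1 + k₂ p.1.2)) :
    ∑' s, U Λ n₁ n₂ κ s * Real.cos (H s) =
      Real.sqrt (2 * Real.pi / κ) * Zs (Λ.WR n₁ n₂) ^ 2 * ∑' p : ℤ,
        Real.exp (-(2 * Real.pi * p - α) ^ 2 / (2 * κ)) * chi Λ.w n₂ (2 * Real.pi * p - α) *
      (Ph (Λ.WR n₁ n₂) (k₁ - (2 * Real.pi * p - α) • pr (col n₂ (n₁ - 1))) *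
        Ph (Λ.WR n₁ n₂) (k₂ + (2 * Real.pi * p - α) • pr (col n₂ 0))) := by
  have := sum_U hU hS h h₁ h₂ hκ 0 H 0 0 k₁ k₂ α (fun _ _ _ => by simp) hH
  have o : ∀ f : Cfg Pt →+ ℝ, Ex (Λ.WR n₁ n₂) (fun s => Real.sin (f s)) = 0 := fun f =>
    (cen_WR h h₁ h₂).ex_odd fun s => by rw [map_neg, Real.sin_neg]
  simp only [AddMonoidHom.zero_apply, Real.exp_zero, one_mul, o, mul_zero, sub_zero] at this
  exact this

theorem Zs_U (hU : UngStmt) (hS : SprStmt) (h : Λ.Ok) (h₁ : 1 ≤ n₁) (h₂ : 1 ≤ n₂) {κ : ℝ}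
    (hκ : 0 < κ) : Zs (U Λ n₁ n₂ κ) =
      Real.sqrt (2 * Real.pi / κ) * Zs (Λ.WR n₁ n₂) ^ 2 * ∑' p : ℤ,
        Real.exp (-(2 * Real.pi * p) ^ 2 / (2 * κ)) * chi Λ.w n₂ (2 * Real.pi * p) *
          Ph (Λ.WR n₁ n₂) ((2 * Real.pi * p) • pr (col n₂ (n₁ - 1))) ^ 2 := by
  have := sum_cos hU hS h h₁ h₂ hκ 0 0 0 0 fun _ _ _ => by simp
  simp only [AddMonoidHom.zero_apply, Real.cos_zero, mul_one, sub_zero, zero_sub, zero_add, Ph_neg,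
    ph_refl h h₁ h₂, ← pow_two] at this
  exact this

theorem hfun {a l : ℝ} (ha0 : 0 ≤ a) (ha1 : a ≤ 1) (hl0 : 0 ≤ l) (hl1 : l ≤ 1) :
    2 * a * (1 + a ^ 2) / (1 + a) ^ 2 - (1 - l ^ 3) ≤
      2 * (a * l) * (1 + (a * l) ^ 2) / (1 + a * l) ^ 2 := by
  have h1 : 2 * a * (1 + a ^ 2) / (1 + a) ^ 2 ≤ 1 := by
    rw [div_le_one (by positivity)]
    nlinarith [mul_nonneg (sq_nonneg a) (sub_nonneg.2 ha1), mul_nonneg ha0 (sub_nonneg.2 ha1)]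
  have h3 : l ^ 3 ≤ l := pow_le_of_le_one hl0 hl1 three_ne_zero
  have h2 : l ^ 3 * (2 * a * (1 + a ^ 2)) / (1 + a) ^ 2 ≤
      2 * (a * l) * (1 + (a * l) ^ 2) / (1 + a * l) ^ 2 :=
    div_le_div₀ (by positivity) (by nlinarith [mul_le_mul_of_nonneg_left h3 ha0]) (by positivity)
      (pow_le_pow_left₀ (by positivity) (by nlinarith) 2)
  rw [mul_div_assoc] at h2
  nlinarith [mul_le_mul_of_nonneg_left h1 (sub_nonneg.2 (h3.trans hl1))]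

theorem g1_abs {A : ℤ → ℝ} {c : ℝ → ℝ} {κ u P : ℝ} {q : ℤ} (hκ : 0 < κ) (hu : 0 ≤ u)
    (h0 : ∀ p, 0 ≤ A p) (h1 : ∀ p, A p ≤ 1) (hA : A 0 = 1)
    (hp : ∀ p, A p ^ 2 * A q ^ 2 ≤ A (p + q) * A (p + -q))
    (hc : ∀ ζ, Real.exp (-(1 / κ + u) * ζ ^ 2 / 2) ≤ c ζ ∧ c ζ ≤ Real.exp (-ζ ^ 2 / (2 * κ)))
    (hP0 : 0 ≤ P) (hP1 : P ≤ 1)
    (h : ∑' p : ℤ, c (2 * Real.pi * p - Real.pi * q) * (A (p + -q) * A p) ≤
      P * ∑' p : ℤ, c (2 * Real.pi * p) * A p ^ 2) :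
    2 * A q * (1 + A q ^ 2) / (1 + A q) ^ 2 - 3 * ((1 / κ + u) * Real.pi ^ 2 * q ^ 2) -
      2 * κ * u * ∑' p : ℤ, Real.exp (-(2 * Real.pi * p - 0) ^ 2 / (4 * κ)) ≤ P := by
  obtain ⟨s, hs⟩ : ∃ s, s = 1 / κ + u := ⟨_, rfl⟩
  have hs0 : 0 < s := hs ▸ add_pos_of_pos_of_nonneg (by positivity) hu
  rw [← hs] at hc ⊢
  have c0 : ∀ ζ, 0 ≤ c ζ := fun ζ => (Real.exp_pos _).le.trans (hc ζ).1
  obtain ⟨b, hb⟩ : ∃ b : ℤ → ℝ, ∀ p, b p = A p * Real.exp (-(s * Real.pi ^ 2 * p ^ 2)) :=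
    ⟨_, fun _ => rfl⟩
  have b0 : ∀ p, 0 ≤ b p := fun p => hb p ▸ mul_nonneg (h0 p) (Real.exp_pos _).le
  have b2 : ∀ p, b p ^ 2 = Real.exp (-s * (2 * Real.pi * p) ^ 2 / 2) * A p ^ 2 := fun p => by
    rw [hb, mul_pow, ← Real.exp_nat_mul, mul_comm]; congr 2; push_cast; ring
  have a2 : ∀ p, A p ^ 2 ≤ 1 := fun p => pow_le_one₀ (h0 p) (h1 p)
  have sg := fun α => summable_gauss (s := 2 * κ) (by positivity) _ α two_pi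
  have sc : Summable fun p : ℤ => c (2 * Real.pi * p) * A p ^ 2 :=
    Summable.of_nonneg_of_le (fun p => mul_nonneg (c0 _) (sq_nonneg _))
      (fun p => (mul_le_of_le_one_right (c0 _) (a2 p)).trans (by simpa using (hc _).2)) (sg 0)
  have sb : Summable fun p => b p ^ 2 := Summable.of_nonneg_of_le (fun p => sq_nonneg _)
    (fun p => b2 p ▸ mul_le_mul_of_nonneg_right (hc _).1 (sq_nonneg _)) sc
  have sd : Summable fun p : ℤ => c (2 * Real.pi * p - Real.pi * q) * (A (p + -q) * A p) :=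
    Summable.of_nonneg_of_le (fun p => mul_nonneg (c0 _) (mul_nonneg (h0 _) (h0 _)))
      (fun p => (mul_le_of_le_one_right (c0 _) (mul_le_one₀ (h1 _) (h0 _) (h1 _))).trans (hc _).2)
      (sg _)
  have se := summable_gauss (s := 4 * κ) (by positivity) _ 0 two_pi
  obtain ⟨S, hS⟩ : ∃ S, S = ∑' p : ℤ, Real.exp (-(2 * Real.pi * p - 0) ^ 2 / (4 * κ)) := ⟨_, rfl⟩
  have hS0 : 0 ≤ S := hS ▸ tsum_nonneg fun _ => (Real.exp_pos _).le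
  obtain ⟨l, hl⟩ : ∃ l, l = Real.exp (-(s * Real.pi ^ 2 * q ^ 2)) := ⟨_, rfl⟩
  have l0 : 0 ≤ l := hl ▸ (Real.exp_pos _).le
  have l1 : l ≤ 1 := hl ▸ Real.exp_le_one_iff.2 (neg_nonpos.2 (by positivity))
  have l3 : 1 - l ^ 3 ≤ 3 * (s * Real.pi ^ 2 * q ^ 2) := by
    rw [hl, ← Real.exp_nat_mul]
    have := Real.add_one_le_exp ((3 : ℕ) * -(s * Real.pi ^ 2 * q ^ 2))
    push_cast at this ⊢
    linarith
  have k1 := seq (α := A q * l) (q := q) b0 sb (mul_nonneg (h0 q) l0)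
    (mul_le_one₀ (h1 q) l0 l1) fun p => by
      have e : Real.exp (-(s * Real.pi ^ 2 * ((p + q : ℤ) : ℝ) ^ 2)) *
          Real.exp (-(s * Real.pi ^ 2 * ((p + -q : ℤ) : ℝ) ^ 2)) =
          l ^ 2 * Real.exp (-(s * Real.pi ^ 2 * p ^ 2)) ^ 2 := by
        rw [hl, ← mul_pow, ← Real.exp_add, ← Real.exp_add, ← Real.exp_nat_mul]
        congr 1; push_cast; ring
      rw [hb, hb, hb, mul_mul_mul_comm, e]
      calc _ = A p ^ 2 * A q ^ 2 * (l ^ 2 * Real.exp (-(s * Real.pi ^ 2 * p ^ 2)) ^ 2) := by ring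
        _ ≤ _ := mul_le_mul_of_nonneg_right (hp p) (by positivity)
  have k2 : ∑' p, b p * b (p + -q) ≤
      ∑' p : ℤ, c (2 * Real.pi * p - Real.pi * q) * (A (p + -q) * A p) :=
    (summable_shift b0 sb (-q)).tsum_le_tsum (fun p => by
      rw [hb, hb, mul_mul_mul_comm, ← Real.exp_add, mul_comm, mul_comm (A p)]
      refine mul_le_mul_of_nonneg_right (le_trans (Real.exp_le_exp.2 ?_) (hc _).1)
        (mul_nonneg (h0 _) (h0 _))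
      push_cast
      nlinarith [mul_nonneg hs0.le (sq_nonneg (Real.pi * q))]) sd
  have k3 : ∑' p : ℤ, c (2 * Real.pi * p) * A p ^ 2 ≤ ∑' p, b p ^ 2 + 2 * κ * u * S := by
    rw [hS, ← tsum_mul_left, ← sb.tsum_add (se.mul_left _)]
    refine sc.tsum_le_tsum (fun p => ?_) (sb.add (se.mul_left _))
    rw [b2, sub_zero]
    obtain ⟨z, hz⟩ : ∃ z, z = (2 * Real.pi * p) ^ 2 := ⟨_, rfl⟩
    have z0 : 0 ≤ z := hz ▸ sq_nonneg _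
    have m1 := mul_le_mul_of_nonneg_right (hc (2 * Real.pi * p)).2 (sq_nonneg (A p))
    rw [← hz] at m1 ⊢
    obtain ⟨E, hE⟩ : ∃ E, E = Real.exp (-z / (4 * κ)) := ⟨_, rfl⟩
    have E0 : 0 < E := hE ▸ Real.exp_pos _
    have m2 : Real.exp (-z / (2 * κ)) = E ^ 2 := by
      rw [hE, ← Real.exp_nat_mul]; congr 1; push_cast; ring
    have m3 : E ^ 2 * (1 - u * z / 2) ≤ Real.exp (-s * z / 2) := by
      rw [show -s * z / 2 = -z / (2 * κ) + -(u * z / 2) by rw [hs]; ring, Real.exp_add, m2]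
      exact mul_le_mul_of_nonneg_left (by linarith [Real.add_one_le_exp (-(u * z / 2))])
        (sq_nonneg _)
    have m4 : E * z ≤ 4 * κ := by
      have := Real.add_one_le_exp (z / (4 * κ))
      rw [hE, neg_div, Real.exp_neg, inv_mul_le_iff₀ (Real.exp_pos _), ← div_le_iff₀ (by positivity)]
      linarith
    have m5 : E ^ 2 * (u * z / 2) * A p ^ 2 ≤ 2 * κ * u * E :=
      (mul_le_of_le_one_right (by positivity) (a2 p)).trans (by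
        nlinarith [mul_le_mul_of_nonneg_left m4 (mul_nonneg hu E0.le)])
    rw [← hE]
    rw [m2] at m1
    nlinarith [mul_le_mul_of_nonneg_right m3 (sq_nonneg (A p))]
  have k4 : 1 ≤ ∑' p, b p ^ 2 := by
    have := sb.le_tsum 0 fun p _ => sq_nonneg _
    rwa [hb, hA, Int.cast_zero, zero_pow two_ne_zero, mul_zero, neg_zero, Real.exp_zero, one_mul,
      one_pow] at this
  rw [← hS]
  have k5 := hfun (h0 q) (h1 q) l0 l1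
  have k6 : 2 * (A q * l) * (1 + (A q * l) ^ 2) / (1 + A q * l) ^ 2 ≤ P + 2 * κ * u * S := by
    have d0 : 0 < (1 + A q * l) ^ 2 := pow_pos (by linarith [mul_nonneg (h0 q) l0]) 2
    have η0 : 0 ≤ 2 * κ * u * S := by positivity
    rw [div_le_iff₀ d0]
    refine le_of_mul_le_mul_right (k1.trans ?_) (zero_lt_one.trans_le k4)
    rw [mul_comm (P + _), mul_assoc]
    refine mul_le_mul_of_nonneg_left ((k2.trans h).trans ?_) d0.le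
    nlinarith [mul_le_mul_of_nonneg_left k3 hP0, mul_le_mul_of_nonneg_left k4 η0,
      mul_le_mul_of_nonneg_left hP1 η0]
  linarith

end B32

open B32 in
theorem tbStmt (hU : UngStmt) (hS : SprStmt) : TbStmt := by
  intro Λ n₁ n₂ κ h h₁ h₂ hκ W sE sW c Dn
  refine ⟨?_, fun f₁ f₂ hf₁ hf₂ => ?_⟩
  · rintro _ ⟨p, rfl⟩
    exact ph_refl h h₁ h₂ p
  intro f α
  obtain ⟨hc, hl⟩ := ung hU h h₁ h₂ hκ
  have hZ : Zs (U Λ n₁ n₂ κ) = Real.sqrt (2 * Real.pi / κ) * Zs W ^ 2 * Dn := Zs_U hU hS h h₁ h₂ hκ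
  have hK : 0 < Real.sqrt (2 * Real.pi / κ) * Zs W ^ 2 :=
    mul_pos (Real.sqrt_pos.2 (div_pos (by positivity) hκ)) (pow_pos (cen_WR h h₁ h₂).wt.pos 2)
  have hD : 0 < Dn := (mul_pos_iff_of_pos_left hK).1 (hZ ▸ hc.wt.pos)
  refine ⟨fun hα => ?_, ?_⟩
  · have e := sum_U hU hS h h₁ h₂ hκ (pr f) 0 (pr f₁) (pr f₂) 0 0 0
      (fun p ha hb => by
        rw [pr_gl hf₁ hf₂ ha hb, show ∑ x ∈ rc 0 n₁ n₂, f₂ x = 0 from hα, zero_mul, zero_add])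
      fun _ _ _ => by simp
    simp only [AddMonoidHom.zero_apply, Real.cos_zero, mul_one, sub_zero, zero_sub, zero_add,
      AddMonoidHom.neg_apply, AddMonoidHom.smul_apply, smul_eq_mul, Real.cos_neg, Real.sin_neg,
      mul_neg, Ex_neg, neg_mul, sub_neg_eq_add] at e
    have e2 := Real.exp_le_exp.2 (hl.M_le (pr f))
    rw [hc.wt.exp_M hc.se, Ex_def, e, hZ, mul_div_mul_left _ _ hK.ne', le_div_iff₀ hD] at e2
    exact e2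
  · have e := sum_cos hU hS h h₁ h₂ hκ (pr f) (pr f₁) (pr f₂) α fun p ha hb => pr_gl hf₁ hf₂ ha hb
    have e2 := hl.Ph_le (pr f)
    rw [Ph, Ex_def, e, hZ, mul_div_mul_left _ _ hK.ne', div_le_iff₀ hD] at e2
    exact e2

open B32 in
theorem g1Stmt (hT : TbStmt) (hS : SprStmt) : G1Stmt := by
  intro F q₀ ε hε
  obtain ⟨η, hη⟩ : ∃ η, η = ε / (12 * Real.pi ^ 2 * (q₀ ^ 2 + 1)) := ⟨_, rfl⟩
  have η0 : 0 < η := hη ▸ by positivity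
  obtain ⟨S, hS'⟩ : ∃ S, S = ∑' p : ℤ, Real.exp (-(2 * Real.pi * p - 0) ^ 2 / (4 * η⁻¹)) := ⟨_, rfl⟩
  have hS0 : 0 ≤ S := hS' ▸ tsum_nonneg fun _ => (Real.exp_pos _).le
  obtain ⟨δ, hδ⟩ : ∃ δ, δ = min η (ε / (4 * η⁻¹ * (S + 1))) := ⟨_, rfl⟩
  have δ0 : 0 < δ := hδ ▸ lt_min η0 (by positivity)
  refine ⟨⌈F.τ₂ / δ⌉₊ + 1, fun Λ hΛ n₁ n₂ q h₁ hn hq hq₀ => ?_⟩
  intro a
  have h : Λ.Ok := ⟨hΛ.1 ▸ F.adm, F.pos.trans_le hΛ.2.2.1⟩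
  have h₂ : 1 ≤ n₂ := by omega
  have hu : Λ.τ / n₂ ≤ δ := by
    have e : F.τ₂ / δ ≤ n₂ := (Nat.le_ceil _).trans (by exact_mod_cast (by omega))
    rw [div_le_iff₀ δ0] at e
    rw [div_le_iff₀ (by positivity)]
    linarith [hΛ.2.2.2]
  have hu0 : 0 ≤ Λ.τ / n₂ := div_nonneg h.pos.le (by positivity)
  have hW := cen_WR h h₁ h₂
  have hW2 := cen_WR h (n₁ := 2 * n₁) (by omega) h₂
  have t := ((hT Λ n₁ n₂ η⁻¹ h h₁ h₂ (inv_pos.2 η0)).2 ((Real.pi * q) • col n₂ (n₁ - 1))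
    ((Real.pi * q) • col n₂ 0)
    (fun x hx => by rw [Pi.smul_apply, col_sup (by omega) (by omega) x hx, smul_zero])
    (fun x hx => by rw [Pi.smul_apply, col_sup le_rfl (by omega) x hx, smul_zero])).2
  have e1 : ∑ x ∈ rc 0 n₁ n₂, ((Real.pi * q) • col n₂ 0) x = Real.pi * q := by
    simp only [Pi.smul_apply, smul_eq_mul]
    rw [← mul_sum, sum_col le_rfl (by omega) h₂, mul_one]
  have e2 : (fun x => ((Real.pi * q) • col n₂ (n₁ - 1)) x +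
      ((Real.pi * q) • col n₂ 0) (x - ((n₁ : ℤ), 0))) =
      (Real.pi * q) • (col n₂ (n₁ - 1) + col n₂ n₁) := by
    funext x
    simp only [Pi.smul_apply, Pi.add_apply, smul_eq_mul, col, Prod.fst_sub, Prod.snd_sub, sub_zero]
    rw [ind_congr (p := x.1 - n₁ = 0 ∧ 0 ≤ x.2 ∧ x.2 < n₂) (q := x.1 = n₁ ∧ 0 ≤ x.2 ∧ x.2 < n₂)
      (by omega)]
    ring
  have e3 : ∀ p : ℤ, Ph (Λ.WR n₁ n₂) ((Real.pi * q) • pr (col n₂ (n₁ - 1)) -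
      (2 * Real.pi * p - Real.pi * q) • pr (col n₂ (n₁ - 1))) =
      Ph (Λ.WR n₁ n₂) ((2 * Real.pi * ((p + -q : ℤ) : ℝ)) • pr (col n₂ (n₁ - 1))) := fun p => by
    rw [← Ph_neg, ← sub_smul, ← neg_smul]; congr 2; push_cast; ring
  have e4 : ∀ p : ℤ, Ph (Λ.WR n₁ n₂) ((Real.pi * q) • pr (col n₂ 0) +
      (2 * Real.pi * p - Real.pi * q) • pr (col n₂ 0)) =
      Ph (Λ.WR n₁ n₂) ((2 * Real.pi * p) • pr (col n₂ (n₁ - 1))) := fun p => by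
    rw [← add_smul, add_sub_cancel, ph_refl h h₁ h₂]
  simp only [e1, e2, pr_smul, e3, e4] at t
  have g := g1_abs (A := fun p : ℤ => Ph (Λ.WR n₁ n₂) ((2 * Real.pi * p) • pr (col n₂ (n₁ - 1))))
    (c := fun ζ => Real.exp (-ζ ^ 2 / (2 * η⁻¹)) * chi Λ.w n₂ ζ) (q := q) (inv_pos.2 η0) hu0
    (fun _ => (hW.ph_pos _).le) (fun _ => (le_abs_self _).trans (hW.wt.abs_Ph_le _))
    (by simp only [Int.cast_zero, mul_zero, zero_smul]; exact hW.wt.Ph_zero)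
    (fun p => by
      have := hW.ph_par ((2 * Real.pi * p) • pr (col n₂ (n₁ - 1)))
        ((2 * Real.pi * q) • pr (col n₂ (n₁ - 1)))
      rw [← add_smul, ← sub_smul, ← mul_add, ← mul_sub, sub_eq_add_neg (p : ℝ)] at this
      push_cast
      exact this)
    (c_bd hS h h₂ (inv_pos.2 η0)) (hW2.ph_pos _).le ((le_abs_self _).trans (hW2.wt.abs_Ph_le _)) t
  rw [← hS', one_div, inv_inv] at g
  have q2 : (q : ℝ) ^ 2 ≤ q₀ ^ 2 + 1 := by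
    have : (q : ℝ) ≤ q₀ := by exact_mod_cast hq₀
    have : (1 : ℝ) ≤ q := by exact_mod_cast hq
    nlinarith
  have r1 : 3 * ((η + Λ.τ / n₂) * Real.pi ^ 2 * q ^ 2) ≤ ε / 2 :=
    calc _ ≤ 3 * ((η + η) * Real.pi ^ 2 * (q₀ ^ 2 + 1)) := by
          have := hu.trans (hδ ▸ min_le_left _ _ : δ ≤ η)
          gcongr
      _ = ε / 2 := by rw [hη]; field_simp; ring
  have r2 : 2 * η⁻¹ * (Λ.τ / n₂) * S ≤ ε / 2 :=
    calc _ ≤ 2 * η⁻¹ * (ε / (4 * η⁻¹ * (S + 1))) * (S + 1) := by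
          have := hu.trans (hδ ▸ min_le_right _ _ : δ ≤ ε / (4 * η⁻¹ * (S + 1)))
          gcongr
          linarith
      _ = ε / 2 := by field_simp; ring
  linarith

end Crest.Agent.T145
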