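import Crest.Agent.T145.GffDef_8
import Crest.Agent.T145.Short_53
import Crest.Agent.T145.ApiL_98
import Crest.Agent.T145.Cut_7
import Crest.Agent.T145.Loc_51

/-!
# Row 145, module (b): un-gluing seams by Gaussian springs (`ungStmt`) (helper86)

The extended weight `xw` lives on heights, seam and noise (`Nz I S`: one integer per bundle edge); it is RSD,
its noise marginal is `zc * ung`, and the model is obtained from it by the PD factor `xg`.
-/

set_option autoImplicit false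
set_option linter.unusedSectionVars false

namespace Crest.Agent.T145

open Finset

namespace Ung86

/-- sum of a product over a finite dependent function space -/
theorem hasSum_dpi {ι : Type*} [Fintype ι] {α : ι → Type*} {u : ∀ i, α i → ℝ} {z : ι → ℝ}
    (hu : ∀ i, HasSum (u i) (z i)) : HasSum (fun x : ∀ i, α i => ∏ i, u i (x i)) (∏ i, z i) := by
  have key : ∀ (n : ℕ) (α : Fin n → Type _) (u : ∀ i, α i → ℝ) (z : Fin n → ℝ),
      (∀ i, HasSum (u i) (z i)) → HasSum (fun x : ∀ i, α i => ∏ i, u i (x i)) (∏ i, z i) := by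
    intro n
    induction n with
    | zero => intro α u z _; simp
    | succ n ih =>
      intro α u z hu
      have h := hasSum_prod_mul (hu 0) (ih _ (fun i => u i.succ) _ fun i => hu i.succ)
      rw [Fin.prod_univ_succ, ← (Fin.consEquiv α).hasSum_iff]
      convert h using 2 with p
      simp [Fin.prod_univ_succ, Fin.consEquiv]
  let e := Fintype.equivFin ι
  have := key _ (fun j => α (e.symm j)) (fun j => u (e.symm j)) _ fun j => hu (e.symm j)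
  rw [e.symm.prod_comp z, ← (Equiv.piCongrLeft' α e).hasSum_iff] at this
  convert this using 2 with x
  exact (e.symm.prod_comp fun i => u i (x i)).symm

section spr
variable {w : ℤ → ℝ} {κ : ℝ}

/-- independent edges -/
noncomputable def iw (w : ℤ → ℝ) (J : Type) [Fintype J] (k : J → ℤ) : ℝ := ∏ j, w (k j)

/-- the Gaussian spring -/
noncomputable def gs1 (κ t : ℝ) : ℝ := Real.exp (-κ * t ^ 2 / 2)

theorem gs1_pos (κ t : ℝ) : 0 < gs1 κ t := Real.exp_pos _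

theorem gs1_le_one (hκ : 0 ≤ κ) (t : ℝ) : gs1 κ t ≤ 1 :=
  Real.exp_le_one_iff.2 (by nlinarith [sq_nonneg t])

@[simp] theorem gs1_zero (κ : ℝ) : gs1 κ 0 = 1 := by simp [gs1]

theorem gs1_eq (hκ : 0 ≤ κ) :
    gs1 κ = gq ({()} : Finset Unit) fun _ => AddMonoidHom.mulLeft (Real.sqrt κ) := by
  funext t
  simp only [gs1, gq, sum_singleton, AddMonoidHom.coe_mulLeft, mul_pow, Real.sq_sqrt hκ, neg_mul]

theorem rsd_gs1 (hκ : 0 ≤ κ) : RSD (gs1 κ) := by rw [gs1_eq hκ]; exact Rsd63.rsd_gq _ _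

theorem pd_gs1 (hκ : 0 ≤ κ) : PD (gs1 κ) := by rw [gs1_eq hκ]; exact pd_gq _ _

theorem cen_iw (hw : Cen w) (J : Type) [Fintype J] : Cen (iw w J) :=
  Cut7.cen_pi rsdStmt fun _ => hw

/-- mean of the noise -/
noncomputable def av (J : Type) [Fintype J] (n : ℝ) : (J → ℤ) →+ ℝ where
  toFun k := (∑ j, (k j : ℝ)) / n
  map_zero' := by simp
  map_add' a b := by simp [sum_add_distrib, add_div]

theorem av_apply (J : Type) [Fintype J] (n : ℝ) (k : J → ℤ) : av J n k = (∑ j, (k j : ℝ)) / n := rfl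

/-- the spring for any index type -/
theorem spr_eq (w : ℤ → ℝ) (J : Type) [Fintype J] {n : ℕ} (hn : Fintype.card J = n) (κ t : ℝ) :
    spr w n κ t = Ex (iw w J) fun k => gs1 κ (t - av J n k) := by
  let e : J ≃ Fin n := Fintype.equivFinOfCardEq hn
  rw [spr, ← Ex_equiv (Equiv.arrowCongr e (Equiv.refl ℤ))]
  congr 1
  · funext k
    exact e.symm.prod_comp fun j => w (k j)
  · funext k
    simp only [gs1, av_apply, Equiv.arrowCongr_apply, Equiv.coe_refl, Function.comp, id]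
    rw [e.symm.sum_comp fun j => (k j : ℝ)]

theorem hasSum_spr (hw : Cen w) (hκ : 0 ≤ κ) (J : Type) [Fintype J] {n : ℕ} (hn : Fintype.card J = n)
    (t : ℝ) : HasSum (fun k => iw w J k * gs1 κ (t - av J n k)) (Zs (iw w J) * spr w n κ t) := by
  have hW := (cen_iw hw J).wt
  rw [spr_eq w J hn, ← hW.tsum_eq]
  exact (hW.ig_bdd (C := 1) fun k => by
    rw [abs_of_pos (gs1_pos _ _)]; exact gs1_le_one hκ _).hasSum

theorem spr_pos (hw : Cen w) (hκ : 0 ≤ κ) (n : ℕ) (t : ℝ) : 0 < spr w n κ t := by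
  have hW := (cen_iw hw (Fin n)).wt
  rw [spr_eq w (Fin n) (Fintype.card_fin n)]
  exact hW.ex_pos' (hW.ig_bdd (C := 1) fun k => by
    rw [abs_of_pos (gs1_pos _ _)]; exact gs1_le_one hκ _) fun k => gs1_pos _ _

theorem spr_le_one (hw : Cen w) (hκ : 0 ≤ κ) (n : ℕ) (t : ℝ) : spr w n κ t ≤ 1 := by
  have hW := (cen_iw hw (Fin n)).wt
  rw [spr_eq w (Fin n) (Fintype.card_fin n)]
  exact hW.ex_le (hW.ig_bdd (C := 1) fun k => by
    rw [abs_of_pos (gs1_pos _ _)]; exact gs1_le_one hκ _) fun k _ => gs1_le_one hκ _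

/-- superexponential decay of the spring -/
theorem spr_le (hw : Cen w) (hκ : 0 < κ) (n : ℕ) (a : ℝ) :
    ∃ C : ℝ, 0 ≤ C ∧ ∀ t, spr w n κ t ≤ C * Real.exp (-(a * |t|)) := by
  have hC := cen_iw hw (Fin n)
  have hW := hC.wt
  have hi : Ig (iw w (Fin n)) fun k => Real.exp |(|a| • av (Fin n) n) k| := hC.ig (Tame.exp_abs _)
  refine ⟨Real.exp (a ^ 2 / (2 * κ)) * Ex (iw w (Fin n)) fun k => Real.exp |(|a| • av (Fin n) n) k|,
    mul_nonneg (Real.exp_pos _).le (Ex_nonneg hW.nonneg fun _ _ => (Real.exp_pos _).le), fun t => ?_⟩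
  rw [spr_eq w (Fin n) (Fintype.card_fin n), mul_right_comm, ← Ex_const_mul]
  refine Ex_mono hW.nonneg (hW.ig_bdd (C := 1) fun k => by
    rw [abs_of_pos (gs1_pos _ _)]; exact gs1_le_one hκ.le _) (hi.const_mul _) fun k => ?_
  rw [gs1, ← Real.exp_add, ← Real.exp_add]
  refine Real.exp_le_exp.2 ?_
  set x := av (Fin n) n k
  have e1 : |(|a| • av (Fin n) n) k| = |a| * |x| := by
    rw [AddMonoidHom.smul_apply, smul_eq_mul, abs_mul, abs_abs]
  have h1 : |t| ≤ |t - x| + |x| := by simpa using abs_add_le (t - x) x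
  have h2 : a * |t| ≤ |a| * (|t - x| + |x|) :=
    (mul_le_mul_of_nonneg_right (le_abs_self a) (abs_nonneg t)).trans
      (mul_le_mul_of_nonneg_left h1 (abs_nonneg a))
  have h3 : |a| * |t - x| ≤ a ^ 2 / (2 * κ) + κ * (t - x) ^ 2 / 2 := by
    rw [← sq_abs a, ← sq_abs (t - x), ← sub_nonneg]
    have : |a| ^ 2 / (2 * κ) + κ * |t - x| ^ 2 / 2 - |a| * |t - x| =
        (|a| - κ * |t - x|) ^ 2 / (2 * κ) := by field_simp; ring
    rw [this]; positivity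
  rw [e1]
  linarith

/-- the spring is RSD on the real line -/
theorem rsd_spr (hw : Cen w) (hκ : 0 ≤ κ) (n : ℕ) : RSD (spr w n κ) := by
  have hC := cen_iw hw (Fin n)
  have h := Rsd63.rsd_mg (ρ := fun p : (Fin n → ℤ) × ℝ =>
      iw w (Fin n) p.1 * gs1 κ (p.2 - av (Fin n) n p.1))
    (Md.rsd_mul (Md.rsd_comp hC.toRSD (AddMonoidHom.fst _ ℝ)) (Md.rsd_comp (rsd_gs1 hκ)
      (AddMonoidHom.snd _ ℝ - (av (Fin n) n).comp (AddMonoidHom.fst _ ℝ))))
    fun t => (hasSum_spr hw hκ (Fin n) (Fintype.card_fin n) t).summable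
  refine Pp.rsd (Pp.symm ⟨Zs (iw w (Fin n)), hC.wt.pos, fun t => ?_⟩) h
  exact (hasSum_spr hw hκ (Fin n) (Fintype.card_fin n) t).tsum_eq

end spr

section ext
variable {V ι : Type} [DecidableEq V]

/-- the noise: one integer for every edge of a bundle -/
abbrev Nz (I : Finset ι) (S : ι → Finset (V × V)) : Type := ∀ b : I, S b → ℤ

/-- mean gradient (with seam) over a bundle -/
noncomputable def mean (T : Finset (V × V)) : Cfg V × (V × V → ℤ) →+ ℝ where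
  toFun p := (∑ e ∈ T, ((dE e p.1 + p.2 e : ℤ) : ℝ)) / T.card
  map_zero' := by simp [dE]
  map_add' a b := by
    rw [← add_div, ← sum_add_distrib]
    congr 1
    refine sum_congr rfl fun e _ => ?_
    simp only [dE, Prod.fst_add, Prod.snd_add, Finsupp.add_apply, Pi.add_apply]
    push_cast; ring

theorem mean_apply (T : Finset (V × V)) (s : Cfg V) (σ : V × V → ℤ) :
    mean T (s, σ) = (∑ e ∈ T, ((dE e s + σ e : ℤ) : ℝ)) / T.card := rfl

/-- the true gradients on the bundles -/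
noncomputable def tg (I : Finset ι) (S : ι → Finset (V × V)) : Cfg V × (V × V → ℤ) →+ Nz I S where
  toFun p := fun _ e => dE e.1 p.1 + p.2 e.1
  map_zero' := by funext b e; simp [dE]
  map_add' a b := by
    funext c e
    simp only [dE, Prod.fst_add, Prod.snd_add, Finsupp.add_apply, Pi.add_apply]
    ring

variable (m : Mdl V) (E₀ : Finset (V × V)) (I : Finset ι) (S : ι → Finset (V × V)) (w : ℤ → ℝ) (κ : ℝ)

/-- the extended weight: heights `s`, seam `σ`, noise `k` -/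
noncomputable def xw (σ : V × V → ℤ) (s : Cfg V) (k : Nz I S) : ℝ :=
  (m.keep E₀).Ws 0 σ s *
    ∏ b : I, iw w (S b) (k b) * gs1 κ (mean (S b) (s, σ) - av (S b) (S b).card (k b))

/-- the gluing factor -/
noncomputable def xg (σ : V × V → ℤ) (s : Cfg V) (k : Nz I S) : ℝ :=
  ind (k = tg I S (s, σ)) * ∏ e ∈ m.ed \ (E₀ ∪ I.biUnion S), m.w e (dE e s + σ e)

/-- the mass of the noise -/
noncomputable def zn : ℝ := ∏ b : I, Zs (iw w (S b))

variable {m E₀ I S w κ}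

theorem zn_pos (hw : Cen w) : 0 < zn I S w := prod_pos fun b _ => (cen_iw hw (S b)).wt.pos

theorem ung_eq (σ : V × V → ℤ) (s : Cfg V) : m.ung E₀ I S w κ σ s =
    (m.keep E₀).Ws 0 σ s * ∏ b ∈ I, spr w (S b).card κ (mean (S b) (s, σ)) := rfl

/-- the noise marginal of the extended weight -/
theorem hasSum_xw (hw : Cen w) (hκ : 0 ≤ κ) (σ : V × V → ℤ) (s : Cfg V) :
    HasSum (xw m E₀ I S w κ σ s) (zn I S w * m.ung E₀ I S w κ σ s) := by
  have h := (hasSum_dpi (ι := I) (α := fun b => S b → ℤ) fun b =>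
    hasSum_spr hw hκ (S b) (Fintype.card_coe (S b)) (mean (S b) (s, σ))).mul_left
      ((m.keep E₀).Ws 0 σ s)
  rw [prod_mul_distrib, prod_coe_sort I fun b => spr w (S b).card κ (mean (S b) (s, σ))] at h
  rw [ung_eq, zn, mul_left_comm]
  exact h

/-- the extended weight is RSD jointly in heights, seam and noise -/
theorem rsd_xw (hm : (m.keep E₀).Ctr) (hw : Cen w) (hκ : 0 ≤ κ) :
    RSD fun p : (Cfg V × (V × V → ℤ)) × Nz I S => xw m E₀ I S w κ p.1.2 p.1.1 p.2 := by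
  let π1 : (Cfg V × (V × V → ℤ)) × Nz I S →+ Cfg V × (V × V → ℤ) := AddMonoidHom.fst _ _
  let π2 : ∀ b : I, (Cfg V × (V × V → ℤ)) × Nz I S →+ (S b → ℤ) := fun b =>
    (Pi.evalAddMonoidHom (fun b : I => S b → ℤ) b).comp (AddMonoidHom.snd _ _)
  exact Md.rsd_mul (Md.rsd_comp (Md.ctr_rsd_seam hm) π1)
    (Md.rsd_prod (T := univ) fun b _ => Md.rsd_mul (Md.rsd_comp (cen_iw hw (S b)).toRSD (π2 b))
      (Md.rsd_comp (rsd_gs1 hκ) ((mean (S b)).comp π1 - (av (S b) (S b).card).comp (π2 b))))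

theorem xw_nonneg (hm : (m.keep E₀).Ctr) (hw : Cen w) (hκ : 0 ≤ κ) (σ : V × V → ℤ) (s : Cfg V)
    (k : Nz I S) : 0 ≤ xw m E₀ I S w κ σ s k := (rsd_xw hm hw hκ).nonneg ((s, σ), k)

/-- the gluing factor is PD jointly in heights, seam and noise -/
theorem pd_xg (hm : m.Fm) :
    PD fun p : (Cfg V × (V × V → ℤ)) × Nz I S => xg m E₀ I S p.1.2 p.1.1 p.2 := by
  have h1 := pd_ind (AddMonoidHom.snd (Cfg V × (V × V → ℤ)) (Nz I S) -
    (tg I S).comp (AddMonoidHom.fst _ (Nz I S)))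
  have h2 := PD.prod (T := m.ed \ (E₀ ∪ I.biUnion S)) fun e he =>
    (Md.fm_ker hm (mem_sdiff.1 he).1).pd.comp
      (((Md.dH e).comp (AddMonoidHom.fst _ _) +
        (Pi.evalAddMonoidHom (fun _ : V × V => ℤ) e).comp (AddMonoidHom.snd _ _)).comp
          (AddMonoidHom.fst (Cfg V × (V × V → ℤ)) (Nz I S)))
  refine PSD.congr (h1.mul h2) fun a b => ?_
  simp only [xg]
  congr 1
  exact ind_congr sub_eq_zero.symm

theorem xg_nonneg (hm : m.Fm) (σ : V × V → ℤ) (s : Cfg V) (k : Nz I S) : 0 ≤ xg m E₀ I S σ s k :=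
  mul_nonneg (ind_nonneg _) (prod_nonneg fun _ he => (Md.fm_pos hm (mem_sdiff.1 he).1 _).le)

/-- gluing gives the model back -/
theorem hasSum_xwg (hE : E₀ ⊆ m.ed)
    (hS : ∀ b ∈ I, S b ⊆ m.ed ∧ Disjoint (S b) E₀ ∧ ∀ e ∈ S b, m.w e = w)
    (hd : ∀ b ∈ I, ∀ b' ∈ I, b ≠ b' → Disjoint (S b) (S b')) (σ : V × V → ℤ) (s : Cfg V) :
    HasSum (fun k => xw m E₀ I S w κ σ s k * xg m E₀ I S σ s k) (m.Ws 0 σ s) := by
  have h := hasSum_single (f := fun k => xw m E₀ I S w κ σ s k * xg m E₀ I S σ s k) (tg I S (s, σ))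
    fun k hk => by rw [xg, ind_neg hk, zero_mul, mul_zero]
  convert h using 1
  have e1 : ∀ b : I, iw w (S b) (tg I S (s, σ) b) *
      gs1 κ (mean (S b) (s, σ) - av (S b) (S b).card (tg I S (s, σ) b)) =
        ∏ e ∈ S b, m.w e (dE e s + σ e) := by
    intro b
    have : av (S b) (S b).card (tg I S (s, σ) b) = mean (S b) (s, σ) := by
      rw [av_apply, mean_apply, ← sum_coe_sort (S b)]; rfl
    rw [this, sub_self, gs1_zero, mul_one, ← prod_coe_sort (S b)]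
    exact prod_congr rfl fun e _ => by rw [(hS b b.2).2.2 e e.2]; rfl
  have hsub : E₀ ∪ I.biUnion S ⊆ m.ed := union_subset hE (biUnion_subset.2 fun b hb => (hS b hb).1)
  have hdis : Disjoint E₀ (I.biUnion S) := (disjoint_biUnion_right _ _ _).2 fun b hb => (hS b hb).2.1.symm
  rw [xw, xg, ind_pos rfl, one_mul, prod_congr rfl fun b _ => e1 b,
    prod_coe_sort I fun b => ∏ e ∈ S b, m.w e (dE e s + σ e),
    ← prod_biUnion fun b hb b' hb' hne => hd b hb b' hb' hne]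
  simp only [Mdl.Ws, Mdl.keep_A, Mdl.keep_ed, Mdl.keep_w, Mdl.keep_site]
  rw [← prod_sdiff hsub, prod_union hdis]
  ring

/-- the unglued weight is RSD jointly in heights and seam -/
theorem rsd_ung (hm : (m.keep E₀).Ctr) (hw : Cen w) (hκ : 0 ≤ κ) :
    RSD fun p : Cfg V × (V × V → ℤ) => m.ung E₀ I S w κ p.2 p.1 :=
  Md.rsd_mul (Md.ctr_rsd_seam hm)
    (Md.rsd_prod fun b _ => Md.rsd_comp (rsd_spr hw hκ (S b).card) (mean (S b)))

theorem rsd_ung0 (hm : (m.keep E₀).Ctr) (hw : Cen w) (hκ : 0 ≤ κ) : RSD (m.ung E₀ I S w κ 0) :=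
  Md.rsd_comp (rsd_ung hm hw hκ) ((AddMonoidHom.id (Cfg V)).prod 0)

theorem ung_nonneg (hm : (m.keep E₀).Ctr) (hw : Cen w) (hκ : 0 ≤ κ) (σ : V × V → ℤ) (s : Cfg V) :
    0 ≤ m.ung E₀ I S w κ σ s := (rsd_ung hm hw hκ).nonneg (s, σ)

theorem ung_pos (hm : (m.keep E₀).Ctr) (hw : Cen w) (hκ : 0 ≤ κ) (σ : V × V → ℤ) :
    0 < m.ung E₀ I S w κ σ 0 :=
  mul_pos (Md.Ws_pos hm.1 (fun _ _ => rfl) (fun x hx => (hm.2 x hx).2.2) σ)
    (prod_pos fun _ _ => spr_pos hw hκ _ _)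

/-- coercivity: the kept gradients and the bundle sums control the heights -/
def Coer (m : Mdl V) (E₀ : Finset (V × V)) (I : Finset ι) (S : ι → Finset (V × V)) : Prop :=
  ∃ C : ℝ, ∀ s : Cfg V, (∀ x, x ∉ m.A → s x = 0) → ∀ x, |(s x : ℝ)| ≤
    C * (∑ e ∈ E₀, |(dE e s : ℝ)| + ∑ b ∈ I, |∑ e ∈ S b, (dE e s : ℝ)|)

/-- exponential moments of the unglued weight -/
theorem se_ung (hm : (m.keep E₀).Ctr) (hw : Cen w) (hκ : 0 < κ) (hne : ∀ b ∈ I, (S b).Nonempty)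
    (hC : Coer m E₀ I S) (σ : V × V → ℤ) : SE (m.ung E₀ I S w κ σ) := by
  classical
  intro f
  rw [Md.hom_eq f]
  set g : V → ℝ := fun x => f (Finsupp.single x 1)
  obtain ⟨C, hC⟩ := hC
  set K : ℝ := (∑ x ∈ m.A, (|g x| + 1)) * |C| with hK
  have hK0 : 0 ≤ K := mul_nonneg (sum_nonneg fun _ _ => by positivity) (abs_nonneg C)
  choose! D hD0 hD using fun e (he : e ∈ E₀) => Md.se_bound (Md.fm_ker hm.1 he).cen.se K
  choose D' hD0' hD' using fun b : ι => spr_le hw hκ (S b).card (K * (S b).card)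
  have hsum := (Md.hasSum_sites (0 : Cfg V) (g := fun _ k => Real.exp (-|(k : ℝ)|)) m.A
    fun _ _ => Bes66.summable_exp_neg_abs.hasSum).summable
  refine Summable.of_norm_bounded (hsum.mul_left ((∏ e ∈ E₀, D e) * (∏ y ∈ m.A, m.site y 0) *
    (∏ b ∈ I, D' b) * Real.exp (K * (∑ e ∈ E₀, |(σ e : ℝ)| + ∑ b ∈ I, |∑ e ∈ S b, (σ e : ℝ)|))))
    fun s => ?_
  by_cases hs : ∀ y, y ∉ m.A → s y = (0 : Cfg V) y
  swap
  · have hs' : ¬ ∀ y, y ∉ (m.keep E₀).A → s y = (0 : Cfg V) y := hs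
    simp only [ung_eq, Mdl.Ws, ind_neg hs, ind_neg hs', zero_mul, norm_zero, mul_zero, le_refl]
  have hs' : ∀ y, y ∉ (m.keep E₀).A → s y = (0 : Cfg V) y := hs
  rw [Real.norm_eq_abs, abs_of_nonneg (mul_nonneg (ung_nonneg hm hw hκ.le σ s) (Real.exp_pos _).le),
    ung_eq, Mdl.Ws, ind_pos hs, ind_pos hs', one_mul, one_mul]
  simp only [Mdl.keep_A, Mdl.keep_ed, Mdl.keep_w, Mdl.keep_site]
  set P := ∑ e ∈ E₀, |((dE e s + σ e : ℤ) : ℝ)| with hP
  set Q := ∑ b ∈ I, |∑ e ∈ S b, ((dE e s + σ e : ℤ) : ℝ)| with hQ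
  have e1 : ∏ e ∈ E₀, m.w e (dE e s + σ e) ≤ (∏ e ∈ E₀, D e) * Real.exp (-(K * P)) := by
    rw [hP, mul_sum, ← sum_neg_distrib, Real.exp_sum, ← prod_mul_distrib]
    exact prod_le_prod (fun e he => (Md.fm_pos hm.1 he _).le) fun e he =>
      (le_abs_self _).trans (hD e he _)
  have e2 : ∏ y ∈ m.A, m.site y (s y) ≤ ∏ y ∈ m.A, m.site y 0 :=
    prod_le_prod (fun y hy => (hm.2 y hy).1.nonneg _) fun y hy => (hm.2 y hy).2.1.le _
  have e3 : ∏ b ∈ I, spr w (S b).card κ (mean (S b) (s, σ)) ≤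
      (∏ b ∈ I, D' b) * Real.exp (-(K * Q)) := by
    rw [hQ, mul_sum, ← sum_neg_distrib, Real.exp_sum, ← prod_mul_distrib]
    refine prod_le_prod (fun b _ => (spr_pos hw hκ.le _ _).le) fun b hb => (hD' b _).trans_eq ?_
    have hc : (0 : ℝ) < (S b).card := Nat.cast_pos.2 (hne b hb).card_pos
    rw [mean_apply, abs_div, abs_of_pos hc, mul_assoc, mul_div_cancel₀ _ hc.ne']
  have e4 : pr g s ≤ ∑ x ∈ m.A, |g x| * |(s x : ℝ)| := by
    rw [Md.pr_eq g s (T := m.A) fun x hx => Or.inl (hs x hx)]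
    exact sum_le_sum fun x _ => by rw [← abs_mul]; exact le_abs_self _
  have e5 : ∑ e ∈ E₀, |(dE e s : ℝ)| ≤ P + ∑ e ∈ E₀, |(σ e : ℝ)| := by
    rw [hP, ← sum_add_distrib]
    refine sum_le_sum fun e _ => ?_
    have := abs_sub (((dE e s + σ e : ℤ) : ℝ)) (σ e)
    rwa [show ((dE e s + σ e : ℤ) : ℝ) - σ e = dE e s by push_cast; ring] at this
  have e6 : ∑ b ∈ I, |∑ e ∈ S b, (dE e s : ℝ)| ≤ Q + ∑ b ∈ I, |∑ e ∈ S b, (σ e : ℝ)| := by
    rw [hQ, ← sum_add_distrib]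
    refine sum_le_sum fun b _ => ?_
    have := abs_sub (∑ e ∈ S b, ((dE e s + σ e : ℤ) : ℝ)) (∑ e ∈ S b, (σ e : ℝ))
    rwa [← sum_sub_distrib, sum_congr rfl fun e _ =>
      show ((dE e s + σ e : ℤ) : ℝ) - σ e = dE e s by push_cast; ring] at this
  have e7 : ∑ x ∈ m.A, (|g x| + 1) * |(s x : ℝ)| ≤
      K * (∑ e ∈ E₀, |(dE e s : ℝ)| + ∑ b ∈ I, |∑ e ∈ S b, (dE e s : ℝ)|) := by
    rw [hK, mul_assoc, sum_mul]
    refine sum_le_sum fun x _ => mul_le_mul_of_nonneg_left ((hC s hs x).trans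
      (mul_le_mul_of_nonneg_right (le_abs_self C) (add_nonneg (sum_nonneg fun _ _ => abs_nonneg _)
        (sum_nonneg fun _ _ => abs_nonneg _)))) (by positivity)
  have e8 : ∑ x ∈ m.A, (|g x| + 1) * |(s x : ℝ)| =
      ∑ x ∈ m.A, |g x| * |(s x : ℝ)| + ∑ x ∈ m.A, |(s x : ℝ)| := by
    rw [← sum_add_distrib]; exact sum_congr rfl fun x _ => by ring
  have hD1 : 0 ≤ ∏ e ∈ E₀, D e := prod_nonneg hD0
  have hD2 : 0 ≤ ∏ y ∈ m.A, m.site y 0 := prod_nonneg fun y hy => (hm.2 y hy).1.nonneg _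
  have hD3 : 0 ≤ ∏ b ∈ I, D' b := prod_nonneg fun b _ => hD0' b
  have e9 := mul_le_mul_of_nonneg_left (add_le_add e5 e6) hK0
  refine (mul_le_mul_of_nonneg_right (mul_le_mul (mul_le_mul e1 e2
    (prod_nonneg fun y hy => (hm.2 y hy).1.nonneg _) (by positivity)) e3
    (prod_nonneg fun b _ => (spr_pos hw hκ.le _ _).le) (by positivity)) (Real.exp_pos _).le).trans ?_
  rw [← Real.exp_sum, sum_neg_distrib]
  calc _ = ((∏ e ∈ E₀, D e) * (∏ y ∈ m.A, m.site y 0) * ∏ b ∈ I, D' b) *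
        Real.exp (-(K * P) + -(K * Q) + pr g s) := by rw [Real.exp_add, Real.exp_add]; ring
    _ ≤ _ := by
      rw [mul_assoc (_ * _ * _), ← Real.exp_add]
      refine mul_le_mul_of_nonneg_left (Real.exp_le_exp.2 ?_) (by positivity)
      linarith

theorem cen_ung (hm : (m.keep E₀).Ctr) (hw : Cen w) (hκ : 0 < κ) (hne : ∀ b ∈ I, (S b).Nonempty)
    (hC : Coer m E₀ I S) : Cen (m.ung E₀ I S w κ 0) :=
  ⟨rsd_ung0 hm hw hκ.le, ung_pos hm hw hκ.le 0, se_ung hm hw hκ hne hC 0⟩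

theorem wt_ung (hm : (m.keep E₀).Ctr) (hw : Cen w) (hκ : 0 < κ) (hne : ∀ b ∈ I, (S b).Nonempty)
    (hC : Coer m E₀ I S) (σ : V × V → ℤ) : Wt (m.ung E₀ I S w κ σ) :=
  Wt.of_pos (ung_nonneg hm hw hκ.le σ) (se_ung hm hw hκ hne hC σ).summable (ung_pos hm hw hκ.le σ)

/-- the model is more localised than the unglued one -/
theorem loc_ung (hm : m.Ctr) (hw : Cen w) (hκ : 0 ≤ κ) (hE : E₀ ⊆ m.ed)
    (hS : ∀ b ∈ I, S b ⊆ m.ed ∧ Disjoint (S b) E₀ ∧ ∀ e ∈ S b, m.w e = w)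
    (hd : ∀ b ∈ I, ∀ b' ∈ I, b ≠ b' → Disjoint (S b) (S b')) (hse : SE (m.ung E₀ I S w κ 0)) :
    Loc (m.W 0) (m.ung E₀ I S w κ 0) := by
  let φ : Cfg V × Nz I S →+ (Cfg V × (V × V → ℤ)) × Nz I S :=
    ((AddMonoidHom.id (Cfg V)).prod 0).prodMap (AddMonoidHom.id _)
  have hp : Pp (fun s => zn I S w * m.ung E₀ I S w κ 0 s) (m.ung E₀ I S w κ 0) :=
    ⟨_, zn_pos hw, fun _ => rfl⟩
  have h := Mix53.loc_ext (W := fun s => zn I S w * m.ung E₀ I S w κ 0 s) (W' := m.Ws 0 0)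
    (Md.rsd_comp (rsd_xw (hm.keep hE) hw hκ) φ) ((pd_xg (E₀ := E₀) hm.1).comp φ)
    (fun p => xg_nonneg hm.1 _ _ _) (fun s => hasSum_xw hw hκ 0 s)
    (fun s => hasSum_xwg hE hS hd 0 s) (hp.se hse) (a := 0)
    (Md.Ws_pos hm.1 (fun _ _ => rfl) (fun x hx => (hm.2 x hx).2.2) 0)
  rw [Mdl.W_eq_Ws]
  exact h.2.2.pp_right hp

/-- seam and force ratios grow under un-gluing -/
theorem seam_ung (hm : m.Ctr) (hA : m.Anch) (hw : Cen w) (hκ : 0 ≤ κ) (hE : E₀ ⊆ m.ed)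
    (hS : ∀ b ∈ I, S b ⊆ m.ed ∧ Disjoint (S b) E₀ ∧ ∀ e ∈ S b, m.w e = w)
    (hd : ∀ b ∈ I, ∀ b' ∈ I, b ≠ b' → Disjoint (S b) (S b')) (σ : V × V → ℤ) (f : Cfg V →+ ℝ)
    (h0 : Summable (m.ung E₀ I S w κ 0)) (h1 : Summable (tilt (m.ung E₀ I S w κ σ) f)) :
    Zs (tilt (m.Ws 0 σ) f) * Zs (m.ung E₀ I S w κ 0) ≤
      Zs (tilt (m.ung E₀ I S w κ σ) f) * Zs (m.W 0) := by
  let φ : (Cfg V × Nz I S) × (V × V → ℤ) →+ (Cfg V × (V × V → ℤ)) × Nz I S :=
    (((AddMonoidHom.fst _ _).comp (AddMonoidHom.fst _ _)).prod (AddMonoidHom.snd _ _)).prod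
      ((AddMonoidHom.snd _ _).comp (AddMonoidHom.fst _ _))
  have hk := hm.keep hE
  have n1 : ∀ σ, ∀ p : Cfg V × Nz I S, 0 ≤ xw m E₀ I S w κ σ p.1 p.2 := fun σ p =>
    xw_nonneg hk hw hκ _ _ _
  have n2 : ∀ σ, ∀ p : Cfg V × Nz I S, 0 ≤ xw m E₀ I S w κ σ p.1 p.2 * xg m E₀ I S σ p.1 p.2 :=
    fun σ p => mul_nonneg (n1 σ p) (xg_nonneg hm.1 _ _ _)
  have a0 := Mix53.hasSum_ext (n1 0) (fun s => hasSum_xw hw hκ 0 s) (F := fun _ => 1)
    (Ig.const (h0.mul_left _) 1)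
  have a1 := Mix53.hasSum_ext (n1 σ) (fun s => hasSum_xw hw hκ σ s) (F := fun s => Real.exp (f s))
    ((h1.mul_left (zn I S w)).congr fun s => by simp only [tilt, mul_assoc])
  have b0 := Mix53.hasSum_ext (n2 0) (fun s => hasSum_xwg hE hS hd 0 s) (F := fun _ => 1)
    (Ig.const (Md.ctr_ses hm hA 0 0).summable 1)
  have b1 := Mix53.hasSum_ext (n2 σ) (fun s => hasSum_xwg hE hS hd σ s)
    (F := fun s => Real.exp (f s)) (Md.ctr_ses hm hA 0 σ f)
  simp only [mul_one] at a0 b0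
  have key := Rsd63.rsd_bp (Md.rsd_comp (rsd_xw hk hw hκ) φ) ((pd_xg (E₀ := E₀) hm.1).comp φ) pd_one σ
    (f.comp (AddMonoidHom.fst _ _)) a0.summable a1.summable
  simp only [mul_one] at key
  have c1 : (∑' p : Cfg V × Nz I S, xw m E₀ I S w κ σ p.1 p.2 * Real.exp (f p.1) *
      xg m E₀ I S σ p.1 p.2) = Zs (tilt (m.Ws 0 σ) f) :=
    (tsum_congr fun p => mul_right_comm _ _ _).trans b1.tsum_eq
  have c2 : (∑' s, zn I S w * m.ung E₀ I S w κ σ s * Real.exp (f s)) =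
      zn I S w * Zs (tilt (m.ung E₀ I S w κ σ) f) := by
    rw [← Zs_smul]; exact tsum_congr fun s => mul_assoc _ _ _
  have key' : Zs (tilt (m.Ws 0 σ) f) * (zn I S w * Zs (m.ung E₀ I S w κ 0)) ≤
      zn I S w * Zs (tilt (m.ung E₀ I S w κ σ) f) * Zs (m.Ws 0 0) := by
    rw [← c1, ← c2, ← a1.tsum_eq, ← Zs_smul, Zs, Zs, ← a0.tsum_eq, ← b0.tsum_eq]
    exact (le_abs_self _).trans key
  rw [Mdl.W_eq_Ws]
  refine le_of_mul_le_mul_left ?_ (zn_pos (I := I) (S := S) hw)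
  linarith

end ext

end Ung86

open Ung86 in
/-- **UNG** -/
theorem ungStmt : UngStmt := by
  intro V ι _ m E₀ I S w κ hm hA hw hκ hE hS hd hC
  have hw' := (kerStmt w hw).cen
  have hk := hm.keep hE
  have hne := fun b hb => (hS b hb).1
  have hS' := fun b hb => (hS b hb).2
  have hse := se_ung hk hw' hκ hne hC
  refine ⟨cen_ung hk hw' hκ hne hC, hse, loc_ung hm hw' hκ.le hE hS' hd (hse 0), fun σ => ?_⟩
  have e : ∀ W : Cfg V → ℝ, tilt W 0 = W := fun W => funext fun s => by simp [tilt]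
  have := seam_ung hm hA hw' hκ.le hE hS' hd σ 0 (hse 0).summable (hse σ 0)
  rwa [e, e] at this

end Crest.Agent.T145
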