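import Crest.Agent.T145.BrB_73
import Crest.Agent.T145.AFac_66
import Crest.Agent.T145.Apx_16
import Crest.Agent.T145.Dlg_74
import Crest.Agent.T145.Fac_45
import Crest.Agent.T145.Flux_36
import Crest.Agent.T145.GfSpr_80
import Crest.Agent.T145.J_88
import Crest.Agent.T145.Line_52
import Crest.Agent.T145.Pei_33
import Crest.Agent.T145.RJ_57
import Crest.Agent.T145.Rgh_74
import Crest.Agent.T145.SmB_58
import Crest.Agent.T145.Step_29
import Crest.Agent.T145.T1U_40
import Crest.Agent.T145.T2_89
import Crest.Agent.T145.T3b_50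
import Crest.Agent.T145.GfHi_19
import Crest.Agent.T145.SecD_62
import Crest.Agent.T145.Lo_21
import Crest.Agent.T145.T1a_53
import Crest.Agent.T145.T1m_23
import Crest.Agent.T145.T3_84
import Crest.Agent.T145.T5_11
import Crest.Agent.T145.TLim_87
import Crest.Agent.T145.Tb_32
import Crest.Agent.T145.Ung_86

/-!
# Row 145: module (b) chained (helper55)

Unconditional, except for `DlStmt` (argument `hD`, from the module Mx).
-/

set_option autoImplicit false

namespace Crest.Agent.T145.All

theorem br : BrStmt := brStmt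
theorem sm : SmStmt := smStmt
theorem an : AnStmt := anStmt
theorem afac : AFacStmt := aFacStmt
theorem r1 : R1Stmt := r1Stmt
theorem r1c : R1cStmt := r1cStmt
theorem rj : RJStmt := rjStmt
theorem r2 : R2Stmt := r2Stmt
theorem r3 : R3Stmt := r3Stmt
theorem apx : ApxStmt := apxStmt rj sm
theorem t1a : T1aStmt := t1aStmt r2
theorem t1d : T1dStmt := t1dStmt
theorem spr : SprStmt := sprStmt
theorem ung : UngStmt := ungStmt
theorem tb : TbStmt := tbStmt ung spr
theorem g1 : G1Stmt := g1Stmt tb spr
theorem jj : JStmt := jStmt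
theorem flux : FluxStmt := fluxStmt
theorem vb : VbStmt := vbStmt r2 t1a
theorem pei : PeiStmt := peiStmt
theorem peiA : PeiAStmt := pei.peiA
theorem brg : BrgStmt := brgStmt

theorem t1x : T1xStmt := t1xU
theorem t1g : T1gStmt := t1gU
theorem t1m : T1mStmt := t1mStmt t1x t1a t1d br
theorem t2 : T2Stmt := t2Stmt tb t1x t1a t1d t1m r2 afac br spr
theorem t2p : T2pStmt := t2pStmt t2 afac br
theorem fac : FacStmt := facStmt t2p afac t1x t1a br rj
theorem hi : HiStmt := hiStmt r1 br
theorem t3b : T3bStmt := t3bStmt sm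
theorem sec : SecStmt := secStmt
theorem line : LineStmt := lineStmt br rj t1x
theorem g2 : G2Stmt := g2Stmt g1 line afac
theorem step2 : Step2Stmt := step2Stmt sec flux vb t1a
theorem step : StepStmt := step2.step
theorem gap : GapStmt := gapStmt t1m t2 step
theorem exit : ExitStmt := exitStmt t1d t1a t2 step g2

theorem lo : LoStmt := loStmt
theorem t3a : T3aStmt := t3aStmt jj hi lo fac br t1m rj sm
theorem t3 : T3Stmt := t3Stmt t3a t3b jj t1x t1a t1m br rj r3 sm
theorem sd : SdStmt := sdStmt fac t3
theorem gffN : GffNStmt := gffNStmt apx afac t1x t3 t1a br rj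

theorem dlg_of (hD : DlStmt) : DlgStmt := dlgStmt br sm afac t1a t1x t1m hD
theorem gffD_of (hD : DlStmt) : GffDStmt := gffDStmt apx afac t1x (dlg_of hD) t1a br rj
theorem rgh_of (hD : DlStmt) : RghStmt := rghStmt t1m (gffD_of hD)
theorem t5_of (hD : DlStmt) : T5Stmt := t5Stmt t1m t2 step g2 pei (rgh_of hD)
theorem t5A_of (hD : DlStmt) : T5AStmt := (t5_of hD).t5A
theorem tLim_of (hD : DlStmt) : TLimStmt := tLimStmt t1x (dlg_of hD) t1m

end Crest.Agent.T145.All
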