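import Crest.Agent.T145.DfPw_3
import Crest.Agent.T145.OmB_11
import Crest.Agent.T145.XiB_22

/-!
# Row 145, module Df: ALG (`Df.algStmt`), symmetries
-/

set_option autoImplicit false

namespace Crest.Agent.T145.Df

open Finset Nc Nc.Geo

namespace Alg3

variable {Λ : Lat}

theorem mem_orb {w v : Pt} : v ∈ orb w ↔ (v.1.natAbs = w.1.natAbs ∧ v.2.natAbs = w.2.natAbs) ∨
    (v.1.natAbs = w.2.natAbs ∧ v.2.natAbs = w.1.natAbs) := by
  rw [orb, mem_filter, Pw3.mem_bl_nr, sub_zero, nr, nr]; omega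

theorem card_orb (w : Pt) : (orb w).card ≤ 8 := by
  have h : orb w ⊆ ({w.1, -w.1} ×ˢ {w.2, -w.2}) ∪ ({w.2, -w.2} ×ˢ {w.1, -w.1}) := fun v hv => by
    simp only [mem_orb, mem_union, mem_product, mem_insert, mem_singleton] at hv ⊢; omega
  have h1 := card_le_two (a := w.1) (b := -w.1)
  have h2 := card_le_two (a := w.2) (b := -w.2)
  refine (card_le_card h).trans ((card_union_le _ _).trans ?_)
  rw [card_product, card_product]
  nlinarith

theorem depG_JL (z : Pt) : DepG (bl z Λ.rg) (JL Λ.J z) := fun s s' k h =>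
  sum_congr rfl fun y hy => by
    rw [h z (self_mem_bl _ _), h (z + y) (by
      simpa only [mem_bl_abs, Prod.fst_add, Prod.snd_add, add_sub_cancel_left] using Lat.le_rg hy)]
    push_cast; ring

theorem ins_JL (z : Pt) : Ins z Λ.rg (JL Λ.J z) :=
  ⟨depG_JL z, Tame.sum _ fun y _ => (Tame.ev z).sub (Tame.ev (z + y))⟩

theorem odd_JL (J : Finset Pt) (z : Pt) : OddF (JL J z) := fun s => by
  simp only [JL, Finsupp.neg_apply, ← sum_neg_distrib]
  exact sum_congr rfl fun _ _ => by push_cast; ring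

/-- covariance of `JL` under lattice symmetries -/
theorem JL_map {φ : Pt ≃ Pt} (h : Λ.Sym φ) (x : Pt) (s : Cfg Pt) :
    JL Λ.J (φ x) (mapH φ s) = JL Λ.J x s := by
  simp only [JL, mapH_apply, Equiv.symm_apply_apply]
  refine (sum_equiv (((Equiv.addLeft x).trans φ).trans (Equiv.subRight (φ x))) (fun y => ?_)
    fun y _ => ?_).symm
  · simpa using (h x (x + y)).symm
  · simp

theorem sum_map {φ : Pt ≃ Pt} {S : Finset Pt} (hS : ∀ x, x ∈ S ↔ φ x ∈ S) {G : Pt → Cfg Pt → ℝ}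
    (h : ∀ x s, G (φ x) (mapH φ s) = G x s) (s : Cfg Pt) :
    ∑ x ∈ S, G x (mapH φ s) = ∑ x ∈ S, G x s :=
  (sum_equiv φ hS fun x _ => (h x s).symm).symm

theorem rot_bl (z x : Pt) (r : ℕ) : x ∈ bl z r ↔ rotZ z x ∈ bl z r := by
  simp only [mem_bl, rotZ, Equiv.coe_fn_mk]; omega

theorem swp_bl (z x : Pt) (r : ℕ) : x ∈ bl z r ↔ swpZ z x ∈ bl z r := by
  simp only [mem_bl, swpZ, Equiv.coe_fn_mk]; omega

theorem KK_map (hΛ : Λ.Ok) {φ : Pt ≃ Pt} (h : Λ.Sym φ) {D D' : Finset Pt}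
    (hD : D.map φ.toEmbedding = D') (x y : Pt) :
    KK Λ (Λ.D D') (φ x) (φ y) = KK Λ (Λ.D D) x y := by
  simp only [KK, h.ex_D0 hΛ hD, JL_map h]

theorem sy4_kk (hΛ : Λ.Ok) (R : ℕ) : Xi.Sy4 (kk Λ R) :=
  Xi.Sy4.of (fun x => by
    simpa only [Om.rotZ_self, kk] using KK_map hΛ (Om.sym_rot hΛ 0) (Om.map_bl_rot 0 R) 0 x) fun x => by
    simpa only [Om.swpZ_self, kk] using KK_map hΛ (Om.sym_swp hΛ 0) (Om.map_bl_swp 0 R) 0 x

theorem orb_eq {K : Pt → ℝ} (h : Xi.Sy4 K) {w v : Pt} (hv : v ∈ orb w) : K v = K w := by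
  have key : ∀ v w : Pt, v.1.natAbs = w.1.natAbs → v.2.natAbs = w.2.natAbs → K v = K w := by
    rintro ⟨a, b⟩ ⟨c, d⟩ h1 h2
    dsimp only at h1 h2
    rcases Int.natAbs_eq_natAbs_iff.1 h1 with rfl | rfl <;>
      rcases Int.natAbs_eq_natAbs_iff.1 h2 with rfl | rfl
    exacts [rfl, h.neg_snd (_, _), h.neg_fst (_, _), h.neg (_, _)]
  rcases mem_orb.1 hv with h1 | h1
  · exact key v w h1.1 h1.2
  · exact (key v w.swap h1.1 h1.2).trans (h.swap w)

end Alg3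

open Alg3

/-- ALG -/
theorem algStmt : AlgStmt := by
  refine ⟨fun _ _ _ => Pw3.mem_bl_nr, fun w => ⟨mem_orb.2 (Or.inl ⟨rfl, rfl⟩), card_orb w,
    fun v hv => by rw [mem_orb] at hv; rw [nr, nr]; omega⟩, fun Λ hΛ z => ?_⟩
  have hr := Om.sym_rot hΛ
  have hs := Om.sym_swp hΛ
  refine ⟨ins_JL z, odd_JL _ z, fun s => ⟨?_, ?_⟩, Om.ins_est hΛ z, Om.even_est z, Om.d4_est hΛ z,
    fun r R => ⟨fun s => ⟨?_, ?_⟩, fun s => ⟨?_, ?_⟩⟩, fun s => ⟨?_, ?_⟩,
    fun R w => ⟨?_, fun v hv => orb_eq (sy4_kk hΛ R) hv⟩⟩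
  · simpa only [Om.rotZ_self] using JL_map (hr z) z s
  · simpa only [Om.swpZ_self] using JL_map (hs z) z s
  · exact sum_map (fun x => by rw [mem_an, mem_an, ← rot_bl, ← rot_bl]) (Om.est_rot hΛ z) s
  · exact sum_map (fun x => by rw [mem_an, mem_an, ← swp_bl, ← swp_bl]) (Om.est_swp hΛ z) s
  · exact sum_map (fun x => rot_bl z x R) (Om.est_rot hΛ z) s
  · exact sum_map (fun x => swp_bl z x R) (Om.est_swp hΛ z) s
  · exact sum_map (fun x => by simp only [mem_orb, rotZ, Equiv.coe_fn_mk]; simp; omega)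
      (JL_map (hr 0)) s
  · exact sum_map (fun x => by simp only [mem_orb, swpZ, Equiv.coe_fn_mk]; simp; omega)
      (JL_map (hs 0)) s
  · have := KK_map hΛ (Lat.sym_add Λ z) (D := bl 0 R) (D' := bl z R) (by
      ext x; rw [mem_map_equiv]; simp [mem_bl]; omega) 0 w
    simpa only [Equiv.coe_addRight, zero_add, add_comm w z, kk] using this

end Crest.Agent.T145.Df
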