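import Crest.Agent.T145.DfDef_70

/-!
# Row 145, module Df: the analytic lemma `AnaStmt` (helper22)
-/

set_option autoImplicit false

namespace Crest.Agent.T145.Df

open Finset Filter Topology

namespace Ana22

/-- a uniformly Cauchy sequence has a uniform limit -/
theorem lim {s : Set ℝ} {f : ℕ → ℝ → ℝ}
    (h : ∀ ε, 0 < ε → ∃ R₀ : ℕ, ∀ R R' : ℕ, R₀ ≤ R → R₀ ≤ R' → ∀ τ ∈ s, |f R τ - f R' τ| ≤ ε) :
    ∃ g, TendstoUniformlyOn f g atTop s := by
  have h1 : UniformCauchySeqOn f atTop s := Metric.uniformCauchySeqOn_iff.2 fun ε hε => by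
    obtain ⟨R₀, h0⟩ := h (ε / 2) (half_pos hε)
    exact ⟨R₀, fun R hR R' hR' τ hτ => (h0 R R' hR hR' τ hτ).trans_lt (half_lt_self hε)⟩
  exact ⟨fun τ => limUnder atTop fun R => f R τ, h1.tendstoUniformlyOn_of_tendsto fun τ hτ =>
    (h1.cauchySeq hτ).tendsto_limUnder⟩

theorem tendsto_bl : Tendsto (fun l : ℕ => bl (0 : Pt) l) atTop atTop :=
  tendsto_atTop_finset_of_monotone (fun _ _ h => bl_mono 0 h) fun x => by
    obtain ⟨R, hR⟩ := exists_subset_bl {x} 0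
    exact ⟨R, hR (mem_singleton_self x)⟩

end Ana22

open Ana22

theorem anaStmt (hP : PwStmt) : AnaStmt := by
  intro a b γ C k k' u T G hγ hd hc hb hu hT hG τ₀ hτ₀
  choose K hK using fun w => lim (s := Set.Ioo a b) (f := fun R => k R w) fun ε hε =>
    (hc w ε hε).imp fun _ h R R' h1 h2 τ hτ => (h R R' h1 h2 τ hτ).1
  choose K' hK' using fun w => lim (s := Set.Ioo a b) (f := fun R => k' R w) fun ε hε =>
    (hc w ε hε).imp fun _ h R R' h1 h2 τ hτ => (h R R' h1 h2 τ hτ).2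
  have hKd : ∀ w, ∀ τ ∈ Set.Ioo a b, HasDerivAt (K w) (K' w τ) τ := fun w τ hτ =>
    hasDerivAt_of_tendstoUniformlyOn isOpen_Ioo (hK' w) (.of_forall fun R => hd R w)
      (fun τ hτ => (hK w).tendsto_at hτ) hτ
  have hKb : ∀ w, ∀ τ ∈ Set.Ioo a b, |K w τ| ≤ C * (1 + (nr w : ℝ)) ^ (-γ) ∧
      |K' w τ| ≤ C * (1 + (nr w : ℝ)) ^ (-γ) := fun w τ hτ =>
    ⟨le_of_tendsto ((hK w).tendsto_at hτ).abs ((hb w).mono fun _ h => (h τ hτ).1),
      le_of_tendsto ((hK' w).tendsto_at hτ).abs ((hb w).mono fun _ h => (h τ hτ).2)⟩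
  have hφ : (Ultrafilter.of (atTop : Filter ℕ) : Filter ℕ) ≤ atTop := Ultrafilter.of_le _
  generalize Ultrafilter.of (atTop : Filter ℕ) = φ at hφ
  have hU : ∀ w, ∃ U, |U| ≤ C * (nr w : ℝ) ^ 2 ∧ Tendsto (fun n => u n w) φ (𝓝 U) := fun w => by
    obtain ⟨U, h1, h2⟩ := isCompact_Icc.ultrafilter_le_nhds (φ.map fun n => u n w)
      (le_principal_iff.2 (mem_map.2 (univ_mem' fun n => abs_le.1 (hu n w))))
    exact ⟨U, abs_le.2 h1, h2⟩
  choose U hUb hU using hU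
  have hE : Tendsto (fun n => ∑ y ∈ T, u n y) φ (𝓝 (∑ y ∈ T, U y)) := tendsto_finsetSum _ fun y _ => hU y
  have hE1 : 1 ≤ ∑ y ∈ T, U y := ge_of_tendsto hE (hφ hT)
  have hC : 0 ≤ C := by simpa [nr] using (abs_nonneg _).trans (hu 0 (1, 0))
  have hS : Summable fun w : Pt => C * C * (1 + (nr w : ℝ)) ^ (-(γ - 2)) :=
    (hP.2.2.2.2 (γ - 2) (by linarith)).mul_left _
  have hB : ∀ (w : Pt) (x : ℝ), |x| ≤ C * (1 + (nr w : ℝ)) ^ (-γ) →
      ‖x * U w‖ ≤ C * C * (1 + (nr w : ℝ)) ^ (-(γ - 2)) := fun w x hx => by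
    have h0 : (0 : ℝ) ≤ nr w := Nat.cast_nonneg _
    rw [Real.norm_eq_abs, abs_mul, show -(γ - 2) = -γ + 2 by ring, Real.rpow_add (by positivity),
      Real.rpow_two]
    calc _ ≤ C * (1 + (nr w : ℝ)) ^ (-γ) * (C * (1 + (nr w : ℝ)) ^ 2) :=
          mul_le_mul hx ((hUb w).trans (by gcongr; linarith)) (abs_nonneg _) (by positivity)
      _ = _ := by ring
  have hs : ∀ τ ∈ Set.Ioo a b, Summable fun w => K w τ * U w := fun τ hτ =>
    .of_norm_bounded hS fun w => hB w _ (hKb w τ hτ).1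
  have hD := hasDerivAt_tsum_of_isPreconnected (g := fun w τ => K w τ * U w) hS isOpen_Ioo
    isPreconnected_Ioo (fun w τ hτ => (hKd w τ hτ).mul_const (U w))
    (fun w τ hτ => hB w _ (hKb w τ hτ).2) hτ₀ (hs τ₀ hτ₀) hτ₀
  have hGe : ∀ τ ∈ Set.Ioo a b, G τ = -((∑' w, K w τ * U w) / 2) / ∑ y ∈ T, U y := fun τ hτ => by
    have h1 : ∀ ε, 0 < ε → |G τ * ∑ y ∈ T, U y + (∑' w, K w τ * U w) / 2| ≤ ε := fun ε hε => by
      refine le_of_tendsto (tendsto_const_nhds.add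
        (((hs τ hτ).hasSum.comp tendsto_bl).div_const 2)).abs ((hG τ hτ ε hε).mono fun l₁ h₁ => ?_)
      refine le_of_tendsto (tendsto_const_nhds.add ((tendsto_finsetSum (bl 0 l₁) fun w _ =>
        ((hK w).tendsto_at hτ).mul_const (U w)).div_const 2)).abs (h₁.mono fun l₂ h₂ => ?_)
      exact le_of_tendsto ((hE.const_mul (G τ)).add ((tendsto_finsetSum (bl 0 l₁) fun w _ =>
        (hU w).const_mul (k l₂ w τ)).div_const 2)).abs (hφ h₂)
    have h2 := abs_nonpos_iff.1 (le_of_forall_pos_le_add fun ε hε => (h1 ε hε).trans_eq (zero_add ε).symm)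
    rw [eq_div_iff (by linarith)]; linarith
  exact ((hD.differentiableAt.div_const 2).neg.div_const _).congr_of_eventuallyEq
    (eventually_of_mem (isOpen_Ioo.mem_nhds hτ₀) hGe)

end Crest.Agent.T145.Df
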