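import Crest.Agent.T145.DfDef_70
import Crest.Agent.T145.RJa_57
import Crest.Agent.T145.Route_51

/-!
# Row 145, module Df: the test functions (`BumpStmt`) and the identity `τ X_u = ∑ u x * JL x` (`IdStmt`) (helper65)
-/

set_option autoImplicit false

namespace Crest.Agent.T145.Df

open Finset

namespace B65

theorem mem_bl0 {x : Pt} {r : ℕ} : x ∈ bl 0 r ↔ nr x ≤ r := by
  rw [mem_bl]; simp only [nr, Prod.fst_zero, Prod.snd_zero]; omega

theorem l1_le (w : Pt) : ∑ i, |co i w| ≤ 2 * (nr w : ℝ) := by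
  rw [S58.l1_eq]
  have h1 : |(w.1 : ℝ)| ≤ nr w := by
    rw [← Int.cast_abs, ← Int.natCast_natAbs, Int.cast_natCast]
    exact_mod_cast le_max_left _ _
  have h2 : |(w.2 : ℝ)| ≤ nr w := by
    rw [← Int.cast_abs, ← Int.natCast_natAbs, Int.cast_natCast]
    exact_mod_cast le_max_right _ _
  linarith

theorem lip_nr {u : Pt → ℝ} {K L : ℝ} (h : Sm2 u K L) (hL : 0 < L) (x y : Pt) :
    |u x - u y| ≤ 2 * K * nr (x - y) / L := by
  have hK := h.nonneg hL
  calc |u x - u y| ≤ K / L * ∑ i, |co i (x - y)| := h.lip y x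
    _ ≤ K / L * (2 * (nr (x - y) : ℝ)) := mul_le_mul_of_nonneg_left (l1_le _) (by positivity)
    _ = _ := by ring

theorem ub_ne {N : ℕ} (hN : 1 ≤ N) {x : Pt} (h : ub N x ≠ 0) : nr x < 2 * N := by
  have hN' : (0 : ℝ) < N := by exact_mod_cast hN
  obtain ⟨⟨h1, h2⟩, h3, h4⟩ := bump_ne hN' (by linarith) (by linarith) h
  have a1 : -(2 * (N : ℤ)) < x.1 := by exact_mod_cast h1
  have a2 : x.1 < (N : ℤ) + N := by exact_mod_cast h2
  have a3 : -(2 * (N : ℤ)) < x.2 := by exact_mod_cast h3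
  have a4 : x.2 < (N : ℤ) + N := by exact_mod_cast h4
  simp only [nr]; omega

theorem ch_ne {N : ℕ} (hN : 1 ≤ N) {x : Pt} (h : ch N x ≠ 0) : nr x < 4 * N := by
  have hN' : (0 : ℝ) < N := by exact_mod_cast hN
  obtain ⟨⟨h1, h2⟩, h3, h4⟩ := bump_ne hN' (by linarith) (by linarith) h
  have a1 : -(4 * (N : ℤ)) < x.1 := by exact_mod_cast h1
  have a2 : x.1 < 3 * (N : ℤ) + N := by exact_mod_cast h2
  have a3 : -(4 * (N : ℤ)) < x.2 := by exact_mod_cast h3
  have a4 : x.2 < 3 * (N : ℤ) + N := by exact_mod_cast h4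
  simp only [nr]; omega

theorem ch_one {N : ℕ} (hN : 1 ≤ N) {x : Pt} (h : nr x ≤ 3 * N) : ch N x = 1 := by
  have hN' : (0 : ℝ) < N := by exact_mod_cast hN
  have a1 : -(4 * (N : ℤ)) + N ≤ x.1 := by simp only [nr] at h; omega
  have a2 : x.1 ≤ 3 * (N : ℤ) := by simp only [nr] at h; omega
  have a3 : -(4 * (N : ℤ)) + N ≤ x.2 := by simp only [nr] at h; omega
  have a4 : x.2 ≤ 3 * (N : ℤ) := by simp only [nr] at h; omega
  exact bump_one hN' (by exact_mod_cast a1) (by exact_mod_cast a2) (by exact_mod_cast a3)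
    (by exact_mod_cast a4)

theorem ub_one {N : ℕ} (hN : 1 ≤ N) {x : Pt} (h : nr x ≤ N) : ub N x = 1 := by
  have hN' : (0 : ℝ) < N := by exact_mod_cast hN
  have a1 : -(2 * (N : ℤ)) + N ≤ x.1 := by simp only [nr] at h; omega
  have a2 : x.1 ≤ (N : ℤ) := by simp only [nr] at h; omega
  have a3 : -(2 * (N : ℤ)) + N ≤ x.2 := by simp only [nr] at h; omega
  have a4 : x.2 ≤ (N : ℤ) := by simp only [nr] at h; omega
  exact bump_one hN' (by exact_mod_cast a1) (by exact_mod_cast a2) (by exact_mod_cast a3)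
    (by exact_mod_cast a4)

theorem UU_nonneg (N : ℕ) (w : Pt) : 0 ≤ UU N w := sum_nonneg fun _ _ => sq_nonneg _

theorem UU_le {N : ℕ} (hN : 1 ≤ N) (w : Pt) : UU N w ≤ 49 * 1152 ^ 2 * (nr w : ℝ) ^ 2 := by
  have hN' : (1 : ℝ) ≤ N := by exact_mod_cast hN
  have hs : Sm2 (ub N) 576 N := bump_sm2 _ _ _ _ (by linarith)
  have h1 : ∀ x ∈ bl 0 (3 * N), (ub N (x + w) - ub N x) ^ 2 ≤ (1152 * nr w / N) ^ 2 := fun x _ => by
    have := lip_nr hs (by linarith) (x + w) x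
    rw [add_sub_cancel_left] at this
    exact sq_le_sq' (by linarith [(abs_le.1 this).1]) (by linarith [(abs_le.1 this).2])
  refine (sum_le_card_nsmul _ _ _ h1).trans ?_
  rw [card_bl, nsmul_eq_mul]
  push_cast
  have h2 : (2 * (3 * (N : ℝ)) + 1) ^ 2 ≤ 49 * N ^ 2 := by nlinarith
  calc (2 * (3 * (N : ℝ)) + 1) ^ 2 * (1152 * nr w / N) ^ 2
      ≤ 49 * N ^ 2 * (1152 * nr w / N) ^ 2 := mul_le_mul_of_nonneg_right h2 (sq_nonneg _)
    _ = _ := by field_simp

theorem one_le_UU {N : ℕ} (hN : 1 ≤ N) : 1 ≤ UU N (1, 0) := by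
  have hN' : (1 : ℝ) ≤ N := by exact_mod_cast hN
  set g : ℕ × ℕ → Pt := fun p => (-(2 * (N : ℤ)) + p.2, p.1) with hg
  set F : Pt → ℝ := fun x => (ub N (x + (1, 0)) - ub N x) ^ 2 with hF
  have inj : Set.InjOn g (range N ×ˢ range N : Finset (ℕ × ℕ)) := fun p _ q _ h => by
    simp only [hg, Prod.mk.injEq] at h
    ext <;> omega
  have row : ∀ j ∈ range N, 1 ≤ N * ∑ i ∈ range N, F (g (j, i)) := fun j hj => by
    rw [mem_range] at hj
    have e : ∑ i ∈ range N, (ub N (g (j, i + 1)) - ub N (g (j, i))) = 1 := by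
      rw [sum_range_sub (fun i => ub N (g (j, i)))]
      have e1 : ub N (g (j, N)) = 1 := ub_one hN (by simp only [hg, nr]; omega)
      have e0 : ub N (g (j, 0)) = 0 := by
        by_contra h
        have := ub_ne hN h
        simp only [hg, nr] at this
        omega
      rw [e1, e0, sub_zero]
    have cs := sq_sum_le_card_mul_sum_sq (s := range N)
      (f := fun i => ub N (g (j, i + 1)) - ub N (g (j, i)))
    rw [e, card_range] at cs
    refine le_trans (by norm_num) (cs.trans (le_of_eq ?_))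
    congr 1
    refine sum_congr rfl fun i _ => ?_
    have : g (j, i + 1) = g (j, i) + (1, 0) := by
      simp only [hg]; ext <;> simp; ring
    rw [this]
  have h1 : ∑ p ∈ range N ×ˢ range N, F (g p) ≤ UU N (1, 0) := by
    rw [← sum_image (f := F) inj]
    refine sum_le_sum_of_subset_of_nonneg (fun x hx => ?_) fun _ _ _ => sq_nonneg _
    obtain ⟨p, hp, rfl⟩ := mem_image.1 hx
    rw [mem_product, mem_range, mem_range] at hp
    rw [mem_bl0]; simp only [hg, nr]; omega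
  rw [sum_product] at h1
  have h2 := sum_le_sum row
  rw [sum_const, card_range, nsmul_eq_mul, mul_one, ← mul_sum] at h2
  nlinarith

theorem sum_JL {Λ : Lat} (hΛ : Λ.Ok) {D B : Finset Pt} {u : Pt → ℝ} (s : Cfg Pt) (hu : Sup B u)
    (hB : ∀ x ∈ B, bl x Λ.rg ⊆ D) :
    ∑ x ∈ B, u x * JL Λ.J x s = ∑ e ∈ Λ.edI D, (u e.2 - u e.1) * (dE e s : ℝ) := by
  have hBD : B ⊆ D := fun x hx => hB x hx (self_mem_bl _ _)
  have h := ip_dv (E := Λ.edI D) (B := D) (fun e => (dE e s : ℝ))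
    (fun e he => ⟨(Lat.mem_edI.1 he).2.1, (Lat.mem_edI.1 he).2.2⟩) u
  rw [ip, ← sum_subset hBD fun x _ hx => by rw [hu x hx, mul_zero]] at h
  rw [sum_congr rfl fun e _ => mul_comm (u e.2 - u e.1) (dE e s : ℝ), ← h]
  refine sum_congr rfl fun x hx => ?_
  rw [mul_comm, RJ57.dv_edI, JL, hΛ.sum_J]
  congr 1
  refine sum_congr rfl fun y hy => ?_
  have hy' := Lat.le_rg (Lat.mem_Jp.1 hy).1
  rw [abs_le, abs_le] at hy'
  have m1 : x - y ∈ D := hB x hx (by rw [mem_bl]; simp only [Prod.fst_sub, Prod.snd_sub]; omega)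
  have m2 : x + y ∈ D := hB x hx (by rw [mem_bl]; simp only [Prod.fst_add, Prod.snd_add]; omega)
  rw [RJ57.gt_one m1 (by rw [sub_add_cancel]; exact hBD hx), RJ57.gt_one (hBD hx) m2]
  simp only [dE, ← sub_eq_add_neg]
  push_cast
  ring

theorem tau_pr {Λ : Lat} (hΛ : Λ.Ok) {D B : Finset Pt} {u : Pt → ℝ} (s : Cfg Pt) (hu : Sup B u)
    (hB : ∀ x ∈ B, bl x Λ.rg ⊆ D) : Λ.τ * pr (Λ.Au D u) s = ∑ x ∈ B, u x * JL Λ.J x s := by
  rw [sum_JL hΛ s hu hB, Lat.Au, pr_dv, mul_sum]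
  refine sum_congr rfl fun e _ => ?_
  have := hΛ.pos.ne'
  field_simp

theorem tame_JL (J : Finset Pt) (x : Pt) : Tame (JL J x) :=
  Tame.sum J fun y _ => (Tame.ev x).sub (Tame.ev (x + y))

end B65

open B65

theorem bumpStmt : BumpStmt := by
  refine ⟨49 * 1152 ^ 2, by norm_num, fun N hN => ?_⟩
  have hN' : (0 : ℝ) < N := by exact_mod_cast hN
  have hu : Sm2 (ub N) 576 N := bump_sm2 _ _ _ _ hN'
  have hc : Sm2 (ch N) 576 N := bump_sm2 _ _ _ _ hN'
  refine ⟨⟨hu.mono hN' (by norm_num), hc.mono hN' (by norm_num)⟩,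
    fun x => ⟨abs_bump_le x, abs_bump_le x, ub_ne hN, ch_ne hN, ch_one hN⟩,
    fun x y => ⟨(lip_nr hu hN' x y).trans ?_, (lip_nr hc hN' x y).trans ?_⟩,
    fun w => ⟨UU_nonneg N w, UU_le hN w⟩, one_le_UU hN⟩ <;>
  exact div_le_div_of_nonneg_right
    (mul_le_mul_of_nonneg_right (by norm_num) (Nat.cast_nonneg _)) hN'.le

theorem idStmt' : IdStmt := by
  intro Λ hΛ
  refine ⟨fun D B u s hu hB => ⟨sum_JL hΛ s hu hB, tau_pr hΛ s hu hB⟩, fun N hN => ?_⟩
  have hN1 : 1 ≤ N := hΛ.one_le_rg.trans hN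
  have hτ := hΛ.pos.ne'
  refine ⟨?_, ?_, ?_⟩
  · rw [Lat.En, Lat.sum_edI, mul_sum, EE]
    refine sum_congr rfl fun y hy => ?_
    have hy' := Lat.le_rg (Lat.mem_Jp.1 hy).1
    rw [abs_le, abs_le] at hy'
    rw [mul_sum, UU]
    symm
    refine sum_subset_zero_on_sdiff (fun x hx => ?_) (fun x hx => ?_) fun x _ => by field_simp
    · rw [mem_filter, mem_bl, mem_bl]
      rw [mem_bl] at hx
      simp only [Prod.fst_add, Prod.snd_add, Prod.fst_zero, Prod.snd_zero] at hx ⊢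
      omega
    · have hx' := (mem_sdiff.1 hx).2
      rw [mem_bl0] at hx'
      have h1 : ub N x = 0 := by
        by_contra h
        have := ub_ne hN1 h
        omega
      have h2 : ub N (x + y) = 0 := by
        by_contra h
        have := ub_ne hN1 h
        simp only [nr, Prod.fst_add, Prod.snd_add] at this hx'
        omega
      simp [h1, h2]
  · exact (one_le_UU hN1).trans
      (single_le_sum (f := fun y => UU N y) (fun y _ => UU_nonneg N y) hΛ.e1)
  · have hu : Sup (bl 0 (2 * N)) (ub N) := fun x hx => by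
      by_contra h
      exact hx (mem_bl0.2 (ub_ne hN1 h).le)
    have hB : ∀ x ∈ bl 0 (2 * N), bl x Λ.rg ⊆ bl 0 (10 * N) := fun x hx =>
      bl_subset_bl hx (by omega)
    have hc := hΛ.cen_D (bl 0 (10 * N))
    have h0 : Ex (WD Λ (10 * N)) (fun s => pr (Λ.Au (bl 0 (10 * N)) (ub N)) s) = 0 :=
      hc.ex_odd fun s => map_neg _ s
    rw [VJ, Vr, Cv, h0, mul_zero, sub_zero, ← Ex_const_mul]
    have e : ∀ s : Cfg Pt, Λ.τ ^ 2 * (pr (Λ.Au (bl 0 (10 * N)) (ub N)) s *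
        pr (Λ.Au (bl 0 (10 * N)) (ub N)) s) = ∑ x ∈ bl 0 (2 * N), ∑ y ∈ bl 0 (2 * N),
          ub N x * ub N y * (JL Λ.J x s * JL Λ.J y s) := fun s => by
      have := tau_pr hΛ s hu hB
      calc _ = (Λ.τ * pr (Λ.Au (bl 0 (10 * N)) (ub N)) s) *
            (Λ.τ * pr (Λ.Au (bl 0 (10 * N)) (ub N)) s) := by ring
        _ = _ := by
          rw [this, sum_mul_sum]
          exact sum_congr rfl fun x _ => sum_congr rfl fun y _ => by ring
    simp only [e]
    have ht : ∀ x y : Pt, Tame fun s => ub N x * ub N y * (JL Λ.J x s * JL Λ.J y s) := fun x y =>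
      ((tame_JL Λ.J x).mul (tame_JL Λ.J y)).const_mul _
    rw [WD, Ex_sum _ fun x _ => hc.ig (Tame.sum _ fun y _ => ht x y)]
    refine sum_congr rfl fun x _ => ?_
    rw [Ex_sum _ fun y _ => hc.ig (ht x y)]
    exact sum_congr rfl fun y _ => Ex_const_mul _ _ _

theorem idStmt (_ : BumpStmt) : IdStmt := idStmt'

end Crest.Agent.T145.Df
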