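import Crest.Agent.T145.DfDef_70
import Crest.Agent.T145.Soft_23

/-!
# Row 145, module Df: the kernel and its derivative are uniformly Cauchy (`Df.cauStmt`, helper4)
-/

set_option autoImplicit false

namespace Crest.Agent.T145.Df

open Finset Filter Topology Nc

namespace Cau4

/-- the orbit-symmetrised product -/
noncomputable def H (Λ : Lat) (w : Pt) (s : Cfg Pt) : ℝ := JL Λ.J 0 s * ∑ v ∈ orb w, JL Λ.J v s

variable {Λ : Lat} {w : Pt}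

theorem ins_J (hA : AlgStmt) (hΛ : Λ.Ok) {v : Pt} {d r : ℕ} (hv : v ∈ bl 0 d) (h : Λ.rg + d ≤ r) :
    Ins 0 r (JL Λ.J v) :=
  ⟨(hA.2.2 Λ hΛ v).1.1.mono (bl_subset_bl hv h), (hA.2.2 Λ hΛ v).1.2⟩

theorem ins_e (hA : AlgStmt) (hΛ : Λ.Ok) {v : Pt} {d r : ℕ} (hv : v ∈ bl 0 d) (h : Λ.rg + d ≤ r) :
    Ins 0 r (es Λ v) :=
  ⟨(hA.2.2 Λ hΛ v).2.2.2.1.1.mono (bl_subset_bl hv h), (hA.2.2 Λ hΛ v).2.2.2.1.2⟩

theorem orb_sub {v : Pt} (hv : v ∈ orb w) : v ∈ bl 0 (nr w) := (mem_filter.1 hv).1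

theorem ins_mul {z : Pt} {r : ℕ} {F G : Cfg Pt → ℝ} (hF : Ins z r F) (hG : Ins z r G) :
    Ins z r fun s => F s * G s := ⟨hF.1.mul hG.1, hF.2.mul hG.2⟩

theorem ins_H (hA : AlgStmt) (hΛ : Λ.Ok) {r : ℕ} (h : Λ.rg + nr w ≤ r) : Ins 0 r (H Λ w) :=
  ins_mul (ins_J hA hΛ (self_mem_bl 0 0) (by omega))
    ⟨DepG.sum fun _ hv => (ins_J hA hΛ (orb_sub hv) h).1,
      Tame.sum _ fun _ hv => (ins_J hA hΛ (orb_sub hv) h).2⟩

theorem even_H (hA : AlgStmt) (hΛ : Λ.Ok) : EvenF (H Λ w) := fun s => by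
  have e : ∀ v, JL Λ.J v (-s) = -JL Λ.J v s := fun v => (hA.2.2 Λ hΛ v).2.1 s
  simp only [H, e, sum_neg_distrib, neg_mul_neg]

theorem d4_H (hA : AlgStmt) (hΛ : Λ.Ok) : D4 0 (H Λ w) := fun s => by
  have e1 := (hA.2.2 Λ hΛ 0).2.2.1 s
  have e2 := (hA.2.2 Λ hΛ w).2.2.2.2.2.2.2.1 s
  simp only at e2
  simp only [H, e1.1, e1.2, e2.1, e2.2, and_self]

theorem ex_abs_sum {W : Cfg Pt → ℝ} (hW : Cen W) {X : Pt → Cfg Pt → ℝ} {T : Finset Pt} {C : ℝ}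
    (hC : 0 ≤ C) (hT : T.card ≤ 8) (h : ∀ v ∈ T, Tame (X v) ∧ Ex W (fun s => |X v s|) ≤ C) :
    Ex W (fun s => |∑ v ∈ T, X v s|) ≤ 8 * C := by
  have h8 : (T.card : ℝ) ≤ 8 := by exact_mod_cast hT
  refine (Ex_mono hW.nonneg (hW.ig (Tame.sum _ fun v hv => (h v hv).1).abs)
    (hW.ig (Tame.sum _ fun v hv => (h v hv).1.abs)) fun s => abs_sum_le_sum_abs _ _).trans ?_
  rw [Ex_sum _ fun v hv => hW.ig (h v hv).1.abs]
  refine (sum_le_card_nsmul _ _ _ fun v hv => (h v hv).2).trans ?_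
  rw [nsmul_eq_mul]
  exact mul_le_mul_of_nonneg_right h8 hC

/-- the bare bounds in one model -/
structure Mo (Λ : Lat) (w : Pt) (ρ : ℕ) (C : ℝ) (W : Cfg Pt → ℝ) : Prop where
  k : Ex W (fun s => |JL Λ.J 0 s * JL Λ.J w s|) ≤ C
  h : Ex W (fun s => |H Λ w s|) ≤ 8 * C
  e : ∀ z ∈ bl 0 ρ, Ex W (fun s => |es Λ z s|) ≤ C
  he : ∀ z ∈ bl 0 ρ, Ex W (fun s => |H Λ w s * es Λ z s|) ≤ 8 * C

theorem mo (hA : AlgStmt) (hΛ : Λ.Ok) {C : ℝ} (hC : 1 ≤ C) {m : Mdl Pt} (hc : m.Ctr) (ha : m.Anch) {ρ : ℕ}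
    (hM : ∀ x y v : Pt, Sees Λ m x → Sees Λ m y → Sees Λ m v →
      Ex (m.W 0) (fun s => |JL Λ.J x s|) ≤ C ∧ Ex (m.W 0) (fun s => |es Λ v s|) ≤ C ∧
      Ex (m.W 0) (fun s => |JL Λ.J x s * JL Λ.J y s|) ≤ C ∧
      Ex (m.W 0) (fun s => |JL Λ.J x s * es Λ v s|) ≤ C ∧
      Ex (m.W 0) (fun s => |JL Λ.J x s * JL Λ.J y s * es Λ v s|) ≤ C)
    (hS : ∀ x ∈ bl 0 (nr w + ρ), Sees Λ m x) : Mo Λ w ρ C (m.W 0) := by
  have h0 := hS 0 (self_mem_bl _ _)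
  have h1 : ∀ v ∈ orb w, Sees Λ m v := fun v hv => hS v (bl_mono 0 (by omega) (orb_sub hv))
  have h2 : ∀ z ∈ bl 0 ρ, Sees Λ m z := fun z hz => hS z (bl_mono 0 (by omega) hz)
  have tJ : ∀ v, Tame (JL Λ.J v) := fun v => (hA.2.2 Λ hΛ v).1.2
  have te : ∀ v, Tame (es Λ v) := fun v => (hA.2.2 Λ hΛ v).2.2.2.1.2
  refine ⟨(hM 0 w 0 h0 (h1 w (hA.2.1 w).1) h0).2.2.1, ?_, fun z hz => (hM 0 0 z h0 h0 (h2 z hz)).2.1,
    fun z hz => ?_⟩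
  · simp only [H, mul_sum]
    exact ex_abs_sum (hc.cen ha) (by linarith) (hA.2.1 w).2.1 fun v hv =>
      ⟨(tJ 0).mul (tJ v), (hM 0 v 0 h0 (h1 v hv) h0).2.2.1⟩
  · simp only [H, mul_sum, sum_mul]
    exact ex_abs_sum (hc.cen ha) (by linarith) (hA.2.1 w).2.1 fun v hv =>
      ⟨((tJ 0).mul (tJ v)).mul (te z), (hM 0 v z h0 (h1 v hv) (h2 z hz)).2.2.2.2⟩

theorem amb_D (hΛ : Λ.Ok) {r R : ℕ} (h : r ≤ R) : Amb Λ (Λ.D (bl 0 R)) (bl 0 r) :=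
  ⟨hΛ.ctr_D _, hΛ.anch_D _, bl_mono 0 h, Lat.near_D (bl_mono 0 h)⟩

/-- the local covariance -/
noncomputable def cv (Λ : Lat) (w : Pt) (R : ℕ) (z : Pt) : ℝ :=
  Ex (WD Λ R) (fun s => H Λ w s * es Λ z s) - Ex (WD Λ R) (H Λ w) * Ex (WD Λ R) (es Λ z)

theorem kd_eq (hA : AlgStmt) (hE : EnStmt) (hΛ : Λ.Ok) {ρ R : ℕ} (h : ρ ≤ R) :
    (orb w).card * kd Λ R w = ∑ z ∈ bl 0 ρ, cv Λ w R z + ∑ z ∈ an 0 ρ (R + Λ.rg),
      Ex (WD Λ R) fun s => (H Λ w s - Ex (WD Λ R) (H Λ w)) * ec Λ (Λ.D (bl 0 R)) z s := by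
  have hW : Cen (WD Λ R) := hΛ.cen_D _
  have tJ : ∀ v, Tame (JL Λ.J v) := fun v => (hA.2.2 Λ hΛ v).1.2
  have te : ∀ v, Tame (es Λ v) := fun v => (hA.2.2 Λ hΛ v).2.2.2.1.2
  have tc : ∀ v, Tame (ec Λ (Λ.D (bl 0 R)) v) := fun v => (te v).sub (Tame.const _)
  have tH : Tame (H Λ w) := (ins_H hA hΛ le_rfl).2
  have e0 : ∀ z, Ex (WD Λ R) (ec Λ (Λ.D (bl 0 R)) z) = 0 := fun z =>
    (hW.wt.ex_sub_const (hW.ig (te z)) _).trans (sub_self _)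
  have e1 : ∀ z, (Ex (WD Λ R) fun s => H Λ w s * ec Λ (Λ.D (bl 0 R)) z s) = cv Λ w R z := fun z => by
    simp only [ec, mul_sub]
    rw [Ex_sub (hW.ig (tH.mul (te z))) (hW.ig (tH.mul_const _)), Ex_mul_const]
    rfl
  have e2 : ∀ z, (Ex (WD Λ R) fun s => (H Λ w s - Ex (WD Λ R) (H Λ w)) * ec Λ (Λ.D (bl 0 R)) z s) =
      cv Λ w R z := fun z => by
    simp only [sub_mul]
    rw [Ex_sub (hW.ig (tH.mul (tc z))) (hW.ig ((tc z).const_mul _)), Ex_const_mul, e0, e1, mul_zero,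
      sub_zero]
  have e3 : (orb w).card * kd Λ R w = ∑ v ∈ orb w, kd Λ R v := by
    rw [sum_congr rfl (hE Λ hΛ R w).2.1, sum_const, nsmul_eq_mul]
  rw [e3, sum_congr rfl fun v _ => (hE Λ hΛ R v).2.2, sum_comm]
  simp only [e2]
  rw [add_comm (∑ z ∈ bl 0 ρ, _), an, sum_sdiff (bl_mono 0 (by omega))]
  refine sum_congr rfl fun z _ => ?_
  rw [← e1, ← Ex_sum _ fun v _ => hW.ig (((tJ 0).mul (tJ v)).mul (tc z))]
  simp only [H, mul_sum, sum_mul]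

theorem cov_diff {a a' b b' c c' e C : ℝ} (he : 0 ≤ e) (hC : 1 ≤ C) (h1 : |a - a'| ≤ e * (8 * C))
    (h2 : |b - b'| ≤ e * (8 * C)) (h3 : |c - c'| ≤ e * C) (h4 : |b'| ≤ 8 * C) (h5 : |c| ≤ C) :
    |a - b * c - (a' - b' * c')| ≤ e * (24 * C ^ 2) := by
  have e1 : a - b * c - (a' - b' * c') = (a - a') - ((b - b') * c + b' * (c - c')) := by ring
  have k1 : |(b - b') * c| ≤ e * (8 * C) * C := by
    rw [abs_mul]; exact mul_le_mul h2 h5 (abs_nonneg _) (by positivity)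
  have k2 : |b' * (c - c')| ≤ 8 * C * (e * C) := by
    rw [abs_mul]; exact mul_le_mul h4 h3 (abs_nonneg _) (by positivity)
  have k3 : e * (8 * C) ≤ e * (8 * C ^ 2) := mul_le_mul_of_nonneg_left (by nlinarith) he
  rw [e1]
  refine (abs_sub _ _).trans ?_
  have := abs_add_le ((b - b') * c) (b' * (c - c'))
  nlinarith

theorem ev_pow (K : ℝ) {p ε : ℝ} (hp : p < 0) (hε : 0 < ε) :
    ∀ᶠ R : ℕ in atTop, K * (R : ℝ) ^ p ≤ ε := by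
  have h : Tendsto (fun R : ℕ => K * (R : ℝ) ^ p) atTop (𝓝 (K * 0)) := by
    have := (tendsto_rpow_neg_atTop (neg_pos.2 hp)).comp tendsto_natCast_atTop_atTop
    simp only [neg_neg] at this
    exact this.const_mul K
  rw [mul_zero] at h
  exact h.eventually (eventually_le_nhds hε)

end Cau4

open Cau4

theorem cauStmt (hA : AlgStmt) (hM : MomStmt) (hS : SemiStmt) (_hK : KbStmt) (hE : EnStmt)
    (hB : AmbStmt) (hF : FarStmt) : CauStmt := by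
  intro F P w ε hε
  obtain ⟨C, hC, HM⟩ := hM.1 F
  obtain ⟨C', A, hC', -, HF⟩ := hF F P
  have hβ := P.hβ
  set r := P.r₀ + nr w with hr
  set K : ℝ := C' * (16 * C) * (r : ℝ) ^ P.β with hK
  obtain ⟨ρ, hρ1, hρ2⟩ := ((ev_pow K (p := 2 - 2 * P.β) (ε := ε / 8) (by linarith)
    (by positivity)).and (eventually_ge_atTop (A * r))).exists
  obtain ⟨R₁, hR₁⟩ := eventually_atTop.1 (ev_pow K (p := 1 - P.β) (ε := ε / 8) (by linarith)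
    (by positivity))
  set n : ℝ := ((bl (0 : Pt) ρ).card : ℝ) with hn
  have hn0 : 0 ≤ n := by positivity
  set e : ℝ := ε / (2 * (n + 1) * (24 * C ^ 2)) with he
  have he0 : 0 < e := by positivity
  have he1 : e * (2 * (n + 1) * (24 * C ^ 2)) = ε := div_mul_cancel₀ _ (by positivity)
  have he2 : e * C ≤ ε := by
    rw [← he1]
    exact mul_le_mul_of_nonneg_left (by nlinarith [mul_nonneg hn0 (sq_nonneg C)]) he0.le
  obtain ⟨R₂, hR₂⟩ := (hB P.W P.r₀ (r + ρ) e he0 (by omega)).exists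
  refine ⟨R₁ + R₂ + ρ, fun R R' h1 h2 Λ hΛ hG => ?_⟩
  have ok := hΛ.ok
  have gd := (hG R₂).gd
  have hW := gd.1
  have hg := gd.2.1
  have mD : ∀ R, Mo Λ w ρ C (WD Λ R) := fun R => mo hA ok hC (ok.ctr_D _) (ok.anch_D _)
    (fun x y v => HM Λ hΛ _ x y v (ok.ctr_D _) (ok.anch_D _)) fun x _ => (hM.2 Λ ok x).2.1 _
  have mN : ∀ a b, r + a ≤ b → Mo Λ w a C ((Λ.Nr (bl 0 (P.W * b)) 0).W 0) := fun a b hb =>
    have a1 := ok.ctr_Nr (bl 0 (P.W * b)) 0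
    have a2 := ok.anch_Nr_bl (self_mem_bl (0 : Pt) (P.W * b))
    mo hA ok hC a1 a2 (fun x y v => HM Λ hΛ _ x y v a1 a2) fun x hx =>
      (hM.2 Λ ok x).2.2.1 _ _ (bl_subset_bl hx (by nlinarith))
  have amb : ∀ X, Ins 0 (r + ρ) X → ∀ c, Nm Λ 0 (P.W * (r + ρ)) X ≤ c →
      |Ex (WD Λ R) X - Ex (WD Λ R') X| ≤ e * c := fun X hX c hc =>
    (hR₂ Λ ok _ (Nat.le_mul_of_pos_left _ (by omega)) gd 0 X _ _ hX (amb_D ok (by omega))
      (amb_D ok (by omega))).trans (mul_le_mul_of_nonneg_left hc he0.le)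
  have m2 := mN ρ _ le_rfl
  have iH : Ins 0 (r + ρ) (H Λ w) := ins_H hA ok (by omega)
  refine ⟨(amb _ (ins_mul (ins_J hA ok (self_mem_bl 0 0) (by omega))
    (ins_J hA ok (orb_sub (hA.2.1 w).1) (by omega))) C m2.k).trans he2, ?_⟩
  have aH : ∀ R, |Ex (WD Λ R) (H Λ w)| ≤ 8 * C := fun R =>
    (abs_Ex_le (ok.cen_D _).nonneg ((ok.cen_D _).ig iH.2)).trans (mD R).h
  have near : |∑ z ∈ bl 0 ρ, cv Λ w R z - ∑ z ∈ bl 0 ρ, cv Λ w R' z| ≤ ε / 2 := by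
    rw [← sum_sub_distrib]
    refine (abs_sum_le_sum_abs _ _).trans ((sum_le_card_nsmul _ _ (e * (24 * C ^ 2)) fun z hz => ?_).trans ?_)
    · have ie : Ins 0 (r + ρ) (es Λ z) := ins_e hA ok hz (by omega)
      exact cov_diff he0.le hC (amb _ (ins_mul iH ie) _ (m2.he z hz)) (amb _ iH _ m2.h)
        (amb _ ie _ (m2.e z hz)) (aH R')
        ((abs_Ex_le (ok.cen_D _).nonneg ((ok.cen_D _).ig ie.2)).trans ((mD R).e z hz))
    · rw [nsmul_eq_mul, ← hn]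
      have : 0 ≤ e * (24 * C ^ 2) := by positivity
      nlinarith
  have far : ∀ R, R₁ + R₂ + ρ ≤ R → |∑ z ∈ an 0 ρ (R + Λ.rg),
      Ex (WD Λ R) fun s => (H Λ w s - Ex (WD Λ R) (H Λ w)) * ec Λ (Λ.D (bl 0 R)) z s| ≤ ε / 4 := by
    intro R hR
    have iH' : Ins 0 r (H Λ w) := ins_H hA ok (by omega)
    have s1 := (hS Λ ok P.W 0 r hW (by omega)).1 _ iH'
    have s2 : nu Λ P.W 0 r (fun s => H Λ w s - Ex (WD Λ R) (H Λ w)) ≤ 16 * C := by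
      have := (mN 0 r le_rfl).h
      have := s1.2.2.1 (Ex (WD Λ R) (H Λ w))
      have := aH R
      have : Nm Λ 0 (P.W * r) (H Λ w) ≤ 8 * C := (mN 0 r le_rfl).h
      linarith [s1.2.1]
    have s3 := HF Λ hΛ hG r ρ R (fun s => H Λ w s - Ex (WD Λ R) (H Λ w)) (by omega) hρ2 (by omega)
      ⟨iH'.1.sub (DepG.const _ _), iH'.2.sub (Tame.const _)⟩
      (fun s => by simp only [even_H hA ok s])
      (fun s => by simp only [(d4_H hA ok s).1, (d4_H hA ok s).2, and_self])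
      (((ok.cen_D _).wt.ex_sub_const ((ok.cen_D _).ig iH.2) _).trans (sub_self _))
    refine (abs_sum_le_sum_abs _ _).trans (s3.trans ?_)
    have := hR₁ R (by omega)
    calc _ ≤ K * ((ρ : ℝ) ^ (2 - 2 * P.β) + (R : ℝ) ^ (1 - P.β)) := by
          rw [hK]; gcongr
      _ ≤ _ := by linarith
  have c1 : (1 : ℝ) ≤ (orb w).card := by exact_mod_cast card_pos.2 ⟨w, (hA.2.1 w).1⟩
  have key : |(orb w).card * (kd Λ R w - kd Λ R' w)| ≤ ε := by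
    rw [mul_sub, kd_eq hA hE ok (by omega : ρ ≤ R), kd_eq hA hE ok (by omega : ρ ≤ R')]
    have f1 := abs_le.1 (far R h1)
    have f2 := abs_le.1 (far R' h2)
    have f3 := abs_le.1 near
    rw [abs_le]
    constructor <;> linarith
  rw [abs_mul, abs_of_nonneg (by linarith : (0 : ℝ) ≤ (orb w).card)] at key
  nlinarith [abs_nonneg (kd Λ R w - kd Λ R' w)]

end Crest.Agent.T145.Df
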