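import Crest.Agent.T145.DfDef_70
import Crest.Agent.T145.NcLat_37

/-!
# Row 145, module Df: the size of the `τ`-derivative of the kernel (`derStmt`) (helper15)
-/

set_option autoImplicit false

namespace Crest.Agent.T145.Df

open Finset Filter Nc

namespace Der15

variable {Λ : Lat}

/-- `J_0 ∑_{orbit of w} J_v`, centred in the box of radius `R` -/
noncomputable def GG (Λ : Lat) (R : ℕ) (w : Pt) (s : Cfg Pt) : ℝ :=
  ∑ v ∈ orb w, JL Λ.J 0 s * JL Λ.J v s - ∑ v ∈ orb w, kk Λ R v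

theorem nr_neg (v : Pt) : nr (0 - v) = nr v := by simp [nr]

theorem mem_bl0 (hA : AlgStmt) {v : Pt} {r : ℕ} : v ∈ bl 0 r ↔ nr v ≤ r := by
  rw [hA.1, sub_zero]

theorem ins_JJ (hA : AlgStmt) (h : Λ.Ok) {v : Pt} {r : ℕ} (hr : nr v + Λ.rg ≤ r) :
    Ins 0 r fun s => JL Λ.J 0 s * JL Λ.J v s :=
  ⟨((hA.2.2 Λ h 0).1.1.mono (bl_mono 0 (by omega))).mul ((hA.2.2 Λ h v).1.1.mono
    (bl_subset_bl ((mem_bl0 hA).2 le_rfl) (by omega))), (hA.2.2 Λ h 0).1.2.mul (hA.2.2 Λ h v).1.2⟩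

theorem ins_sum (hA : AlgStmt) (h : Λ.Ok) {w : Pt} {r : ℕ} (hr : nr w + Λ.rg ≤ r) :
    Ins 0 r fun s => ∑ v ∈ orb w, JL Λ.J 0 s * JL Λ.J v s :=
  ⟨DepG.sum fun v hv => (ins_JJ hA h (by rw [(hA.2.1 w).2.2 v hv]; exact hr)).1,
    Tame.sum _ fun v _ => (ins_JJ hA h le_rfl).2⟩

theorem GG_ins (hA : AlgStmt) (h : Λ.Ok) (R : ℕ) {w : Pt} {r : ℕ} (hr : nr w + Λ.rg ≤ r) :
    Ins 0 r (GG Λ R w) :=
  ⟨(ins_sum hA h hr).1.sub (DepG.const _ _), (ins_sum hA h hr).2.sub (Tame.const _)⟩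

theorem GG_even (hA : AlgStmt) (h : Λ.Ok) (R : ℕ) (w : Pt) : EvenF (GG Λ R w) := fun s => by
  simp only [GG, (hA.2.2 Λ h _).2.1 s, neg_mul_neg]

theorem GG_d4 (hA : AlgStmt) (h : Λ.Ok) (R : ℕ) (w : Pt) : D4 0 (GG Λ R w) := fun s => by
  have h1 := (hA.2.2 Λ h 0).2.2.1 s
  have h2 := (hA.2.2 Λ h w).2.2.2.2.2.2.2.1 s
  simp only at h2
  simp only [GG, ← mul_sum, h1.1, h1.2, h2.1, h2.2, and_self]

theorem GG_mean (hA : AlgStmt) (h : Λ.Ok) (R : ℕ) (w : Pt) : Ex (WD Λ R) (GG Λ R w) = 0 := by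
  have hc := h.cen_D (bl 0 R)
  refine (hc.wt.ex_sub_const (hc.ig (ins_sum hA h le_rfl).2) _).trans ?_
  rw [Ex_sum _ fun v _ => hc.ig (ins_JJ hA h le_rfl).2]
  exact sub_self _

theorem tame_ec (hA : AlgStmt) (h : Λ.Ok) (m : Mdl Pt) (z : Pt) : Tame (ec Λ m z) :=
  (hA.2.2 Λ h z).2.2.2.1.2.sub (Tame.const _)

/-- near part and far part of the derivative -/
theorem split (hA : AlgStmt) (hE : EnStmt) (h : Λ.Ok) {R ρ : ℕ} (hρ : ρ ≤ R + Λ.rg) (w : Pt) :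
    (#(orb w) : ℝ) * kd Λ R w =
      ∑ v ∈ orb w, ∑ z ∈ bl 0 ρ,
        Ex (WD Λ R) (fun s => JL Λ.J 0 s * JL Λ.J v s * ec Λ (Λ.D (bl 0 R)) z s) +
      ∑ z ∈ an 0 ρ (R + Λ.rg), Ex (WD Λ R) fun s => GG Λ R w s * ec Λ (Λ.D (bl 0 R)) z s := by
  have hc : Cen (WD Λ R) := h.cen_D (bl 0 R)
  rw [← nsmul_eq_mul, ← sum_const, sum_congr rfl fun v hv =>
    ((hE Λ h R w).2.1 v hv).symm.trans (hE Λ h R v).2.2]
  simp only [← L37.bl_union_an 0 hρ, sum_union (L37.disj_an 0 ρ (R + Λ.rg)).symm, sum_add_distrib]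
  rw [sum_comm (s := orb w) (t := an 0 ρ (R + Λ.rg))]
  congr 1
  refine sum_congr rfl fun z _ => ?_
  have t := tame_ec hA h (Λ.D (bl 0 R)) z
  have e0 : Ex (WD Λ R) (ec Λ (Λ.D (bl 0 R)) z) = 0 :=
    (hc.wt.ex_sub_const (hc.ig (hA.2.2 Λ h z).2.2.2.1.2) _).trans (sub_self _)
  have i1 := fun v => hc.ig ((ins_JJ hA h (v := v) le_rfl).2.mul t)
  simp only [GG]
  generalize ∑ v ∈ orb w, kk Λ R v = c
  simp only [sub_mul, sum_mul]
  rw [Ex_sub (Ig.sum _ fun v _ => i1 v) ((hc.ig t).const_mul _), Ex_const_mul, e0, mul_zero, sub_zero,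
    Ex_sum _ fun v _ => i1 v]

theorem amb_box (hA : AlgStmt) (h : Λ.Ok) {R r : ℕ} {z : Pt} (hz : nr z + r ≤ R) :
    Amb Λ (Λ.D (bl 0 R)) (bl z r) :=
  L37.Amb.mono' (L37.amb_D h _) (bl_subset_bl ((mem_bl0 hA).2 le_rfl) (by omega))

/-- the norm of the symmetrised two-point insertion -/
theorem nu_GG (hA : AlgStmt) (hS : SemiStmt) (h : Λ.Ok) {W r R : ℕ} {w : Pt} {b : ℝ} (hW : 2 ≤ W)
    (hr : nr w + Λ.rg ≤ r)
    (h1 : ∀ v ∈ orb w, nu Λ W 0 r (fun s => JL Λ.J 0 s * JL Λ.J v s) ≤ b ∧ |kk Λ R v| ≤ b) :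
    nu Λ W 0 r (GG Λ R w) ≤ 16 * b := by
  obtain ⟨s1, s2⟩ := hS Λ h W 0 r hW (by omega)
  have b0 : 0 ≤ b := (abs_nonneg _).trans (h1 w (hA.2.1 w).1).2
  have c8 : (#(orb w) : ℝ) * b ≤ 8 * b :=
    mul_le_mul_of_nonneg_right (by exact_mod_cast (hA.2.1 w).2.1) b0
  have a1 := (s2 Pt (orb w) _ fun v hv => ins_JJ hA h (by rw [(hA.2.1 w).2.2 v hv]; exact hr)).trans
    (sum_le_card_nsmul _ _ _ fun v hv => (h1 v hv).1)
  have a2 := (abs_sum_le_sum_abs _ _).trans (sum_le_card_nsmul _ _ _ fun v hv => (h1 v hv).2)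
  have a3 := (s1 _ (ins_sum hA h hr)).2.2.1 (∑ v ∈ orb w, kk Λ R v)
  rw [nsmul_eq_mul] at a1 a2
  exact a3.trans (by linarith)

/-- two balls and the rest -/
theorem three {B B₁ B₂ : Finset Pt} (T : Pt → ℝ) (h1 : B₁ ⊆ B) (h2 : B₂ ⊆ B)
    (h : Disjoint B₁ B₂ ∨ B₁ = B₂) {a b : ℝ} (a1 : |∑ z ∈ B₁, T z| ≤ a) (a2 : |∑ z ∈ B₂, T z| ≤ a)
    (b0 : 0 ≤ b) (hb : ∀ z ∈ B, z ∉ B₁ → z ∉ B₂ → |T z| ≤ b) :
    |∑ z ∈ B, T z| ≤ 2 * a + #B * b := by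
  have a0 : 0 ≤ a := (abs_nonneg _).trans a1
  have e : |∑ z ∈ B₁ ∪ B₂, T z| ≤ 2 * a := by
    rcases h with h | h
    · rw [sum_union h]; exact (abs_add_le _ _).trans (by linarith)
    · rw [h, union_self]; linarith
  have e2 : |∑ z ∈ B \ (B₁ ∪ B₂), T z| ≤ #B * b := by
    refine ((abs_sum_le_sum_abs _ _).trans (sum_le_card_nsmul _ _ b fun z hz => ?_)).trans ?_
    · rw [Finset.mem_sdiff, Finset.mem_union, not_or] at hz
      exact hb z hz.1 hz.2.1 hz.2.2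
    · rw [nsmul_eq_mul]
      exact mul_le_mul_of_nonneg_right (by exact_mod_cast card_le_card sdiff_subset) b0
  rw [← sum_sdiff (union_subset h1 h2)]
  exact (abs_add_le _ _).trans (by linarith)

end Der15

open Der15

theorem derStmt (hA : AlgStmt) (hP : PwStmt) (hS : SemiStmt) (hK : KbStmt) (hE : EnStmt)
    (hF : FarStmt) (hN : NearStmt) (hM : MidStmt) : DerStmt := by
  intro F P
  obtain ⟨Ck, k1, hK⟩ := hK F P
  obtain ⟨Cf, Af, f1, f2, hF⟩ := hF F P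
  obtain ⟨Cn, An, n1, n3, hN⟩ := hN F P
  obtain ⟨Cm, m1, hM⟩ := hM F P An n3
  have hβ := P.hβ
  have hβ' := P.hβ'
  refine ⟨8 * (2 * Cn + (3 * Af * (P.r₀ + 2)) ^ 2 * Cm) +
    Cf * (16 * Ck) * (2 * (P.r₀ + 2 : ℝ) ^ (2 - P.β)), fun w => ?_⟩
  set d := nr w with hd
  set r := 2 * d + P.r₀ + 1 with hr
  set ρ := Af * r with hρ
  have rρ : r ≤ ρ := Nat.le_mul_of_pos_left _ f2
  have r1 : (1 : ℝ) ≤ r := by exact_mod_cast (by omega : 1 ≤ r)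
  have ρ1 : (r : ℝ) ≤ ρ := by exact_mod_cast rρ
  have ev : ∀ᶠ R : ℕ in atTop, (R : ℝ) ^ (1 - P.β) ≤ (ρ : ℝ) ^ (2 - 2 * P.β) := by
    have := (tendsto_rpow_neg_atTop (y := P.β - 1) (by linarith)).comp tendsto_natCast_atTop_atTop
    simp only [neg_sub] at this
    exact this.eventually_le_const (Real.rpow_pos_of_pos (by linarith) _)
  filter_upwards [ev, eventually_ge_atTop (ρ + d)] with R hR1 hR2 Λ hΛ hRg
  have h : Λ.Ok := ⟨hΛ.1 ▸ F.adm, F.pos.trans_le hΛ.2.2.1⟩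
  obtain ⟨hW, h0, -⟩ := (hRg 0).gd
  have D0 : (0 : ℝ) < 1 + d := by positivity
  have Dr : (r : ℝ) ≤ (P.r₀ + 2) * (1 + d) := by
    rw [hr]; push_cast; nlinarith [mul_nonneg (Nat.cast_nonneg (α := ℝ) P.r₀) (Nat.cast_nonneg d)]
  have nv : ∀ v ∈ orb w, nr (0 - v) = d := fun v hv => (nr_neg v).trans ((hA.2.1 w).2.2 v hv)
  have nv' : ∀ v ∈ orb w, nr v = d := (hA.2.1 w).2.2
  have a0 : Amb Λ (Λ.D (bl 0 R)) (bl 0 d) := L37.Amb.mono' (L37.amb_D h _) (bl_mono 0 (by omega))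
  have av : ∀ v ∈ orb w, Amb Λ (Λ.D (bl 0 R)) (bl v d) := fun v hv =>
    amb_box hA h (by rw [nv' v hv]; omega)
  have g1 := nu_GG hA hS h (R := R) (w := w) (r := r) (b := Ck * (1 + (d : ℝ)) ^ (-(2 * P.α))) hW
    (by omega) fun v hv => by
      have := hK Λ hΛ d (hRg d) 0 v
      rw [nv v hv, min_self] at this
      exact ⟨this.2 r (by omega), this.1 _ a0 (av v hv)⟩
  have far := hF Λ hΛ hRg r ρ R _ (by omega) le_rfl (by omega) (GG_ins hA h R (w := w) (by omega))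
    (GG_even hA h R w) (GG_d4 hA h R w) (GG_mean hA h R w)
  set γ := (1 + (d : ℝ)) ^ (2 - P.β - 2 * P.α) with hγ
  have γ0 : 0 < γ := Real.rpow_pos_of_pos D0 _
  have near : ∀ v ∈ orb w, |∑ z ∈ bl 0 ρ,
      Ex (WD Λ R) (fun s => JL Λ.J 0 s * JL Λ.J v s * ec Λ (Λ.D (bl 0 R)) z s)| ≤
      (2 * Cn + (3 * Af * (P.r₀ + 2)) ^ 2 * Cm) * γ := fun v hv => by
    have q1 := hN Λ hΛ hRg _ 0 v (by rw [nv v hv]; exact a0) (by rw [nv v hv]; exact av v hv)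
    have q2 := hN Λ hΛ hRg _ v 0 (by rw [sub_zero, nv' v hv]; exact av v hv)
      (by rw [sub_zero, nv' v hv]; exact a0)
    rw [nv v hv] at q1
    simp only [sub_zero, nv' v hv, mul_comm (JL Λ.J v _)] at q2
    have dA : d / An ≤ d / 3 := Nat.div_le_div_left n3 (by norm_num)
    refine (three _ (bl_mono 0 (by omega)) (bl_subset_bl ((mem_bl0 hA).2 (nv' v hv).le) (by omega)) ?_
      q1 q2 (b := Cm * (1 + (d : ℝ)) ^ (-P.β - 2 * P.α)) (by positivity) fun z hz z1 z2 => ?_).trans ?_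
    · rcases Nat.eq_zero_or_pos d with d0 | d0
      · have := nv' v hv
        rw [d0, nr] at this
        rw [show v = 0 from Prod.ext (by simp only [Prod.fst_zero]; omega)
          (by simp only [Prod.snd_zero]; omega)]
        exact Or.inr rfl
      · refine Or.inl (disjoint_left.2 fun x x1 x2 => ?_)
        have := (mem_bl0 hA).1 (bl_subset_bl x1 le_rfl (mem_bl_comm.1 x2))
        rw [nv' v hv] at this
        omega
    · have := hM Λ hΛ hRg (Λ.D (bl 0 R)) 0 v z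
      rw [nv v hv] at this
      exact this a0 (av v hv) (amb_box hA h (by have := (mem_bl0 hA).1 hz; omega)) z1 z2
    · have e : γ = (1 + (d : ℝ)) ^ 2 * (1 + (d : ℝ)) ^ (-P.β - 2 * P.α) := by
        rw [hγ, ← Real.rpow_two, ← Real.rpow_add D0]; congr 1; ring
      have e2 : (2 * (ρ : ℝ) + 1) ^ 2 ≤ (3 * Af * (P.r₀ + 2) * (1 + d)) ^ 2 := by
        refine pow_le_pow_left₀ (by positivity) ?_ 2
        have : (ρ : ℝ) = Af * r := by rw [hρ]; push_cast; ring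
        nlinarith [mul_le_mul_of_nonneg_left Dr (Nat.cast_nonneg (α := ℝ) Af)]
      rw [hP.2.1, add_mul]
      refine add_le_add (by rw [mul_assoc]) ((mul_le_mul_of_nonneg_right e2 (by positivity)).trans_eq ?_)
      rw [e]; ring
  have far2 : Cf * nu Λ P.W 0 r (GG Λ R w) * (r : ℝ) ^ P.β *
      ((ρ : ℝ) ^ (2 - 2 * P.β) + (R : ℝ) ^ (1 - P.β)) ≤
      Cf * (16 * Ck) * (2 * (P.r₀ + 2 : ℝ) ^ (2 - P.β)) * γ := by
    have u1 : (ρ : ℝ) ^ (2 - 2 * P.β) ≤ (r : ℝ) ^ (2 - 2 * P.β) :=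
      Real.rpow_le_rpow_of_nonpos (by linarith) ρ1 (by linarith)
    have u2 : (r : ℝ) ^ P.β * (r : ℝ) ^ (2 - 2 * P.β) ≤
        (P.r₀ + 2 : ℝ) ^ (2 - P.β) * (1 + (d : ℝ)) ^ (2 - P.β) := by
      rw [← Real.rpow_add (by linarith), ← Real.mul_rpow (by positivity) D0.le,
        show P.β + (2 - 2 * P.β) = 2 - P.β by ring]
      exact Real.rpow_le_rpow (by linarith) Dr (by linarith)
    have e : γ = (1 + (d : ℝ)) ^ (-(2 * P.α)) * (1 + (d : ℝ)) ^ (2 - P.β) := by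
      rw [hγ, ← Real.rpow_add D0]; congr 1; ring
    have u3 : (r : ℝ) ^ P.β * ((ρ : ℝ) ^ (2 - 2 * P.β) + (R : ℝ) ^ (1 - P.β)) ≤
        2 * ((P.r₀ + 2 : ℝ) ^ (2 - P.β) * (1 + (d : ℝ)) ^ (2 - P.β)) :=
      (mul_le_mul_of_nonneg_left (show _ ≤ 2 * (r : ℝ) ^ (2 - 2 * P.β) by linarith)
        (by positivity)).trans (by linarith)
    rw [mul_assoc]
    refine (mul_le_mul (mul_le_mul_of_nonneg_left g1 (by linarith)) u3 (by positivity)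
      (by positivity)).trans_eq ?_
    rw [e]; ring
  have c1 : (1 : ℝ) ≤ #(orb w) := by exact_mod_cast card_pos.2 ⟨w, (hA.2.1 w).1⟩
  have c8 : (#(orb w) : ℝ) ≤ 8 := by exact_mod_cast (hA.2.1 w).2.1
  have s1 := (abs_sum_le_sum_abs _ _).trans (sum_le_card_nsmul _ _ _ near)
  have s2 := (abs_sum_le_sum_abs _ _).trans (far.trans far2)
  have s3 := (congrArg abs (split hA hE h (R := R) (ρ := ρ) (by omega) w)).trans_le (abs_add_le _ _)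
  rw [abs_mul, Nat.abs_cast] at s3
  rw [nsmul_eq_mul] at s1
  have s4 := mul_le_mul_of_nonneg_right c8
    (show 0 ≤ (2 * Cn + (3 * Af * (P.r₀ + 2)) ^ 2 * Cm) * γ by positivity)
  nlinarith [mul_le_mul_of_nonneg_right c1 (abs_nonneg (kd Λ R w))]

end Crest.Agent.T145.Df
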