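import Crest.Agent.T145.DfDef_70
import Crest.Agent.T145.Brg_14

/-!
# Row 145, module Df: EN (energy insertion star by star) and AMB (helper56)
-/

set_option autoImplicit false

namespace Crest.Agent.T145.Df

open Finset Filter Topology Nc

namespace En56

/-- the stars carry the energy, up to a constant -/
theorem sum_es {Λ : Lat} (hΛ : Λ.Ok) (R : ℕ) : ∃ c : ℝ, ∀ s : Cfg Pt, (∀ x, x ∉ bl 0 R → s x = 0) →
    (Λ.D (bl 0 R)).en Λ.xy Λ.τ 0 s = ∑ z ∈ bl 0 (R + Λ.rg), es Λ z s + c := by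
  refine ⟨∑ _e ∈ Λ.edT (bl 0 R), Tau5.eps Λ.xy Λ.τ 0 -
    (∑ _z ∈ bl (0 : Pt) (R + Λ.rg), ∑ _y ∈ Λ.J, Tau5.eps Λ.xy Λ.τ 0) / 2, fun s hs => ?_⟩
  have h := B14.sum_edT (Λ := Λ) hΛ.1 (D := bl 0 R) (U := bl 0 (R + Λ.rg))
    (bl_mono 0 (Nat.le_add_right _ _))
    (fun x hx y hy => by
      have := Lat.le_rg hy
      rw [abs_le, abs_le] at this
      rw [mem_bl] at hx ⊢
      simp only [Prod.fst_add, Prod.snd_add, Prod.fst_zero, Prod.snd_zero] at hx ⊢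
      push_cast; omega)
    (fun u v => Tau5.eps Λ.xy Λ.τ (s v - s u) - Tau5.eps Λ.xy Λ.τ 0)
    (fun u v => by rw [← neg_sub (s u), Tau5.eps_neg])
    fun u v hu hv => by rw [hs u hu, hs v hv, sub_self, sub_self]
  simp only [sum_sub_distrib] at h
  have e : (Λ.D (bl 0 R)).en Λ.xy Λ.τ 0 s =
      ∑ e ∈ Λ.edT (bl 0 R), Tau5.eps Λ.xy Λ.τ (s e.2 - s e.1) :=
    sum_congr rfl fun e _ => by rw [Pi.zero_apply, add_zero]; rfl
  simp only [es, ← sum_div]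
  rw [e]; linarith

end En56

theorem enStmt (hA : AlgStmt) : EnStmt := by
  intro Λ hΛ R
  have tJ : ∀ z, Tame (JL Λ.J z) := fun z => (hA.2.2 Λ hΛ z).1.2
  have tE : ∀ z, Tame (es Λ z) := fun z => (hA.2.2 Λ hΛ z).2.2.2.1.2
  have hd : ∀ w, HasDerivAt (fun τ => kk (Λ.at' τ) R w) (kd Λ R w) Λ.τ := fun w =>
    Tau5.ctr_hasDerivAt (xy := Λ.xy) (hΛ.ctr_D (bl 0 R)) (hΛ.anch_D _) 0 hΛ.2 ((tJ 0).mul (tJ w))
  refine fun w => ⟨hd w, fun v hv => (hd v).unique ((hd w).congr_of_eventuallyEq ?_), ?_⟩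
  · filter_upwards [Ioi_mem_nhds hΛ.2] with τ hτ
    exact ((hA.2.2 _ (hΛ.at' hτ) 0).2.2.2.2.2.2.2.2 R w).2 v hv
  · obtain ⟨c, hc⟩ := En56.sum_es hΛ R
    have hW : Cen (WD Λ R) := hΛ.cen_D _
    have tF := (tJ 0).mul (tJ w)
    have tS : Tame fun s => ∑ z ∈ bl 0 (R + Λ.rg), es Λ z s := Tame.sum _ fun z _ => tE z
    have e1 : kd Λ R w = Cv (WD Λ R) (fun s => ∑ z ∈ bl 0 (R + Λ.rg), es Λ z s + c)
        fun s => JL Λ.J 0 s * JL Λ.J w s := by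
      have hc' : ∀ s, WD Λ R s ≠ 0 → _ := fun s hs => hc s fun x hx => Mdl.W_ne_zero hs hx
      rw [kd, Cv_comm, Cv, Cv, Ex_congr hc', Ex_congr fun s hs => by rw [hc' s hs]]
    rw [e1, Cv_add_left (hW.ig tS) (hW.ig (Tame.const c)) (hW.ig (tS.mul tF))
      (hW.ig ((Tame.const c).mul tF)), hW.wt.cv_const_left, add_zero,
      Cv_sum_left _ (fun z _ => hW.ig (tE z)) fun z _ => hW.ig ((tE z).mul tF)]
    refine sum_congr rfl fun z _ => ?_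
    simp only [ec, mul_sub]
    rw [Ex_sub (hW.ig (tF.mul (tE z))) (hW.ig (tF.mul (Tame.const _))), Ex_mul_const, Cv_comm]
    rfl

theorem ambStmt (hD : DecStmt) : AmbStmt := by
  intro W r₀ r ε hε hr
  obtain ⟨n, hn⟩ := exists_pow_lt_of_lt_one (show 0 < ε / 20 by positivity)
    (show (1 / 2 : ℝ) < 1 by norm_num)
  filter_upwards [eventually_ge_atTop ((4 * W ^ 4) ^ (n + 1) * r + r₀)] with R hR
  intro Λ hΛ L hL hG z F m m' hF hm hm'
  have h2 := hG.2.1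
  have e : R - Λ.rg + Λ.rg = R := by omega
  have hc := hΛ.cen_Nr_bl (self_mem_bl z (W * r))
  have h := (hD Λ hΛ (1 / 400) W r₀ L (by norm_num) (by norm_num) hG z r n (R - Λ.rg) F hr
    (by omega) (by omega) hF.1 (hc.ig hF.2) m (e.symm ▸ hm)).2.1 m' (e.symm ▸ hm')
  refine h.trans (mul_le_mul_of_nonneg_right ?_ (Ex_nonneg hc.wt.nonneg fun _ _ => abs_nonneg _))
  rw [show (200 * (1 / 400) : ℝ) = 1 / 2 by norm_num]
  linarith

end Crest.Agent.T145.Df
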