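import Crest.Agent.T145.DfDef_70

/-!
# Row 145, module Df: an even insertion of mean zero against the far stars (`Df.FarStmt`; helper58)
-/

set_option autoImplicit false

namespace Crest.Agent.T145.Df

open Finset Filter Topology Nc

namespace Far58

theorem rpow_le {x y c β : ℝ} (hx : 0 < x) (hy : 0 < y) (hβ : 0 ≤ β) (h : x ≤ c * y) :
    y ^ (-β) ≤ c ^ β * x ^ (-β) := by
  have hc : 0 < c := by
    by_contra hc
    nlinarith [mul_nonneg (neg_nonneg.2 (not_lt.1 hc)) hy.le]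
  have h1 : x ^ β ≤ c ^ β * y ^ β := by
    rw [← Real.mul_rpow hc.le hy.le]; exact Real.rpow_le_rpow hx.le h hβ
  have h2 := Real.rpow_pos_of_pos hx β
  have h3 := Real.rpow_pos_of_pos hy β
  rw [Real.rpow_neg hx.le, Real.rpow_neg hy.le, ← div_eq_mul_inv, le_div_iff₀ h2, inv_mul_le_iff₀ h3]
  linarith

theorem rpow_le_nat {x y c : ℕ} {β : ℝ} (hx : 0 < x) (hβ : 0 ≤ β) (h : x ≤ c * y) :
    (y : ℝ) ^ (-β) ≤ (c : ℝ) ^ β * (x : ℝ) ^ (-β) := by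
  have hy : 0 < y := by
    rcases Nat.eq_zero_or_pos y with rfl | hy
    · omega
    · exact hy
  exact rpow_le (by exact_mod_cast hx) (by exact_mod_cast hy) hβ (by exact_mod_cast h)

theorem mem_bl0 {z : Pt} {a : ℕ} : z ∈ bl 0 a ↔ nr z ≤ a := by
  rw [mem_bl]; simp only [nr, Prod.fst_zero, Prod.snd_zero]; omega

theorem disj {z : Pt} {a b : ℕ} (h : a + b < nr z) : Disjoint (bl 0 a) (bl z b) := by
  rw [Finset.disjoint_left]
  intro x hx hx'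
  rw [mem_bl] at hx hx'
  simp only [nr, Prod.fst_zero, Prod.snd_zero] at h hx
  omega

theorem amb_D {Λ : Lat} (hΛ : Λ.Ok) {U B : Finset Pt} (h : U ⊆ B) : Amb Λ (Λ.D B) U :=
  ⟨hΛ.ctr_D B, hΛ.anch_D B, h, Lat.near_D h⟩

theorem ins_mono {z : Pt} {r r' : ℕ} {G : Cfg Pt → ℝ} (h : Ins z r G) (hr : r ≤ r') : Ins z r' G :=
  ⟨h.1.mono (bl_mono z hr), h.2⟩

theorem ins_ec (hA : AlgStmt) {Λ : Lat} (hΛ : Λ.Ok) (m : Mdl Pt) (z : Pt) : Ins z Λ.rg (ec Λ m z) :=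
  have h := (hA.2.2 Λ hΛ z).2.2.2.1
  ⟨h.1.sub (DepG.const _ _), h.2.sub (Tame.const _)⟩

/-- the profile of a star at distance `t` -/
noncomputable def fz (β : ℝ) (R N t : ℕ) : ℝ :=
  (t : ℝ) ^ (-β) + if R ≤ 2 * t then ((1 + N - t : ℕ) : ℝ) ^ (-β) else 0

theorem le_fz (β : ℝ) (R N t : ℕ) : (t : ℝ) ^ (-β) ≤ fz β R N t := by
  unfold fz
  split_ifs
  · exact le_add_of_nonneg_right (by positivity)
  · rw [add_zero]

theorem le_fz' (β : ℝ) {R t : ℕ} (N : ℕ) (h : R ≤ 2 * t) : ((1 + N - t : ℕ) : ℝ) ^ (-β) ≤ fz β R N t := by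
  unfold fz
  rw [if_pos h]
  exact le_add_of_nonneg_left (by positivity)

theorem fz_nonneg (β : ℝ) (R N t : ℕ) : 0 ≤ fz β R N t := le_trans (by positivity) (le_fz β R N t)

/-- the mean of the modulus of the centred star in the model with a hole -/
theorem hole_le (hA : AlgStmt) (hM : MomStmt) (F : Fa) : ∃ C : ℝ, 1 ≤ C ∧ ∀ Λ, F.Mem Λ → Λ.Ok →
    ∀ (B H : Finset Pt) (z : Pt), (hole (Λ.D B) H).Ctr → (hole (Λ.D B) H).Anch → Disjoint (bl z Λ.rg) H →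
      Ex ((hole (Λ.D B) H).W 0) (fun s => |ec Λ (Λ.D B) z s|) ≤ C := by
  obtain ⟨C, hC, h⟩ := hM.1 F
  refine ⟨2 * C, by linarith, fun Λ hF hΛ B H z hc ha hd => ?_⟩
  have hs : Sees Λ (Λ.D B) z := (hM.2 Λ hΛ z).2.1 B
  have hs' : Sees Λ (hole (Λ.D B) H) z := (hM.2 Λ hΛ z).2.2.2 _ H hs hd
  have h1 := (h Λ hF _ z z z (hΛ.ctr_D B) (hΛ.anch_D B) hs hs hs).2.1
  have h2 := (h Λ hF _ z z z hc ha hs' hs' hs').2.1
  have ht : Tame (es Λ z) := (hA.2.2 Λ hΛ z).2.2.2.1.2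
  have hcen := hc.cen ha
  have hcD := (hΛ.ctr_D B).cen (hΛ.anch_D B)
  have h3 : |Ex ((Λ.D B).W 0) (es Λ z)| ≤ C := (abs_Ex_le hcD.nonneg (hcD.ig ht)).trans h1
  calc _ ≤ Ex ((hole (Λ.D B) H).W 0) (fun s => |es Λ z s| + C) :=
        Ex_mono hcen.nonneg (hcen.ig (ht.sub (Tame.const _)).abs) (hcen.ig (ht.abs.add (Tame.const _)))
          fun s => (abs_sub _ _).trans (by linarith)
    _ = Ex ((hole (Λ.D B) H).W 0) (fun s => |es Λ z s|) + C := hcen.wt.ex_add_const (hcen.ig ht.abs) C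
    _ ≤ 2 * C := by linarith

/-- the star at `z` against an insertion flowed to the scale `a ≈ |z| / (4 W²)` -/
theorem star (hA : AlgStmt) (hM : MomStmt) (hF : FusStmt) (hI : IoStmt) (hP : ProStmt) (hS : SemiStmt)
    (F : Fa) (P : Par) : ∃ K : ℝ, 1 ≤ K ∧ ∀ Λ, F.Mem Λ → Λ.Ok → (∀ L, Rg Λ P L) →
    ∀ (a R : ℕ) (G : Cfg Pt → ℝ) (z : Pt), P.r₀ ≤ a → 4 * (P.W * (P.W * a)) ≤ nr z →
      nr z ≤ 8 * (P.W * (P.W * a)) → nr z ≤ R + Λ.rg → Ins 0 a G →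
      |Ex (WD Λ R) fun s => G s * ec Λ (Λ.D (bl 0 R)) z s| ≤
        K * nu Λ P.W 0 a G * fz P.β R (R + Λ.rg) (nr z) := by
  obtain ⟨Cm, hCm, hm⟩ := hole_le hA hM F
  obtain ⟨Cp, hCp, hp⟩ := hP F P
  have hβ : 0 ≤ P.β := by linarith [P.hβ]
  obtain ⟨c, hc⟩ : ∃ c : ℕ, c = 8 * (P.W * (P.W * P.r₀)) + 1 := ⟨_, rfl⟩
  have hD : 1 ≤ (c : ℝ) ^ P.β := Real.one_le_rpow (by exact_mod_cast (by omega : 1 ≤ c)) hβ
  refine ⟨4 * ((Cm + Cp) * (c : ℝ) ^ P.β), by nlinarith, fun Λ hFΛ hΛ hRg a R G z ha h4 h8 hN hG => ?_⟩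
  obtain ⟨hW, hr₀, -⟩ := (hRg a).gd
  have hrg := hΛ.one_le_rg
  have hWa : 2 * a ≤ P.W * a := Nat.mul_le_mul_right _ hW
  have hQ : 2 * (P.W * a) ≤ P.W * (P.W * a) := Nat.mul_le_mul_right _ hW
  have hWr : P.W * P.r₀ ≤ P.W * a := Nat.mul_le_mul_left _ ha
  have hWr' : 2 * P.r₀ ≤ P.W * P.r₀ := Nat.mul_le_mul_right _ hW
  have hWW : 2 * (P.W * P.r₀) ≤ P.W * (P.W * P.r₀) := Nat.mul_le_mul_right _ hW
  have hW1 : P.W * 1 ≤ P.W * P.r₀ := Nat.mul_le_mul_left _ (by omega)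
  have hν : 0 ≤ nu Λ P.W 0 a G := ((hS Λ hΛ P.W 0 a hW (by omega)).1 G hG).1
  have hf := fz_nonneg P.β R (R + Λ.rg) (nr z)
  -- it is enough to bound the second factor
  suffices h : ∃ x : ℝ, x ≤ (Cm + Cp) * ((c : ℝ) ^ P.β * fz P.β R (R + Λ.rg) (nr z)) ∧
      |Ex (WD Λ R) fun s => G s * ec Λ (Λ.D (bl 0 R)) z s| ≤ 4 * nu Λ P.W 0 a G * x by
    obtain ⟨x, hx, h⟩ := h
    calc _ ≤ 4 * nu Λ P.W 0 a G * ((Cm + Cp) * ((c : ℝ) ^ P.β * fz P.β R (R + Λ.rg) (nr z))) :=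
          h.trans (mul_le_mul_of_nonneg_left hx (by positivity))
      _ = _ := by ring
  have hcf : 0 ≤ (c : ℝ) ^ P.β * fz P.β R (R + Λ.rg) (nr z) := by positivity
  by_cases hb : nr z + P.W * P.r₀ ≤ R
  · -- two disjoint boxes
    obtain ⟨b, hbd⟩ : ∃ b, b = (R - nr z) / P.W := ⟨_, rfl⟩
    have hb1 : P.W * b ≤ R - nr z := hbd ▸ Nat.mul_div_le _ _
    have hb2 : R - nr z < P.W * (b + 1) := hbd ▸ Nat.lt_mul_div_succ _ (by omega)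
    have hb3 : P.r₀ ≤ b := by
      rw [hbd, Nat.le_div_iff_mul_le (by omega), mul_comm]; omega
    have hm1 : P.W * min a b ≤ P.W * a := Nat.mul_le_mul_left _ (min_le_left _ _)
    have hm2 : P.W * min a b ≤ P.W * b := Nat.mul_le_mul_left _ (min_le_right _ _)
    have hamb : Amb Λ (Λ.D (bl 0 R)) (bl z (P.W * min a b)) :=
      amb_D hΛ (bl_subset_bl (mem_bl0.2 le_rfl) (by omega))
    refine ⟨nu Λ P.W z (min a b) (ec Λ (Λ.D (bl 0 R)) z), ?_, ?_⟩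
    · have h1 := (hp Λ hFΛ a (hRg a) z (min a b) (le_min ha hb3) (min_le_left _ _)).2 _ hamb
      have h2 : ((min a b : ℕ) : ℝ) ^ (-P.β) ≤ (c : ℝ) ^ P.β * fz P.β R (R + Λ.rg) (nr z) := by
        rcases le_total a b with hab | hab
        · rw [min_eq_left hab]
          refine (rpow_le_nat (x := nr z) (c := c) (by omega) hβ ?_).trans
            (mul_le_mul_of_nonneg_left (le_fz _ _ _ _) (by positivity))
          have : P.W * (P.W * 1) * a ≤ P.W * (P.W * P.r₀) * a :=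
            Nat.mul_le_mul_right _ (Nat.mul_le_mul_left _ hW1)
          rw [hc]; nlinarith
        · rw [min_eq_right hab]
          have hab' : P.W * (b + 1) ≤ P.W * (a + 1) := Nat.mul_le_mul_left _ (by omega)
          have hWb : P.W * 1 ≤ P.W * b := Nat.mul_le_mul_left _ (by omega)
          have hWb' : 2 * b ≤ P.W * b := Nat.mul_le_mul_right _ hW
          have hWa' : P.W * 1 ≤ P.W * a := Nat.mul_le_mul_left _ (by omega)
          simp only [mul_add] at hab' hb2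
          refine (rpow_le_nat (x := 1 + (R + Λ.rg) - nr z) (c := c) (by omega) hβ ?_).trans
            (mul_le_mul_of_nonneg_left (le_fz' _ _ (by omega)) (by positivity))
          have h5 : 4 * P.W * b ≤ c * b := Nat.mul_le_mul_right _ (by omega)
          rw [mul_assoc] at h5
          omega
      nlinarith
    · exact ((hF Λ hΛ P.W P.r₀ _ (hRg a).gd 0 z a (min a b) G _ ha (by omega) (le_min ha hb3)
        ((min_le_left _ _).trans (by omega)) hG (ins_mono (ins_ec hA hΛ _ z) (by omega))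
        (disj (by omega))).1 _ (amb_D hΛ (bl_mono _ (by omega))) hamb).1
  · -- the star is near the boundary
    obtain ⟨h1, h2, h3⟩ := hI Λ hΛ P.W P.r₀ _ (hRg a).gd 0 a (Λ.D (bl 0 R)) ha le_rfl
      (amb_D hΛ (bl_mono _ (by omega)))
    have he := ins_ec hA hΛ (Λ.D (bl 0 R)) z
    refine ⟨_, ?_, h3 G _ hG he.2 (he.1.dep.out (disj (by omega)).symm)⟩
    have h5 := hm Λ hFΛ hΛ _ _ z h1 h2 (disj (a := P.W * a) (by omega)).symm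
    have h6 : ((1 : ℕ) : ℝ) ^ (-P.β) ≤ (c : ℝ) ^ P.β * fz P.β R (R + Λ.rg) (nr z) :=
      (rpow_le_nat (x := 1 + (R + Λ.rg) - nr z) (c := c) (by omega) hβ (by omega)).trans
        (mul_le_mul_of_nonneg_left (le_fz' _ _ (by omega)) (by positivity))
    rw [Nat.cast_one, Real.one_rpow] at h6
    nlinarith

/-- one star -/
theorem point (hA : AlgStmt) (hM : MomStmt) (hF : FusStmt) (hI : IoStmt) (hP : ProStmt) (hS : SemiStmt)
    (F : Fa) (P : Par) : ∃ K : ℝ, 1 ≤ K ∧ ∀ Λ, F.Mem Λ → (∀ L, Rg Λ P L) →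
    ∀ (r R : ℕ) (G : Cfg Pt → ℝ) (z : Pt), P.r₀ ≤ r → 4 * (P.W * P.W) * r ≤ nr z → nr z ≤ R + Λ.rg →
      Ins 0 r G → EvenF G → D4 0 G → Ex (WD Λ R) G = 0 →
      |Ex (WD Λ R) fun s => G s * ec Λ (Λ.D (bl 0 R)) z s| ≤
        K * nu Λ P.W 0 r G * (r : ℝ) ^ P.β * ((nr z : ℝ) ^ (-P.β) * fz P.β R (R + Λ.rg) (nr z)) := by
  obtain ⟨K, hK, h⟩ := star hA hM hF hI hP hS F P
  have hβ : 0 ≤ P.β := by linarith [P.hβ]
  obtain ⟨c, hc⟩ : ∃ c : ℕ, c = 8 * (P.W * P.W) + 1 := ⟨_, rfl⟩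
  have hD : 1 ≤ (c : ℝ) ^ P.β := Real.one_le_rpow (by exact_mod_cast (by omega : 1 ≤ c)) hβ
  have hC := P.hC
  refine ⟨K * (P.C * (c : ℝ) ^ P.β), one_le_mul_of_one_le_of_one_le hK
    (one_le_mul_of_one_le_of_one_le hC hD), fun Λ hFΛ hRg r R G z hr h4 hN hG he hd h0 => ?_⟩
  have hΛ : Λ.Ok := ⟨hFΛ.1 ▸ F.adm, F.pos.trans_le hFΛ.2.2.1⟩
  obtain ⟨hW, hr₀, -⟩ := (hRg 0).gd
  have hrg := hΛ.one_le_rg
  have hpos : 0 < 4 * (P.W * P.W) := by positivity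
  obtain ⟨a, had⟩ : ∃ a, a = nr z / (4 * (P.W * P.W)) := ⟨_, rfl⟩
  have ha1 : 4 * (P.W * P.W) * a ≤ nr z := had ▸ Nat.mul_div_le _ _
  have ha2 : nr z < 4 * (P.W * P.W) * (a + 1) := had ▸ Nat.lt_mul_div_succ _ hpos
  have ha3 : r ≤ a := by rw [had, Nat.le_div_iff_mul_le hpos, mul_comm]; exact h4
  have ha4 : 4 * (P.W * P.W) * (a + 1) ≤ 4 * (P.W * P.W) * (2 * a) := Nat.mul_le_mul_left _ (by omega)
  have ha5 : 4 * (P.W * (P.W * a)) ≤ nr z := by nlinarith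
  have ha6 : nr z ≤ 8 * (P.W * (P.W * a)) := by nlinarith
  have hWa : 2 * a ≤ P.W * a := Nat.mul_le_mul_right _ hW
  have hQ : 2 * (P.W * a) ≤ P.W * (P.W * a) := Nat.mul_le_mul_right _ hW
  have h1 := h Λ hFΛ hΛ hRg a R G z (by omega) ha5 ha6 hN (ins_mono hG ha3)
  have h2 := (hRg a).even 0 r a G (Λ.D (bl 0 R)) hr ha3 le_rfl hG he hd
    (amb_D hΛ (bl_mono _ (by omega))) h0
  have hν : 0 ≤ nu Λ P.W 0 r G := ((hS Λ hΛ P.W 0 r hW (by omega)).1 G hG).1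
  have h3 : (a : ℝ) ^ (-P.β) ≤ (c : ℝ) ^ P.β * (nr z : ℝ) ^ (-P.β) :=
    rpow_le_nat (by omega) hβ (by rw [hc]; nlinarith)
  have h5 : ((r : ℝ) / a) ^ P.β = (r : ℝ) ^ P.β * (a : ℝ) ^ (-P.β) := by
    rw [Real.div_rpow (by positivity) (by positivity), Real.rpow_neg (by positivity), div_eq_mul_inv]
  have hf := fz_nonneg P.β R (R + Λ.rg) (nr z)
  calc _ ≤ K * (P.C * ((r : ℝ) ^ P.β * ((c : ℝ) ^ P.β * (nr z : ℝ) ^ (-P.β))) * nu Λ P.W 0 r G) *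
        fz P.β R (R + Λ.rg) (nr z) := by
        refine h1.trans (mul_le_mul_of_nonneg_right (mul_le_mul_of_nonneg_left (h2.trans ?_)
          (by linarith)) hf)
        rw [h5]
        gcongr
    _ = _ := by ring

theorem sum_fz (hP : PwStmt) {β : ℝ} (hβ : 1 < β) : ∃ C : ℝ, 1 ≤ C ∧ ∀ ρ R N : ℕ, 1 ≤ ρ → 1 ≤ R →
    ∑ t ∈ Ioc ρ N, 8 * (t : ℝ) * ((t : ℝ) ^ (-β) * fz β R N t) ≤
      C * ((ρ : ℝ) ^ (2 - 2 * β) + (R : ℝ) ^ (1 - β)) := by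
  obtain ⟨C₁, h₁⟩ := hP.2.2.1 (2 * β - 1) (by linarith)
  obtain ⟨C₂, h₂⟩ := hP.2.2.1 β hβ
  have hs : ∀ ρ N : ℕ, ∑ t ∈ Ioc ρ N, ((1 + N - t : ℕ) : ℝ) ^ (-β) ≤ 1 + |C₂| := by
    intro ρ N
    have e1 : ∑ t ∈ Ioc 0 N, ((1 + N - t : ℕ) : ℝ) ^ (-β) = ∑ t ∈ Ioc 0 N, (t : ℝ) ^ (-β) := by
      refine sum_nbij' (fun t => 1 + N - t) (fun t => 1 + N - t) ?_ ?_ ?_ ?_ fun _ _ => rfl <;>
        intro t ht <;> simp only [mem_Ioc] at ht ⊢ <;> omega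
    have e2 : Ioc 0 N ⊆ insert 1 (Ioc 1 N) := fun t ht => by
      simp only [mem_Ioc, mem_insert] at ht ⊢; omega
    have e3 := h₂ 1 N le_rfl
    rw [Nat.cast_one, Real.one_rpow, mul_one] at e3
    calc _ ≤ ∑ t ∈ Ioc 0 N, ((1 + N - t : ℕ) : ℝ) ^ (-β) :=
          sum_le_sum_of_subset_of_nonneg (Ioc_subset_Ioc_left (Nat.zero_le _)) fun _ _ _ => by positivity
      _ ≤ ∑ t ∈ insert 1 (Ioc 1 N), ((t : ℕ) : ℝ) ^ (-β) :=
          e1.trans_le (sum_le_sum_of_subset_of_nonneg e2 fun _ _ _ => by positivity)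
      _ ≤ _ := by
          rw [sum_insert (by simp), Nat.cast_one, Real.one_rpow]
          linarith [le_abs_self C₂]
  have h2 : (0 : ℝ) < 2 ^ (β - 1) := by positivity
  have hC2 := abs_nonneg C₂
  have hC1 := abs_nonneg C₁
  have hK : 0 ≤ 8 * 2 ^ (β - 1) * (1 + |C₂|) := by positivity
  refine ⟨1 + 8 * |C₁| + 8 * 2 ^ (β - 1) * (1 + |C₂|), by linarith, fun ρ R N hρ hR => ?_⟩
  have hρ' : (0 : ℝ) ≤ (ρ : ℝ) ^ (2 - 2 * β) := by positivity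
  have hR' : (0 : ℝ) ≤ (R : ℝ) ^ (1 - β) := by positivity
  have e1 := h₁ ρ N hρ
  rw [show 1 - (2 * β - 1) = 2 - 2 * β by ring] at e1
  have e2 : ∀ t ∈ Ioc ρ N, 8 * (t : ℝ) * ((t : ℝ) ^ (-β) * fz β R N t) ≤
      8 * (t : ℝ) ^ (-(2 * β - 1)) +
        8 * 2 ^ (β - 1) * (R : ℝ) ^ (1 - β) * ((1 + N - t : ℕ) : ℝ) ^ (-β) := by
    intro t ht
    have ht0 : (0 : ℝ) < t := by rw [mem_Ioc] at ht; exact_mod_cast (by omega : 0 < t)
    have e3 : (t : ℝ) * (t : ℝ) ^ (-β) = (t : ℝ) ^ (-(β - 1)) := by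
      rw [show -(β - 1) = 1 + -β by ring, Real.rpow_add ht0, Real.rpow_one]
    have e4 : (t : ℝ) ^ (-(2 * β - 1)) = (t : ℝ) ^ (-(β - 1)) * (t : ℝ) ^ (-β) := by
      rw [← Real.rpow_add ht0]; congr 1; ring
    have e5 : (0 : ℝ) ≤ ((1 + N - t : ℕ) : ℝ) ^ (-β) := by positivity
    rw [e4, show 8 * (t : ℝ) * ((t : ℝ) ^ (-β) * fz β R N t) =
      8 * ((t : ℝ) * (t : ℝ) ^ (-β)) * fz β R N t by ring, e3, fz]
    split_ifs with h
    · have e6 := rpow_le_nat (β := β - 1) (c := 2) hR (by linarith) h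
      rw [show -(β - 1) = 1 - β by ring] at e6 ⊢
      rw [Nat.cast_ofNat] at e6
      nlinarith [mul_le_mul_of_nonneg_right e6 e5]
    · have : 0 ≤ 8 * 2 ^ (β - 1) * (R : ℝ) ^ (1 - β) * ((1 + N - t : ℕ) : ℝ) ^ (-β) := by positivity
      linarith
  refine (sum_le_sum e2).trans ?_
  rw [sum_add_distrib, ← mul_sum, ← mul_sum]
  have e7 := mul_le_mul_of_nonneg_left (hs ρ N) (show 0 ≤ 8 * 2 ^ (β - 1) * (R : ℝ) ^ (1 - β) by positivity)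
  have e8 := mul_le_mul_of_nonneg_right (le_abs_self C₁) hρ'
  nlinarith [mul_nonneg hC1 hR', mul_nonneg hK hρ']

end Far58

open Far58 in
theorem farStmt (hA : AlgStmt) (hPw : PwStmt) (hM : MomStmt) (hF : FusStmt) (hI : IoStmt) (hP : ProStmt)
    (hS : SemiStmt) : FarStmt := by
  intro F P
  obtain ⟨K, hK, h⟩ := point hA hM hF hI hP hS F P
  obtain ⟨C, hC, hs⟩ := sum_fz hPw P.hβ
  refine ⟨K * C, 4 * (P.W * P.W) + 1, one_le_mul_of_one_le_of_one_le hK hC, by omega,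
    fun Λ hFΛ hRg r ρ R G hr hρ hR hG he hd h0 => ?_⟩
  have hΛ : Λ.Ok := ⟨hFΛ.1 ▸ F.adm, F.pos.trans_le hFΛ.2.2.1⟩
  obtain ⟨hW, hr₀, -⟩ := (hRg 0).gd
  have hrg := hΛ.one_le_rg
  have hν : 0 ≤ nu Λ P.W 0 r G := ((hS Λ hΛ P.W 0 r hW (by omega)).1 G hG).1
  rw [add_mul] at hρ
  calc _ ≤ ∑ z ∈ an 0 ρ (R + Λ.rg), K * nu Λ P.W 0 r G * (r : ℝ) ^ P.β *
        ((nr (z - 0) : ℝ) ^ (-P.β) * fz P.β R (R + Λ.rg) (nr (z - 0))) := by
        refine sum_le_sum fun z hz => ?_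
        rw [an, Finset.mem_sdiff, mem_bl0, mem_bl0] at hz
        rw [sub_zero]
        exact h Λ hFΛ hRg r R G z hr (by omega) hz.1 hG he hd h0
    _ = K * nu Λ P.W 0 r G * (r : ℝ) ^ P.β *
        ∑ t ∈ Ioc ρ (R + Λ.rg), 8 * (t : ℝ) * ((t : ℝ) ^ (-P.β) * fz P.β R (R + Λ.rg) t) := by
        rw [← mul_sum, hPw.1 0 ρ (R + Λ.rg) fun t => (t : ℝ) ^ (-P.β) * fz P.β R (R + Λ.rg) t]
    _ ≤ K * nu Λ P.W 0 r G * (r : ℝ) ^ P.β *
        (C * ((ρ : ℝ) ^ (2 - 2 * P.β) + (R : ℝ) ^ (1 - P.β))) :=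
        mul_le_mul_of_nonneg_left (hs ρ R _ (by omega) (by omega)) (by positivity)
    _ = _ := by ring

end Crest.Agent.T145.Df
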