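import Crest.Agent.T145.DfDef_70
import Crest.Agent.T145.Soft_23

/-!
# Row 145, module Df: the two-point function (KB) and the middle stars (MID) (helper30)
-/

set_option autoImplicit false

namespace Crest.Agent.T145.Df

open Finset Nc

namespace K30

theorem mem_nr {z x : Pt} {r : ℕ} : x ∈ bl z r ↔ nr (x - z) ≤ r := by
  rw [mem_bl, nr, max_le_iff, Prod.fst_sub, Prod.snd_sub]; omega

theorem nr_comm (x y : Pt) : nr (x - y) = nr (y - x) := by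
  simp only [nr, Prod.fst_sub, Prod.snd_sub]; omega

theorem disj {x y : Pt} {a b : ℕ} (h : a + b < nr (x - y)) : Disjoint (bl x a) (bl y b) := by
  refine disjoint_left.2 fun z h1 h2 => ?_
  rw [mem_bl] at h1 h2
  rw [nr, lt_max_iff, Prod.fst_sub, Prod.snd_sub] at h
  omega

theorem amb_mono {Λ : Lat} {m : Mdl Pt} {U U' : Finset Pt} (h : Amb Λ m U') (hU : U ⊆ U') :
    Amb Λ m U := ⟨h.ctr, h.anch, hU.trans h.sub, h.near.mono hU⟩

theorem ins_mono {z z' : Pt} {r r' : ℕ} {F : Cfg Pt → ℝ} (h : Ins z r F) (hs : bl z r ⊆ bl z' r') :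
    Ins z' r' F := ⟨h.1.mono hs, h.2⟩

theorem pw {a B ρ p : ℝ} (ha : 0 < a) (hρ : 0 < ρ) (hp : 0 ≤ p) (h : a ≤ B * ρ) :
    ρ ^ (-p) ≤ B ^ p * a ^ (-p) := by
  have hB : 0 < B := (mul_pos_iff_of_pos_right hρ).1 (ha.trans_le h)
  have := Real.rpow_le_rpow ha.le h hp
  rw [Real.mul_rpow hB.le hρ.le] at this
  rw [Real.rpow_neg hρ.le, Real.rpow_neg ha.le, ← div_eq_mul_inv, inv_eq_one_div,
    div_le_div_iff₀ (Real.rpow_pos_of_pos hρ p) (Real.rpow_pos_of_pos ha p), one_mul]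
  exact this

theorem pw1 {a B p : ℝ} (ha : 0 < a) (hp : 0 ≤ p) (h : a ≤ B) : 1 ≤ B ^ p * a ^ (-p) := by
  simpa using K30.pw (ρ := 1) ha one_pos hp (by simpa using h)

theorem div_lt (d k : ℕ) (hk : 0 < k) : 1 + d ≤ k * (d / k + 1) := by
  have := Nat.lt_mul_div_succ d hk; omega

end K30

open K30

/-- KB -/
theorem kbStmt (hA : AlgStmt) (hM : MomStmt) (hS : SemiStmt) (hF : FusStmt) (hP : ProStmt) :
    KbStmt := by
  intro F P
  obtain ⟨C₁, hC₁, hM1⟩ := hM.1 F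
  obtain ⟨C₂, hC₂, hP⟩ := hP F P
  have hα : 0 ≤ 2 * P.α := by linarith [P.hα]
  set B : ℝ := (((2 * P.W + 1) * (P.r₀ + 2) : ℕ) : ℝ) with hB
  have hB1 : 1 ≤ B := by
    rw [hB]; exact_mod_cast Nat.mul_pos (by omega) (by omega)
  have hBp : 1 ≤ B ^ (2 * P.α) := Real.one_le_rpow hB1 hα
  refine ⟨(C₁ + 4 * C₂ ^ 2) * B ^ (2 * P.α),
    one_le_mul_of_one_le_of_one_le (by nlinarith) hBp, fun Λ hΛ L hR x y => ?_⟩
  have ok := hΛ.ok
  obtain ⟨hW, hr, -⟩ := id hR.gd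
  have hg := ok.one_le_rg
  set d := nr (x - y) with hd
  set ρ := min (d / (2 * P.W + 1)) L with hρ
  have hμ : 1 + min d L ≤ (2 * P.W + 1) * (ρ + 1) := by
    rcases le_total (d / (2 * P.W + 1)) L with h | h
    · rw [hρ, min_eq_left h]
      exact le_trans (by omega) (div_lt d _ (by omega))
    · rw [hρ, min_eq_right h]
      exact le_trans (by omega) (Nat.le_mul_of_pos_left _ (by omega))
  have ha : (0 : ℝ) < 1 + (min d L : ℕ) := by positivity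
  have hq : (0 : ℝ) ≤ B ^ (2 * P.α) * (1 + (min d L : ℕ) : ℝ) ^ (-(2 * P.α)) := by positivity
  have iJ := fun z => ((hA.2.2 Λ ok) z).1
  have hxy : y ∈ bl x d := mem_nr.2 (nr_comm _ _).le
  rw [mul_assoc]
  rcases lt_or_ge ρ P.r₀ with h | h
  · have k : 1 ≤ B ^ (2 * P.α) * (1 + (min d L : ℕ) : ℝ) ^ (-(2 * P.α)) := by
      refine pw1 ha hα ?_
      rw [hB]
      exact_mod_cast hμ.trans (Nat.mul_le_mul_left _ (by omega))
    have k' : C₁ ≤ (C₁ + 4 * C₂ ^ 2) *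
        (B ^ (2 * P.α) * (1 + (min d L : ℕ) : ℝ) ^ (-(2 * P.α))) := by nlinarith
    refine ⟨fun m hx hy => ?_, fun R hRd => ?_⟩
    · have sx := (hM.2 Λ ok x).1 m _ hx.near (self_mem_bl _ _)
      have sy := (hM.2 Λ ok y).1 m _ hy.near (self_mem_bl _ _)
      exact ((abs_Ex_le (hx.ctr.cen hx.anch).nonneg ((hx.ctr.cen hx.anch).ig
        ((iJ x).2.mul (iJ y).2))).trans (hM1 Λ hΛ m x y x hx.ctr hx.anch sx sy sx).2.2.1).trans k'
    · have hWR : R ≤ P.W * R := Nat.le_mul_of_pos_left _ (by omega)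
      have i : Ins x R fun s => JL Λ.J x s * JL Λ.J y s :=
        ⟨((iJ x).1.mono (bl_mono _ (by omega))).mul ((iJ y).1.mono (bl_subset_bl hxy (by omega))),
          (iJ x).2.mul (iJ y).2⟩
      have sx := (hM.2 Λ ok x).2.2.1 (bl x (P.W * R)) x (bl_mono _ (by omega))
      have sy := (hM.2 Λ ok y).2.2.1 (bl x (P.W * R)) x (bl_subset_bl hxy (by omega))
      exact (((hS Λ ok P.W x R hW (by omega)).1 _ i).2.1.trans (hM1 Λ hΛ _ x y x (ok.ctr_Nr _ _)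
        (ok.anch_Nr_bl (self_mem_bl _ _)) sx sy sx).2.2.1).trans k'
  · have hρL : ρ ≤ L := min_le_right _ _
    have hρd : (2 * P.W + 1) * ρ ≤ d :=
      (Nat.mul_le_mul_left _ (min_le_left _ _)).trans (Nat.mul_div_le _ _)
    have hρW : ρ ≤ P.W * L := hρL.trans (Nat.le_mul_of_pos_left _ (by omega))
    have e : (2 * P.W + 1) * ρ = P.W * ρ + P.W * ρ + ρ := by ring
    have ix := ins_mono (iJ x) (bl_mono x (by omega : Λ.rg ≤ ρ))
    have iy := ins_mono (iJ y) (bl_mono y (by omega : Λ.rg ≤ ρ))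
    have fus := hF Λ ok P.W P.r₀ _ hR.gd x y ρ ρ _ _ h hρW h hρW ix iy (disj (by omega))
    have hρ0 : (0 : ℝ) < ρ := by exact_mod_cast (by omega : 0 < ρ)
    have k : (ρ : ℝ) ^ (-(2 * P.α)) ≤ B ^ (2 * P.α) * (1 + (min d L : ℕ) : ℝ) ^ (-(2 * P.α)) := by
      refine K30.pw ha hρ0 hα ?_
      rw [hB]
      have : (2 * P.W + 1) * (ρ + 1) ≤ (2 * P.W + 1) * (P.r₀ + 2) * ρ := by
        rw [mul_assoc]; exact Nat.mul_le_mul_left _ (by nlinarith)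
      exact_mod_cast hμ.trans this
    have k' : 4 * nu Λ P.W x ρ (JL Λ.J x) * nu Λ P.W y ρ (JL Λ.J y) ≤ (C₁ + 4 * C₂ ^ 2) *
        (B ^ (2 * P.α) * (1 + (min d L : ℕ) : ℝ) ^ (-(2 * P.α))) := by
      have a1 := (hP Λ hΛ L hR x ρ h hρL).1
      have a2 := (hP Λ hΛ L hR y ρ h hρL).1
      have a3 := ((hS Λ ok P.W y ρ hW (by omega)).1 _ iy).1
      have a4 : nu Λ P.W x ρ (JL Λ.J x) * nu Λ P.W y ρ (JL Λ.J y) ≤
          C₂ * (ρ : ℝ) ^ (-P.α) * (C₂ * (ρ : ℝ) ^ (-P.α)) :=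
        mul_le_mul a1 a2 a3 (by positivity)
      rw [show C₂ * (ρ : ℝ) ^ (-P.α) * (C₂ * (ρ : ℝ) ^ (-P.α)) =
        C₂ ^ 2 * ((ρ : ℝ) ^ (-P.α) * (ρ : ℝ) ^ (-P.α)) by ring, ← Real.rpow_add hρ0,
        show -P.α + -P.α = -(2 * P.α) by ring] at a4
      nlinarith [mul_le_mul_of_nonneg_left k (sq_nonneg C₂)]
    exact ⟨fun m hx hy => (fus.1 m (amb_mono hx (bl_mono _ (by omega)))
      (amb_mono hy (bl_mono _ (by omega)))).1.trans k', fun R hRd =>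
        (fus.2 x R (bl_mono _ (by omega)) (bl_subset_bl hxy (by omega))).trans k'⟩

/-- MID -/
theorem midStmt (hA : AlgStmt) (hM : MomStmt) (hS : SemiStmt) (hF : FusStmt) (hP : ProStmt) :
    MidStmt := by
  intro F P A hA3
  obtain ⟨C₁, hC₁, hM1⟩ := hM.1 F
  obtain ⟨C₂, hC₂, hP⟩ := hP F P
  have hα : 0 ≤ P.β + 2 * P.α := by linarith [P.hα, P.hβ]
  set B : ℝ := ((A * (2 * P.W + 1) * (P.r₀ + 2) : ℕ) : ℝ) with hB
  have hB1 : 1 ≤ B := by
    rw [hB]; exact_mod_cast Nat.mul_pos (Nat.mul_pos (by omega) (by omega)) (by omega)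
  have hBp : 1 ≤ B ^ (P.β + 2 * P.α) := Real.one_le_rpow hB1 hα
  have hC3 : 0 ≤ C₂ ^ 3 := by positivity
  refine ⟨(C₁ + C₁ ^ 2 + 8 * C₂ ^ 3) * B ^ (P.β + 2 * P.α),
    one_le_mul_of_one_le_of_one_le (by nlinarith) hBp, fun Λ hΛ hR m x y z hx hy hz zx zy => ?_⟩
  have ok := hΛ.ok
  obtain ⟨hW, hr, -⟩ := id (hR 0).gd
  have hg := ok.one_le_rg
  set d := nr (x - y) with hd
  set ρ := d / A / (2 * P.W + 1) with hρ
  have hμ : 1 + d ≤ A * (2 * P.W + 1) * (ρ + 1) := by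
    rw [mul_assoc]
    exact (div_lt d A (by omega)).trans (Nat.mul_le_mul_left _
      ((add_comm _ _).le.trans (div_lt (d / A) _ (by omega))))
  have ha : (0 : ℝ) < 1 + d := by positivity
  have hq : (0 : ℝ) ≤ B ^ (P.β + 2 * P.α) * (1 + d : ℝ) ^ (-(P.β + 2 * P.α)) := by positivity
  have iJ := fun z => ((hA.2.2 Λ ok) z).1
  have iE := ((hA.2.2 Λ ok) z).2.2.2.1
  rw [mul_assoc, show -P.β - 2 * P.α = -(P.β + 2 * P.α) by ring]
  rcases lt_or_ge ρ P.r₀ with h | h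
  · have k : 1 ≤ B ^ (P.β + 2 * P.α) * (1 + d : ℝ) ^ (-(P.β + 2 * P.α)) := by
      refine pw1 ha hα ?_
      rw [hB]
      exact_mod_cast hμ.trans (Nat.mul_le_mul_left _ (by omega))
    have sx := (hM.2 Λ ok x).1 m _ hx.near (self_mem_bl _ _)
    have sy := (hM.2 Λ ok y).1 m _ hy.near (self_mem_bl _ _)
    have sz := (hM.2 Λ ok z).1 m _ hz.near (self_mem_bl _ _)
    obtain ⟨-, m2, m3, -, m5⟩ := hM1 Λ hΛ m x y z hx.ctr hx.anch sx sy sz
    have cen := hx.ctr.cen hx.anch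
    have t2 := (iJ x).2.mul (iJ y).2
    have b1 := (abs_Ex_le cen.nonneg (cen.ig (t2.mul iE.2))).trans m5
    have b2 := (abs_Ex_le cen.nonneg (cen.ig t2)).trans m3
    have b3 := (abs_Ex_le cen.nonneg (cen.ig iE.2)).trans m2
    simp only [ec, mul_sub]
    rw [Ex_sub (cen.ig (t2.mul iE.2)) (cen.ig (t2.mul (Tame.const _))), Ex_mul_const]
    refine (abs_sub _ _).trans ?_
    rw [abs_mul]
    have b4 := mul_le_mul b2 b3 (abs_nonneg _) (by linarith)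
    nlinarith
  · have hρd : (2 * P.W + 1) * ρ ≤ d / A := Nat.mul_div_le _ _
    have hdA : d / A ≤ d := Nat.div_le_self _ _
    have hρW : ρ ≤ P.W * ρ := Nat.le_mul_of_pos_left _ (by omega)
    have e : (2 * P.W + 1) * ρ = P.W * ρ + P.W * ρ + ρ := by ring
    have ix := ins_mono (iJ x) (bl_mono x (by omega : Λ.rg ≤ ρ))
    have iy := ins_mono (iJ y) (bl_mono y (by omega : Λ.rg ≤ ρ))
    have iz : Ins z ρ (ec Λ m z) :=
      ⟨(iE.1.mono (bl_mono z (by omega))).sub (DepG.const _ _), iE.2.sub (Tame.const _)⟩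
    rw [mem_nr, nr_comm, not_le] at zx zy
    have az := amb_mono hz (bl_mono z (by omega : P.W * ρ ≤ d))
    have fus := ((hF Λ ok P.W P.r₀ _ (hR ρ).gd x y ρ ρ _ _ h hρW h hρW ix iy (disj (by omega))).1 m
      (amb_mono hx (bl_mono _ (by omega))) (amb_mono hy (bl_mono _ (by omega)))).2 z ρ _ h hρW iz az
      (disj (by omega)) (disj (by omega))
    refine fus.trans ?_
    have hρ0 : (0 : ℝ) < ρ := by exact_mod_cast (by omega : 0 < ρ)
    have k : (ρ : ℝ) ^ (-(P.β + 2 * P.α)) ≤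
        B ^ (P.β + 2 * P.α) * (1 + d : ℝ) ^ (-(P.β + 2 * P.α)) := by
      refine K30.pw ha hρ0 hα ?_
      rw [hB]
      have : A * (2 * P.W + 1) * (ρ + 1) ≤ A * (2 * P.W + 1) * (P.r₀ + 2) * ρ := by
        rw [mul_assoc _ (P.r₀ + 2)]; exact Nat.mul_le_mul_left _ (by nlinarith)
      exact_mod_cast hμ.trans this
    have a1 := (hP Λ hΛ ρ (hR ρ) x ρ h le_rfl).1
    have a2 := (hP Λ hΛ ρ (hR ρ) y ρ h le_rfl).1
    have a2' := (hP Λ hΛ ρ (hR ρ) z ρ h le_rfl).2 m az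
    have a3 := ((hS Λ ok P.W y ρ hW (by omega)).1 _ iy).1
    have a3' := ((hS Λ ok P.W z ρ hW (by omega)).1 _ iz).1
    have a4 : nu Λ P.W x ρ (JL Λ.J x) * nu Λ P.W y ρ (JL Λ.J y) * nu Λ P.W z ρ (ec Λ m z) ≤
        C₂ * (ρ : ℝ) ^ (-P.α) * (C₂ * (ρ : ℝ) ^ (-P.α)) * (C₂ * (ρ : ℝ) ^ (-P.β)) :=
      mul_le_mul (mul_le_mul a1 a2 a3 (by positivity)) a2' a3' (by positivity)
    rw [show C₂ * (ρ : ℝ) ^ (-P.α) * (C₂ * (ρ : ℝ) ^ (-P.α)) * (C₂ * (ρ : ℝ) ^ (-P.β)) =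
      C₂ ^ 3 * ((ρ : ℝ) ^ (-P.α) * (ρ : ℝ) ^ (-P.α) * (ρ : ℝ) ^ (-P.β)) by ring,
      ← Real.rpow_add hρ0, ← Real.rpow_add hρ0,
      show -P.α + -P.α + -P.β = -(P.β + 2 * P.α) by ring] at a4
    nlinarith [mul_le_mul_of_nonneg_left k hC3, mul_nonneg (by positivity : 0 ≤ C₁ + C₁ ^ 2) hq]

end Crest.Agent.T145.Df
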