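import Crest.Agent.T145.DfKb_30

/-!
# Row 145, module Df: the stars near one of the two points (`Df.nearStmt`, helper55)
-/

set_option autoImplicit false

namespace Crest.Agent.T145.Df

open Finset Nc K30

namespace Near55

theorem split (x : Pt) (g : Pt → ℝ) {a n : ℕ} (h : a ≤ n) :
    ∑ z ∈ bl x n, g z = ∑ z ∈ bl x a, g z + ∑ u ∈ Ioc a n, ∑ z ∈ an x (u - 1) u, g z := by
  induction n, h using Nat.le_induction with
  | base => simp
  | succ n h ih =>
    rw [sum_Ioc_succ_top h, ← add_assoc, ← ih, Nat.add_sub_cancel, an, add_comm (∑ z ∈ bl x n, _),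
      sum_sdiff (bl_mono x (Nat.le_succ n))]

theorem card_shell (hP : PwStmt) (x : Pt) {u : ℕ} (hu : 1 ≤ u) :
    ((an x (u - 1) u).card : ℝ) = 8 * u := by
  obtain ⟨t, rfl⟩ : ∃ t, u = t + 1 := ⟨u - 1, by omega⟩
  have := hP.1 x t (t + 1) fun _ => 1
  simpa using this

variable {Λ : Lat} {m : Mdl Pt} {P : Par}

theorem ins_ec (hA : AlgStmt) (ok : Λ.Ok) (m : Mdl Pt) (z : Pt) : Ins z Λ.rg (ec Λ m z) :=
  ⟨((hA.2.2 Λ ok) z).2.2.2.1.1.sub (DepG.const _ _), ((hA.2.2 Λ ok) z).2.2.2.1.2.sub (Tame.const _)⟩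

theorem ins_Je (hA : AlgStmt) (ok : Λ.Ok) (m : Mdl Pt) {x z : Pt} {t r : ℕ} (hz : z ∈ bl x t)
    (h : Λ.rg + t ≤ r) : Ins x r fun s => JL Λ.J x s * ec Λ m z s :=
  ⟨(((hA.2.2 Λ ok) x).1.1.mono (bl_mono x (by omega))).mul
    ((ins_ec hA ok m z).1.mono (bl_subset_bl hz h)), ((hA.2.2 Λ ok) x).1.2.mul (ins_ec hA ok m z).2⟩

/-- an odd `D4` piece against the second point -/
theorem core (hA : AlgStmt) (hS : SemiStmt) (hF : FusStmt) (ok : Λ.Ok) (hR : ∀ L, Rg Λ P L) {C : ℝ}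
    {x y : Pt} {ρ : ℕ} (hJ : nu Λ P.W y ρ (JL Λ.J y) ≤ C * (ρ : ℝ) ^ (-P.α))
    (hρ : (2 * P.W + 1) * ρ ≤ nr (x - y)) (hx : Amb Λ m (bl x (nr (x - y))))
    (hy : Amb Λ m (bl y (nr (x - y)))) {S : Finset Pt} {t r : ℕ} (hSt : S ⊆ bl x t)
    (hD : D4 x fun s => ∑ z ∈ S, es Λ z s) (h1 : Λ.rg + t ≤ r) (h2 : P.r₀ ≤ r) (h3 : r ≤ ρ) {b : ℝ}
    (hb0 : 0 ≤ b) (hb : ∀ z ∈ S, nu Λ P.W x r (fun s => JL Λ.J x s * ec Λ m z s) ≤ b) :
    |∑ z ∈ S, Ex (m.W 0) fun s => JL Λ.J x s * JL Λ.J y s * ec Λ m z s| ≤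
      4 * P.C * C * (S.card * b * (r : ℝ) ^ P.α) * (ρ : ℝ) ^ (-(2 * P.α)) := by
  obtain ⟨hW, hr, -⟩ := id (hR 0).gd
  have hg := ok.one_le_rg
  have a := hA.2.2 Λ ok
  have cen := hx.ctr.cen hx.anch
  have iz := fun z (hz : z ∈ S) => ins_Je hA ok m (hSt hz) h1
  set H : Cfg Pt → ℝ := fun s => ∑ z ∈ S, JL Λ.J x s * ec Λ m z s with hH
  have iH : Ins x r H := ⟨DepG.sum fun z hz => (iz z hz).1, Tame.sum _ fun z hz => (iz z hz).2⟩
  have eH : ∀ s, H s = JL Λ.J x s * (∑ z ∈ S, es Λ z s - ∑ z ∈ S, Ex (m.W 0) (es Λ z)) := fun s => by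
    simp only [hH, ec, ← mul_sum, sum_sub_distrib]
  have oH : OddF H := fun s => by
    have e : ∀ z, es Λ z (-s) = es Λ z s := fun z => (a z).2.2.2.2.1 s
    rw [eH, eH, (a x).2.1 s]
    simp only [e, neg_mul]
  have dH : D4 x H := fun s => by
    have e1 := (a x).2.2.1 s
    have e2 := hD s
    simp only at e2
    simp only [eH, e1.1, e1.2, e2.1, e2.2, and_self]
  have n1 : nu Λ P.W x r H ≤ S.card * b :=
    ((hS Λ ok P.W x r hW (by omega)).2 _ S _ iz).trans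
      ((sum_le_card_nsmul _ _ _ hb).trans_eq (nsmul_eq_mul _ _))
  have n2 := (hR ρ).odd x r ρ H h2 h3 le_rfl iH oH dH
  have e : (2 * P.W + 1) * ρ = P.W * ρ + P.W * ρ + ρ := by ring
  have hρW : ρ ≤ P.W * ρ := Nat.le_mul_of_pos_left _ (by omega)
  have iy := ins_mono (a y).1 (bl_mono y (by omega : Λ.rg ≤ ρ))
  have iH' := ins_mono iH (bl_mono x h3)
  have fus := ((hF Λ ok P.W P.r₀ _ (hR ρ).gd x y ρ ρ _ _ (by omega) hρW (by omega) hρW iH' iy
    (disj (by omega))).1 m (amb_mono hx (bl_mono _ (by omega))) (amb_mono hy (bl_mono _ (by omega)))).1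
  have e1 : (∑ z ∈ S, Ex (m.W 0) fun s => JL Λ.J x s * JL Λ.J y s * ec Λ m z s) =
      Ex (m.W 0) fun s => H s * JL Λ.J y s := by
    rw [← Ex_sum _ fun z _ => cen.ig (((a x).1.2.mul (a y).1.2).mul (ins_ec hA ok m z).2)]
    refine Ex_congr fun s _ => ?_
    simp only [hH, sum_mul]
    exact sum_congr rfl fun z _ => by ring
  rw [e1]
  refine fus.trans ?_
  have hρ0 : (0 : ℝ) < ρ := by exact_mod_cast (by omega : 0 < ρ)
  have p0 : 0 ≤ P.C := by linarith [P.hC]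
  have n3 : nu Λ P.W x ρ H ≤ P.C * ((r : ℝ) / ρ) ^ P.α * (S.card * b) :=
    n2.trans (mul_le_mul_of_nonneg_left n1 (by positivity))
  have n4 := mul_le_mul n3 hJ ((hS Λ ok P.W y ρ hW (by omega)).1 _ iy).1 (by positivity)
  rw [mul_assoc]
  refine (mul_le_mul_of_nonneg_left n4 (by norm_num)).trans_eq ?_
  rw [Real.div_rpow (by positivity) hρ0.le, show -(2 * P.α) = -P.α + -P.α by ring, Real.rpow_add hρ0,
    div_eq_mul_inv, ← Real.rpow_neg hρ0.le]
  ring

end Near55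

open Near55

set_option maxHeartbeats 1000000 in
/-- NEAR -/
theorem nearStmt (hA : AlgStmt) (hP : PwStmt) (hM : MomStmt) (hS : SemiStmt) (hF : FusStmt)
    (hR : ProStmt) : NearStmt := by
  intro F P
  obtain ⟨C₁, hC₁, hM1⟩ := hM.1 F
  obtain ⟨C₂, hC₂, hR⟩ := hR F P
  obtain ⟨C₃, hC₃⟩ := hP.2.2.2.1 (1 - P.β) (by linarith [P.hβ'])
  have hα : 0 ≤ P.α := by linarith [P.hα]
  have hβ : 0 ≤ P.β := by linarith [P.hβ]
  have p0 : 0 ≤ P.C := by linarith [P.hC]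
  have c1 : 0 ≤ C₁ := by linarith
  have c2 : 0 ≤ C₂ := by linarith
  set q := 2 * P.W + 1 with hq
  set t₀ := q * P.r₀ with ht₀
  set A := 2 * q + 2 with hAq
  set B : ℝ := ((A * (t₀ + 1) : ℕ) : ℝ) with hB
  have hB1 : 1 ≤ B := by
    rw [hB]; exact_mod_cast Nat.mul_pos (by omega) (by omega)
  have hBp : 1 ≤ B ^ (2 * P.α) := Real.one_le_rpow hB1 (by positivity)
  set b₀ : ℝ := (2 * (t₀ : ℝ) + 1) ^ 2 * (C₁ + C₁ ^ 2) with hb₀
  have hb1 : 1 ≤ b₀ := one_le_mul_of_one_le_of_one_le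
    (one_le_pow₀ (by linarith [(Nat.cast_nonneg t₀ : (0 : ℝ) ≤ t₀)])) (by nlinarith)
  set K₀ : ℝ := 4 * P.C * C₂ * (b₀ * ((2 * t₀ : ℕ) : ℝ) ^ P.α) with hK₀
  set K₁ : ℝ := 4 * P.C * C₂ * (8 * (4 * C₂ ^ 2 * (2 * q : ℝ) ^ (P.α + P.β)) * 2 ^ P.α) with hK₁
  have k0 : 0 ≤ K₀ := by positivity
  have k1 : 0 ≤ K₁ := by positivity
  have k2 : 0 ≤ K₁ * |C₃| := by positivity
  refine ⟨(b₀ + K₀ + K₁ * |C₃|) * B ^ (2 * P.α), A, one_le_mul_of_one_le_of_one_le (by linarith) hBp,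
    by omega, fun Λ hΛ hG m x y hx hy => ?_⟩
  have ok := hΛ.ok
  obtain ⟨hW, hr, -⟩ := id (hG 0).gd
  have hg := ok.one_le_rg
  have a := hA.2.2 Λ ok
  have cen := hx.ctr.cen hx.anch
  set d := nr (x - y) with hd
  set n := d / A with hn
  have hnd : A * n ≤ d := Nat.mul_div_le _ _
  have hnd' : n ≤ d := Nat.div_le_self _ _
  have ha : (0 : ℝ) < 1 + d := by positivity
  have ha1 : (1 : ℝ) ≤ 1 + d := by linarith [(Nat.cast_nonneg d : (0 : ℝ) ≤ d)]
  have hu1 : 1 ≤ (1 + d : ℝ) ^ (2 - P.β) := Real.one_le_rpow ha1 (by linarith [P.hβ'])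
  have hQ : 0 ≤ B ^ (2 * P.α) * (1 + d : ℝ) ^ (-(2 * P.α)) := by positivity
  have sx := (hM.2 Λ ok x).1 m _ hx.near (self_mem_bl _ _)
  have sy := (hM.2 Λ ok y).1 m _ hy.near (self_mem_bl _ _)
  have sz := fun z (hz : z ∈ bl x d) => (hM.2 Λ ok z).1 m _ hx.near hz
  have me : ∀ z ∈ bl x d, |Ex (m.W 0) (es Λ z)| ≤ C₁ := fun z hz =>
    (abs_Ex_le cen.nonneg (cen.ig (a z).2.2.2.1.2)).trans
      (hM1 Λ hΛ m x y z hx.ctr hx.anch sx sy (sz z hz)).2.1
  rw [show 2 - P.β - 2 * P.α = -(2 * P.α) + (2 - P.β) by ring, Real.rpow_add ha,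
    show ∀ u v w z : ℝ, u * v * (w * z) = u * z * (v * w) from fun _ _ _ _ => by ring]
  rcases lt_or_ge n t₀ with h | h
  · have k : 1 ≤ B ^ (2 * P.α) * (1 + d : ℝ) ^ (-(2 * P.α)) := by
      refine pw1 ha (by positivity) ?_
      rw [hB]
      exact_mod_cast (div_lt d A (by omega)).trans (Nat.mul_le_mul_left _ (by omega))
    have b : ∀ z ∈ bl x n, |Ex (m.W 0) fun s => JL Λ.J x s * JL Λ.J y s * ec Λ m z s| ≤
        C₁ + C₁ ^ 2 := fun z hz => by
      have hz' := bl_mono x hnd' hz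
      obtain ⟨-, -, m3, -, m5⟩ := hM1 Λ hΛ m x y z hx.ctr hx.anch sx sy (sz z hz')
      have t2 := (a x).1.2.mul (a y).1.2
      have te := (a z).2.2.2.1.2
      have b1 := (abs_Ex_le cen.nonneg (cen.ig (t2.mul te))).trans m5
      have b2 := (abs_Ex_le cen.nonneg (cen.ig t2)).trans m3
      simp only [ec, mul_sub]
      rw [Ex_sub (cen.ig (t2.mul te)) (cen.ig (t2.mul (Tame.const _))), Ex_mul_const]
      refine (abs_sub _ _).trans ?_
      rw [abs_mul]
      rw [pow_two C₁]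
      exact add_le_add b1 (mul_le_mul b2 (me z hz') (abs_nonneg _) c1)
    have b' := (abs_sum_le_sum_abs _ _).trans (sum_le_card_nsmul _ _ _ b)
    rw [nsmul_eq_mul, hP.2.1] at b'
    have hn' : (n : ℝ) ≤ t₀ := by exact_mod_cast h.le
    have b'' : (2 * (n : ℝ) + 1) ^ 2 * (C₁ + C₁ ^ 2) ≤ b₀ :=
      mul_le_mul_of_nonneg_right (pow_le_pow_left₀ (by positivity) (by linarith) 2) (by positivity)
    refine (b'.trans b'').trans (le_trans ?_ (le_mul_of_one_le_right (by positivity) k))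
    exact le_trans (by linarith) (le_mul_of_one_le_right (by positivity) hu1)
  · set ρ := d / q with hρ
    have hρd : q * ρ ≤ d := Nat.mul_div_le _ _
    have hρd' : ρ ≤ d := Nat.div_le_self _ _
    have hnρ : 2 * n ≤ ρ := by
      rw [hρ, Nat.le_div_iff_mul_le (by omega)]
      exact le_trans (by rw [hAq]; nlinarith) hnd
    have ht : P.r₀ ≤ t₀ := Nat.le_mul_of_pos_left _ (by omega)
    have hρ0 : (0 : ℝ) < ρ := by exact_mod_cast (by omega : 0 < ρ)
    have hJ := (hR Λ hΛ ρ (hG ρ) y ρ (by omega) le_rfl).1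
    have k : (ρ : ℝ) ^ (-(2 * P.α)) ≤ B ^ (2 * P.α) * (1 + d : ℝ) ^ (-(2 * P.α)) := by
      refine K30.pw ha hρ0 (by positivity) ?_
      rw [hB]
      have h1 := div_lt d q (by omega)
      have h2 : q * (ρ + 1) ≤ A * (t₀ + 1) * ρ := by
        have : q * (ρ + 1) ≤ A * ρ := by rw [hAq]; nlinarith
        exact this.trans (Nat.mul_le_mul_right _ (Nat.le_mul_of_pos_right _ (by omega)))
      exact_mod_cast h1.trans h2
    -- the central piece
    have f0 : |∑ z ∈ bl x t₀, Ex (m.W 0) fun s => JL Λ.J x s * JL Λ.J y s * ec Λ m z s| ≤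
        K₀ * (ρ : ℝ) ^ (-(2 * P.α)) := by
      have := core hA hS hF ok hG hJ hρd hx hy (S := bl x t₀) (r := 2 * t₀) subset_rfl
        ((a x).2.2.2.2.2.2.1 0 t₀).2 (by omega) (by omega) (by omega) (b := C₁ + C₁ ^ 2)
        (by positivity) fun z hz => by
          have hWR : 2 * t₀ ≤ P.W * (2 * t₀) := Nat.le_mul_of_pos_left _ (by omega)
          refine ((hS Λ ok P.W x (2 * t₀) hW (by omega)).1 _ (ins_Je hA ok m hz (by omega))).2.1.trans ?_
          have c := ok.ctr_Nr (bl x (P.W * (2 * t₀))) x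
          have an' := ok.anch_Nr_bl (self_mem_bl x (P.W * (2 * t₀)))
          have ce := c.cen an'
          have ux := (hM.2 Λ ok x).2.2.1 (bl x (P.W * (2 * t₀))) x (bl_mono _ (by omega))
          have uz := (hM.2 Λ ok z).2.2.1 (bl x (P.W * (2 * t₀))) x (bl_subset_bl hz (by omega))
          obtain ⟨m1, -, -, m4, -⟩ := hM1 Λ hΛ _ x x z c an' ux ux uz
          have tJ := (a x).1.2
          have te := (a z).2.2.2.1.2
          have mz := me z (bl_mono x (by omega) hz)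
          refine (Ex_mono (G := fun s => |JL Λ.J x s * es Λ z s| + |JL Λ.J x s| * C₁) ce.nonneg
            (ce.ig (tJ.mul (ins_ec hA ok m z).2).abs)
            (ce.ig ((tJ.mul te).abs.add (tJ.abs.mul_const _))) fun s => ?_).trans ?_
          · simp only [ec, mul_sub]
            refine (abs_sub _ _).trans (add_le_add le_rfl ?_)
            rw [abs_mul]
            exact mul_le_mul_of_nonneg_left mz (abs_nonneg _)
          · rw [Ex_add (ce.ig (tJ.mul te).abs) (ce.ig (tJ.abs.mul_const _)), Ex_mul_const]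
            rw [pow_two C₁]
            exact add_le_add m4 (mul_le_mul_of_nonneg_right m1 c1)
      rwa [hP.2.1] at this
    -- the shells
    have f1 : ∀ u ∈ Ioc t₀ n,
        |∑ z ∈ an x (u - 1) u, Ex (m.W 0) fun s => JL Λ.J x s * JL Λ.J y s * ec Λ m z s| ≤
          K₁ * (ρ : ℝ) ^ (-(2 * P.α)) * (u : ℝ) ^ (1 - P.β) := fun u hu => by
      obtain ⟨u1, u2⟩ := mem_Ioc.1 hu
      set σ := u / q with hσ
      have s1 : q * σ ≤ u := Nat.mul_div_le _ _
      have s2 : P.r₀ ≤ σ := by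
        rw [hσ, Nat.le_div_iff_mul_le (by omega), mul_comm]; omega
      have s3 : u ≤ 2 * q * σ := by
        have := div_lt u q (by omega)
        nlinarith
      have e : q * σ = P.W * σ + P.W * σ + σ := by rw [hq]; ring
      have hσW : σ ≤ P.W * σ := Nat.le_mul_of_pos_left _ (by omega)
      have hσ0 : (0 : ℝ) < σ := by exact_mod_cast (by omega : 0 < σ)
      have hu0 : (0 : ℝ) < u := by exact_mod_cast (by omega : 0 < u)
      have := core hA hS hF ok hG hJ hρd hx hy (S := an x (u - 1) u) (t := u) (r := 2 * u)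
        sdiff_subset ((a x).2.2.2.2.2.2.1 (u - 1) u).1 (by omega) (by omega) (by omega)
        (b := 4 * C₂ ^ 2 * ((2 * q : ℝ) ^ (P.α + P.β) * (u : ℝ) ^ (-(P.α + P.β)))) (by positivity)
        fun z hz => by
          obtain ⟨z1, z2⟩ := mem_sdiff.1 hz
          rw [mem_nr, nr_comm, not_le] at z2
          have ix := ins_mono (a x).1 (bl_mono x (by omega : Λ.rg ≤ σ))
          have iz := ins_mono (ins_ec hA ok m z) (bl_mono z (by omega : Λ.rg ≤ σ))
          refine ((hF Λ ok P.W P.r₀ _ (hG σ).gd x z σ σ _ _ s2 hσW s2 hσW ix iz (disj (by omega))).2 x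
            (2 * u) (bl_mono _ (by omega)) (bl_subset_bl z1 (by omega))).trans ?_
          have a1 := (hR Λ hΛ σ (hG σ) x σ s2 le_rfl).1
          have a2 := (hR Λ hΛ σ (hG σ) z σ s2 le_rfl).2 m (amb_mono hx (bl_subset_bl z1 (by omega)))
          have a4 := mul_le_mul a1 a2 ((hS Λ ok P.W z σ hW (by omega)).1 _ iz).1 (by positivity)
          rw [show C₂ * (σ : ℝ) ^ (-P.α) * (C₂ * (σ : ℝ) ^ (-P.β)) =
            C₂ ^ 2 * ((σ : ℝ) ^ (-P.α) * (σ : ℝ) ^ (-P.β)) by ring, ← Real.rpow_add hσ0,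
            show -P.α + -P.β = -(P.α + P.β) by ring] at a4
          have a5 : (σ : ℝ) ^ (-(P.α + P.β)) ≤ (2 * q : ℝ) ^ (P.α + P.β) * (u : ℝ) ^ (-(P.α + P.β)) :=
            K30.pw hu0 hσ0 (by positivity) (by exact_mod_cast s3)
          linarith [mul_le_mul_of_nonneg_left a5 (sq_nonneg C₂)]
      refine this.trans_eq ?_
      have e2 : (u : ℝ) ^ (1 - P.β) = u * (u : ℝ) ^ (-(P.α + P.β)) * (u : ℝ) ^ P.α := by
        rw [mul_assoc, ← Real.rpow_add hu0, show 1 - P.β = 1 + (-(P.α + P.β) + P.α) by ring,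
          Real.rpow_add hu0, Real.rpow_one]
      rw [card_shell hP x (by omega), e2, hK₁, Nat.cast_mul, Nat.cast_ofNat,
        Real.mul_rpow (by norm_num) hu0.le]
      ring
    have f2 : ∑ u ∈ Ioc t₀ n, (u : ℝ) ^ (1 - P.β) ≤ |C₃| * (1 + d : ℝ) ^ (2 - P.β) := by
      refine (hC₃ t₀ n).trans ?_
      rw [show 1 - P.β + 1 = 2 - P.β by ring]
      refine mul_le_mul (le_abs_self _) (Real.rpow_le_rpow (by positivity) ?_ (by linarith [P.hβ']))
        (by positivity) (abs_nonneg _)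
      have : (n : ℝ) ≤ d := by exact_mod_cast hnd'
      linarith
    rw [split x _ h]
    refine (abs_add_le _ _).trans ?_
    have f3 := (abs_sum_le_sum_abs _ _).trans (sum_le_sum f1)
    rw [← mul_sum] at f3
    have f4 := f3.trans (mul_le_mul_of_nonneg_left f2 (by positivity))
    refine (add_le_add f0 f4).trans (le_trans ?_ (mul_le_mul_of_nonneg_left k (by positivity)))
    have g0 : 0 ≤ (ρ : ℝ) ^ (-(2 * P.α)) := by positivity
    have g1 : K₀ ≤ (b₀ + K₀) * (1 + d : ℝ) ^ (2 - P.β) :=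
      le_trans (by linarith) (le_mul_of_one_le_right (by positivity) hu1)
    linarith [mul_le_mul_of_nonneg_right g1 g0]

end Crest.Agent.T145.Df
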