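import Crest.Agent.T145.DfDef_70
import Crest.Agent.T145.Soft_23

/-!
# Row 145, module Df: the regime holds at all scales in a neighbourhood (helper10)
-/

set_option autoImplicit false

namespace Crest.Agent.T145.Df

open Finset Filter Topology Nc

namespace Op10

theorem exists_nat_one_le {δ : ℝ} (hδ : 0 < δ) : ∃ n : ℕ, 1 ≤ n ∧ ∀ r : ℕ, n ≤ r → 1 ≤ δ * r := by
  obtain ⟨n, hn⟩ := exists_nat_ge (1 / δ)
  refine ⟨n + 1, by omega, fun r hr => ?_⟩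
  have h1 : (n : ℝ) ≤ r := by exact_mod_cast (by omega : n ≤ r)
  have h2 := (div_le_iff₀ hδ).1 (hn.trans h1)
  linarith

theorem tendsto_gN (hm : T1mStmt) {Λ : Lat} (h : Λ.Ok) : Tendsto Λ.gN atTop (𝓝 Λ.gI) :=
  (hm.1 Λ h).1.div_const _

theorem cont_gN (hd : T1dStmt) {Λ : Lat} (h : Λ.Ok) (l : ℕ) :
    Tendsto (fun τ => (Λ.at' τ).gN l) (𝓝 Λ.τ) (𝓝 (Λ.gN l)) :=
  (hd.2.2 Λ l h).1.continuousAt (Ioi_mem_nhds h.2)

/-- the upper bound on the stiffness at all large scales, near `τ₀` -/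
theorem upper (hm : T1mStmt) (hd : T1dStmt) {Λ : Lat} (h : Λ.Ok) {δ : ℝ} (hδ : 0 < δ) :
    ∀ᶠ l₀ : ℕ in atTop, ∀ᶠ τ in 𝓝 Λ.τ, ∀ l, l₀ ≤ l → (Λ.at' τ).gN l ≤ Λ.gI + δ := by
  have ht : 0 < (Λ.fa2 h).τ₂ := (Lat.mem_fa2 h).tau2_pos
  obtain ⟨d, hd0, H⟩ := hm.2.1 (Λ.fa2 h) (δ / 2 / (Λ.fa2 h).τ₂) (by positivity)
  obtain ⟨n, -, hn⟩ := exists_nat_one_le hd0
  obtain ⟨a, ha1, ha2⟩ := (((tendsto_gN hm h).eventually
    (gt_mem_nhds (by linarith : Λ.gI < Λ.gI + δ / 2))).and (eventually_ge_atTop n)).exists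
  filter_upwards [eventually_ge_atTop (n * a)] with l₀ hl₀
  filter_upwards [Lat.ev_mem_fa2 h, (cont_gN hd h a).eventually (gt_mem_nhds ha1)] with τ hτ h1 l hl
  have hs : Sep d a l := by
    refine ⟨hn a ha2, ?_⟩
    have h2 : (n : ℝ) * a ≤ l := by exact_mod_cast hl₀.trans hl
    have h3 := hn n le_rfl
    have h4 : (0 : ℝ) ≤ a := Nat.cast_nonneg _
    nlinarith
  have h2 := (H _ hτ).1 a l hs
  have h3 := hτ.e0_pos
  have h4 : δ / 2 / (Λ.fa2 h).τ₂ / (Λ.at' τ).e0 ≤ δ / 2 := by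
    rw [div_div, div_le_iff₀ (by positivity)]
    nlinarith [hτ.one_le_mul_e0]
  have h5 : (Λ.at' τ).gN l ≤ (Λ.at' τ).gN a + δ / 2 / (Λ.fa2 h).τ₂ / (Λ.at' τ).e0 := by
    rw [Lat.gN, Lat.gN, ← add_div]
    exact div_le_div_of_nonneg_right h2 h3.le
  linarith

/-- the kernel sum is continuous in `τ`, uniformly in the test function -/
theorem cont_sum (hB : BumpStmt) (hE : EnStmt) {Λ : Lat} (h : Λ.Ok) (l₁ l₂ : ℕ) {ε : ℝ} (hε : 0 < ε) :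
    ∀ᶠ τ in 𝓝 Λ.τ, ∀ N : ℕ, 1 ≤ N →
      |∑ w ∈ bl 0 l₁, kk (Λ.at' τ) l₂ w * UU N w - ∑ w ∈ bl 0 l₁, kk Λ l₂ w * UU N w| ≤ ε := by
  obtain ⟨C, -, hC⟩ := hB
  have h1 : Tendsto (fun τ => ∑ w ∈ bl 0 l₁, |kk (Λ.at' τ) l₂ w - kk Λ l₂ w| * (C * (nr w : ℝ) ^ 2))
      (𝓝 Λ.τ) (𝓝 (∑ w ∈ bl 0 l₁, |kk Λ l₂ w - kk Λ l₂ w| * (C * (nr w : ℝ) ^ 2))) :=
    tendsto_finsetSum _ fun w _ =>
      ((((hE Λ h l₂ w).1.continuousAt.tendsto).sub_const _).abs).mul_const _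
  simp only [sub_self, abs_zero, zero_mul, sum_const_zero] at h1
  filter_upwards [h1.eventually (gt_mem_nhds hε)] with τ hτ N hN
  rw [← sum_sub_distrib]
  refine ((abs_sum_le_sum_abs _ _).trans (sum_le_sum fun w _ => ?_)).trans hτ.le
  have h2 := (hC N hN).2.2.2.1 w
  rw [← sub_mul, abs_mul, abs_of_nonneg h2.1]
  exact mul_le_mul_of_nonneg_left h2.2 (abs_nonneg _)

end Op10

open Op10

theorem openStmt (hR : RegStmt) (hP : RepStmt) (hU : UpStmt) (hL : LimStmt) (hB : BumpStmt)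
    (hI : IdStmt) (hE : EnStmt) (hm : T1mStmt) (hd : T1dStmt) : OpenStmt := by
  intro Λ h hg
  have hg0 : 0 < Λ.gI := lt_trans (by positivity) hg
  obtain ⟨δ₀, hδ₀, HR⟩ := hR (Λ.fa2 h) Λ.gI hg
  obtain ⟨δ, hδ, hδ1, hδ2⟩ : ∃ δ, 0 < δ ∧ δ ≤ δ₀ ∧ δ ≤ Λ.gI / 2 :=
    ⟨min δ₀ (Λ.gI / 2), lt_min hδ₀ (half_pos hg0), min_le_left _ _, min_le_right _ _⟩
  have h0 : ∀ᶠ l₀ : ℕ in atTop, ∀ l, l₀ ≤ l → |Λ.gN l - Λ.gI| < δ := by
    have := (Metric.tendsto_nhds.1 (tendsto_gN hm h)) δ hδ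
    exact (eventually_forall_ge_atTop.2 this).mono fun _ h l hl => h l hl
  obtain ⟨l₀, ⟨P, M, hM, HR⟩, hup, hl₀⟩ := (HR.and ((upper hm hd h hδ).and h0)).exists
  have hΛ := Lat.mem_fa2 h
  have hR0 : ∀ L, Rg Λ P L := fun L => HR Λ hΛ L fun l h1 _ => (hl₀ l h1).le.trans hδ1
  have hε : 0 < δ / 6 := by positivity
  obtain ⟨d, hd0, HU⟩ := hU (Λ.fa2 h) (δ / 6) hε
  obtain ⟨n, hn1, hn⟩ := exists_nat_one_le hd0
  obtain ⟨l₁, HP⟩ := (hP (Λ.fa2 h) P (4 * n * M) (δ / 6) hε).exists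
  obtain ⟨l₂, HP⟩ := HP.exists
  obtain ⟨L₀, HP⟩ := eventually_atTop.1 HP
  obtain ⟨j₀, HL⟩ := eventually_atTop.1 ((Metric.tendsto_nhds.1 (hL Λ h hg0)) (δ / 6) hε)
  set L₁ := M * (L₀ + 1) + n + 2 ^ j₀ + Λ.rg with hL₁
  have hlow : ∀ᶠ τ in 𝓝 Λ.τ, ∀ l ∈ Icc l₀ L₁, Λ.gI - δ < (Λ.at' τ).gN l :=
    (eventually_all_finset _).2 fun l hl => (cont_gN hd h l).eventually
      (lt_mem_nhds (by have := abs_lt.1 (hl₀ l (mem_Icc.1 hl).1); linarith))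
  have main : ∀ᶠ τ in 𝓝 Λ.τ, (Λ.fa2 h).Mem (Λ.at' τ) ∧ 0 < (Λ.at' τ).gI ∧ ∀ L, Rg (Λ.at' τ) P L := by
    filter_upwards [Lat.ev_mem_fa2 h, hup, hlow, cont_sum hB hE h l₁ l₂ hε] with τ hτ hup hlow hc
    have key : ∀ l, l₀ ≤ l → Λ.gI - δ ≤ (Λ.at' τ).gN l := by
      by_contra hne
      push Not at hne
      classical
      obtain ⟨h1, h2⟩ := Nat.find_spec hne
      have h3 : ∀ l, l < Nat.find hne → l₀ ≤ l → Λ.gI - δ ≤ (Λ.at' τ).gN l := fun l hl h =>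
        not_lt.1 fun h' => Nat.find_min hne hl ⟨h, h'⟩
      generalize Nat.find hne = s at h1 h2 h3
      have h4 : L₁ < s := not_le.1 fun h' => (hlow s (mem_Icc.2 ⟨h1, h'⟩)).not_gt h2
      have hpos : 1 ≤ 2 ^ j₀ := Nat.one_le_two_pow
      obtain ⟨L, hL1, hL2⟩ : ∃ L, M * L < s ∧ s ≤ M * (L + 1) := by
        refine ⟨(s - 1) / M, ?_, ?_⟩
        · have := Nat.mul_div_le (s - 1) M; omega
        · have := Nat.lt_mul_div_succ (s - 1) hM; omega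
      have hL3 : L₀ + 1 ≤ L := by
        by_contra h'
        have := Nat.mul_le_mul_left M (by omega : L + 1 ≤ L₀ + 1)
        omega
      have hRg : Rg (Λ.at' τ) P L := HR _ hτ L fun l h5 h6 => by
        have := h3 l (by omega) h5
        have := hup l h5
        exact abs_le.2 ⟨by linarith, by linarith⟩
      have hns : s ≤ n * s := Nat.le_mul_of_pos_left s hn1
      obtain ⟨j, hj1, hj2⟩ : ∃ j, n * s ≤ 2 ^ j ∧ 2 ^ j ≤ 2 * (n * s) := by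
        obtain ⟨j, h1, h2⟩ := exists_nat_pow_near (by omega : 1 ≤ n * s) (by norm_num : 1 < 2)
        exact ⟨j + 1, h2.le, by rw [pow_succ]; omega⟩
      have hLM : L ≤ M * L := Nat.le_mul_of_pos_left L hM
      have hN1 : L ≤ 2 ^ j := by omega
      have hN2 : 2 ^ j ≤ 4 * n * M * L := by
        have a1 : M * (L + 1) ≤ M * (2 * L) := Nat.mul_le_mul_left M (by omega)
        have a2 : n * s ≤ n * (M * (2 * L)) := Nat.mul_le_mul_left n (hL2.trans a1)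
        calc 2 ^ j ≤ 2 * (n * (M * (2 * L))) := by omega
          _ = 4 * n * M * L := by ring
      have hj : j₀ ≤ j := (Nat.pow_le_pow_iff_right (by norm_num : 1 < 2)).1 (by omega)
      have hs : Sep d s (2 ^ j) := by
        refine ⟨hn s (by omega), ?_⟩
        have b1 : (n : ℝ) * s ≤ ((2 ^ j : ℕ) : ℝ) := by exact_mod_cast hj1
        have b2 := hn n le_rfl
        have b3 : (0 : ℝ) ≤ s := Nat.cast_nonneg _
        nlinarith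
      have e1 := abs_le.1 (HP L (by omega) _ hτ hRg _ hN1 hN2)
      have e2 := abs_le.1 (HP L (by omega) _ hΛ (hR0 L) _ hN1 hN2)
      have e3 := abs_le.1 (hc (2 ^ j) (by omega))
      have e4 : VJ (Λ.at' τ) (2 ^ j) ≤ Λ.a * (Λ.at' τ).gN s * EE Λ.J (2 ^ j) + δ / 6 :=
        HU _ hτ s _ hs
      have e5 := HL j hj
      rw [Real.dist_0_eq_abs] at e5
      have e5 := abs_lt.1 e5
      have e6 : 1 ≤ EE Λ.J (2 ^ j) := ((hI Λ h).2 _ (by omega)).2.1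
      have e7 : 1 ≤ Λ.a * EE Λ.J (2 ^ j) := one_le_mul_of_one_le_of_one_le h.one_le_a e6
      have e8 : Λ.a * EE Λ.J (2 ^ j) * (Λ.at' τ).gN s ≤ Λ.a * EE Λ.J (2 ^ j) * (Λ.gI - δ) :=
        mul_le_mul_of_nonneg_left h2.le (by linarith)
      have e9 : δ ≤ Λ.a * EE Λ.J (2 ^ j) * δ := le_mul_of_one_le_left hδ.le e7
      nlinarith
    refine ⟨hτ, ?_, fun L => HR _ hτ L fun l h1 _ => ?_⟩
    · have : Λ.gI - δ ≤ (Λ.at' τ).gI :=
        ge_of_tendsto (tendsto_gN hm hτ.ok) (eventually_atTop.2 ⟨l₀, key⟩)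
      linarith
    · have := key l h1
      have := hup l h1
      exact abs_le.2 ⟨by linarith, by linarith⟩
  obtain ⟨η, hη, H⟩ := Metric.eventually_nhds_iff.1 main
  exact ⟨Λ.fa2 h, P, η, hη, fun τ hτ => H hτ⟩

end Crest.Agent.T145.Df
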