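import Crest.Agent.T145.DfDef_70

/-!
# Row 145, module Df: the deterministic quadratic-form estimate `QuadStmt` (helper41)
-/

set_option autoImplicit false

namespace Crest.Agent.T145.Df

open Finset Filter Topology Nc

namespace Q41

theorem nr_add (x y : Pt) : nr (x + y) ≤ nr x + nr y := by
  simp only [nr, Prod.fst_add, Prod.snd_add]; omega

theorem nr_sub_le (x y : Pt) : nr (x - y) ≤ nr x + nr y := by
  simp only [nr, Prod.fst_sub, Prod.snd_sub]; omega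

theorem nr_comm (x y : Pt) : nr (x - y) = nr (y - x) := by
  simp only [nr, Prod.fst_sub, Prod.snd_sub]; omega

theorem nr_le_sub (x y : Pt) : nr x ≤ nr (x - y) + nr y := by
  simp only [nr, Prod.fst_sub, Prod.snd_sub]; omega

/-- the symmetric weight -/
def Ps (u c : Pt → ℝ) (x y : Pt) : ℝ := u x ^ 2 * c y + u y ^ 2 * c x - 2 * (u x * u y)

theorem ident (B : Finset Pt) (K : Pt → Pt → ℝ) (hK : ∀ x y, K x y = K y x) (u c : Pt → ℝ) :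
    ∑ x ∈ B, ∑ y ∈ B, u x * u y * K x y =
      ∑ x ∈ B, u x ^ 2 * ∑ y ∈ B, c y * K x y - (∑ x ∈ B, ∑ y ∈ B, K x y * Ps u c x y) / 2 := by
  have h1 : ∑ x ∈ B, ∑ y ∈ B, K x y * (u y ^ 2 * c x) = ∑ x ∈ B, ∑ y ∈ B, K x y * (u x ^ 2 * c y) := by
    rw [sum_comm]
    exact sum_congr rfl fun x _ => sum_congr rfl fun y _ => by rw [hK]
  have h2 : ∑ x ∈ B, u x ^ 2 * ∑ y ∈ B, c y * K x y = ∑ x ∈ B, ∑ y ∈ B, K x y * (u x ^ 2 * c y) := by
    refine sum_congr rfl fun x _ => ?_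
    rw [mul_sum]
    exact sum_congr rfl fun y _ => by ring
  have h3 : ∑ x ∈ B, ∑ y ∈ B, K x y * Ps u c x y =
      ∑ x ∈ B, ∑ y ∈ B, K x y * (u x ^ 2 * c y) + ∑ x ∈ B, ∑ y ∈ B, K x y * (u y ^ 2 * c x) -
        2 * ∑ x ∈ B, ∑ y ∈ B, u x * u y * K x y := by
    rw [mul_sum, ← sum_add_distrib, ← sum_sub_distrib]
    refine sum_congr rfl fun x _ => ?_
    rw [mul_sum, ← sum_add_distrib, ← sum_sub_distrib]
    exact sum_congr rfl fun y _ => by simp only [Ps]; ring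
  rw [h3, h1, h2]; ring

/-- the facts on the two bumps that are used -/
structure Bp (u c : Pt → ℝ) (C : ℝ) (N : ℕ) : Prop where
  u1 : ∀ x, |u x| ≤ 1
  c1 : ∀ x, |c x| ≤ 1
  us : ∀ x, u x ≠ 0 → nr x < 2 * N
  co : ∀ x, nr x ≤ 3 * N → c x = 1
  lip : ∀ x y, |u x - u y| ≤ C * nr (x - y) / N

variable {u c : Pt → ℝ} {C : ℝ} {N : ℕ}

theorem Bp.near (h : Bp u c C N) {x y : Pt} (hd : nr (x - y) ≤ N) : Ps u c x y = (u y - u x) ^ 2 := by
  have e1 : u x ^ 2 * c y = u x ^ 2 := by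
    by_cases hx : u x = 0
    · simp [hx]
    · have := h.us x hx
      have h2 := nr_le_sub y x
      rw [nr_comm y x] at h2
      rw [h.co y (by omega), mul_one]
  have e2 : u y ^ 2 * c x = u y ^ 2 := by
    by_cases hy : u y = 0
    · simp [hy]
    · have := h.us y hy
      have h2 := nr_le_sub x y
      rw [h.co x (by omega), mul_one]
  simp only [Ps, e1, e2]; ring

theorem Bp.supp (h : Bp u c C N) {x y : Pt} (h0 : Ps u c x y ≠ 0) : nr x < 2 * N ∨ nr y < 2 * N := by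
  by_contra hc
  push Not at hc
  have hx : u x = 0 := by by_contra hx; have := h.us x hx; omega
  have hy : u y = 0 := by by_contra hy; have := h.us y hy; omega
  exact h0 (by simp [Ps, hx, hy])

theorem Bp.ps_le (h : Bp u c C N) (hN : 1 ≤ N) (x y : Pt) :
    |Ps u c x y| ≤ (C ^ 2 + 4) * (nr (x - y) : ℝ) ^ 2 / (N : ℝ) ^ 2 := by
  have hN' : (0 : ℝ) < N := by exact_mod_cast hN
  have hd0 : (0 : ℝ) ≤ (nr (x - y) : ℝ) ^ 2 / (N : ℝ) ^ 2 := by positivity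
  rw [mul_div_assoc]
  by_cases hd : nr (x - y) ≤ N
  · rw [h.near hd, abs_of_nonneg (sq_nonneg _), ← sq_abs, abs_sub_comm]
    have h1 := h.lip x y
    have h2 : |u x - u y| ^ 2 ≤ (C * nr (x - y) / N) ^ 2 := pow_le_pow_left₀ (abs_nonneg _) h1 2
    have h3 : (C * nr (x - y) / N) ^ 2 = C ^ 2 * ((nr (x - y) : ℝ) ^ 2 / (N : ℝ) ^ 2) := by ring
    rw [h3] at h2
    nlinarith
  · have h1 : (1 : ℝ) ≤ (nr (x - y) : ℝ) ^ 2 / (N : ℝ) ^ 2 := by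
      rw [le_div_iff₀ (by positivity), one_mul]
      have : (N : ℝ) ≤ nr (x - y) := by exact_mod_cast (by omega : N ≤ nr (x - y))
      exact pow_le_pow_left₀ hN'.le this 2
    have a1 : |u x ^ 2 * c y| ≤ 1 := by
      rw [abs_mul, abs_pow]
      exact mul_le_one₀ (pow_le_one₀ (abs_nonneg _) (h.u1 x)) (abs_nonneg _) (h.c1 y)
    have a2 : |u y ^ 2 * c x| ≤ 1 := by
      rw [abs_mul, abs_pow]
      exact mul_le_one₀ (pow_le_one₀ (abs_nonneg _) (h.u1 y)) (abs_nonneg _) (h.c1 x)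
    have a3 : |u x * u y| ≤ 1 := by
      rw [abs_mul]
      exact mul_le_one₀ (h.u1 x) (abs_nonneg _) (h.u1 y)
    have a4 : |Ps u c x y| ≤ 4 := by
      simp only [Ps]
      rw [abs_le] at a1 a2 a3 ⊢
      constructor <;> linarith [a1.1, a1.2, a2.1, a2.2, a3.1, a3.2]
    nlinarith [sq_nonneg C]

/-- the radial weight of the far part -/
theorem wt_le {p : ℝ} (hp : 0 < p) {t L : ℕ} (ht : 1 ≤ t) (hL : 1 ≤ L) :
    (1 + (min t L : ℕ) : ℝ) ^ (-p) ≤ (t : ℝ) ^ (-p) + (L : ℝ) ^ (-p) := by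
  have ht' : (0 : ℝ) < t := by exact_mod_cast ht
  have hL' : (0 : ℝ) < L := by exact_mod_cast hL
  have p1 : 0 ≤ (t : ℝ) ^ (-p) := by positivity
  have p2 : 0 ≤ (L : ℝ) ^ (-p) := by positivity
  rcases le_total t L with h | h
  · rw [min_eq_left h]
    have : (1 + (t : ℝ)) ^ (-p) ≤ (t : ℝ) ^ (-p) :=
      Real.rpow_le_rpow_of_nonpos ht' (by linarith) (by linarith)
    linarith
  · rw [min_eq_right h]
    have : (1 + (L : ℝ)) ^ (-p) ≤ (L : ℝ) ^ (-p) :=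
      Real.rpow_le_rpow_of_nonpos hL' (by linarith) (by linarith)
    linarith

/-- the radial sum of the far part -/
theorem rad_le {p C₁ : ℝ} (hp : 4 < p)
    (h1 : ∀ r R : ℕ, 1 ≤ r → ∑ t ∈ Ioc r R, (t : ℝ) ^ (-(p - 3)) ≤ C₁ * (r : ℝ) ^ (1 - (p - 3)))
    {l L N : ℕ} (hl : 1 ≤ l) (hL : 1 ≤ L) :
    ∑ t ∈ Ioc l (8 * N), 8 * (t : ℝ) * ((1 + (min t L : ℕ) : ℝ) ^ (-p) * (t : ℝ) ^ 2) ≤
      8 * C₁ * (l : ℝ) ^ (4 - p) + 8 * 8 ^ 4 * ((N : ℝ) ^ 4 * (L : ℝ) ^ (-p)) := by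
  have hL' : (0 : ℝ) < L := by exact_mod_cast hL
  have p2 : 0 ≤ (L : ℝ) ^ (-p) := by positivity
  have hb : ∀ t ∈ Ioc l (8 * N), 8 * (t : ℝ) * ((1 + (min t L : ℕ) : ℝ) ^ (-p) * (t : ℝ) ^ 2) ≤
      8 * (t : ℝ) ^ (-(p - 3)) + 8 * (8 * (N : ℝ)) ^ 3 * (L : ℝ) ^ (-p) := by
    intro t ht
    rw [mem_Ioc] at ht
    have ht1 : 1 ≤ t := by omega
    have ht' : (0 : ℝ) < t := by exact_mod_cast ht1
    have hw := wt_le (p := p) (by linarith) ht1 hL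
    have e : (t : ℝ) ^ (-(p - 3)) = (t : ℝ) ^ (-p) * (t : ℝ) ^ 3 := by
      rw [← Real.rpow_natCast, ← Real.rpow_add ht']; congr 1; push_cast; ring
    have h3 : (t : ℝ) ^ 3 ≤ (8 * (N : ℝ)) ^ 3 :=
      pow_le_pow_left₀ ht'.le (by exact_mod_cast ht.2) 3
    have h4 : 0 ≤ (t : ℝ) ^ 3 := by positivity
    calc 8 * (t : ℝ) * ((1 + (min t L : ℕ) : ℝ) ^ (-p) * (t : ℝ) ^ 2)
        = 8 * ((1 + (min t L : ℕ) : ℝ) ^ (-p) * (t : ℝ) ^ 3) := by ring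
      _ ≤ 8 * (((t : ℝ) ^ (-p) + (L : ℝ) ^ (-p)) * (t : ℝ) ^ 3) := by gcongr
      _ = 8 * (t : ℝ) ^ (-(p - 3)) + 8 * (t : ℝ) ^ 3 * (L : ℝ) ^ (-p) := by rw [e]; ring
      _ ≤ _ := by gcongr
  refine (sum_le_sum hb).trans ?_
  rw [sum_add_distrib, ← mul_sum, sum_const, nsmul_eq_mul]
  have h5 := h1 l (8 * N) hl
  have e5 : (1 - (p - 3)) = 4 - p := by ring
  rw [e5] at h5
  have h6 : ((Ioc l (8 * N)).card : ℝ) ≤ 8 * N := by
    rw [Nat.card_Ioc]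
    exact_mod_cast Nat.sub_le _ _
  have h7 : ((Ioc l (8 * N)).card : ℝ) * (8 * (8 * (N : ℝ)) ^ 3 * (L : ℝ) ^ (-p)) ≤
      8 * N * (8 * (8 * (N : ℝ)) ^ 3 * (L : ℝ) ^ (-p)) := by gcongr
  have e7 : 8 * N * (8 * (8 * (N : ℝ)) ^ 3 * (L : ℝ) ^ (-p)) =
      8 * 8 ^ 4 * ((N : ℝ) ^ 4 * (L : ℝ) ^ (-p)) := by ring
  linarith

section
variable (hb : ∀ (z x : Pt) (r : ℕ), x ∈ bl z r ↔ nr (x - z) ≤ r)
include hb

theorem mem0 {x : Pt} {r : ℕ} : x ∈ bl 0 r ↔ nr x ≤ r := by rw [hb, sub_zero]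

/-- the near part is a sum over `x ∈ bl 0 (3 N)`, `w ∈ bl 0 l` -/
theorem near_eq (h : Bp u c C N) (K : Pt → Pt → ℝ) {l : ℕ} (hl : l ≤ N) :
    ∑ x ∈ bl 0 (4 * N), ∑ y ∈ (bl 0 (4 * N)).filter (fun y => nr (y - x) ≤ l), K x y * Ps u c x y =
      ∑ x ∈ bl 0 (3 * N), ∑ w ∈ bl 0 l, K x (x + w) * (u (x + w) - u x) ^ 2 := by
  symm
  have hsub : bl (0 : Pt) (3 * N) ⊆ bl 0 (4 * N) := fun x hx => by
    rw [mem0 hb] at hx ⊢; omega
  rw [← sum_subset hsub]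
  · refine sum_congr rfl fun x hx => ?_
    rw [mem0 hb] at hx
    refine sum_nbij' (fun w => x + w) (fun y => y - x) ?_ ?_ ?_ ?_ ?_
    · intro w hw
      rw [mem0 hb] at hw
      have := nr_add x w
      rw [mem_filter, mem0 hb, add_sub_cancel_left]
      omega
    · intro y hy
      rw [mem_filter] at hy
      rw [mem0 hb]; exact hy.2
    · intro w _; simp
    · intro y _; simp
    · intro w hw
      rw [mem0 hb] at hw
      rw [h.near]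
      rw [nr_comm, add_sub_cancel_left]; omega
  · intro x _ hx
    rw [mem0 hb] at hx
    refine sum_eq_zero fun y hy => ?_
    rw [mem_filter] at hy
    by_contra h0
    have h1 := h.supp (right_ne_zero_of_mul h0)
    have h2 := nr_le_sub x y
    rw [nr_comm x y] at h2
    omega

/-- the far part -/
theorem far_le (h : Bp u c C N) (hN : 1 ≤ N) {K : Pt → Pt → ℝ} (hK : ∀ x y, K x y = K y x) {A : ℝ} (hA : 0 ≤ A)
    {g : ℕ → ℝ} (hg : ∀ t, 0 ≤ g t)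
    (hb1 : ∀ x ∈ bl 0 (4 * N), ∀ y ∈ bl 0 (4 * N), nr x < 2 * N → |K x y| ≤ A * g (nr (x - y)))
    (hs : ∀ (z : Pt) (r R : ℕ) (f : ℕ → ℝ),
      ∑ x ∈ an z r R, f (nr (x - z)) = ∑ t ∈ Ioc r R, 8 * (t : ℝ) * f t) (l : ℕ) {x : Pt}
    (hx : x ∈ bl 0 (4 * N)) :
    |∑ y ∈ (bl 0 (4 * N)).filter (fun y => ¬ nr (y - x) ≤ l), K x y * Ps u c x y| ≤
      A * (C ^ 2 + 4) / (N : ℝ) ^ 2 * ∑ t ∈ Ioc l (8 * N), 8 * (t : ℝ) * (g t * (t : ℝ) ^ 2) := by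
  rw [← hs x l (8 * N) fun t => g t * (t : ℝ) ^ 2, mul_sum]
  refine (abs_sum_le_sum_abs _ _).trans ?_
  have hsub : (bl 0 (4 * N)).filter (fun y => ¬ nr (y - x) ≤ l) ⊆ an x l (8 * N) := by
    intro y hy
    rw [mem_filter, mem0 hb] at hy
    rw [mem0 hb] at hx
    have := nr_sub_le y x
    rw [an, Finset.mem_sdiff, hb, hb]
    omega
  refine le_trans (sum_le_sum fun y hy => ?_) (sum_le_sum_of_subset_of_nonneg hsub fun y _ _ => ?_)
  · rw [mem_filter] at hy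
    by_cases h0 : Ps u c x y = 0
    · rw [h0, mul_zero, abs_zero]
      have := hg (nr (y - x))
      positivity
    · have hk : |K x y| ≤ A * g (nr (y - x)) := by
        rcases h.supp h0 with h1 | h1
        · rw [nr_comm]; exact hb1 x hx y hy.1 h1
        · rw [hK]; exact hb1 y hy.1 x hx h1
      have hP := h.ps_le hN x y
      rw [nr_comm] at hP
      have := hg (nr (y - x))
      rw [abs_mul]
      calc |K x y| * |Ps u c x y|
          ≤ (A * g (nr (y - x))) * ((C ^ 2 + 4) * (nr (y - x) : ℝ) ^ 2 / (N : ℝ) ^ 2) :=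
            mul_le_mul hk hP (abs_nonneg _) (by positivity)
        _ = _ := by ring
  · have := hg (nr (y - x))
    positivity

end

theorem fin_le {C D E T₁ T₂ T₃ T₄ a b c d : ℝ} (hC : 0 ≤ C) (hD : 0 ≤ D) (hE : 0 ≤ E) (t1 : 0 ≤ T₁)
    (t2 : 0 ≤ T₂) (t3 : 0 ≤ T₃) (t4 : 0 ≤ T₄) (b1 : |a| ≤ 25 * T₁) (b2 : |d - b| ≤ 9 * C * T₂)
    (b3 : |c| ≤ E * (8 * D * T₃ + 8 * 8 ^ 4 * T₄)) :
    |a - (b + c) / 2 + d / 2| ≤ (25 + 9 * C + E * (8 * D + 8 * 8 ^ 4)) * (T₁ + T₂ + T₃ + T₄) := by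
  rw [abs_le] at b1 b2 b3 ⊢
  have m1 : 0 ≤ C * T₁ := by positivity
  have m2 : 0 ≤ C * T₂ := by positivity
  have m3 : 0 ≤ C * T₃ := by positivity
  have m4 : 0 ≤ C * T₄ := by positivity
  have n1 : 0 ≤ E * T₁ := by positivity
  have n2 : 0 ≤ E * T₂ := by positivity
  have n3 : 0 ≤ E * T₃ := by positivity
  have n4 : 0 ≤ E * T₄ := by positivity
  have o1 : 0 ≤ E * D * T₁ := by positivity
  have o2 : 0 ≤ E * D * T₂ := by positivity
  have o3 : 0 ≤ E * D * T₃ := by positivity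
  have o4 : 0 ≤ E * D * T₄ := by positivity
  have e : (25 + 9 * C + E * (8 * D + 8 * 8 ^ 4)) * (T₁ + T₂ + T₃ + T₄) =
      25 * (T₁ + T₂ + T₃ + T₄) + 9 * (C * T₁ + C * T₂ + C * T₃ + C * T₄) +
      8 * (E * D * T₁ + E * D * T₂ + E * D * T₃ + E * D * T₄) +
      8 * 8 ^ 4 * (E * T₁ + E * T₂ + E * T₃ + E * T₄) := by ring
  have e2 : 9 * C * T₂ = 9 * (C * T₂) := by ring
  have e3 : E * (8 * D * T₃ + 8 * 8 ^ 4 * T₄) = 8 * (E * D * T₃) + 8 * 8 ^ 4 * (E * T₄) := by ring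
  rw [e2] at b2
  rw [e3] at b3
  rw [e]
  constructor <;> linarith [b1.1, b1.2, b2.1, b2.2, b3.1, b3.2]

end Q41

open Q41 in
theorem quadStmt (hA : AlgStmt) (hP : PwStmt) (hB : BumpStmt) : QuadStmt := by
  intro p hp
  obtain ⟨hb, -, -⟩ := hA
  obtain ⟨hs, hcard, hp1, -, -⟩ := hP
  obtain ⟨C, hC, hB⟩ := hB
  obtain ⟨C₁, hC₁⟩ := hp1 (p - 3) (by linarith)
  refine ⟨25 + 9 * C + 81 * (C ^ 2 + 4) * (8 * |C₁| + 8 * 8 ^ 4), ?_⟩
  intro K k A η₁ η₂ l L N hl hlL hLN hK h1 h2 h3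
  have hN : 1 ≤ N := by omega
  have hN' : (1 : ℝ) ≤ N := by exact_mod_cast hN
  have hl' : (1 : ℝ) ≤ l := by exact_mod_cast hl
  have hL' : (0 : ℝ) < L := by exact_mod_cast (by omega : 0 < L)
  obtain ⟨-, hB1, hB2, hB3, -⟩ := hB N hN
  have h : Bp (ub N) (ch N) C N :=
    ⟨fun x => (hB1 x).1, fun x => (hB1 x).2.1, fun x => (hB1 x).2.2.1, fun x => (hB1 x).2.2.2.2,
      fun x y => (hB2 x y).1⟩
  have z0 : ∀ r : ℕ, (0 : Pt) ∈ bl 0 r := fun r => by rw [mem0 hb]; simp [nr]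
  have hA0 : 0 ≤ A := by
    have := (abs_nonneg _).trans (h1 0 (z0 _) 0 (z0 _) (by simp [nr]; omega))
    exact nonneg_of_mul_nonneg_left this (by positivity)
  have hη₁ : 0 ≤ η₁ := (abs_nonneg _).trans (h2 0 (z0 _))
  have hη₂ : 0 ≤ η₂ := (abs_nonneg _).trans (h3 0 (z0 _) 0 (z0 _))
  have hsub : bl (0 : Pt) (2 * N) ⊆ bl 0 (4 * N) := fun x hx => by
    rw [mem0 hb] at hx ⊢; omega
  have hu0 : ∀ x, x ∉ bl (0 : Pt) (2 * N) → ub N x = 0 := fun x hx => by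
    rw [mem0 hb] at hx
    by_contra h0
    have := h.us x h0
    omega
  -- the double sum over the big box
  have e1 : ∑ x ∈ bl 0 (2 * N), ∑ y ∈ bl 0 (2 * N), ub N x * ub N y * K x y =
      ∑ x ∈ bl 0 (4 * N), ∑ y ∈ bl 0 (4 * N), ub N x * ub N y * K x y := by
    rw [← sum_subset hsub fun x _ hx => sum_eq_zero fun y _ => by rw [hu0 x hx]; ring]
    exact sum_congr rfl fun x _ => sum_subset hsub fun y _ hy => by rw [hu0 y hy]; ring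
  have e2 : ∑ x ∈ bl 0 (4 * N), ub N x ^ 2 * ∑ y ∈ bl 0 (4 * N), ch N y * K x y =
      ∑ x ∈ bl 0 (2 * N), ub N x ^ 2 * ∑ y ∈ bl 0 (4 * N), ch N y * K x y :=
    (sum_subset hsub fun x _ hx => by rw [hu0 x hx]; ring).symm
  have e3 : ∑ x ∈ bl 0 (4 * N), ∑ y ∈ bl 0 (4 * N), K x y * Ps (ub N) (ch N) x y =
      ∑ x ∈ bl 0 (3 * N), ∑ w ∈ bl 0 l, K x (x + w) * (ub N (x + w) - ub N x) ^ 2 +
      ∑ x ∈ bl 0 (4 * N), ∑ y ∈ (bl 0 (4 * N)).filter (fun y => ¬ nr (y - x) ≤ l),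
        K x y * Ps (ub N) (ch N) x y := by
    rw [← near_eq hb h K (hlL.trans hLN), ← sum_add_distrib]
    exact sum_congr rfl fun x _ => (sum_filter_add_sum_filter_not _ _ _).symm
  -- first term
  have b1 : |∑ x ∈ bl 0 (2 * N), ub N x ^ 2 * ∑ y ∈ bl 0 (4 * N), ch N y * K x y| ≤
      25 * ((N : ℝ) ^ 2 * η₁) := by
    refine (abs_sum_le_sum_abs _ _).trans ((sum_le_card_nsmul _ _ η₁ fun x hx => ?_).trans ?_)
    · rw [abs_mul, abs_pow]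
      have a := pow_le_one₀ (n := 2) (abs_nonneg _) (h.u1 x)
      have b := h2 x hx
      calc _ ≤ 1 * η₁ := mul_le_mul a b (abs_nonneg _) zero_le_one
        _ = η₁ := one_mul _
    · rw [nsmul_eq_mul, hcard, ← mul_assoc]
      refine mul_le_mul_of_nonneg_right ?_ hη₁
      push_cast
      nlinarith
  -- near term
  have b2 : |∑ w ∈ bl 0 l, k w * UU N w -
      ∑ x ∈ bl 0 (3 * N), ∑ w ∈ bl 0 l, K x (x + w) * (ub N (x + w) - ub N x) ^ 2| ≤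
      9 * C * ((l : ℝ) ^ 4 * η₂) := by
    rw [sum_comm, ← sum_sub_distrib]
    refine (abs_sum_le_sum_abs _ _).trans
      ((sum_le_card_nsmul _ _ (η₂ * (C * (l : ℝ) ^ 2)) fun w hw => ?_).trans ?_)
    · have hw' : (nr w : ℝ) ≤ l := by exact_mod_cast (mem0 hb).1 hw
      have hU : UU N w ≤ C * (l : ℝ) ^ 2 := (hB3 w).2.trans (by gcongr)
      refine le_trans ?_ (mul_le_mul_of_nonneg_left hU hη₂)
      simp only [UU]
      rw [mul_sum, mul_sum, ← sum_sub_distrib]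
      refine (abs_sum_le_sum_abs _ _).trans (sum_le_sum fun x hx => ?_)
      rw [← sub_mul, abs_mul, abs_of_nonneg (sq_nonneg (ub N (x + w) - ub N x)), abs_sub_comm]
      exact mul_le_mul_of_nonneg_right (h3 x hx w hw) (sq_nonneg _)
    · rw [nsmul_eq_mul, hcard]
      have a : (2 * (l : ℝ) + 1) ^ 2 ≤ 9 * (l : ℝ) ^ 2 := by nlinarith
      calc _ ≤ 9 * (l : ℝ) ^ 2 * (η₂ * (C * (l : ℝ) ^ 2)) := by gcongr
        _ = _ := by ring
  -- far term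
  have q1 : 0 ≤ (l : ℝ) ^ (4 - p) := by positivity
  have q2 : 0 ≤ (N : ℝ) ^ 4 * (L : ℝ) ^ (-p) := by positivity
  have b3 : |∑ x ∈ bl 0 (4 * N), ∑ y ∈ (bl 0 (4 * N)).filter (fun y => ¬ nr (y - x) ≤ l),
        K x y * Ps (ub N) (ch N) x y| ≤
      81 * (C ^ 2 + 4) * (8 * |C₁| * (A * (l : ℝ) ^ (4 - p)) +
        8 * 8 ^ 4 * (A * (N : ℝ) ^ 4 * (L : ℝ) ^ (-p))) := by
    have hr := rad_le (N := N) hp hC₁ hl (hl.trans hlL)
    have hr' : ∑ t ∈ Ioc l (8 * N), 8 * (t : ℝ) * ((1 + (min t L : ℕ) : ℝ) ^ (-p) * (t : ℝ) ^ 2) ≤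
        8 * |C₁| * (l : ℝ) ^ (4 - p) + 8 * 8 ^ 4 * ((N : ℝ) ^ 4 * (L : ℝ) ^ (-p)) := by
      refine hr.trans ?_
      have := le_abs_self C₁
      gcongr
    refine (abs_sum_le_sum_abs _ _).trans ((sum_le_card_nsmul _ _
      (A * (C ^ 2 + 4) / (N : ℝ) ^ 2 *
        (8 * |C₁| * (l : ℝ) ^ (4 - p) + 8 * 8 ^ 4 * ((N : ℝ) ^ 4 * (L : ℝ) ^ (-p)))) fun x hx => ?_).trans ?_)
    · refine (far_le hb h hN hK hA0 (g := fun t => (1 + (min t L : ℕ) : ℝ) ^ (-p))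
        (fun t => by positivity) h1 hs l hx).trans ?_
      exact mul_le_mul_of_nonneg_left hr' (by positivity)
    · rw [nsmul_eq_mul, hcard]
      have a : (2 * ((4 * N : ℕ) : ℝ) + 1) ^ 2 ≤ 81 * (N : ℝ) ^ 2 := by push_cast; nlinarith
      calc _ ≤ 81 * (N : ℝ) ^ 2 * (A * (C ^ 2 + 4) / (N : ℝ) ^ 2 *
            (8 * |C₁| * (l : ℝ) ^ (4 - p) + 8 * 8 ^ 4 * ((N : ℝ) ^ 4 * (L : ℝ) ^ (-p)))) := by gcongr
        _ = _ := by field_simp
  rw [e1, ident _ K hK (ub N) (ch N), e2, e3]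
  exact fin_le (by linarith) (abs_nonneg _) (by positivity) (by positivity) (by positivity) (by positivity)
    (by positivity) b1 b2 b3

end Crest.Agent.T145.Df
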