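import Crest.Agent.T145.DfDef_70
import Crest.Agent.T145.FlFus_4
import Crest.Agent.T145.OmB_11
import Crest.Agent.T145.NcT4Def_78
import Crest.Agent.T145.KrKsh_77

/-!
# Row 145, module Df (helper70): the regime from T4, K-ODD and K-EVEN
-/

set_option autoImplicit false

namespace Crest.Agent.T145.Df

open Finset Filter Topology Nc Real

namespace Reg70

/-- iteration of a one step contraction -/
theorem iter {f : ℕ → ℝ} {B lo R : ℕ} {a : ℝ} (hB : 2 ≤ B) (ha : 0 ≤ a) (ha3 : a ≤ 3) (hlo : 1 ≤ lo)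
    (h0 : ∀ ρ, 0 ≤ f ρ) (h1 : ∀ ρ, lo ≤ ρ → B * ρ ≤ R → (B : ℝ) ^ a * f (B * ρ) ≤ f ρ)
    (h2 : ∀ ρ, lo ≤ ρ → ρ ≤ R → f R ≤ 2 * f ρ) (hR : lo ≤ R) :
    f R ≤ 2 * (B : ℝ) ^ 3 * ((lo : ℝ) / R) ^ a * f lo := by
  have B0 : (0 : ℝ) < B := by exact_mod_cast (by omega : 0 < B)
  have B1 : (1 : ℝ) ≤ B := by exact_mod_cast (by omega : 1 ≤ B)
  have R0 : (0 : ℝ) < R := by exact_mod_cast (by omega : 0 < R)
  have key : ∀ j r : ℕ, lo ≤ r → r ≤ R → R < B ^ j * r →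
      f R ≤ 2 * (B : ℝ) ^ 3 * ((r : ℝ) / R) ^ a * f r := by
    intro j
    induction j with
    | zero => intro r _ h h'; simp only [pow_zero, one_mul] at h'; omega
    | succ j ih =>
      intro r hr hrR hj
      have r0 : (0 : ℝ) < r := by exact_mod_cast (by omega : 0 < r)
      by_cases hc : B * r ≤ R
      · have hle : r ≤ B * r := Nat.le_mul_of_pos_left _ (by omega)
        have := ih (B * r) (hr.trans hle) hc (by rwa [pow_succ, mul_assoc] at hj)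
        refine this.trans ?_
        have e : (((B * r : ℕ) : ℝ) / R) ^ a = ((r : ℝ) / R) ^ a * (B : ℝ) ^ a := by
          rw [← mul_rpow (by positivity) B0.le]; congr 1; push_cast; ring
        rw [e, ← mul_assoc, mul_assoc _ ((B : ℝ) ^ a)]
        exact mul_le_mul_of_nonneg_left (h1 r hr hc) (by positivity)
      · refine (h2 r hr hrR).trans ?_
        refine mul_le_mul_of_nonneg_right ?_ (h0 r)
        have l1 : (B : ℝ)⁻¹ ≤ (r : ℝ) / R := by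
          rw [inv_eq_one_div, div_le_div_iff₀ B0 R0]
          have : (R : ℝ) ≤ B * r := by exact_mod_cast (by omega : R ≤ B * r)
          linarith
        have l2 : ((B : ℝ)⁻¹) ^ (3 : ℝ) ≤ ((r : ℝ) / R) ^ a :=
          (rpow_le_rpow_of_exponent_ge (by positivity) (inv_le_one_of_one_le₀ B1) ha3).trans
            (rpow_le_rpow (by positivity) l1 ha)
        rw [show (3 : ℝ) = ((3 : ℕ) : ℝ) by norm_num, rpow_natCast, inv_pow] at l2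
        have := mul_le_mul_of_nonneg_left l2 (by positivity : 0 ≤ (B : ℝ) ^ 3)
        rw [mul_inv_cancel₀ (by positivity)] at this
        rw [mul_assoc]
        linarith
  refine key R lo le_rfl hR ?_
  have := Nat.lt_pow_self (n := R) (show 1 < B by omega)
  calc R < B ^ R := this
    _ ≤ B ^ R * lo := Nat.le_mul_of_pos_right _ (by omega)

variable {Λ : Lat} {z : Pt} {c : ℕ} {F X Y : Cfg Pt → ℝ}

theorem nm_tri (hΛ : Λ.Ok) (hI : In Λ z c X) {K : ℝ} (hY : ∀ s, |Y s| ≤ K) :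
    Nm Λ z c X ≤ Nm Λ z c (fun s => X s - Y s) + K := by
  have hW := (hΛ.cen_Nr_bl (self_mem_bl z c)).wt
  have hJ : Ig ((Λ.Nr (bl z c) z).W 0) fun s => |X s - Y s| :=
    (Ig.sub hI (hW.ig_bdd hY)).abs hW.nonneg
  have := Ex_add hJ (hW.ig_const K)
  rw [hW.ex_const] at this
  refine le_trans ?_ this.le
  refine Ex_mono' hW.nonneg (Ig.abs hW.nonneg hI) (hJ.add (hW.ig_const K)) fun s _ => ?_
  have := abs_add_le (X s - Y s) (Y s)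
  rw [sub_add_cancel] at this
  linarith [hY s]

theorem d4_trl (h : D4 z F) : D4 0 (trl (-z) F) := fun s => by
  have e1 : mapH (Equiv.subRight (-z)) (mapH (rotZ 0) s) =
      mapH (rotZ z) (mapH (Equiv.subRight (-z)) s) := by
    ext y; simp only [mapH_apply]; congr 1; ext <;> simp [rotZ] <;> ring
  have e2 : mapH (Equiv.subRight (-z)) (mapH (swpZ 0) s) =
      mapH (swpZ z) (mapH (Equiv.subRight (-z)) s) := by
    ext y; simp only [mapH_apply]; congr 1; ext <;> simp [swpZ] <;> ring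
  simp only [trl, e1, e2, (h _).1, (h _).2, and_self]

theorem odd_trl (h : OddF F) (z : Pt) : OddF (trl z F) := fun s => by
  simp only [trl, map_neg, h _]

theorem even_trl (h : EvenF F) (z : Pt) : EvenF (trl z F) := fun s => by
  simp only [trl, map_neg, h _]

theorem ins_trl {r : ℕ} (h : Ins z r F) : Ins 0 r (trl (-z) F) := by
  simpa using Om.ins_trl h (-z)

theorem nu_trl (hΛ : Λ.Ok) (W : ℕ) (z : Pt) (r : ℕ) (F : Cfg Pt → ℝ) :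
    nu Λ W 0 r (trl (-z) F) = nu Λ W z r F := by
  simp only [nu, Om.St_trl hΛ, Om.Nm_trl hΛ, sub_neg_eq_add, zero_add]

theorem two_trl (hΛ : Λ.Ok) (z : Pt) (r R c : ℕ) (F : Cfg Pt → ℝ) (e : ℝ) :
    Nm Λ 0 c (fun s => St Λ 0 R (St Λ 0 r (trl (-z) F)) s - e) =
      Nm Λ z c fun s => St Λ z R (St Λ z r F) s - e := by
  have := Om.Nm_trl hΛ 0 (-z) c fun s => St Λ z R (St Λ z r F) s - e
  rw [sub_neg_eq_add, zero_add] at this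
  rw [← this]
  simp only [Om.St_trl hΛ, sub_neg_eq_add, zero_add]
  rfl

/-- the one step contractions at the origin -/
structure Core (Λ : Lat) (W B r₀ L : ℕ) (θ θ' : ℝ) : Prop where
  odd : ∀ (ρ : ℕ) (F : Cfg Pt → ℝ), r₀ ≤ ρ → B * ρ ≤ L → Ins 0 ρ F → OddF F → D4 0 F →
    Nm Λ 0 (W * (B * ρ)) (St Λ 0 (B * ρ) (St Λ 0 ρ F)) ≤ θ * nu Λ W 0 ρ F
  even : ∀ (ρ : ℕ) (F : Cfg Pt → ℝ), r₀ ≤ ρ → B * ρ ≤ L → Ins 0 ρ F → EvenF F →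
    ∃ e : ℝ, Nm Λ 0 (W * (B * ρ)) (fun s => St Λ 0 (B * ρ) (St Λ 0 ρ F) s - e) ≤ θ' * nu Λ W 0 ρ F

section gd
variable {W r₀ L r R : ℕ} (hΛ : Λ.Ok) (hG : Gd Λ (1 / 400) W r₀ (W * L))
include hΛ hG

omit hΛ in
theorem gam_two (h0 : r₀ ≤ r) (hL : r ≤ W * L) : gam Λ r (W * r) ≤ 2 :=
  (hG.2.2 r h0 hL).trans (by norm_num)

omit hΛ in
theorem rg_le (h0 : r₀ ≤ r) : r + 2 * Λ.rg ≤ W * r := by
  have h2 : 2 * r ≤ W * r := Nat.mul_le_mul_right _ hG.1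
  have := hG.2.1
  omega

omit hΛ in
theorem le_W (r : ℕ) : r ≤ W * r := Nat.le_mul_of_pos_left _ (by have := hG.1; omega)

theorem up (h0 : r₀ ≤ r) (hr : r ≤ R) (hL : R ≤ L) (hF : Ins z r F) :
    nu Λ W z R F ≤ 2 * nu Λ W z r F := by
  have h1 := rg_le hG h0
  have h2 := rg_le hG (h0.trans hr)
  refine (FlF4.nu_up hΛ (q := r) (r := r) le_rfl h1 (Nat.mul_le_mul_left W hr) hr (by omega)
    (hF.1.mono (bl_mono z (by omega))) (FlF4.In_tame hΛ _ _ hF.2)).trans ?_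
  exact mul_le_mul_of_nonneg_right (gam_two hG h0 ((hr.trans hL).trans (le_W hG L)))
    (FlF4.nu_nonneg hΛ _ _ _ _)

theorem two (h0 : r₀ ≤ r) (hr : r ≤ R) (hF : Ins z r F) :
    DepG (bl z (R + Λ.rg)) (St Λ z R (St Λ z r F)) ∧ In Λ z (W * R) (St Λ z R (St Λ z r F)) ∧
      Nm Λ z (W * R) (St Λ z R (St Λ z r F)) = nu Λ W z R F := by
  have h2 := rg_le hG (h0.trans hr)
  have d : ∀ p, r + Λ.rg ≤ p → DepG (bl z p) F := fun p hp => hF.1.mono (bl_mono z (by omega))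
  have d' : ∀ p, r + Λ.rg ≤ p → DepG (bl z p) (St Λ z r F) := fun p hp => FlF4.depG_St hΛ (d p hp) hp
  have i := FlF4.In_tame hΛ z (W * R) hF.2
  exact ⟨FlF4.depG_St hΛ (d' _ (by omega)) le_rfl,
    FlF4.In_St hΛ (d' _ (by omega)) (by omega) (FlF4.In_St hΛ (d _ (by omega)) (by omega) i),
    FlF4.nu_St hΛ (by omega) hr (d _ (by omega)) i⟩

/-- the constant is controlled when the mean vanishes in an ambient model -/
theorem cst_le (h0 : r₀ ≤ r) (hr : r ≤ R) (hL : R ≤ L) (hF : Ins z r F) {m : Mdl Pt}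
    (hm : Amb Λ m (bl z (W * R))) (hE : Ex (m.W 0) F = 0) (e : ℝ) :
    nu Λ W z R F ≤ 3 * Nm Λ z (W * R) fun s => St Λ z R (St Λ z r F) s - e := by
  obtain ⟨h1, h2, h3⟩ := two hΛ hG h0 hr hF
  have h4 := rg_le hG (h0.trans hr)
  have hW := hm.ctr.wt hm.anch 0
  have hN := (hΛ.cen_Nr_bl (self_mem_bl z (W * R))).wt
  have a1 : Amb Λ m (bl z R) := FlF4.amb_mono hm (bl_mono z (by omega))
  have a2 : Amb Λ m (bl z r) := FlF4.amb_mono hm (bl_mono z (by omega))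
  have i0 : Ig (m.W 0) F := FlF4.ig_tame hm.ctr hm.anch hF.2
  have i1 : Ig (m.W 0) (St Λ z r F) := by
    rw [FlF4.St_cE hΛ a2]; exact FlF4.ig_cE hm.ctr hm.anch a2.sub i0
  have i2 : Ig (m.W 0) (St Λ z R (St Λ z r F)) := by
    rw [FlF4.St_cE hΛ a1]; exact FlF4.ig_cE hm.ctr hm.anch a1.sub i1
  have e2 : Ex (m.W 0) (St Λ z R (St Λ z r F)) = 0 := by
    rw [FlF4.St_cE hΛ a1, FlF4.ex_cE hm.ctr hm.anch a1.sub i1, FlF4.St_cE hΛ a2,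
      FlF4.ex_cE hm.ctr hm.anch a2.sub i0, hE]
  have k := (FlF4.ld1 Λ hΛ).1 Unit m univ (fun _ => z) (fun _ => R) (fun _ => W * R)
    (fun _ s => St Λ z R (St Λ z r F) s - e) (fun i _ j _ h => absurd (Subsingleton.elim i j) h)
    hm.ctr hm.anch fun _ _ => ⟨hm, h4, h1.comp fun t => t - e, Ig.sub h2 (hN.ig_const e)⟩
  simp only [univ_unique, prod_singleton] at k
  have e3 : Ex (m.W 0) (fun s => St Λ z R (St Λ z r F) s - e) = -e := by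
    rw [Ex_sub i2 (hW.ig_const e), e2, hW.ex_const, zero_sub]
  have k1 := abs_Ex_le hW.nonneg k.1
  rw [e3, abs_neg] at k1
  have k2 := mul_le_mul_of_nonneg_right (gam_two hG (h0.trans hr) (hL.trans (le_W hG L)))
    (L37.Nm_nonneg hΛ z (W * R) fun s => St Λ z R (St Λ z r F) s - e)
  have k3 := nm_tri hΛ h2 (Y := fun _ => e) (K := |e|) fun _ => le_rfl
  rw [h3] at k3
  linarith [k.2]

end gd

theorem rg_of_core (hΛ : Λ.Ok) (P : Par) {B L : ℕ} {θ θ' : ℝ} (hB : 2 ≤ B) (hα : P.α ≤ 3)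
    (hC : P.C = 2 * (B : ℝ) ^ 3) (hG : Gd Λ (1 / 400) P.W P.r₀ (P.W * L))
    (h : Core Λ P.W B P.r₀ L θ θ') (h1 : (B : ℝ) ^ P.α * θ ≤ 1) (h2 : (B : ℝ) ^ P.β * (3 * θ') ≤ 1) :
    Rg Λ P L := by
  have r1 : 1 ≤ P.r₀ := by have := hG.2.1; have := hΛ.one_le_rg; omega
  have n0 : ∀ z ρ F, 0 ≤ nu Λ P.W z ρ F := fun z ρ F => FlF4.nu_nonneg hΛ _ _ _ _
  have mo : ∀ {z r ρ F}, Ins z r F → r ≤ ρ → Ins z ρ F := fun {z _ _ _} hF h =>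
    ⟨hF.1.mono (bl_mono z h), hF.2⟩
  have bl' : ∀ ρ, ρ ≤ B * ρ := fun ρ => Nat.le_mul_of_pos_left _ (by omega)
  have fin : ∀ {a x y t : ℝ}, (B : ℝ) ^ a * t ≤ 1 → 0 ≤ y → x ≤ t * y → (B : ℝ) ^ a * x ≤ y :=
    fun {a x y t} k1 k2 k3 => (mul_le_mul_of_nonneg_left k3 (by positivity)).trans (by
      rw [← mul_assoc]; exact mul_le_of_le_one_left k2 k1)
  refine ⟨hG, fun z r R F h0 hr hL hF ho hd => ?_, fun z r R F m h0 hr hL hF he _ hm hE => ?_⟩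
  · rw [hC]
    refine iter (f := fun ρ => nu Λ P.W z ρ F) hB (by linarith [P.hα]) hα (r1.trans h0) (fun ρ => n0 _ _ _)
      (fun ρ k1 k2 => fin h1 (n0 _ _ _) ?_)
      (fun ρ k1 k2 => up hΛ hG (h0.trans k1) k2 hL (mo hF k1)) hr
    have := h.odd ρ _ (h0.trans k1) (k2.trans hL) (ins_trl (mo hF k1)) (odd_trl ho _) (d4_trl hd)
    rwa [(two hΛ hG (h0.trans k1) (bl' ρ) (ins_trl (mo hF k1))).2.2, nu_trl hΛ, nu_trl hΛ] at this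
  · rw [hC]
    refine iter (f := fun ρ => nu Λ P.W z ρ F) hB (by linarith [P.hβ]) (by linarith [P.hβ'])
      (r1.trans h0) (fun ρ => n0 _ _ _) (fun ρ k1 k2 => fin h2 (n0 _ _ _) ?_)
      (fun ρ k1 k2 => up hΛ hG (h0.trans k1) k2 hL (mo hF k1)) hr
    obtain ⟨e, this⟩ := h.even ρ _ (h0.trans k1) (k2.trans hL) (ins_trl (mo hF k1)) (even_trl he _)
    rw [two_trl hΛ, nu_trl hΛ] at this
    have k3 := cst_le hΛ hG (h0.trans k1) (bl' ρ) (k2.trans hL) (mo hF k1)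
      (FlF4.amb_mono hm (bl_mono z (Nat.mul_le_mul_left _ k2))) hE e
    linarith

/-- the condenser of one step -/
def gm (W₀ W ρ : ℕ) : Kr.Gm := ⟨W₀ * ρ, 2 * W₀ ^ 2 * ρ, W * (2 * W₀ ^ 2) * ρ, W₀ * (W * (2 * W₀ ^ 2) * ρ)⟩

theorem gm_ok {W₀ W ρ : ℕ} (h0 : 2 ≤ W₀) (hW : 1024 ≤ W) (hρ : 64 ≤ ρ) : (gm W₀ W ρ).Ok W := by
  have h1 : W₀ * ρ ≤ W₀ ^ 2 * ρ := Nat.mul_le_mul_right _ (Nat.le_self_pow two_ne_zero _)
  have h2 : 2 * ρ ≤ W₀ * ρ := Nat.mul_le_mul_right _ h0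
  refine ⟨by exact_mod_cast hW, ?_, ?_, ?_, ?_, Nat.mul_le_mul_right _ h0⟩
  · change 2 * (W₀ * ρ) ≤ 2 * W₀ ^ 2 * ρ
    rw [mul_assoc]; omega
  · change 64 ≤ 2 * W₀ ^ 2 * ρ
    rw [mul_assoc]; omega
  · simp only [gm]; push_cast; exact le_of_eq (by ring)
  · simp only [gm]; push_cast
    have : (0 : ℝ) ≤ W * (2 * W₀ ^ 2) * ρ := by positivity
    nlinarith

theorem gm_adm (hΛ : Λ.Ok) {W₀ W r₀ L ρ : ℕ} (hG : Gd Λ (1 / 400) W₀ r₀ (W₀ * L)) (h0 : r₀ ≤ ρ)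
    (hL : ρ ≤ L) (hF : Ins 0 ρ F) : (gm W₀ W ρ).Adm Λ (St Λ 0 ρ F) := by
  have h1 : 2 * (W₀ * ρ) ≤ W₀ * (W₀ * ρ) := Nat.mul_le_mul_right _ hG.1
  have h2 : 2 * ρ ≤ W₀ * ρ := Nat.mul_le_mul_right _ hG.1
  have h3 := hG.2.1
  have e : 2 * W₀ ^ 2 * ρ = 2 * (W₀ * (W₀ * ρ)) := by ring
  refine ⟨⟨ρ, rg_le hG h0, gam_two hG h0 (hL.trans (le_W hG L)),
    FlF4.depG_St hΛ (hF.1.mono (bl_mono _ (by omega))) le_rfl⟩, ?_, ?_, ?_⟩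
  · change W₀ * ρ + 3 * Λ.rg ≤ 2 * W₀ ^ 2 * ρ
    omega
  · change gam Λ (W₀ * ρ) (2 * W₀ ^ 2 * ρ - Λ.rg) ≤ 2
    exact (FlF4.gam_le hΛ hG (a := W₀ * ρ) (by omega) (Nat.mul_le_mul_left _ hL) le_rfl
      (by omega)).trans (by norm_num)
  · change In Λ 0 (W₀ * ρ) _
    exact FlF4.In_St hΛ (hF.1.mono (bl_mono _ (by omega))) (by omega) (FlF4.In_tame hΛ _ _ hF.2)

theorem lam_bd {C cp g g₂ W p : ℝ} (C0 : 0 ≤ C) (W1 : 1 ≤ W) (g0 : 0 ≤ g) (hg : g ≤ g₂) (hp : p ≤ π * g)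
    (h1 : log W / (2 * π) - C ≤ cp⁻¹) :
    exp (-(2 * π ^ 2 / (cp / g))) ≤ exp (2 * π ^ 2 * g₂ * C) * W ^ (-p) := by
  have p0 := pi_pos
  have e1 : 2 * π ^ 2 / (cp / g) = π * g * (2 * π * cp⁻¹) := by
    rw [div_div_eq_mul_div, div_eq_mul_inv]; ring
  have e2 : log W - 2 * π * C ≤ 2 * π * cp⁻¹ := by
    have := mul_le_mul_of_nonneg_left h1 (by positivity : 0 ≤ 2 * π)
    rwa [mul_sub, mul_div_cancel₀ _ (by positivity)] at this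
  have e3 := mul_le_mul_of_nonneg_left e2 (by positivity : 0 ≤ π * g)
  have e4 := mul_le_mul_of_nonneg_right hp (log_nonneg W1)
  have e5 := mul_le_mul_of_nonneg_right hg (by positivity : 0 ≤ 2 * π ^ 2 * C)
  rw [rpow_def_of_pos (by linarith), ← exp_add, exp_le_exp, e1]
  nlinarith

theorem num {W b k A : ℝ} (W1 : 1 ≤ W) (b1 : 1 ≤ b) (k0 : 0 < k) (k4 : k ≤ 1 / 4) (A0 : 0 ≤ A)
    (h : (3 + 4 * A) * b ^ (3 : ℝ) ≤ W ^ (k / 2)) :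
    (W * b) ^ (2 + 2 * k) * (W ^ (-3 + 3 * (k / 6)) + 4 * (A * W ^ (-(2 + 3 * k)))) ≤ 1 ∧
      (W * b) ^ (2 - k) * (3 * W ^ (-2 + 3 * (k / 6))) ≤ 1 := by
  have W0 : 0 < W := by linarith
  have b0 : 0 < b := by linarith
  have l : ∀ {x y : ℝ}, x + y ≤ -(k / 2) → W ^ x * W ^ y ≤ W ^ (-(k / 2)) := fun {x y} h => by
    rw [← rpow_add W0]; exact rpow_le_rpow_of_exponent_le W1 h
  have hb : ∀ {x : ℝ}, x ≤ 3 → b ^ x ≤ b ^ (3 : ℝ) := fun h => rpow_le_rpow_of_exponent_le b1 h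
  have t0 : 0 < W ^ (-(k / 2)) := by positivity
  have c0 : 0 < b ^ (3 : ℝ) := by positivity
  have m : (3 + 4 * A) * b ^ (3 : ℝ) * W ^ (-(k / 2)) ≤ 1 := by
    refine (mul_le_mul_of_nonneg_right h t0.le).trans_eq ?_
    rw [← rpow_add W0, add_neg_cancel, rpow_zero]
  constructor
  · rw [mul_rpow W0.le b0.le]
    have l1 := l (x := 2 + 2 * k) (y := -3 + 3 * (k / 6)) (by linarith)
    have l2 := l (x := 2 + 2 * k) (y := -(2 + 3 * k)) (by linarith)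
    have l3 : W ^ (2 + 2 * k) * (W ^ (-3 + 3 * (k / 6)) + 4 * (A * W ^ (-(2 + 3 * k)))) ≤
        (3 + 4 * A) * W ^ (-(k / 2)) := by nlinarith [mul_le_mul_of_nonneg_left l2 A0]
    calc _ = b ^ (2 + 2 * k) * (W ^ (2 + 2 * k) * (W ^ (-3 + 3 * (k / 6)) +
            4 * (A * W ^ (-(2 + 3 * k))))) := by ring
      _ ≤ b ^ (3 : ℝ) * ((3 + 4 * A) * W ^ (-(k / 2))) :=
          mul_le_mul (hb (by linarith)) l3 (by positivity) c0.le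
      _ ≤ 1 := by linarith
  · rw [mul_rpow W0.le b0.le]
    have l1 := l (x := 2 - k) (y := -2 + 3 * (k / 6)) (by linarith)
    have l3 : W ^ (2 - k) * (3 * W ^ (-2 + 3 * (k / 6))) ≤ (3 + 4 * A) * W ^ (-(k / 2)) := by
      nlinarith [mul_nonneg A0 t0.le]
    calc _ = b ^ (2 - k) * (W ^ (2 - k) * (3 * W ^ (-2 + 3 * (k / 6)))) := by ring
      _ ≤ b ^ (3 : ℝ) * ((3 + 4 * A) * W ^ (-(k / 2))) :=
          mul_le_mul (hb (by linarith)) l3 (by positivity) c0.le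
      _ ≤ 1 := by linarith

theorem odd_step (hΛ : Λ.Ok) {G : Kr.Gm} {g t l : ℝ} (hI : In Λ 0 G.R₂ (G.T Λ F))
    (a1 : |G.E Λ fun t => F t * Kr.sn G.eq t| ≤ 2 * G.N₁ Λ F)
    (a2 : G.N₂ Λ (fun s => G.T Λ F s - 2 * G.lam g * G.E Λ (fun t => F t * Kr.sn G.eq t) *
      Kr.sn (Kr.hm 0 G.R) s) ≤ t * G.N₁ Λ F) (hl : G.lam g ≤ l) :
    G.N₂ Λ (G.T Λ F) ≤ (t + 4 * l) * G.N₁ Λ F := by
  have l0 : 0 ≤ G.lam g := (exp_pos _).le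
  have n0 : 0 ≤ G.N₁ Λ F := L37.Nm_nonneg hΛ _ _ _
  have tri := nm_tri hΛ hI (K := 2 * G.lam g * (2 * G.N₁ Λ F))
    (Y := fun s => 2 * G.lam g * G.E Λ (fun t => F t * Kr.sn G.eq t) * Kr.sn (Kr.hm 0 G.R) s) fun s => by
      rw [abs_mul, abs_mul, abs_of_nonneg (by positivity : 0 ≤ 2 * G.lam g)]
      exact (mul_le_of_le_one_right (by positivity) (abs_sin_le_one _)).trans
        (mul_le_mul_of_nonneg_left a1 (by positivity))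
  refine tri.trans ((add_le_add a2 le_rfl).trans ?_)
  nlinarith [mul_le_mul_of_nonneg_right hl n0]

theorem low_of (hΛ : Λ.Ok) {C g₀ δ : ℝ} {l : ℕ} (C1 : 1 ≤ C) (c4 : 1 / Λ.e0 ≤ C) (g0 : 0 < g₀)
    (e2 : δ ≤ g₀ / 2) (h : |Λ.gN l - g₀| ≤ δ) : g₀ / (2 * C) ≤ Λ.tN l := by
  have := (abs_le.1 h).1
  have h1 : 1 ≤ C * Λ.e0 := (div_le_iff₀ hΛ.e0_pos).1 c4
  rw [← hΛ.gN_mul, div_le_iff₀ (by positivity)]
  have h2 : g₀ / 2 ≤ Λ.gN l := by linarith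
  nlinarith [mul_le_mul h2 h1 zero_le_one (by linarith)]

theorem drop_of (hΛ : Λ.Ok) {C d δ : ℝ} {l l' : ℕ} (C1 : 1 ≤ C) (c3 : Λ.e0 ≤ C) (δ0 : 0 < δ)
    (e3 : δ ≤ d / (2 * C)) (h : Λ.gN l - Λ.gN l' ≤ 2 * δ) : Λ.tN l - Λ.tN l' ≤ d := by
  rw [← hΛ.gN_mul, ← hΛ.gN_mul, ← sub_mul]
  have := (le_div_iff₀ (by positivity)).1 e3
  linarith [mul_le_mul h c3 hΛ.e0_pos.le (by positivity)]

theorem g_of {k g₀ g δ : ℝ} (k0 : 0 < k) (hk : 4 * k ≤ π * g₀ - 2) (e1 : δ ≤ k / 4) (h : -δ ≤ g - g₀) :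
    2 + 3 * k ≤ π * g := by
  nlinarith [pi_le_four, pi_pos]

theorem dyad {R : ℕ} (hR : 1 ≤ R) : ∃ j : ℕ, R ≤ 2 ^ j ∧ 2 ^ j ≤ 2 * R :=
  ⟨Nat.log 2 R + 1, (Nat.lt_pow_succ_log_self one_lt_two R).le, by
    rw [pow_succ']; exact Nat.mul_le_mul_left _ (Nat.pow_log_le_self 2 (by omega))⟩

end Reg70

open Reg70 in
theorem regStmt (hO : Kr.KOddStmt) (hE : Kr.KEvenStmt) (hG : GdStmt) : RegStmt := by
  intro F g₀ hg
  have p0 := pi_pos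
  have g0 : 0 < g₀ := lt_trans (by positivity) hg
  have hκ : 0 < π * g₀ - 2 := by have := (div_lt_iff₀ p0).1 hg; linarith
  obtain ⟨k, k0, k4, hk⟩ : ∃ k : ℝ, 0 < k ∧ k ≤ 1 / 4 ∧ 4 * k ≤ π * g₀ - 2 :=
    ⟨min (π * g₀ - 2) 1 / 4, by positivity, by linarith [min_le_right (π * g₀ - 2) 1],
      by linarith [min_le_left (π * g₀ - 2) 1]⟩
  obtain ⟨C, C1, hC⟩ := F.exists_bound
  obtain ⟨Cc, Cc0, hcap⟩ := Kr.K77.cap_bd
  have t0 : 0 < g₀ / (2 * C) := by positivity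
  obtain ⟨W', r₁, c, c1, hgd⟩ := hG F _ (1 / 400) t0 (by norm_num)
  obtain ⟨W₁, hW₁⟩ := hO F _ (k / 6) t0 (by positivity) (by linarith)
  obtain ⟨W₂, hW₂⟩ := hE F _ (k / 6) t0 (by positivity) (by linarith)
  obtain ⟨W₀, W2, hW₀⟩ : ∃ W₀ : ℕ, 2 ≤ W₀ ∧ W' ≤ W₀ := ⟨max 2 W', le_max_left _ _, le_max_right _ _⟩
  set A := exp (2 * π ^ 2 * (g₀ + 1) * Cc) with hA
  obtain ⟨W, w1, w2, w3, w4⟩ : ∃ W : ℕ, 1024 ≤ W ∧ W₁ ≤ W ∧ W₂ ≤ W ∧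
      (3 + 4 * A) * ((2 * W₀ ^ 2 : ℕ) : ℝ) ^ (3 : ℝ) ≤ (W : ℝ) ^ (k / 2) := by
    have T := tendsto_natCast_atTop_atTop (R := ℝ)
    exact ((eventually_ge_atTop 1024).and ((T.eventually_ge_atTop W₁).and ((T.eventually_ge_atTop W₂).and
      (((tendsto_rpow_atTop (by positivity : 0 < k / 2)).comp T).eventually_ge_atTop _)))).exists
  obtain ⟨δ₁, d1, h₁⟩ := hW₁ W w2 2 one_le_two
  obtain ⟨δ₂, d2, h₂⟩ := hW₂ W w3 2 one_le_two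
  obtain ⟨d, d0, dl1, dl2⟩ : ∃ d : ℝ, 0 < d ∧ d ≤ δ₁ ∧ d ≤ δ₂ :=
    ⟨min δ₁ δ₂, lt_min d1 d2, min_le_left _ _, min_le_right _ _⟩
  obtain ⟨δ, δ0, e1, e2, e3⟩ : ∃ δ : ℝ, 0 < δ ∧ δ ≤ k / 4 ∧ δ ≤ g₀ / 2 ∧ δ ≤ d / (2 * C) :=
    ⟨min (k / 4) (min (g₀ / 2) (d / (2 * C))), by positivity, min_le_left _ _,
      (min_le_right _ _).trans (min_le_left _ _), (min_le_right _ _).trans (min_le_right _ _)⟩
  refine ⟨δ, δ0, ?_⟩
  filter_upwards [ev_sep_atTop d0] with l₀ hl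
  obtain ⟨r₀, q1, q2, q3, q4, q5⟩ : ∃ r₀ : ℕ, Sep d l₀ r₀ ∧ l₀ ≤ r₀ ∧ r₁ ≤ r₀ ∧ 64 ≤ r₀ ∧
      2 * F.base.rg ≤ r₀ :=
    (hl.and ((eventually_ge_atTop _).and ((eventually_ge_atTop _).and
      ((eventually_ge_atTop _).and (eventually_ge_atTop _))))).exists
  have b1 : 1 ≤ 2 * W₀ ^ 2 := by have := Nat.le_self_pow two_ne_zero W₀; omega
  have B2 : 2 ≤ W * (2 * W₀ ^ 2) := le_trans (by omega) (Nat.le_mul_of_pos_right W b1)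
  have W1 : (1 : ℝ) ≤ W := by exact_mod_cast (by omega : 1 ≤ W)
  have cW : 1 ≤ c * W₀ := Nat.mul_pos c1 (by omega)
  refine ⟨⟨W₀, r₀, 2 * ((W * (2 * W₀ ^ 2) : ℕ) : ℝ) ^ 3, 2 + 2 * k, 2 - k, ?_, by linarith, by linarith,
    by linarith, by linarith⟩, 4 * (c * W₀), by omega, fun Λ hΛ L fl => ?_⟩
  · have : (1 : ℝ) ≤ ((W * (2 * W₀ ^ 2) : ℕ) : ℝ) := by exact_mod_cast (by omega : 1 ≤ W * (2 * W₀ ^ 2))
    linarith [one_le_pow₀ (n := 3) this]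
  have ok := hΛ.ok
  obtain ⟨-, -, c3, c4, -⟩ := hC Λ hΛ
  have low : ∀ l, l₀ ≤ l → l ≤ 4 * (c * W₀) * L → g₀ / (2 * C) ≤ Λ.tN l := fun l k1 k2 =>
    low_of ok C1 c4 g0 e2 (fl l k1 k2)
  have gd : Gd Λ (1 / 400) W₀ r₀ (W₀ * L) := by
    refine ⟨W2, hΛ.rg_eq ▸ q5, fun r k1 k2 => ?_⟩
    have k3 : W₀ * L ≤ c * (W₀ * L) := Nat.le_mul_of_pos_left _ c1
    have := (hgd Λ hΛ).1 (c * (W₀ * L)) (low _ (by omega) (by rw [mul_assoc, mul_assoc]; omega))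
    rw [Nat.mul_div_cancel_left _ c1] at this
    exact FlF4.gam_le ok this (q3.trans k1) k2 le_rfl (Nat.mul_le_mul_right _ hW₀)
  have win : ∀ ρ, r₀ ≤ ρ → W * (2 * W₀ ^ 2) * ρ ≤ L → ρ ≤ L ∧ (2 + 3 * k ≤ π * Λ.gN l₀ ∧ 0 ≤ Λ.gN l₀ ∧
      Λ.gN l₀ ≤ g₀ + 1) ∧ ∃ L', Λ.Win (g₀ / (2 * C)) d l₀ L' ∧ (gm W₀ W ρ).At 2 L' := by
    intro ρ k1 k2
    have k3 : ρ ≤ W * (2 * W₀ ^ 2) * ρ := Nat.le_mul_of_pos_left _ (by omega)
    have k4 : L ≤ c * W₀ * L := Nat.le_mul_of_pos_left _ cW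
    obtain ⟨j, j1, j2⟩ := dyad (R := W * (2 * W₀ ^ 2) * ρ) (by omega)
    have f1 := abs_le.1 (fl l₀ le_rfl (by rw [mul_assoc]; omega))
    have f2 := abs_le.1 (fl (2 * 2 ^ j) (by omega) (by rw [mul_assoc]; omega))
    exact ⟨by omega, ⟨g_of k0 hk e1 f1.1, by linarith, by linarith⟩, 2 ^ j,
      ⟨⟨j, rfl⟩, q1.mono_right (by omega), low _ (by omega) (by rw [mul_assoc]; omega),
        drop_of ok C1 c3 δ0 e3 (by linarith)⟩, j1, by exact_mod_cast j2⟩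
  have nm := num W1 (b := ((2 * W₀ ^ 2 : ℕ) : ℝ)) (by exact_mod_cast b1) k0 k4 (exp_pos _).le w4
  rw [← Nat.cast_mul] at nm
  refine rg_of_core ok _ B2 (by dsimp only; linarith) rfl gd ⟨fun ρ H k1 k2 hH ho hd => ?_,
    fun ρ H k1 k2 hH he => ?_⟩ nm.1 nm.2
  · obtain ⟨k3, ⟨g1, g2, g3⟩, L', hw, ha⟩ := win ρ k1 k2
    have hk := gm_ok W2 w1 (q4.trans k1)
    obtain ⟨a1, a2⟩ := (h₁ Λ hΛ l₀ L' (hw.mono_d dl1) _ hk ha (by linarith)).2 _ (gm_adm ok gd k1 k3 hH)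
      (Om.odd_St ho _ _) (Om.d4_St ok hd _)
    have k4 : ρ ≤ W * (2 * W₀ ^ 2) * ρ := Nat.le_mul_of_pos_left _ (by omega)
    have k5 := odd_step (G := gm W₀ W ρ) ok (two ok gd k1 k4 hH).2.1 a1 a2
      (lam_bd Cc0 W1 g2 g3 g1 (hcap _ _ hk).1)
    exact k5
  · obtain ⟨k3, ⟨g1, -⟩, L', hw, ha⟩ := win ρ k1 k2
    exact ⟨_, ((h₂ Λ hΛ l₀ L' (hw.mono_d dl2) _ (gm_ok W2 w1 (q4.trans k1)) ha (by linarith)).2 _
      (gm_adm ok gd k1 k3 hH) (Om.even_St he _ _)).1⟩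

end Crest.Agent.T145.Df
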