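import Crest.Agent.T145.DfDef_70

/-!
# Row 145, module Df: REP (helper19)

`Df.repStmt`: the variance of the test function is read on the kernel at bounded distance.
-/

set_option autoImplicit false

namespace Crest.Agent.T145.Df

open Finset Filter Topology Nc

namespace Rep19

theorem amb_D {Λ : Lat} (h : Λ.Ok) {U D : Finset Pt} (hU : U ⊆ D) : Amb Λ (Λ.D D) U :=
  ⟨h.ctr_D D, h.anch_D D, hU, Lat.near_D hU⟩

theorem ev_pow (a : ℝ) {q ε : ℝ} (hq : q < 0) (hε : 0 < ε) :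
    ∀ᶠ n : ℕ in atTop, a * (n : ℝ) ^ q ≤ ε := by
  have h := ((tendsto_rpow_neg_atTop (neg_pos.2 hq)).comp tendsto_natCast_atTop_atTop).const_mul a
  simp only [neg_neg, mul_zero, Function.comp_def] at h
  exact h.eventually (eventually_le_nhds hε)

theorem nr_sub {x y : Pt} {N : ℕ} (hx : nr x < 2 * N) (hy : y ∈ bl 0 (4 * N)) : nr (x - y) ≤ 6 * N := by
  rw [mem_bl] at hy
  simp only [nr, Prod.fst_sub, Prod.snd_sub, Prod.fst_zero, Prod.snd_zero] at hx hy ⊢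
  omega

theorem add_mem {x w : Pt} {l : ℕ} (hw : w ∈ bl 0 l) : x + w ∈ bl x l := by
  rw [mem_bl] at hw ⊢
  simp only [Prod.fst_add, Prod.snd_add, Prod.fst_zero, Prod.snd_zero] at hw ⊢
  omega

theorem pow_le {N L M : ℕ} (hL : 1 ≤ L) (h : N ≤ M * L) (k : ℕ) (p : ℝ) :
    (N : ℝ) ^ k * (L : ℝ) ^ (-p) ≤ (M : ℝ) ^ k * (L : ℝ) ^ (k - p) := by
  have hL' : (0 : ℝ) < L := by exact_mod_cast hL
  have h' : (N : ℝ) ≤ M * L := by exact_mod_cast h
  rw [sub_eq_add_neg, Real.rpow_add hL', Real.rpow_natCast, ← mul_assoc, ← mul_pow]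
  gcongr

end Rep19

open Rep19

/-- REP -/
theorem repStmt (hA : AlgStmt) (hM : MomStmt) (hI : IdStmt) (hB : AmbStmt) (hK : KbStmt) (hS : SumStmt)
    (hQ : QuadStmt) : RepStmt := by
  intro F P M ε hε
  have hα := P.hα
  obtain ⟨C, hC⟩ := hQ (2 * P.α) (by linarith)
  obtain ⟨A, hA1, HK⟩ := hK F P
  obtain ⟨Cs, L₀, HS⟩ := hS F P
  obtain ⟨Cm, hm1, HM⟩ := hM.1 F
  have hε4 : 0 < ε / 4 := by positivity
  filter_upwards [eventually_ge_atTop 1, ev_pow (|C| * A) (q := 4 - 2 * P.α) (by linarith) hε4]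
    with l hl1 hl2
  have hl : (0 : ℝ) < l := by exact_mod_cast hl1
  set e : ℝ := ε / 4 / ((|C| + 1) * (l : ℝ) ^ 4 * Cm) with he
  have he0 : 0 < e := by positivity
  filter_upwards [hB P.W P.r₀ (P.r₀ + l) e he0 (Nat.le_add_right _ _)] with R HB
  filter_upwards [eventually_ge_atTop l, eventually_ge_atTop R, eventually_ge_atTop L₀,
    eventually_ge_atTop P.r₀,
    ev_pow (|C| * |Cs| * (M : ℝ) ^ 2) (q := (2 : ℕ) - P.α) (by push_cast; linarith) hε4,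
    ev_pow (|C| * A * (M : ℝ) ^ 4) (q := (4 : ℕ) - 2 * P.α) (by push_cast; linarith) hε4]
    with L hL1 hL2 hL3 hL4 hL5 hL6 Λ hΛ hR N hN hNM
  have hO : Λ.Ok := ⟨hΛ.1 ▸ F.adm, F.pos.trans_le hΛ.2.2.1⟩
  have hW := hR.gd.1
  have hr := hR.gd.2.1
  have hWr : P.r₀ + l ≤ P.W * (P.r₀ + l) := Nat.le_mul_of_pos_left _ (by omega)
  have key := hC (KK Λ (Λ.D (bl 0 (10 * N)))) (kk Λ R) A (|Cs| * (L : ℝ) ^ (-P.α)) (e * Cm) l L N
    hl1 hL1 hN (fun x y => by simp only [KK, mul_comm])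
    (fun x hx y hy h2 => by
      have h3 := nr_sub h2 hy
      exact (HK Λ hΛ L hR x y).1 _ (amb_D hO (bl_subset_bl hx (by omega)))
        (amb_D hO (bl_subset_bl hy (by omega))))
    (fun x hx => (HS Λ hΛ L N hL3 hN hR x hx).trans
      (mul_le_mul_of_nonneg_right (le_abs_self _) (by positivity)))
    (fun x hx w hw => by
      have hx' := hA.2.2 Λ hO x
      have hw' := hA.2.2 Λ hO (x + w)
      have s1 : bl x Λ.rg ⊆ bl x (P.r₀ + l) := bl_mono x (by omega)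
      have s2 : bl (x + w) Λ.rg ⊆ bl x (P.r₀ + l) := bl_subset_bl (add_mem hw) (by omega)
      have s3 : bl x (P.r₀ + l) ⊆ bl x (P.W * (P.r₀ + l)) := bl_mono x hWr
      rw [← (hx'.2.2.2.2.2.2.2.2 R w).1]
      refine (HB Λ hO (P.W * L) (hL2.trans (Nat.le_mul_of_pos_left _ (by omega))) hR.gd x
        (fun s => JL Λ.J x s * JL Λ.J (x + w) s) _ _
        ⟨(hx'.1.1.mono s1).mul (hw'.1.1.mono s2), hx'.1.2.mul hw'.1.2⟩
        (amb_D hO (bl_subset_bl hx (by omega))) (amb_D hO subset_rfl)).trans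
        (mul_le_mul_of_nonneg_left ?_ he0.le)
      exact (HM Λ hΛ _ x (x + w) x (hO.ctr_Nr _ _) (hO.anch_Nr_bl (self_mem_bl _ _))
        ((hM.2 Λ hO x).2.2.1 _ _ (s1.trans s3)) ((hM.2 Λ hO (x + w)).2.2.1 _ _ (s2.trans s3))
        ((hM.2 Λ hO x).2.2.1 _ _ (s1.trans s3))).2.2.1)
  rw [((hI Λ hO).2 N (by omega)).2.2]
  refine key.trans ?_
  have hA0 : 0 ≤ A := by linarith
  have hL : 1 ≤ L := hl1.trans hL1
  have b1 : |C| * ((N : ℝ) ^ 2 * (|Cs| * (L : ℝ) ^ (-P.α))) ≤ ε / 4 := by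
    refine le_trans ?_ hL5
    have := mul_le_mul_of_nonneg_left (pow_le hL hNM 2 P.α) (mul_nonneg (abs_nonneg C) (abs_nonneg Cs))
    linarith
  have b2 : |C| * ((l : ℝ) ^ 4 * (e * Cm)) ≤ ε / 4 := by
    have : (|C| + 1) * ((l : ℝ) ^ 4 * (e * Cm)) = ε / 4 := by rw [he]; field_simp
    rw [← this]
    gcongr
    linarith
  have b3 : |C| * (A * (N : ℝ) ^ 4 * (L : ℝ) ^ (-(2 * P.α))) ≤ ε / 4 := by
    refine le_trans ?_ hL6
    have := mul_le_mul_of_nonneg_left (pow_le hL hNM 4 (2 * P.α)) (mul_nonneg (abs_nonneg C) hA0)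
    linarith
  refine (mul_le_mul_of_nonneg_right (le_abs_self C) (by positivity)).trans ?_
  rw [mul_add, mul_add, mul_add, ← mul_assoc |C| A]
  linarith

end Crest.Agent.T145.Df
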