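import Crest.Agent.T145.DfDef_70

/-!
# Row 145, module Df: the sum rule `SumStmt` (helper36)
-/

set_option autoImplicit false

namespace Crest.Agent.T145.Df

open Finset Nc

namespace Sum36

theorem abs_le_four (g : ℝ) : |g| ≤ 1 + g ^ 4 := by
  have h1 : |g| ^ 2 = g ^ 2 := sq_abs g
  have h2 : g ^ 4 = (|g| ^ 2) ^ 2 := by rw [h1]; ring
  rw [h2]
  nlinarith [sq_nonneg (|g| ^ 2 - 1), sq_nonneg (|g| - 1), abs_nonneg g, sq_nonneg (|g| ^ 2)]

theorem rpow_le {L r : ℕ} {A α : ℝ} (hA : 0 < A) (hα : 0 ≤ α) (hL : 1 ≤ L) (h : (L : ℝ) ≤ A * r) :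
    (r : ℝ) ^ (-α) ≤ A ^ α * (L : ℝ) ^ (-α) := by
  have hL' : (0 : ℝ) < L := by exact_mod_cast hL
  have h1 : (L : ℝ) / A ≤ r := by rw [div_le_iff₀ hA]; linarith
  have h2 : (r : ℝ) ^ (-α) ≤ ((L : ℝ) / A) ^ (-α) :=
    Real.rpow_le_rpow_of_nonpos (div_pos hL' hA) h1 (by linarith)
  refine h2.trans_eq ?_
  rw [Real.div_rpow hL'.le hA.le, Real.rpow_neg hA.le, div_inv_eq_mul, mul_comm]

theorem nr_edge {Λ : Lat} {e : Pt × Pt} (h : e.2 - e.1 ∈ Λ.Jp) : nr (e.2 - e.1) ≤ Λ.rg := by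
  have := Lat.le_rg (Lat.mem_Jp.1 h).1
  rw [abs_le, abs_le] at this
  unfold nr
  omega

end Sum36

open Sum36 in
theorem sumStmt (hA : AlgStmt) (hB : BumpStmt) (hI : IdStmt) (hO : IoStmt) (hP : ProStmt)
    (hBr : BrStmt) : SumStmt := by
  intro F P
  obtain ⟨Cp, hCp, hP⟩ := hP F P
  obtain ⟨Cb, hCb, hB⟩ := hB
  set rg : ℕ := ProbabilityR.HeightModel.interactionRange F.J with hrg
  set n₀ : ℝ := 882 * F.J.card * (Cb * rg) ^ 2 with hn₀
  refine ⟨4 * (Cp * (4 * (P.W : ℝ) ^ 2) ^ P.α) * (1 + 24 * Real.exp F.τ₂ * n₀ ^ 2),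
    2 * P.W ^ 2 * (P.r₀ + 1), fun Λ hΛ L N hL hN hR x hx => ?_⟩
  have hok : Λ.Ok := ⟨hΛ.1 ▸ F.adm, F.pos.trans_le hΛ.2.2.1⟩
  have hrg' : Λ.rg = rg := by rw [hrg, ← hΛ.1]; rfl
  obtain ⟨hW, hr₀, -⟩ := id hR.gd
  set W := P.W with hWdef
  set r := L / (2 * W ^ 2) with hr
  have hW2 : 0 < 2 * W ^ 2 := by positivity
  have hr1 : P.r₀ + 1 ≤ r := (Nat.le_div_iff_mul_le hW2).2 (by rw [mul_comm]; exact hL)
  have hr2 : 2 * W ^ 2 * r ≤ L := Nat.mul_div_le _ _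
  have hr3 : L < 2 * W ^ 2 * (r + 1) := Nat.lt_mul_div_succ _ hW2
  have hWW : W * (W * r) = W ^ 2 * r := by ring
  have hr4 : 2 * (W * (W * r)) ≤ L := by rw [hWW, ← mul_assoc]; exact hr2
  have hr5 : r ≤ W * r := Nat.le_mul_of_pos_left _ (by omega)
  have hr6 : W * r ≤ W * (W * r) := Nat.le_mul_of_pos_left _ (by omega)
  have hN1 : 1 ≤ N := by omega
  have hN' : (0 : ℝ) < N := by exact_mod_cast hN1
  obtain ⟨-, hb, hlip, -⟩ := hB N hN1
  set D := bl 0 (10 * N) with hD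
  set m := Λ.D D with hm
  have hamb : Amb Λ m (bl x (W * (W * r) + Λ.rg)) :=
    have hs : bl x (W * (W * r) + Λ.rg) ⊆ D := bl_subset_bl hx (by omega)
    ⟨hok.ctr_D D, hok.anch_D D, hs, Lat.near_D hs⟩
  obtain ⟨hc, ha, hio⟩ := hO Λ hok W P.r₀ (W * L) hR.gd x r m (by omega)
    (Nat.mul_le_mul_left _ (by omega)) hamb
  set φ : Pt × Pt → ℝ := fun e => ch N e.2 - ch N e.1 with hφ
  set ed := (Λ.edI D).filter fun e => φ e ≠ 0 with hed
  have hfar : ∀ e ∈ ed, e.1 ∉ bl x (W * (W * r)) ∧ e.2 ∉ bl x (W * (W * r)) := by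
    intro e he
    obtain ⟨he1, he2⟩ := mem_filter.1 he
    have hj := (Lat.mem_edI.1 he1).1
    have key : ∀ y, y ∈ bl 0 (3 * N) → ch N y = 1 := fun y hy =>
      (hb y).2.2.2.2 (by simpa using (hA.1 0 y _).1 hy)
    have hs : bl x (W * (W * r) + Λ.rg) ⊆ bl 0 (3 * N) := bl_subset_bl hx (by omega)
    refine not_or.1 fun h => he2 ?_
    have h1 := Lat.edge_near hj
    have h12 : e.1 ∈ bl x (W * (W * r) + Λ.rg) ∧ e.2 ∈ bl x (W * (W * r) + Λ.rg) := by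
      simp only [T145.mem_bl] at h h1 ⊢
      omega
    simp only [hφ, key _ (hs h12.1), key _ (hs h12.2), sub_self]
  have hG : ∀ s, pr (dv ed φ) s = ∑ y ∈ bl 0 (4 * N), ch N y * JL Λ.J y s := by
    intro s
    rw [hBr.1, ((hI Λ hok).1 D (bl 0 (4 * N)) (ch N) s (fun y hy => ?_)
      fun y hy => bl_subset_bl hy (by omega)).1]
    · exact sum_filter_of_ne (f := fun e => φ e * (dE e s : ℝ)) fun e _ h => left_ne_zero_of_mul h
    · by_contra h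
      exact hy ((hA.1 0 y _).2 (by simpa using ((hb y).2.2.2.1 h).le))
  have hJ : ∀ y, Ins y Λ.rg (JL Λ.J y) := fun y => (hA.2.2 Λ hok y).1
  have hcen : Cen (m.W 0) := hok.cen_D D
  have hsum : ∑ y ∈ bl 0 (4 * N), ch N y * KK Λ m x y =
      Ex (m.W 0) fun s => JL Λ.J x s * pr (dv ed φ) s := by
    simp only [hG, mul_sum]
    rw [Ex_sum _ fun y _ => hcen.ig ((hJ x).2.mul ((hJ y).2.const_mul _))]
    refine sum_congr rfl fun y _ => ?_
    rw [KK, ← Ex_const_mul]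
    congr 1; funext s; ring
  have hout : Out (bl x (W * (W * r))) fun s => pr (dv ed φ) s := by
    intro s s' h
    show pr _ s = pr _ s'
    rw [hBr.1, hBr.1]
    refine sum_congr rfl fun e he => ?_
    rw [dE, dE, h _ (hfar e he).1, h _ (hfar e he).2]
  have h1 := hio (JL Λ.J x) (fun s => pr (dv ed φ) s)
    ⟨(hJ x).1.mono (bl_mono _ (by omega)), (hJ x).2⟩ (Tame.hom _) hout
  have hn : ∑ e ∈ ed, φ e ^ 2 ≤ n₀ := by
    have hc1 : ed.card ≤ 2 * ((21 * N) ^ 2 * F.J.card) := by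
      refine ((card_filter_le _ _).trans (card_le_card (Lat.edI_subset_edT D))).trans
        ((Lat.card_edT_le D).trans ?_)
      rw [hD, card_bl]
      refine Nat.mul_le_mul_left _ (Nat.mul_le_mul (Nat.pow_le_pow_left (by omega) _) ?_)
      rw [← hΛ.1]; exact card_filter_le _ _
    have hc2 : (ed.card : ℝ) ≤ 2 * ((21 * N) ^ 2 * F.J.card) := by exact_mod_cast hc1
    have he : ∀ e ∈ ed, φ e ^ 2 ≤ (Cb * rg / N) ^ 2 := by
      intro e he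
      have h2 : (nr (e.2 - e.1) : ℝ) ≤ rg := by
        rw [← hrg']; exact_mod_cast nr_edge (Lat.mem_edI.1 (mem_filter.1 he).1).1
      have h3 : |φ e| ≤ Cb * rg / N := (hlip e.2 e.1).2.trans (by gcongr)
      exact sq_le_sq' (by linarith [abs_le.1 h3]) (abs_le.1 h3).2
    refine (sum_le_card_nsmul _ _ _ he).trans ?_
    rw [nsmul_eq_mul]
    refine (mul_le_mul_of_nonneg_right hc2 (sq_nonneg _)).trans_eq ?_
    rw [hn₀]; field_simp; ring
  have hsub : ed ⊆ (hole m (bl x (W * r))).ed := fun e he =>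
    mem_filter.2 ⟨Lat.edI_subset_edT D (mem_filter.1 he).1,
      fun h => (hfar e he).1 (bl_mono _ hr6 h), fun h => (hfar e he).2 (bl_mono _ hr6 h)⟩
  have h4 := (hBr.2.1 Λ (hole m (bl x (W * r))) (dv ed φ) n₀ hok hc ha ed hsub (fun _ _ => rfl)
    ⟨φ, fun _ _ => rfl, hn⟩).2.2
  have hcen' : Cen ((hole m (bl x (W * r))).W 0) := hc.cen ha
  have h5 : Ex ((hole m (bl x (W * r))).W 0) (fun s => |pr (dv ed φ) s|) ≤
      1 + 24 * Real.exp F.τ₂ * n₀ ^ 2 := by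
    have i4 := hcen'.ig ((Tame.hom (pr (dv ed φ))).pow 4)
    refine (Ex_mono hcen'.nonneg (hcen'.ig (Tame.hom _).abs) ((hcen'.wt.ig_const 1).add i4)
      fun s => abs_le_four _).trans ?_
    rw [Ex_add (hcen'.wt.ig_const 1) i4, hcen'.wt.ex_const]
    have : Real.exp Λ.τ ≤ Real.exp F.τ₂ := Real.exp_le_exp.2 hΛ.2.2.2
    nlinarith [sq_nonneg n₀]
  have h6 := (hP Λ hΛ L hR x r (by omega) (by omega)).1
  have hWr : (0 : ℝ) < W := by exact_mod_cast (by omega : 0 < W)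
  have h7 : (r : ℝ) ^ (-P.α) ≤ (4 * (W : ℝ) ^ 2) ^ P.α * (L : ℝ) ^ (-P.α) := by
    refine rpow_le (by positivity) (by linarith [P.hα]) (by omega) ?_
    have : L ≤ 4 * W ^ 2 * r := by nlinarith
    exact_mod_cast this
  have h8 : nu Λ W x r (JL Λ.J x) ≤ Cp * (4 * (W : ℝ) ^ 2) ^ P.α * (L : ℝ) ^ (-P.α) :=
    h6.trans (by rw [mul_assoc]; gcongr)
  rw [hsum]
  refine h1.trans ?_
  have h9 : 0 ≤ Ex ((hole m (bl x (W * r))).W 0) (fun s => |pr (dv ed φ) s|) :=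
    Ex_nonneg hcen'.nonneg fun _ _ => abs_nonneg _
  calc _ ≤ 4 * (Cp * (4 * (W : ℝ) ^ 2) ^ P.α * (L : ℝ) ^ (-P.α)) *
        Ex ((hole m (bl x (W * r))).W 0) (fun s => |pr (dv ed φ) s|) := by gcongr
    _ ≤ 4 * (Cp * (4 * (W : ℝ) ^ 2) ^ P.α * (L : ℝ) ^ (-P.α)) *
        (1 + 24 * Real.exp F.τ₂ * n₀ ^ 2) := by gcongr
    _ = _ := by ring

end Crest.Agent.T145.Df
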