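import Crest.Agent.T145.DfDef_70

/-!
# Row 145, module Df: `Top.DiffStmt` from the leaves (helper70)
-/

set_option autoImplicit false

namespace Crest.Agent.T145.Df

open Finset Filter Topology Nc

theorem mem_ok {F : Fa} {Λ : Lat} (h : F.Mem Λ) : Λ.Ok := ⟨h.1 ▸ F.adm, F.pos.trans_le h.2.2.1⟩

theorem amb_D {Λ : Lat} (h : Λ.Ok) {U D : Finset Pt} (hU : U ⊆ D) : Amb Λ (Λ.D D) U :=
  ⟨h.ctr_D D, h.anch_D D, hU, Lat.near_D hU⟩

theorem diffStmt (hA : AlgStmt) (hB : BumpStmt) (hI : IdStmt) (hE : EnStmt) (hK : KbStmt) (hR : RepStmt)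
    (hL : LimStmt) (hD : DerStmt) (hC : CauStmt) (hN : AnaStmt) (hO : OpenStmt) : Top.DiffStmt := by
  intro Λ hΛ hg
  obtain ⟨F, P, η, hη, H⟩ := hO Λ hΛ hg
  obtain ⟨C₁, hC₁, HK⟩ := hK F P
  obtain ⟨C₂, HD⟩ := hD F P
  obtain ⟨C₃, hC₃, HB⟩ := hB
  have hab : ∀ τ ∈ Set.Ioo (Λ.τ - η) (Λ.τ + η), |τ - Λ.τ| < η := fun τ h => by
    rw [abs_lt]; constructor <;> linarith [h.1, h.2]
  have ha : 0 < Λ.a := one_pos.trans_le hΛ.one_le_a
  have hp : Tendsto (fun n : ℕ => 2 ^ n) atTop atTop := tendsto_pow_atTop_atTop_of_one_lt one_lt_two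
  have key := hN (Λ.τ - η) (Λ.τ + η) (2 * P.α + P.β - 2) (max (max C₁ C₂) C₃)
    (fun R w τ => kk (Λ.at' τ) R w) (fun R w τ => kd (Λ.at' τ) R w) (fun n w => UU (2 ^ n) w)
    (Λ.J.filter posD) (fun τ => Λ.a * (Λ.at' τ).gI) (by linarith [P.hγ])
    (fun R w τ hτ => (hE (Λ.at' τ) (mem_ok (H τ (hab τ hτ)).1) R w).1)
    (fun w ε hε => by
      obtain ⟨R₀, h⟩ := hC F P w ε hε
      exact ⟨R₀, fun R R' h1 h2 τ hτ => h R R' h1 h2 _ (H τ (hab τ hτ)).1 (H τ (hab τ hτ)).2.2⟩)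
    (fun w => by
      filter_upwards [HD w, eventually_ge_atTop (2 * nr w)] with R h1 h2 τ hτ
      obtain ⟨a1, -, a3⟩ := H τ (hab τ hτ)
      have b0 : (1 : ℝ) ≤ 1 + nr w := le_add_of_nonneg_right (Nat.cast_nonneg _)
      have b1 : 0 ≤ (1 + (nr w : ℝ)) ^ (-(2 * P.α + P.β - 2)) := Real.rpow_nonneg (by linarith) _
      have e : nr (0 - w) = nr w := by simp [nr]
      refine ⟨?_, ?_⟩
      · have := (HK _ a1 (nr w) (a3 _) 0 w).1 ((Λ.at' τ).D (bl 0 R))
          (amb_D (mem_ok a1) fun x hx => by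
            rw [hA.1] at hx ⊢; rw [e] at hx; omega)
          (amb_D (mem_ok a1) fun x hx => by
            rw [hA.1] at hx ⊢; rw [e] at hx
            simp only [nr, Prod.fst_sub, Prod.snd_sub, Prod.fst_zero, Prod.snd_zero] at hx h2 ⊢
            omega)
        rw [e, min_self] at this
        refine this.trans (mul_le_mul ((le_max_left _ _).trans (le_max_left _ _))
          (Real.rpow_le_rpow_of_exponent_le b0 (by linarith [P.hβ'])) (Real.rpow_nonneg (by linarith) _)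
          (by positivity))
      · refine (h1 _ a1 a3).trans ?_
        rw [show 2 - P.β - 2 * P.α = -(2 * P.α + P.β - 2) by ring]
        exact mul_le_mul_of_nonneg_right ((le_max_right _ _).trans (le_max_left _ _)) b1)
    (fun n w => by
      obtain ⟨a1, a2⟩ := (HB (2 ^ n) Nat.one_le_two_pow).2.2.2.1 w
      rw [abs_of_nonneg a1]
      exact a2.trans (mul_le_mul_of_nonneg_right (le_max_right _ _) (by positivity)))
    (by
      filter_upwards [hp.eventually (eventually_ge_atTop Λ.rg)] with n hn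
      exact ((hI Λ hΛ).2 _ hn).2.1)
    (fun τ hτ ε hε => by
      obtain ⟨a1, a2, a3⟩ := H τ (hab τ hτ)
      have b1 := Metric.tendsto_nhds.1 (hL _ (mem_ok a1) a2) (ε / 2) (half_pos hε)
      filter_upwards [hR F P 1 (ε / 2) (half_pos hε)] with l₁ h1
      filter_upwards [h1] with l₂ h2
      filter_upwards [hp.eventually h2, b1] with n h3 h4
      have h5 := h3 _ a1 (a3 _) (2 ^ n) le_rfl (by omega)
      rw [Real.dist_eq, sub_zero] at h4
      have e1 : (Λ.at' τ).a = Λ.a := rfl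
      have e2 : EE (Λ.at' τ).J (2 ^ n) = ∑ y ∈ Λ.J.filter posD, UU (2 ^ n) y := rfl
      rw [e1, e2] at h4
      rw [abs_le] at h5 ⊢
      rw [abs_lt] at h4
      constructor <;> linarith [h4.1, h4.2, h5.1, h5.2])
    Λ.τ ⟨by linarith, by linarith⟩
  have := key.const_mul Λ.a⁻¹
  refine this.congr_of_eventuallyEq (Eventually.of_forall fun τ => ?_)
  simp only [← mul_assoc, inv_mul_cancel₀ ha.ne', one_mul]

end Crest.Agent.T145.Df
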