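import Crest.Agent.T145.DfDef_70
import Crest.Agent.T145.Soft_23

/-!
# Row 145, module Df: the upper bound `UpStmt` and the limit `LimStmt` (helper12)
-/

set_option autoImplicit false

namespace Crest.Agent.T145.Df

open Finset Filter Topology

namespace Up12

theorem sm2_mono {u : Pt → ℝ} {K K' L : ℝ} (h : Sm2 u K L) (hK : K ≤ K') (hL : 0 ≤ L) : Sm2 u K' L :=
  ⟨fun i x => (h.1 i x).trans (by gcongr), fun i j x => (h.2 i j x).trans (by gcongr)⟩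

theorem tau_tN {Λ : Lat} (h : Λ.Ok) (l : ℕ) : Λ.τ * Λ.tN l = Λ.a * Λ.gN l := by
  rw [← h.gN_mul, ← h.e0_mul]; ring

theorem tau_tI {Λ : Lat} (h : Λ.Ok) : Λ.τ * Λ.tI = Λ.a * Λ.gI := by
  rw [← h.gI_mul, ← h.e0_mul]; ring

theorem reg_bl (hB : BrStmt) (l : ℕ) {N : ℕ} (hN : 1 ≤ N) {K : ℝ} (hK : 4 * 21 ^ 2 ≤ K) :
    Reg (bl 0 (10 * N)) K l N := by
  have h1 : ((2 * (10 * N) + 1 : ℕ) : ℝ) ≤ 21 * N := by exact_mod_cast (by omega)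
  have h := hB.2.2.2.2.2.1 ((0 : Pt).1 - (10 * N : ℕ), (0 : Pt).2 - (10 * N : ℕ)) _ _ l N 21
    (by norm_num) h1 h1
  rw [bl_eq_sq]
  exact ⟨h.1.trans (by gcongr), h.2.trans (by gcongr)⟩

theorem EE_le {Λ : Lat} {C : ℝ} (hC : 0 ≤ C) {N : ℕ} (h : ∀ w, UU N w ≤ C * (nr w : ℝ) ^ 2) :
    EE Λ.J N ≤ Λ.J.card * (C * (Λ.rg : ℝ) ^ 2) := by
  have h1 := sum_le_card_nsmul (Λ.J.filter posD) (UU N) (C * (Λ.rg : ℝ) ^ 2) fun y hy => by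
    have h2 := Lat.le_rg (mem_filter.1 hy).1
    rw [abs_le, abs_le] at h2
    have h3 : nr y ≤ Λ.rg := by unfold nr; omega
    have h4 : (nr y : ℝ) ≤ Λ.rg := by exact_mod_cast h3
    exact (h y).trans (by gcongr)
  rw [nsmul_eq_mul] at h1
  refine h1.trans (mul_le_mul_of_nonneg_right ?_ (by positivity))
  exact_mod_cast card_filter_le _ _

end Up12

open Up12

/-- UP -/
theorem upStmt (hx : T1xStmt) (hBr : BrStmt) (hB : BumpStmt) (hI : IdStmt) : UpStmt := by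
  intro F ε hε
  obtain ⟨C, hC, hB⟩ := hB
  have hp : 0 < 2 * F.τ₂ ^ 2 + 1 := by positivity
  refine exists_of_ev ?_
  filter_upwards [ev_sep_mem (hx F (max C (4 * 21 ^ 2)) (ε / (2 * F.τ₂ ^ 2 + 1)) (by positivity)),
    ev_large F.base.rg] with δ h1 h2 Λ hΛ l N hs
  have hok := hΛ.ok
  have hN := hs.one_le_L
  have hN' : (0 : ℝ) ≤ N := Nat.cast_nonneg _
  have h3 := h1 Λ hΛ l N hs (Λ.D (bl 0 (10 * N))) (bl 0 (10 * N)) (ub N) (fun _ => 0)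
    (hBr.2.2.2.1 Λ _ hok) (reg_bl hBr l hN (le_max_right _ _))
    (sm2_mono (hB N hN).1.1 (le_max_left _ _) hN') fun e _ => by rw [abs_zero]; positivity
  have e0 : dv (Λ.edI (bl 0 (10 * N))) (fun _ => (0 : ℝ)) = 0 := by funext x; simp [dv]
  rw [e0, pr_zero, add_zero] at h3
  simp only [zero_mul, sum_const_zero, mul_zero, add_zero, ne_eq, OfNat.ofNat_ne_zero,
    not_false_eq_true, zero_pow] at h3
  have h4 := ((hok.cen_D (bl 0 (10 * N))).vr_le_M _).trans h3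
  obtain ⟨h5, -, -⟩ := (hI Λ hok).2 N (hΛ.rg_eq ▸ (h2 l N hs).2.2)
  have h6 : Λ.τ ^ 2 ≤ F.τ₂ ^ 2 := pow_le_pow_left₀ hok.2.le hΛ.tau_le 2
  have h7 : 2 * Λ.τ ^ 2 * (ε / (2 * F.τ₂ ^ 2 + 1)) ≤ ε := by
    rw [← mul_div_assoc, div_le_iff₀ hp]; nlinarith
  rw [← tau_tN hok, ← h5]
  unfold VJ WD
  nlinarith [mul_le_mul_of_nonneg_left h4 (sq_nonneg Λ.τ)]

/-- LIM -/
theorem limStmt (hD : DlgStmt) (hm : T1mStmt) (hBr : BrStmt) (hB : BumpStmt) (hI : IdStmt) : LimStmt := by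
  intro Λ hok hg
  obtain ⟨C, hC, hB⟩ := hB
  set E : ℝ := Λ.J.card * (C * (Λ.rg : ℝ) ^ 2) with hE
  have hE0 : 0 ≤ E := by positivity
  have hτ := hok.2
  refine Metric.tendsto_nhds.2 fun ε hε => ?_
  have hp : 0 < Λ.τ ^ 2 + Λ.τ * E + 1 := by positivity
  set η : ℝ := ε / (Λ.τ ^ 2 + Λ.τ * E + 1) with hη
  have hη0 : 0 < η := by positivity
  have hK : (1 : ℝ) ≤ max C 2 := hC.trans (le_max_left _ _)
  obtain ⟨δ, l, -, hl, H⟩ := Soft.exists_l hm hD hok (hok.gI_pos_iff.1 hg) hK hη0 hη0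
  filter_upwards [H, tendsto_two_pow.eventually (eventually_ge_atTop Λ.rg)] with j ⟨_, h1⟩ hj
  set N : ℕ := 2 ^ j with hNdef
  have hN : 1 ≤ N := Nat.one_le_two_pow
  have hN' : (0 : ℝ) ≤ N := Nat.cast_nonneg _
  obtain ⟨b1, b2, -, b4, -⟩ := hB N hN
  have h2 := (h1 (Λ.D (bl 0 (10 * N))) (bl 0 (10 * N)) 0 (ub N) (hBr.2.2.2.1 Λ _ hok) (Loc.refl _)
    (sm2_mono b1.1 (le_max_left _ _) hN') fun x hx => by
      have h3 := (b2 x).2.2.1 hx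
      have h4 : x ∈ bl 0 (2 * N) := by
        rw [mem_bl]; unfold nr at h3; simp only [Prod.fst_zero, Prod.snd_zero]; omega
      have h5 : 2 * N ≤ ⌊max C 2 * (N : ℝ)⌋₊ := Nat.le_floor (by
        push_cast; exact mul_le_mul_of_nonneg_right (le_max_right _ _) hN')
      have h6 : ⌊(N : ℝ) / max C 2⌋₊ ≤ N := Nat.floor_le_of_le (div_le_self hN' hK)
      exact ⟨bl_mono _ h5 h4, bl_subset_bl h4 (by omega)⟩).1
  obtain ⟨h5, h6, -⟩ := (hI Λ hok).2 N hj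
  have h7 : EE Λ.J N ≤ E := EE_le (by linarith) fun w => (b4 w).2
  have e : VJ Λ N - Λ.a * Λ.gI * EE Λ.J N =
      Λ.τ ^ 2 * (Vr ((Λ.D (bl 0 (10 * N))).W 0) (pr (Λ.Au (bl 0 (10 * N)) (ub N)))
        (pr (Λ.Au (bl 0 (10 * N)) (ub N))) - Λ.tN l * Λ.En (bl 0 (10 * N)) (ub N) (ub N)) +
      Λ.τ * EE Λ.J N * (Λ.tN l - Λ.tI) := by
    rw [← tau_tI hok, ← h5]; unfold VJ WD; ring
  rw [Real.dist_eq, sub_zero, e]
  refine (abs_add_le _ _).trans_lt ?_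
  rw [abs_mul, abs_mul, abs_of_nonneg (sq_nonneg Λ.τ),
    abs_of_nonneg (show 0 ≤ Λ.τ * EE Λ.J N by positivity)]
  have h8 : η * (Λ.τ ^ 2 + Λ.τ * E + 1) = ε := div_mul_cancel₀ _ hp.ne'
  have h9 : Λ.τ * EE Λ.J N * |Λ.tN l - Λ.tI| ≤ Λ.τ * E * η := by gcongr
  nlinarith [mul_le_mul_of_nonneg_left h2 (sq_nonneg Λ.τ)]

end Crest.Agent.T145.Df
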