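import Crest.Agent.T145.KrHolB_93

/-!
# Row 145, module KERNEL: `Kr.holStmt` (helper93)
-/

set_option autoImplicit false

namespace Crest.Agent.T145.Kr

open Finset Real KrA

namespace H93.Ctx
variable {Λ : Lat} {G : Gm} {g W w : ℝ} {A B : Act (Cfg Pt)} {p q : Cfg Pt → ℝ}
  {κ : Cfg Pt → Cfg Pt → ℝ} {F φ : Cfg Pt → ℝ} {N M : ℝ}

theorem yd (h : Ctx Λ G g W w A B p q κ) : 2 * w * G.r * (w / G.R) ≤ 2 * (w ^ 2 / W) := by
  have := mul_le_mul_of_nonneg_left h.rR (by positivity : 0 ≤ 2 * w ^ 2)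
  calc _ = 2 * w ^ 2 * (G.r / G.R) := by ring
    _ ≤ _ := this
    _ = _ := by ring

theorem i5 (h : Ctx Λ G g W w A B p q κ) : 1 / W ^ 5 ≤ 1 := by
  have := h.mon (a := 0) (b := 5) (a' := 0) (b' := 0) le_rfl (by norm_num)
  simpa using this

theorem vec93 (h : Ctx Λ G g W w A B p q κ) (dF : DepG G.In F) (hF : ∀ s, |F s| ≤ N)
    (dφ : DepG G.Ou φ) (hφ : ∀ s, |φ s| ≤ M) (ho : OddF F) :
    |G.EA Λ (fun s => F s * φ s) -
      ∑ i, G.EA Λ (fun s => F s * G.yi g i s) * G.EA Λ fun s => G.di i s * φ s| ≤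
      w ^ 10 / W ^ 2 * (N * M) := by
  have hN : 0 ≤ N := (abs_nonneg _).trans (hF 0)
  have hM : 0 ≤ M := (abs_nonneg _).trans (hφ 0)
  have hW := h.W0
  have hw := h.w0
  have hl := h.lam0
  have hr := h.r0
  have hR := h.R0
  have y0 : 0 ≤ 2 * w * G.r := by positivity
  have d0 : 0 ≤ w / G.R := by positivity
  have k := h.sec.odd' univ (yy := fun i => tc A (G.yi g i)) (d := fun i => tc B (G.di i)) y0 d0
    (by positivity : 0 ≤ 2 * w / W ^ 2) (fun i _ => abs_tc y0 fun a => h.yi a i)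
    (fun i _ => abs_tc d0 fun a => h.di a i) h.hy hN hF (fun a => by rw [h.ng, ho]) hM hφ
  rw [h.br_FF dF hF dφ hφ] at k
  have k1 := abs_mul_le' (abs_mul_le' (abs_of_nonneg (by positivity : 0 ≤ 2 * G.lam g)).le
    (h.sec.toFac.abs_br (Φ := fun a _ => F a * sin (2 * π * A.H a)) fun a _ =>
      abs_mul_le' (hF a) (abs_sin_le_one _)))
    (h.sec.toFac.abs_br (Φ := fun _ b => sin (2 * π * B.H b) * φ b) fun _ b =>
      abs_mul_le' (abs_sin_le_one _) (hφ b))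
  have k2 : ∀ i, |br (mub A B (G.nu Λ)) (fun a _ => F a * tc A (G.yi g i) a) *
      br (mub A B (G.nu Λ)) (fun _ b => tc B (G.di i) b * φ b) -
      G.EA Λ (fun s => F s * G.yi g i s) * G.EA Λ fun s => G.di i s * φ s| ≤
      3 * (w ^ 2 / W ^ 2) * (N * M) := fun i => by
    refine (abs_mul_sub (h.br_tcA dF hF (h.dyi i) y0 (fun a => h.yi a i) (h.m_y i))
      (h.br_tcB dφ hφ (h.ddi i) d0 (fun a => h.di a i) (h.m_d i))
      (h.sec.toFac.abs_br fun a _ => abs_mul_le' (hF a) (abs_tc y0 (fun a => h.yi a i) a))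
      (((h.m_d i).mul_bdd h.wt hM hφ).abs_le h.wt)).trans ?_
    have h1 := mul_le_mul_of_nonneg_right h.yd (by positivity : 0 ≤ 1 / W ^ 5)
    have h2 := h.mon (a := 2) (b := 6) (a' := 2) (b' := 2) le_rfl (by norm_num)
    calc _ = 3 / 2 * (2 * w * G.r * (w / G.R) * (1 / W ^ 5)) * (N * M) := by ring
      _ ≤ 3 / 2 * (2 * (w ^ 2 / W) * (1 / W ^ 5)) * (N * M) := by gcongr
      _ = 3 * (w ^ 2 / W ^ 6) * (N * M) := by ring
      _ ≤ _ := by gcongr
  have e : 1 / W ^ 9 + 3 * (w ^ 8 / W ^ 3 + 2 * w / W ^ 2) + 7 * (1 / W ^ 9 + 3 * (w ^ 4 / W)) *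
      (2 * G.lam g + 2 * (2 * w * G.r * (w / G.R))) + 2 * G.lam g + 6 * (w ^ 2 / W ^ 2) ≤
      w ^ 10 / W ^ 2 := by
    have h0 := h.mon (a := 5) (b := 2) (a' := 5) (b' := 1) le_rfl (by norm_num)
    have h0' := h.mon (a := 2) (b := 1) (a' := 5) (b' := 1) (by norm_num) le_rfl
    simp only [pow_one] at h0 h0'
    have h1 : (1 / W ^ 9 + 3 * (w ^ 4 / W)) * (2 * G.lam g + 2 * (2 * w * G.r * (w / G.R))) ≤
        4 * (w ^ 4 / W) * (6 * (w ^ 5 / W)) :=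
      mul_le_mul h.eta (by linarith [h.lam, h.yd]) (by positivity) (by positivity)
    have h3 := h.fin 9 2
    have h5 := h.mon (a := 0) (b := 9) (a' := 9) (b' := 2) (by norm_num) (by norm_num)
    have h6 := h.mon (a := 8) (b := 3) (a' := 9) (b' := 2) (by norm_num) (by norm_num)
    have h7 := h.mon (a := 1) (b := 2) (a' := 9) (b' := 2) (by norm_num) le_rfl
    have h8 := h.mon (a := 5) (b := 2) (a' := 9) (b' := 2) (by norm_num) le_rfl
    have h9 := h.mon (a := 2) (b := 2) (a' := 9) (b' := 2) (by norm_num) le_rfl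
    have h10 : 0 ≤ w ^ 9 / W ^ 2 := by positivity
    have e1 : 4 * (w ^ 4 / W) * (6 * (w ^ 5 / W)) = 24 * (w ^ 9 / W ^ 2) := by ring
    simp only [pow_zero, pow_one] at h5 h7
    rw [e1] at h1; rw [mul_div_assoc 2 w]; linarith [h.lam]
  have e' := mul_le_mul_of_nonneg_right e (mul_nonneg hN hM)
  have a0 := k2 0
  have a1 := k2 1
  simp only [Fin.sum_univ_two, card_univ, Fintype.card_fin, Nat.cast_ofNat] at k ⊢
  rw [abs_le] at *
  constructor <;> linarith [k.1, k.2, k1.1, k1.2, a0.1, a0.2, a1.1, a1.2]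

theorem even93 (h : Ctx Λ G g W w A B p q κ) (dF : DepG G.In F) (hF : ∀ s, |F s| ≤ N)
    (dφ : DepG G.Ou φ) (hφ : ∀ s, |φ s| ≤ M) (he : EvenF F) (h0 : G.EA Λ F = 0) :
    |G.EA Λ (fun s => F s * φ s) - 2 * G.lam g * G.EA Λ (fun s => F s * cs G.eq s) *
      (G.EA Λ (fun s => cs (hm 0 G.R) s * φ s) - G.EA Λ (cs (hm 0 G.R)) * G.EA Λ φ) -
      ∑ i, ∑ j, G.EA Λ (fun s => F s * (G.yi g i s * G.yi g j s)) / 2 *
        (G.EA Λ (fun s => G.di i s * G.di j s * φ s) -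
          G.EA Λ (fun s => G.di i s * G.di j s) * G.EA Λ φ)| ≤ w ^ 10 / W ^ 3 * (N * M) := by
  have hN : 0 ≤ N := (abs_nonneg _).trans (hF 0)
  have hM : 0 ≤ M := (abs_nonneg _).trans (hφ 0)
  have hW := h.W0
  have hw := h.w0
  have hl := h.lam0
  have hr := h.r0
  have hR := h.R0
  have y0 : 0 ≤ 2 * w * G.r := by positivity
  have d0 : 0 ≤ w / G.R := by positivity
  have k := h.sec.even univ (yy := fun i => tc A (G.yi g i)) (d := fun i => tc B (G.di i)) y0 d0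
    (by positivity : 0 ≤ 2 * w / W ^ 2) (fun i _ => abs_tc y0 fun a => h.yi a i)
    (fun i _ => abs_tc d0 fun a => h.di a i) h.hy hN hF (fun a => by rw [h.ng, he])
    (by rw [h.br_F dF hF, h0]) hM hφ
  rw [h.br_FF dF hF dφ hφ, h.br_FH dF hF cos_add_int_mul_two_pi abs_cos_le_one, h.br_φ dφ hφ,
    sum_product] at k
  simp only [tc_mul] at k
  have φ1 := h.abs_EA hφ
  have k1 := h.br_tφ dφ hφ cos_add_int_mul_two_pi abs_cos_le_one abs_cos_sub_cos_le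
  have k1' := h.br_tφ (φ := fun _ => 1) (M := 1) (DepG.const _ _) (by simp) cos_add_int_mul_two_pi
    abs_cos_le_one abs_cos_sub_cos_le
  simp only [mul_one] at k1'
  have k2 : |G.EA Λ fun s => F s * cos (2 * π * pr G.eq s)| ≤ N :=
    h.abs_EA fun s => by simpa using abs_mul_le' (hF s) (abs_cos_le_one _)
  have k3 := abs_mul_le' (abs_mul_le' (abs_of_nonneg (by positivity : 0 ≤ 2 * G.lam g)).le k2)
    ((abs_sub _ _).trans (add_le_add k1 (abs_mul_le' k1' φ1)))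
  have k4 : ∀ i j, |br (mub A B (G.nu Λ)) (fun a _ => F a * tc A (fun a => G.yi g i a * G.yi g j a) a) / 2 *
      (br (mub A B (G.nu Λ)) (fun _ b => tc B (fun b => G.di i b * G.di j b) b * φ b) -
        br (mub A B (G.nu Λ)) (fun _ b => tc B (fun b => G.di i b * G.di j b) b) * G.EA Λ φ) -
      G.EA Λ (fun s => F s * (G.yi g i s * G.yi g j s)) / 2 *
        (G.EA Λ (fun s => G.di i s * G.di j s * φ s) -
          G.EA Λ (fun s => G.di i s * G.di j s) * G.EA Λ φ)| ≤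
      10 * (w ^ 9 / W ^ 3) * (N * M) := fun i j => by
    have by2 : ∀ a, A.T a → |G.yi g i a * G.yi g j a| ≤ 2 * w * G.r * (2 * w * G.r) := fun a ha =>
      abs_mul_le' (h.yi a i ha) (h.yi a j ha)
    have bd2 : ∀ a, B.T a → |G.di i a * G.di j a| ≤ w / G.R * (w / G.R) := fun a ha =>
      abs_mul_le' (h.di a i ha) (h.di a j ha)
    have dd := (h.ddi i).mul (h.ddi j)
    have b1 := h.br_tcA dF hF ((h.dyi i).mul (h.dyi j)) (by positivity) by2 (h.m_yy i j)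
    have b2 := (abs_sub _ _).trans (add_le_add (h.br_tcB dφ hφ dd (by positivity) bd2 (h.m_dd i j))
      (abs_mul_le' (h.br_tcB' dd (by positivity) bd2 (h.m_dd i j)) φ1))
    have b3 := h.sec.toFac.abs_br (Φ := fun a _ => F a * tc A (fun a => G.yi g i a * G.yi g j a) a)
      fun a _ => abs_mul_le' (hF a) (abs_tc (by positivity) by2 a)
    have b4 := (abs_sub _ _).trans (add_le_add (((h.m_dd i j).mul_bdd h.wt hM hφ).abs_le h.wt)
      (abs_mul_le' ((h.m_dd i j).abs_le h.wt) φ1))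
    rw [sub_mul, sub_sub_sub_comm] at b2
    have b5 := abs_mul_sub b1 b2 b3 b4
    have h1 : ((G.r : ℝ) / G.R) ^ 2 ≤ (1 / W) ^ 2 := pow_le_pow_left₀ (by positivity) h.rR 2
    have h2 := h.mon (a := 3) (b := 7) (a' := 9) (b' := 3) (by norm_num) (by norm_num)
    have h3 := h.mon (a := 2) (b := 7) (a' := 9) (b' := 3) (by norm_num) (by norm_num)
    rw [div_mul_eq_mul_div, div_mul_eq_mul_div, ← sub_div, abs_div, abs_two]
    refine (half_le_self (abs_nonneg _)).trans (b5.trans ?_)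
    calc _ = (8 * w ^ 3 + 2 * w ^ 2) / W ^ 5 * (G.r / G.R) ^ 2 * (N * M) := by ring
      _ ≤ (8 * w ^ 3 + 2 * w ^ 2) / W ^ 5 * (1 / W) ^ 2 * (N * M) := by gcongr
      _ = (8 * (w ^ 3 / W ^ 7) + 2 * (w ^ 2 / W ^ 7)) * (N * M) := by ring
      _ ≤ _ := mul_le_mul_of_nonneg_right (by linarith) (mul_nonneg hN hM)
  have e : 2 * (1 / W ^ 9) + 6 * (w ^ 8 / W ^ 3 + 2 * w / W ^ 2 * (w ^ 2 / W + 2 * w / W ^ 2)) +
      30 * (1 / W ^ 9 + 3 * (w ^ 4 / W)) * (2 * G.lam g + (2 * (2 * w * G.r * (w / G.R))) ^ 2) +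
      28 * (G.lam g * (w / W)) + 40 * (w ^ 9 / W ^ 3) ≤ w ^ 10 / W ^ 3 := by
    have h0 : 1000 * (w ^ 4 / W ^ 2) ≤ w ^ 5 / W ^ 2 := h.fin 4 2
    have h0' : (2 * (2 * w * G.r * (w / G.R))) ^ 2 ≤ (2 * (2 * (w ^ 2 / W))) ^ 2 :=
      pow_le_pow_left₀ (by positivity) (by linarith [h.yd]) 2
    have e0 : (2 * (2 * (w ^ 2 / W))) ^ 2 = 16 * (w ^ 4 / W ^ 2) := by ring
    have h4 : 0 ≤ w ^ 4 / W ^ 2 := by positivity
    have h1 : (1 / W ^ 9 + 3 * (w ^ 4 / W)) * (2 * G.lam g + (2 * (2 * w * G.r * (w / G.R))) ^ 2) ≤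
        4 * (w ^ 4 / W) * (3 * (w ^ 5 / W ^ 2)) :=
      mul_le_mul h.eta (by linarith [h.lam]) (by positivity) (by positivity)
    have h2 : G.lam g * (w / W) ≤ w ^ 5 / W ^ 2 * (w / W) :=
      mul_le_mul_of_nonneg_right h.lam (by positivity)
    have h3 := h.fin 9 3
    have h5 := h.mon (a := 0) (b := 9) (a' := 9) (b' := 3) (by norm_num) (by norm_num)
    have h6 := h.mon (a := 8) (b := 3) (a' := 9) (b' := 3) (by norm_num) le_rfl
    have h7 := h.mon (a := 3) (b := 3) (a' := 9) (b' := 3) (by norm_num) le_rfl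
    have h8 := h.mon (a := 6) (b := 3) (a' := 9) (b' := 3) (by norm_num) le_rfl
    have h9 := h.mon (a := 2) (b := 4) (a' := 9) (b' := 3) (by norm_num) (by norm_num)
    have h10 : 0 ≤ w ^ 9 / W ^ 3 := by positivity
    have e1 : 4 * (w ^ 4 / W) * (3 * (w ^ 5 / W ^ 2)) = 12 * (w ^ 9 / W ^ 3) := by ring
    have e2 : w ^ 5 / W ^ 2 * (w / W) = w ^ 6 / W ^ 3 := by ring
    have e3 : 2 * w / W ^ 2 * (w ^ 2 / W + 2 * w / W ^ 2) =
        2 * (w ^ 3 / W ^ 3) + 4 * (w ^ 2 / W ^ 4) := by ring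
    simp only [pow_zero] at h5
    rw [e1] at h1; rw [e2] at h2; rw [e3]; linarith
  have e' := mul_le_mul_of_nonneg_right e (mul_nonneg hN hM)
  have a0 := k4 0 0
  have a1 := k4 0 1
  have a2 := k4 1 0
  have a3 := k4 1 1
  simp only [Fin.sum_univ_two, card_univ, Fintype.card_fin, Nat.cast_ofNat] at k ⊢
  unfold cs
  rw [abs_le] at *
  constructor <;> linarith [k.1, k.2, k3.1, k3.2, a0.1, a0.2, a1.1, a1.2, a2.1, a2.2, a3.1, a3.2]

end H93.Ctx

open H93 in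
theorem holStmt (hK : KshStmt) (hB : BarStmt) (h3 : K3Stmt) (hM : MomStmt) (hA : AlgStmt) : HolStmt := by
  intro F θ₀ ε h0 hε hε'
  obtain ⟨W₁, H1⟩ := hK F θ₀ ε h0 hε hε'
  obtain ⟨W₂, H2⟩ := ctx hB h3 hM hA F hε hε'
  refine ⟨max W₁ W₂, fun W hW K hK => ?_⟩
  obtain ⟨δ, hδ, H⟩ := H1 W ((le_max_left _ _).trans hW) K hK
  refine ⟨δ, hδ, fun Λ hΛ l L hw G hG hL hg => ?_⟩
  have hS := H Λ hΛ l L hw G hG hL hg
  obtain ⟨A, B, p, q, κ, h⟩ := H2 W ((le_max_right _ _).trans hW) Λ hΛ G _ hG hg hS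
  obtain ⟨-, -, -, -, -, -, -, -, -, -, -, hl⟩ := hS
  have W0 := h.W0
  refine ⟨hl, fun X φ N M dX hX dφ hφ => ⟨?_, fun i => ?_, fun i j => ?_, fun ho h4 => ?_, fun ho => ?_,
    fun he hz => ?_⟩⟩
  · rw [rp (ε := ε) W0 6 1 (by push_cast; ring), pow_one]; exact h.any dX hX dφ hφ
  · rw [rp (ε := ε) W0 8 1 (by push_cast; ring), pow_one]; exact h.anyd dX hX dφ hφ i
  · rw [rp (ε := ε) W0 8 1 (by push_cast; ring), pow_one]; exact h.anydd dX hX dφ hφ i j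
  · rw [rp (ε := ε) W0 10 3 (by push_cast; ring)]; exact h.odd dX hX dφ hφ ho (Hs11.d4_iff.1 h4)
  · rw [rp (ε := ε) W0 10 2 (by push_cast; ring)]; exact h.vec93 dX hX dφ hφ ho
  · rw [rp (ε := ε) W0 10 3 (by push_cast; ring)]; exact h.even93 dX hX dφ hφ he hz

end Crest.Agent.T145.Kr
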