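import Crest.Agent.T145.KrDef_77
import Crest.Agent.T145.KrG_90

/-!
# Row 145, module KERNEL: `KsStmt` (helper90)
-/

set_option autoImplicit false

namespace Crest.Agent.T145.KrA

open Finset Real

variable {X Y : Type*}

theorem exp_two_pi_le {κ : ℝ} (h0 : 0 < κ) (h1 : κ ≤ 1) : exp (-(2 * π ^ 2 / κ)) ≤ 1 / 2 := by
  have : exp (-(2 * π ^ 2 / κ)) ≤ exp (-1) := exp_le_exp.2 (by
    rw [neg_le_neg_iff, le_div_iff₀ h0]; nlinarith [pi_gt_three])
  exact this.trans (by rw [exp_neg, inv_le_comm₀ (exp_pos _) (by norm_num)]; linarith [add_one_le_exp (1 : ℝ)])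

theorem thf_tail' {κ₀ κ : ℝ} (h0 : 0 < κ₀) (h1 : κ₀ ≤ 1) (hκ : κ₀ ≤ κ) (K : ℕ) {u : ℝ} (hu : |u| ≤ 2) :
    ∑' j : ℤ, (if j ∈ Icc (-(K + 1) : ℤ) (K + 1) then 0 else exp (-κ * (u - j) ^ 2 / 2)) ≤
      3 * √(4 * π / κ₀) * exp (-κ₀ * K ^ 2 / 4) := by
  have s : ∀ {k : ℝ}, 0 < k → Summable fun j : ℤ =>
      (if j ∈ Icc (-(K + 1) : ℤ) (K + 1) then 0 else exp (-k * (u - j) ^ 2 / 2)) := fun hk =>
    Summable.of_nonneg_of_le (fun j => by split_ifs; exacts [le_rfl, (exp_pos _).le])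
      (fun j => by split_ifs; exacts [(exp_pos _).le, le_rfl]) (summ_thf hk u)
  refine ((s (h0.trans_le hκ)).tsum_le_tsum (fun j => ?_) (s h0)).trans
    (thf_tail h0 (exp_two_pi_le h0 h1) K hu)
  split_ifs
  · exact le_rfl
  · exact exp_le_exp.2 (by nlinarith [sq_nonneg (u - j)])

theorem tsum_bx_le (A : Act X) (B : Act Y) {μ : X × Y → ℝ} (μ0 : ∀ z, 0 ≤ μ z)
    (μs : ∀ i a b, μ (A.s i a, B.s i b) = μ (a, b)) (μ1 : HasSum (fun z : X × Y => tw (A.H z.1) * μ z) 1)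
    (M : ℝ) : ∑' z : X × Y, A.bx M z.1 * B.bx M z.2 * μ z ≤ exp (M ^ 2 / 2) * (3 * √(2 * π / 1)) := by
  have b : ∀ (z : X × Y) (j : ℤ), A.bx M (A.s j z.1) ≤ exp (M ^ 2 / 2) * exp (-1 * (-A.H z.1 - j) ^ 2 / 2) :=
    fun z j => by
      by_cases h : A.bx M (A.s j z.1) = 0
      · rw [h]; positivity
      · have h1 := (A.bx_ne h).2
        rw [A.H_s] at h1
        rw [A.bx_one (A.bx_ne h), ← exp_add]
        exact one_le_exp (by nlinarith [sq_le_sq' (abs_le.1 h1).1 (abs_le.1 h1).2])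
  have s : ∀ z : X × Y, Summable fun j : ℤ => A.bx M (A.s j z.1) := fun z =>
    Summable.of_nonneg_of_le (fun _ => A.bx_nonneg _ _) (b z) ((summ_thf one_pos _).mul_left _)
  have l := exp_two_pi_le one_pos le_rfl
  have h := fold_diag A B (f := fun z => A.bx M z.1) μ0 (fun _ => A.bx_nonneg _ _) μs μ1
    (C := exp (M ^ 2 / 2) * (3 * √(2 * π / 1))) s fun z => by
      refine ((s z).tsum_le_tsum (b z) ((summ_thf one_pos _).mul_left _)).trans ?_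
      rw [tsum_mul_left]
      refine mul_le_mul_of_nonneg_left ?_ (exp_pos _).le
      have h1 := (abs_le.1 (thk_near one_pos l (-A.H z.1))).2
      rw [← div_le_iff₀ (sqrt_pos.2 (by positivity))]
      change thk 1 (-A.H z.1) ≤ 3
      linarith
  refine ((summ_bx A B μ0 μs μ1 M).tsum_le_tsum (fun z => ?_) h.1).trans h.2
  rw [mul_comm (μ z)]
  exact mul_le_mul_of_nonneg_right (mul_le_of_le_one_right (A.bx_nonneg _ _) (B.bx_le_one _ _)) (μ0 _)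

open Classical in
/-- soft form of `ksharpY` -/
theorem ksharp_soft {κ₀ κ₁ Y₀ η : ℝ} (h0 : 0 < κ₀) (hη : 0 < η) : ∃ K₀ : ℕ, ∀ K : ℕ, K₀ ≤ K →
    ∃ e : ℝ, 0 < e ∧ ∀ (X Y : Type) (A : Act X) (B : Act Y) (μ : X × Y → ℝ) (p : X → ℝ) (q : Y → ℝ)
      (y : X → Y → ℝ) (κ η₀ : ℝ), κ₀ ≤ κ → κ ≤ κ₁ → (∀ z, 0 ≤ μ z) →
      (∀ i a b, μ (A.s i a, B.s i b) = μ (a, b)) → HasSum (fun z : X × Y => tw (A.H z.1) * μ z) 1 →
      (∀ a, 0 ≤ p a) → (∀ b, 0 ≤ q b) → (∀ a, p (A.ng a) = p a) → (∀ b, q (B.ng b) = q b) →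
      (∀ i a b, y (A.s i a) b = y a b) → (∀ i a b, y a (B.s i b) = y a b) →
      (∀ a b, A.T a → B.T b → |y a b| ≤ Y₀) → (Summable fun a => A.bx (K + 3) a * p a) →
      (Summable fun b => B.bx (K + 3) b * q b) →
      ∑' z : X × Y, A.bx (K + 3) z.1 * B.bx (K + 3) z.2 *
        |μ z - p z.1 * q z.2 * exp (-κ * (A.H z.1 - B.H z.2) ^ 2 / 2 + y z.1 z.2)| ≤ e →
      ∑' z : X × Y, tw (A.H z.1) * μ z *
        (if A.T z.1 ∧ B.T z.2 ∧ |A.H z.1 - B.H z.2| < K then 0 else 1) ≤ η₀ →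
      ∑' z : X × Y, |mub A B μ z - A.pib p z.1 * B.pib q z.2 *
        (thf κ (A.H z.1 - B.H z.2) * exp (y z.1 z.2))| ≤ η₀ + η := by
  set k := min κ₀ 1 with hk
  have k0 : 0 < k := lt_min h0 one_pos
  set c := exp Y₀ * (3 * √(4 * π / k)) * (exp (2 * κ₁ + Y₀) * 2) with hc
  have c0 : 0 < c := by have := pi_pos; positivity
  obtain ⟨K₀, hK⟩ := exists_nat_ge (4 * (2 * c / η) / k + 1)
  refine ⟨K₀, fun K hK' => ?_⟩
  set d := (2 * K + 3 : ℝ) * (exp Y₀ * (149 + 4 * K) * exp (κ₁ * (2 * K + 6) ^ 2 / 2 + Y₀)) with hd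
  have d0 : 0 < d := by positivity
  refine ⟨min 1 (η / 2) / d, by positivity,
    fun X Y A B μ p q y κ η₀ k1 k2 μ0 μs μ1 p0 q0 pe qe ya yb y1 sp sq cl bad => ?_⟩
  set e := min 1 (η / 2) / d with he
  have e0 : 0 < e := by positivity
  have hκ : 0 < κ := h0.trans_le k1
  refine (ksharpY A B le_rfl hκ μ0 μs μ1 p0 q0 pe qe ya yb y1 sp sq (summ_bx A B μ0 μs μ1 _) cl bad
    fun u hu => thf_tail' k0 (min_le_right _ _) ((min_le_left _ _).trans k1) K hu).2.trans ?_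
  set e' := exp Y₀ * (149 + 4 * K) * (exp (κ * (2 * K + 6) ^ 2 / 2 + Y₀) * e) with he'
  have e'0 : 0 ≤ e' := by positivity
  have e3 : (2 * K + 3 : ℝ) * e' ≤ min 1 (η / 2) := by
    calc _ ≤ (2 * K + 3 : ℝ) * (exp Y₀ * (149 + 4 * K) * (exp (κ₁ * (2 * K + 6) ^ 2 / 2 + Y₀) * e)) := by
          rw [he']; gcongr
      _ = d * e := by rw [hd]; ring
      _ = _ := by rw [he]; field_simp
  have e4 : e' ≤ 1 := by nlinarith [min_le_left 1 (η / 2), Nat.cast_nonneg (α := ℝ) K]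
  have K1 : 4 * (2 * c / η) / k + 1 ≤ K := hK.trans (by exact_mod_cast hK')
  have e5 : exp (-k * K ^ 2 / 4) ≤ η / (2 * c) := by
    have t0 : 0 < 4 * (2 * c / η) / k := by positivity
    have t1 : 2 * c / η ≤ k * K ^ 2 / 4 := by
      have t2 : 4 * (2 * c / η) ≤ K * k := by rw [← div_le_iff₀ k0]; linarith
      have t3 : (K : ℝ) ≤ K ^ 2 := by nlinarith
      nlinarith [mul_le_mul_of_nonneg_left t3 k0.le]
    rw [show -k * K ^ 2 / 4 = -(k * K ^ 2 / 4) by ring, exp_neg, inv_le_comm₀ (exp_pos _) (by positivity),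
      inv_div]
    linarith [add_one_le_exp (k * K ^ 2 / 4)]
  have e6 : exp Y₀ * (3 * √(4 * π / k) * exp (-k * K ^ 2 / 4)) * (exp (2 * κ + Y₀) * (1 + e')) ≤ η / 2 := by
    have := pi_pos
    calc _ ≤ exp Y₀ * (3 * √(4 * π / k) * (η / (2 * c))) * (exp (2 * κ₁ + Y₀) * 2) := by
          gcongr; linarith
      _ = c * (η / (2 * c)) := by rw [hc]; ring
      _ = η / 2 := by field_simp
  linarith [min_le_right 1 (η / 2)]

/-- a weight close to a product is close to a multiple of the product of its marginals -/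
theorem marg_prod' {ρ : X × Y → ℝ} {P : X → ℝ} {Q : Y → ℝ} {ε : ℝ} (sρ : Summable ρ)
    (P0 : ∀ a, 0 ≤ P a) (Q0 : ∀ b, 0 ≤ Q b) (s : Summable fun z : X × Y => |ρ z - P z.1 * Q z.2|)
    (cl : n1 (fun z : X × Y => ρ z - P z.1 * Q z.2) ≤ ε) (hε : 0 < ε) (hm : 2 * ε ≤ ∑' z, ρ z) :
    ∃ c : ℝ, 0 < c ∧ n1 (fun z : X × Y => ρ z - c * (∑' b, ρ (z.1, b)) * ∑' a, ρ (a, z.2)) ≤ 4 * ε := by
  have sPQ : Summable fun z : X × Y => P z.1 * Q z.2 := by
    simpa using sρ.sub (summable_abs_iff.1 s)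
  have h1 : ε ≤ ∑' z : X × Y, P z.1 * Q z.2 := by
    have h := norm_tsum_le_tsum_norm (f := fun z : X × Y => ρ z - P z.1 * Q z.2) s
    rw [sρ.tsum_sub sPQ, Real.norm_eq_abs] at h
    linarith [(abs_le.1 (h.trans cl)).2]
  obtain ⟨z, hz⟩ : ∃ z : X × Y, P z.1 * Q z.2 ≠ 0 := by
    by_contra h
    push Not at h
    simp only [h, tsum_zero] at h1; linarith
  have sQ : Summable Q := (summable_mul_left_iff (left_ne_zero_of_mul hz)).1 (sPQ.prod_factor z.1)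
  have sP : Summable P := (summable_mul_right_iff (right_ne_zero_of_mul hz)).1
    (((Equiv.prodComm Y X).summable_iff.2 sPQ).prod_factor z.2)
  rw [tsum_prod_mul sP sQ] at h1
  set α := ∑' a, P a
  set β := ∑' b, Q b
  have ab : 0 < α * β := hε.trans_le h1
  have α0 : 0 < α := lt_of_le_of_ne (tsum_nonneg P0) fun h => by rw [← h] at ab; simp at ab
  have β0 : 0 < β := lt_of_le_of_ne (tsum_nonneg Q0) fun h => by rw [← h] at ab; simp at ab
  have key := (marg_prod (ρ := fun z => (α * β)⁻¹ * ρ z) (p := fun a => α⁻¹ * P a) (q := fun b => β⁻¹ * Q b)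
    (ε := (α * β)⁻¹ * ε) (sρ.mul_left _) (fun a => mul_nonneg (inv_pos.2 α0).le (P0 a))
    (fun b => mul_nonneg (inv_pos.2 β0).le (Q0 b))
    (inv_mul_cancel₀ α0.ne' ▸ sP.hasSum.mul_left α⁻¹) (inv_mul_cancel₀ β0.ne' ▸ sQ.hasSum.mul_left β⁻¹)
    (by
      rw [show (fun z : X × Y => (α * β)⁻¹ * ρ z - α⁻¹ * P z.1 * (β⁻¹ * Q z.2)) =
        fun z => (α * β)⁻¹ * (ρ z - P z.1 * Q z.2) from funext fun z => by rw [mul_inv]; ring, n1_mul,
        abs_of_pos (inv_pos.2 ab)]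
      exact mul_le_mul_of_nonneg_left cl (inv_pos.2 ab).le)).2.2.2
  refine ⟨(α * β)⁻¹, inv_pos.2 ab, ?_⟩
  simp only [tsum_mul_left] at key
  rw [show (fun z : X × Y => (α * β)⁻¹ * ρ z - (α * β)⁻¹ * (∑' b, ρ (z.1, b)) * ((α * β)⁻¹ * ∑' a, ρ (a, z.2))) =
    fun z => (α * β)⁻¹ * (ρ z - (α * β)⁻¹ * (∑' b, ρ (z.1, b)) * ∑' a, ρ (a, z.2)) from
      funext fun z => by ring, n1_mul, abs_of_pos (inv_pos.2 ab)] at key
  have h2 : (α * β)⁻¹ * ε ≤ 1 := by rw [inv_mul_le_iff₀ ab]; linarith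
  refine le_of_mul_le_mul_left (key.trans ?_) (inv_pos.2 ab)
  nlinarith [mul_pos (inv_pos.2 ab) hε]

end Crest.Agent.T145.KrA

namespace Crest.Agent.T145.Kr

open Finset Real KrA

set_option maxHeartbeats 800000 in
theorem ksStmt : KsStmt := by
  classical
  intro κ₀ κ₁ M₀ η h0 hη
  obtain ⟨K₀, hK⟩ := ksharp_soft (κ₁ := κ₁) (Y₀ := M₀) h0 hη
  refine ⟨K₀ + 8, fun K M hKK => ?_⟩
  have K8 : (8 : ℝ) ≤ K := by linarith [Nat.cast_nonneg (α := ℝ) K₀]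
  obtain ⟨N, hN1, hN2, hN3⟩ : ∃ N : ℕ, K₀ ≤ N ∧ (N + 3 : ℝ) ≤ K ∧ K < N + 4 := by
    have f1 := Nat.floor_le (show 0 ≤ K - 3 by linarith)
    have f2 := Nat.lt_floor_add_one (K - 3)
    exact ⟨⌊K - 3⌋₊, Nat.le_floor (by linarith), by linarith, by linarith⟩
  obtain ⟨e₀, e00, he₀⟩ := hK N hN1
  set L := exp (κ₁ * (2 * N + 6) ^ 2 / 2 + M₀) with hL
  set C := exp ((N + 3 : ℝ) ^ 2 / 2) * (3 * √(2 * π / 1)) with hC
  set c := L * (exp (M / 2) + 2 * (C + exp (M / 2))) with hc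
  have c0 : 0 < c := by positivity
  set ε := min (exp (-M₀) * η / 2) (exp (-M₀) * e₀ / 4) with hε
  have ε0 : 0 < ε := by positivity
  refine ⟨min 1 (ε / c), by positivity,
    fun X Y A B ν Bq y p₁ B₁ p₂ B₂ κ η₁ k1 k2 hP y1 p10 p20 bad k0 hB => ?_⟩
  set e := min 1 (ε / c) with he
  have e0 : 0 < e := by positivity
  have e1 : e ≤ 1 := min_le_left _ _
  have ec : c * e ≤ ε := by rw [mul_comm, ← le_div_iff₀ c0]; exact min_le_right _ _
  have hκ : 0 < κ := h0.trans_le k1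
  by_cases hη₁ : 1 ≤ η₁ + η
  · refine ⟨fun _ => 0, fun _ => 0, fun _ => le_rfl, fun _ => le_rfl, fun _ => rfl, fun _ => rfl, ?_, ?_,
      fun _ _ _ => ⟨fun _ => rfl, fun _ => rfl⟩, le_of_eq_of_le ?_ hη₁⟩
    · exact (summable_zero (α := ℝ)).congr fun a => by simp [Act.pib, Act.pi0]
    · exact (summable_zero (α := ℝ)).congr fun a => by simp [Act.pib, Act.pi0]
    · rw [← (hasSum_mub_one A B hP.nonneg hP.one).tsum_eq]
      refine tsum_congr fun z => ?_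
      simp only [Act.pib, Act.pi0, zero_mul, tsum_zero, mul_zero, sub_zero]
      exact abs_of_nonneg (mub_nonneg A B hP.nonneg z)
  set b : X × Y → ℝ := fun z => A.bx (N + 3) z.1 * B.bx (N + 3) z.2 with hb
  have b0 : ∀ z, 0 ≤ b z := fun z => mul_nonneg (A.bx_nonneg _ _) (B.bx_nonneg _ _)
  have b1 : ∀ z, b z ≠ 0 → (A.T z.1 ∧ |A.H z.1| ≤ N + 3) ∧ (B.T z.2 ∧ |B.H z.2| ≤ N + 3) := fun z hz =>
    ⟨A.bx_ne (left_ne_zero_of_mul hz), B.bx_ne (right_ne_zero_of_mul hz)⟩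
  have b2 : ∀ z, b z ≠ 0 → b z = 1 := fun z hz => by
    simp only [hb]; rw [A.bx_one (b1 z hz).1, B.bx_one (b1 z hz).2, one_mul]
  set k : X × Y → ℝ := fun z => exp (-κ * (A.H z.1 - B.H z.2) ^ 2 / 2 + y z.1 z.2) with hk
  have k0' : ∀ z, 0 < k z := fun z => exp_pos _
  have kU : ∀ z, b z ≠ 0 → k z ≤ exp M₀ := fun z hz => exp_le_exp.2 (by
    have := (abs_le.1 (y1 _ _ (b1 z hz).1.1 (b1 z hz).2.1)).2
    nlinarith [mul_nonneg hκ.le (sq_nonneg (A.H z.1 - B.H z.2))])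
  have kL : ∀ z, b z ≠ 0 → (k z)⁻¹ ≤ L := fun z hz => by
    obtain ⟨ha, hb⟩ := b1 z hz
    rw [hk, ← exp_neg]
    refine exp_le_exp.2 ?_
    have h1 := (abs_le.1 (y1 _ _ ha.1 hb.1)).1
    have h2 : (A.H z.1 - B.H z.2) ^ 2 ≤ (2 * N + 6) ^ 2 :=
      sq_le_sq' (by linarith [abs_le.1 ha.2, abs_le.1 hb.2]) (by linarith [abs_le.1 ha.2, abs_le.1 hb.2])
    nlinarith [mul_le_mul k2 h2 (sq_nonneg _) (hκ.le.trans k2)]
  have su : Summable fun z => b z * ν z := summ_bx A B hP.nonneg hP.shift hP.one _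
  have tu : ∑' z, b z * ν z ≤ C := tsum_bx_le A B hP.nonneg hP.shift hP.one _
  set r : X × Y → ℝ := fun z => b z * |ν z * exp (-Bq z / 2) - p₁ z.1 * p₂ z.2| with hr
  have r0 : ∀ z, 0 ≤ r z := fun z => mul_nonneg (b0 z) (abs_nonneg _)
  have rS : ∀ S : Finset (X × Y), ∑ z ∈ S, r z ≤ e := fun S => by
    refine le_trans ?_ (k0 (S.filter fun z => |A.H z.1| ≤ K) fun z hz => (mem_filter.1 hz).2)
    rw [sum_filter]
    refine sum_le_sum fun z _ => ?_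
    by_cases hz : b z = 0
    · simp only [hr, hz, zero_mul]; split_ifs; exacts [abs_nonneg _, le_rfl]
    · rw [if_pos ((b1 z hz).1.2.trans hN2)]; simp only [hr, b2 z hz, one_mul, le_refl]
  have sr : Summable r := summable_of_sum_le r0 rS
  have tr : ∑' z, r z ≤ e := sr.tsum_le_of_sum_le rS
  set P : X → ℝ := fun a => A.bx (N + 3) a * (p₁ a * exp (B₁ a + κ * A.H a ^ 2 / 2)) with hP'
  set Q : Y → ℝ := fun a => B.bx (N + 3) a * (p₂ a * exp (B₂ a + κ * B.H a ^ 2 / 2)) with hQ'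
  set ρ : X × Y → ℝ := fun z => b z * ν z * (k z)⁻¹ with hρ
  have ρ0 : ∀ z, 0 ≤ ρ z := fun z => mul_nonneg (mul_nonneg (b0 z) (hP.nonneg z)) (inv_pos.2 (k0' z)).le
  have sρ : Summable ρ := summ_bdd (fun z => mul_nonneg (b0 z) (hP.nonneg z)) su (U := L) fun z hz => by
    rw [abs_of_pos (inv_pos.2 (k0' z))]; exact kL z (left_ne_zero_of_mul hz)
  have pt : ∀ z : X × Y, |ρ z - P z.1 * Q z.2| ≤
      L * (exp (M / 2) * r z + 2 * e * (b z * ν z + exp (M / 2) * r z)) := fun z => by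
    have n0 := hP.nonneg z
    have r1 := r0 z
    by_cases hz : b z = 0
    · have : P z.1 * Q z.2 = 0 := by
        simp only [hP', hQ']; rw [mul_mul_mul_comm]; exact mul_eq_zero_of_left hz _
      simp only [hρ, this, hz, zero_mul, sub_zero, abs_zero]; positivity
    · obtain ⟨ha, hb'⟩ := b1 z hz
      obtain ⟨q1, q2⟩ := hB _ _ ha.1 (ha.2.trans hN2) hb'.1 (hb'.2.trans hN2)
      rw [abs_sub_comm] at q2
      have d2 := (abs_exp_sub_one_le (q2.trans e1)).trans (mul_le_mul_of_nonneg_left q2 zero_le_two)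
      have pp := mul_nonneg (p10 z.1) (p20 z.2)
      have x1 : exp (Bq z / 2) ≤ exp (M / 2) := exp_le_exp.2 (by linarith)
      have x2 : |ν z - p₁ z.1 * p₂ z.2 * exp (Bq z / 2)| ≤ exp (M / 2) * r z := by
        rw [show ν z - p₁ z.1 * p₂ z.2 * exp (Bq z / 2) =
          exp (Bq z / 2) * (ν z * exp (-Bq z / 2) - p₁ z.1 * p₂ z.2) by
            rw [neg_div, exp_neg]; field_simp, abs_mul, abs_of_pos (exp_pos _)]
        simp only [hr, b2 z hz, one_mul]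
        exact mul_le_mul_of_nonneg_right x1 (abs_nonneg _)
      have x3 : ρ z - P z.1 * Q z.2 = (k z)⁻¹ * ((ν z - p₁ z.1 * p₂ z.2 * exp (Bq z / 2)) -
          p₁ z.1 * p₂ z.2 * exp (Bq z / 2) *
            (exp (B₁ z.1 + B₂ z.2 + κ * A.H z.1 * B.H z.2 + y z.1 z.2 - Bq (z.1, z.2) / 2) - 1)) := by
        have t1 : exp (B₁ z.1 + κ * A.H z.1 ^ 2 / 2) * exp (B₂ z.2 + κ * B.H z.2 ^ 2 / 2) * k z =
            exp (Bq z / 2) *
              exp (B₁ z.1 + B₂ z.2 + κ * A.H z.1 * B.H z.2 + y z.1 z.2 - Bq (z.1, z.2) / 2) := by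
          simp only [hk, ← exp_add]; congr 1; ring
        have t2 := mul_inv_cancel₀ (k0' z).ne'
        simp only [hρ, hP', hQ', b2 z hz, A.bx_one ha, B.bx_one hb']
        linear_combination (-(p₁ z.1 * p₂ z.2) * (k z)⁻¹) * t1 + (p₁ z.1 * p₂ z.2 *
          exp (B₁ z.1 + κ * A.H z.1 ^ 2 / 2) * exp (B₂ z.2 + κ * B.H z.2 ^ 2 / 2)) * t2
      rw [x3, abs_mul, abs_of_pos (inv_pos.2 (k0' z)), b2 z hz, one_mul]
      refine mul_le_mul (kL z hz) ((abs_sub _ _).trans (add_le_add x2 ?_)) (abs_nonneg _) (exp_pos _).le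
      rw [abs_mul, abs_of_nonneg (mul_nonneg pp (exp_pos _).le), mul_comm]
      exact mul_le_mul d2 (by linarith [(abs_le.1 x2).1]) (mul_nonneg pp (exp_pos _).le) (by positivity)
  have s3 := ((sr.mul_left (exp (M / 2))).add ((su.add (sr.mul_left (exp (M / 2)))).mul_left (2 * e))).mul_left L
  have s4 := Summable.of_nonneg_of_le (fun _ => abs_nonneg _) pt s3
  have cl : n1 (fun z : X × Y => ρ z - P z.1 * Q z.2) ≤ ε := by
    refine (s4.tsum_le_tsum pt s3).trans (le_trans ?_ ec)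
    rw [tsum_mul_left, (sr.mul_left _).tsum_add ((su.add (sr.mul_left _)).mul_left _), tsum_mul_left,
      tsum_mul_left, su.tsum_add (sr.mul_left _), tsum_mul_left, hc, mul_assoc L]
    refine mul_le_mul_of_nonneg_left ?_ (exp_pos _).le
    have t1 := mul_le_mul_of_nonneg_left tr (exp_pos (M / 2)).le
    have t2 := mul_le_mul_of_nonneg_left e1 (exp_pos (M / 2)).le
    nlinarith [mul_le_mul_of_nonneg_left (add_le_add tu (t1.trans t2)) e0.le]
  have good : ∀ z : X × Y, tw (A.H z.1) * ν z * (if A.T z.1 ∧ B.T z.2 ∧ |A.H z.1 - B.H z.2| < N then 0 else 1) ≤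
      tw (A.H z.1) * ν z * ind (¬ (A.T z.1 ∧ B.T z.2 ∧ |A.H z.1 - B.H z.2| ≤ K / 2)) := fun z => by
    refine mul_le_mul_of_nonneg_left ?_ (mul_nonneg (tw_nonneg _) (hP.nonneg z))
    split_ifs with h
    · exact ind_nonneg _
    · exact (ind_pos fun h' => h ⟨h'.1, h'.2.1, by linarith [h'.2.2]⟩).ge
  have sb : Summable fun z : X × Y =>
      tw (A.H z.1) * ν z * ind (¬ (A.T z.1 ∧ B.T z.2 ∧ |A.H z.1 - B.H z.2| ≤ K / 2)) :=
    summ_bdd (fun z => mul_nonneg (tw_nonneg _) (hP.nonneg z)) hP.one.summable (U := 1) fun z _ => abs_ind_le _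
  have hm : 2 * ε ≤ ∑' z, ρ z := by
    have t : ∀ z : X × Y, exp (-M₀) * (tw (A.H z.1) * ν z - tw (A.H z.1) * ν z *
        ind (¬ (A.T z.1 ∧ B.T z.2 ∧ |A.H z.1 - B.H z.2| ≤ K / 2))) ≤ ρ z := fun z => by
      by_cases h : tw (A.H z.1) ≠ 0 ∧ A.T z.1 ∧ B.T z.2 ∧ |A.H z.1 - B.H z.2| ≤ K / 2
      · have a1 := abs_lt.1 (lt_of_tw h.1)
        have a2 := abs_le.1 h.2.2.2
        have hz : b z = 1 := by
          simp only [hb]
          rw [A.bx_one ⟨h.2.1, abs_le.2 ⟨by linarith, by linarith⟩⟩,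
            B.bx_one ⟨h.2.2.1, abs_le.2 ⟨by linarith, by linarith⟩⟩, one_mul]
        rw [ind_neg (not_not.2 h.2), mul_zero, sub_zero, mul_comm]
        simp only [hρ, hz, one_mul]
        refine mul_le_mul (mul_le_of_le_one_left (hP.nonneg z) (tw_le_one _)) ?_ (exp_pos _).le (hP.nonneg z)
        rw [exp_neg]
        exact inv_anti₀ (k0' z) (kU z (hz ▸ one_ne_zero))
      · refine le_of_eq_of_le ?_ (ρ0 z)
        by_cases h1 : tw (A.H z.1) = 0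
        · simp [h1]
        · rw [ind_pos fun h' => h ⟨h1, h'⟩]; ring
    have t2 := hasSum_le t ((hP.one.sub sb.hasSum).mul_left _) sρ.hasSum
    have t3 := mul_le_mul_of_nonneg_left ((show η ≤ 1 - η₁ by linarith [not_le.1 hη₁]).trans
      (sub_le_sub_left bad 1)) (exp_pos (-M₀)).le
    linarith [min_le_left (exp (-M₀) * η / 2) (exp (-M₀) * e₀ / 4)]
  obtain ⟨c', c'0, hc'⟩ := marg_prod' sρ (P := P) (Q := Q)
    (fun a => mul_nonneg (A.bx_nonneg _ _) (mul_nonneg (p10 a) (exp_pos _).le))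
    (fun a => mul_nonneg (B.bx_nonneg _ _) (mul_nonneg (p20 a) (exp_pos _).le)) s4 cl ε0 hm
  have sρ' : Summable fun z : Y × X => ρ (z.2, z.1) := (Equiv.prodComm Y X).summable_iff.2 sρ
  have sa : Summable fun a => c' * ∑' b, ρ (a, b) := sρ.prod.mul_left _
  have sb' : Summable fun b => ∑' a, ρ (a, b) := sρ'.prod
  have p0 : ∀ a, 0 ≤ c' * ∑' b, ρ (a, b) := fun a => mul_nonneg c'0.le (tsum_nonneg fun _ => ρ0 _)
  have q0 : ∀ b, 0 ≤ ∑' a, ρ (a, b) := fun a => tsum_nonneg fun _ => ρ0 _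
  have inv : ∀ (g : X ≃ X) (g' : Y ≃ Y), (∀ a b, ρ (g a, g' b) = ρ (a, b)) →
      (∀ a, c' * ∑' b, ρ (g a, b) = c' * ∑' b, ρ (a, b)) ∧ ∀ b, ∑' a, ρ (a, g' b) = ∑' a, ρ (a, b) :=
    fun g g' h => ⟨fun a => by rw [← g'.tsum_eq]; simp only [h], fun b => by rw [← g.tsum_eq]; simp only [h]⟩
  have ng := inv A.ng B.ng fun a b => by
    simp only [hρ, hb, hk, A.bx_ng, B.bx_ng, hP.neg, A.H_ng, B.H_ng, hP.yn]
    congr 3; ring
  have sp : Summable fun a => A.bx (N + 3) a * (c' * ∑' b, ρ (a, b)) :=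
    Summable.of_nonneg_of_le (fun a => mul_nonneg (A.bx_nonneg _ _) (p0 a))
      (fun a => mul_le_of_le_one_left (p0 a) (A.bx_le_one _ _)) sa
  have sq : Summable fun b => B.bx (N + 3) b * ∑' a, ρ (a, b) :=
    Summable.of_nonneg_of_le (fun a => mul_nonneg (B.bx_nonneg _ _) (q0 a))
      (fun a => mul_le_of_le_one_left (q0 a) (B.bx_le_one _ _)) sb'
  have N3 : (3 : ℝ) ≤ N + 3 := by linarith [Nat.cast_nonneg (α := ℝ) N]
  refine ⟨fun a => c' * ∑' b, ρ (a, b), fun b => ∑' a, ρ (a, b), p0, q0, ng.1, ng.2,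
    A.summ_pib p0 N3 sp, B.summ_pib q0 N3 sq, fun g g' hS => inv g g' fun a b => by
      simp only [hρ, hb, hk, Act.bx, hS.nu, hS.H, hS.t, hS.y, hS.T, hS.T'],
    he₀ X Y A B ν _ _ y κ η₁ k1 k2 hP.nonneg hP.shift hP.one p0 q0 ng.1 ng.2 hP.ya hP.yb y1 sp sq ?_
      (((Summable.of_nonneg_of_le (fun z => mul_nonneg (mul_nonneg (tw_nonneg _) (hP.nonneg z))
        (by split_ifs <;> norm_num)) good sb).tsum_le_tsum good sb).trans bad)⟩
  have s5 := ((sρ.sub (summ_tens sa sb')).abs).mul_left (exp M₀)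
  have pt2 : ∀ z : X × Y, b z * |ν z - (c' * ∑' b, ρ (z.1, b)) * (∑' a, ρ (a, z.2)) * k z| ≤
      exp M₀ * |ρ z - (c' * ∑' b, ρ (z.1, b)) * ∑' a, ρ (a, z.2)| := fun z => by
    by_cases hz : b z = 0
    · rw [hz, zero_mul]; positivity
    · rw [b2 z hz, one_mul, show ν z - (c' * ∑' b, ρ (z.1, b)) * (∑' a, ρ (a, z.2)) * k z =
        k z * (ρ z - (c' * ∑' b, ρ (z.1, b)) * ∑' a, ρ (a, z.2)) by
          rw [show ρ z = b z * ν z * (k z)⁻¹ from rfl, b2 z hz]; field_simp [(k0' z).ne'],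
        abs_mul, abs_of_pos (k0' z)]
      exact mul_le_mul_of_nonneg_right (kU z hz) (abs_nonneg _)
  refine ((Summable.of_nonneg_of_le (fun z => mul_nonneg (b0 z) (abs_nonneg _)) pt2 s5).tsum_le_tsum pt2
    s5).trans ?_
  rw [tsum_mul_left]
  have t1 := mul_le_mul_of_nonneg_left (hc'.trans (mul_le_mul_of_nonneg_left
    (min_le_right (exp (-M₀) * η / 2) (exp (-M₀) * e₀ / 4)) (by norm_num))) (exp_pos M₀).le
  refine t1.trans (le_of_eq ?_)
  rw [exp_neg]; field_simp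

end Crest.Agent.T145.Kr
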