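import Crest.Agent.T145.PotD_17
import Crest.Agent.T145.PotPo_44
import Crest.Agent.T145.PotHo_14
import Crest.Agent.T145.PotHl_59

/-!
# Row 145 (helper75): P0, smooth approximation of Green potentials in energy

Logarithmic cut-off at the boundary, translation estimate, mollification.
-/

set_option autoImplicit false

namespace Crest.Agent.T145.Pot

open Finset Ho14

namespace P75

variable {Λ : Lat} {u v w c g : Pt → ℝ}

/-- the energy of a finitely supported function -/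
noncomputable def EJ (Λ : Lat) (u : Pt → ℝ) : ℝ := ∑ y ∈ Λ.Jp, S (dif y u)

theorem EJ_nonneg (Λ : Lat) (u : Pt → ℝ) : 0 ≤ EJ Λ u := sum_nonneg fun _ _ => S_nonneg _

theorem EJ_eq (h : Λ.Ok) {D : Finset Pt} (hu : Sup D u) : EJ Λ u = eD Λ D u u := (eD_eq h hu).symm

theorem EJ_shift (Λ : Lat) (u : Pt → ℝ) (y : Pt) : EJ Λ (fun x => u (x + y)) = EJ Λ u :=
  sum_congr rfl fun e _ => by
    rw [← S_shift (dif e u) y]; congr 1; funext x; simp only [dif, add_right_comm]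

theorem EJ_smul (Λ : Lat) (u : Pt → ℝ) (a : ℝ) : EJ Λ (a • u) = a ^ 2 * EJ Λ u := by
  rw [EJ, EJ, mul_sum]
  refine sum_congr rfl fun e _ => ?_
  rw [← S_smul]; congr 1; funext x; simp only [dif, Pi.smul_apply, smul_eq_mul]; ring

theorem common (hu : F u) (hv : F v) : ∃ D, Sup D u ∧ Sup D v := by
  obtain ⟨D, hD⟩ := hu
  obtain ⟨D', hD'⟩ := hv
  exact ⟨D ∪ D', hD.mono subset_union_left, hD'.mono subset_union_right⟩

theorem EJ_add (h : Λ.Ok) (hu : F u) (hv : F v) : √(EJ Λ (u + v)) ≤ √(EJ Λ u) + √(EJ Λ v) := by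
  obtain ⟨D, h1, h2⟩ := common hu hv
  rw [EJ_eq h h1, EJ_eq h h2, EJ_eq h (h1.add h2)]
  exact (sy_eD D).sqrt_add u v

theorem EJ_sub (h : Λ.Ok) (hu : F u) (hv : F v) : √(EJ Λ (u - v)) ≤ √(EJ Λ u) + √(EJ Λ v) := by
  have := EJ_add h hu (hv.smul (-1))
  rwa [EJ_smul, neg_one_sq, one_mul, neg_one_smul, ← sub_eq_add_neg] at this

theorem F_zero : F (0 : Pt → ℝ) := ⟨∅, sup_zero _⟩

theorem F_sum {ι : Type*} (T : Finset ι) {u : ι → Pt → ℝ} (hu : ∀ i ∈ T, F (u i)) :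
    F (∑ i ∈ T, u i) := sum_induction _ F (fun _ _ => F.add) F_zero hu

theorem EJ_sum (h : Λ.Ok) {ι : Type*} (T : Finset ι) {u : ι → Pt → ℝ} (hu : ∀ i ∈ T, F (u i)) :
    √(EJ Λ (∑ i ∈ T, u i)) ≤ ∑ i ∈ T, √(EJ Λ (u i)) := by
  classical
  induction T using Finset.induction_on with
  | empty => simp [EJ, S, dif]
  | insert i T hi ih =>
    rw [sum_insert hi, sum_insert hi]
    have h2 : ∀ j ∈ T, F (u j) := fun j hj => hu j (mem_insert_of_mem hj)
    exact (EJ_add h (hu i (mem_insert_self _ _)) (F_sum T h2)).trans (add_le_add le_rfl (ih h2))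

theorem abs_I_le (hu : F u) (hv : F v) : |I u v| ≤ √(S u) * √(S v) := by
  obtain ⟨D, h1, h2⟩ := common hu hv
  rw [S_eq h1, S_eq h2, I, tsum_eq_sum (s := D) fun x hx => by simp [h1 x hx], ← Real.sqrt_mul
    (sum_nonneg fun _ _ => sq_nonneg _)]
  exact Real.abs_le_sqrt (sum_mul_sq_le_sq_mul_sq _ _ _)

theorem N_dif_add (hu : F u) (y y' : Pt) :
    √(S (dif (y + y') u)) ≤ √(S (dif y u)) + √(S (dif y' u)) := by
  have e : dif (y + y') u = (fun x => dif y u (x + y')) + dif y' u := by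
    funext x; simp only [dif, Pi.add_apply, add_assoc, add_comm y y']; ring
  rw [e, ← S_shift (dif y u) y']
  exact N_add ((hu.dif y).shift y') (hu.dif y')

theorem N_dif_zsmul (hu : F u) (e : Pt) (n : ℤ) :
    √(S (dif (n • e) u)) ≤ |(n : ℝ)| * √(S (dif e u)) := by
  have key : ∀ n : ℕ, √(S (dif ((n : ℤ) • e) u)) ≤ n * √(S (dif e u)) := fun n => by
    induction n with
    | zero => simp [S, dif]
    | succ n ih =>
      push_cast
      rw [add_smul, one_smul, add_mul, one_mul]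
      exact (N_dif_add hu _ _).trans (add_le_add ih le_rfl)
  obtain ⟨m, rfl | rfl⟩ := n.eq_nat_or_neg
  · simpa using key m
  · rw [neg_smul, S_dif_neg]; simpa using key m

theorem N_dif_le (h : Λ.Ok) (hu : F u) {y : Pt} {m : ℕ} (hy : y ∈ bl 0 m) :
    √(S (dif y u)) ≤ 2 * m * √(EJ Λ u) := by
  have e : y = y.1 • ((1, 0) : Pt) + y.2 • ((0, 1) : Pt) := by ext <;> simp
  have k : ∀ e ∈ nL.Jp, √(S (dif e u)) ≤ √(EJ Λ u) := fun e he =>
    Real.sqrt_le_sqrt (single_le_sum (f := fun y => S (dif y u)) (fun _ _ => S_nonneg _) (nn_subset h he))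
  have k1 := k (1, 0) (by simp [nL_Jp])
  have k2 := k (0, 1) (by simp [nL_Jp])
  rw [mem_bl_abs] at hy
  have h1 : |(y.1 : ℝ)| ≤ m := by have := hy.1; simp only [Prod.fst_zero, sub_zero] at this; exact_mod_cast this
  have h2 : |(y.2 : ℝ)| ≤ m := by have := hy.2; simp only [Prod.snd_zero, sub_zero] at this; exact_mod_cast this
  conv_lhs => rw [e]
  refine (N_dif_add hu _ _).trans ((add_le_add (N_dif_zsmul hu _ _) (N_dif_zsmul hu _ _)).trans ?_)
  have := mul_le_mul h1 k1 (Real.sqrt_nonneg _) (Nat.cast_nonneg m)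
  have := mul_le_mul h2 k2 (Real.sqrt_nonneg _) (Nat.cast_nonneg m)
  linarith

/-- translation estimate in energy -/
theorem transl (h : Λ.Ok) (hv : F v) (hc : F c) (hg : F g) (e : v = w - c) {y : Pt} {m : ℕ}
    (hy : y ∈ bl 0 m) (hl : ∀ x, v x ≠ 0 → ∀ x' ∈ bl x m, lapJ Λ.J w x' = -g x') :
    √(EJ Λ (dif y v)) ≤ 2 * m * √(S g) + 2 * √(EJ Λ c) := by
  obtain ⟨D, h1, h2⟩ := common (hv.dif y) (hc.dif y)
  set φ := dif y v with hφ
  have hy' : -y ∈ bl 0 m := by rw [mem_bl] at *; simp only [Prod.fst_neg, Prod.snd_neg, Prod.fst_zero, Prod.snd_zero] at *; omega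
  have e1 : eD Λ D φ φ = eD Λ D (dif y w) φ - eD Λ D (dif y c) φ := by
    have : φ = dif y w - dif y c := by funext x; simp only [hφ, e, dif, Pi.sub_apply]; ring
    conv_lhs => enter [1, 2]; rw [this]
    simp
  have e2 : eD Λ D (dif y w) φ = I g (dif (-y) φ) := by
    rw [eD_sbp h _ h1, ← I_dif hg, I, tsum_eq_sum (s := D) fun x hx => by simp [h1 x hx],
      ← sum_neg_distrib, lapJ_dif]
    refine sum_congr rfl fun x _ => ?_
    by_cases hx : φ x = 0
    · simp [hx]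
    · have : lapJ Λ.J w x = -g x ∧ lapJ Λ.J w (x + y) = -g (x + y) := by
        by_cases h0 : v x = 0
        · have h3 : v (x + y) ≠ 0 := fun h3 => hx (by simp [hφ, dif, h0, h3])
          refine ⟨hl _ h3 _ ?_, hl _ h3 _ (self_mem_bl _ _)⟩
          rw [mem_bl] at *; simp only [Prod.fst_add, Prod.snd_add, Prod.fst_zero, Prod.snd_zero] at *; omega
        · refine ⟨hl _ h0 _ (self_mem_bl _ _), hl _ h0 _ ?_⟩
          rw [mem_bl] at *; simp only [Prod.fst_add, Prod.snd_add, Prod.fst_zero, Prod.snd_zero] at *; omega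
      simp only [dif, this.1, this.2]; ring
  have hφF : F φ := hv.dif y
  have b1 : |I g (dif (-y) φ)| ≤ √(S g) * (2 * m * √(EJ Λ φ)) :=
    (abs_I_le hg (hφF.dif _)).trans (mul_le_mul_of_nonneg_left (N_dif_le h hφF hy') (Real.sqrt_nonneg _))
  have b2 : |eD Λ D (dif y c) φ| ≤ (2 * √(EJ Λ c)) * √(EJ Λ φ) := by
    refine ((sy_eD D).abs_le _ _).trans ?_
    rw [← EJ_eq h h1, ← EJ_eq h h2]
    refine mul_le_mul_of_nonneg_right ?_ (Real.sqrt_nonneg _)
    have := EJ_sub h (hc.shift y) hc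
    rw [EJ_shift] at this
    exact this.trans_eq (by ring)
  have e3 : √(EJ Λ φ) * √(EJ Λ φ) = I g (dif (-y) φ) - eD Λ D (dif y c) φ := by
    rw [Real.mul_self_sqrt (EJ_nonneg _ _), EJ_eq h h1, e1, e2]
  rcases (Real.sqrt_nonneg (EJ Λ φ)).eq_or_lt with h0 | h0
  · rw [← h0]; positivity
  · refine le_of_mul_le_mul_right ?_ h0
    rw [e3]
    linarith [(abs_le.1 b1).2, (abs_le.1 b2).1]

/-- the mollifier of radius `2 a` -/
noncomputable def ker (a : ℕ) (y : Pt) : ℝ := cut 0 a (2 * a) y / ∑ y ∈ bl 0 (2 * a), cut 0 a (2 * a) y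

/-- mollification -/
noncomputable def mol (a : ℕ) (v : Pt → ℝ) (x : Pt) : ℝ := ∑ y ∈ bl 0 (2 * a), ker a y * v (x + y)

theorem le_mass {a : ℕ} (ha : 1 ≤ a) : (a : ℝ) ^ 2 ≤ ∑ y ∈ bl 0 (2 * a), cut 0 a (2 * a) y := by
  have h0 : (0 : ℝ) < a := by exact_mod_cast ha
  refine le_trans ?_ (sum_le_sum_of_subset_of_nonneg (bl_mono 0 (show a ≤ 2 * a by omega))
    fun _ _ _ => cut_nonneg _ _ _ _)
  rw [sum_congr rfl fun y hy => cut_one (by linarith) le_rfl hy, sum_const, card_bl, nsmul_eq_mul]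
  push_cast; nlinarith

theorem ker_nonneg (a : ℕ) (y : Pt) : 0 ≤ ker a y :=
  div_nonneg (cut_nonneg _ _ _ _) (sum_nonneg fun _ _ => cut_nonneg _ _ _ _)

theorem sum_ker {a : ℕ} (ha : 1 ≤ a) : ∑ y ∈ bl 0 (2 * a), ker a y = 1 := by
  have h0 : (0 : ℝ) < a := by exact_mod_cast ha
  simp only [ker]
  rw [← sum_div, div_self ((by positivity : (0 : ℝ) < (a : ℝ) ^ 2).trans_le (le_mass ha)).ne']

theorem ker_sup {a : ℕ} (ha : 1 ≤ a) : Sup (bl 0 (2 * a)) (ker a) := fun y hy => by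
  have h0 : (0 : ℝ) < a := by exact_mod_cast ha
  rw [ker, cut_zero (by linarith) (by push_cast; linarith) hy, zero_div]

theorem ker_neg (a : ℕ) (y : Pt) : ker a (-y) = ker a y := by rw [ker, ker, cut_neg]

theorem mol_ne {a : ℕ} {x : Pt} (hx : mol a v x ≠ 0) : ∃ x' ∈ bl x (2 * a), v x' ≠ 0 := by
  obtain ⟨y, hy, h⟩ := exists_ne_zero_of_sum_ne_zero hx
  refine ⟨x + y, ?_, right_ne_zero_of_mul h⟩
  rw [mem_bl] at *; simp only [Prod.fst_add, Prod.snd_add, Prod.fst_zero, Prod.snd_zero] at *; omega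

theorem mol_eq {a : ℕ} (ha : 1 ≤ a) {D : Finset Pt} (hv : Sup D v) (x : Pt) :
    mol a v x = ∑ z ∈ D, v z * ker a (x + -z) := by
  have h1 : ∑' y, ker a y * v (x + y) = ∑ y ∈ bl 0 (2 * a), ker a y * v (x + y) :=
    tsum_eq_sum fun y hy => by simp [ker_sup ha y hy]
  have h2 : ∑' z, v z * ker a (x + -z) = ∑ z ∈ D, v z * ker a (x + -z) :=
    tsum_eq_sum fun z hz => by simp [hv z hz]
  rw [mol, ← h1, ← h2, ← (Equiv.addLeft x).tsum_eq fun z => v z * ker a (x + -z)]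
  exact tsum_congr fun y => by simp [ker_neg, mul_comm]

theorem sub_mol {a : ℕ} (ha : 1 ≤ a) (v : Pt → ℝ) :
    mol a v - v = ∑ y ∈ bl 0 (2 * a), ker a y • dif y v := by
  funext x
  simp only [Pi.sub_apply, mol, Finset.sum_apply, Pi.smul_apply, smul_eq_mul, dif, mul_sub,
    sum_sub_distrib, ← sum_mul, sum_ker ha, one_mul]

theorem mol_en (h : Λ.Ok) {a : ℕ} (ha : 1 ≤ a) (hv : F v) (hc : F c) (hg : F g) (e : v = w - c)
    (hl : ∀ x, v x ≠ 0 → ∀ x' ∈ bl x (2 * a), lapJ Λ.J w x' = -g x') :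
    √(EJ Λ (mol a v - v)) ≤ 4 * a * √(S g) + 2 * √(EJ Λ c) := by
  rw [sub_mol ha]
  refine (EJ_sum h _ fun y _ => (hv.dif y).smul _).trans ?_
  rw [← one_mul (4 * a * √(S g) + 2 * √(EJ Λ c)), ← sum_ker ha, sum_mul]
  refine sum_le_sum fun y hy => ?_
  rw [EJ_smul, Real.sqrt_mul (sq_nonneg _), Real.sqrt_sq (ker_nonneg _ _)]
  refine mul_le_mul_of_nonneg_left ((transl h hv hc hg e hy hl).trans_eq ?_) (ker_nonneg _ _)
  push_cast; ring

theorem Sm_sum {ι : Type*} (T : Finset ι) {k : ℕ} {A : Set Pt} {ℓ : ℝ} {C : ι → ℝ} {u : ι → Pt → ℝ}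
    (hℓ : 0 < ℓ) (h : ∀ i ∈ T, Sm k A (C i) ℓ (u i)) : Sm k A (∑ i ∈ T, C i) ℓ (∑ i ∈ T, u i) := by
  classical
  induction T using Finset.induction_on with
  | empty => simpa [Pi.zero_def] using Sm.const k A hℓ 0
  | insert i T hi ih =>
    rw [sum_insert hi, sum_insert hi]
    exact (h i (mem_insert_self _ _)).add (ih fun j hj => h j (mem_insert_of_mem hj))

theorem sm_mol (k : ℕ) : ∃ C : ℝ, 0 ≤ C ∧ ∀ (a : ℕ) (D : Finset Pt) (v : Pt → ℝ), 1 ≤ a → Sup D v →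
    Sm k Set.univ (C * (∑ z ∈ D, |v z|) / (a : ℝ) ^ 2) a (mol a v) := by
  obtain ⟨C, hC, h⟩ := sm_cut k
  refine ⟨C, hC, fun a D v ha hv => ?_⟩
  have h0 : (0 : ℝ) < a := by exact_mod_cast ha
  have h1 := h 0 a (2 * a) (by linarith)
  rw [show 2 * (a : ℝ) - a = a by ring] at h1
  have hm := le_mass ha
  set Z := ∑ y ∈ bl 0 (2 * a), cut 0 a (2 * a) y with hZ
  have Z0 : 0 < Z := (by positivity : (0 : ℝ) < (a : ℝ) ^ 2).trans_le hm
  have e : mol a v = ∑ z ∈ D, (v z / Z) • fun x => cut 0 a (2 * a) (x + -z) := by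
    funext x
    rw [mol_eq ha hv, Finset.sum_apply]
    exact sum_congr rfl fun z _ => by simp only [ker, Pi.smul_apply, smul_eq_mul, ← hZ]; ring
  rw [e]
  refine (Sm_sum D h0 fun z _ => (h1.shift (-z) fun _ _ => trivial).smul (v z / Z)).mono le_rfl
    subset_rfl ?_ h0
  rw [mul_sum, sum_div]
  refine sum_le_sum fun z _ => ?_
  rw [abs_div, abs_of_pos Z0, mul_comm C, mul_div_right_comm]
  gcongr

/-! ## the logarithmic cut-off -/

/-- ramp from `1` at `a` to `0` at `2 a` -/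
noncomputable def rp (a t : ℝ) : ℝ := max 0 (min 1 (2 - t / a))

theorem rp_one {a t : ℝ} (ha : 0 < a) (h : t ≤ a) : rp a t = 1 := by
  have : t / a ≤ 1 := (div_le_one ha).2 h
  rw [rp, min_eq_left (by linarith), max_eq_right zero_le_one]

theorem rp_zero {a t : ℝ} (ha : 0 < a) (h : 2 * a ≤ t) : rp a t = 0 := by
  have : 2 ≤ t / a := (le_div_iff₀ ha).2 h
  exact max_eq_left ((min_le_right _ _).trans (by linarith))

theorem rp_mem (a t : ℝ) : 0 ≤ rp a t ∧ rp a t ≤ 1 :=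
  ⟨le_max_left _ _, max_le zero_le_one (min_le_left _ _)⟩

theorem rp_lip {a : ℝ} (ha : 0 < a) (t t' : ℝ) : |rp a t - rp a t'| ≤ |t - t'| / a := by
  rw [rp, rp, max_comm, max_comm 0, min_comm, min_comm 1]
  refine (abs_max_sub_max_le_abs _ _ _).trans ((abs_min_sub_min_le_max _ _ _ _).trans ?_)
  rw [sub_self, abs_zero, max_eq_left (abs_nonneg _), show 2 - t / a - (2 - t' / a) = -((t - t') / a) by ring,
    abs_neg, abs_div, abs_of_pos ha]

theorem sq_sum_orth {ι : Type*} (T : Finset ι) (δ : ι → ℝ)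
    (h : ∀ i ∈ T, ∀ j ∈ T, i ≠ j → δ i * δ j = 0) : (∑ i ∈ T, δ i) ^ 2 = ∑ i ∈ T, δ i ^ 2 := by
  rw [pow_two, sum_mul_sum]
  exact sum_congr rfl fun i hi => by
    rw [sum_eq_single_of_mem i hi fun j hj hij => h i hi j hj hij.symm, pow_two]

theorem logcut {ed : Finset (Pt × Pt)} (hed : ∀ e ∈ ed, e.2 - e.1 ∈ Λ.Jp) {D : Finset Pt}
    (hu : Sup D u) (d : Pt → ℕ) (hd : ∀ x y, y ∈ bl x Λ.rg → d y ≤ d x + Λ.rg) {a N : ℕ} (ha : 1 ≤ a)
    (hρ : Λ.rg ≤ a) (hN : 1 ≤ N) {C₁ : ℝ} (hP : ∀ j < N,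
      ∑ x ∈ D.filter (fun x => d x ≤ 3 * (4 ^ j * a)), u x ^ 2 ≤ C₁ * ((4 : ℝ) ^ j * a) ^ 2) :
    ∃ η : Pt → ℝ, (∀ x, 0 ≤ η x ∧ η x ≤ 1) ∧ (∀ x, d x ≤ a → η x = 1) ∧
      (∀ x, η x ≠ 0 → d x ≤ 4 ^ N * a) ∧ (∀ x y, d x = d y → η x = η y) ∧
      ∑ e ∈ ed, (η e.2 - η e.1) ^ 2 * (u e.1 * u e.2) ≤ (Λ.rg : ℝ) ^ 2 * Λ.Jp.card * C₁ / N := by
  have N0 : (0 : ℝ) < N := by exact_mod_cast hN
  have A0 : ∀ j : ℕ, (0 : ℝ) < ((4 ^ j * a : ℕ) : ℝ) := fun j => by positivity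
  have Aa : ∀ j : ℕ, a ≤ 4 ^ j * a := fun j => Nat.le_mul_of_pos_left _ (by positivity)
  let r : ℕ → Pt → ℝ := fun j x => rp (4 ^ j * a : ℕ) (d x)
  have hne : ∀ j x y, r j y ≠ r j x → (4 ^ j * a < d x ∨ 4 ^ j * a < d y) ∧
      (d x < 2 * (4 ^ j * a) ∨ d y < 2 * (4 ^ j * a)) := fun j x y h => by
    constructor
    · by_contra hn
      rw [not_or, not_lt, not_lt] at hn
      exact h ((rp_one (A0 j) (by exact_mod_cast hn.2)).trans
        (rp_one (A0 j) (by exact_mod_cast hn.1)).symm)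
    · by_contra hn
      rw [not_or, not_lt, not_lt] at hn
      exact h ((rp_zero (A0 j) (by exact_mod_cast hn.2)).trans
        (rp_zero (A0 j) (by exact_mod_cast hn.1)).symm)
  have hde : ∀ e ∈ ed, d e.2 ≤ d e.1 + Λ.rg ∧ d e.1 ≤ d e.2 + Λ.rg := fun e he =>
    ⟨hd _ _ (Lat.edge_near (hed e he)), hd _ _ (Lat.edge_near' (hed e he))⟩
  refine ⟨fun x => (∑ j ∈ range N, r j x) / N, fun x => ⟨?_, ?_⟩, fun x hx => ?_, fun x hx => ?_,
    fun x y hxy => by simp only [r, hxy], ?_⟩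
  · exact div_nonneg (sum_nonneg fun j _ => (rp_mem _ _).1) N0.le
  · rw [div_le_one N0]
    simpa using sum_le_card_nsmul (range N) (fun j => r j x) 1 fun j _ => (rp_mem _ _).2
  · have : ∀ j ∈ range N, r j x = 1 := fun j _ => rp_one (A0 j) (by exact_mod_cast hx.trans (Aa j))
    simp [sum_congr rfl this, N0.ne']
  · by_contra hn
    refine hx ?_
    suffices h : ∀ j ∈ range N, r j x = 0 by simp [sum_eq_zero h]
    refine fun j hj => rp_zero (A0 j) ?_
    have : 4 ^ (j + 1) ≤ 4 ^ N := Nat.pow_le_pow_right (by norm_num) (mem_range.1 hj)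
    have h2 : 2 * (4 ^ j * a) ≤ d x := by
      have := Nat.mul_le_mul_right a this
      rw [pow_succ] at this; nlinarith
    exact_mod_cast h2
  have orth : ∀ e ∈ ed, ((∑ j ∈ range N, r j e.2) / N - (∑ j ∈ range N, r j e.1) / N) ^ 2 =
      (∑ j ∈ range N, (r j e.2 - r j e.1) ^ 2) / (N : ℝ) ^ 2 := fun e he => by
    rw [← sub_div, ← sum_sub_distrib, div_pow, sq_sum_orth]
    have key : ∀ i j, i < j → (r i e.2 - r i e.1) * (r j e.2 - r j e.1) = 0 := fun i j hij => by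
      by_contra hn
      have h1 := hne i _ _ (sub_ne_zero.1 (left_ne_zero_of_mul hn))
      have h2 := hne j _ _ (sub_ne_zero.1 (right_ne_zero_of_mul hn))
      have h3 : 4 ^ (i + 1) * a ≤ 4 ^ j * a :=
        Nat.mul_le_mul_right a (Nat.pow_le_pow_right (by norm_num) hij)
      rw [pow_succ, mul_right_comm] at h3
      have := hde e he
      have := Aa i
      omega
    intro i _ j _ hij
    rcases lt_or_gt_of_ne hij with h | h
    · exact key i j h
    · rw [mul_comm]; exact key j i h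
  have one : ∀ j < N, ∑ e ∈ ed, (r j e.2 - r j e.1) ^ 2 * (u e.1 * u e.2) ≤
      (Λ.rg : ℝ) ^ 2 * Λ.Jp.card * C₁ := fun j hj => by
    set B := D.filter fun x => d x ≤ 3 * (4 ^ j * a) with hB
    have h1 := sum_ends_le (Λ := Λ) B (f := fun x => u x ^ 2) fun x => sq_nonneg _
    have h2 : ∑ e ∈ ed, (r j e.2 - r j e.1) ^ 2 * (u e.1 * u e.2) ≤
        ∑ e ∈ Λ.edI B, ((Λ.rg : ℝ) / (4 ^ j * a : ℕ)) ^ 2 / 2 * (u e.1 ^ 2 + u e.2 ^ 2) := by
      rw [← sum_filter_ne_zero]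
      refine (sum_le_sum fun e he => ?_).trans (sum_le_sum_of_subset_of_nonneg (fun e he => ?_)
        fun _ _ _ => by positivity)
      · have h3 := hde e (mem_filter.1 he).1
        have h4 : |(d e.2 : ℝ) - d e.1| ≤ Λ.rg := by
          rw [abs_le]; constructor
          · have : (d e.1 : ℝ) ≤ d e.2 + Λ.rg := by exact_mod_cast h3.2
            linarith
          · have : (d e.2 : ℝ) ≤ d e.1 + Λ.rg := by exact_mod_cast h3.1
            linarith
        have h5 := (rp_lip (A0 j) (d e.2) (d e.1)).trans (div_le_div_of_nonneg_right h4 (A0 j).le)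
        have h6 : (r j e.2 - r j e.1) ^ 2 ≤ ((Λ.rg : ℝ) / (4 ^ j * a : ℕ)) ^ 2 :=
          sq_le_sq' (abs_le.1 h5).1 (abs_le.1 h5).2
        have h7 : u e.1 * u e.2 ≤ (u e.1 ^ 2 + u e.2 ^ 2) / 2 := by nlinarith [sq_nonneg (u e.1 - u e.2)]
        refine (mul_le_mul_of_nonneg_left h7 (sq_nonneg _)).trans
          ((mul_le_mul_of_nonneg_right h6 (by positivity)).trans_eq (by ring))
      · obtain ⟨he, h0⟩ := mem_filter.1 he
        have h3 := hde e he
        have h4 := hne j _ _ (sub_ne_zero.1 (pow_ne_zero_iff two_ne_zero |>.1 (left_ne_zero_of_mul h0)))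
        have h5 := right_ne_zero_of_mul h0
        have h6 := Aa j
        refine Lat.mem_edI.2 ⟨hed e he, mem_filter.2 ⟨?_, by omega⟩, mem_filter.2 ⟨?_, by omega⟩⟩
        · exact by_contra fun hn => left_ne_zero_of_mul h5 (hu _ hn)
        · exact by_contra fun hn => right_ne_zero_of_mul h5 (hu _ hn)
    rw [← mul_sum] at h2
    refine h2.trans ((mul_le_mul_of_nonneg_left (h1.trans (mul_le_mul_of_nonneg_left (hP j hj)
      (by positivity))) (by positivity)).trans_eq ?_)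
    have := (A0 j).ne'
    push_cast at this ⊢
    field_simp
  rw [sum_congr rfl fun e he => by rw [orth e he]]
  simp only [div_mul_eq_mul_div, sum_mul]
  rw [← sum_div, sum_comm, div_le_iff₀ (by positivity)]
  refine (sum_le_card_nsmul _ _ _ fun j hj => one j (mem_range.1 hj)).trans_eq ?_
  rw [card_range, nsmul_eq_mul]; field_simp

/-! ## the layer Poincaré inequality -/

/-- distance to the complement -/
noncomputable def dd (D : Finset Pt) (x : Pt) : ℕ := sInf {h | ¬ bl x h ⊆ D}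

theorem dd_spec (D : Finset Pt) (x : Pt) : ¬ bl x (dd D x) ⊆ D := by
  refine Nat.sInf_mem (s := {h | ¬ bl x h ⊆ D}) ⟨D.card, fun h => ?_⟩
  have := card_le_card h
  rw [card_bl] at this; nlinarith

theorem dd_le_iff {D : Finset Pt} {x : Pt} {h : ℕ} : dd D x ≤ h ↔ ¬ bl x h ⊆ D :=
  ⟨fun h1 h2 => dd_spec D x ((bl_mono x h1).trans h2), fun h1 => Nat.sInf_le h1⟩

theorem dd_lip (D : Finset Pt) {x y : Pt} {r : ℕ} (h : y ∈ bl x r) : dd D y ≤ dd D x + r :=
  dd_le_iff.2 fun h1 => dd_spec D x ((bl_subset_bl (mem_bl_comm.1 h) le_rfl).trans h1)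

theorem pin_sq : ∃ C : ℝ, 0 ≤ C ∧ ∀ (D : Finset Pt) (s h : ℕ) (u : Pt → ℝ) (x : Pt), Ext D s → h ≤ s →
    1 ≤ h → Sup D u → ¬ bl x h ⊆ D →
    ∑ z ∈ bl x (2 * h), u z ^ 2 ≤ C * (h : ℝ) ^ 2 * eN nL (bl x (2 * h)) u u := by
  obtain ⟨C, hC⟩ := poinStmt
  refine ⟨125 * |C|, by positivity, fun D s h u x hE hs h1 hu hx => ?_⟩
  obtain ⟨y, hy, hyD⟩ := not_subset.1 hx
  obtain ⟨e, he, hj⟩ := hE y hyD
  let K : Finset Pt := (range (h + 1)).image fun j : ℕ => y + (j : ℤ) • e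
  have hK : K ⊆ bl x (2 * h) := fun z hz => by
    obtain ⟨j, hj, rfl⟩ := mem_image.1 hz
    rw [mem_range] at hj
    simp only [nn, mem_insert, mem_singleton] at he
    rw [mem_bl] at hy ⊢
    rcases he with rfl | rfl | rfl | rfl <;> simp <;> omega
  have h0 : ∀ z ∈ K, u z = 0 := fun z hz => by
    obtain ⟨j, hj', rfl⟩ := mem_image.1 hz
    exact hu _ (hj j (by rw [mem_range] at hj'; omega))
  rw [bl_eq_sq] at hK ⊢
  obtain ⟨k1, k2⟩ := (hC _ _ u).2.1 K hK h0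
  have hc : (K.image Prod.fst).card = h + 1 ∨ (K.image Prod.snd).card = h + 1 := by
    simp only [nn, mem_insert, mem_singleton] at he
    simp only [K, image_image]
    rcases he with rfl | rfl | rfl | rfl
    · left; rw [card_image_of_injective _ fun i j hij => by simpa using hij, card_range]
    · left; rw [card_image_of_injective _ fun i j hij => by simpa using hij, card_range]
    · right; rw [card_image_of_injective _ fun i j hij => by simpa using hij, card_range]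
    · right; rw [card_image_of_injective _ fun i j hij => by simpa using hij, card_range]
  set E := eN nL (sq (x.1 - (2 * h : ℕ), x.2 - (2 * h : ℕ)) (2 * (2 * h) + 1)) u u
  have E0 : 0 ≤ E := (sy_eN _).nonneg u
  set A := ∑ z ∈ sq (x.1 - (2 * h : ℕ), x.2 - (2 * h : ℕ)) (2 * (2 * h) + 1), u z ^ 2
  have A0 : 0 ≤ A := sum_nonneg fun _ _ => sq_nonneg _
  have k : ((h + 1 : ℕ) : ℝ) * A ≤ C * ((2 * (2 * h) + 1 : ℕ) : ℝ) ^ 3 * E := by
    rcases hc with hc | hc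
    · rwa [hc] at k1
    · rwa [hc] at k2
  have hh : (1 : ℝ) ≤ h := by exact_mod_cast h1
  have k' : C * ((2 * (2 * h) + 1 : ℕ) : ℝ) ^ 3 * E ≤ |C| * (5 * h) ^ 3 * E := by
    refine mul_le_mul_of_nonneg_right (mul_le_mul (le_abs_self _) ?_ (by positivity) (abs_nonneg _)) E0
    refine pow_le_pow_left₀ (by positivity) ?_ 3
    push_cast; linarith
  refine le_of_mul_le_mul_left (a := (h : ℝ)) ?_ (by linarith)
  push_cast at k k'
  nlinarith

theorem layer : ∃ C : ℝ, 0 ≤ C ∧ ∀ (D : Finset Pt) (s h : ℕ) (u : Pt → ℝ), Ext D s → 2 * h ≤ s →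
    1 ≤ h → Sup D u →
    ∑ z ∈ D.filter (fun z => dd D z ≤ h), u z ^ 2 ≤ C * (h : ℝ) ^ 2 * eD nL D u u := by
  obtain ⟨C, C0, hC⟩ := pin_sq
  refine ⟨64 * C, by positivity, fun D s h u hE hs h1 hu => ?_⟩
  set Y := D.filter fun z => dd D z ≤ h with hY
  set X := Y.biUnion fun z => bl z h with hX
  have E0 : 0 ≤ eD nL D u u := (sy_eD _).nonneg u
  have s1 : ((2 * h + 1 : ℕ) : ℝ) ^ 2 * ∑ z ∈ Y, u z ^ 2 ≤ ∑ x ∈ X, ∑ z ∈ bl x (2 * (2 * h)), u z ^ 2 := by
    calc _ = ∑ z ∈ Y, ∑ x ∈ X, if x ∈ bl z h then u z ^ 2 else 0 := by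
          rw [mul_sum]
          refine sum_congr rfl fun z hz => ?_
          rw [sum_ite_mem, inter_eq_right.2 (subset_biUnion_of_mem (fun z => bl z h) hz), sum_const,
            card_bl, nsmul_eq_mul]
          push_cast; ring
      _ ≤ _ := by
          rw [sum_comm]
          refine sum_le_sum fun x _ => ?_
          rw [← sum_filter]
          exact sum_le_sum_of_subset_of_nonneg (fun z hz =>
            bl_mono x (by omega) (mem_bl_comm.1 (mem_filter.1 hz).2)) fun _ _ _ => sq_nonneg _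
  have s2 : ∀ x ∈ X, ∑ z ∈ bl x (2 * (2 * h)), u z ^ 2 ≤
      C * ((2 * h : ℕ) : ℝ) ^ 2 * eN nL (bl x (2 * (2 * h))) u u := fun x hx => by
    obtain ⟨z, hz, hxz⟩ := mem_biUnion.1 hx
    exact hC D s _ u x hE hs (by omega) hu
      (dd_le_iff.1 ((dd_lip D hxz).trans (by have := (mem_filter.1 hz).2; omega)))
  have s3 : ∑ x ∈ X, eN nL (bl x (2 * (2 * h))) u u ≤
      ((2 * (2 * (2 * h)) + 1 : ℕ) : ℝ) ^ 2 * eD nL D u u := by
    simp only [eN, eD, edF_self]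
    calc _ ≤ ∑ x ∈ X, ∑ e ∈ nL.edT D, if x ∈ bl e.1 (2 * (2 * h)) then (u e.2 - u e.1) ^ 2 else 0 := by
          refine sum_le_sum fun x _ => ?_
          rw [← sum_filter, ← sum_filter_ne_zero]
          refine sum_le_sum_of_subset_of_nonneg (fun e he => ?_) fun _ _ _ => sq_nonneg _
          obtain ⟨he, h0⟩ := mem_filter.1 he
          rw [Lat.mem_edI] at he
          refine mem_filter.2 ⟨Lat.mem_edT.2 ⟨he.1, by_contra fun hn => h0 ?_⟩, mem_bl_comm.1 he.2.1⟩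
          rw [not_or] at hn
          simp [hu _ hn.1, hu _ hn.2]
      _ ≤ _ := by
          rw [sum_comm, mul_sum]
          refine sum_le_sum fun e _ => ?_
          rw [sum_ite_mem, sum_const, nsmul_eq_mul]
          refine mul_le_mul_of_nonneg_right ?_ (sq_nonneg _)
          have := card_le_card (inter_subset_right (s₁ := X) (s₂ := bl e.1 (2 * (2 * h))))
          rw [card_bl] at this
          exact_mod_cast this
  have s4 := s1.trans ((sum_le_sum s2).trans ((mul_sum _ _ _).symm.trans_le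
    (mul_le_mul_of_nonneg_left s3 (by positivity))))
  refine le_of_mul_le_mul_left (s4.trans ?_) (by positivity)
  have hh : (0 : ℝ) ≤ h := Nat.cast_nonneg _
  have : ((2 * (2 * (2 * h)) + 1 : ℕ) : ℝ) ^ 2 ≤ (4 * ((2 * h + 1 : ℕ) : ℝ)) ^ 2 :=
    pow_le_pow_left₀ (by positivity) (by push_cast; linarith) 2
  refine (mul_le_mul_of_nonneg_left (mul_le_mul_of_nonneg_right this E0) (by positivity)).trans_eq ?_
  push_cast; ring

theorem ext_bl (z : Pt) (L s : ℕ) : Ext (bl z L) s := fun x hx => by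
  rw [mem_bl] at hx
  by_cases h1 : x.1 < z.1 - L
  · exact ⟨(-1, 0), by simp [nn], fun j _ => by rw [mem_bl]; simp; omega⟩
  by_cases h2 : z.1 + L < x.1
  · exact ⟨(1, 0), by simp [nn], fun j _ => by rw [mem_bl]; simp; omega⟩
  by_cases h3 : x.2 < z.2 - L
  · exact ⟨(0, -1), by simp [nn], fun j _ => by rw [mem_bl]; simp; omega⟩
  · exact ⟨(0, 1), by simp [nn], fun j _ => by rw [mem_bl]; simp; omega⟩

theorem EJ_nL_le (h : Λ.Ok) (u : Pt → ℝ) : EJ nL u ≤ EJ Λ u :=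
  sum_le_sum_of_subset_of_nonneg (nn_subset h) fun _ _ _ => S_nonneg _

theorem poin : ∃ C : ℝ, 0 ≤ C ∧ ∀ (Λ : Lat) (z : Pt) (L : ℕ) (u : Pt → ℝ), Λ.Ok → 1 ≤ L → Sup (bl z L) u →
    √(S u) ≤ C * L * √(EJ Λ u) := by
  obtain ⟨C, C0, hC⟩ := pin_sq
  refine ⟨2 * √C, by positivity, fun Λ z L u h hL hu => ?_⟩
  have h1 := hC _ (L + 1) (L + 1) u z (ext_bl z L _) le_rfl (by omega) hu fun h2 => by
    have := card_le_card h2
    rw [card_bl, card_bl] at this; nlinarith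
  have hu' := hu.mono (bl_mono z (show L ≤ 2 * (L + 1) by omega))
  rw [← S_eq hu'] at h1
  have h2 := (eN_le_eD _ u).trans ((EJ_eq nL_ok hu').symm.trans_le (EJ_nL_le h u))
  have hL' : (1 : ℝ) ≤ L := by exact_mod_cast hL
  rw [Real.sqrt_le_left (by positivity), mul_pow, mul_pow, mul_pow, Real.sq_sqrt C0,
    Real.sq_sqrt (EJ_nonneg _ _)]
  refine h1.trans (mul_le_mul ?_ h2 ((sy_eN _).nonneg u) (by positivity))
  push_cast
  nlinarith [mul_le_mul_of_nonneg_left (show ((L : ℝ) + 1) ^ 2 ≤ 4 * L ^ 2 by nlinarith) C0]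

theorem sqrt_card_le {D : Finset Pt} {z : Pt} {L : ℕ} (hD : D ⊆ bl z L) (hL : 1 ≤ L) :
    (D.card : ℝ) ≤ (3 * L) ^ 2 := by
  have h1 := card_le_card hD
  rw [card_bl] at h1
  have h2 : (D.card : ℝ) ≤ (2 * L + 1) ^ 2 := by exact_mod_cast h1
  have hL' : (1 : ℝ) ≤ L := by exact_mod_cast hL
  nlinarith

end P75

set_option maxHeartbeats 800000 in
open P75 in
theorem p0Stmt : P0Stmt := by
  intro J k K W ε hJ hε
  obtain ⟨CL, CL0, hLay⟩ := layer
  obtain ⟨Cm, Cm0, hm⟩ := sm_mol k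
  obtain ⟨CP, CP0, hP⟩ := poin
  obtain ⟨ρ, hρ⟩ : ∃ ρ : ℕ, ρ = ProbabilityR.HeightModel.interactionRange J := ⟨_, rfl⟩
  obtain ⟨nJ, hnJ⟩ : ∃ nJ : ℕ, nJ = (J.filter posD).card := ⟨_, rfl⟩
  obtain ⟨E₁, hE₁⟩ : ∃ E₁ : ℝ, E₁ = 3 * |K| * CP := ⟨_, rfl⟩
  have E₁0 : 0 ≤ E₁ := by rw [hE₁]; positivity
  obtain ⟨N, hN⟩ := exists_nat_ge (1 + 32 * ((ρ : ℝ) ^ 2 * nJ * (9 * CL * E₁ ^ 2)) / ε)
  have hN0 : 0 ≤ 32 * ((ρ : ℝ) ^ 2 * nJ * (9 * CL * E₁ ^ 2)) / ε := by positivity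
  have N1 : 1 ≤ N := by exact_mod_cast (show (1 : ℝ) ≤ N by linarith)
  have sε : 0 < √ε := Real.sqrt_pos.2 hε
  obtain ⟨M, hM⟩ := exists_nat_ge (1 + 32 * (9 * |K| * √CL * 4 ^ N * E₁) / ε + 48 * |K| / √ε +
    18 * 4 ^ N * |W|)
  have hM1 : 0 ≤ 32 * (9 * |K| * √CL * 4 ^ N * E₁) / ε := by positivity
  have hM2 : 0 ≤ 48 * |K| / √ε := by positivity
  have hM3 : 0 ≤ 18 * 4 ^ N * |W| := by positivity
  have M1 : (1 : ℝ) ≤ M := by linarith
  have M1' : 1 ≤ M := by exact_mod_cast M1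
  obtain ⟨K', hK'⟩ := exists_nat_ge (M + Cm * (3 * CP * E₁ * (2 * M) ^ 2) * (2 * M) ^ k)
  have hK0 : 0 ≤ Cm * (3 * CP * E₁ * (2 * M) ^ 2) * (2 * M) ^ k := by positivity
  have MK : M ≤ K' := by exact_mod_cast (show (M : ℝ) ≤ K' by linarith)
  refine ⟨K', M * (ρ + 1), M1'.trans MK, fun Λ h hΛ z L s D hL hD hW hE f hf => ?_⟩
  have rg : Λ.rg = ρ := by rw [hρ, ← hΛ]; rfl
  have jp : Λ.Jp.card = nJ := by rw [hnJ, ← hΛ]; rfl
  obtain ⟨a, ha⟩ : ∃ a, a = L / M := ⟨_, rfl⟩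
  have a1 : ρ + 1 ≤ a := ha ▸ (Nat.le_div_iff_mul_le M1').2 (by rwa [mul_comm])
  have a2 : a * M ≤ L := ha ▸ Nat.div_mul_le_self _ _
  have a3 : L ≤ 2 * M * a := by
    have := Nat.lt_div_mul_add (a := L) M1'
    have h2 : M ≤ a * M := Nat.le_mul_of_pos_left _ (by omega)
    rw [← ha] at this
    rw [mul_assoc, mul_comm M a]; omega
  have L1 : 1 ≤ L := le_trans (Nat.mul_pos (by omega) M1') a2
  have L0 : (0 : ℝ) < L := by exact_mod_cast L1
  have a0 : (0 : ℝ) < a := by exact_mod_cast (show 0 < a by omega)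
  have a2' : (a : ℝ) * M ≤ L := by exact_mod_cast a2
  have a3' : (L : ℝ) ≤ 2 * M * a := by exact_mod_cast a3
  have as : 18 * 4 ^ N * a ≤ s := by
    have h1 : (L : ℝ) ≤ |W| * s := hW.trans (mul_le_mul_of_nonneg_right (le_abs_self _) (Nat.cast_nonneg _))
    have h2 : (18 * 4 ^ N * a : ℝ) * M ≤ s * M := by
      have h3 : (18 * 4 ^ N : ℝ) * (a * M) ≤ 18 * 4 ^ N * (|W| * s) :=
        mul_le_mul_of_nonneg_left (a2'.trans h1) (by positivity)
      have h4 : 18 * 4 ^ N * |W| * s ≤ M * s :=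
        mul_le_mul_of_nonneg_right (by linarith) (Nat.cast_nonneg _)
      linarith
    exact_mod_cast le_of_mul_le_mul_right h2 (by linarith)
  have co := co_eD h D
  set u := gr D (eD Λ D) f with hu
  have su : Sup D u := co.gr_sup f
  have Fu : F u := ⟨D, su⟩
  set g := on D f with hg
  have sg : Sup D g := fun x hx => if_neg hx
  have Fg : F g := ⟨D, sg⟩
  have cD := sqrt_card_le hD L1
  have m2 : √(S g) ≤ 3 * |K| / L := by
    rw [Real.sqrt_le_left (by positivity), S_eq sg]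
    refine (sum_le_card_nsmul _ _ ((|K| / (L : ℝ) ^ 2) ^ 2) fun x hx => ?_).trans ?_
    · rw [hg, on, if_pos hx, ← sq_abs]
      exact pow_le_pow_left₀ (abs_nonneg _) ((hf x hx).trans (by gcongr; exact le_abs_self _)) 2
    · rw [nsmul_eq_mul]
      refine (mul_le_mul_of_nonneg_right cD (by positivity)).trans_eq ?_
      field_simp
  have test : ∀ φ, Sup D φ → eD Λ D u φ ≤ 3 * |K| / L * √(S φ) := fun φ hφ => by
    have : eD Λ D u φ = I g φ := by
      rw [co.gr_spec f hφ, I, tsum_eq_sum (s := D) fun x hx => by simp [hφ x hx]]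
      exact sum_congr rfl fun x hx => by rw [hg, on, if_pos hx]
    rw [this]
    exact (le_abs_self _).trans ((abs_I_le Fg ⟨D, hφ⟩).trans
      (mul_le_mul_of_nonneg_right m2 (Real.sqrt_nonneg _)))
  have pu := hP Λ z L u h L1 (su.mono hD)
  have Eu : √(EJ Λ u) ≤ E₁ := by
    rcases (Real.sqrt_nonneg (EJ Λ u)).eq_or_lt with h0 | h0
    · rw [← h0]; exact E₁0
    · refine le_of_mul_le_mul_right ?_ h0
      rw [Real.mul_self_sqrt (EJ_nonneg _ _)]
      refine ((EJ_eq h su).trans_le (test u su)).trans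
        ((mul_le_mul_of_nonneg_left pu (by positivity)).trans_eq ?_)
      rw [hE₁]; field_simp
  have Eu2 : eD nL D u u ≤ E₁ ^ 2 := by
    rw [← EJ_eq nL_ok su]
    exact (EJ_nL_le h u).trans ((Real.sqrt_le_left E₁0).1 Eu)
  have lay : ∀ t : ℕ, 1 ≤ t → t ≤ 9 * 4 ^ N * a →
      ∑ x ∈ D.filter (fun x => dd D x ≤ t), u x ^ 2 ≤ CL * (t : ℝ) ^ 2 * E₁ ^ 2 := fun t h1 h2 =>
    (hLay D s t u hE (by rw [mul_assoc] at h2 as; omega) h1 su).trans (mul_le_mul_of_nonneg_left Eu2 (by positivity))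
  obtain ⟨η, η1, η2, η3, -, η4⟩ := logcut (Λ := Λ) (ed := Λ.edT D) (fun e he => (Lat.mem_edT.1 he).1) su
    (dd D) (fun x y hy => dd_lip D hy) (a := 3 * a) (N := N) (by omega) (by omega) N1
    (C₁ := 9 * CL * E₁ ^ 2) fun j hj => by
      have h1 : 4 ^ j ≤ 4 ^ N := Nat.pow_le_pow_right (by norm_num) hj.le
      have h2 : 0 < 4 ^ j := by positivity
      have h3 : 4 ^ j * a ≤ 4 ^ N * a := Nat.mul_le_mul_right a h1
      have h4 : 0 < 4 ^ j * a := Nat.mul_pos h2 (by omega)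
      refine (lay _ (by rw [mul_left_comm _ 3]; omega) (by rw [mul_left_comm _ 3, mul_assoc 9]; omega)).trans_eq ?_
      push_cast; ring
  set c : Pt → ℝ := fun x => η x * u x with hc
  have sc : Sup D c := su.mul η
  have Ec : EJ Λ c ≤ ε / 16 := by
    rw [EJ_eq h sc, eD, hc, edF_cacc]
    have h1 := test (fun x => η x ^ 2 * u x) (su.mul _)
    have h2 : √(S fun x => η x ^ 2 * u x) ≤ √CL * (4 ^ N * (3 * a)) * E₁ := by
      rw [Real.sqrt_le_left (by positivity), S_eq (su.mul fun x => η x ^ 2), ← sum_filter_ne_zero]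
      have h3 : 0 < 4 ^ N := by positivity
      have h4 : 0 < 4 ^ N * a := Nat.mul_pos h3 (by omega)
      refine le_trans ?_ ((lay (4 ^ N * (3 * a)) (by rw [mul_left_comm _ 3]; omega)
        (by rw [mul_left_comm _ 3, mul_assoc 9]; omega)).trans_eq ?_)
      · refine (sum_le_sum fun x _ => ?_).trans (sum_le_sum_of_subset_of_nonneg (fun x hx => ?_)
          fun _ _ _ => sq_nonneg _)
        · rw [mul_pow]
          exact mul_le_of_le_one_left (sq_nonneg _)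
            (pow_le_one₀ (sq_nonneg _) (pow_le_one₀ (η1 x).1 (η1 x).2))
        · obtain ⟨hx, h0⟩ := mem_filter.1 hx
          exact mem_filter.2 ⟨hx, η3 x fun h4 => h0 (by simp [h4])⟩
      · rw [mul_pow (√CL * _), mul_pow (√CL), Real.sq_sqrt CL0]; push_cast; ring
    have h3 : 3 * |K| / L * (√CL * (4 ^ N * (3 * a)) * E₁) ≤ ε / 32 := by
      have h4 : 32 * (9 * |K| * √CL * 4 ^ N * E₁) / ε ≤ M := by linarith
      rw [div_le_iff₀ hε] at h4
      have h5 := mul_le_mul_of_nonneg_right h4 a0.le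
      have h6 := mul_le_mul_of_nonneg_left a2' hε.le
      rw [div_mul_eq_mul_div, div_le_iff₀ L0]
      linarith
    have h4 : (Λ.rg : ℝ) ^ 2 * Λ.Jp.card * (9 * CL * E₁ ^ 2) / N ≤ ε / 32 := by
      have h5 : 32 * ((ρ : ℝ) ^ 2 * nJ * (9 * CL * E₁ ^ 2)) / ε ≤ N := by linarith
      rw [div_le_iff₀ hε] at h5
      rw [rg, jp, div_le_iff₀ (by exact_mod_cast N1)]
      linarith
    have h5 := mul_le_mul_of_nonneg_left h2 (show 0 ≤ 3 * |K| / L by positivity)
    rw [eD] at h1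
    linarith
  set v := u - c with hv
  have sv : Sup D v := su.sub sc
  have hvne : ∀ x, v x ≠ 0 → bl x (3 * a) ⊆ D := fun x hx => by
    by_contra hn
    exact hx (by simp [hv, hc, η2 x (dd_le_iff.2 hn)])
  have supp : ∀ x, mol a v x ≠ 0 → bl x a ⊆ D := fun x hx => by
    obtain ⟨x', h1, h2⟩ := mol_ne hx
    exact (bl_subset_bl (mem_bl_comm.1 h1) (by omega)).trans (hvne x' h2)
  have sm : Sup D (mol a v) := fun x hx => by_contra fun hn => hx (supp x hn (self_mem_bl _ _))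
  refine ⟨mol a v, ?_, fun x hx => (bl_mono x (ha ▸ Nat.div_le_div_left MK M1')).trans (supp x hx), ?_⟩
  · have h1 := (hm a D v (by omega) sv).scale' (m := L / a) a0 (by
      rw [one_le_div a0]; exact (le_mul_of_one_le_right a0.le M1).trans a2')
    rw [div_mul_cancel₀ _ a0.ne'] at h1
    refine h1.mono le_rfl subset_rfl (le_trans ?_ (show Cm * (3 * CP * E₁ * (2 * M) ^ 2) * (2 * M) ^ k ≤ K' by
      linarith)) L0
    have h2 : (L : ℝ) / a ≤ 2 * M := by rwa [div_le_iff₀ a0]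
    have h3 : ∑ x ∈ D, |v x| ≤ 3 * L * (CP * L * E₁) := by
      have h4 : ∑ x ∈ D, |v x| ≤ ∑ x ∈ D, 1 * |u x| := sum_le_sum fun x _ => by
        rw [hv, hc, Pi.sub_apply, ← one_sub_mul, abs_mul]
        exact mul_le_mul_of_nonneg_right (abs_le.2 ⟨by linarith [(η1 x).2], by linarith [(η1 x).1]⟩)
          (abs_nonneg _)
      refine h4.trans (abs_le_of_sq_le_sq' ((sum_mul_sq_le_sq_mul_sq _ _ _).trans ?_) (by positivity)).2
      simp only [one_pow, sum_const, nsmul_eq_mul, mul_one, sq_abs]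
      rw [mul_pow (3 * (L : ℝ)), ← S_eq su]
      refine mul_le_mul cD ((Real.sqrt_le_left (by positivity)).1 (pu.trans ?_)) (S_nonneg _) (by positivity)
      gcongr
    have h4 : (∑ x ∈ D, |v x|) / (a : ℝ) ^ 2 ≤ 3 * CP * E₁ * (2 * M) ^ 2 := by
      rw [div_le_iff₀ (by positivity)]
      refine h3.trans ?_
      have := mul_le_mul_of_nonneg_left (pow_le_pow_left₀ L0.le a3' 2) (show 0 ≤ 3 * CP * E₁ by positivity)
      linarith
    rw [mul_div_assoc]
    gcongr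
  · have h1 := mol_en h (a := a) (by omega) ⟨D, sv⟩ ⟨D, sc⟩ Fg hv fun x hx x' hx' => by
      have := hvne x hx (bl_mono x (by omega) hx')
      rw [hu, lapJ_gr h f this, hg, on, if_pos this]
    have h2 := EJ_sub h ⟨D, sc⟩ ⟨D, sm.sub sv⟩
    rw [show c - (mol a v - v) = u - mol a v by rw [hv]; abel] at h2
    have h3 : √(EJ Λ c) ≤ √ε / 4 := by
      rw [Real.sqrt_le_left (by positivity), div_pow, Real.sq_sqrt hε.le]; linarith
    have h4 : 4 * a * √(S g) ≤ √ε / 4 := by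
      have h5 : 48 * |K| / √ε ≤ M := by linarith
      rw [div_le_iff₀ sε] at h5
      refine (mul_le_mul_of_nonneg_left m2 (by positivity)).trans ?_
      rw [mul_div_assoc', div_le_iff₀ L0]
      have h6 := mul_le_mul_of_nonneg_right h5 a0.le
      have h7 := mul_le_mul_of_nonneg_left a2' sε.le
      linarith
    rw [← EJ_eq h (su.sub sm), ← Real.sqrt_le_sqrt_iff hε.le]
    linarith

end Crest.Agent.T145.Pot
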