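import Crest.Agent.T145.KrDef_77

/-!
# Row 145, module KERNEL: (Q) (helper89)
-/

set_option autoImplicit false

namespace Crest.Agent.T145.Kr

open Finset Real

namespace Q89

theorem sq_rot {C S P : ℝ} (h : ∀ θ, |C * cos θ - S * sin θ| ≤ P) : C ^ 2 + S ^ 2 ≤ P ^ 2 := by
  set z : ℂ := ⟨C, -S⟩
  have h1 := h (Complex.arg z)
  have e1 : ‖z‖ * cos (Complex.arg z) = C := Complex.norm_mul_cos_arg z
  have e2 : ‖z‖ * sin (Complex.arg z) = -S := Complex.norm_mul_sin_arg z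
  have e3 : C * cos (Complex.arg z) - S * sin (Complex.arg z) = ‖z‖ := by
    have := cos_sq_add_sin_sq (Complex.arg z)
    linear_combination (-cos (Complex.arg z)) * e1 - sin (Complex.arg z) * e2 + ‖z‖ * this
  have e4 : ‖z‖ ^ 2 = C ^ 2 + S ^ 2 := by
    rw [Complex.sq_norm, Complex.normSq_apply]; simp only [z]; ring
  rw [e3, abs_of_nonneg (norm_nonneg _)] at h1
  rw [← e4]
  exact pow_le_pow_left₀ (norm_nonneg _) h1 2

/-- the characteristic function with a boundary condition is at most the centred one -/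
theorem fib_sq {m : Mdl Pt} (hc : m.Ctr) (ha : m.Anch) (X : Cfg Pt →+ ℝ) (s : Cfg Pt) :
    Ex (m.W s) (fun t => cos (X t)) ^ 2 + Ex (m.W s) (fun t => sin (X t)) ^ 2 ≤ Ph (m.W 0) X ^ 2 := by
  have hW := hc.wt ha s
  refine sq_rot fun θ => ?_
  have k := (Md.ctr_rsd_W hc).abs_ex_cos_le (fun q => hc.se ha q) (hc.cen ha).pos0 (q := s) hW.pos 0 X θ
  rw [tilt_zero] at k
  have i1 : Ig (m.W s) fun t => cos (X t) := hW.ig_bdd fun _ => abs_cos_le_one _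
  have i2 : Ig (m.W s) fun t => sin (X t) := hW.ig_bdd fun _ => abs_sin_le_one _
  rw [← Ex_mul_const, ← Ex_mul_const, ← Ex_sub (i1.mul_const _) (i2.mul_const _)]
  simp only [← cos_add]
  exact k

theorem abs_le_sq {x κ : ℝ} (hκ : 0 < κ) : |x| ≤ x ^ 2 / (2 * κ) + κ / 2 := by
  rw [div_add' _ _ _ (by positivity), le_div_iff₀ (by positivity), ← sq_abs x]
  nlinarith [sq_nonneg (|x| - κ)]

theorem pt {C S P a κ : ℝ} (hκ : 0 < κ) (h : C ^ 2 + S ^ 2 ≤ P ^ 2) :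
    |C - a| + |S| ≤ (P ^ 2 + a ^ 2 - 2 * a * C) / (2 * κ) + κ := by
  have h1 := abs_le_sq (x := C - a) hκ
  have h2 := abs_le_sq (x := S) hκ
  have h3 : (C - a) ^ 2 / (2 * κ) + S ^ 2 / (2 * κ) ≤ (P ^ 2 + a ^ 2 - 2 * a * C) / (2 * κ) := by
    rw [← add_div]
    exact div_le_div_of_nonneg_right (by nlinarith) (by positivity)
  linarith

theorem fin {P Q a ε : ℝ} (hε : 0 < ε) (ha : 0 ≤ a) (hP0 : |P| ≤ 1) (h1 : |P - a| ≤ min 1 (ε ^ 2 / 18))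
    (h2 : |Q - a| ≤ min 1 (ε ^ 2 / 18)) :
    (P ^ 2 + a ^ 2 - 2 * a * Q) / (2 * (ε / 2)) + ε / 2 ≤ ε := by
  obtain ⟨e, he, e1, e2⟩ : ∃ e, e = min 1 (ε ^ 2 / 18) ∧ e ≤ 1 ∧ e ≤ ε ^ 2 / 18 :=
    ⟨_, rfl, min_le_left _ _, min_le_right _ _⟩
  rw [← he, abs_le] at h1 h2
  rw [abs_le] at hP0
  have a2 : a ≤ 2 := by linarith [h1.1]
  have e0 : 0 ≤ e := by linarith [h1.1, h1.2]
  have : P ^ 2 + a ^ 2 - 2 * a * Q ≤ 9 * e := by
    have k1 : (P - a) ^ 2 ≤ e ^ 2 := sq_le_sq' h1.1 h1.2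
    have k2 : a * (P - Q) ≤ a * (2 * e) := mul_le_mul_of_nonneg_left (by linarith [h1.2, h2.1]) ha
    nlinarith
  have : (P ^ 2 + a ^ 2 - 2 * a * Q) / (2 * (ε / 2)) ≤ ε / 2 := by
    rw [div_le_iff₀ (by positivity)]; nlinarith
  linarith

theorem amb {Λ : Lat} (h : Λ.Ok) {D : Finset Pt} {f : Pt → ℝ} {m : Mdl Pt} (hm : Nc.Amb Λ m D)
    {a ε : ℝ} (hε : 0 < ε) (ha : 0 ≤ a)
    (h1 : |Ph ((Λ.D D).W 0) (pr (xg D f)) - a| ≤ min 1 (ε ^ 2 / 18))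
    (h2 : |Ph (m.W 0) (pr (xg D f)) - a| ≤ min 1 (ε ^ 2 / 18)) : Ex (m.W 0) (qd Λ D f a) ≤ ε := by
  have hW := hm.ctr.wt hm.anch 0
  have hD := fun s => (h.ctr_D D).wt (h.anch_D D) s
  obtain ⟨i1, e1⟩ := hm.near.dlr h hm.ctr.1 hm.sub hW (F := fun t => cos (pr (xg D f) t))
    (hW.ig_bdd fun _ => abs_cos_le_one _)
  have i2 := ((hW.ig_const (Ph ((Λ.D D).W 0) (pr (xg D f)) ^ 2 + a ^ 2)).sub
    (i1.const_mul (2 * a))).div_const (2 * (ε / 2))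
  have i3 : Ig (m.W 0) (qd Λ D f a) := hW.ig_bdd (C := 1 + |a| + 1) fun s => by
    refine (abs_add_le _ _).trans ?_
    rw [abs_abs, abs_abs]
    exact add_le_add ((abs_sub _ _).trans (add_le_add ((hD s).abs_ex_le fun _ _ => abs_cos_le_one _) le_rfl))
      ((hD s).abs_ex_le fun _ _ => abs_sin_le_one _)
  refine (Ex_mono hW.nonneg i3 (i2.add (hW.ig_const (ε / 2))) fun s =>
    pt (half_pos hε) (fib_sq (h.ctr_D D) (h.anch_D D) _ s)).trans ?_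
  rw [hW.ex_add_const i2, Ex_div_const, Ex_sub (hW.ig_const _) (i1.const_mul _), hW.ex_const,
    Ex_const_mul, ← e1]
  exact fin hε ha ((hD 0).abs_Ph_le _) h1 h2

theorem pn_N (Λ : Lat) (U : Finset Pt) (r : Pt) : Nc.pn (Λ.N U) U {r} = Λ.Nr U r := by
  unfold Nc.pn Lat.Nr Mdl.free
  rw [Lat.N_ed, Lat.inn_edI subset_rfl, sdiff_singleton_eq_erase]
  rfl

theorem nE_Nr {Λ : Lat} {U : Finset Pt} {r : Pt} (hr : r ∈ U) {F : Cfg Pt → ℝ} (hF : DepG U F) :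
    Nc.nE (Λ.N U) U F = Ex ((Λ.Nr U r).W 0) F := by
  rw [Nc.nE_root hr hF, pn_N]

theorem amb_Nr {Λ : Lat} (h : Λ.Ok) {U D : Finset Pt} {r : Pt} (hr : r ∈ U \ D) (hE : Λ.edT D ⊆ Λ.edI U)
    (hD : D ⊆ U) (hU : Nc.Cn (Λ.N U) U) : Nc.Amb Λ (Λ.Nr U r) D := by
  rw [mem_sdiff] at hr
  refine ⟨h.ctr_Nr U r, Lat.anch_Nr fun x hx => ?_, fun x hx => ?_, Lat.near_Nr hE r⟩
  · have := hU x hx r hr.1
    rwa [Lat.N_ed, Lat.inn_edI subset_rfl] at this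
  · exact mem_erase.2 ⟨fun e => hr.2 (e ▸ hx), hD hx⟩

end Q89

open Q89 in
theorem qStmt (hA : GffAStmt) (hP : QpStmt) : QStmt := by
  intro F θ₀ K ε hθ hK hε
  obtain ⟨δ, hδ, H⟩ := hA F θ₀ K (min 1 (ε ^ 2 / 18)) hθ hK (by positivity)
  refine ⟨δ, hδ, fun Λ hΛ l L hW D f hS hf => ?_⟩
  have h : Λ.Ok := ⟨hΛ.1 ▸ F.adm, F.pos.trans_le hΛ.2.2.1⟩
  obtain ⟨-, H2⟩ := H Λ hΛ l L hW D f hS hf
  have g1 := (H2 (Λ.D D) (h.ctr_D D) (h.anch_D D) subset_rfl (fun _ _ => rfl) (Loc.refl _)).2.2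
  have key : ∀ m, Nc.Amb Λ m D →
      Ex (m.W 0) (qd Λ D f (exp (-(Λ.gN l * Pot.GD Pot.nL D f f) / 2))) ≤ ε := fun m hm => by
    have hE : ∀ e ∈ Λ.edT D, e ∈ m.ed := fun e he =>
      (hm.near.1 e (Lat.mem_edT.1 he).2).2 (Lat.mem_edT.1 he).1
    exact amb h hm hε (exp_pos _).le g1 (H2 m hm.ctr hm.anch hE
      (fun e he => hm.near.2.1 e (hE e he) (Lat.mem_edT.1 he).2)
      (hm.near.loc h hm.ctr hm.anch hm.sub)).2.2
  refine ⟨key, fun U hE hD ⟨r₀, hr₀⟩ hU => ?_⟩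
  have hd := ((hP Λ D f (exp (-(Λ.gN l * Pot.GD Pot.nL D f f) / 2)) h).2.2 U hE).mono sdiff_subset
  have k := key _ (amb_Nr h hr₀ hE hD hU)
  rw [← nE_Nr (mem_sdiff.1 hr₀).1 hd] at k
  exact ⟨k, fun r hr => nE_Nr hr hd ▸ k⟩

end Crest.Agent.T145.Kr
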