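import Crest.Agent.T145.KrDef_77
import Crest.Agent.T145.RJ_57

/-!
# Row 145, module KERNEL: RJL (`Kr.rjlStmt`), the local form of RJ
-/

set_option autoImplicit false

namespace Crest.Agent.T145.Kr

open Finset Real RJ57

namespace Rj3

variable {Λ : Lat} {D B : Finset Pt} {u : Pt → ℝ}

/-- an edge along which `u` is not zero lies deep in `D` -/
theorem both {r : ℕ} (h : ∀ x, u x ≠ 0 → bl x r ⊆ D) {x y : Pt} (h1 : |y.1| ≤ r) (h2 : |y.2| ≤ r)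
    (hne : u (x + y) - u x ≠ 0) : x ∈ D ∧ x + y ∈ D := by
  have k1 := abs_le.1 h1
  have k2 := abs_le.1 h2
  by_cases h0 : u x = 0
  · have h3 := h (x + y) (by simpa [h0] using hne)
    exact ⟨h3 (by simp only [mem_bl, Prod.fst_add, Prod.snd_add]; omega), h3 (self_mem_bl _ _)⟩
  · exact ⟨h x h0 (self_mem_bl _ _),
      h x h0 (by simp only [mem_bl, Prod.fst_add, Prod.snd_add]; omega)⟩

theorem mem_of_ne (h : ∀ x, u x ≠ 0 → bl x Λ.rg ⊆ D) {e : Pt × Pt} (he : e.2 - e.1 ∈ Λ.Jp)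
    (hne : u e.2 - u e.1 ≠ 0) : e ∈ Λ.edI D := by
  have := both h (x := e.1) (jp_rg he).1 (jp_rg he).2 (by rwa [add_sub_cancel])
  rw [add_sub_cancel] at this
  exact Lat.mem_edI.2 ⟨he, this⟩

/-- sums over lattice edges of multiples of the gradient only see the edges inside `D` -/
theorem sum_ed (h : ∀ x, u x ≠ 0 → bl x Λ.rg ⊆ D) {ed : Finset (Pt × Pt)} (h1 : Λ.edI D ⊆ ed)
    (h2 : ∀ e ∈ ed, e.2 - e.1 ∈ Λ.Jp) (φ : Pt × Pt → ℝ) :
    ∑ e ∈ ed, (u e.2 - u e.1) * φ e = ∑ e ∈ Λ.edI D, (u e.2 - u e.1) * φ e :=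
  (sum_subset h1 fun e he hn => by
    rw [by_contra fun hne : ¬ u e.2 - u e.1 = 0 => hn (mem_of_ne h (h2 e he) hne), zero_mul]).symm

theorem En_congr (h : ∀ x, u x ≠ 0 → bl x Λ.rg ⊆ D) (h' : ∀ x, u x ≠ 0 → bl x Λ.rg ⊆ B)
    (v : Pt → ℝ) : Λ.En D u v = Λ.En B u v := by
  simp only [Lat.En, mul_div_assoc]
  rw [← sum_ed h (Lat.edI_mono (subset_union_left (s₂ := B))) fun e he => (Lat.mem_edI.1 he).1,
    ← sum_ed h' (Lat.edI_mono (subset_union_right (s₁ := D))) fun e he => (Lat.mem_edI.1 he).1]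

theorem nn_rg : nnL.rg = 1 := by decide

theorem eD_eq (h : ∀ x, u x ≠ 0 → bl x 1 ⊆ D) (v : Pt → ℝ) :
    Pot.eD Pot.nL D u v = nnL.En D u v := by
  rw [Pot.eD, Pot.edF_apply, show Pot.nL.edT D = nnL.edT D from rfl,
    sum_ed (Λ := nnL) (by rwa [nn_rg]) (Lat.edI_subset_edT D) fun e he => (Lat.mem_edT.1 he).1]
  simp [Lat.En, nnL]

theorem op_eq (h : ∀ x, u x ≠ 0 → bl x 1 ⊆ D) : Pot.op (Pot.eD Pot.nL D) u = nnL.Au D u := by
  funext z
  rw [Pot.eD, Pot.op_edF_eq, dv, show Pot.nL.edT D = nnL.edT D from rfl,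
    sum_ed (Λ := nnL) (by rwa [nn_rg]) (Lat.edI_subset_edT D) fun e he => (Lat.mem_edT.1 he).1]
  simp [Lat.Au, dv, nnL]

theorem gt_mul {r : ℕ} (h : ∀ x, u x ≠ 0 → bl x r ⊆ D) {y : Pt} (h1 : |y.1| ≤ r) (h2 : |y.2| ≤ r)
    (x : Pt) : gt D y x * (u (x + y) - u x) = u (x + y) - u x := by
  by_cases h0 : u (x + y) - u x = 0
  · rw [h0, mul_zero]
  · rw [gt_one (both h h1 h2 h0).1 (both h h1 h2 h0).2, one_mul]

theorem Au_eq (h : ∀ x, u x ≠ 0 → bl x Λ.rg ⊆ D) (z : Pt) :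
    Λ.Au D u z = (∑ y ∈ Λ.Jp, ((u (z - y + y) - u (z - y)) - (u (z + y) - u z))) / Λ.τ := by
  rw [Lat.Au, dv_edI, sum_div]
  refine sum_congr rfl fun y hy => ?_
  have h1 := gt_mul h (jp_rg hy).1 (jp_rg hy).2 (z - y)
  have h2 := gt_mul h (jp_rg hy).1 (jp_rg hy).2 z
  rw [sub_add_cancel] at h1 ⊢
  rw [← mul_div_assoc, ← mul_div_assoc, h1, h2, ← sub_div]

theorem Au_nn_eq (h : ∀ x, u x ≠ 0 → bl x 1 ⊆ D) (z : Pt) :
    nnL.Au D u z = ∑ i, (df i u (z - ev i) - df i u z) := by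
  rw [Au_nn]
  refine sum_congr rfl fun i _ => ?_
  have h1 := fun x => gt_mul h (y := ev i) (by fin_cases i <;> simp) (by fin_cases i <;> simp) x
  simp only [df, h1]

/-- global routing of the edges of direction `y` along L-shaped paths -/
theorem route' (ρ : ℕ) (y : Pt) (h1 : |y.1| ≤ ρ) (h2 : |y.2| ≤ ρ) (g : Pt → ℝ) {c : ℝ}
    (hc : ∀ i x, |df i g x| ≤ c) : ∃ H : Fin 2 → Pt → ℝ,
      (∀ z, g (z - y) - g z = ∑ i, (H i (z - ev i) - H i z)) ∧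
      (∀ i z, H i z ≠ 0 → ∃ x ∈ bl z ρ, g x ≠ 0) ∧
      ∀ i z, |H i z - co i y * g z| ≤ ρ * (2 * ρ * c) := by
  have c0 : 0 ≤ c := (abs_nonneg _).trans (hc 0 0)
  obtain ⟨p, p1, p2, p3⟩ := exS (ev 0) g y.1
  obtain ⟨q, q1, q2, q3⟩ := exS (ev 1) (fun x => g (x - y.1 • ev 0)) y.2
  have k1 := abs_le.1 h1
  have k2 := abs_le.1 h2
  refine ⟨![p, q], fun z => ?_, fun i z hz => ?_, fun i z => ?_⟩
  · have a1 := p1 z
    have a2 := q1 z
    rw [show z - y.2 • ev 1 - y.1 • ev 0 = z - y by ext <;> simp] at a2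
    simp only [Fin.sum_univ_two, Matrix.cons_val_zero, Matrix.cons_val_one]
    linarith
  · fin_cases i
    · obtain ⟨j, j1, j2⟩ := p3 z hz
      refine ⟨_, ?_, j2⟩
      simp only [mem_bl, ev0, Prod.fst_sub, Prod.snd_sub, Prod.smul_mk, smul_eq_mul]
      omega
    · obtain ⟨j, j1, j2⟩ := q3 z hz
      refine ⟨_, ?_, j2⟩
      simp only [mem_bl, ev0, ev1, Prod.fst_sub, Prod.snd_sub, Prod.smul_mk, smul_eq_mul]
      omega
  · fin_cases i
    · refine (p2 z _ (2 * ρ * c) fun j hj => ?_).trans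
        (mul_le_mul_of_nonneg_right (cast_le h1) (by positivity))
      have := lip hc z (-j, 0) (ρ := ρ) (by simpa using hj.trans h1) (by simp)
      rwa [show z + (-j, 0) = z - j • ev 0 by ext <;> simp [sub_eq_add_neg]] at this
    · refine (q2 z _ (2 * ρ * c) fun j hj => ?_).trans
        (mul_le_mul_of_nonneg_right (cast_le h2) (by positivity))
      have := lip hc z (-y.1, -j) (ρ := ρ) (by simpa using h1) (by simpa using hj.trans h2)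
      rwa [show z + (-y.1, -j) = z - j • ev 1 - y.1 • ev 0 by ext <;> simp [sub_eq_add_neg]] at this

/-- the local flow: `A u = e₀ A^{nn} u` up to a small flow inside `D` -/
theorem flow (hΛ : Λ.Ok) {z : Pt} {R : ℕ} {c : ℝ} (hc : ∀ i j x, |df j (df i u) x| ≤ c)
    (h : ∀ x, u x ≠ 0 → x ∈ bl z R ∧ bl x (3 * Λ.rg) ⊆ D) :
    F2 (Λ.edI D) (Λ.Au D u - Λ.e0 • nnL.Au D u)
      (2 * (2 * (R + 2 * Λ.rg) + 1) ^ 2 * (8 * Λ.J.card * (Λ.rg : ℝ) ^ 3 * Λ.τ⁻¹ * c) ^ 2) := by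
  have hτ := hΛ.pos
  have hρ := hΛ.one_le_rg
  have c0 : 0 ≤ c := (abs_nonneg _).trans (hc 0 0 0)
  have hD : ∀ r ≤ 3 * Λ.rg, ∀ x, u x ≠ 0 → bl x r ⊆ D := fun r hr x hx =>
    (bl_mono x hr).trans (h x hx).2
  choose! H H1 H2 H3 using fun y (hy : y ∈ Λ.Jp) =>
    route' Λ.rg y (jp_rg hy).1 (jp_rg hy).2 (fun x => u (x + y) - u x) (c := 2 * Λ.rg * c) fun i x => by
      have := lip (hc i) x y (jp_rg hy).1 (jp_rg hy).2
      rwa [show df i (fun x => u (x + y) - u x) x = df i u (x + y) - df i u x by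
        simp only [df, add_right_comm x y]; ring]
  set G : Fin 2 → Pt → ℝ := fun i w => (∑ y ∈ Λ.Jp, H y i w) / Λ.τ - Λ.e0 * df i u w with hG
  have near : ∀ i w, G i w ≠ 0 → ∃ x ∈ bl w (2 * Λ.rg), u x ≠ 0 := fun i w hw => by
    by_contra hn
    push Not at hn
    refine hw ?_
    have e1 : ∑ y ∈ Λ.Jp, H y i w = 0 := sum_eq_zero fun y hy => by
      by_contra h0
      obtain ⟨x, hx, h1⟩ := H2 y hy i w h0
      have k1 := abs_le.1 (jp_rg hy).1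
      have k2 := abs_le.1 (jp_rg hy).2
      rw [mem_bl] at hx
      rw [hn x (by rw [mem_bl]; push_cast; omega), hn (x + y) (by
        simp only [mem_bl, Prod.fst_add, Prod.snd_add]; push_cast; omega), sub_zero] at h1
      exact h1 rfl
    have e2 : df i u w = 0 := by
      rw [df, hn w (self_mem_bl _ _), hn (w + ev i) (by
        fin_cases i <;> simp only [mem_bl, Fin.zero_eta, Fin.mk_one, ev0, ev1, Prod.fst_add,
          Prod.snd_add] <;> push_cast <;> omega), sub_zero]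
    simp only [hG, e1, e2, zero_div, mul_zero, sub_zero]
  have bd : ∀ i w, |G i w| ≤ 8 * Λ.J.card * (Λ.rg : ℝ) ^ 3 * Λ.τ⁻¹ * c := fun i w => by
    have e : G i w = (∑ y ∈ Λ.Jp, ((H y i w - co i y * (u (w + y) - u w)) +
        co i y * (u (w + y) - u w - ∑ j, df j u w * co j y))) / Λ.τ := by
      simp only [hG, mul_sub (co i _) (_ - _), sum_add_distrib, sum_sub_distrib, iso' hΛ, Lat.e0]
      ring
    rw [e, abs_div, abs_of_pos hτ, div_le_iff₀ hτ]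
    refine (abs_sum_Jp _ (b := 8 * (Λ.rg : ℝ) ^ 3 * c) (by positivity) fun y hy => ?_).trans
      (le_of_eq (by field_simp))
    have a1 := H3 y hy i w
    have a2 := mul_le_mul (co_le hy i) (tay hc w y (jp_rg hy).1 (jp_rg hy).2) (abs_nonneg _)
      (Nat.cast_nonneg _)
    rw [← abs_mul] at a2
    exact (abs_add_le _ _).trans (by linarith)
  have key := nn_f2 hΛ D G fun i w hw => by
    obtain ⟨x, hx, h1⟩ := near i w hw
    have h2 := (h x h1).2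
    rw [mem_bl] at hx
    refine ⟨h2 (by rw [mem_bl]; push_cast at hx ⊢; omega), h2 ?_⟩
    fin_cases i <;> simp only [mem_bl, Fin.zero_eta, Fin.mk_one, ev0, ev1, Prod.fst_add,
      Prod.snd_add] <;> push_cast at hx ⊢ <;> omega
  refine f2_mono (f2_congr key (funext fun w => ?_)) ?_
  · rw [Pi.sub_apply, Pi.smul_apply, smul_eq_mul, Au_eq (hD _ (by omega)),
      Au_nn_eq (hD _ (by omega)), sum_congr rfl fun y hy => H1 y hy w]
    simp only [hG, Fin.sum_univ_two, sum_add_distrib, sum_sub_distrib]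
    ring
  · have b : ∀ i, ∑ w ∈ D, G i w ^ 2 ≤ (2 * (R + 2 * Λ.rg) + 1) ^ 2 *
        (8 * Λ.J.card * (Λ.rg : ℝ) ^ 3 * Λ.τ⁻¹ * c) ^ 2 := fun i => by
      classical
      rw [← sum_subset (s₁ := D ∩ bl z (R + 2 * Λ.rg)) inter_subset_left fun w hw hn => ?_]
      · refine (sum_le_card_nsmul _ _ _ fun w _ =>
          sq_le_sq' (neg_le_of_abs_le (bd i w)) (le_of_abs_le (bd i w))).trans ?_
        rw [nsmul_eq_mul]
        refine mul_le_mul_of_nonneg_right ?_ (sq_nonneg _)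
        have := card_le_card (inter_subset_right (s₁ := D) (s₂ := bl z (R + 2 * Λ.rg)))
        rw [card_bl] at this
        exact_mod_cast this
      · by_contra h0
        obtain ⟨x, hx, h1⟩ := near i w fun h2 => h0 (by rw [h2]; simp)
        have h2 := (h x h1).1
        refine hn (mem_inter.2 ⟨hw, ?_⟩)
        rw [mem_bl] at hx h2 ⊢
        push_cast at hx ⊢
        omega
    rw [Fin.sum_univ_two]
    linarith [b 0, b 1]

/-- the local energy comparison -/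
theorem energy (hΛ : Λ.Ok) {z : Pt} {R : ℕ} {c c' : ℝ} (hc : ∀ i x, |df i u x| ≤ c)
    (hc' : ∀ i j x, |df j (df i u) x| ≤ c') (h : ∀ x, u x ≠ 0 → x ∈ bl z R ∧ bl x Λ.rg ⊆ D) :
    |Λ.En D u u - Λ.e0 * nnL.En D u u| ≤ 16 * Λ.J.card * (Λ.rg : ℝ) ^ 3 * Λ.τ⁻¹ *
      ((2 * (R + Λ.rg) + 1) ^ 2 * (c * c') + 2 * (2 * (R + Λ.rg) + 1) * c ^ 2) := by
  have hρ := hΛ.one_le_rg
  have hB : ∀ x, u x ≠ 0 → bl x Λ.rg ⊆ rc (z.1 - (R + Λ.rg), z.2 - (R + Λ.rg))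
      (2 * (R + Λ.rg) + 1) (2 * (R + Λ.rg) + 1) := fun x hx w hw => by
    have := (h x hx).1
    rw [mem_bl] at this hw
    rw [RJ57.mem_rc]
    push_cast
    omega
  rw [En_congr (fun x hx => (h x hx).2) hB,
    En_congr (Λ := nnL) (fun x hx => by rw [nn_rg]; exact (bl_mono x hρ).trans (h x hx).2)
      fun x hx => by rw [nn_rg]; exact (bl_mono x hρ).trans (hB x hx)]
  refine (rj3 hΛ _ _ _ hc hc' hc hc').trans (le_of_eq ?_)
  push_cast
  ring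

end Rj3

/-- RJL -/
theorem rjlStmt : RjlStmt := by
  intro F K ε hK hε
  obtain ⟨T, hT, hF⟩ := fam_cst F
  refine ⟨⌈(3 * T + 1) * K + 10000 * (T ^ 10 * K ^ 4) / ε⌉₊, fun Λ hΛ L hL D z u hu h => ?_⟩
  have ok := mem_ok hΛ
  obtain ⟨h1, h2, h3, -⟩ := hF Λ hΛ
  have m := mono_le hT (Nat.cast_nonneg _) (Nat.cast_nonneg _) (inv_nonneg.2 ok.pos.le) h1 h2 h3
  have hτ := ok.pos
  have hρ := ok.one_le_rg
  have K0 : 0 < K := zero_lt_one.trans_le hK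
  have T0 : 0 < T := zero_lt_one.trans_le hT
  have hL' : (3 * T + 1) * K + 10000 * (T ^ 10 * K ^ 4) / ε ≤ L :=
    (Nat.le_ceil _).trans (by exact_mod_cast hL)
  have a0 : 0 ≤ 10000 * (T ^ 10 * K ^ 4) / ε := by positivity
  have a1 : (3 * T + 1) * K ≤ L := by linarith
  have a2 : 10000 * (T ^ 10 * K ^ 4) ≤ L * ε :=
    (div_le_iff₀ hε).1 (by nlinarith [mul_pos T0 K0])
  have a3 : 3 * T + 1 ≤ L := by nlinarith
  have L1 : (1 : ℝ) ≤ L := by linarith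
  have L0 : (0 : ℝ) < L := by linarith
  have hr : 3 * Λ.rg ≤ ⌊(L : ℝ) / K⌋₊ :=
    Nat.le_floor (by rw [le_div_iff₀ K0]; push_cast; nlinarith)
  have hs : ∀ r ≤ 3 * Λ.rg, ∀ x, u x ≠ 0 → bl x r ⊆ D := fun r hr' x hx =>
    (bl_mono x (hr'.trans hr)).trans (h x hx).2
  have hR : (⌊K * L⌋₊ : ℝ) ≤ K * L := Nat.floor_le (by positivity)
  have hKL : (L : ℝ) ≤ K * L := by nlinarith
  have n1 : 2 * ((⌊K * L⌋₊ : ℝ) + 2 * Λ.rg) + 1 ≤ 4 * (K * L) := by linarith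
  have n2 : 2 * ((⌊K * L⌋₊ : ℝ) + Λ.rg) + 1 ≤ 4 * (K * L) := by
    linarith [(Nat.cast_nonneg Λ.rg : (0 : ℝ) ≤ Λ.rg)]
  have fin : ∀ a : ℝ, a ≤ 10000 → a * (T ^ 10 * K ^ 4) / L ≤ ε := fun a ha => by
    rw [div_le_iff₀ L0]
    nlinarith [mul_le_mul_of_nonneg_right ha (by positivity : 0 ≤ T ^ 10 * K ^ 4)]
  rw [Rj3.op_eq (hs 1 (by omega)), Rj3.eD_eq (hs 1 (by omega))]
  refine ⟨f2_mono (Rj3.flow ok hu.2 fun x hx => ⟨(h x hx).1, hs _ le_rfl x hx⟩) ?_,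
    (Rj3.energy ok hu.1 hu.2 fun x hx => ⟨(h x hx).1, hs _ (by omega) x hx⟩).trans ?_⟩
  · calc _ ≤ 2 * (4 * (K * L)) ^ 2 * (8 * Λ.J.card * (Λ.rg : ℝ) ^ 3 * Λ.τ⁻¹ * (K / L ^ 2)) ^ 2 := by
          gcongr
      _ = 2048 * (((Λ.J.card : ℝ) ^ 2 * (Λ.rg : ℝ) ^ 6 * Λ.τ⁻¹ ^ 2) * K ^ 4) / L / L := by
          field_simp; ring
      _ ≤ 2048 * (T ^ 10 * K ^ 4) / L / 1 := by gcongr; exact m 2 6 2 (by norm_num)
      _ ≤ _ := by rw [div_one]; exact fin _ (by norm_num)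
  · have b1 := m 1 3 1 (by norm_num)
    rw [pow_one, pow_one] at b1
    have K3 : K ^ 3 ≤ K ^ 4 := pow_le_pow_right₀ hK (by norm_num)
    calc _ ≤ 16 * Λ.J.card * (Λ.rg : ℝ) ^ 3 * Λ.τ⁻¹ *
          ((4 * (K * L)) ^ 2 * (K / L * (K / L ^ 2)) + 2 * (4 * (K * L)) * (K / L) ^ 2) := by gcongr
      _ = 16 * ((Λ.J.card * (Λ.rg : ℝ) ^ 3 * Λ.τ⁻¹) * (16 * K ^ 4 + 8 * K ^ 3)) / L := by
          field_simp; ring
      _ ≤ 16 * (T ^ 10 * (16 * K ^ 4 + 8 * K ^ 4)) / L := by gcongr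
      _ = 384 * (T ^ 10 * K ^ 4) / L := by ring
      _ ≤ _ := fin _ (by norm_num)

end Crest.Agent.T145.Kr
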