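import Crest.Agent.T145.KrDef_77
import Crest.Agent.T145.NcAll_78

/-!
# Row 145, module KERNEL: the collar function of an insertion, `TrfStmt` (helper62)
-/

set_option autoImplicit false

namespace Crest.Agent.T145.Kr

open Finset Nc Nc.L37

namespace T62

variable {Λ : Lat} {z : Pt} {r c R c' : ℕ} {F G : Cfg Pt → ℝ}

/-- the free box rooted at a far corner is an ambient model -/
theorem amb_corner (hΛ : Λ.Ok) (z : Pt) (h : R + Λ.rg ≤ c') :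
    ∃ p ∈ bl z c', Amb Λ (Λ.Nr (bl z c') p) (bl z R) := by
  have h1 := hΛ.one_le_rg
  have hp : (z.1 + c', z.2) ∈ bl z c' := by
    rw [mem_bl]; dsimp only; omega
  have hq : (z.1 + c', z.2) ∉ bl z R := by
    rw [mem_bl]; dsimp only; omega
  refine ⟨_, hp, hΛ.ctr_Nr _ _, hΛ.anch_Nr_bl hp, fun x hx => ?_, (Geo.lh_Nr h hq).near⟩
  show x ∈ (bl z c').erase _
  exact Finset.mem_erase.2 ⟨fun e => hq (e ▸ hx), bl_mono z (by omega) hx⟩

theorem in_root {p : Pt} (hp : p ∈ bl z c') (hF : DepG (bl z c') F) :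
    In Λ z c' F ↔ Ig ((Λ.Nr (bl z c') p).W 0) F := by
  have h : Geo.InL Λ (Λ.N (bl z c')) (bl z c') := Geo.inL_N subset_rfl
  rw [← h.ig_In hF]
  exact h.ig_Nr hp fun s k => (hF s _ k fun x hx => by simp [cst_apply, hx]).symm

theorem en_root {p : Pt} (hp : p ∈ bl z c') (hF : DepG (bl z c') F) :
    EN Λ z c' F = Ex ((Λ.Nr (bl z c') p).W 0) F := by
  have h : Geo.InL Λ (Λ.N (bl z c')) (bl z c') := Geo.inL_N subset_rfl
  rw [← h.nE_EN hF]
  exact h.nE_Nr hp fun s k => (hF s _ k fun x hx => by simp [cst_apply, hx]).symm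

/-- tower property in the free box: an insertion against a tame outer observable -/
theorem tower (hΛ : Λ.Ok) (hrc : r + 2 * Λ.rg ≤ c) (hcR : c + 2 * Λ.rg ≤ R) (hc' : R + 2 * Λ.rg ≤ c')
    (hF : DepG (bl z (r + Λ.rg)) F) (hI : In Λ z c F) (hG : DepG (an z R c') G) (hT : Tame G) :
    In Λ z c' (fun s => F s * G s) ∧ In Λ z c' (fun s => St Λ z R F s * G s) ∧
      EN Λ z c' (fun s => F s * G s) = EN Λ z c' fun s => St Λ z R F s * G s := by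
  obtain ⟨p, hp, hm⟩ := amb_corner (R := R + Λ.rg) (c' := c') hΛ z (by omega)
  obtain ⟨hd, -, -, -, h5⟩ := (U.ld1 Λ hΛ).2 z r c R F hrc hcR hF hI
  have hh := Geo.amb_hole (c := c) hΛ hm (by omega)
  obtain ⟨h1, h2, h3, -⟩ := h5 _ G hm (hG.dep.out (disj_an z R c')) ((hh.ctr.cen hh.anch).ig hT)
  have hG' : DepG (bl z c') G := hG.mono (an_sub_bl _ _ _)
  have d1 : DepG (bl z c') fun s => F s * G s := (hF.mono (bl_mono z (by omega))).mul hG'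
  have d2 : DepG (bl z c') fun s => St Λ z R F s * G s :=
    (hd.mono ((an_sub_bl _ _ _).trans (bl_mono z (by omega)))).mul hG'
  exact ⟨(in_root hp d1).2 h1, (in_root hp d2).2 h2, by rw [en_root hp d1, en_root hp d2, h3]⟩

theorem tame_bdd {C : ℝ} (h : ∀ s, |F s| ≤ C) : Tame F :=
  ⟨C, {0}, fun s => by simpa using h s⟩

end T62

open T62

theorem trfStmt (hH : HsyStmt) : TrfStmt := by
  intro Λ G W hΛ hG h1
  have hq := hΛ.one_le_rg
  obtain ⟨r₁, hr₁, -, -⟩ := h1.ex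
  have hgap := h1.gap
  have hrR : G.r ≤ G.R := by
    have h2 : (G.r : ℝ) ≤ G.R := by
      have := hG.lo
      have h0 : (0 : ℝ) ≤ G.r := Nat.cast_nonneg _
      nlinarith [hG.hW]
    exact_mod_cast h2
  have hout := hG.out
  have hr := hG.hr
  set a := G.r - Λ.rg with ha
  have hca : G.c + 2 * Λ.rg ≤ a := by omega
  obtain ⟨hpos, hdH, -, hκ⟩ := U.lhd Λ hΛ 0 G.c a (by omega) hca
  obtain ⟨κ, k1, k2, k3⟩ := hκ G.R₂ (by omega)
  have hg1 : 1 ≤ gam Λ G.c a := ((U.lgeo Λ hΛ).1 G.c a G.c a le_rfl le_rfl hca).1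
  have hκ0 : 0 < κ := lt_of_lt_of_le (by positivity) k1
  refine ⟨κ, fun F s => St Λ 0 a F s / Hd Λ 0 G.c a s, hκ0, k2, fun F hF => ?_⟩
  obtain ⟨r₀, hr₀, hg₀, hD⟩ := hF.ex
  obtain ⟨d1, i1, b1, n1, -⟩ := (U.ld1 Λ hΛ).2 0 r₀ G.c a F hr₀ hca hD hF.int
  obtain ⟨d2, -, -, n2, -⟩ := (U.ld1 Λ hΛ).2 0 r₀ G.c G.R F hr₀ (by omega) hD hF.int
  have hN : 0 ≤ G.N₁ Λ F := Nm_nonneg hΛ _ _ _
  have dt : DepG (an 0 a (a + Λ.rg)) fun s => St Λ 0 a F s / Hd Λ 0 G.c a s := fun s t h hst => by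
    show St Λ 0 a F s / Hd Λ 0 G.c a s = St Λ 0 a F t / Hd Λ 0 G.c a t
    rw [d1 s t h hst, hdH s t h hst]
  have bt : ∀ s, |St Λ 0 a F s / Hd Λ 0 G.c a s| ≤ 4 * G.N₁ Λ F := fun s => by
    rw [abs_div, abs_of_pos (hpos s), div_le_iff₀ (hpos s)]
    refine (abs_Ex_le (hΛ.wt_D _ s).nonneg (i1 s)).trans ((b1 s).trans ?_)
    refine mul_le_mul_of_nonneg_right (mul_le_mul_of_nonneg_right ?_ hN) (hpos s).le
    calc gam Λ r₀ G.c * gam Λ G.c a ≤ 2 * 2 := mul_le_mul hg₀ hF.gam (by linarith) (by norm_num)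
      _ = 4 := by norm_num
  obtain ⟨s1, s2, s3, -, -, s6⟩ := hH Λ G.c a F hΛ
  obtain ⟨s4, s5⟩ := s3 (by omega) hca
  refine ⟨dt.mono (an_mono (by omega) (by omega)), bt, ?_, fun ho s => ?_, fun he s => ?_,
    fun h4 => ?_, fun Φ hΦ hT => ?_, d2.mono (an_mono le_rfl (by omega)),
    (n2 G.R₂ (by omega)).2.1, fun φ hφ hb => ?_⟩
  · exact (n1 G.R₂ (by omega)).2.2.2.2.trans (mul_le_mul_of_nonneg_right hg₀ hN)
  · show St Λ 0 a F (-s) / Hd Λ 0 G.c a (-s) = -(St Λ 0 a F s / Hd Λ 0 G.c a s)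
    rw [s1, s4 s, ← neg_div]
    congr 1
    rw [show (fun t => F (-t)) = fun t => -F t from funext ho]
    exact Ex_neg _ _
  · show St Λ 0 a F (-s) / Hd Λ 0 G.c a (-s) = St Λ 0 a F s / Hd Λ 0 G.c a s
    rw [s1, s4 s, show (fun t => F (-t)) = F from funext he]
  · refine (hH Λ G.c a _ hΛ).2.2.2.2.2.2 fun k s => ?_
    show St Λ 0 a F (ga k s) / Hd Λ 0 G.c a (ga k s) = St Λ 0 a F s / Hd Λ 0 G.c a s
    rw [s2, s5, show (fun t => F (ga k t)) = F from funext (s6.1 h4 k)]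
  · have hΦ' : DepG (an 0 a G.R₂) Φ := hΦ.mono (an_mono (by omega) le_rfl)
    obtain ⟨t1, -, t3⟩ := tower hΛ hr₀ hca (c' := G.R₂) (by omega) hD hF.int hΦ' hT
    refine ⟨t1, ?_⟩
    have hcn : Cn (Λ.N (an 0 G.c G.R₂)) (an 0 G.c G.R₂) :=
      (Geo.inL_N subset_rfl).cn (Geo.cnL_an hΛ 0 (by omega))
    have hI : Ig (rW (Λ.N (an 0 G.c G.R₂)) (an 0 G.c G.R₂))
        fun s => St Λ 0 a F s / Hd Λ 0 G.c a s * Φ s :=
      (rW_cen (hΛ.ctr_N _).1 hcn (Geo.an_nonempty 0 (by omega))).ig ((tame_bdd bt).mul hT)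
    have := (k3 _ ((dt.mono (an_mono le_rfl (by omega))).mul hΦ') hI).2
    show EN Λ 0 G.R₂ _ = κ * EA Λ 0 G.c G.R₂ _
    rw [t3, ← this]
    congr 1
    funext s
    have := (hpos s).ne'
    field_simp
  · exact (tower hΛ hr₀ (R := G.R) (c' := G.R₂) (by omega) (by omega) hD hF.int hφ (tame_bdd hb)).2.2.symm

end Crest.Agent.T145.Kr
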