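import Crest.Agent.T145.KrDef_77
import Crest.Agent.T145.NcGeo_51
import Crest.Agent.T145.UvE_49

/-!
# Row 145, module Kr: UV for the ring (helper49)
-/

set_option autoImplicit false

namespace Crest.Agent.T145.Kr

open Finset Uv

theorem gq_terms_shift {I U : Finset Pt} {c : ℕ} {Jv : Finset ℕ} (hJ : ∀ j ∈ Jv, j < c)
    (hI : ∀ a ∈ I, sq a (2 ^ c) ⊆ U) (μ : ℝ) : DepG U (gq (terms I c Jv) (hl μ)) := fun s s' k h => by
  unfold gq
  rw [sum_congr rfl fun t ht => ?_]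
  obtain ⟨h1, h2, h3⟩ := mem_terms.1 ht
  have hs := (par_sub_top (a := t.1) (hJ _ h2) h3).trans (hI _ h1)
  simp only [hl, AddMonoidHom.smul_apply,
    depG_pr (fun x hx => hf_off fun h => hx (hs h)) (sum_hf hs) s s' k h]

theorem uvRStmt (hU : Mx.UvStmt) (hG : Mx.GdStmt) (hA : AlgStmt) : UvRStmt := by
  intro F θ₀ W K ε a hθ hK hε
  obtain ⟨W', r₀, δ₁, hδ₁, h1⟩ := hG F θ₀ hθ
  obtain ⟨C, h2⟩ := hU F W' r₀ (24 + 4 ^ a * (64 * K) ^ 2)
  obtain ⟨δ₂, L₀, hδ₂, h3⟩ := h2 (Real.log (1 + ε)) (Real.log_pos (by linarith))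
  obtain ⟨b₀, hb₀⟩ := exists_pow_lt_of_lt_one hδ₂ (show (1 / 2 : ℝ) < 1 by norm_num)
  refine ⟨b₀, fun b hb => ?_⟩
  set N : ℝ := L₀ + 64 * K * (2 ^ (a + b) + 4 * r₀) with hN
  have N0 : 0 < N := by positivity
  refine ⟨min δ₁ (min 1 N⁻¹), by positivity, fun Λ hΛ l L hw G ok at' => ?_⟩
  have hΛ' := hΛ.ok
  have al := hA G W ok
  have hNL : N ≤ L := (hw.2.1.le_l ((mul_le_mul_of_nonneg_left ((min_le_right _ _).trans
    (min_le_right _ _)) N0.le).trans_eq (mul_inv_cancel₀ N0.ne'))).trans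
    (by exact_mod_cast hw.2.1.le ((min_le_right _ _).trans (min_le_left _ _)))
  have gd := h1 Λ hΛ l L (hw.mono le_rfl (min_le_left _ _))
  have e1 : (L : ℝ) ≤ 64 * K * G.rho := at'.2.trans (by
    have : (G.R : ℝ) ≤ 64 * G.rho := by exact_mod_cast al.le_rho
    nlinarith)
  have e2 : 2 ^ (a + b) + 4 * r₀ ≤ G.rho := by
    have : 64 * K * (2 ^ (a + b) + 4 * r₀) ≤ 64 * K * G.rho := by
      have : (0 : ℝ) ≤ L₀ := by positivity
      linarith
    exact_mod_cast le_of_mul_le_mul_left this (by positivity)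
  have e3 : a + b ≤ G.p := (Nat.pow_le_pow_iff_right one_lt_two).1 (le_trans (by omega) e2)
  have e4 := gd.2.1
  have e11 : 4 * r₀ ≤ G.rho := le_trans (Nat.le_add_left _ _) e2
  have e5 := al.r_le
  have e6 := al.rho_le
  have e7 := ok.hc
  have e8 := ok.out
  have e9 := at'.1
  have e10 := ok.hr
  have r0 : (0 : ℝ) < G.rho := by exact_mod_cast (by omega : 0 < G.rho)
  have rL : (G.rho : ℝ) ≤ L := by exact_mod_cast (by omega : G.rho ≤ L)
  obtain ⟨c1, c2, c3⟩ := al.cells (G.p - (a + b)) (Nat.sub_le _ _)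
  have sGa : G.Ga ⊆ G.Om := al.Ga_sub.trans (Nc.Geo.an_mono 0 (by omega) (by omega))
  have hI : ∀ i ∈ G.cor (G.p - (a + b)), sq i (2 ^ (G.p - (a + b))) ⊆ G.Om := fun i hi =>
    (c1 ▸ subset_biUnion_of_mem _ hi).trans sGa
  have hr : ((G.R₂, G.R₂) : Pt) ∈ G.Om := by
    simp only [Gm.Om, Nc.Geo.mem_an, mem_bl, Prod.fst_zero, Prod.snd_zero]; omega
  have an : (Λ.Nr G.Om (G.R₂, G.R₂)).Anch := fun x hx =>
    ⟨_, Nc.Geo.cnL_an hΛ' 0 (by omega) x (mem_of_mem_erase hx) _ hr, Or.inl (notMem_erase _ _)⟩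
  have dep := gq_terms_shift (fun j hj => mem_range.1 hj) hI (G.ms a)
  refine ⟨e3, ?_⟩
  have H := (h3 Λ hΛ L (by
      have : (0 : ℝ) ≤ 64 * K * (2 ^ (a + b) + 4 * r₀) := by positivity
      exact_mod_cast (show (L₀ : ℝ) ≤ L by linarith)) gd (Λ.Nr G.Om (G.R₂, G.R₂))
    (Nc.an 0 (G.rho / 2) (4 * G.rho)) (G.cor (G.p - (a + b))) (G.p - (a + b)) (range (G.p - (a + b)))
    (G.ms a) ⟨hΛ'.ctr_Nr _ _, an, fun x hx => mem_erase.2 ⟨?_, Nc.Geo.an_mono 0 (by omega) (by omega) hx⟩,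
      Lat.near_Nr (Lat.edT_subset_edI fun x hx y hy => ?_) _⟩
    (fun i hi => ⟨hΛ'.ctr_Nr _ _, an, Lat.edI_mono (hI i hi), fun _ _ => rfl⟩)
    (fun i hi j hj h => c2 hi hj h) subset_rfl (sq_nonneg _) ?_ ?_ ?_ fun ρ hρ => ?_).2 fun j hj => ?_
  · rw [Real.exp_log (by linarith)] at H
    rw [← (Nc.Geo.inL_N subset_rfl).nE_Nr hr ((dep.comp fun t => t ^ 2).shift subset_rfl),
      ← (Nc.Geo.inL_N subset_rfl).nE_Nr hr (dep.shift subset_rfl)] at H
    exact H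
  · rintro rfl
    simp only [Nc.Geo.mem_an, mem_bl, Prod.fst_zero, Prod.snd_zero] at hx; omega
  · simp only [Gm.Om, Nc.Geo.mem_an, mem_bl, Prod.fst_zero, Prod.snd_zero] at hx hy ⊢; omega
  · have : G.ms a * (L : ℝ) ^ 2 ≤ G.ms a * (64 * K * G.rho) ^ 2 :=
      mul_le_mul_of_nonneg_left (pow_le_pow_left₀ (by positivity) e1 2) (sq_nonneg _)
    have e : G.ms a * (64 * K * G.rho) ^ 2 = 4 ^ a * (64 * K) ^ 2 := by
      rw [Gm.ms, div_pow, ← pow_mul, mul_comm a, pow_mul]; field_simp; norm_num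
    linarith
  · exact (Nat.pow_le_pow_right two_pos (Nat.sub_le _ _)).trans (by change G.rho ≤ L; omega)
  · have e : (G.rho : ℝ) ^ 2 = 4 ^ (G.p - (G.p - (a + b))) * 4 ^ (G.p - (a + b)) := by
      rw [← pow_add, Nat.sub_add_cancel (Nat.sub_le _ _), Gm.rho]; push_cast
      rw [← pow_mul, mul_comm, pow_mul]; norm_num
    have : (0 : ℝ) ≤ 4 ^ a * (64 * K) ^ 2 * (L : ℝ) ^ 2 := by positivity
    rw [c3]; push_cast
    nlinarith [pow_le_pow_left₀ r0.le rL 2]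
  · rw [c1]
    by_cases h : 2 * ρ < G.rho
    · have : (G.Ga.filter fun x => ¬ bl x ρ ⊆ Nc.an 0 (G.rho / 2) (4 * G.rho)) = ∅ :=
        filter_eq_empty_iff.2 fun x hx => not_not.2 fun y hy => by
          have := al.Ga_sub hx
          simp only [Nc.Geo.mem_an, mem_bl, Prod.fst_zero, Prod.snd_zero] at this hy ⊢; omega
      rw [this]
      simp only [card_empty, Nat.cast_zero]; positivity
    · have h4 : (G.rho : ℝ) ≤ 2 * ρ := by exact_mod_cast not_lt.1 h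
      have h5 : (#(G.Ga.filter fun x => ¬ bl x ρ ⊆ Nc.an 0 (G.rho / 2) (4 * G.rho)) : ℝ) ≤ 12 * G.rho ^ 2 := by
        exact_mod_cast (card_filter_le _ _).trans_eq al.card_Ga
      have : (0 : ℝ) ≤ 4 ^ a * (64 * K) ^ 2 * L * ρ := by positivity
      nlinarith [mul_le_mul rL h4 r0.le (by positivity)]
  · have h4 : (2 : ℝ) ^ j * 2 ^ b₀ ≤ G.rho := by
      rw [← pow_add, Gm.rho]; push_cast
      exact pow_le_pow_right₀ one_le_two (by have := mem_range.1 hj; omega)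
    rw [one_div, inv_pow, inv_lt_iff_one_lt_mul₀ (by positivity)] at hb₀
    nlinarith [mul_le_mul_of_nonneg_left (h4.trans rL) hδ₂.le,
      mul_le_mul_of_nonneg_left hb₀.le (show (0 : ℝ) ≤ 2 ^ j by positivity)]

end Crest.Agent.T145.Kr
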