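import Crest.Agent.T145.AllB_55
import Crest.Agent.T145.NcT4All_78
import Crest.Agent.T145.MxAll_9
import Crest.Agent.T145.PotGs_57
import Crest.Agent.T145.KrAlg_91
import Crest.Agent.T145.KrBar_90
import Crest.Agent.T145.KrFs_9
import Crest.Agent.T145.KrGa_45
import Crest.Agent.T145.KrHol_93
import Crest.Agent.T145.KrK0_40
import Crest.Agent.T145.KrK2_56
import Crest.Agent.T145.KrK3_85
import Crest.Agent.T145.KrKs_90
import Crest.Agent.T145.KrKsh_77
import Crest.Agent.T145.KrLam_48
import Crest.Agent.T145.KrM3_17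
import Crest.Agent.T145.KrMom_3
import Crest.Agent.T145.KrOut_11
import Crest.Agent.T145.KrP0_75
import Crest.Agent.T145.KrQl_89
import Crest.Agent.T145.KrR_49
import Crest.Agent.T145.KrRj_3
import Crest.Agent.T145.KrTr_57
import Crest.Agent.T145.KrTrf_62
import Crest.Agent.T145.KrTyp_74
import Crest.Agent.T145.KrUv_49

/-!
# Row 145, module KERNEL: every Prop of `KrDef_77`, without hypotheses (helper77)
-/

set_option autoImplicit false

namespace Crest.Agent.T145.Kr.U

theorem ncGd : Nc.GdStmt := Nc.U.gd All.t3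
theorem inp : Mx.Inp :=
  ⟨All.t1m, All.t1a, All.t1x, All.sd, All.t2p, All.r1, All.r1c, All.br, All.rj, All.afac, ncGd⟩
theorem dlg : DlgStmt := All.dlg_of inp.dl

theorem ks : KsStmt := ksStmt
theorem sw : SwStmt := swStmt
theorem qp : QpStmt := qpStmt
theorem rjl : RjlStmt := rjlStmt
theorem gffA : GffAStmt := gffAStmt Pot.p0Stmt rjl dlg All.afac All.t1a
theorem q : QStmt := qStmt gffA qp
theorem alg : AlgStmt := algStmt sw
theorem k2 : K2Stmt := k2Stmt alg
theorem k3 : K3Stmt := k3Stmt
theorem m3 : M3Stmt := m3Stmt alg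
theorem mom : MomStmt := momStmt
theorem typ : TypStmt := typStmt alg k3 m3 mom
theorem bar : BarStmt := barStmt alg
theorem tr : TrStmt := trStmt Pot.gszStmt alg
theorem uvR : UvRStmt := uvRStmt inp.uv (Mx.gd_of ncGd) alg
theorem r : RStmt := rStmt gffA sw uvR tr alg All.t1a All.t1m
theorem f : FStmt := fStmt inp.mix0 alg All.t1m
theorem lam : LamStmt := lamStmt m3 alg
theorem k0 : K0Stmt := k0Stmt r f lam k2 bar alg All.t1a All.t1m
theorem ksh : KshStmt := kshStmt ks k0 k2 typ bar alg All.t1a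
theorem hol : HolStmt := holStmt ksh bar k3 mom alg
theorem hsy : HsyStmt := hsyStmt
theorem trf : TrfStmt := trfStmt hsy
theorem kAny : KAnyStmt := kAnyStmt hol trf k3 mom alg
theorem kOdd : KOddStmt := kOddStmt hol trf k3 mom alg
theorem kVec : KVecStmt := kVecStmt hol trf k3 mom alg
theorem kEven : KEvenStmt := kEvenStmt hol trf k3 mom alg

end Crest.Agent.T145.Kr.U
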