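import Crest.Agent.T145.TopDef_76
import Crest.Agent.T145.T5_11
import Crest.Agent.T145.XyH_48

/-!
# Row 145: S0198, S0199, S0201 from the interface Props (helper76); S0200, S0202 are in `T5_11`
-/

set_option autoImplicit false

namespace Crest.Agent.T145.Top

open Filter Topology Crest.ProbabilityR.HeightModel Crest.ProbabilityR.SpinModel T511

theorem at_self (Λ : Lat) : Λ.at' Λ.τ = Λ := rfl

theorem crit_of (hD : DiffStmt) {Λ : Lat} (h : Λ.Ok) (hge : 2 / Real.pi ≤ Λ.gI)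
    (hz : ∀ τ, 0 < τ → τ < Λ.τ → (Λ.at' τ).gI = 0) : Λ.Crit := by
  refine ⟨h, le_antisymm ?_ hge, hz⟩
  by_contra hn
  push Not at hn
  have hc := (hD Λ h hn).continuousAt
  have hpi : 0 < 2 / Real.pi := by positivity
  have e1 : ∀ᶠ τ in 𝓝 Λ.τ, 0 < (Λ.at' τ).gI :=
    hc.eventually (lt_mem_nhds (show (0 : ℝ) < (Λ.at' Λ.τ).gI by rw [at_self]; linarith))
  have e2 : ∀ᶠ τ in 𝓝 Λ.τ, 0 < τ := lt_mem_nhds h.pos
  obtain ⟨τ, ⟨a1, a2⟩, a3⟩ :=
    (((e1.and e2).filter_mono (nhdsWithin_le_nhds (s := Set.Iio Λ.τ))).and self_mem_nhdsWithin).exists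
  exact a1.ne' (hz τ a2 a3)

/-! ## the discrete Gaussian model -/

theorem dg_crit (h1 : T1mStmt) (h5 : T5AStmt) (hE : FS.E1Stmt) (hD : DiffStmt) {J : Finset Pt}
    (hJ : IsAdmissible J) : (dg J (criticalTemp J)).Crit := by
  have hc := crit_pos h1 h5 hE hJ
  have hk : (0 : ℝ) < J.card := by exact_mod_cast (dg_ok hJ hc).card_pos
  refine crit_of hD (dg_ok hJ hc) (le_gI h1 h5 hE hJ le_rfl) fun τ h0 hτ => ?_
  have e : (τ * (4 * Real.pi ^ 2) / J.card) * J.card / (4 * Real.pi ^ 2) = τ := by field_simp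
  rw [← e, dg_at]
  refine gI_eq_zero h5 hJ (by positivity) ?_
  simp only [dg] at hτ
  rw [lt_div_iff₀ (by positivity)] at hτ
  rwa [div_lt_iff₀ hk]

theorem s0201_of (h1 : T1mStmt) (h5 : T5AStmt) (hT : TLimStmt) (hE : FS.E1Stmt) (h3 : FS.E3Stmt)
    (h4 : FS.E4Stmt) (hD : DiffStmt) (hS : SlopeStmt) (J : Finset (ℤ × ℤ)) (hJ : IsAdmissible J) :
    ∃ L : ℕ, 2 ≤ L ∧ ∃ βeff : ℝ → ℝ,
      (∀ β : ℝ, criticalTemp J ≤ β → 0 < βeff β) ∧
      (∀ β : ℝ, criticalTemp J ≤ β → ∀ u : ℝ × ℝ → ℝ, IsSmoothPeriodic u →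
        Filter.Tendsto
          (fun N : ℕ => Real.log (torusLaplace J β (L ^ N) (fun x => -flatLaplacian u x)))
          Filter.atTop
          (nhds (βeff β / (2 * varianceConst J) *
            unitSquarePairing (fun x => -flatLaplacian u x) u))) ∧
      βeff (criticalTemp J) = 8 * Real.pi * varianceConst J ∧
      Filter.Tendsto
        (fun β : ℝ => (βeff β - βeff (criticalTemp J)) / (β - criticalTemp J))
        (nhdsWithin (criticalTemp J) (Set.Ioi (criticalTemp J))) Filter.atTop ∧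
      DifferentiableOn ℝ βeff (Set.Ioi (criticalTemp J)) ∧
      ∃ c : ℝ, 0 < c ∧ ∃ C β₀ : ℝ, ∀ β : ℝ, β₀ ≤ β →
        abs (βeff β - β) ≤ C * Real.exp (-c * β) := by
  have hc := crit_pos h1 h5 hE hJ
  have hk : (0 : ℝ) < J.card := by exact_mod_cast (dg_ok hJ hc).card_pos
  have hv := FS.varianceConst_pos hJ
  have hpi : 0 < 2 / Real.pi := by positivity
  have hcr := dg_crit h1 h5 hE hD hJ
  set βc := criticalTemp J with hβc
  have hlim : ∀ β, βc ≤ β → FS.Lim J β 2 (4 * Real.pi ^ 2 * varianceConst J * (dg J β).gI) :=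
    fun β hβ => hT J β hJ (hc.trans_le hβ) (hpi.trans_le (le_gI h1 h5 hE hJ hβ))
  have hcont : Tendsto (fun b : ℝ => b * J.card / (4 * Real.pi ^ 2)) (𝓝[>] βc) (𝓝[>] (dg J βc).τ) := by
    refine tendsto_nhdsWithin_iff.2 ⟨?_, ?_⟩
    · exact ((by fun_prop : Continuous fun b : ℝ => b * J.card / (4 * Real.pi ^ 2)).tendsto _).mono_left
        nhdsWithin_le_nhds
    · filter_upwards [self_mem_nhdsWithin] with b hb
      have hb' : βc < b := hb
      show βc * J.card / (4 * Real.pi ^ 2) < b * J.card / (4 * Real.pi ^ 2)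
      gcongr
  have hsl := (hS _ rfl hcr).comp hcont
  have hsl' : Tendsto (fun β : ℝ => ((dg J β).gI - 2 / Real.pi) / (β - βc)) (𝓝[>] βc) atTop := by
    have := hsl.const_mul_atTop (r := J.card / (4 * Real.pi ^ 2)) (by positivity)
    refine this.congr' ?_
    filter_upwards [self_mem_nhdsWithin] with b hb
    have hb' : 0 < b - βc := sub_pos.2 hb
    have e : b * J.card / (4 * Real.pi ^ 2) - (dg J βc).τ = (b - βc) * (J.card / (4 * Real.pi ^ 2)) := by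
      simp only [dg]; ring
    simp only [Function.comp, dg_at, e]
    field_simp
  refine ⟨2, le_rfl, fun β => 4 * Real.pi ^ 2 * varianceConst J * (dg J β).gI, fun β hβ => ?_, hlim, ?_, ?_,
    fun β hβ => ?_, FS.abs_sub_le_of h3 h4 hJ le_rfl hlim⟩
  · have := hpi.trans_le (le_gI h1 h5 hE hJ hβ)
    positivity
  · simp only [hcr.2.1]; field_simp; ring
  · have := hsl'.const_mul_atTop (r := 4 * Real.pi ^ 2 * varianceConst J) (by positivity)
    refine this.congr fun b => ?_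
    simp only [hcr.2.1]; ring
  · have hβ' : βc < β := hβ
    obtain ⟨b, ⟨a1, a2⟩, a3⟩ := (((hsl'.eventually (eventually_gt_atTop 0)).and
      ((gt_mem_nhds hβ').filter_mono nhdsWithin_le_nhds)).and self_mem_nhdsWithin).exists
    have a3' : βc < b := a3
    have a4 : 2 / Real.pi < (dg J b).gI := by
      have := (div_pos_iff_of_pos_right (sub_pos.2 a3')).1 a1
      linarith
    have a5 := a4.trans_le (gI_mono h1 hJ (hc.trans a3') a2.le)
    have a6 := hD _ (dg_ok hJ (hc.trans hβ')) a5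
    have a7 : DifferentiableAt ℝ (fun b : ℝ => b * J.card / (4 * Real.pi ^ 2)) β := by fun_prop
    have a8 : DifferentiableAt ℝ (fun b : ℝ => (dg J b).gI) β :=
      DifferentiableAt.comp (g := fun τ => ((dg J β).at' τ).gI) β a6 a7
    exact (a8.const_mul _).differentiableWithinAt

/-! ## the XY model -/

/-- the height threshold -/
noncomputable def bh : ℝ := sInf {b : ℝ | 0 < b ∧ (xyL b).Rough}

theorem xy_mono (h1 : T1mStmt) {b b' : ℝ} (hb : 0 < b) (h : b ≤ b') : (xyL b).gI ≤ (xyL b').gI :=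
  (h1.1 _ (xyL_ok hb)).2.2.2.1 hb (hb.trans_le h) h

theorem bh_pos (h1 : T1mStmt) (h5 : T5AStmt) (hR : XyRoughStmt) : 0 < bh := by
  have hpi : 0 < 2 / Real.pi := by positivity
  refine hpi.trans_le (le_csInf hR fun b hb => ?_)
  have a1 := (h5 _ (xyL_ok hb.1)).1.1 hb.2
  have a2 := (h1.1 _ (xyL_ok hb.1)).2.2.1
  rw [xyL_a, div_one] at a2
  exact a1.trans a2

theorem xy_zero (h5 : T5AStmt) {b : ℝ} (hb : 0 < b) (h : b < bh) : (xyL b).gI = 0 :=
  (h5 _ (xyL_ok hb)).2.1 fun hr =>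
    not_lt.2 (csInf_le (s := {b : ℝ | 0 < b ∧ (xyL b).Rough}) ⟨0, fun _ hb => hb.1.le⟩ ⟨hb, hr⟩) h

theorem xy_ge (h1 : T1mStmt) (h5 : T5AStmt) (hR : XyRoughStmt) {b : ℝ} (hb : bh ≤ b) :
    2 / Real.pi ≤ (xyL b).gI := by
  have hc := bh_pos h1 h5 hR
  refine le_trans ?_ (xy_mono h1 hc hb)
  by_contra hn
  push Not at hn
  have hu := (h1.1 _ (xyL_ok hc)).2.2.2.2.1 _ hc _ hn
  have hle : 𝓝[>] bh ≤ 𝓝[Set.Ioi 0] bh := nhdsWithin_mono _ fun b hb => hc.trans hb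
  obtain ⟨b, hb1, hb2⟩ := ((hu.filter_mono hle).and self_mem_nhdsWithin).exists
  obtain ⟨b', hb', hlt⟩ := exists_lt_of_csInf_lt hR hb2
  have a1 := (h5 _ (xyL_ok hb'.1)).1.1 hb'.2
  have a2 := xy_mono h1 hb'.1 hlt.le
  have a3 : (xyL b).gI < 2 / Real.pi := hb1
  linarith

theorem xy_crit (h1 : T1mStmt) (h5 : T5AStmt) (hR : XyRoughStmt) (hD : DiffStmt) : (xyL bh).Crit :=
  crit_of hD (xyL_ok (bh_pos h1 h5 hR)) (xy_ge h1 h5 hR le_rfl) fun _ h0 hτ => xy_zero h5 h0 hτ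

theorem m_pos (h1 : T1mStmt) (h5 : T5AStmt) (hL : MassLoStmt) {b : ℝ} (hb : 0 < b) (h : b < bh)
    {C : ℕ → ℝ} {m : ℝ} (hC : IsC b C) (hm : IsM C m) : 0 < m := by
  have hpi : 0 < 1 / Real.pi := by positivity
  have hz := xy_zero h5 hb h
  have e : 2 / Real.pi - 1 / Real.pi = 1 / Real.pi := by ring
  obtain ⟨c, L₁, hc, H⟩ := hL b b (1 / Real.pi) 1 hb le_rfl (by rw [hz]; positivity) hpi one_pos
  have t := tendsto_gN h1 (xyL_ok hb)
  rw [hz] at t
  obtain ⟨L, ⟨a1, a2⟩, a3⟩ := (((t.eventually (ge_mem_nhds hpi)).and (eventually_ge_atTop L₁)).and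
    (eventually_gt_atTop 0)).exists
  refine lt_of_lt_of_le ?_ (H b le_rfl le_rfl L a2 (by rwa [e]) C m hC hm)
  have : (0 : ℝ) < L := by exact_mod_cast a3
  positivity

theorem m_zero (h1 : T1mStmt) (h5 : T5AStmt) (hR : XyRoughStmt) (hU : MassUpStmt) {b : ℝ} (h : bh ≤ b)
    {C : ℕ → ℝ} {m : ℝ} (hC : IsC b C) (hm : IsM C m) : m = 0 := by
  have hb := (bh_pos h1 h5 hR).trans_le h
  have hpi : 0 < 1 / Real.pi := by positivity
  refine le_antisymm ?_ (Xy48.m_nonneg hb hC hm)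
  obtain ⟨K, L₁, H⟩ := hU b b (1 / Real.pi) (1 / 2) hb hpi (by norm_num)
  have t := tendsto_gN h1 (xyL_ok hb)
  have g := xy_ge h1 h5 hR h
  have e : 2 / Real.pi = 1 / Real.pi + 1 / Real.pi := by ring
  have t2 : Tendsto (fun L : ℕ => K / (L : ℝ) ^ (1 - 1 / 2 : ℝ)) atTop (𝓝 0) :=
    ((tendsto_rpow_atTop (by norm_num)).comp tendsto_natCast_atTop_atTop).const_div_atTop K
  refine ge_of_tendsto t2 ?_
  filter_upwards [t.eventually (le_mem_nhds (show 1 / Real.pi < (xyL b).gI by linarith)),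
    eventually_ge_atTop L₁] with L a1 a2 using H b le_rfl le_rfl L a2 a1 C m hC hm

theorem bc_eq (h1 : T1mStmt) (h5 : T5AStmt) (hR : XyRoughStmt) (hU : MassUpStmt) (hL : MassLoStmt)
    {C : ℝ → ℕ → ℝ} {m : ℝ → ℝ} (hC : ∀ b, 0 < b → IsC b (C b)) (hm : ∀ b, 0 < b → IsM (C b) (m b)) :
    sInf {b : ℝ | 0 < b ∧ m b = 0} = bh := by
  have hc := bh_pos h1 h5 hR
  have e : {b : ℝ | 0 < b ∧ m b = 0} = Set.Ici bh := by
    ext b
    refine ⟨fun hb => not_lt.1 fun h => (m_pos h1 h5 hL hb.1 h (hC b hb.1) (hm b hb.1)).ne' hb.2,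
      fun hb => ⟨hc.trans_le hb, m_zero h1 h5 hR hU hb (hC b (hc.trans_le hb)) (hm b (hc.trans_le hb))⟩⟩
  rw [e, csInf_Ici]

theorem s0198_of (h1 : T1mStmt) (h5 : T5AStmt) (hR : XyRoughStmt) (hD : DiffStmt) (hU : MassUpStmt)
    (hL : MassLoStmt) (hX : CritStmt) (C : ℝ → ℕ → ℝ)
    (hC : ∀ b : ℝ, 0 < b → ∀ r : ℕ,
      Filter.Tendsto (fun R : ℕ => xyBoxCorrelation b R r) Filter.atTop (nhds (C b r)))
    (m : ℝ → ℝ)
    (hm : ∀ b : ℝ, 0 < b →
      Filter.Tendsto (fun r : ℕ => -Real.log (C b r) / r) Filter.atTop (nhds (m b))) :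
    ∃ B : ℝ, 0 < B ∧
      Filter.Tendsto
        (fun r : ℕ => C (sInf {b : ℝ | 0 < b ∧ m b = 0}) r * (r : ℝ) ^ ((1 : ℝ) / 4) /
          Real.log r ^ ((1 : ℝ) / 8))
        Filter.atTop (nhds B) := by
  have hc := bh_pos h1 h5 hR
  rw [bc_eq h1 h5 hR hU hL hC hm]
  refine hX bh (xy_crit h1 h5 hR hD) (C bh) (hC bh hc) ?_
  have := hm bh hc
  rwa [m_zero h1 h5 hR hU le_rfl (hC bh hc) (hm bh hc)] at this

theorem s0199_of (h1 : T1mStmt) (h5 : T5AStmt) (hR : XyRoughStmt) (hD : DiffStmt) (hU : MassUpStmt)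
    (hL : MassLoStmt) (hS : ScaleStmt) (C : ℝ → ℕ → ℝ)
    (hC : ∀ b : ℝ, 0 < b → ∀ r : ℕ,
      Filter.Tendsto (fun R : ℕ => xyBoxCorrelation b R r) Filter.atTop (nhds (C b r)))
    (m : ℝ → ℝ)
    (hm : ∀ b : ℝ, 0 < b →
      Filter.Tendsto (fun r : ℕ => -Real.log (C b r) / r) Filter.atTop (nhds (m b))) :
    ∃ A : ℝ, 0 < A ∧
      Filter.Tendsto
        (fun b : ℝ => Real.sqrt (sInf {b' : ℝ | 0 < b' ∧ m b' = 0} - b) * Real.log (1 / m b))
        (nhdsWithin (sInf {b' : ℝ | 0 < b' ∧ m b' = 0}) (Set.Iio (sInf {b' : ℝ | 0 < b' ∧ m b' = 0})))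
        (nhds A) := by
  have hc := bh_pos h1 h5 hR
  rw [bc_eq h1 h5 hR hU hL hC hm]
  have hcr := xy_crit h1 h5 hR hD
  obtain ⟨A, hA, H⟩ := hS bh hcr
  refine ⟨A, hA, Metric.tendsto_nhds.2 fun η hη => ?_⟩
  obtain ⟨ε, hε, hε1, hε2, hε3⟩ : ∃ ε : ℝ, 0 < ε ∧ ε ≤ A / 2 ∧ ε ≤ 1 ∧ ε * (A + 4) ≤ η := by
    refine ⟨min (min (A / 2) 1) (η / (A + 4)), by positivity, (min_le_left _ _).trans (min_le_left _ _),
      (min_le_left _ _).trans (min_le_right _ _), (le_div_iff₀ (by positivity)).1 (min_le_right _ _)⟩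
  obtain ⟨ε₁, hε₁, H1⟩ := H ε hε
  obtain ⟨K, L₁, HU⟩ := hU (bh / 2) bh ε₁ ε (by positivity) hε₁ hε
  obtain ⟨c, L₂, hc0, HL⟩ := hL (bh / 2) bh ε₁ ε (by positivity) (by linarith) hcr.2.1.le hε₁ hε
  have t0 : Tendsto (fun b : ℝ => √(bh - b)) (𝓝[<] bh) (𝓝 0) := by
    have : Tendsto (fun b : ℝ => √(bh - b)) (𝓝 bh) (𝓝 (√(bh - bh))) :=
      (by fun_prop : Continuous fun b : ℝ => √(bh - b)).tendsto _
    rw [sub_self, Real.sqrt_zero] at this
    exact this.mono_left nhdsWithin_le_nhds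
  have sm : ∀ k : ℝ, ∀ᶠ b in 𝓝[<] bh, |√(bh - b) * k| < ε := fun k => by
    have := (t0.mul_const k).abs
    rw [zero_mul, abs_zero] at this
    exact this.eventually (gt_mem_nhds hε)
  filter_upwards [H1, sm (Real.log K), sm (Real.log c), sm (Real.log (L₁ + L₂ + 1 : ℕ)),
    self_mem_nhdsWithin, (le_mem_nhds (half_lt_self hc)).filter_mono nhdsWithin_le_nhds]
    with b ⟨⟨L, a1, a2⟩, ⟨L', a3, a4⟩⟩ s1 s2 s3 hb hb2
  have hb' : b < bh := hb
  have hb0 : 0 < b := by linarith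
  have hq : 0 < √(bh - b) := Real.sqrt_pos.2 (by linarith)
  have big : ∀ N : ℕ, |√(bh - b) * Real.log N - A| ≤ ε → L₁ + L₂ + 1 ≤ N := fun N hN => by
    by_contra hn
    push Not at hn
    have b1 : Real.log N ≤ Real.log (L₁ + L₂ + 1 : ℕ) := by
      rcases Nat.eq_zero_or_pos N with rfl | hN0
      · simpa using Real.log_natCast_nonneg (L₁ + L₂ + 1)
      · exact Real.log_le_log (by exact_mod_cast hN0) (by exact_mod_cast hn.le)
    have b2 := mul_le_mul_of_nonneg_left b1 hq.le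
    have b3 := (abs_le.1 hN).1
    have b4 := (abs_lt.1 s3).2
    linarith
  have g1 := big L a1
  have g2 := big L' a3
  have hL0 : (0 : ℝ) < L := by exact_mod_cast (by omega : 0 < L)
  have hL0' : (0 : ℝ) < L' := by exact_mod_cast (by omega : 0 < L')
  have u := HU b hb2 hb'.le L (by omega) a2 _ _ (hC b hb0) (hm b hb0)
  have l := HL b hb2 hb'.le L' (by omega) a4 _ _ (hC b hb0) (hm b hb0)
  have mp : 0 < m b := lt_of_lt_of_le (by positivity) l
  have hK : 0 < K := (div_pos_iff_of_pos_right (by positivity)).1 (mp.trans_le u)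
  have u' := Real.log_le_log mp u
  have l' := Real.log_le_log (by positivity) l
  rw [Real.log_div hK.ne' (by positivity), Real.log_rpow hL0] at u'
  rw [Real.log_div hc0.ne' (by positivity), Real.log_rpow hL0'] at l'
  rw [Real.dist_eq, one_div, Real.log_inv, abs_lt]
  have u2 := mul_le_mul_of_nonneg_left u' hq.le
  have l2 := mul_le_mul_of_nonneg_left l' hq.le
  obtain ⟨p1, p2⟩ := abs_le.1 a1
  obtain ⟨p3, p4⟩ := abs_le.1 a3
  obtain ⟨p5, p6⟩ := abs_lt.1 s1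
  obtain ⟨p7, p8⟩ := abs_lt.1 s2
  set x := √(bh - b) * Real.log L
  set y := √(bh - b) * Real.log L'
  have e1 : √(bh - b) * (Real.log K - (1 - ε) * Real.log L) =
    √(bh - b) * Real.log K - (1 - ε) * x := by simp only [x]; ring
  have e2 : √(bh - b) * (Real.log c - (1 + ε) * Real.log L') =
    √(bh - b) * Real.log c - (1 + ε) * y := by simp only [y]; ring
  rw [e1] at u2
  rw [e2] at l2
  constructor <;> nlinarith

end Crest.Agent.T145.Top
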