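import Crest.Agent.T145.AllU_21
import Crest.Agent.T145.KrAll_77
import Crest.Agent.T145.DfAlg_3
import Crest.Agent.T145.DfAna_22
import Crest.Agent.T145.DfBump_65
import Crest.Agent.T145.DfCau_4
import Crest.Agent.T145.DfDer_15
import Crest.Agent.T145.DfEn_56
import Crest.Agent.T145.DfFar_58
import Crest.Agent.T145.DfKb_30
import Crest.Agent.T145.DfMom_23
import Crest.Agent.T145.DfNear_55
import Crest.Agent.T145.DfOpen_10
import Crest.Agent.T145.DfQuad_41
import Crest.Agent.T145.DfReg_70
import Crest.Agent.T145.DfRep_19
import Crest.Agent.T145.DfSemi_51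
import Crest.Agent.T145.DfSum_36
import Crest.Agent.T145.DfTop_70
import Crest.Agent.T145.DfUp_12
import Crest.Agent.T145.Top_76

/-!
# Row 145: P1 (differentiability off the critical value) without hypotheses (helper21)
-/

set_option autoImplicit false

namespace Crest.Agent.T145.All

namespace D
open Df

theorem mom : MomStmt := momStmt br
theorem pro : ProStmt := proStmt algStmt mom semiStmt
theorem en : EnStmt := enStmt algStmt
theorem amb : AmbStmt := ambStmt Nc.U.dec
theorem kb : KbStmt := kbStmt algStmt mom semiStmt fusStmt pro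
theorem mid : MidStmt := midStmt algStmt mom semiStmt fusStmt pro
theorem sum : SumStmt := sumStmt algStmt bumpStmt idStmt' ioStmt pro br
theorem quad : QuadStmt := quadStmt algStmt pwStmt bumpStmt
theorem rep : RepStmt := repStmt algStmt mom idStmt' amb kb sum quad
theorem up : UpStmt := upStmt t1x br bumpStmt idStmt'
theorem lim : LimStmt := limStmt dlg t1m br bumpStmt idStmt'
theorem far : FarStmt := farStmt algStmt pwStmt mom fusStmt ioStmt pro semiStmt
theorem near : NearStmt := nearStmt algStmt pwStmt mom semiStmt fusStmt pro
theorem der : DerStmt := derStmt algStmt pwStmt semiStmt kb en far near mid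
theorem cau : CauStmt := cauStmt algStmt mom semiStmt kb en amb far
theorem ana : AnaStmt := anaStmt pwStmt
theorem reg : RegStmt := regStmt Kr.U.kOdd Kr.U.kEven gd
theorem opn : OpenStmt := openStmt reg rep up lim bumpStmt idStmt' en t1m t1d

end D

theorem p1 : Top.DiffStmt :=
  Df.diffStmt Df.algStmt Df.bumpStmt Df.idStmt' D.en D.kb D.rep D.lim D.der D.cau D.ana D.opn

end Crest.Agent.T145.All
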