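import Crest.Agent.T145.GffDef_8
import Crest.Agent.T145.GeoA_51

/-!
# Row 145, module (b), APX part A (helper16): flows, the lattice Laplacian, cosine / sine bases
-/

set_option autoImplicit false

namespace Crest.Agent.T145.Apx16

open Finset Real

/-! ## Flows -/

/-- flows, the equation being asked where `P` holds -/
def G2 (ed : Finset (Pt × Pt)) (P : Pt → Prop) (f : Pt → ℝ) (n : ℝ) : Prop :=
  ∃ φ, (∀ x, P x → f x = dv ed φ x) ∧ ∑ e ∈ ed, φ e ^ 2 ≤ n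

theorem f2_iff {ed : Finset (Pt × Pt)} {f : Pt → ℝ} {n : ℝ} :
    F2 ed f n ↔ G2 ed (fun _ => True) f n :=
  exists_congr fun _ => and_congr_left' ⟨fun h x _ => congrFun h x, fun h => funext fun x => h x trivial⟩

theorem f2a_iff {ed : Finset (Pt × Pt)} {A : Finset Pt} {f : Pt → ℝ} {n : ℝ} :
    F2A ed A f n ↔ G2 ed (· ∈ A) f n := Iff.rfl

theorem G2.sub {ed : Finset (Pt × Pt)} {P : Pt → Prop} {f g : Pt → ℝ} {n m : ℝ}
    (h : G2 ed P f n) (h' : G2 ed P g m) : G2 ed P (f - g) (2 * n + 2 * m) := by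
  obtain ⟨φ, h1, h2⟩ := h
  obtain ⟨ψ, h3, h4⟩ := h'
  refine ⟨fun e => φ e - ψ e, fun x hx => ?_, ?_⟩
  · simp only [Pi.sub_apply, h1 x hx, h3 x hx, dv, sub_mul, sum_sub_distrib]
  · calc ∑ e ∈ ed, (φ e - ψ e) ^ 2 ≤ ∑ e ∈ ed, (2 * φ e ^ 2 + 2 * ψ e ^ 2) :=
          sum_le_sum fun e _ => by nlinarith [sq_nonneg (φ e + ψ e)]
      _ ≤ 2 * n + 2 * m := by rw [sum_add_distrib, ← mul_sum, ← mul_sum]; linarith

theorem G2.mono {ed ed' : Finset (Pt × Pt)} {P P' : Pt → Prop} {f f' : Pt → ℝ} {n n' : ℝ}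
    (h : G2 ed P f n) (he : ed ⊆ ed') (hP : ∀ x, P' x → P x ∧ f' x = f x) (hn : n ≤ n') :
    G2 ed' P' f' n' := by
  classical
  obtain ⟨φ, h1, h2⟩ := h
  refine ⟨fun e => if e ∈ ed then φ e else 0, fun x hx => ?_, ?_⟩
  · rw [(hP x hx).2, h1 x (hP x hx).1, dv, dv, ← sum_subset he]
    · exact sum_congr rfl fun e h => by rw [if_pos h]
    · intro e _ h; rw [if_neg h, zero_mul]
  · rw [← sum_subset he]
    · exact (sum_congr rfl fun e h => by simp only [if_pos h]).trans_le (h2.trans hn)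
    · intro e _ h; simp [if_neg h]

/-- gradient -/
def gr (w : Pt → ℝ) (e : Pt × Pt) : ℝ := w e.2 - w e.1

/-- the (positive) Laplacian of `ℤ²` -/
def lap (w : Pt → ℝ) (x : Pt) : ℝ :=
  (2 * w x - w (x.1 + 1, x.2) - w (x.1 - 1, x.2)) + (2 * w x - w (x.1, x.2 + 1) - w (x.1, x.2 - 1))

theorem nn_Jp : nnL.Jp = {(1, 0), (0, 1)} := by
  show nn.filter posD = _
  decide

theorem mem_nnT {B : Finset Pt} {e : Pt × Pt} : e ∈ nnL.edT B ↔
    (e.2 = (e.1.1 + 1, e.1.2) ∨ e.2 = (e.1.1, e.1.2 + 1)) ∧ (e.1 ∈ B ∨ e.2 ∈ B) := by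
  rw [Lat.mem_edT, nn_Jp]
  obtain ⟨⟨a, b⟩, c, d⟩ := e
  simp only [mem_insert, mem_singleton, Prod.mk_sub_mk, Prod.mk.injEq]
  exact and_congr_left' (by omega)

theorem nnT_subset {Λ : Lat} (h : Λ.Ok) (B : Finset Pt) : nnL.edT B ⊆ Λ.edT B := fun e he => by
  rw [Lat.mem_edT] at he ⊢
  refine ⟨?_, he.2⟩
  have h1 := he.1
  rw [nn_Jp, mem_insert, mem_singleton] at h1
  rcases h1 with h1 | h1 <;> rw [h1]
  exacts [h.e1, h.e2]

theorem nnI_subset {Λ : Lat} (h : Λ.Ok) (B : Finset Pt) : nnL.edI B ⊆ Λ.edI B := fun e he => by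
  have h1 := Lat.mem_edT.1 (nnT_subset h B (Lat.edI_subset_edT B he))
  rw [Lat.mem_edI] at he ⊢
  exact ⟨h1.1, he.2⟩

theorem dv_gr {B : Finset Pt} (w : Pt → ℝ) {x : Pt} (hx : x ∈ B) :
    dv (nnL.edT B) (gr w) x = lap w x := by
  classical
  have h2 : (nnL.edT B).filter (fun e => e.2 = x) = {((x.1 - 1, x.2), x), ((x.1, x.2 - 1), x)} := by
    ext ⟨⟨a, b⟩, y⟩
    simp only [mem_filter, mem_nnT, mem_insert, mem_singleton, Prod.ext_iff]
    constructor
    · rintro ⟨⟨h, -⟩, h'⟩; omega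
    · intro h
      have : y = x := Prod.ext (by omega) (by omega)
      subst this
      exact ⟨⟨by omega, Or.inr hx⟩, rfl, rfl⟩
  have h1 : (nnL.edT B).filter (fun e => e.1 = x) = {(x, (x.1 + 1, x.2)), (x, (x.1, x.2 + 1))} := by
    ext ⟨y, ⟨a, b⟩⟩
    simp only [mem_filter, mem_nnT, mem_insert, mem_singleton, Prod.ext_iff]
    constructor
    · rintro ⟨⟨h, -⟩, h'⟩; omega
    · intro h
      have : y = x := Prod.ext (by omega) (by omega)
      subst this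
      exact ⟨⟨by omega, Or.inl hx⟩, rfl, rfl⟩
  have h3 : ∀ (p : Pt × Pt → Prop) [DecidablePred p], ∑ e ∈ nnL.edT B, gr w e * ind (p e) =
      ∑ e ∈ (nnL.edT B).filter p, gr w e := fun p _ => by
    rw [sum_filter]
    exact sum_congr rfl fun e _ => by by_cases h : p e <;> simp [ind, h]
  simp only [dv, mul_sub, sum_sub_distrib]
  rw [h3, h3, h1, h2, sum_pair (by simp [Prod.ext_iff]),
    sum_pair (by simp [Prod.ext_iff])]
  simp only [gr, lap]
  ring

theorem dv_off {B : Finset Pt} (φ : Pt × Pt → ℝ) {Λ : Lat} {x : Pt} (hx : x ∉ B) :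
    dv (Λ.edI B) φ x = 0 := sum_eq_zero fun e he => by
  rw [Lat.mem_edI] at he
  have h1 : ¬ e.2 = x := fun h => hx (h ▸ he.2.2)
  have h2 : ¬ e.1 = x := fun h => hx (h ▸ he.2.1)
  simp [ind, h1, h2]

theorem sum_dv (B : Finset Pt) (ed : Finset (Pt × Pt)) (φ : Pt × Pt → ℝ) (w : Pt → ℝ) :
    ∑ x ∈ B, w x * dv ed φ x =
      ∑ e ∈ ed, φ e * (w e.2 * ind (e.2 ∈ B) - w e.1 * ind (e.1 ∈ B)) := by
  have h : ∀ y : Pt, ∑ x ∈ B, w x * ind (y = x) = w y * ind (y ∈ B) := fun y => by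
    by_cases hy : y ∈ B
    · rw [sum_eq_single_of_mem y hy fun x _ hx => by simp [ind, hx.symm]]
      simp [ind, hy]
    · rw [sum_eq_zero fun x hx => by
        have : ¬ y = x := fun h => hy (h ▸ hx)
        simp [ind, this]]
      simp [ind, hy]
  simp only [dv, mul_sum]
  rw [sum_comm]
  refine sum_congr rfl fun e _ => ?_
  rw [← h, ← h, ← sum_sub_distrib, mul_sum]
  exact sum_congr rfl fun x _ => by ring

/-- even (`σ = 1`) or odd (`σ = -1`) reflection across the sides of `sq 0 L` -/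
def Rf (L : ℕ) (σ : ℝ) (w : Pt → ℝ) : Prop := ∀ t : ℤ,
  w (-1, t) = σ * w (0, t) ∧ w (L, t) = σ * w (L - 1, t) ∧
    w (t, -1) = σ * w (t, 0) ∧ w (t, L) = σ * w (t, L - 1)

theorem Rf.edge {L : ℕ} {σ : ℝ} {w : Pt → ℝ} (h : Rf L σ w) {e : Pt × Pt}
    (he : e ∈ nnL.edT (sq 0 L)) : (e.1 ∈ sq 0 L ∧ e.2 ∈ sq 0 L) ∨
      (e.1 ∈ sq 0 L ∧ e.2 ∉ sq 0 L ∧ w e.2 = σ * w e.1) ∨
      (e.1 ∉ sq 0 L ∧ e.2 ∈ sq 0 L ∧ w e.1 = σ * w e.2) := by
  obtain ⟨⟨a, b⟩, y⟩ := e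
  rw [mem_nnT] at he
  obtain ⟨h1, h2⟩ := he
  dsimp only at h1 h2 ⊢
  by_cases p1 : (a, b) ∈ sq 0 L <;> by_cases p2 : y ∈ sq 0 L
  · exact Or.inl ⟨p1, p2⟩
  · refine Or.inr (Or.inl ⟨p1, p2, ?_⟩)
    rw [mem_sq] at p1 p2
    simp only [Prod.fst_zero, Prod.snd_zero] at p1 p2
    rcases h1 with rfl | rfl
    · dsimp only at p2
      obtain rfl : a = L - 1 := by omega
      rw [sub_add_cancel]; exact (h b).2.1
    · dsimp only at p2
      obtain rfl : b = L - 1 := by omega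
      rw [sub_add_cancel]; exact (h a).2.2.2
  · refine Or.inr (Or.inr ⟨p1, p2, ?_⟩)
    rw [mem_sq] at p1 p2
    simp only [Prod.fst_zero, Prod.snd_zero] at p1 p2
    rcases h1 with rfl | rfl
    · dsimp only at p2
      obtain rfl : a = -1 := by omega
      exact (h b).1
    · dsimp only at p2
      obtain rfl : b = -1 := by omega
      exact (h a).2.2.1
  · exact absurd h2 (by tauto)

theorem Rf.energy {L : ℕ} {σ : ℝ} {w : Pt → ℝ} (h : Rf L σ w) (hσ : σ = 1 ∨ σ = -1) :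
    ∑ e ∈ nnL.edT (sq 0 L), gr w e ^ 2 ≤ 2 * ∑ x ∈ sq 0 L, w x * lap w x := by
  have h0 : ∑ x ∈ sq 0 L, w x * lap w x = ∑ x ∈ sq 0 L, w x * dv (nnL.edT (sq 0 L)) (gr w) x :=
    sum_congr rfl fun x hx => by rw [dv_gr w hx]
  rw [h0, sum_dv, mul_sum]
  refine sum_le_sum fun e he => ?_
  rcases h.edge he with ⟨h1, h2⟩ | ⟨h1, h2, h3⟩ | ⟨h1, h2, h3⟩ <;>
    simp only [ind, h1, h2, if_true, if_false, gr]
  · nlinarith [sq_nonneg (w e.2 - w e.1)]
  · rw [h3]; rcases hσ with rfl | rfl <;> nlinarith [sq_nonneg (w e.1)]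
  · rw [h3]; rcases hσ with rfl | rfl <;> nlinarith [sq_nonneg (w e.2)]

theorem Rf.dv_edI {L : ℕ} {w : Pt → ℝ} (h : Rf L 1 w) {x : Pt} (hx : x ∈ sq 0 L) :
    dv (nnL.edI (sq 0 L)) (gr w) x = lap w x := by
  rw [← dv_gr w hx, dv, dv]
  refine sum_subset (Lat.edI_subset_edT _) fun e he hn => ?_
  have : gr w e = 0 := by
    rcases h.edge he with ⟨h1, h2⟩ | ⟨-, -, h3⟩ | ⟨-, -, h3⟩
    · exact absurd (Lat.mem_edI.2 ⟨(Lat.mem_edT.1 he).1, h1, h2⟩) hn
    · rw [gr, h3]; ring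
    · rw [gr, h3]; ring
  rw [this, zero_mul]

theorem nn_Au (B : Finset Pt) (u : Pt → ℝ) : nnL.Au B u = dv (nnL.edI B) (gr u) := by
  unfold Lat.Au gr
  simp [nnL]

/-! ## Completeness of orthogonal families -/

theorem complete {ι : Type} [DecidableEq ι] {I : Finset ι} {X : Finset Pt} {E : ι → Pt → ℝ}
    (hc : I.card = X.card) (ho : ∀ k ∈ I, ∀ m ∈ I, k ≠ m → ip X (E k) (E m) = 0)
    (hn : ∀ k ∈ I, ip X (E k) (E k) ≠ 0) (f : Pt → ℝ) {x : Pt} (hx : x ∈ X) :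
    f x = ∑ k ∈ I, ip X f (E k) / ip X (E k) (E k) * E k x := by
  let A : Matrix I X ℝ := Matrix.of fun k y => E k y / ip X (E k) (E k)
  let B : Matrix X I ℝ := Matrix.of fun y k => E k y
  have hAB : A * B = 1 := by
    ext k m
    simp only [A, B, Matrix.mul_apply, Matrix.of_apply, Matrix.one_apply]
    have : ∑ y : X, E k y / ip X (E k) (E k) * E m y = ip X (E k) (E m) / ip X (E k) (E k) := by
      rw [sum_coe_sort X fun y => E k y / ip X (E k) (E k) * E m y]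
      conv_rhs => rw [ip, sum_div]
      exact sum_congr rfl fun y _ => by ring
    rw [this]
    split_ifs with h
    · subst h; exact div_self (hn k k.2)
    · rw [ho k k.2 m m.2 fun h' => h (Subtype.ext h'), zero_div]
  have hBA := (Matrix.mul_eq_one_comm_of_card_eq _ _ _ (by simpa using hc)).1 hAB
  have h1 : ∀ y : X, ∑ k ∈ I, E k x * (E k y / ip X (E k) (E k)) =
      if (⟨x, hx⟩ : X) = y then 1 else 0 := fun y => by
    have := congrFun (congrFun hBA ⟨x, hx⟩) y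
    simp only [A, B, Matrix.mul_apply, Matrix.of_apply, Matrix.one_apply] at this
    rw [← this, sum_coe_sort I fun k => E k x * (E k y / ip X (E k) (E k))]
  calc f x = ∑ y : X, f y * ∑ k ∈ I, E k x * (E k y / ip X (E k) (E k)) := by
        simp [h1]
    _ = _ := by
        simp only [mul_sum]
        rw [sum_comm]
        refine sum_congr rfl fun k _ => ?_
        rw [sum_coe_sort X fun y => f y * (E k x * (E k y / ip X (E k) (E k)))]
        conv_rhs => rw [ip, sum_div, sum_mul]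
        exact sum_congr rfl fun y _ => by ring

/-! ## The one-dimensional bases -/

/-- frequency -/
noncomputable def th (s L k : ℕ) : ℝ := π * ((k + s : ℕ) : ℝ) / L

/-- `s = 0`: cosines; `s = 1`: sines -/
noncomputable def ec (s L k : ℕ) (t : ℤ) : ℝ := cos (th s L k * (t + 1 / 2) - s * (π / 2))

/-- eigenvalue -/
noncomputable def la (s L k : ℕ) : ℝ := 2 - 2 * cos (th s L k)

theorem sum_Ico_eq (L : ℕ) (g : ℤ → ℝ) :
    ∑ t ∈ Ico (0 : ℤ) (0 + L), g t = ∑ t ∈ range L, g t := by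
  rw [zero_add]
  symm
  refine sum_bij' (fun t _ => (t : ℤ)) (fun t _ => t.toNat) ?_ ?_ ?_ ?_ ?_ <;> simp <;> omega

theorem sum_cos {L : ℕ} {j : ℤ} (h0 : j ≠ 0) (h1 : |j| < 2 * L) :
    ∑ t ∈ range L, cos (π * j / L * (t + 1 / 2)) = 0 := by
  have hL : (0 : ℝ) < L := by
    have : 0 < L := by have := abs_nonneg j; omega
    exact_mod_cast this
  have hs : sin (π * j / L / 2) ≠ 0 := by
    intro h
    obtain ⟨n, hn⟩ := sin_eq_zero_iff.1 h
    have h2 : (j : ℝ) = n * (2 * L) := by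
      field_simp at hn
      linarith
    have h3 : j = n * (2 * L) := by exact_mod_cast h2
    have hn0 : n ≠ 0 := fun h => h0 (by rw [h3, h, zero_mul])
    rw [h3, abs_mul, abs_of_nonneg (by positivity : (0 : ℤ) ≤ 2 * L)] at h1
    have := Int.one_le_abs hn0
    nlinarith
  apply mul_left_cancel₀ (mul_ne_zero two_ne_zero hs)
  rw [mul_zero, mul_sum]
  have : ∀ t : ℕ, 2 * sin (π * j / L / 2) * cos (π * j / L * (t + 1 / 2)) =
      sin (π * j / L * ((t + 1 : ℕ) : ℝ)) - sin (π * j / L * (t : ℕ)) := fun t => by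
    rw [sin_sub_sin]
    push_cast
    congr 2 <;> [congr 1; skip] <;> ring
  rw [sum_congr rfl fun t _ => this t, sum_range_sub fun t : ℕ => sin (π * j / L * t)]
  rw [div_mul_cancel₀ _ hL.ne', mul_comm π, sin_int_mul_pi]
  simp

theorem ec_mul (s L k m : ℕ) (t : ℤ) : ec s L k t * ec s L m t =
    (cos (π * ((k : ℤ) - m : ℤ) / L * (t + 1 / 2)) +
      cos (π * ((k : ℤ) + m + 2 * s : ℤ) / L * (t + 1 / 2) - s * π)) / 2 := by
  have h : ∀ a b : ℝ, cos a * cos b = (cos (a - b) + cos (a + b)) / 2 := fun a b => by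
    rw [cos_sub, cos_add]; ring
  rw [ec, ec, h, th, th]
  push_cast
  congr 3 <;> ring

theorem ec_orth {s L k m : ℕ} (hs : s ≤ 1) (hk : k < L) (hm : m < L) (h : k ≠ m) :
    ∑ t ∈ Ico (0 : ℤ) (0 + L), ec s L k t * ec s L m t = 0 := by
  rw [sum_Ico_eq]
  simp only [ec_mul, Int.cast_natCast, cos_sub_nat_mul_pi]
  rw [← sum_div, sum_add_distrib, ← mul_sum, sum_cos (by omega) (by rw [abs_lt]; omega),
    sum_cos (by omega) (by rw [abs_lt]; omega)]
  simp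

theorem ec_nrm {s L k : ℕ} (hs : s ≤ 1) (hk : k < L) :
    (L : ℝ) / 2 ≤ ∑ t ∈ Ico (0 : ℤ) (0 + L), ec s L k t * ec s L k t := by
  rw [sum_Ico_eq]
  simp only [ec_mul, Int.cast_natCast, cos_sub_nat_mul_pi]
  rw [← sum_div, sum_add_distrib, ← mul_sum]
  have h1 : ∑ t ∈ range L, cos (π * ((k : ℤ) - k : ℤ) / L * (t + 1 / 2)) = L := by simp
  rw [h1]
  have h2 : 0 ≤ (-1 : ℝ) ^ s * ∑ t ∈ range L, cos (π * ((k : ℤ) + k + 2 * s : ℤ) / L * (t + 1 / 2)) := by
    by_cases h0 : (k : ℤ) + k + 2 * s = 0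
    · obtain rfl : s = 0 := by omega
      rw [h0]; simp
    by_cases h3 : (k : ℤ) + k + 2 * s < 2 * L
    · rw [sum_cos h0 (by rw [abs_lt]; omega), mul_zero]
    · obtain rfl : s = 1 := by omega
      have h4 : (k : ℤ) + k + 2 * (1 : ℕ) = 2 * L := by omega
      have hL : (L : ℝ) ≠ 0 := by
        have : L ≠ 0 := by omega
        exact_mod_cast this
      rw [h4, pow_one, neg_one_mul, neg_nonneg]
      refine sum_nonpos fun t _ => ?_
      have : π * ((2 * L : ℤ) : ℝ) / L * (t + 1 / 2) = t * (2 * π) + π := by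
        push_cast; field_simp
      rw [this, cos_nat_mul_two_pi_add_pi]
      norm_num
  linarith

theorem ec_eig (s L k : ℕ) (t : ℤ) :
    2 * ec s L k t - ec s L k (t + 1) - ec s L k (t - 1) = la s L k * ec s L k t := by
  have h1 : ec s L k (t + 1) = cos ((th s L k * (t + 1 / 2) - s * (π / 2)) + th s L k) := by
    rw [ec]; push_cast; congr 1; ring
  have h2 : ec s L k (t - 1) = cos ((th s L k * (t + 1 / 2) - s * (π / 2)) - th s L k) := by
    rw [ec]; push_cast; congr 1; ring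
  rw [h1, h2, la, ec]
  generalize th s L k * (t + 1 / 2) - s * (π / 2) = a
  rw [cos_add, cos_sub]
  ring

theorem ec_refl (s L k : ℕ) (t : ℤ) : ec s L k (-1 - t) = (-1) ^ s * ec s L k t := by
  rw [ec, ec, ← cos_add_nat_mul_pi, ← cos_neg]
  push_cast; congr 1; ring

theorem ec_refl' {s L : ℕ} (hL : 0 < L) (k : ℕ) (t : ℤ) :
    ec s L k (L - 1 - t) = (-1) ^ k * ec s L k t := by
  have hL' : (L : ℝ) ≠ 0 := by positivity
  rw [ec, ec, ← cos_sub_nat_mul_pi, ← cos_neg, th]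
  push_cast; congr 1; field_simp; ring

theorem ec_hi {s L : ℕ} (hL : 0 < L) (k : ℕ) :
    ec s L k L = (-1) ^ s * ec s L k (L - 1) := by
  have h1 := ec_refl' (s := s) hL k (-1)
  have h2 := ec_refl' (s := s) hL k 0
  have h3 := ec_refl s L k 0
  simp only [sub_zero] at h2 h3
  rw [show (L : ℤ) - 1 - -1 = L by ring] at h1
  rw [h1, h2, h3]; ring

theorem th_nonneg (s L k : ℕ) : 0 ≤ th s L k := by
  have := pi_pos
  rw [th]; positivity

theorem la_ge {s L k : ℕ} (hs : s ≤ 1) (hk : k < L) :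
    4 * ((k + s : ℕ) : ℝ) ^ 2 / (L : ℝ) ^ 2 ≤ la s L k := by
  have hL : (0 : ℝ) < L := by
    have : 0 < L := by omega
    exact_mod_cast this
  have h1 : |th s L k| ≤ π := by
    rw [abs_of_nonneg (th_nonneg _ _ _), th, div_le_iff₀ hL]
    have : ((k + s : ℕ) : ℝ) ≤ L := by exact_mod_cast (by omega : k + s ≤ L)
    exact mul_le_mul_of_nonneg_left this pi_pos.le
  have h2 := cos_le_one_sub_mul_cos_sq h1
  have h3 : 2 / π ^ 2 * th s L k ^ 2 = 2 * ((k + s : ℕ) : ℝ) ^ 2 / (L : ℝ) ^ 2 := by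
    have := pi_pos
    rw [th]; field_simp
  rw [h3] at h2
  rw [la]
  have : 4 * ((k + s : ℕ) : ℝ) ^ 2 / (L : ℝ) ^ 2 = 2 * (2 * ((k + s : ℕ) : ℝ) ^ 2 / (L : ℝ) ^ 2) := by
    ring
  linarith

end Crest.Agent.T145.Apx16
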