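import Crest.Agent.T145.DfAlg_3
import Crest.Agent.T145.DfAna_22
import Crest.Agent.T145.DfBump_65
import Crest.Agent.T145.DfCau_4
import Crest.Agent.T145.DfDer_15
import Crest.Agent.T145.DfEn_56
import Crest.Agent.T145.DfFar_58
import Crest.Agent.T145.DfMom_23
import Crest.Agent.T145.DfNear_55
import Crest.Agent.T145.DfOpen_10
import Crest.Agent.T145.DfQuad_41
import Crest.Agent.T145.DfReg_70
import Crest.Agent.T145.DfRep_19
import Crest.Agent.T145.DfSemi_51
import Crest.Agent.T145.DfSum_36
import Crest.Agent.T145.DfTop_70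
import Crest.Agent.T145.DfUp_12

/-!
# Row 145, module Df: assembly (helper70)
-/

set_option autoImplicit false

namespace Crest.Agent.T145.Df

theorem mom : MomStmt := momStmt brStmt
theorem pro : ProStmt := proStmt algStmt mom semiStmt
theorem en : EnStmt := enStmt algStmt
theorem amb : AmbStmt := ambStmt FlF4.dec
theorem kb : KbStmt := kbStmt algStmt mom semiStmt fusStmt pro
theorem mid : MidStmt := midStmt algStmt mom semiStmt fusStmt pro
theorem sum' : SumStmt := sumStmt algStmt bumpStmt idStmt' ioStmt pro brStmt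
theorem quad : QuadStmt := quadStmt algStmt pwStmt bumpStmt
theorem rep : RepStmt := repStmt algStmt mom idStmt' amb kb sum' quad
theorem far : FarStmt := farStmt algStmt pwStmt mom fusStmt ioStmt pro semiStmt
theorem near : NearStmt := nearStmt algStmt pwStmt mom semiStmt fusStmt pro
theorem der : DerStmt := derStmt algStmt pwStmt semiStmt kb en far near mid
theorem cau : CauStmt := cauStmt algStmt mom semiStmt kb en amb far

/-- P1 -/
theorem p1 (hx : T1xStmt) (hm : T1mStmt) (hd : T1dStmt) (hD : DlgStmt) (hG : Nc.GdStmt)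
    (hO : Kr.KOddStmt) (hE : Kr.KEvenStmt) : Top.DiffStmt :=
  have lim := limStmt hD hm brStmt bumpStmt idStmt'
  diffStmt algStmt bumpStmt idStmt' en kb rep lim der cau (anaStmt pwStmt)
    (openStmt (regStmt hO hE hG) rep (upStmt hx brStmt bumpStmt idStmt') lim bumpStmt idStmt' en hm hd)

end Crest.Agent.T145.Df
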