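import Crest.Agent.T145.ScB_97
import Crest.Agent.T145.TopDef_76
import Crest.Agent.T145.TauB_5
import Crest.Agent.T145.Sm_58

/-!
# Row 145, module Df (helper70): differentiability of `gI` off the critical value (`Top.DiffStmt`)

Text: `docs/T145_70.md`.  Inputs: `Nc` (LD1, Dec), module (b) (Br, T1x, T1d, T1m, Dlg), the crude sectors of `Kr` and T4
(only through `RegStmt`).  Output: `Top.DiffStmt`.  Every `…Stmt` below is a task.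
-/

set_option autoImplicit false

namespace Crest.Agent.T145.Df

open Finset Filter Topology Nc

/-- sup norm -/
def nr (x : Pt) : ℕ := max x.1.natAbs x.2.natAbs

/-- the `D4` orbit of `w` about the origin -/
noncomputable def orb (w : Pt) : Finset Pt := (bl 0 (nr w)).filter fun v =>
  (v.1.natAbs = w.1.natAbs ∧ v.2.natAbs = w.2.natAbs) ∨ (v.1.natAbs = w.2.natAbs ∧ v.2.natAbs = w.1.natAbs)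

/-- the Laplacian of the steps `J` -/
noncomputable def JL (J : Finset Pt) (z : Pt) (s : Cfg Pt) : ℝ := ∑ y ∈ J, ((s z : ℝ) - (s (z + y) : ℝ))

/-- half the energy of the star of `z` -/
noncomputable def es (Λ : Lat) (z : Pt) (s : Cfg Pt) : ℝ :=
  (∑ y ∈ Λ.J, Tau5.eps Λ.xy Λ.τ (s (z + y) - s z)) / 2

/-- the same, centred in the model `m` -/
noncomputable def ec (Λ : Lat) (m : Mdl Pt) (z : Pt) (s : Cfg Pt) : ℝ := es Λ z s - Ex (m.W 0) (es Λ z)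

/-- the norm of the flowed insertion -/
noncomputable def nu (Λ : Lat) (W : ℕ) (z : Pt) (r : ℕ) (F : Cfg Pt → ℝ) : ℝ := Nm Λ z (W * r) (St Λ z r F)

/-- every lattice edge at `z` is an edge of `m` or has both ends pinned -/
def Sees (Λ : Lat) (m : Mdl Pt) (z : Pt) : Prop := ∀ e : Pt × Pt, e.2 - e.1 ∈ Λ.Jp → e.1 = z ∨ e.2 = z →
  (e ∈ m.ed ∧ m.w e = Λ.w) ∨ (e.1 ∉ m.A ∧ e.2 ∉ m.A)

/-- the constants of a regime -/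
structure Par where
  W : ℕ
  r₀ : ℕ
  C : ℝ
  α : ℝ
  β : ℝ
  hC : 1 ≤ C
  hα : 2 < α
  hβ : 1 < β
  hβ' : β < 2
  hγ : 6 < 2 * α + β

/-- the regime up to the scale `L`: decoupling, and crude contraction of the odd and even `D4` sectors -/
structure Rg (Λ : Lat) (P : Par) (L : ℕ) : Prop where
  gd : Gd Λ (1 / 400) P.W P.r₀ (P.W * L)
  odd : ∀ (z : Pt) (r R : ℕ) (F : Cfg Pt → ℝ), P.r₀ ≤ r → r ≤ R → R ≤ L → Ins z r F → OddF F → D4 z F →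
    nu Λ P.W z R F ≤ P.C * ((r : ℝ) / R) ^ P.α * nu Λ P.W z r F
  even : ∀ (z : Pt) (r R : ℕ) (F : Cfg Pt → ℝ) (m : Mdl Pt), P.r₀ ≤ r → r ≤ R → R ≤ L → Ins z r F →
    EvenF F → D4 z F → Amb Λ m (bl z (P.W * R)) → Ex (m.W 0) F = 0 →
    nu Λ P.W z R F ≤ P.C * ((r : ℝ) / R) ^ P.β * nu Λ P.W z r F

/-- the weight of the Dirichlet box of radius `R` -/
noncomputable def WD (Λ : Lat) (R : ℕ) : Cfg Pt → ℝ := (Λ.D (bl 0 R)).W 0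

/-- two-point function of `JL` -/
noncomputable def KK (Λ : Lat) (m : Mdl Pt) (x y : Pt) : ℝ := Ex (m.W 0) fun s => JL Λ.J x s * JL Λ.J y s

/-- the kernel in the box of radius `R` -/
noncomputable def kk (Λ : Lat) (R : ℕ) (w : Pt) : ℝ := KK Λ (Λ.D (bl 0 R)) 0 w

/-- its derivative in `τ` -/
noncomputable def kd (Λ : Lat) (R : ℕ) (w : Pt) : ℝ :=
  Cv (WD Λ R) (fun s => JL Λ.J 0 s * JL Λ.J w s) ((Λ.D (bl 0 R)).en Λ.xy Λ.τ 0)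

/-- the test function: `1` on `bl 0 N`, `0` off the open square of radius `2 N` -/
noncomputable def ub (N : ℕ) : Pt → ℝ := bump (-(2 * N)) N (-(2 * N)) N N

/-- the cut-off: `1` on `bl 0 (3 N)`, `0` off the open square of radius `4 N` -/
noncomputable def ch (N : ℕ) : Pt → ℝ := bump (-(4 * N)) (3 * N) (-(4 * N)) (3 * N) N

noncomputable def UU (N : ℕ) (w : Pt) : ℝ := ∑ x ∈ bl 0 (3 * N), (ub N (x + w) - ub N x) ^ 2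

noncomputable def EE (J : Finset Pt) (N : ℕ) : ℝ := ∑ y ∈ J.filter posD, UU N y

/-- the variance of `∑ ub x * JL x` in the box of radius `10 N` -/
noncomputable def VJ (Λ : Lat) (N : ℕ) : ℝ :=
  Λ.τ ^ 2 * Vr (WD Λ (10 * N)) (pr (Λ.Au (bl 0 (10 * N)) (ub N))) (pr (Λ.Au (bl 0 (10 * N)) (ub N)))

/-! ## Algebra, sums, bare bounds -/

/-- ALG: symmetries -/
def AlgStmt : Prop :=
  (∀ (z x : Pt) (r : ℕ), x ∈ bl z r ↔ nr (x - z) ≤ r) ∧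
  (∀ w : Pt, w ∈ orb w ∧ (orb w).card ≤ 8 ∧ ∀ v ∈ orb w, nr v = nr w) ∧
  ∀ Λ : Lat, Λ.Ok → ∀ z : Pt,
    Ins z Λ.rg (JL Λ.J z) ∧ OddF (JL Λ.J z) ∧ D4 z (JL Λ.J z) ∧
    Ins z Λ.rg (es Λ z) ∧ EvenF (es Λ z) ∧ D4 z (es Λ z) ∧
    (∀ r R : ℕ, D4 z (fun s => ∑ x ∈ an z r R, es Λ x s) ∧ D4 z fun s => ∑ x ∈ bl z R, es Λ x s) ∧
    (D4 0 fun s => ∑ v ∈ orb z, JL Λ.J v s) ∧
    ∀ (R : ℕ) (w : Pt), KK Λ (Λ.D (bl z R)) z (z + w) = kk Λ R w ∧ ∀ v ∈ orb w, kk Λ R v = kk Λ R w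

/-- PW: shells and power sums -/
def PwStmt : Prop :=
  (∀ (z : Pt) (r R : ℕ) (f : ℕ → ℝ),
    ∑ x ∈ an z r R, f (nr (x - z)) = ∑ t ∈ Ioc r R, 8 * (t : ℝ) * f t) ∧
  (∀ (z : Pt) (R : ℕ), ((bl z R).card : ℝ) = (2 * (R : ℝ) + 1) ^ 2) ∧
  (∀ p : ℝ, 1 < p → ∃ C : ℝ, ∀ r R : ℕ, 1 ≤ r → ∑ t ∈ Ioc r R, (t : ℝ) ^ (-p) ≤ C * (r : ℝ) ^ (1 - p)) ∧
  (∀ q : ℝ, -1 < q → ∃ C : ℝ, ∀ r R : ℕ, ∑ t ∈ Ioc r R, (t : ℝ) ^ q ≤ C * (R : ℝ) ^ (q + 1)) ∧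
  ∀ p : ℝ, 2 < p → Summable fun w : Pt => (1 + (nr w : ℝ)) ^ (-p)

/-- MOM: bare moments -/
def MomStmt : Prop :=
  (∀ F : Fa, ∃ C : ℝ, 1 ≤ C ∧ ∀ Λ, F.Mem Λ → ∀ (m : Mdl Pt) (x y v : Pt), m.Ctr → m.Anch →
    Sees Λ m x → Sees Λ m y → Sees Λ m v →
    Ex (m.W 0) (fun s => |JL Λ.J x s|) ≤ C ∧ Ex (m.W 0) (fun s => |es Λ v s|) ≤ C ∧
    Ex (m.W 0) (fun s => |JL Λ.J x s * JL Λ.J y s|) ≤ C ∧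
    Ex (m.W 0) (fun s => |JL Λ.J x s * es Λ v s|) ≤ C ∧
    Ex (m.W 0) (fun s => |JL Λ.J x s * JL Λ.J y s * es Λ v s|) ≤ C) ∧
  ∀ Λ : Lat, Λ.Ok → ∀ x : Pt,
    (∀ (m : Mdl Pt) (U : Finset Pt), Λ.Near m U → x ∈ U → Sees Λ m x) ∧
    (∀ B : Finset Pt, Sees Λ (Λ.D B) x) ∧
    (∀ (B : Finset Pt) (z : Pt), bl x Λ.rg ⊆ B → Sees Λ (Λ.Nr B z) x) ∧
    ∀ (m : Mdl Pt) (H : Finset Pt), Sees Λ m x → Disjoint (bl x Λ.rg) H → Sees Λ (hole m H) x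

/-- BUMP -/
def BumpStmt : Prop := ∃ C : ℝ, 1 ≤ C ∧ ∀ N : ℕ, 1 ≤ N →
  (Sm2 (ub N) C N ∧ Sm2 (ch N) C N) ∧
  (∀ x, |ub N x| ≤ 1 ∧ |ch N x| ≤ 1 ∧ (ub N x ≠ 0 → nr x < 2 * N) ∧ (ch N x ≠ 0 → nr x < 4 * N) ∧
    (nr x ≤ 3 * N → ch N x = 1)) ∧
  (∀ x y, |ub N x - ub N y| ≤ C * nr (x - y) / N ∧ |ch N x - ch N y| ≤ C * nr (x - y) / N) ∧
  (∀ w, 0 ≤ UU N w ∧ UU N w ≤ C * (nr w : ℝ) ^ 2) ∧ 1 ≤ UU N (1, 0)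

/-- ID: `τ X_u = ∑ u x * JL x` -/
def IdStmt : Prop := ∀ Λ : Lat, Λ.Ok →
  (∀ (D B : Finset Pt) (u : Pt → ℝ) (s : Cfg Pt), Sup B u → (∀ x ∈ B, bl x Λ.rg ⊆ D) →
    ∑ x ∈ B, u x * JL Λ.J x s = ∑ e ∈ Λ.edI D, (u e.2 - u e.1) * (dE e s : ℝ) ∧
    Λ.τ * pr (Λ.Au D u) s = ∑ x ∈ B, u x * JL Λ.J x s) ∧
  ∀ N : ℕ, Λ.rg ≤ N → Λ.τ * Λ.En (bl 0 (10 * N)) (ub N) (ub N) = EE Λ.J N ∧ 1 ≤ EE Λ.J N ∧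
    VJ Λ N = ∑ x ∈ bl 0 (2 * N), ∑ y ∈ bl 0 (2 * N), ub N x * ub N y * KK Λ (Λ.D (bl 0 (10 * N))) x y

/-- EN: the derivative of the kernel, star by star -/
def EnStmt : Prop := ∀ Λ : Lat, Λ.Ok → ∀ (R : ℕ) (w : Pt),
  HasDerivAt (fun τ => kk (Λ.at' τ) R w) (kd Λ R w) Λ.τ ∧ (∀ v ∈ orb w, kd Λ R v = kd Λ R w) ∧
  kd Λ R w = ∑ z ∈ bl 0 (R + Λ.rg),
    Ex (WD Λ R) fun s => JL Λ.J 0 s * JL Λ.J w s * ec Λ (Λ.D (bl 0 R)) z s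

/-! ## The calculus of `nu` -/

/-- SEMI -/
def SemiStmt : Prop := ∀ Λ : Lat, Λ.Ok → ∀ (W : ℕ) (z : Pt) (r : ℕ), 2 ≤ W → Λ.rg ≤ r →
  (∀ F, Ins z r F → 0 ≤ nu Λ W z r F ∧ nu Λ W z r F ≤ Nm Λ z (W * r) F ∧
    (∀ c : ℝ, nu Λ W z r (fun s => F s - c) ≤ nu Λ W z r F + |c|) ∧
    ∀ c : ℝ, nu Λ W z r (fun s => c * F s) = |c| * nu Λ W z r F) ∧
  ∀ (ι : Type) (I : Finset ι) (F : ι → Cfg Pt → ℝ), (∀ i ∈ I, Ins z r (F i)) →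
    nu Λ W z r (fun s => ∑ i ∈ I, F i s) ≤ ∑ i ∈ I, nu Λ W z r (F i)

/-- FUS: products of two and three insertions -/
def FusStmt : Prop := ∀ Λ : Lat, Λ.Ok → ∀ W r₀ L : ℕ, Gd Λ (1 / 400) W r₀ L →
  ∀ (x y : Pt) (a b : ℕ) (F G : Cfg Pt → ℝ), r₀ ≤ a → a ≤ L → r₀ ≤ b → b ≤ L → Ins x a F → Ins y b G →
    Disjoint (bl x (W * a)) (bl y (W * b)) →
    (∀ m : Mdl Pt, Amb Λ m (bl x (W * a)) → Amb Λ m (bl y (W * b)) →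
      |Ex (m.W 0) fun s => F s * G s| ≤ 4 * nu Λ W x a F * nu Λ W y b G ∧
      ∀ (v : Pt) (c : ℕ) (H : Cfg Pt → ℝ), r₀ ≤ c → c ≤ L → Ins v c H → Amb Λ m (bl v (W * c)) →
        Disjoint (bl x (W * a)) (bl v (W * c)) → Disjoint (bl y (W * b)) (bl v (W * c)) →
        |Ex (m.W 0) fun s => F s * G s * H s| ≤ 8 * nu Λ W x a F * nu Λ W y b G * nu Λ W v c H) ∧
    ∀ (z : Pt) (R : ℕ), bl x (W * a) ⊆ bl z R → bl y (W * b) ⊆ bl z R →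
      nu Λ W z R (fun s => F s * G s) ≤ 4 * nu Λ W x a F * nu Λ W y b G

/-- IO: one insertion against an observable outside -/
def IoStmt : Prop := ∀ Λ : Lat, Λ.Ok → ∀ W r₀ L : ℕ, Gd Λ (1 / 400) W r₀ L →
  ∀ (z : Pt) (r : ℕ) (m : Mdl Pt), r₀ ≤ r → W * r ≤ L → Amb Λ m (bl z (W * (W * r) + Λ.rg)) →
    (hole m (bl z (W * r))).Ctr ∧ (hole m (bl z (W * r))).Anch ∧
    ∀ F G : Cfg Pt → ℝ, Ins z r F → Tame G → Out (bl z (W * (W * r))) G →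
      |Ex (m.W 0) fun s => F s * G s| ≤
        4 * nu Λ W z r F * Ex ((hole m (bl z (W * r))).W 0) fun s => |G s|

/-- AMB: the mean of a local observable hardly depends on the ambient model -/
def AmbStmt : Prop := ∀ (W r₀ r : ℕ) (ε : ℝ), 0 < ε → r₀ ≤ r → ∀ᶠ R : ℕ in atTop, ∀ Λ : Lat, Λ.Ok →
  ∀ L : ℕ, R ≤ L → Gd Λ (1 / 400) W r₀ L → ∀ (z : Pt) (F : Cfg Pt → ℝ) (m m' : Mdl Pt), Ins z r F →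
    Amb Λ m (bl z R) → Amb Λ m' (bl z R) → |Ex (m.W 0) F - Ex (m'.W 0) F| ≤ ε * Nm Λ z (W * r) F

/-- PRO: the profiles of `JL` and of the centred energy -/
def ProStmt : Prop := ∀ (F : Fa) (P : Par), ∃ C : ℝ, 1 ≤ C ∧ ∀ Λ, F.Mem Λ → ∀ L, Rg Λ P L →
  ∀ (z : Pt) (R : ℕ), P.r₀ ≤ R → R ≤ L → nu Λ P.W z R (JL Λ.J z) ≤ C * (R : ℝ) ^ (-P.α) ∧
    ∀ m : Mdl Pt, Amb Λ m (bl z (P.W * R)) → nu Λ P.W z R (ec Λ m z) ≤ C * (R : ℝ) ^ (-P.β)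

/-- KB: the two-point function -/
def KbStmt : Prop := ∀ (F : Fa) (P : Par), ∃ C : ℝ, 1 ≤ C ∧ ∀ Λ, F.Mem Λ → ∀ L, Rg Λ P L → ∀ x y : Pt,
  (∀ m : Mdl Pt, Amb Λ m (bl x (nr (x - y))) → Amb Λ m (bl y (nr (x - y))) →
    |KK Λ m x y| ≤ C * (1 + (min (nr (x - y)) L : ℕ) : ℝ) ^ (-(2 * P.α))) ∧
  ∀ R : ℕ, 2 * nr (x - y) + Λ.rg ≤ R → nu Λ P.W x R (fun s => JL Λ.J x s * JL Λ.J y s) ≤
    C * (1 + (min (nr (x - y)) L : ℕ) : ℝ) ^ (-(2 * P.α))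

/-! ## The variance of the test function -/

/-- SUM: the sum rule -/
def SumStmt : Prop := ∀ (F : Fa) (P : Par), ∃ (C : ℝ) (L₀ : ℕ), ∀ Λ, F.Mem Λ → ∀ L N : ℕ, L₀ ≤ L → L ≤ N →
  Rg Λ P L → ∀ x ∈ bl 0 (2 * N),
    |∑ y ∈ bl 0 (4 * N), ch N y * KK Λ (Λ.D (bl 0 (10 * N))) x y| ≤ C * (L : ℝ) ^ (-P.α)

/-- QUAD: deterministic -/
def QuadStmt : Prop := ∀ p : ℝ, 4 < p → ∃ C : ℝ, ∀ (K : Pt → Pt → ℝ) (k : Pt → ℝ) (A η₁ η₂ : ℝ) (l L N : ℕ),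
  1 ≤ l → l ≤ L → L ≤ N → (∀ x y, K x y = K y x) →
  (∀ x ∈ bl 0 (4 * N), ∀ y ∈ bl 0 (4 * N), nr x < 2 * N →
    |K x y| ≤ A * (1 + (min (nr (x - y)) L : ℕ) : ℝ) ^ (-p)) →
  (∀ x ∈ bl 0 (2 * N), |∑ y ∈ bl 0 (4 * N), ch N y * K x y| ≤ η₁) →
  (∀ x ∈ bl 0 (3 * N), ∀ w ∈ bl 0 l, |K x (x + w) - k w| ≤ η₂) →
    |∑ x ∈ bl 0 (2 * N), ∑ y ∈ bl 0 (2 * N), ub N x * ub N y * K x y + (∑ w ∈ bl 0 l, k w * UU N w) / 2| ≤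
      C * ((N : ℝ) ^ 2 * η₁ + (l : ℝ) ^ 4 * η₂ + A * (l : ℝ) ^ (4 - p) + A * (N : ℝ) ^ 4 * (L : ℝ) ^ (-p))

/-- REP: the variance is read on the kernel at bounded distance -/
def RepStmt : Prop := ∀ (F : Fa) (P : Par) (M : ℕ) (ε : ℝ), 0 < ε →
  ∀ᶠ l₁ : ℕ in atTop, ∀ᶠ l₂ : ℕ in atTop, ∀ᶠ L : ℕ in atTop, ∀ Λ, F.Mem Λ → Rg Λ P L →
    ∀ N : ℕ, L ≤ N → N ≤ M * L → |VJ Λ N + (∑ w ∈ bl 0 l₁, kk Λ l₂ w * UU N w) / 2| ≤ ε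

/-- UP: the upper bound by the stiffness at any smaller scale -/
def UpStmt : Prop := ∀ (F : Fa) (ε : ℝ), 0 < ε → ∃ δ : ℝ, 0 < δ ∧ ∀ Λ, F.Mem Λ → ∀ l N : ℕ, Sep δ l N →
  VJ Λ N ≤ Λ.a * Λ.gN l * EE Λ.J N + ε

/-- LIM: the limit -/
def LimStmt : Prop := ∀ Λ : Lat, Λ.Ok → 0 < Λ.gI →
  Tendsto (fun j : ℕ => VJ Λ (2 ^ j) - Λ.a * Λ.gI * EE Λ.J (2 ^ j)) atTop (𝓝 0)

/-! ## The derivative -/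

/-- FAR: an even insertion of mean zero against the far stars -/
def FarStmt : Prop := ∀ (F : Fa) (P : Par), ∃ (C : ℝ) (A : ℕ), 1 ≤ C ∧ 1 ≤ A ∧ ∀ Λ, F.Mem Λ → (∀ L, Rg Λ P L) →
  ∀ (r ρ R : ℕ) (G : Cfg Pt → ℝ), P.r₀ ≤ r → A * r ≤ ρ → ρ ≤ R → Ins 0 r G → EvenF G → D4 0 G →
    Ex (WD Λ R) G = 0 →
    ∑ z ∈ an 0 ρ (R + Λ.rg), |Ex (WD Λ R) fun s => G s * ec Λ (Λ.D (bl 0 R)) z s| ≤
      C * nu Λ P.W 0 r G * (r : ℝ) ^ P.β * ((ρ : ℝ) ^ (2 - 2 * P.β) + (R : ℝ) ^ (1 - P.β))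

/-- NEAR: the stars near one of the two points -/
def NearStmt : Prop := ∀ (F : Fa) (P : Par), ∃ (C : ℝ) (A : ℕ), 1 ≤ C ∧ 3 ≤ A ∧ ∀ Λ, F.Mem Λ →
  (∀ L, Rg Λ P L) → ∀ (m : Mdl Pt) (x y : Pt), Amb Λ m (bl x (nr (x - y))) → Amb Λ m (bl y (nr (x - y))) →
    |∑ z ∈ bl x (nr (x - y) / A), Ex (m.W 0) fun s => JL Λ.J x s * JL Λ.J y s * ec Λ m z s| ≤
      C * (1 + (nr (x - y) : ℝ)) ^ (2 - P.β - 2 * P.α)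

/-- MID: a star away from both points -/
def MidStmt : Prop := ∀ (F : Fa) (P : Par) (A : ℕ), 3 ≤ A → ∃ C : ℝ, 1 ≤ C ∧ ∀ Λ, F.Mem Λ →
  (∀ L, Rg Λ P L) → ∀ (m : Mdl Pt) (x y z : Pt), Amb Λ m (bl x (nr (x - y))) → Amb Λ m (bl y (nr (x - y))) →
    Amb Λ m (bl z (nr (x - y))) → z ∉ bl x (nr (x - y) / A) → z ∉ bl y (nr (x - y) / A) →
    |Ex (m.W 0) fun s => JL Λ.J x s * JL Λ.J y s * ec Λ m z s| ≤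
      C * (1 + (nr (x - y) : ℝ)) ^ (-P.β - 2 * P.α)

/-- DER (a): the size of the derivative -/
def DerStmt : Prop := ∀ (F : Fa) (P : Par), ∃ C : ℝ, ∀ w : Pt, ∀ᶠ R : ℕ in atTop, ∀ Λ, F.Mem Λ →
  (∀ L, Rg Λ P L) → |kd Λ R w| ≤ C * (1 + (nr w : ℝ)) ^ (2 - P.β - 2 * P.α)

/-- DER (b): the kernel and its derivative are uniformly Cauchy -/
def CauStmt : Prop := ∀ (F : Fa) (P : Par) (w : Pt) (ε : ℝ), 0 < ε → ∃ R₀ : ℕ, ∀ R R' : ℕ, R₀ ≤ R → R₀ ≤ R' →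
  ∀ Λ, F.Mem Λ → (∀ L, Rg Λ P L) → |kk Λ R w - kk Λ R' w| ≤ ε ∧ |kd Λ R w - kd Λ R' w| ≤ ε

/-- AN: pure analysis -/
def AnaStmt : Prop := ∀ (a b γ C : ℝ) (k k' : ℕ → Pt → ℝ → ℝ) (u : ℕ → Pt → ℝ) (T : Finset Pt) (G : ℝ → ℝ),
  4 < γ → (∀ R w, ∀ τ ∈ Set.Ioo a b, HasDerivAt (k R w) (k' R w τ) τ) →
  (∀ w ε, 0 < ε → ∃ R₀ : ℕ, ∀ R R' : ℕ, R₀ ≤ R → R₀ ≤ R' → ∀ τ ∈ Set.Ioo a b,
    |k R w τ - k R' w τ| ≤ ε ∧ |k' R w τ - k' R' w τ| ≤ ε) →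
  (∀ w, ∀ᶠ R in atTop, ∀ τ ∈ Set.Ioo a b,
    |k R w τ| ≤ C * (1 + (nr w : ℝ)) ^ (-γ) ∧ |k' R w τ| ≤ C * (1 + (nr w : ℝ)) ^ (-γ)) →
  (∀ n w, |u n w| ≤ C * (nr w : ℝ) ^ 2) → (∀ᶠ n in atTop, 1 ≤ ∑ y ∈ T, u n y) →
  (∀ τ ∈ Set.Ioo a b, ∀ ε, 0 < ε → ∀ᶠ l₁ : ℕ in atTop, ∀ᶠ l₂ : ℕ in atTop, ∀ᶠ n : ℕ in atTop,
    |G τ * ∑ y ∈ T, u n y + (∑ w ∈ bl 0 l₁, k l₂ w τ * u n w) / 2| ≤ ε) →
  ∀ τ ∈ Set.Ioo a b, DifferentiableAt ℝ G τ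

/-! ## The regime -/

/-- REG: a flat stiffness above the critical value gives the regime (T4, K-ODD, K-EVEN) -/
def RegStmt : Prop := ∀ (F : Fa) (g₀ : ℝ), 2 / Real.pi < g₀ → ∃ δ : ℝ, 0 < δ ∧ ∀ᶠ l₀ : ℕ in atTop,
  ∃ (P : Par) (M : ℕ), 1 ≤ M ∧ ∀ Λ, F.Mem Λ → ∀ L : ℕ,
    (∀ l, l₀ ≤ l → l ≤ M * L → |Λ.gN l - g₀| ≤ δ) → Rg Λ P L

/-- OPEN: the regime holds at all scales in a neighbourhood -/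
def OpenStmt : Prop := ∀ Λ : Lat, Λ.Ok → 2 / Real.pi < Λ.gI → ∃ (F : Fa) (P : Par) (η : ℝ), 0 < η ∧
  ∀ τ, |τ - Λ.τ| < η → F.Mem (Λ.at' τ) ∧ 0 < (Λ.at' τ).gI ∧ ∀ L, Rg (Λ.at' τ) P L

end Crest.Agent.T145.Df
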