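import Crest.Agent.T145.DfDef_70
import Crest.Agent.T145.NcGeo_51

/-!
# Row 145, module Df: PW (`Df.pwStmt`), shells and power sums
-/

set_option autoImplicit false

namespace Crest.Agent.T145.Df

open Finset Nc Nc.Geo

namespace Pw3

theorem mem_bl_nr {z x : Pt} {r : ℕ} : x ∈ bl z r ↔ nr (x - z) ≤ r := by
  rw [mem_bl, nr, max_le_iff, Prod.fst_sub, Prod.snd_sub]; omega

theorem card_shell (z : Pt) (n : ℕ) : (an z n (n + 1)).card = 8 * (n + 1) := by
  rw [an, card_sdiff_of_subset (bl_mono z (n.le_add_right 1)), card_bl, card_bl]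
  exact Nat.sub_eq_of_eq_add (by ring)

theorem shells (z : Pt) (r R : ℕ) (f : ℕ → ℝ) :
    ∑ x ∈ an z r R, f (nr (x - z)) = ∑ t ∈ Ioc r R, 8 * (t : ℝ) * f t := by
  rcases le_total R r with h | h
  · rw [an, sdiff_eq_empty_iff_subset.2 (bl_mono z h), Ioc_eq_empty (by omega), sum_empty, sum_empty]
  induction R, h using Nat.le_induction with
  | base => simp [an]
  | succ n hn ih =>
    rw [← an_union_an z hn n.le_succ, sum_union ((disjoint_bl_an z (n + 1) le_rfl).mono_left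
      (an_subset_bl z r n)), ih, sum_Ioc_succ_top hn, sum_congr (s₁ := an z n (n + 1)) rfl
      (g := fun _ => f (n + 1)) fun x hx => by
        rw [mem_an, mem_bl_nr, mem_bl_nr] at hx
        rw [show nr (x - z) = n + 1 by omega], sum_const, card_shell, nsmul_eq_mul]
    push_cast
    ring

theorem step_neg {p t : ℝ} (hp : 1 < p) (ht : 0 < t) :
    (t + 1) ^ (-p) ≤ (t ^ (1 - p) - (t + 1) ^ (1 - p)) / (p - 1) := by
  have h0 : 0 < t + 1 := by linarith
  have h1 : 0 < t / (t + 1) := by positivity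
  have h2 : Real.log (t / (t + 1)) ≤ -(t + 1)⁻¹ := by
    have := Real.log_le_sub_one_of_pos h1
    rwa [show t / (t + 1) - 1 = -(t + 1)⁻¹ by field_simp; ring] at this
  have h3 : 1 + (p - 1) * (t + 1)⁻¹ ≤ (t / (t + 1)) ^ (1 - p) := by
    rw [Real.rpow_def_of_pos h1]
    nlinarith [Real.add_one_le_exp (Real.log (t / (t + 1)) * (1 - p))]
  rw [Real.div_rpow ht.le h0.le, le_div_iff₀ (Real.rpow_pos_of_pos h0 _)] at h3
  have h4 : (t + 1) ^ (-p) = (t + 1)⁻¹ * (t + 1) ^ (1 - p) := by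
    rw [← Real.rpow_neg_one, ← Real.rpow_add h0]; congr 1; ring
  rw [le_div_iff₀ (by linarith), h4]
  linarith

theorem tail {p : ℝ} (hp : 1 < p) (r R : ℕ) (hr : 1 ≤ r) :
    ∑ t ∈ Ioc r R, (t : ℝ) ^ (-p) ≤ 1 / (p - 1) * (r : ℝ) ^ (1 - p) := by
  have hp0 : 0 < p - 1 := by linarith
  rcases le_total R r with h | h
  · rw [Ioc_eq_empty (by omega), sum_empty]; positivity
  have key : ∑ t ∈ Ioc r R, (t : ℝ) ^ (-p) ≤ ((r : ℝ) ^ (1 - p) - (R : ℝ) ^ (1 - p)) / (p - 1) := by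
    induction R, h using Nat.le_induction with
    | base => simp
    | succ n hn ih =>
      have := step_neg hp (t := n) (by exact_mod_cast (by omega : 0 < n))
      rw [sum_Ioc_succ_top hn]
      push_cast
      rw [sub_div] at *
      linarith
  refine key.trans ?_
  rw [one_div_mul_eq_div]
  exact div_le_div_of_nonneg_right (sub_le_self _ (by positivity)) hp0.le

theorem step_pos {q t : ℝ} (h1 : -1 < q) (h2 : q ≤ 0) (ht : 0 ≤ t) :
    (t + 1) ^ q ≤ ((t + 1) ^ (q + 1) - t ^ (q + 1)) / (q + 1) := by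
  have h0 : 0 < t + 1 := by linarith
  have h3 := rpow_one_add_le_one_add_mul_self (s := -(t + 1)⁻¹)
    (by rw [neg_le_neg_iff]; exact inv_le_one_of_one_le₀ (by linarith)) (p := q + 1) (by linarith)
    (by linarith)
  rw [show 1 + -(t + 1)⁻¹ = t / (t + 1) by field_simp; ring, Real.div_rpow ht h0.le,
    div_le_iff₀ (Real.rpow_pos_of_pos h0 _)] at h3
  have h4 : (t + 1) ^ q = (t + 1)⁻¹ * (t + 1) ^ (q + 1) := by
    rw [← Real.rpow_neg_one, ← Real.rpow_add h0]; congr 1; ring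
  rw [le_div_iff₀ (by linarith), h4]
  linarith

theorem head {q : ℝ} (hq : -1 < q) (r R : ℕ) :
    ∑ t ∈ Ioc r R, (t : ℝ) ^ q ≤ max 1 (1 / (q + 1)) * (R : ℝ) ^ (q + 1) := by
  have hq0 : 0 < q + 1 := by linarith
  refine (sum_le_sum_of_subset_of_nonneg (Ioc_subset_Ioc_left r.zero_le)
    fun _ _ _ => by positivity).trans ?_
  rcases le_total q 0 with h | h
  · have key : ∑ t ∈ Ioc 0 R, (t : ℝ) ^ q ≤ (R : ℝ) ^ (q + 1) / (q + 1) := by
      induction R with
      | zero => simp [Real.zero_rpow hq0.ne']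
      | succ n ih =>
        have := step_pos hq h (t := n) n.cast_nonneg
        rw [sum_Ioc_succ_top n.zero_le]
        push_cast
        rw [sub_div] at this
        linarith
    rw [← one_div_mul_eq_div] at key
    exact key.trans (mul_le_mul_of_nonneg_right (le_max_right _ _) (by positivity))
  · refine (sum_le_card_nsmul _ _ ((R : ℝ) ^ q) fun t ht => Real.rpow_le_rpow t.cast_nonneg
      (by exact_mod_cast (mem_Ioc.1 ht).2) h).trans ?_
    rw [Nat.card_Ioc, Nat.sub_zero, nsmul_eq_mul, mul_comm,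
      ← Real.rpow_add_one' R.cast_nonneg hq0.ne']
    exact le_mul_of_one_le_left (by positivity) (le_max_left _ _)

theorem sum_bl_le {p : ℝ} (hp : 2 < p) (R : ℕ) :
    ∑ w ∈ bl 0 R, (1 + (nr w : ℝ)) ^ (-p) ≤ 1 + 8 * (1 + 1 / (p - 2)) := by
  have h0 : bl (0 : Pt) 0 = {0} := by
    ext y; rw [mem_bl, mem_singleton, Prod.ext_iff]; omega
  have h1 := shells 0 0 R fun t => (1 + (t : ℝ)) ^ (-p)
  simp only [sub_zero] at h1
  rw [← bl_union_an 0 R.zero_le, sum_union (disjoint_bl_an 0 R le_rfl), h1, h0, sum_singleton]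
  have h2 : ∑ t ∈ Ioc 0 R, 8 * (t : ℝ) * (1 + (t : ℝ)) ^ (-p) ≤
      8 * ∑ t ∈ Ioc 0 R, (t : ℝ) ^ (-(p - 1)) := by
    rw [mul_sum]
    refine sum_le_sum fun t ht => ?_
    have t0 : (0 : ℝ) < t := by exact_mod_cast (mem_Ioc.1 ht).1
    rw [mul_assoc, show -(p - 1) = -p + 1 by ring, Real.rpow_add_one t0.ne', mul_comm (t : ℝ)]
    gcongr 8 * (?_ * t)
    exact Real.rpow_le_rpow_of_nonpos t0 (by linarith) (by linarith)
  have h3 : ∑ t ∈ Ioc 0 R, (t : ℝ) ^ (-(p - 1)) ≤ 1 + 1 / (p - 2) := by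
    have h4 := tail (p := p - 1) (by linarith) 1 (R + 1) le_rfl
    rw [Nat.cast_one, Real.one_rpow, mul_one, show p - 1 - 1 = p - 2 by ring] at h4
    refine (sum_le_sum_of_subset_of_nonneg (Ioc_subset_Ioc_right R.le_succ)
      fun _ _ _ => by positivity).trans ?_
    rw [← sum_Ioc_consecutive _ (Nat.zero_le 1) (by omega : 1 ≤ R + 1)]
    simpa using h4
  have h5 : (1 + (nr (0 : Pt) : ℝ)) ^ (-p) = 1 := by simp [nr]
  linarith

theorem summable {p : ℝ} (hp : 2 < p) : Summable fun w : Pt => (1 + (nr w : ℝ)) ^ (-p) :=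
  summable_of_sum_le (fun _ => by positivity) fun S =>
    (sum_le_sum_of_subset_of_nonneg (t := bl 0 (S.sup nr))
      (fun x hx => mem_bl_nr.2 (by rw [sub_zero]; exact le_sup hx)) fun _ _ _ => by positivity).trans
      (sum_bl_le hp _)

end Pw3

/-- PW -/
theorem pwStmt : PwStmt :=
  ⟨Pw3.shells, fun z R => by rw [card_bl]; push_cast; rfl, fun _ hp => ⟨_, Pw3.tail hp⟩,
    fun _ hq => ⟨_, Pw3.head hq⟩, fun _ hp => Pw3.summable hp⟩

end Crest.Agent.T145.Df
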