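import Crest.Agent.T145.EsH_28

/-!
# Row 145: (H) for free annuli and for holes (helper28)
-/

set_option autoImplicit false

namespace Crest.Agent.T145.Es28

open Finset

variable {Λ : Lat} {m : Mdl Pt} {a : Pt} {r ρ : ℕ}

/-- `H` = the removed sites (holes, outside of a free rim); it contains the two columns next to the roof -/
theorem slit_of (hJ : Λ.J = nn) {H : Pt → Prop}
    (hH : ∀ j, a.2 ≤ j → j < a.2 + ρ → H (a.1 - 1, j) ∧ H (a.1 + r, j))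
    (hE : ∀ e ∈ m.ed, Roof a r ρ e.1 ∨ Roof a r ρ e.2 →
      e.2 - e.1 ∈ Λ.Jp ∧ m.w e = Λ.w ∧ ¬ H e.1 ∧ ¬ H e.2)
    (hA : ∀ x, Roof a r ρ x → ¬ H x → x ∈ m.A) (hs : ∀ x ∈ m.A, Roof a r ρ x → ∀ k, m.site x k = 1) :
    Slit Λ m a r ρ := by
  refine ⟨fun e he c => ?_, hs⟩
  obtain ⟨b1, b2, b3, b4⟩ := hE e he c
  have j := jp_nn hJ b1
  refine ⟨b1, b2, by_contra fun k => b3 ?_, by_contra fun k => b4 ?_, fun k => hA _ k b3,
    fun k => hA _ k b4⟩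
  · unfold Roof at c
    rw [show e.1 = (a.1 - 1, e.1.2) from Prod.ext (by simp only; omega) rfl]
    exact (hH _ (by omega) (by omega)).1
  · unfold Roof at c
    rw [show e.2 = (a.1 + r, e.2.2) from Prod.ext (by simp only; omega) rfl]
    exact (hH _ (by omega) (by omega)).2

/-- (H) for a model whose edges lie in the annulus `bl z R \ bl z c` -/
def HAnStmt : Prop := ∀ (F : Fa) (θ₀ : ℝ), 0 < θ₀ → ∃ (C : ℕ) (δ : ℝ), 0 < δ ∧ ∀ Λ, F.Mem Λ →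
  Λ.J = nn → ∀ l L, Λ.Win θ₀ δ l L → ∀ c R : ℕ, (l : ℝ) ≤ δ * c → c ≤ R → R < 16 * L → ∀ z : Pt,
    ((c : ℝ) / (2 * (R + 1))) ^ C ≤ Vd.rat (Vd.NE Λ (Λ.edI (bl z R \ bl z c))) (Vd.ray z) ∧
    ∀ m : Mdl Pt, m.Ctr → m.Anch → m.ed ⊆ Λ.edI (bl z R \ bl z c) → (∀ e ∈ m.ed, m.w e = Λ.w) →
      (∀ x ∈ m.A, ∀ k, m.site x k = 1) →
      (∀ x ∈ bl z R, z.1 + c < x.1 → z.2 ≤ x.2 → x ∈ m.A) →
      ((c : ℝ) / (2 * (R + 1))) ^ C ≤ Vd.rat m (Vd.ray z)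

/-- (H) for two holes `bl z c`, `bl (z + (n, 0)) c` in a model that is the lattice between them -/
def HTwoStmt : Prop := ∀ (F : Fa) (θ₀ : ℝ), 0 < θ₀ → ∃ (C : ℕ) (δ : ℝ), 0 < δ ∧ ∀ Λ, F.Mem Λ →
  Λ.J = nn → ∀ l L, Λ.Win θ₀ δ l L → ∀ c n : ℕ, (l : ℝ) ≤ δ * c → 2 * c < n → n ≤ 16 * L →
    ∀ (z : Pt) (m : Mdl Pt) (σ : Pt × Pt → ℤ), m.Ctr → m.Anch →
      (∀ e ∈ m.ed, e.1 ∈ sq z n ∨ e.2 ∈ sq z n → e.2 - e.1 ∈ Λ.Jp ∧ m.w e = Λ.w ∧
        e.1 ∉ bl z c ∪ bl (z + ((n : ℤ), 0)) c ∧ e.2 ∉ bl z c ∪ bl (z + ((n : ℤ), 0)) c) →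
      (∀ x ∈ sq z n, x ∉ bl z c ∪ bl (z + ((n : ℤ), 0)) c → x ∈ m.A) →
      (∀ x ∈ m.A, x ∈ sq z n → ∀ k, m.site x k = 1) →
      (∀ e ∈ m.ed, σ e = sm z n e) → ((c : ℝ) / (2 * n)) ^ C ≤ Vd.rat m σ

theorem hAnStmt_of (hH : HStmt) : HAnStmt := fun F θ₀ h0 => by
  obtain ⟨C, δ, p, H⟩ := hH F θ₀ h0
  refine ⟨C, δ, p, fun Λ hΛ hJ l L hw c R hl hR hL z => ?_⟩
  have key : ∀ m : Mdl Pt, m.Ctr → m.Anch → m.ed ⊆ Λ.edI (bl z R \ bl z c) →
      (∀ e ∈ m.ed, m.w e = Λ.w) → (∀ x ∈ m.A, ∀ k, m.site x k = 1) →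
      (∀ x ∈ bl z R, z.1 + c < x.1 → z.2 ≤ x.2 → x ∈ m.A) →
      ((c : ℝ) / (2 * (R + 1))) ^ C ≤ Vd.rat m (Vd.ray z) := fun m hc ha hE hw' hs hA => by
    obtain ⟨r, rfl⟩ := Nat.exists_eq_add_of_le hR
    refine le_trans ?_ (H Λ hΛ hJ l L hw (c + 1) r (hl.trans (by push_cast; linarith)) (by omega) m
      (z.1 + c + 1, z.2) _ hc ha (slit_of hJ (H := fun x => x ∉ bl z (c + r) \ bl z c)
        (fun j h1 h2 => ?_) (fun e he _ => ?_) (fun x h1 h2 => ?_) fun x hx _ => hs x hx)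
      fun e he => ?_)
    · refine pow_le_pow_left₀ (by positivity) ?_ _
      push_cast
      exact div_le_div₀ (by positivity) (by linarith) (by positivity) (by linarith)
    · simp only [mem_sdiff, mem_bl] at h1 h2 ⊢
      omega
    · obtain ⟨b1, b2, b3⟩ := Lat.mem_edI.1 (hE he)
      exact ⟨b1, hw' e he, not_not.2 b2, not_not.2 b3⟩
    · unfold Roof at h1
      exact hA x (mem_sdiff.1 (not_not.1 h2)).1 (by simp only at h1; omega) h1.2.2.1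
    · obtain ⟨-, b2, b3⟩ := Lat.mem_edI.1 (hE he)
      simp only [mem_sdiff, mem_bl] at b2 b3
      simp only [Vd.ray, sm]
      split_ifs <;> omega
  have h := hΛ.ok
  refine ⟨key _ ⟨fun _ _ => h.fam, fun _ _ => ⟨Md.rsd_one, pd_one, one_pos⟩⟩ ?_ subset_rfl
    (fun _ _ => rfl) (fun _ _ _ => rfl) fun x h1 h2 h3 => ?_, key⟩
  · intro x _
    classical
    obtain ⟨y, hy, hm⟩ := exists_min_image (insert x ((Vd.vx (Λ.edI (bl z R \ bl z c))).filter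
      fun y => Conn (Λ.edI (bl z R \ bl z c)) x y)) toLex (insert_nonempty _ _)
    have c1 : Conn (Λ.edI (bl z R \ bl z c)) x y :=
      (mem_insert.1 hy).elim (fun k => k ▸ Conn.refl _ _) fun k => (mem_filter.1 k).2
    refine ⟨y, c1, .inl fun k => ?_⟩
    simp only [Vd.NE, mem_filter] at k
    obtain ⟨-, u, c2, hu⟩ := k
    refine (hm u (mem_insert_of_mem (mem_filter.2 ⟨?_, c1.trans c2⟩))).not_gt hu
    cases c2 with
    | refl => exact absurd hu (lt_irrefl _)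
    | tail _ q =>
      exact q.elim (fun q => mem_union_right _ (mem_image_of_mem _ q))
        fun q => mem_union_left _ (mem_image_of_mem _ q)
  · have e : (x - (0, 1), x) ∈ Λ.edI (bl z R \ bl z c) := Lat.mem_edI.2 ⟨by simpa using h.e2, by
      simp only [mem_sdiff, mem_bl, Prod.fst_sub, Prod.snd_sub] at h1 ⊢
      omega⟩
    simp only [Vd.NE, mem_filter]
    refine ⟨mem_union_right _ (mem_image_of_mem _ e), _, Conn.edge' e, ?_⟩
    simp only [Prod.Lex.toLex_lt_toLex, Prod.fst_sub, Prod.snd_sub]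
    omega

theorem hTwoStmt_of (hH : HStmt) : HTwoStmt := fun F θ₀ h0 => by
  obtain ⟨C, δ, p, H⟩ := hH F θ₀ h0
  refine ⟨C, δ, p, fun Λ hΛ hJ l L hw c n hl hn hL z m σ hc ha hE hA hs hσ => ?_⟩
  obtain ⟨r, rfl⟩ := Nat.exists_eq_add_of_lt hn
  have k : ∀ x, Roof (z.1 + c + 1, z.2) r (c + 1) x → x ∈ sq z (2 * c + r + 1) := fun x hx => by
    unfold Roof at hx
    simp only [mem_sq] at hx ⊢
    omega
  refine le_trans ?_ (H Λ hΛ hJ l L hw (c + 1) r (hl.trans (by push_cast; linarith)) (by omega) m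
    (z.1 + c + 1, z.2) _ hc ha
    (slit_of hJ (H := fun x => x ∈ bl z c ∪ bl (z + (((2 * c + r + 1 : ℕ) : ℤ), 0)) c)
      (fun j h1 h2 => ?_) (fun e he q => hE e he (q.imp (k _) (k _))) (fun x h1 => hA x (k x h1))
      fun x hx q => hs x hx (k x q)) fun e he => ?_)
  · refine pow_le_pow_left₀ (by positivity) ?_ _
    push_cast
    exact div_le_div₀ (by positivity) (by linarith) (by positivity)
      (by linarith [(by positivity : (0 : ℝ) ≤ c)])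
  · simp only [mem_union, mem_bl, Prod.fst_add, Prod.snd_add] at h1 h2 ⊢
    omega
  · rw [hσ e he]
    simp only [sm]
    split_ifs with h1 h2 h2
    · rfl
    · have := (hE e he (.inr (by simp only [mem_sq]; omega))).2.2.2
      simp only [mem_union, mem_bl, Prod.fst_add, Prod.snd_add] at this
      omega
    · omega
    · rfl

theorem hAnStmt (hG : GffDStmt) (hm : T1mStmt) : HAnStmt := hAnStmt_of (hStmt hG hm)

theorem hTwoStmt (hG : GffDStmt) (hm : T1mStmt) : HTwoStmt := hTwoStmt_of (hStmt hG hm)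

end Crest.Agent.T145.Es28
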