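import Crest.Agent.T145.EsA_28

/-!
# Row 145: (H) with true cores, `Z (σ) / Z (0) ≥ c r ^ (-C)` (helper28)
-/

set_option autoImplicit false

namespace Crest.Agent.T145.Es28

open Finset

variable {Λ : Lat} {m : Mdl Pt} {a : Pt} {r : ℕ}

/-- the edges of `m` that meet the roof of height `1` are lattice edges, their ends in the roof are free -/
def Core (Λ : Lat) (m : Mdl Pt) (a : Pt) (r : ℕ) : Prop :=
  (∀ e ∈ m.ed, Roof a r 1 e.1 ∨ Roof a r 1 e.2 → e.2 - e.1 ∈ Λ.Jp ∧ m.w e = Λ.w ∧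
    (Roof a r 1 e.1 → e.1 ∈ m.A) ∧ (Roof a r 1 e.2 → e.2 ∈ m.A)) ∧
  ∀ x ∈ m.A, Roof a r 1 x → ∀ k, m.site x k = 1

/-- (H), true cores -/
def HCoreStmt : Prop := ∀ (F : Fa) (θ₀ : ℝ), 0 < θ₀ → ∃ (C : ℕ) (δ : ℝ), 0 < δ ∧ ∀ Λ, F.Mem Λ →
  Λ.J = nn → ∀ l : ℕ, ∃ c : ℝ, 0 < c ∧ ∀ L, Λ.Win θ₀ δ l L → ∀ r : ℕ, r ≤ 16 * L →
    ∀ (m : Mdl Pt) (a : Pt) (σ : Pt × Pt → ℤ), m.Ctr → m.Anch → Core Λ m a r →
      (∀ e ∈ m.ed, σ e = sm a r e) → c / ((r : ℝ) + 1) ^ C ≤ Vd.rat m σ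

theorem roof_sq {x : Pt} (h : Roof a r 1 x) : x ∈ sq a r := by
  unfold Roof at h; rw [mem_sq]; omega

theorem core_of (hE : ∀ e ∈ m.ed, e.1 ∈ sq a r ∨ e.2 ∈ sq a r → e.2 - e.1 ∈ Λ.Jp ∧ m.w e = Λ.w)
    (hA : sq a r ⊆ m.A) (hs : ∀ x ∈ sq a r, ∀ k, m.site x k = 1) : Core Λ m a r :=
  ⟨fun e he c => let k := hE e he (c.imp roof_sq roof_sq)
    ⟨k.1, k.2, fun q => hA (roof_sq q), fun q => hA (roof_sq q)⟩, fun x _ q => hs x (roof_sq q)⟩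

open Classical in
/-- the roof as a finite set -/
noncomputable def RF (a : Pt) (r : ℕ) : Finset Pt := (sq a r).filter (Roof a r 1)

theorem mem_RF {z : Pt} : z ∈ RF a r ↔ Roof a r 1 z := by
  classical
  rw [RF, mem_filter, and_iff_right_iff_imp]; exact roof_sq

theorem core_le (h : Λ.Ok) (hJ : Λ.J = nn) {σ : Pt × Pt → ℤ} (hm : m.Ctr)
    (ha : m.Anch) (hS : Core Λ m a r) (hσ : ∀ e ∈ m.ed, σ e = sm a r e) :
    Zs ((Λ.D (RF a r)).W (cst (UU a r) (-1))) / Zs ((Λ.D (RF a r)).W 0) ≤ Vd.rat m σ := by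
  classical
  refine bulk_le (A := m.A.filter (Roof a r 1)) hm ha (h.ctr_D _) (h.anch_D _) (fun _ _ => rfl)
    (filter_subset _ _) (fun x hx => hS.2 x (mem_filter.1 hx).1 (mem_filter.1 hx).2)
    (fun e he _ c => ?_) fun e he c => ?_
  · rw [hσ e he, sm, if_neg fun k => ?_]
    have : Roof a r 1 e.2 := by unfold Roof; omega
    exact c (mem_filter.2 ⟨(hS.1 e he (.inr this)).2.2.2 this, this⟩)
  · have c' := c.imp (fun k => (mem_filter.1 k).2) fun k => (mem_filter.1 k).2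
    obtain ⟨b1, b2, b5, b6⟩ := hS.1 e he c'
    have j := jp_nn hJ b1
    refine ⟨Lat.mem_edT.2 ⟨b1, c'.imp mem_RF.2 mem_RF.2⟩, b2,
      fun k k' => k (mem_filter.2 ⟨b5 (mem_RF.1 k'), mem_RF.1 k'⟩),
      fun k k' => k (mem_filter.2 ⟨b6 (mem_RF.1 k'), mem_RF.1 k'⟩), ?_⟩
    rw [hσ e he, sm, dE, cst_apply, cst_apply]
    simp only [mem_UU]
    unfold Roof at c'
    split_ifs <;> omega

/-- the edges near the tips -/
noncomputable def ET (Λ : Lat) (a : Pt) (r ρ : ℕ) : Finset (Pt × Pt) :=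
  Λ.edT ((RF a r).filter fun z => dd a r 1 z ≤ ρ)

theorem card_ET (hJ : Λ.J = nn) (ρ : ℕ) : (ET Λ a r ρ).card ≤ 8 * (2 * ρ + 1) ^ 2 := by
  have e : Λ.Jp.card = 2 := by rw [Lat.Jp, hJ]; decide
  have : ((RF a r).filter fun z => dd a r 1 z ≤ ρ).card ≤ 2 * (2 * ρ + 1) ^ 2 := by
    refine (card_le_card (t := bl (a.1, a.2) ρ ∪ bl (a.1 + r - 1, a.2) ρ) fun z hz => ?_).trans
      ((card_union_le _ _).trans (by rw [card_bl, card_bl]; omega))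
    rw [mem_filter, mem_RF] at hz
    unfold Roof dd at hz
    simp only [mem_union, mem_bl]
    omega
  refine (Lat.card_edT_le _).trans ?_
  rw [e]; omega

theorem mid' (hJ : Λ.J = nn) {ρ : ℕ} (hρ : 4 ≤ ρ) {ω : Finset (Pt × Pt)} (hω : ω ⊆ Λ.edT (RF a r))
    (hn : ∀ e ∈ ω, e ∉ ET Λ a r ρ) {x y : Pt} (hy : y ∈ UU a r) (c : Conn ω y x) :
    (∃ z, Conn ω y z ∧ Roof a r 1 z ∧ ρ ≤ dd a r 1 z ∧ dd a r 1 z ≤ 2 * tt a r z ∧
      2 * tt a r z ≤ dd a r 1 z + 2) ∨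
      ((x ∈ UU a r ∨ Roof a r 1 x) ∧ 2 * tt a r x < dd a r 1 x) := by
  induction c with
  | refl => refine .inr ⟨.inl hy, ?_⟩; rw [mem_UU] at hy; unfold tt dd; omega
  | @tail u v hu huv ih =>
    rcases ih with ih | ⟨i1, i2⟩
    · exact .inl ih
    have key : ∀ e ∈ ω, (Roof a r 1 e.1 ∨ Roof a r 1 e.2) ∧ (Roof a r 1 e.1 → ρ < dd a r 1 e.1) ∧
        (Roof a r 1 e.2 → ρ < dd a r 1 e.2) ∧
        ((e.2.1 = e.1.1 + 1 ∧ e.2.2 = e.1.2) ∨ (e.2.1 = e.1.1 ∧ e.2.2 = e.1.2 + 1)) := fun e he => by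
      obtain ⟨b1, b2⟩ := Lat.mem_edT.1 (hω he)
      exact ⟨b2.imp mem_RF.1 mem_RF.1, fun k => not_le.1 fun k' => hn e he
        (Lat.mem_edT.2 ⟨b1, .inl (mem_filter.2 ⟨mem_RF.2 k, k'⟩)⟩), fun k => not_le.1 fun k' => hn e he
        (Lat.mem_edT.2 ⟨b1, .inr (mem_filter.2 ⟨mem_RF.2 k, k'⟩)⟩), jp_nn hJ b1⟩
    have k2 : (v ∈ UU a r ∨ Roof a r 1 v) ∧ ρ ≤ dd a r 1 v ∧ 2 * tt a r v ≤ dd a r 1 v + 2 := by
      rw [mem_UU] at i1 ⊢
      rcases huv with q | q <;> have := key _ q <;> simp only at this <;>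
        unfold Roof tt dd at * <;> omega
    by_cases k : 2 * tt a r v < dd a r 1 v
    · exact .inr ⟨k2.1, k⟩
    · refine .inl ⟨v, .tail hu huv, k2.1.resolve_left fun q => ?_, k2.2.1, not_lt.1 k, k2.2.2⟩
      rw [mem_UU] at q; unfold tt dd at k; omega

/-- the balls of the cover -/
noncomputable def TC (a : Pt) (r ρ k : ℕ) : Finset (ℕ × Pt × Pt) :=
  (Icc (Nat.log 2 (ρ / (16 * 2 ^ k))) (Nat.log 2 ((ρ + r) / (16 * 2 ^ k))) ×ˢ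
    ({(a.1, a.2 - 1), (a.1 + r - 1, a.2 - 1)} ×ˢ bl 0 (32 * 2 ^ k))).filter
      fun p => bl (ct p) (2 ^ (k + p.1)) ⊆ RF a r ∧ 16 * 2 ^ (k + p.1) ≤ r

theorem cover' {k ρ : ℕ} (hρ : 16 * 2 ^ k ≤ ρ) {z : Pt} (h0 : Roof a r 1 z) (h0' : ρ ≤ dd a r 1 z)
    (h1 : dd a r 1 z ≤ 2 * tt a r z) (h2 : 2 * tt a r z ≤ dd a r 1 z + 2) :
    ∃ p ∈ TC a r ρ k, z ∈ bl (ct p) (2 ^ p.1) := by
  have M0 : 0 < 16 * 2 ^ k := by positivity
  obtain ⟨d, hd⟩ : ∃ d : ℕ, dd a r 1 z = d := ⟨(dd a r 1 z).toNat, by unfold dd; omega⟩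
  have d1 : ρ ≤ d := by omega
  have d2 : d ≤ r := by unfold dd at hd; unfold Roof at h0; omega
  set i := Nat.log 2 (d / (16 * 2 ^ k)) with hi
  have e1 : 2 ^ i * (16 * 2 ^ k) ≤ d := (Nat.le_div_iff_mul_le M0).1
    (Nat.pow_log_le_self 2 (Nat.div_pos (hρ.trans d1) M0).ne')
  have e2 : d < 2 ^ (i + 1) * (16 * 2 ^ k) :=
    (Nat.div_lt_iff_lt_mul M0).1 (Nat.lt_pow_succ_log_self one_lt_two _)
  obtain ⟨L, hL⟩ : ∃ L : ℕ, 2 ^ k * 2 ^ i = L := ⟨_, rfl⟩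
  have e3 : 16 * L ≤ d := by rw [← hL]; linarith
  have e4 : d < 32 * L := by rw [← hL, pow_succ] at *; linarith
  have e5 : 2 ^ i ≤ L := hL ▸ Nat.le_mul_of_pos_left _ (by positivity)
  have e6 : ((32 * 2 ^ k : ℕ) : ℤ) * 2 ^ i = 32 * L := by rw [← hL]; push_cast; ring
  obtain ⟨τ, hτ, h3⟩ : ∃ τ ∈ ({(a.1, a.2 - 1), (a.1 + r - 1, a.2 - 1)} : Finset Pt),
      z ∈ bl τ (32 * L) := by
    simp only [mem_insert, mem_singleton, exists_eq_or_imp, exists_eq_left, mem_bl]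
    unfold tt dd at *
    omega
  rw [mem_bl] at h3
  have g1 := grid (u := z.1 - τ.1) (κ := 2 ^ i) (N := (32 * 2 ^ k : ℕ)) (by positivity)
    (by rw [e6]; omega) (by rw [e6]; omega)
  have g2 := grid (u := z.2 - τ.2) (κ := 2 ^ i) (N := (32 * 2 ^ k : ℕ)) (by positivity)
    (by rw [e6]; omega) (by rw [e6]; omega)
  have hz : z ∈ bl (ct (i, τ, (z.1 - τ.1) / 2 ^ i, (z.2 - τ.2) / 2 ^ i)) (2 ^ i) := by
    rw [mem_bl]
    simp only [ct]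
    push_cast
    refine ⟨⟨?_, ?_⟩, ?_, ?_⟩ <;> linarith [g1.2.2.1, g1.2.2.2, g2.2.2.1, g2.2.2.2,
      (by positivity : (0 : ℤ) < 2 ^ i)]
  have i1 : Nat.log 2 (ρ / (16 * 2 ^ k)) ≤ i := Nat.log_mono_right (Nat.div_le_div_right d1)
  have i2 : i ≤ Nat.log 2 ((ρ + r) / (16 * 2 ^ k)) :=
    Nat.log_mono_right (Nat.div_le_div_right (by omega))
  refine ⟨(i, τ, (z.1 - τ.1) / 2 ^ i, (z.2 - τ.2) / 2 ^ i), mem_filter.2 ⟨mem_product.2
    ⟨mem_Icc.2 ⟨i1, i2⟩, mem_product.2 ⟨hτ, ?_⟩⟩, ?_, ?_⟩, hz⟩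
  · rw [mem_bl]
    simp only [Prod.fst_zero, Prod.snd_zero, zero_sub, zero_add]
    exact ⟨⟨g1.1, g1.2.1⟩, g2.1, g2.2.1⟩
  · refine (bl_subset_bl (mem_bl_comm.1 hz) (r' := 2 * L) (by rw [pow_add, hL]; omega)).trans
      fun w hw => ?_
    rw [mem_bl] at hw
    rw [mem_RF]
    have : 0 < L := (by positivity : 0 < 2 ^ i).trans_le e5
    unfold Roof tt dd at *
    omega
  · rw [pow_add, hL]; omega

theorem card_TC {ρ : ℕ} (k : ℕ) (hρ : 16 * 2 ^ k ≤ ρ) : ((ρ : ℝ) / (2 * (ρ + r))) ^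
    (8 * (2 * (2 * (32 * 2 ^ k) + 1) ^ 2)) ≤ (1 / 12) ^ (TC a r ρ k).card := by
  refine (card_TT (a := a) (r := r) k hρ).trans (pow_le_pow_of_le_one (by norm_num) (by norm_num)
    (card_le_card fun p hp => ?_))
  obtain ⟨b1, b2, -⟩ := mem_filter.1 hp
  refine mem_filter.2 ⟨b1, b2.trans fun z hz => ?_⟩
  have : 0 < 16 * 2 ^ k := by positivity
  rw [mem_RF] at hz
  rw [mem_DD]
  unfold Roof at hz; unfold tt dd; omega

/-- a single site is below `0` with probability bounded below -/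
theorem site_low (h : Λ.Ok) : ∃ q : ℝ, 0 < q ∧ q ≤ 1 ∧ ∀ (D : Finset Pt), ∀ x ∈ D,
    q ≤ Pr ((Λ.D D).W 0) fun s => s x ≤ -1 := by
  have w := h.wt_D {0} 0
  have p : 0 < Pr ((Λ.D {0}).W 0) fun s => ¬ s 0 = 0 := by
    refine div_pos ((w.ig_ind _).tsum_pos (fun s => mul_nonneg (w.nonneg s) (ind_nonneg _))
      (Finsupp.single 0 1) ?_) w.pos
    exact mul_pos (Md.W_pos (h.ctr_D _).1
      (fun x hx => Finsupp.single_eq_of_ne (by simpa [Lat.D] using hx)) fun _ _ => one_pos)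
      (one_pos.trans_eq (ind_pos (by simp)).symm)
  refine ⟨_ / 2, half_pos p, by linarith [w.pr_le_one fun s => ¬ s 0 = 0], fun D x hx => ?_⟩
  have w' := h.wt_D D 0
  have e1 : Pr ((Λ.D D).W 0) (fun s => s x = 0) ≤ Pr ((Λ.D {x}).W 0) fun s => s x = 0 :=
    (h.loc_D_D (singleton_subset_iff.2 hx)).pr_le (evZ x)
  have e2 : Pr ((Λ.D {x}).W 0) (fun s => s x = 0) = Pr ((Λ.D {0}).W 0) fun s => s 0 = 0 := by
    rw [Pr, (Λ.sym_add x).ex_D0 h (D := {0}) (by simp)]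
    simp [Pr]
  have e3 : Pr ((Λ.D D).W 0) (fun s => 1 ≤ s x) = Pr ((Λ.D D).W 0) fun s => s x ≤ -1 := by
    rw [Pr, ← Ex_even (h.cen_D D).even]
    exact Ex_congr fun s _ => ind_congr (by rw [Finsupp.neg_apply]; omega)
  have e4 := (w'.pr_mono (p := fun s => ¬ s x = 0) (q := fun s => 1 ≤ s x ∨ s x ≤ -1)
    fun s _ k => by omega).trans (w'.pr_or_le _ _)
  rw [w.pr_not]
  rw [w'.pr_not] at e4
  linarith

theorem edge_low (h : Λ.Ok) {D : Finset Pt} {e : Pt × Pt} {x : Pt} (hx : x = e.1 ∨ x = e.2) :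
    Pr ((Λ.D D).W 0) (fun s => s x ≤ -1) ≤
      Ex ((Λ.D D).W 0) (ph (Λ.D D) (-1) fun ω => ind (e ∉ ω)) := by
  have w := h.wt_D D 0
  have f := (h.ctr_D D).1
  refine Ex_mono w.nonneg (w.ig_ind _) (w.ig_bdd (C := 1) fun s => ?_) fun s => ?_
  · rw [abs_of_nonneg (ph_nonneg f _ (fun _ => ind_nonneg _) s)]
    exact ph_le_one f _ (fun _ => ind_le_one _) s
  · by_cases c : s x ≤ -1
    · rw [ind_pos c, ph_edge f _ e s (hx.imp (fun k => k ▸ c) fun k => k ▸ c)]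
    · rw [ind_neg c]; exact ph_nonneg f _ (fun _ => ind_nonneg _) s

theorem hCoreStmt_of (hL : LocStmt) (hm : T1mStmt) : HCoreStmt := fun F θ₀ h0 => by
  obtain ⟨k, δ₁, p1, H1⟩ := hL F (θ₀ / 2) (by positivity)
  obtain ⟨δ₂, p2, H2⟩ := hm.2.2 F θ₀ δ₁ 0 h0 p1
  refine ⟨8 * (2 * (2 * (32 * 2 ^ k) + 1) ^ 2), min δ₂ δ₁, by positivity, fun Λ hΛ hJ l => ?_⟩
  have h := hΛ.ok
  obtain ⟨q, q0, q1, hq⟩ := site_low h
  obtain ⟨ρ, hρ, hl⟩ : ∃ ρ : ℕ, 16 * 2 ^ k ≤ ρ ∧ (l : ℝ) ≤ δ₁ / 32 * ρ := by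
    obtain ⟨n, hn⟩ := exists_nat_ge (l / (δ₁ / 32))
    refine ⟨16 * 2 ^ k + n, by omega, ?_⟩
    rw [div_le_iff₀' (by positivity)] at hn
    refine hn.trans (mul_le_mul_of_nonneg_left ?_ (by positivity))
    exact_mod_cast Nat.le_add_left _ _
  have M0 : 0 < 16 * 2 ^ k := by positivity
  have ρ4 : 4 ≤ ρ := by have : 1 ≤ 2 ^ k := Nat.one_le_two_pow; omega
  refine ⟨q ^ (8 * (2 * ρ + 1) ^ 2) * (1 / 2) ^ (8 * (2 * (2 * (32 * 2 ^ k) + 1) ^ 2)), by positivity,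
    fun L hw r hr m a σ hc ha hS hσ => le_trans ?_ (core_le h hJ hc ha hS hσ)⟩
  have hU : Disjoint (UU a r) (RF a r) := disjoint_left.2 fun x hx k => by
    rw [mem_UU] at hx; rw [mem_RF] at k; unfold Roof at k; omega
  have sc := screen (h.ctr_D (RF a r)).1 (fun _ _ _ => rfl) hU (h.wt_D _ 0) (h.wt_D _ _).summ
    ((TC a r ρ k).disjSum (ET Λ a r ρ))
    (Φ := Sum.elim (fun p ω => ind (¬ Cross (pins Λ (RF a r)) (bl (ct p) (2 ^ p.1)) ω))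
      fun e ω => ind (e ∉ ω))
    (fun i _ => by cases i; exacts [cross_anti _ _, edge_anti _])
    (fun i _ _ => by cases i <;> exact ind_nonneg _) (fun i _ _ => by cases i <;> exact ind_le_one _)
    fun ω hω hg => by
      by_cases hn : ∀ e ∈ ω, e ∉ ET Λ a r ρ
      swap
      · simp only [not_forall, not_not] at hn
        obtain ⟨e, he, he'⟩ := hn
        exact ⟨.inr e, inr_mem_disjSum.2 he', ind_neg (not_not.2 he)⟩
      simp only [Good, not_forall, not_not] at hg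
      obtain ⟨y, hy, x, hx, hx', c⟩ := hg
      obtain ⟨z, c', z0, z1, z2, z3⟩ := (mid' hJ ρ4 hω hn hy c).resolve_right fun k =>
        k.1.elim hx' fun k' => hx (mem_RF.2 k')
      obtain ⟨p, hp, hz⟩ := cover' hρ z0 z1 z2 z3
      refine ⟨.inl p, inl_mem_disjSum.2 hp, ind_neg (not_not.2 ⟨y, ?_, z, hz, c'⟩)⟩
      refine ((pins_D Λ _).2 (y, y + (0, 1)) (Lat.mem_edT.2 ⟨by simpa using h.e2, .inr ?_⟩)).1
        (disjoint_left.1 hU hy)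
      rw [mem_UU] at hy; rw [mem_RF]; unfold Roof
      simp only [Prod.fst_add, Prod.snd_add]; omega
  rw [le_div_iff₀' (h.wt_D _ 0).pos]
  refine le_trans (mul_le_mul_of_nonneg_left ?_ (h.wt_D _ 0).pos.le) sc
  rw [prod_disjSum, mul_div_assoc, mul_comm]
  refine mul_le_mul (le_trans ?_ ((card_TC (a := a) (r := r) k hρ).trans ?_)) ?_ (by positivity)
    (prod_nonneg fun p _ => Ex_nonneg (h.wt_D _ 0).nonneg fun s _ =>
      ph_nonneg (h.ctr_D _).1 _ (fun _ => ind_nonneg _) s)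
  · rw [← div_pow]
    refine pow_le_pow_left₀ (by positivity) ?_ _
    have : (4 : ℝ) ≤ ρ := by exact_mod_cast ρ4
    rw [div_div, div_le_div_iff₀ (by positivity) (by positivity)]
    nlinarith [(by positivity : (0 : ℝ) ≤ r)]
  · rw [← prod_const]
    refine prod_le_prod (fun _ _ => by norm_num) fun p hp => ?_
    obtain ⟨a1, a2, a5⟩ := mem_filter.1 hp
    obtain ⟨a3, -⟩ := mem_Icc.1 (mem_product.1 a1).1
    refine H1 Λ hΛ l p.1 ((H2 Λ hΛ l L (hw.mono le_rfl (min_le_left _ _))).2.2 _ (by omega)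
      (.inr ?_)) _ _ a2
    have e1 : ρ < 2 ^ (Nat.log 2 (ρ / (16 * 2 ^ k)) + 1) * (16 * 2 ^ k) :=
      (Nat.div_lt_iff_lt_mul M0).1 (Nat.lt_pow_succ_log_self one_lt_two _)
    have e2 := Nat.mul_le_mul_right (16 * 2 ^ k)
      (Nat.pow_le_pow_right two_pos (Nat.add_le_add_right a3 1))
    have e3 : ρ ≤ 32 * 2 ^ (k + p.1) := by rw [pow_add]; rw [pow_succ 2 p.1] at e2; linarith
    have e4 : (ρ : ℝ) ≤ 32 * ((2 ^ (k + p.1) : ℕ) : ℝ) := by exact_mod_cast e3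
    exact ⟨(hw.sep.mono (min_le_right _ _)).1, hl.trans (by nlinarith)⟩
  · refine (pow_le_pow_of_le_one q0.le q1 (card_ET (a := a) (r := r) hJ ρ)).trans ?_
    rw [← prod_const]
    refine prod_le_prod (fun _ _ => q0.le) fun e he => ?_
    rcases (Lat.mem_edT.1 he).2 with c | c
    · exact (hq _ _ (mem_filter.1 c).1).trans (edge_low h (.inl rfl))
    · exact (hq _ _ (mem_filter.1 c).1).trans (edge_low h (.inr rfl))

theorem hCoreStmt (hG : GffDStmt) (hm : T1mStmt) : HCoreStmt := hCoreStmt_of (locStmt hG hm) hm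

/-- the free model on `B` (any root) has the largest seam ratio -/
theorem rat_le_Nr (hc : m.Ctr) (ha : m.Anch) {B : Finset Pt} {x : Pt} (hB : (Λ.Nr B x).Anch)
    (hE : Λ.edI B ⊆ m.ed) (hw : ∀ e ∈ Λ.edI B, m.w e = Λ.w) (h : Λ.Ok) (σ : Pt × Pt → ℤ) :
    Vd.rat m σ ≤ Vd.rat (Λ.Nr B x) σ := by
  have t0 : ∀ W : Cfg Pt → ℝ, tilt W 0 = W := fun W => funext fun s => by simp [tilt]
  have k := Sl46.cut_proj (m' := Λ.Nr B x) hc ha hB (resH B - (cstH B).comp (evZ x)) hE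
    (fun e he => (hw e he).symm) (fun _ _ _ => rfl) (fun s _ => ⟨fun y hy => ?_, fun e he => ?_⟩) σ 0
  · rw [AddMonoidHom.zero_comp, t0, t0] at k
    exact (div_le_div_iff₀ (hc.wt ha 0).pos ((h.ctr_Nr B x).wt hB 0).pos).2 k
  · change resH B s y - cst B (s x) y = 0
    rw [resH_apply, cst_apply]
    split_ifs with c
    · rw [show y = x from by_contra fun k => hy (mem_erase.2 ⟨k, c⟩), sub_self]
    · rfl
  · obtain ⟨-, b1, b2⟩ := Lat.mem_edI.1 he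
    change (resH B s e.2 - cst B (s x) e.2) - (resH B s e.1 - cst B (s x) e.1) = s e.2 - s e.1
    rw [resH_apply, resH_apply, cst_of_mem _ b1, cst_of_mem _ b2, if_pos b1, if_pos b2]
    ring

/-- true cores: Dirichlet models and the free ball -/
def HBallStmt : Prop := ∀ (F : Fa) (θ₀ : ℝ), 0 < θ₀ → ∃ (C : ℕ) (δ : ℝ), 0 < δ ∧ ∀ Λ, F.Mem Λ →
  Λ.J = nn → ∀ l : ℕ, ∃ c : ℝ, 0 < c ∧ ∀ L, Λ.Win θ₀ δ l L → ∀ (z : Pt) (r : ℕ), r < 16 * L →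
    (∀ D, sq z r ⊆ D → c / ((r : ℝ) + 1) ^ C ≤ Vd.rat (Λ.D D) (sm z r)) ∧
    ∀ x ∈ bl z r, c / ((r : ℝ) + 2) ^ C ≤ Vd.rat (Λ.Nr (bl z r) x) (Vd.ray z)

theorem hBallStmt_of (hH : HCoreStmt) : HBallStmt := fun F θ₀ h0 => by
  obtain ⟨C, δ, p, H⟩ := hH F θ₀ h0
  refine ⟨C, δ, p, fun Λ hΛ hJ l => ?_⟩
  obtain ⟨c, c0, H⟩ := H Λ hΛ hJ l
  have h := hΛ.ok
  have key : ∀ L, Λ.Win θ₀ δ l L → ∀ (z : Pt) (r : ℕ), r ≤ 16 * L → ∀ D, sq z r ⊆ D →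
      ∀ σ : Pt × Pt → ℤ, (∀ e ∈ Λ.edT D, σ e = sm z r e) →
        c / ((r : ℝ) + 1) ^ C ≤ Vd.rat (Λ.D D) σ := fun L hw z r hr D hD σ hσ =>
    H L hw r hr _ z σ (h.ctr_D D) (h.anch_D D)
      (core_of (fun e he _ => ⟨(Lat.mem_edT.1 he).1, rfl⟩) hD fun _ _ _ => rfl) hσ
  refine ⟨c, c0, fun L hw z r hr => ⟨fun D hD => key L hw z r hr.le D hD _ fun _ _ => rfl,
    fun x hx => le_trans ?_ (rat_le_Nr (h.ctr_D _) (h.anch_D _) (h.anch_Nr_bl hx)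
      (Lat.edI_subset_edT _) (fun _ _ => rfl) h _)⟩⟩
  refine le_trans (le_of_eq ?_) (key L hw z (r + 1) hr _ (fun y hy => ?_) _ fun e he => ?_)
  · push_cast; rw [add_assoc, one_add_one_eq_two]
  · rw [mem_sq] at hy; rw [mem_bl]; omega
  · have := (Lat.mem_edT.1 he).2
    simp only [mem_bl] at this
    simp only [Vd.ray, sm]
    split_ifs <;> omega

theorem hBallStmt (hG : GffDStmt) (hm : T1mStmt) : HBallStmt := hBallStmt_of (hCoreStmt hG hm)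

end Crest.Agent.T145.Es28
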