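import Crest.Agent.T145.Es_28
import Crest.Agent.T145.Short_53
import Crest.Agent.T145.Loc_51

/-!
# Row 145: the cluster of the pins at level `-1` avoids a small set with positive probability (helper28)
-/

set_option autoImplicit false

namespace Crest.Agent.T145.Es28

open Finset

variable {V : Type*} [DecidableEq V] {m : Mdl V}

/-- `P` contains every pinned end of an edge -/
def Pins (m : Mdl V) (P : Finset V) : Prop :=
  Disjoint P m.A ∧ ∀ e ∈ m.ed, (e.1 ∉ m.A → e.1 ∈ P) ∧ (e.2 ∉ m.A → e.2 ∈ P)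

theorem rest_shift (h1 : ∀ x k, m.site x k = 1) {P C : Finset V} (hP : Pins m P) (hC : P ⊆ C)
    (ζ s : Cfg V) :
    (m.rest (-1) C ζ).W ζ (s + pw (m.A \ C) (cst (m.A \ C) (-1)) ζ) =
      (m.rest 0 C (ζ + cst C 1)).W 0 s := by
  have hu : ∀ x ∈ m.A \ C, pw (m.A \ C) (cst (m.A \ C) (-1)) ζ x = -1 := fun x hx => by
    rw [pw_of_mem _ _ hx, cst_of_mem _ hx]
  simp only [Mdl.W, Mdl.rest, h1, one_mul]
  congr 1
  · congr 1
    · refine ind_congr (forall_congr' fun x => forall_congr' fun hx => ?_)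
      rw [Finsupp.add_apply, pw_of_notMem _ _ hx]
      simp
    · refine prod_congr rfl fun e he => ?_
      obtain ⟨he, a, b⟩ := mem_filter.1 he
      have a' : e.1 ∈ m.A \ C := mem_sdiff.2 ⟨by_contra fun k => a (hC ((hP.2 e he).1 k)), a⟩
      have b' : e.2 ∈ m.A \ C := mem_sdiff.2 ⟨by_contra fun k => b (hC ((hP.2 e he).2 k)), b⟩
      simp only [dE, Finsupp.add_apply, hu _ a', hu _ b']
      congr 1; ring
  · refine prod_congr rfl fun y hy => ?_
    rw [Finsupp.add_apply, hu y hy]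
    congr 1
    · refine prod_congr rfl fun e he => ?_
      rw [Finsupp.add_apply, cst_of_mem _ (mem_filter.1 he).2.1]
      congr 3 <;> ring
    · refine prod_congr rfl fun e he => ?_
      rw [Finsupp.add_apply, cst_of_mem _ (mem_filter.1 he).2.1]
      congr 3 <;> ring

theorem cl_nonneg (hm : m.Fm) {P : Finset V} (hP : Disjoint P m.A) {p : Cfg V × Finset (V × V)}
    (hp : m.J (-1) 0 p ≠ 0) {x : V} (hx : x ∈ cl P p.2) : 0 ≤ p.1 x := by
  obtain ⟨y, hy, c⟩ := Md.mem_cl.1 hx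
  clear hx
  induction c with
  | refl => exact (Md.J_off hp y (disjoint_left.1 hP hy)).ge
  | @tail u v _ huv ih =>
    rcases huv with k | k
    · have := Mdl.J_sign hm (s := p.1) (ω := p.2) hp k
      simp only at this
      by_contra c; nlinarith
    · have := Mdl.J_sign hm (s := p.1) (ω := p.2) hp k
      simp only at this
      by_contra c; nlinarith

/-- given the cluster of the pins, an average is rarely far below the level -/
theorem rest_tail [Countable V] (hc : m.Ctr) (ha : m.Anch) (h1 : ∀ x k, m.site x k = 1)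
    {P C B : Finset V} (hP : Pins m P) (hC : P ⊆ C) {ζ : Cfg V} (hζ : ∀ x ∈ C, 0 ≤ ζ x)
    {φ : V → ℝ} (h0 : ∀ x, 0 ≤ φ x) (hs : ∀ x, x ∉ B → φ x = 0) (hsum : ∑ x ∈ B, φ x = 1)
    (hB : B ⊆ m.A) {t : ℝ} (ht : 0 < t) :
    Pr ((m.rest (-1) C ζ).W ζ) (fun s => pr φ s < -1 - t) ≤
      Vr ((m.free (m.A \ C)).W 0) (pr φ) (pr φ) / t ^ 2 := by
  have hA : (m.free (m.A \ C)).Anch := Mix53.free_anch ha sdiff_subset
  set u := pw (m.A \ C) (cst (m.A \ C) (-1)) ζ with hu
  have e : Pr ((m.rest (-1) C ζ).W ζ) (fun s => pr φ s < -1 - t) =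
      Pr ((m.rest 0 C (ζ + cst C 1)).W 0) fun s => pr φ (s + u) < -1 - t := by
    unfold Pr
    rw [← Ex_equiv (Equiv.addRight u)]
    simp only [Equiv.coe_addRight, hu, rest_shift h1 hP hC]
  have hW := Mix53.rest_wt0 hc hA (ζ + cst C 1)
  have hS := Mix53.rest_se0 hc hA (ζ + cst C 1)
  have lo : -1 ≤ pr φ u := by
    rw [pr_of_fsupp φ u hs, ← hsum, ← sum_neg_distrib]
    refine sum_le_sum fun x hx => ?_
    have : (-1 : ℝ) ≤ u x := by
      by_cases c : x ∈ m.A \ C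
      · rw [hu, pw_of_mem _ _ c, cst_of_mem _ c]; norm_num
      · have c' : x ∈ C := by_contra fun k => c (mem_sdiff.2 ⟨hB hx, k⟩)
        rw [hu, pw_of_notMem _ _ c]
        have : (0 : ℝ) ≤ ζ x := by exact_mod_cast hζ x c'
        linarith
    nlinarith [h0 x]
  rw [e]
  refine le_trans ?_ (div_le_div_of_nonneg_right (Mix53.rest_vr_le hc hA (ζ + cst C 1) (pr φ))
    (sq_nonneg t))
  rw [Vr_even (Mix53.rest_even hc C _), le_div_iff₀' (pow_pos ht 2)]
  refine hW.markov (hS.ig ((Tame.hom _).mul (Tame.hom _))) (fun s => mul_self_nonneg _)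
    fun s k => ?_
  rw [map_add] at k
  nlinarith

/-- the local bound -/
theorem loc_bound [Countable V] (hc : m.Ctr) (ha : m.Anch) (h1 : ∀ x k, m.site x k = 1)
    {P K B : Finset V} (hP : Pins m P) {φ : V → ℝ} (h0 : ∀ x, 0 ≤ φ x) (hs : ∀ x, x ∉ B → φ x = 0)
    (hsum : ∑ x ∈ B, φ x = 1) (hB : B ⊆ m.A) {t v : ℝ} (ht : 0 < t) (hv : 0 ≤ v)
    (hPV : ∀ ω, ω ⊆ m.ed → Cross P K ω →
      Vr ((m.free (m.A \ cl P ω)).W 0) (pr φ) (pr φ) ≤ v) :
    Pr (m.W 0) (fun s => pr φ s < -1 - t) - v / t ^ 2 ≤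
      Ex (m.W 0) (ph m (-1) fun ω => ind (¬ Cross P K ω)) := by
  have hm := hc.1
  have hn := hc.nn
  have hW := Md.ctr_wt hc ha 0
  have hJ := Mdl.wt_J hm hn (-1) hW
  have a1 : 1 - Pr (m.J (-1) 0) (fun p => Cross P K p.2) ≤
      Ex (m.W 0) (ph m (-1) fun ω => ind (¬ Cross P K ω)) := by
    have k := Mdl.ex_J_cB hm hn hW (h := -1) (F := fun p => ind (Cross P K p.2)) (hJ.ig_ind _)
    have ig : Ig (m.W 0) (ph m (-1) fun ω => ind (¬ Cross P K ω)) := hW.ig_bdd (C := 1) fun s => by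
      rw [abs_of_nonneg (ph_nonneg hm _ (fun _ => ind_nonneg _) s)]
      exact ph_le_one hm _ (fun _ => ind_le_one _) s
    have := Ex_mono hW.nonneg ((hW.ig_const 1).sub ig) k.1 (one_sub_ph_le hm (-1) P K)
    rw [Ex_sub (hW.ig_const 1) ig, hW.ex_const, ← k.2] at this
    unfold Pr; linarith
  have hH : ∀ p q : Cfg V × Finset (V × V), Md.dat P p = Md.dat P q →
      ind (Cross P K p.2) = ind (Cross P K q.2) := fun p q h => by
    have e := (Md.dat_eq_iff.1 h).1
    have : ∀ ω : Finset (V × V), Cross P K ω ↔ ∃ y ∈ K, y ∈ cl P ω := fun ω =>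
      ⟨fun ⟨x, hx, y, hy, c⟩ => ⟨y, hy, Md.mem_cl.2 ⟨x, hx, c⟩⟩, fun ⟨y, hy, c⟩ =>
        let ⟨x, hx, c'⟩ := Md.mem_cl.1 c; ⟨x, hx, y, hy, c'⟩⟩
    exact ind_congr (by rw [this, this, e])
  have i2 : Ig (m.J (-1) 0) fun p => ind (Cross P K p.2) * ind (pr φ p.1 < -1 - t) :=
    (hJ.ig_ind _).mul_ind hJ.nonneg _
  have x := Md.expl_mul m (-1) 0 P (F := fun p => ind (pr φ p.1 < -1 - t)) hJ hH i2
  have a2 : Ex (m.J (-1) 0) (fun p => ind (Cross P K p.2) * ind (pr φ p.1 < -1 - t)) ≤ v / t ^ 2 := by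
    rw [x.2]
    refine hJ.ex_le x.1 fun p hp => ?_
    by_cases c : Cross P K p.2
    · rw [ind_pos c, one_mul]
      have w := Md.wt_rest m (-1) P hJ
        (fun C ζ => Mdl.J_nonneg (Mix53.rest_fm hm _ C ζ) (Mix53.rest_nn hm hn _ C ζ) _ _) hp
      refine (Mdl.pr_J_fst w fun s => pr φ s < -1 - t).le.trans ?_
      exact (rest_tail hc ha h1 hP (Md.subset_cl P p.2) (fun x hx => cl_nonneg hm hP.1 hp hx) h0 hs
        hsum hB ht).trans (div_le_div_of_nonneg_right (hPV _ (Md.J_sub hp) c) (sq_nonneg t))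
    · rw [ind_neg c, zero_mul]; positivity
  have a3 : Pr (m.W 0) (fun s => pr φ s < -1 - t) ≤ 1 - Pr (m.J (-1) 0) (fun p => Cross P K p.2) +
      Ex (m.J (-1) 0) fun p => ind (Cross P K p.2) * ind (pr φ p.1 < -1 - t) := by
    rw [← Mdl.pr_J_fst hJ, ← hJ.pr_not, Pr, Pr, ← Ex_add (hJ.ig_ind _) i2]
    refine Ex_mono hJ.nonneg (hJ.ig_ind _) ((hJ.ig_ind _).add i2) fun p => ?_
    by_cases c : Cross P K p.2
    · rw [ind_pos c, one_mul, ind_neg (not_not.2 c), zero_add]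
    · rw [ind_neg c, zero_mul, ind_pos c, add_zero]; exact ind_le_one _
  linarith

/-- spreading from one value of the characteristic function -/
theorem spread {L : Type*} [AddCommGroup L] {W : L → ℝ} (hW : Wt W) (he : ∀ s, W (-s) = W s)
    (X : L →+ ℝ) {a : ℝ} (ha : 0 < a) (h : Ph W ((1 / (2 * a)) • X) ≤ 1 / 5) :
    1 / 6 ≤ Pr W fun s => X s < -a := by
  have e : Pr W (fun s => a < X s) = Pr W fun s => X s < -a := by
    unfold Pr
    rw [← Ex_equiv (Equiv.neg L)]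
    simp only [Equiv.neg_apply, he, map_neg, lt_neg]
  have ic : Ig W fun s => Real.cos (((1 / (2 * a)) • X) s) :=
    hW.ig_bdd fun s => Real.abs_cos_le_one _
  have i1 := hW.ig_ind fun s => a < X s
  have i2 := hW.ig_ind fun s => X s < -a
  have k : Ex W (fun s => 7 / 8 - (2 * ind (a < X s) + 2 * ind (X s < -a))) ≤
      Ph W ((1 / (2 * a)) • X) := by
    refine Ex_mono hW.nonneg ((hW.ig_const _).sub ((i1.const_mul 2).add (i2.const_mul 2))) ic
      fun s => ?_
    have c := Real.neg_one_le_cos (((1 / (2 * a)) • X) s)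
    by_cases c1 : a < X s
    · rw [ind_pos c1]; linarith [ind_nonneg (X s < -a)]
    by_cases c2 : X s < -a
    · rw [ind_pos c2]; linarith [ind_nonneg (a < X s)]
    rw [ind_neg c1, ind_neg c2]
    have q := Real.one_sub_sq_div_two_le_cos (x := ((1 / (2 * a)) • X) s)
    have r : (((1 / (2 * a)) • X) s) ^ 2 ≤ 1 / 4 := by
      rw [AddMonoidHom.smul_apply, smul_eq_mul, one_div, inv_mul_eq_div, div_pow,
        div_le_iff₀ (by positivity)]
      nlinarith [not_lt.1 c1, not_lt.1 c2]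
    linarith
  rw [Ex_sub (hW.ig_const _) ((i1.const_mul 2).add (i2.const_mul 2)), hW.ex_const,
    Ex_add (i1.const_mul 2) (i2.const_mul 2), Ex_const_mul, Ex_const_mul] at k
  unfold Pr at e ⊢
  linarith

end Crest.Agent.T145.Es28
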