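import Crest.Agent.T145.Fkg_86

/-!
# Row 145: Edwards–Sokal at the level `-1/2`, the screen lemma (helper28)

`Z (-1 on L, 0 elsewhere) / Z 0 ≥ P (L is not joined to the other pins) ≥ ∏ local non-crossing probabilities`.
-/

set_option autoImplicit false

namespace Crest.Agent.T145.Es28

open Finset

section bern
variable {ι : Type*} [DecidableEq ι] {E : Finset ι} {p : ι → ℝ}

theorem bern_neg (E : Finset ι) (p : ι → ℝ) (P : ι → Prop) [DecidablePred P] (Φ : Finset ι → ℝ) :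
    Sw9.bern E p P (fun ω => -Φ ω) = -Sw9.bern E p P Φ := by
  simp only [Sw9.bern, mul_neg, sum_neg_distrib]

theorem bern_const (E : Finset ι) (p : ι → ℝ) (P : ι → Prop) [DecidablePred P] (c : ℝ) :
    Sw9.bern E p P (fun _ => c) = c := by
  rw [Sw9.bern, ← sum_mul, Sw9.sum_ite_prod]; simp

theorem bern_sub (E : Finset ι) (p : ι → ℝ) (P : ι → Prop) [DecidablePred P] (Φ Ψ : Finset ι → ℝ) :
    Sw9.bern E p P (fun ω => Φ ω - Ψ ω) = Sw9.bern E p P Φ - Sw9.bern E p P Ψ := by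
  simp only [Sw9.bern, mul_sub, sum_sub_distrib]

theorem bern_nonneg (hp : ∀ e ∈ E, 0 ≤ p e ∧ p e ≤ 1) (P : ι → Prop) [DecidablePred P]
    {Φ : Finset ι → ℝ} (h : ∀ ω, 0 ≤ Φ ω) : 0 ≤ Sw9.bern E p P Φ := by
  have := Sw9.bern_le hp P (Φ := fun _ => 0) h
  rwa [bern_const] at this

theorem bern_le_one (hp : ∀ e ∈ E, 0 ≤ p e ∧ p e ≤ 1) (P : ι → Prop) [DecidablePred P]
    {Φ : Finset ι → ℝ} (h : ∀ ω, Φ ω ≤ 1) : Sw9.bern E p P Φ ≤ 1 := by
  have := Sw9.bern_le hp P (Ψ := fun _ => 1) h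
  rwa [bern_const] at this

/-- only subsets of `E` matter -/
theorem bern_le' (hp : ∀ e ∈ E, 0 ≤ p e ∧ p e ≤ 1) (P : ι → Prop) [DecidablePred P]
    {Φ Ψ : Finset ι → ℝ} (h : ∀ ω, ω ⊆ E → Φ ω ≤ Ψ ω) :
    Sw9.bern E p P Φ ≤ Sw9.bern E p P Ψ := by
  refine sum_le_sum fun ω hω => mul_le_mul_of_nonneg_left
    (h _ ((filter_subset _ _).trans (mem_powerset.1 hω))) (prod_nonneg fun e he => ?_)
  split_ifs
  · exact (hp e he).1
  · exact sub_nonneg.2 (hp e he).2

theorem bern_anti (E : Finset ι) {p₁ p₂ : ι → ℝ} (P₁ P₂ : ι → Prop) [DecidablePred P₁]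
    [DecidablePred P₂] (h₁ : ∀ e ∈ E, 0 ≤ p₁ e ∧ p₁ e ≤ 1) (h₂ : ∀ e ∈ E, 0 ≤ p₂ e ∧ p₂ e ≤ 1)
    (h : ∀ e ∈ E, (if P₁ e then p₁ e else 0) ≤ if P₂ e then p₂ e else 0)
    {Φ : Finset ι → ℝ} (hΦ : Antitone Φ) : Sw9.bern E p₂ P₂ Φ ≤ Sw9.bern E p₁ P₁ Φ := by
  have := Sw9.bern_mono E P₁ P₂ h₁ h₂ h (fun ω => -Φ ω) fun _ _ k => neg_le_neg (hΦ k)
  rw [bern_neg, bern_neg] at this
  linarith

/-- Harris inequality -/
theorem harris (hp : ∀ e ∈ E, 0 ≤ p e ∧ p e ≤ 1) (P : ι → Prop) [DecidablePred P]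
    {Φ Ψ : Finset ι → ℝ} (hΦ : Antitone Φ) (hΨ : Antitone Ψ) :
    Sw9.bern E p P Φ * Sw9.bern E p P Ψ ≤ Sw9.bern E p P fun ω => Φ ω * Ψ ω := by
  induction E using Finset.induction_on generalizing Φ Ψ with
  | empty => simp [Sw9.bern]
  | insert a E ha ih =>
    have k := fun e he => hp e (mem_insert_of_mem he)
    have i0 := ih k hΦ hΨ
    have i1 := ih k (Φ := fun ω => Φ (insert a ω)) (Ψ := fun ω => Ψ (insert a ω))
      (fun _ _ hh => hΦ (insert_subset_insert a hh)) fun _ _ hh => hΨ (insert_subset_insert a hh)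
    have j0 : (Sw9.bern E p P fun ω => Φ (insert a ω)) ≤ Sw9.bern E p P Φ :=
      Sw9.bern_le k P fun ω => hΦ (subset_insert a ω)
    have j1 : (Sw9.bern E p P fun ω => Ψ (insert a ω)) ≤ Sw9.bern E p P Ψ :=
      Sw9.bern_le k P fun ω => hΨ (subset_insert a ω)
    rw [Sw9.bern_insert ha, Sw9.bern_insert ha, Sw9.bern_insert ha]
    have a1 := hp a (mem_insert_self _ _)
    have b0 : 0 ≤ if P a then p a else 0 := by split_ifs; exacts [a1.1, le_rfl]
    have b1 : (if P a then p a else 0) ≤ 1 := by split_ifs; exacts [a1.2, zero_le_one]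
    generalize (if P a then p a else 0) = q at *
    nlinarith [mul_le_mul_of_nonneg_left i0 (sub_nonneg.2 b1), mul_le_mul_of_nonneg_left i1 b0,
      mul_nonneg (mul_nonneg b0 (sub_nonneg.2 b1)) (mul_nonneg (sub_nonneg.2 j0) (sub_nonneg.2 j1))]

theorem anti_prod {α κ : Type*} [Preorder α] (T : Finset κ) {Φ : κ → α → ℝ}
    (hΦ : ∀ i ∈ T, Antitone (Φ i)) (h0 : ∀ i ∈ T, ∀ a, 0 ≤ Φ i a) :
    Antitone fun a => ∏ i ∈ T, Φ i a := fun a b hab =>
  prod_le_prod (fun i hi => h0 i hi b) fun i hi => hΦ i hi hab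

theorem harris_prod (hp : ∀ e ∈ E, 0 ≤ p e ∧ p e ≤ 1) (P : ι → Prop) [DecidablePred P] {κ : Type*}
    (T : Finset κ) {Φ : κ → Finset ι → ℝ} (hΦ : ∀ i ∈ T, Antitone (Φ i))
    (h0 : ∀ i ∈ T, ∀ ω, 0 ≤ Φ i ω) :
    ∏ i ∈ T, Sw9.bern E p P (Φ i) ≤ Sw9.bern E p P fun ω => ∏ i ∈ T, Φ i ω := by
  classical
  induction T using Finset.induction_on with
  | empty => simp [bern_const]
  | insert a T ha ih =>
    have k := fun i hi => hΦ i (mem_insert_of_mem hi)
    have k0 := fun i hi => h0 i (mem_insert_of_mem hi)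
    simp only [prod_insert ha]
    exact (mul_le_mul_of_nonneg_left (ih k k0)
      (bern_nonneg hp P (h0 a (mem_insert_self _ _)))).trans
      (harris hp P (hΦ a (mem_insert_self _ _)) (anti_prod T k k0))

end bern

/-- FKG for a finite product of decreasing `[0,1]`-valued functions -/
theorem fkg_prod {α κ : Type*} [DistribLattice α] {W : α → ℝ} (hL : LSM W) (hW : Wt W) (T : Finset κ)
    {F : κ → α → ℝ} (hF : ∀ i ∈ T, Antitone (F i)) (h0 : ∀ i ∈ T, ∀ a, 0 ≤ F i a)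
    (h1 : ∀ i ∈ T, ∀ a, F i a ≤ 1) : ∏ i ∈ T, Ex W (F i) ≤ Ex W fun a => ∏ i ∈ T, F i a := by
  classical
  induction T using Finset.induction_on with
  | empty => simp [hW.ex_const]
  | insert a T ha ih =>
    have k := fun i hi => hF i (mem_insert_of_mem hi)
    have k0 := fun i hi => h0 i (mem_insert_of_mem hi)
    have k1 := fun i hi => h1 i (mem_insert_of_mem hi)
    have a0 := h0 a (mem_insert_self _ _)
    have a1 := h1 a (mem_insert_self _ _)
    have p0 : ∀ x, 0 ≤ ∏ i ∈ T, F i x := fun x => prod_nonneg fun i hi => k0 i hi x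
    have p1 : ∀ x, ∏ i ∈ T, F i x ≤ 1 := fun x =>
      prod_le_one (fun i hi => k0 i hi x) fun i hi => k1 i hi x
    simp only [prod_insert ha]
    have c := hL.cv_nonneg_anti hW (hF a (mem_insert_self _ _)) (anti_prod T k k0)
      (hW.ig_bdd (C := 1) fun x => by rw [abs_of_nonneg (a0 x)]; exact a1 x)
      (hW.ig_bdd (C := 1) fun x => by rw [abs_of_nonneg (p0 x)]; exact p1 x)
      (hW.ig_bdd (C := 1) fun x => by
        rw [abs_of_nonneg (mul_nonneg (a0 x) (p0 x))]; exact mul_le_one₀ (a1 x) (p0 x) (p1 x))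
    have e := mul_le_mul_of_nonneg_left (ih k k0 k1) (Ex_nonneg hW.nonneg fun x _ => a0 x)
    unfold Cv at c
    linarith

section mdl
variable {V : Type*} [DecidableEq V] {m : Mdl V}

/-- expectation of `Φ` (bonds above the level `k`) given the heights -/
noncomputable def ph (m : Mdl V) (k : ℤ) (Φ : Finset (V × V) → ℝ) (s : Cfg V) : ℝ :=
  Sw9.bern m.ed (m.pB k s) (fun e => k < s e.1) Φ

theorem ph_eq_cB (hm : m.Fm) (k : ℤ) (Φ : Finset (V × V) → ℝ) (s : Cfg V) :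
    ph m k Φ s = m.cB k (fun p => Φ (p.2.filter fun e => k < p.1 e.1)) s :=
  (Mdl.bern_eq hm k s _ Φ).symm

theorem ph_nonneg (hm : m.Fm) (k : ℤ) {Φ : Finset (V × V) → ℝ} (h : ∀ ω, 0 ≤ Φ ω) (s : Cfg V) :
    0 ≤ ph m k Φ s := bern_nonneg (fun _ he => Mdl.pB_mem hm k s he) _ h

theorem ph_le_one (hm : m.Fm) (k : ℤ) {Φ : Finset (V × V) → ℝ} (h : ∀ ω, Φ ω ≤ 1) (s : Cfg V) :
    ph m k Φ s ≤ 1 := bern_le_one (fun _ he => Mdl.pB_mem hm k s he) _ h

theorem ph_anti (hm : m.Fm) (k : ℤ) {Φ : Finset (V × V) → ℝ} (hΦ : Antitone Φ) :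
    Antitone (ph m k Φ) := fun s t hst =>
  bern_anti _ _ _ (fun _ he => Mdl.pB_mem hm k s he) (fun _ he => Mdl.pB_mem hm k t he)
    (fun _ he => Mdl.pB_mono hm k hst he) hΦ

theorem ph_level (hm : m.Fm) {k k' : ℤ} (hk : k ≤ k') {Φ : Finset (V × V) → ℝ} (hΦ : Antitone Φ)
    (s : Cfg V) : ph m k Φ s ≤ ph m k' Φ s := by
  refine bern_anti _ _ _ (fun _ he => Mdl.pB_mem hm k' s he) (fun _ he => Mdl.pB_mem hm k s he)
    (fun e he => ?_) hΦ
  by_cases c : k' < s e.1
  · rw [if_pos c, if_pos (by omega)]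
    by_cases d : k' < s e.2
    · unfold Mdl.pB
      refine sub_le_sub_left (div_le_div_of_nonneg_right ((hm e he).anti ?_)
        ((hm e he).pos' _).le) _
      rw [abs_of_pos (by omega : 0 < s e.1 - k'), abs_of_pos (by omega : 0 < s e.2 - k'),
        abs_of_pos (by omega : 0 < s e.1 - k), abs_of_pos (by omega : 0 < s e.2 - k),
        abs_of_pos (by omega), abs_of_pos (by omega)]
      omega
    · rw [Mdl.pB_zero hm he (mul_nonpos_of_nonneg_of_nonpos (by omega) (by omega))]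
      exact (Mdl.pB_mem hm k s he).1
  · rw [if_neg c]
    split_ifs
    exacts [(Mdl.pB_mem hm k s he).1, le_rfl]

/-- a level read on the configuration -/
theorem low (hm : m.Fm) {W : Cfg V → ℝ} (hW : Wt W) {Φ : Finset (V × V) → ℝ} (hΦ : Antitone Φ)
    (h0 : ∀ ω, 0 ≤ Φ ω) (h1 : ∀ ω, Φ ω ≤ 1) (r : Cfg V → ℤ) (k : ℤ) :
    Pr W (fun s => r s ≤ k) - Ex W (fun s => 1 - ph m (r s) Φ s) ≤ Ex W (ph m k Φ) := by
  have b : ∀ j s, |1 - ph m j Φ s| ≤ 1 := fun j s => by
    have := ph_nonneg hm j h0 s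
    have := ph_le_one hm j h1 s
    rw [abs_le]; constructor <;> linarith
  have i1 : Ig W fun s => 1 - ph m (r s) Φ s := hW.ig_bdd fun s => b _ s
  have i2 : Ig W (ph m k Φ) := hW.ig_bdd (C := 1) fun s => by
    rw [abs_of_nonneg (ph_nonneg hm k h0 s)]; exact ph_le_one hm k h1 s
  rw [Pr, ← Ex_sub (hW.ig_ind _) i1]
  refine Ex_mono hW.nonneg ((hW.ig_ind _).sub i1) i2 fun s => ?_
  by_cases c : r s ≤ k
  · rw [ind_pos c]; linarith [ph_level hm c hΦ s]
  · rw [ind_neg c]; linarith [ph_nonneg hm k h0 s, ph_le_one hm (r s) h1 s]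

theorem cross_anti (S I : Finset V) : Antitone fun ω : Finset (V × V) => ind (¬ Cross S I ω) :=
  fun _ _ h => ind_mono fun a ⟨x, hx, y, hy, c⟩ => a ⟨x, hx, y, hy, Md.conn_mono h c⟩

/-- a crossing above the level is a crossing -/
theorem one_sub_ph_le (hm : m.Fm) (k : ℤ) (S I : Finset V) (s : Cfg V) :
    1 - ph m k (fun ω => ind (¬ Cross S I ω)) s ≤ m.cB k (fun p => ind (Cross S I p.2)) s := by
  have e : m.cB k (fun p => ind (Cross S I p.2)) s =
      Sw9.bern m.ed (m.pB k s) (fun _ => True) fun ω => ind (Cross S I ω) := by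
    rw [← Mdl.bern_eq hm k s (fun _ => True)]; simp only [filter_true, Mdl.cB]
  have h := bern_anti m.ed (fun e => k < s e.1) (fun _ => True) (fun _ he => Mdl.pB_mem hm k s he)
    (fun _ he => Mdl.pB_mem hm k s he) (fun e he => by
      rw [if_pos trivial]; split_ifs; exacts [le_rfl, (Mdl.pB_mem hm k s he).1]) (cross_anti S I)
  simp only [ind_not, bern_sub, bern_const] at h
  rw [e, ph]
  simp only [ind_not, bern_sub, bern_const]
  linarith

theorem edge_anti (e : V × V) : Antitone fun ω : Finset (V × V) => ind (e ∉ ω) :=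
  fun _ _ h => ind_mono fun a b => a (h b)

/-- an edge with an end at or below the level is closed -/
theorem ph_edge (hm : m.Fm) (k : ℤ) (e : V × V) (s : Cfg V) (h : s e.1 ≤ k ∨ s e.2 ≤ k) :
    ph m k (fun ω => ind (e ∉ ω)) s = 1 := by
  refine le_antisymm (ph_le_one hm k (fun _ => ind_le_one _) s) ?_
  have := bern_anti m.ed (fun e => k < s e.1) (fun e' => e' ≠ e) (p₁ := m.pB k s) (p₂ := m.pB k s)
    (fun _ he => Mdl.pB_mem hm k s he) (fun _ he => Mdl.pB_mem hm k s he) (fun e' he => by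
      by_cases c : e' = e
      · subst c
        rw [if_neg (fun a : e' ≠ e' => a rfl)]
        split_ifs with d
        · exact (Mdl.pB_zero hm he (mul_nonpos_of_nonneg_of_nonpos (by omega) (by omega))).le
        · exact le_rfl
      · rw [if_pos c]; split_ifs; exacts [le_rfl, (Mdl.pB_mem hm k s he).1]) (edge_anti e)
  refine le_trans (le_of_eq ?_) this
  rw [← bern_const m.ed (m.pB k s) (fun e' => e' ≠ e) 1]
  exact sum_congr rfl fun ω _ => by simp only []; rw [ind_pos (by simp)]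

/-! ### the level `-1/2` -/

/-- `|a + 1/2| + |b + 1/2|` -/
def hl (a b : ℤ) : ℤ := (|2 * a + 1| + |2 * b + 1|) / 2

theorem hl_pp {a b : ℤ} (ha : 0 ≤ a) (hb : 0 ≤ b) : hl a b = a + b + 1 := by
  unfold hl; rw [abs_of_pos (by omega), abs_of_pos (by omega)]; omega
theorem hl_pn {a b : ℤ} (ha : 0 ≤ a) (hb : b < 0) : hl a b = a - b := by
  unfold hl; rw [abs_of_pos (by omega), abs_of_neg (by omega)]; omega
theorem hl_np {a b : ℤ} (ha : a < 0) (hb : 0 ≤ b) : hl a b = b - a := by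
  unfold hl; rw [abs_of_neg (by omega), abs_of_pos (by omega)]; omega
theorem hl_nn {a b : ℤ} (ha : a < 0) (hb : b < 0) : hl a b = -a - b - 1 := by
  unfold hl; rw [abs_of_neg (by omega), abs_of_neg (by omega)]; omega
theorem hl_left (a b : ℤ) : hl (-a - 1) b = hl a b := by
  unfold hl; rw [show 2 * (-a - 1) + 1 = -(2 * a + 1) by ring, abs_neg]
theorem hl_right (a b : ℤ) : hl a (-b - 1) = hl a b := by
  unfold hl; rw [show 2 * (-b - 1) + 1 = -(2 * b + 1) by ring, abs_neg]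
theorem abs_le_hl (a b : ℤ) : |b - a| ≤ |hl a b| := by
  rcases le_or_gt 0 a with ha | ha <;> rcases le_or_gt 0 b with hb | hb
  · rw [hl_pp ha hb, abs_of_pos (by omega : 0 < a + b + 1), abs_le]; omega
  · rw [hl_pn ha hb, abs_sub_comm]
  · rw [hl_np ha hb]
  · rw [hl_nn ha hb, abs_of_pos (by omega : 0 < -a - b - 1), abs_le]; omega

/-- bond weight at the level `-1/2` -/
noncomputable def bh (m : Mdl V) (s : Cfg V) (e : V × V) (o : Prop) [Decidable o] : ℝ :=
  if o then m.w e (dE e s) - m.w e (hl (s e.1) (s e.2)) else m.w e (hl (s e.1) (s e.2))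

/-- open probability at the level `-1/2` -/
noncomputable def pH (m : Mdl V) (s : Cfg V) (e : V × V) : ℝ :=
  1 - m.w e (hl (s e.1) (s e.2)) / m.w e (dE e s)

omit [DecidableEq V] in
theorem bh_eq (hm : m.Fm) (s : Cfg V) {e : V × V} (he : e ∈ m.ed) (o : Prop) [Decidable o] :
    bh m s e o = m.w e (dE e s) * if o then pH m s e else 1 - pH m s e := by
  have := ((hm e he).pos' (dE e s)).ne'
  unfold bh pH
  split_ifs <;> field_simp
  ring

omit [DecidableEq V] in
theorem pH_mem (hm : m.Fm) (s : Cfg V) {e : V × V} (he : e ∈ m.ed) :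
    0 ≤ pH m s e ∧ pH m s e ≤ 1 := by
  have p := (hm e he).pos' (dE e s)
  refine ⟨sub_nonneg.2 ((div_le_one p).2 ((hm e he).anti (abs_le_hl _ _))),
    sub_le_self _ (div_nonneg ((hm e he).nonneg _) p.le)⟩

omit [DecidableEq V] in
theorem bh_nonneg (hm : m.Fm) (s : Cfg V) {e : V × V} (he : e ∈ m.ed) (o : Prop) [Decidable o] :
    0 ≤ bh m s e o := by
  rw [bh_eq hm s he]
  refine mul_nonneg ((hm e he).nonneg _) ?_
  split_ifs
  exacts [(pH_mem hm s he).1, sub_nonneg.2 (pH_mem hm s he).2]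

omit [DecidableEq V] in
theorem pH_zero (hm : m.Fm) {s : Cfg V} {e : V × V} (he : e ∈ m.ed)
    (h : ¬ (0 ≤ s e.1 ↔ 0 ≤ s e.2)) : pH m s e = 0 := by
  have : m.w e (hl (s e.1) (s e.2)) = m.w e (dE e s) := by
    rcases le_or_gt 0 (s e.1) with ha | ha <;> rcases le_or_gt 0 (s e.2) with hb | hb
    · exact absurd (iff_of_true ha hb) h
    · rw [hl_pn ha hb, ← (hm e he).even, neg_sub]; rfl
    · rw [hl_np ha hb]; rfl
    · exact absurd (iff_of_false (by omega) (by omega)) h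
  rw [pH, this, div_self ((hm e he).pos' _).ne', sub_self]

omit [DecidableEq V] in
theorem pH_le_pB (hm : m.Fm) (s : Cfg V) {e : V × V} (he : e ∈ m.ed) :
    (if -1 < s e.1 then pH m s e else 0) ≤ if -1 < s e.1 then m.pB (-1) s e else 0 := by
  split_ifs with c
  · by_cases d : 0 ≤ s e.2
    · unfold pH Mdl.pB
      refine sub_le_sub_left (div_le_div_of_nonneg_right ((hm e he).anti ?_)
        ((hm e he).pos' _).le) _
      rw [hl_pp (by omega) d, abs_of_pos (by omega : 0 < s e.1 - -1),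
        abs_of_pos (by omega : 0 < s e.2 - -1), abs_of_pos (by omega), abs_of_pos (by omega)]
      omega
    · rw [pH_zero hm he (by omega)]; exact (Mdl.pB_mem hm _ s he).1
  · exact le_rfl

/-- no pinned site outside `L` is joined to `L` -/
def Good (m : Mdl V) (L : Finset V) (ω : Finset (V × V)) : Prop :=
  ∀ y ∈ L, ∀ x, x ∉ m.A → x ∉ L → ¬ Conn ω y x

omit [DecidableEq V] in
theorem good_anti (m : Mdl V) (L : Finset V) : Antitone fun ω => ind (Good m L ω) :=
  fun _ _ h => ind_mono fun a y hy x hx hx' c => a y hy x hx hx' (Md.conn_mono h c)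

/-- reflection about `-1/2` on `C` -/
noncomputable def rf (C : Finset V) (s : Cfg V) : Cfg V := pw C (-s - cst C 1) s

theorem rf_mem {C : Finset V} (s : Cfg V) {x : V} (hx : x ∈ C) : rf C s x = -s x - 1 := by
  rw [rf, pw_of_mem _ _ hx]; simp [cst_of_mem 1 hx]
theorem rf_not {C : Finset V} (s : Cfg V) {x : V} (hx : x ∉ C) : rf C s x = s x :=
  pw_of_notMem _ _ hx
theorem rf_rf (C : Finset V) (s : Cfg V) : rf C (rf C s) = s := by
  ext x
  by_cases hx : x ∈ C
  · rw [rf_mem _ hx, rf_mem _ hx]; ring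
  · rw [rf_not _ hx, rf_not _ hx]

/-- joint weight at the level `-1/2` (no site weights) -/
noncomputable def jh (m : Mdl V) (η : Cfg V) (ω : Finset (V × V)) (s : Cfg V) : ℝ :=
  ind (∀ x, x ∉ m.A → s x = η x) * ∏ e ∈ m.ed, bh m s e (e ∈ ω)

theorem jh_nonneg (hm : m.Fm) (η : Cfg V) (ω : Finset (V × V)) (s : Cfg V) : 0 ≤ jh m η ω s :=
  mul_nonneg (ind_nonneg _) (prod_nonneg fun _ he => bh_nonneg hm s he _)

theorem sum_jh (h1 : ∀ x ∈ m.A, ∀ k, m.site x k = 1) (η s : Cfg V) :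
    ∑ ω ∈ m.ed.powerset, jh m η ω s = m.W η s := by
  simp only [jh, bh]
  rw [← mul_sum, Sw9.sum_ite_prod, Mdl.W, prod_congr rfl fun x hx => h1 x hx (s x), prod_const_one,
    mul_one]
  simp only [sub_add_cancel]

theorem jh_le (hm : m.Fm) (h1 : ∀ x ∈ m.A, ∀ k, m.site x k = 1) (η : Cfg V)
    {ω : Finset (V × V)} (hω : ω ∈ m.ed.powerset) (s : Cfg V) : jh m η ω s ≤ m.W η s := by
  rw [← sum_jh h1]
  exact single_le_sum (f := fun ω => jh m η ω s) (fun ω _ => jh_nonneg hm η ω s) hω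

theorem jh_rf (hm : m.Fm) {L : Finset V} (hL : Disjoint L m.A) {ω : Finset (V × V)}
    (hg : Good m L ω) (s : Cfg V) : jh m (cst L (-1)) ω (rf (cl L ω) s) = jh m 0 ω s := by
  unfold jh
  congr 1
  · refine ind_congr (forall_congr' fun x => forall_congr' fun hx => ?_)
    by_cases c : x ∈ L
    · rw [rf_mem _ (Md.subset_cl L ω c), cst_of_mem _ c]; simp only [Finsupp.coe_zero, Pi.zero_apply]
      omega
    · have : x ∉ cl L ω := fun a => by
        obtain ⟨y, hy, k⟩ := Md.mem_cl.1 a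
        exact hg y hy x hx c k
      rw [rf_not _ this, cst_of_notMem _ c]; rfl
  · refine prod_congr rfl fun e he => ?_
    unfold bh dE
    by_cases a : e.1 ∈ cl L ω <;> by_cases b : e.2 ∈ cl L ω
    · rw [rf_mem _ a, rf_mem _ b, hl_left, hl_right,
        show -s e.2 - 1 - (-s e.1 - 1) = -(s e.2 - s e.1) by ring, (hm e he).even]
    · have : e ∉ ω := fun k => b ((Md.cl_closed k).1 a)
      rw [if_neg this, if_neg this, rf_mem _ a, rf_not _ b, hl_left]
    · have : e ∉ ω := fun k => a ((Md.cl_closed k).2 b)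
      rw [if_neg this, if_neg this, rf_not _ a, rf_mem _ b, hl_right]
    · rw [rf_not _ a, rf_not _ b]

/-- on the support, a path from `L` uses only bonds above the level -/
theorem good_of_plus (hm : m.Fm) {L : Finset V} (hL : Disjoint L m.A) {ω : Finset (V × V)}
    (hω : ω ⊆ m.ed) {s : Cfg V} (hj : jh m 0 ω s ≠ 0)
    (hg : Good m L (ω.filter fun e => -1 < s e.1)) : Good m L ω := by
  have h0 : ∀ x, x ∉ m.A → s x = 0 := ind_ne_zero.1 (left_ne_zero_of_mul hj)
  have hs : ∀ e ∈ ω, (0 ≤ s e.1 ↔ 0 ≤ s e.2) := fun e he => by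
    by_contra c
    have := prod_ne_zero_iff.1 (right_ne_zero_of_mul hj) e (hω he)
    rw [bh_eq hm s (hω he), if_pos he, pH_zero hm (hω he) c, mul_zero] at this
    exact this rfl
  intro y hy x hx hx' c
  have key : ∀ z, Conn ω y z → 0 ≤ s z ∧ Conn (ω.filter fun e => -1 < s e.1) y z := by
    intro z hz
    induction hz with
    | refl => exact ⟨(h0 y (disjoint_left.1 hL hy)).ge, Md.conn_refl _ _⟩
    | @tail u v _ huv ih =>
      rcases huv with k | k
      · exact ⟨(hs _ k).1 ih.1, ih.2.tail (Or.inl (mem_filter.2 ⟨k, by have := ih.1; simp only; omega⟩))⟩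
      · have := (hs _ k).2 ih.1
        exact ⟨this, ih.2.tail (Or.inr (mem_filter.2 ⟨k, by simp only at this ⊢; omega⟩))⟩
  exact hg y hy x hx hx' (key x c).2

/-- Edwards–Sokal lower bound for a unit level difference -/
theorem es (hm : m.Fm) (h1 : ∀ x ∈ m.A, ∀ k, m.site x k = 1) {L : Finset V} (hL : Disjoint L m.A)
    (hW : Wt (m.W 0)) (hW' : Summable (m.W (cst L (-1)))) :
    Zs (m.W 0) * Ex (m.W 0) (ph m (-1) fun ω => ind (Good m L ω)) ≤ Zs (m.W (cst L (-1))) := by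
  have s0 : ∀ ω ∈ m.ed.powerset, Summable (jh m 0 ω) := fun ω hω =>
    hW.summ.of_nonneg_of_le (jh_nonneg hm 0 ω) (jh_le hm h1 0 hω)
  have s1 : ∀ ω ∈ m.ed.powerset, Summable (jh m (cst L (-1)) ω) := fun ω hω =>
    hW'.of_nonneg_of_le (jh_nonneg hm _ ω) (jh_le hm h1 _ hω)
  have pt : ∀ s, m.W 0 s * ph m (-1) (fun ω => ind (Good m L ω)) s ≤
      ∑ ω ∈ m.ed.powerset, ind (Good m L ω) * jh m 0 ω s := fun s => by
    have a := bern_anti m.ed (fun e => -1 < s e.1) (fun e => -1 < s e.1)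
      (fun _ he => pH_mem hm s he) (fun _ he => Mdl.pB_mem hm (-1) s he)
      (fun _ he => pH_le_pB hm s he) (good_anti m L)
    refine (mul_le_mul_of_nonneg_left a (hW.nonneg s)).trans ?_
    rw [Sw9.bern, mul_sum]
    refine sum_le_sum fun ω hω => ?_
    have e : m.W 0 s * ∏ e ∈ m.ed, (if e ∈ ω then pH m s e else 1 - pH m s e) = jh m 0 ω s := by
      rw [jh, prod_congr rfl fun e he => bh_eq hm s he (e ∈ ω), prod_mul_distrib, Mdl.W,
        prod_congr rfl fun x hx => h1 x hx (s x), prod_const_one, mul_one, mul_assoc]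
    rw [← mul_assoc, e, mul_comm]
    by_cases z : jh m 0 ω s = 0
    · rw [z, mul_zero, mul_zero]
    · exact mul_le_mul_of_nonneg_right (ind_mono (good_of_plus hm hL (mem_powerset.1 hω) z))
        (jh_nonneg hm 0 ω s)
  rw [← hW.tsum_eq]
  have ig : Ig (m.W 0) (ph m (-1) fun ω => ind (Good m L ω)) := hW.ig_bdd (C := 1) fun s => by
    rw [abs_of_nonneg (ph_nonneg hm _ (fun _ => ind_nonneg _) s)]
    exact ph_le_one hm _ (fun _ => ind_le_one _) s
  refine (ig.tsum_le_tsum pt (summable_sum fun ω hω => (s0 ω hω).mul_left _)).trans ?_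
  rw [Summable.tsum_finsetSum fun ω hω => (s0 ω hω).mul_left _, Zs,
    ← tsum_congr (sum_jh h1 (cst L (-1))), Summable.tsum_finsetSum s1]
  refine sum_le_sum fun ω hω => ?_
  by_cases g : Good m L ω
  · simp only [ind_pos g, one_mul]
    rw [← (Function.Involutive.toPerm _ (rf_rf (cl L ω))).tsum_eq (jh m (cst L (-1)) ω)]
    exact le_of_eq (tsum_congr fun s => (jh_rf hm hL g s).symm)
  · simp only [ind_neg g, zero_mul, tsum_zero]
    exact tsum_nonneg (jh_nonneg hm _ ω)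

/-- the screen lemma -/
theorem screen (hm : m.Fm) (h1 : ∀ x ∈ m.A, ∀ k, m.site x k = 1) {L : Finset V}
    (hL : Disjoint L m.A) (hW : Wt (m.W 0)) (hW' : Summable (m.W (cst L (-1)))) {κ : Type*}
    (T : Finset κ) {Φ : κ → Finset (V × V) → ℝ} (hΦ : ∀ i ∈ T, Antitone (Φ i))
    (h0 : ∀ i ∈ T, ∀ ω, 0 ≤ Φ i ω) (hle : ∀ i ∈ T, ∀ ω, Φ i ω ≤ 1)
    (hc : ∀ ω, ω ⊆ m.ed → ¬ Good m L ω → ∃ i ∈ T, Φ i ω = 0) :
    Zs (m.W 0) * ∏ i ∈ T, Ex (m.W 0) (ph m (-1) (Φ i)) ≤ Zs (m.W (cst L (-1))) := by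
  refine le_trans (mul_le_mul_of_nonneg_left ?_ hW.pos.le) (es hm h1 hL hW hW')
  have n : m.Nn := fun x hx k => by rw [h1 x hx]; exact zero_le_one
  refine (fkg_prod (Mdl.lsm hm.lc n 0) hW T (fun i hi => ph_anti hm _ (hΦ i hi))
    (fun i hi => ph_nonneg hm _ (h0 i hi)) fun i hi => ph_le_one hm _ (hle i hi)).trans ?_
  refine Ex_mono hW.nonneg (hW.ig_bdd (C := 1) fun s => ?_) (hW.ig_bdd (C := 1) fun s => ?_)
    fun s => ?_
  · rw [abs_of_nonneg (prod_nonneg fun i hi => ph_nonneg hm _ (h0 i hi) s)]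
    exact prod_le_one (fun i hi => ph_nonneg hm _ (h0 i hi) s) fun i hi => ph_le_one hm _ (hle i hi) s
  · rw [abs_of_nonneg (ph_nonneg hm _ (fun _ => ind_nonneg _) s)]
    exact ph_le_one hm _ (fun _ => ind_le_one _) s
  · refine (harris_prod (fun _ he => Mdl.pB_mem hm (-1) s he) _ T hΦ h0).trans
      (bern_le' (fun _ he => Mdl.pB_mem hm (-1) s he) _ fun ω hω => ?_)
    by_cases g : Good m L ω
    · rw [ind_pos g]; exact prod_le_one (fun i hi => h0 i hi ω) fun i hi => hle i hi ω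
    · obtain ⟨i, hi, z⟩ := hc ω hω g
      rw [ind_neg g, prod_eq_zero hi z]

end mdl

end Crest.Agent.T145.Es28
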