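import Crest.Agent.T145.EvDef_2

/-!
# Row 145, even sector: the closure of the profiles, bootstrap (helper54)
-/

set_option autoImplicit false

namespace Crest.Agent.T145.Ev

open Finset Pot Xi Real Fl

/-- the `K'` half of the closure -/
def KhStmt : Prop := ∀ (p : Par) (W : ℕ) (D₀ : ℝ), 16 ≤ W → ∃ C : ℝ, 1 ≤ C ∧
  (∀ (E : Dt) (R Y : ℝ), E.Lv p W D₀ R Y → yk E.ω W R ≤ 1 →
    |gk E.ω' R| + Qq E.ω' R ≤ C * (|pd E.ω' W R| + |qd E.ω E.ω' W R|)) ∧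
  ∀ a₂ : ℕ, ∃ B : ℝ, 0 ≤ B ∧ ∀ (E : Dt) (K : ℕ) (P : ℕ → ℝ), E.Ok p W →
    (∀ j, a₂ ≤ j → j ≤ K → E.Bs p W D₀ (Rk W j) (D₀ * yk E.ω W (Rk W j)) (P j) ∧
      C * yk E.ω W (Rk W j) ≤ 1) →
    (∀ j, a₂ ≤ j → j < K → yk E.ω W (Rk W j) ≤ 2 * yk E.ω W (Rk W (j + 1))) → C * Rk W K ≤ E.L →
    ∀ k, a₂ ≤ k → k ≤ K → E.Kp (Rk W k) (D₀ * yk E.ω W (Rk W k))
      (C * (B + ∑ j ∈ Icc a₂ k, ((W : ℝ) ^ (-ew p.w)) ^ (2 * (k - j)) *
        (Qq E.ω' (Rk W j) + D₀ * yk E.ω W (Rk W j) * P j)))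

namespace C54

theorem ew_pos {w : ℕ} (hw : 4 ≤ w) : 0 < ew w := by
  have h : (4 : ℝ) ≤ w := by exact_mod_cast hw
  have : (1 : ℝ) ≤ (w : ℝ) ^ 4 := one_le_pow₀ (by linarith)
  exact div_pos (div_pos (log_pos one_lt_two) (log_pos (by linarith))) (by norm_num)

theorem yk_nonneg (ω : Sta) (W R : ℝ) : 0 ≤ yk ω W R := by unfold yk; positivity

theorem Qq_nonneg (ω : Sta) (R : ℝ) : 0 ≤ Qq ω R := by unfold Qq; positivity

/-- bootstrap -/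
theorem boot {S : ℝ → Prop} {c l₀ : ℝ} (hc : 1 ≤ c) (h0 : 0 ≤ l₀)
    (mono : ∀ a b, a ≤ b → S a → S b) (s0 : S l₀) (step : ∀ l, 1 ≤ l → S l → S (c + l / 2)) :
    S (2 * c + 1) := by
  have h : ∀ n : ℕ, S (2 * c + l₀ / 2 ^ n) := fun n => by
    induction n with
    | zero => exact mono _ _ (by simp; linarith) s0
    | succ n ih =>
      have : 0 ≤ l₀ / 2 ^ n := by positivity
      refine mono _ _ (le_of_eq ?_) (step _ (by linarith) ih)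
      rw [pow_succ]; field_simp; ring
  obtain ⟨n, hn⟩ := pow_unbounded_of_one_lt l₀ (one_lt_two (α := ℝ))
  exact mono _ _ (by have := (div_le_one (by positivity)).2 hn.le; linarith) (h n)

/-- the majorant -/
noncomputable def sg (B θ : ℝ) (a K : ℕ) (s : ℕ → ℝ) (k : ℕ) : ℝ :=
  B + ∑ j ∈ Icc a K, θ ^ Nat.dist j k * s j

section sg
variable {B θ : ℝ} {a K : ℕ} {s : ℕ → ℝ}

theorem le_sg (h0 : 0 ≤ θ) (hs : ∀ j, 0 ≤ s j) (k : ℕ) : B ≤ sg B θ a K s k :=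
  le_add_of_nonneg_right (sum_nonneg fun j _ => mul_nonneg (pow_nonneg h0 _) (hs j))

theorem s_le (hB : 0 ≤ B) (h0 : 0 ≤ θ) (hs : ∀ j, 0 ≤ s j) {k : ℕ} (h1 : a ≤ k) (h2 : k ≤ K) :
    s k ≤ sg B θ a K s k := by
  have := single_le_sum (f := fun j => θ ^ Nat.dist j k * s j)
    (fun j _ => mul_nonneg (pow_nonneg h0 _) (hs j)) (mem_Icc.2 ⟨h1, h2⟩)
  simp only [Nat.dist_self, pow_zero, one_mul] at this
  unfold sg; linarith

theorem sg_le (hB : 0 ≤ B) (h0 : 0 ≤ θ) (h1 : θ ≤ 1) (hs : ∀ j, 0 ≤ s j) (j k : ℕ) :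
    θ ^ Nat.dist j k * sg B θ a K s j ≤ sg B θ a K s k := by
  unfold sg
  rw [mul_add, mul_sum]
  refine add_le_add (mul_le_of_le_one_left hB (pow_le_one₀ h0 h1)) (sum_le_sum fun i _ => ?_)
  rw [← mul_assoc, ← pow_add]
  exact mul_le_mul_of_nonneg_right (pow_le_pow_of_le_one h0 h1 (by
    have := Nat.dist.triangle_inequality i j k; omega)) (hs i)

theorem geo (h0 : 0 ≤ θ) (h1 : θ < 1) (a k : ℕ) : ∑ j ∈ Icc a k, θ ^ (k - j) ≤ (1 - θ)⁻¹ := by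
  rw [← tsum_geometric_of_lt_one h0 h1, ← sum_image (s := Icc a k) (g := fun j => k - j)
    (f := fun i => θ ^ i) fun i hi j hj e => by
      simp only [coe_Icc, Set.mem_Icc] at hi hj e; omega]
  exact (summable_geometric_of_lt_one h0 h1).sum_le_tsum _ fun i _ => pow_nonneg h0 i

end sg

section scales
variable {W : ℕ}

theorem Rk_pos (hW : 2 ≤ W) (k : ℕ) : 0 < Rk W k := by
  have : (0 : ℝ) < W := by exact_mod_cast (by omega : 0 < W)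
  unfold Rk; positivity

theorem Rk_add (j d : ℕ) : Rk W (j + d) = (W : ℝ) ^ d * Rk W j := by unfold Rk; ring

theorem Rk_cast (k : ℕ) : ((2 * W ^ k : ℕ) : ℝ) = Rk W k := by unfold Rk; push_cast; ring

theorem Rk_mono (hW : 2 ≤ W) {j k : ℕ} (h : j ≤ k) : Rk W j ≤ Rk W k := by
  have : (1 : ℝ) ≤ W := by exact_mod_cast (by omega : 1 ≤ W)
  unfold Rk; gcongr

theorem ex_scale {a K : ℕ} {x : ℝ} (h1 : Rk W a ≤ x) (h2 : x < Rk W K) (h : a ≤ K) :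
    ∃ j, a ≤ j ∧ j < K ∧ Rk W j ≤ x ∧ x < Rk W (j + 1) := by
  induction K, h using Nat.le_induction with
  | base => exact absurd h1 (not_le.2 h2)
  | succ K hK ih =>
    rcases lt_or_ge x (Rk W K) with h3 | h3
    · obtain ⟨j, b1, b2, b3⟩ := ih h3
      exact ⟨j, b1, by omega, b3⟩
    · exact ⟨K, hK, by omega, h3, h2⟩

theorem pw (hW : 2 ≤ W) (e : ℝ) (d : ℕ) : ((W : ℝ) ^ (-e)) ^ d * ((W : ℝ) ^ d) ^ e = 1 := by
  have h : (0 : ℝ) < W := by exact_mod_cast (by omega : 0 < W)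
  rw [← rpow_natCast, ← rpow_natCast, ← rpow_mul h.le, ← rpow_mul h.le, ← rpow_add h]
  simp [mul_comm]

/-- the weight of the profile against the weight of the majorant -/
theorem wt_mid (hW : 2 ≤ W) {e x : ℝ} (he : 0 ≤ e) {j : ℕ} (k : ℕ) (h1 : Rk W j ≤ x)
    (h2 : x ≤ Rk W (j + 1)) :
    1 ≤ (W : ℝ) ^ e * (((W : ℝ) ^ (-e)) ^ Nat.dist j k * max (x / Rk W k) (Rk W k / x) ^ e) := by
  have h : (1 : ℝ) ≤ W := by exact_mod_cast (by omega : 1 ≤ W)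
  have hk := Rk_pos hW k
  have hx := (Rk_pos hW j).trans_le h1
  have h3 : (W : ℝ) ^ Nat.dist j k ≤ W * max (x / Rk W k) (Rk W k / x) := by
    rcases le_total k j with c | c
    · obtain ⟨d, rfl⟩ := Nat.exists_eq_add_of_le c
      rw [Nat.dist_comm, Nat.dist_eq_sub_of_le c, Nat.add_sub_cancel_left]
      have : (W : ℝ) ^ d ≤ x / Rk W k := by rw [le_div_iff₀ hk, ← Rk_add]; exact h1
      exact (this.trans (le_max_left _ _)).trans (le_mul_of_one_le_left (by positivity) h)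
    · obtain ⟨d, rfl⟩ := Nat.exists_eq_add_of_le c
      rw [Nat.dist_eq_sub_of_le c, Nat.add_sub_cancel_left]
      refine le_trans ?_ (mul_le_mul_of_nonneg_left (le_max_right _ _) (by positivity))
      rw [← mul_div_assoc, le_div_iff₀ hx, Rk_add]
      rw [Rk_add, pow_one] at h2
      calc _ ≤ (W : ℝ) ^ d * (W * Rk W j) := by gcongr
        _ = _ := by ring
  rw [← pw hW e (Nat.dist j k), mul_left_comm, ← mul_rpow (by positivity) (by positivity)]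
  gcongr

theorem wt_hi (hW : 2 ≤ W) {e x : ℝ} (he : 0 ≤ e) {k K : ℕ} (hk : k ≤ K) (h1 : Rk W K ≤ x) :
    (x / Rk W K) ^ (e / 10) ≤
      ((W : ℝ) ^ (-e)) ^ Nat.dist K k * max (x / Rk W k) (Rk W k / x) ^ e := by
  have hK := Rk_pos hW K
  have hx := hK.trans_le h1
  have hk0 := Rk_pos hW k
  obtain ⟨d, rfl⟩ := Nat.exists_eq_add_of_le hk
  rw [Nat.dist_comm, Nat.dist_eq_sub_of_le hk, Nat.add_sub_cancel_left]
  have h2 : (W : ℝ) ^ d * (x / Rk W (k + d)) ≤ max (x / Rk W k) (Rk W k / x) := by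
    have h : (0 : ℝ) < W := by exact_mod_cast (by omega : 0 < W)
    refine le_trans (le_of_eq ?_) (le_max_left _ _)
    rw [Rk_add]; field_simp
  calc _ ≤ (x / Rk W (k + d)) ^ e :=
        rpow_le_rpow_of_exponent_le ((one_le_div hK).2 h1) (by linarith)
    _ = ((W : ℝ) ^ (-e)) ^ d * ((W : ℝ) ^ d * (x / Rk W (k + d))) ^ e := by
        rw [mul_rpow (by positivity) (by positivity), ← mul_assoc, pw hW, one_mul]
    _ ≤ _ := by gcongr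

theorem one_le_wt {e x R : ℝ} (he : 0 ≤ e) (hR : 0 < R) (hx : 0 < x) :
    1 ≤ max (x / R) (R / x) ^ e := by
  refine one_le_rpow ?_ he
  rcases le_total x R with c | c
  · exact le_max_of_le_right ((one_le_div hx).2 c)
  · exact le_max_of_le_left ((one_le_div hR).2 c)

end scales

theorem prof_mono {Λ : Lat} {w a₀ L : ℕ} {z : Pt} {F : Cfg Pt → ℝ} {R P P' : ℝ} (hR : 0 ≤ R)
    (h : Prof Λ w a₀ L z F R P) (hP : P ≤ P') : Prof Λ w a₀ L z F R P' := fun a h1 h2 =>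
  (h a h1 h2).trans (mul_le_mul_of_nonneg_right hP (by positivity))

theorem r1_le {E : Dt} {p : Par} {W : ℕ} {D₀ R Y : ℝ} (h : E.Ok p W) (h' : E.Lv p W D₀ R Y) :
    (E.r₁ : ℝ) ≤ R :=
  (le_self_pow₀ (by exact_mod_cast (by have := h.r8; omega : 1 ≤ E.r₁)) (by norm_num)).trans h'.r1

/-- from bounds scale by scale to the profile -/
theorem prof_of {E : Dt} {p : Par} {W a₂ K : ℕ} {Ca B μ : ℝ} {s : ℕ → ℝ} (hW : 2 ≤ W) (he : 0 ≤ ew p.w)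
    (hCa : 1 ≤ Ca) (hs : ∀ j, 0 ≤ s j) (hμ : 0 ≤ μ) (hB : Ca * Rk W a₂ ^ 2 ≤ B)
    (hr : (E.r₁ : ℝ) ≤ Rk W K)
    (A1 : ∀ a : ℕ, p.r₀ ≤ a → nu E.Λ p.w 0 a (E.e 0) ≤ Ca)
    (A2 : ∀ r a : ℕ, E.r₁ ≤ r → r ≤ a → p.w * a ≤ E.L → (a : ℝ) ^ 2 * nu E.Λ p.w 0 a (E.e 0) ≤
      Ca * ((a : ℝ) / r) ^ (ew p.w / 10) * ((r : ℝ) ^ 2 * nu E.Λ p.w 0 r (E.e 0)))
    (H : ∀ j, a₂ ≤ j → j ≤ K → ∀ a : ℕ, Rk W j ≤ a → (a : ℝ) ≤ W * Rk W j →
      (a : ℝ) ^ 2 * nu E.Λ p.w 0 a (E.e 0) ≤ μ * sg B ((W : ℝ) ^ (-ew p.w)) a₂ K s j)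
    {k : ℕ} (h1 : a₂ ≤ k) (h2 : k ≤ K) :
    Prof E.Λ p.w p.r₀ E.L 0 (E.e 0) (Rk W k)
      ((Ca * (W : ℝ) ^ ew p.w * μ + 1) * sg B ((W : ℝ) ^ (-ew p.w)) a₂ K s k) := by
  intro a ha hL
  have hW1 : (1 : ℝ) ≤ W := by exact_mod_cast (by omega : 1 ≤ W)
  set θ : ℝ := (W : ℝ) ^ (-ew p.w) with hθ
  have θ0 : 0 ≤ θ := by positivity
  have θ1 : θ ≤ 1 := rpow_le_one_of_one_le_of_nonpos hW1 (by linarith)
  have u1 : 1 ≤ (W : ℝ) ^ ew p.w := one_le_rpow hW1 he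
  have B0 : 0 ≤ B := le_trans (by positivity) hB
  have g0 : ∀ j, 0 ≤ sg B θ a₂ K s j := fun j => B0.trans (le_sg θ0 hs j)
  have gk := g0 k
  have hk := Rk_pos hW k
  rcases Nat.eq_zero_or_pos a with rfl | a0
  · simp only [Nat.cast_zero, ne_eq, OfNat.ofNat_ne_zero, not_false_eq_true, zero_pow, zero_mul]
    positivity
  have a0' : (0 : ℝ) < a := by exact_mod_cast a0
  have w1 := one_le_wt he hk a0'
  set T : ℝ := max (a / Rk W k) (Rk W k / a) ^ ew p.w with hT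
  rcases lt_or_ge (a : ℝ) (Rk W a₂) with c1 | c1
  · calc _ ≤ Rk W a₂ ^ 2 * Ca := by
          refine (mul_le_mul_of_nonneg_left (A1 a ha) (by positivity)).trans ?_
          gcongr
      _ ≤ sg B θ a₂ K s k := by rw [mul_comm]; exact hB.trans (le_sg θ0 hs k)
      _ ≤ (Ca * (W : ℝ) ^ ew p.w * μ + 1) * sg B θ a₂ K s k :=
          le_mul_of_one_le_left gk (le_add_of_nonneg_left (by positivity))
      _ ≤ _ := le_mul_of_one_le_right (by positivity) w1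
  have fin : ∀ j, ∀ z : ℝ, z ≤ Ca * (W : ℝ) ^ ew p.w * (θ ^ Nat.dist j k * T) →
      z * (μ * sg B θ a₂ K s j) ≤ (Ca * (W : ℝ) ^ ew p.w * μ + 1) * sg B θ a₂ K s k * T := by
    intro j z hz
    have := g0 j
    calc _ ≤ Ca * (W : ℝ) ^ ew p.w * (θ ^ Nat.dist j k * T) * (μ * sg B θ a₂ K s j) := by gcongr
      _ = Ca * (W : ℝ) ^ ew p.w * μ * (θ ^ Nat.dist j k * sg B θ a₂ K s j) * T := by ring
      _ ≤ Ca * (W : ℝ) ^ ew p.w * μ * sg B θ a₂ K s k * T := by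
          gcongr; exact sg_le B0 θ0 θ1 hs j k
      _ ≤ _ := by gcongr; linarith
  rcases lt_or_ge (a : ℝ) (Rk W K) with c2 | c2
  · obtain ⟨j, j1, j2, j3, j4⟩ := ex_scale c1 c2 (h1.trans h2)
    refine (H j j1 j2.le a j3 (by rw [Rk_add, pow_one] at j4; exact j4.le)).trans ?_
    have := fin j 1 ((wt_mid hW he k j3 j4.le).trans (by
      rw [mul_assoc Ca]; exact le_mul_of_one_le_left (by positivity) hCa))
    rwa [one_mul] at this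
  · have b1 := A2 (2 * W ^ K) a (by exact_mod_cast hr.trans_eq (Rk_cast K).symm)
      (by exact_mod_cast (Rk_cast K).trans_le c2) hL
    have b2 := H K (h1.trans h2) le_rfl (2 * W ^ K) (Rk_cast K).ge
      ((Rk_cast K).trans_le (le_mul_of_one_le_left (Rk_pos hW K).le hW1))
    have hK := Rk_pos hW K
    refine (b1.trans (mul_le_mul_of_nonneg_left b2 (by positivity))).trans (fin K _ ?_)
    rw [Rk_cast, mul_assoc Ca]
    exact mul_le_mul_of_nonneg_left ((wt_hi hW he h2 c2).trans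
      (le_mul_of_one_le_left (by positivity) u1)) (by positivity)

end C54

open C54

set_option maxHeartbeats 1000000 in
theorem close_of (h1 : Cl1Stmt) (hA : ApStmt) (hK : KhStmt) : CloseStmt := by
  intro w
  obtain ⟨W₀, h1⟩ := h1 w
  refine ⟨max W₀ 16, ?_⟩
  rintro p W D₀ rfl hW
  rw [max_le_iff] at hW
  by_cases hw : 4 ≤ p.w
  swap
  · exact ⟨1, le_rfl, fun _ => ⟨0, le_rfl, fun E K h => absurd h.ed.w4 hw⟩⟩
  have hW2 : 2 ≤ W := by omega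
  obtain ⟨C₁, n, hC₁, h1⟩ := h1 p W D₀ rfl hW.1
  obtain ⟨Ca, hCa, hA⟩ := hA p W hW2
  obtain ⟨Ck, hCk, hQ, hK⟩ := hK p W D₀ hW.2
  have he := ew_pos hw
  have hW1 : (1 : ℝ) < W := by exact_mod_cast (by omega : 1 < W)
  set θ : ℝ := (W : ℝ) ^ (-ew p.w) with hθ
  have θ0 : 0 < θ := by positivity
  have θ1 : θ < 1 := rpow_lt_one_of_one_lt_of_neg hW1 (by linarith)
  have i0 : 0 ≤ (1 - θ)⁻¹ := inv_nonneg.2 (by linarith)
  obtain ⟨G, hG⟩ : ∃ G, G = Ca * (W : ℝ) ^ ew p.w := ⟨_, rfl⟩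
  have G1 : 1 ≤ G := hG ▸ one_le_mul_of_one_le_of_one_le hCa (one_le_rpow hW1.le he.le)
  obtain ⟨c₂, hc₂⟩ : ∃ c, c = Ck * (1 - θ)⁻¹ := ⟨_, rfl⟩
  have c20 : 0 ≤ c₂ := by rw [hc₂]; positivity
  obtain ⟨c₁, hc₁⟩ : ∃ c, c = Ck + c₂ * Ck := ⟨_, rfl⟩
  have c10 : 0 ≤ c₁ := by rw [hc₁]; positivity
  obtain ⟨τ, hτ⟩ : ∃ τ, τ = 4 * C₁ * G := ⟨_, rfl⟩
  have τ1 : 1 ≤ τ := by rw [hτ]; nlinarith
  have τ0 : 0 < τ := by linarith
  obtain ⟨m, hm⟩ : ∃ m, m = τ ^ n * (τ ^ 4 * (4 * G * (1 + c₂))) := ⟨_, rfl⟩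
  have m1 : 1 ≤ τ ^ n := one_le_pow₀ τ1
  have m2 : 1 ≤ τ ^ 4 * (4 * G * (1 + c₂)) :=
    one_le_mul_of_one_le_of_one_le (one_le_pow₀ τ1) (by nlinarith)
  have m3 : τ ^ n ≤ m := hm ▸ le_mul_of_one_le_right (by positivity) m2
  have m4 : τ ^ 4 * (4 * G * (1 + c₂)) ≤ m := hm ▸ le_mul_of_one_le_left (by positivity) m1
  obtain ⟨c, hc⟩ : ∃ c, c = G * (τ ^ 4 * (Ck + c₁)) + 1 := ⟨_, rfl⟩
  have c1 : 1 ≤ c := by rw [hc]; exact le_add_of_nonneg_left (by positivity)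
  obtain ⟨C, hC⟩ : ∃ C, C = Ck + (|D₀| + 1) * m + (2 * c + 1 + (c₁ + c₂ * (2 * c + 1))) := ⟨_, rfl⟩
  have x1 : 0 ≤ 2 * c + 1 + (c₁ + c₂ * (2 * c + 1)) := by positivity
  have x2 : 0 ≤ |D₀| * m := mul_nonneg (abs_nonneg _) (by linarith)
  have C1 : Ck ≤ C := by rw [hC]; nlinarith
  have C2 : m ≤ C := by rw [hC]; nlinarith
  have C3 : |D₀| * m ≤ C := by rw [hC]; nlinarith
  have C4 : 2 * c + 1 + (c₁ + c₂ * (2 * c + 1)) ≤ C := by rw [hC]; nlinarith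
  refine ⟨C, hCk.trans C1, fun a₂ => ?_⟩
  obtain ⟨Bk, Bk0, hK⟩ := hK a₂
  obtain ⟨B, hB⟩ : ∃ B, B = Bk + Ca * Rk W a₂ ^ 2 + 1 := ⟨_, rfl⟩
  have b0 : 0 ≤ Ca * Rk W a₂ ^ 2 := by positivity
  have B0 : 0 ≤ B := by linarith
  refine ⟨B, B0, fun E K hE hL hy hR k k1 k2 => ?_⟩
  obtain ⟨A1, A2, A3⟩ := hA E hE
  set s : ℕ → ℝ := fun j => |pd E.ω' W (Rk W j)| + |qd E.ω E.ω' W (Rk W j)| with hs
  have s0 : ∀ j, 0 ≤ s j := fun j => by positivity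
  set g : ℕ → ℝ := sg B θ a₂ K s with hg
  have g1 : ∀ j, 1 ≤ g j := fun j => le_trans (by linarith) (le_sg θ0.le s0 j)
  set Y : ℕ → ℝ := fun j => D₀ * yk E.ω W (Rk W j) with hY
  have Y0 : ∀ j, a₂ ≤ j → j ≤ K → 0 ≤ Y j ∧ m * Y j ≤ 1 := fun j j1 j2 => by
    have y0 := yk_nonneg E.ω W (Rk W j)
    have d1 := (hL j j1 j2).1.D1
    refine ⟨mul_nonneg (by linarith) y0, le_trans ?_ (hL j j1 j2).2⟩
    rw [abs_of_nonneg (by linarith)] at C3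
    calc m * (D₀ * yk E.ω W (Rk W j)) = D₀ * m * yk E.ω W (Rk W j) := by ring
      _ ≤ _ := by gcongr
  have y1 : ∀ j, a₂ ≤ j → j ≤ K → yk E.ω W (Rk W j) ≤ 1 := fun j j1 j2 =>
    (le_mul_of_one_le_left (yk_nonneg _ _ _) (hCk.trans C1)).trans (hL j j1 j2).2
  let S : ℝ → Prop := fun l => ∀ j, a₂ ≤ j → j ≤ K →
    Prof E.Λ p.w p.r₀ E.L 0 (E.e 0) (Rk W j) (l * g j)
  have bs : ∀ l, 1 ≤ l → S l → ∀ j, a₂ ≤ j → j ≤ K → E.Bs p W D₀ (Rk W j) (Y j) (l * g j) :=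
    fun l l1 h j j1 j2 => ⟨hE, (hL j j1 j2).1, one_le_mul_of_one_le_of_one_le l1 (g1 j), h j j1 j2⟩
  have kp : ∀ l, 1 ≤ l → S l → ∀ j, a₂ ≤ j → j ≤ K → ∃ P', E.Kp (Rk W j) (Y j) P' ∧
      P' ≤ (c₁ + c₂ * (m⁻¹ * l)) * g j := by
    intro l l1 h j j1 j2
    refine ⟨_, hK E K (fun i => l * g i) hE (fun i i1 i2 => ⟨bs l l1 h i i1 i2, le_trans
      (mul_le_mul_of_nonneg_right C1 (yk_nonneg _ _ _)) (hL i i1 i2).2⟩) hy
      ((mul_le_mul_of_nonneg_right C1 (Rk_pos hW2 K).le).trans hR) j j1 j2, ?_⟩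
    have gj := g1 j
    have m0 : 0 < m := by linarith
    have z1 : ∑ i ∈ Icc a₂ j, θ ^ (2 * (j - i)) * (Qq E.ω' (Rk W i) + Y i * (l * g i)) ≤
        ∑ i ∈ Icc a₂ j, θ ^ (j - i) * ((Ck + m⁻¹ * l) * g j) := by
      refine sum_le_sum fun i hi => ?_
      obtain ⟨i1, i2⟩ := mem_Icc.1 hi
      have gi := g1 i
      have q1 : Qq E.ω' (Rk W i) ≤ Ck * g i :=
        (le_add_of_nonneg_left (abs_nonneg _)).trans ((hQ E _ _ (hL i i1 (i2.trans j2)).1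
          (y1 i i1 (i2.trans j2))).trans
          (mul_le_mul_of_nonneg_left (s_le B0 θ0.le s0 i1 (i2.trans j2)) (by linarith)))
      have q2 : Y i ≤ m⁻¹ := by
        rw [inv_eq_one_div, le_div_iff₀' m0]; exact (Y0 i i1 (i2.trans j2)).2
      have q3 := sg_le (a := a₂) (K := K) B0 θ0.le θ1.le s0 i j
      rw [Nat.dist_eq_sub_of_le i2] at q3
      calc _ ≤ θ ^ (2 * (j - i)) * (Ck * g i + m⁻¹ * (l * g i)) := by gcongr
        _ = θ ^ (j - i) * ((Ck + m⁻¹ * l) * (θ ^ (j - i) * g i)) := by ring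
        _ ≤ _ := by gcongr
    rw [← sum_mul] at z1
    have z2 : Bk ≤ g j := le_trans (by linarith) (le_sg θ0.le s0 j)
    calc _ ≤ Ck * (g j + (1 - θ)⁻¹ * ((Ck + m⁻¹ * l) * g j)) := by
          gcongr
          exact z1.trans (mul_le_mul_of_nonneg_right (geo θ0.le θ1 _ _) (by positivity))
      _ = _ := by rw [hc₁, hc₂]; ring
  have m0 : 0 < m := by linarith
  have mi : m⁻¹ ≤ 1 := inv_le_one_of_one_le₀ (by linarith)
  have step : ∀ l, 1 ≤ l → S l → S (c + l / 2) := by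
    intro l l1 h j j1 j2
    have key := prof_of (μ := τ ^ 4 * (Ck + c₁) + l * (τ ^ 4 * m⁻¹ * (1 + c₂) + τ⁻¹ ^ 2)) hW2 he.le hCa s0
      (by positivity) (show _ ≤ B by linarith) (r1_le hE (hL K (j1.trans j2) le_rfl).1) A1 A2 ?_ j1 j2
    · refine prof_mono (Rk_pos hW2 j).le key (mul_le_mul_of_nonneg_right ?_ (by linarith [g1 j]))
      rw [← hG, hc]
      have z1 : G * (τ ^ 4 * m⁻¹ * (1 + c₂)) ≤ 1 / 4 := by
        rw [← div_le_one m0] at m4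
        calc _ = τ ^ 4 * (4 * G * (1 + c₂)) / m / 4 := by field_simp
          _ ≤ _ := by linarith
      have z2 : G * τ⁻¹ ^ 2 ≤ 1 / 4 := by
        rw [inv_pow, ← div_eq_mul_inv, div_le_iff₀ (by positivity)]
        nlinarith
      nlinarith
    intro i i1 i2 a a1 a2
    obtain ⟨P', k1, k2⟩ := kp l l1 h i i1 i2
    obtain ⟨y0, y2⟩ := Y0 i i1 i2
    have q2 : Y i ≤ m⁻¹ := by rw [inv_eq_one_div, le_div_iff₀' m0]; exact y2
    have gi := g1 i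
    have z := h1 E _ _ _ τ⁻¹ (bs l l1 h i i1 i2) (inv_pos.2 τ0)
      (by rw [← div_eq_mul_inv, div_le_one τ0, hτ]; nlinarith)
      (by rw [inv_pow]; exact q2.trans (inv_anti₀ (by positivity) m3))
      (by
        rw [inv_pow, ← div_eq_inv_mul, le_div_iff₀' (by positivity)]
        exact (mul_le_mul (m3.trans C2) (Rk_mono hW2 i2) (Rk_pos hW2 i).le (by linarith)).trans hR)
      P' k1 a (by linarith [Rk_pos hW2 i]) a2
    rw [inv_inv] at z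
    have q1 : |gk E.ω' (Rk W i)| + Qq E.ω' (Rk W i) ≤ Ck * g i :=
      (hQ E _ _ (hL i i1 i2).1 (y1 i i1 i2)).trans
        (mul_le_mul_of_nonneg_left (s_le B0 θ0.le s0 i1 i2) (by linarith))
    have q3 : Y i * P' ≤ (c₁ + c₂ * (m⁻¹ * l)) * g i :=
      (mul_le_of_le_one_left k1.1 (q2.trans mi)).trans k2
    have q4 : Y i * (l * g i) ≤ m⁻¹ * (l * g i) := by gcongr
    calc _ ≤ τ ^ 4 * (Ck * g i + m⁻¹ * (l * g i) + (c₁ + c₂ * (m⁻¹ * l)) * g i) + l * g i * τ⁻¹ ^ 2 := by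
          refine z.trans ?_
          gcongr
      _ = _ := by ring
  have fin : S (2 * c + 1) := by
    refine boot (l₀ := Ca * Rk W K ^ 2) c1 (by positivity) (fun a b hab h j j1 j2 =>
      prof_mono (Rk_pos hW2 j).le (h j j1 j2) (mul_le_mul_of_nonneg_right hab (by linarith [g1 j])))
      (fun j j1 j2 => prof_mono (Rk_pos hW2 j).le (A3 _ (r1_le hE (hL j j1 j2).1)) ?_) step
    have := Rk_pos hW2 j
    calc _ ≤ Ca * Rk W K ^ 2 := by gcongr; exact Rk_mono hW2 j2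
      _ ≤ _ := le_mul_of_one_le_right (by positivity) (g1 j)
  obtain ⟨P', z1, z2⟩ := kp _ (by linarith) fin k k1 k2
  refine ⟨_, P', bs _ (by linarith) fin k k1 k2, z1, ?_⟩
  have gk := g1 k
  calc _ ≤ (2 * c + 1) * g k + (c₁ + c₂ * (1 * (2 * c + 1))) * g k := by
        refine add_le_add le_rfl (z2.trans ?_)
        gcongr
    _ = (2 * c + 1 + (c₁ + c₂ * (2 * c + 1))) * g k := by ring
    _ ≤ C * g k := by gcongr

end Crest.Agent.T145.Ev
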