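import Crest.Agent.T145.EvNum_3
import Crest.Agent.T145.FlBas_4

/-!
# Row 145, even sector: DC, the decomposition of the energy star (helper3)
-/

set_option autoImplicit false

namespace Crest.Agent.T145.Ev

open Real Fl N3

namespace Dc3

/-- the exponent count -/
theorem num {t X R a P e ν₀ : ℝ} {ν : ℕ} (ht : 0 < t) (h21 : 21 * t ≤ 1) (hν : 1042 ≤ ν) (e0 : 0 ≤ e)
    (he : ν * e ≤ 21 / 20) (R0 : 0 < R) (P0 : 0 ≤ P) (ha : R * t ^ (22 * ν) ≤ a)
    (hX : 1 ≤ X * t ^ (21 * ν - 2)) (h : a ^ 2 * ν₀ ≤ P * (R / a) ^ e) :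
    21 * X ^ (-(11 / 5 : ℝ)) * ν₀ ≤ P * t ^ (16 + 2 * ν) / R ^ 2 := by
  have hν' : (1042 : ℝ) ≤ ν := by exact_mod_cast hν
  have t1 : t ≤ 1 := by linarith
  have a0 : 0 < a := lt_of_lt_of_le (by positivity) ha
  have X0 : 0 < X := (mul_pos_iff_of_pos_right (by positivity : 0 < t ^ (21 * ν - 2))).1 (by linarith)
  have h1 : X ^ (-(11 / 5 : ℝ)) ≤ t ^ (((21 * ν - 2 : ℕ) : ℝ) * (11 / 5)) := by
    rw [rpow_neg X0.le, ← inv_rpow X0.le, rpow_mul ht.le, rpow_natCast]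
    exact rpow_le_rpow (by positivity) (by rwa [inv_le_iff_one_le_mul₀' X0]) (by norm_num)
  have h2 : R / a ≤ t ^ (-(22 * ν : ℝ)) := by
    rw [rpow_neg ht.le, show (22 * ν : ℝ) = (22 * ν : ℕ) by push_cast; rfl, rpow_natCast,
      div_le_iff₀ a0, ← div_eq_inv_mul, le_div_iff₀ (by positivity)]
    exact ha
  have h3 : ν₀ ≤ P * t ^ (-(22 * ν : ℝ) * e) * t ^ (-(22 * ν : ℝ) * 2) / R ^ 2 := by
    have b1 : (R / a) ^ e ≤ t ^ (-(22 * ν : ℝ) * e) := by
      rw [rpow_mul ht.le]; exact rpow_le_rpow (by positivity) h2 e0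
    have b2 : (R / a) ^ 2 ≤ t ^ (-(22 * ν : ℝ) * 2) := by
      rw [rpow_mul ht.le, rpow_two]; exact pow_le_pow_left₀ (by positivity) h2 2
    calc ν₀ ≤ P * (R / a) ^ e / a ^ 2 := by rwa [le_div_iff₀' (by positivity)]
      _ = P * (R / a) ^ e * (R / a) ^ 2 / R ^ 2 := by field_simp
      _ ≤ _ := by gcongr
  have h4 : t ^ (((21 * ν - 2 : ℕ) : ℝ) * (11 / 5)) * (t ^ (-(22 * ν : ℝ) * e) * t ^ (-(22 * ν : ℝ) * 2)) ≤
      t * t ^ (16 + 2 * ν) := by
    rw [← rpow_add ht, ← rpow_add ht, ← pow_succ', ← rpow_natCast]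
    refine rpow_le_rpow_of_exponent_ge ht t1 ?_
    rw [Nat.cast_sub (by omega)]
    push_cast
    linarith
  calc _ ≤ 21 * X ^ (-(11 / 5 : ℝ)) *
        (P * t ^ (-(22 * ν : ℝ) * e) * t ^ (-(22 * ν : ℝ) * 2) / R ^ 2) := by gcongr
    _ ≤ 21 * t ^ (((21 * ν - 2 : ℕ) : ℝ) * (11 / 5)) *
        (P * t ^ (-(22 * ν : ℝ) * e) * t ^ (-(22 * ν : ℝ) * 2) / R ^ 2) := by gcongr
    _ = P * (21 * (t ^ (((21 * ν - 2 : ℕ) : ℝ) * (11 / 5)) *
        (t ^ (-(22 * ν : ℝ) * e) * t ^ (-(22 * ν : ℝ) * 2)))) / R ^ 2 := by ring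
    _ ≤ P * (21 * (t * t ^ (16 + 2 * ν))) / R ^ 2 := by gcongr
    _ ≤ _ := by
      rw [← mul_assoc 21]
      gcongr
      exact mul_le_of_le_one_left (by positivity) h21

end Dc3

/-- DC -/
theorem dcStmt3 (hL : LowStmt) (hB : BasStmt) : DcStmt := by
  intro w
  obtain ⟨W₀, hL⟩ := hL w
  refine ⟨max W₀ 2, fun p W D₀ hw hW => ?_⟩
  subst hw
  obtain ⟨C, n, C1, hL⟩ := hL p W rfl (le_of_max_le_left hW)
  obtain ⟨P₀, -, hB⟩ := hB p
  have W2 : 2 ≤ W := le_of_max_le_right hW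
  have W2' : (2 : ℝ) ≤ W := by exact_mod_cast W2
  have w0 : (0 : ℝ) ≤ p.w := Nat.cast_nonneg _
  refine ⟨C + 21 + 2 * W + p.w, 22 * nr p.w * n + nr p.w, by linarith,
    fun E R Y P t hE ht hC hY hR => ?_⟩
  have env := hE.ed.toEnv
  have w4 := env.w4
  have hν := nr_ge w4
  have e0 := (ew_pos w4).le
  set ν := nr p.w with hνd
  have C1' : 1 ≤ C + 21 + 2 * W + p.w := by linarith
  have t1 := t_le_one C1' ht hC
  have sm : ∀ {A : ℝ}, A ≤ C + 21 + 2 * W + p.w → ∀ {k : ℕ}, k ≠ 0 → A * t ^ k ≤ 1 :=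
    fun hA _ hk => mul_pow_le C1' ht hC hA hk
  have R1 := hE.maj.1
  have R0 : 0 < R := by linarith
  have P0 : 0 ≤ P := by linarith [hE.P1]
  have r8 : (8 : ℝ) ≤ E.r₁ := by exact_mod_cast hE.r8
  have r24 : (E.r₁ : ℝ) ≤ R * t ^ (24 * ν) := r1_le w4 hE.maj ht t1 hY hE.r1 (by omega)
  have s16 : 16 * (R * t ^ (24 * ν)) ≤ R * t ^ (22 * ν) := by
    have := mul_le_mul_of_nonneg_left (sm (A := 16) (by linarith) (k := 2 * ν) (by omega))
      (by positivity : 0 ≤ R * t ^ (22 * ν))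
    rw [show 24 * ν = 22 * ν + 2 * ν by ring, pow_add]; linarith
  set a := ⌈R * t ^ (22 * ν)⌉₊ with ha
  have a1 : R * t ^ (22 * ν) ≤ a := Nat.le_ceil _
  have a2 : (a : ℝ) ≤ 2 * (R * t ^ (22 * ν)) := by
    linarith [(Nat.ceil_lt_add_one (by positivity : 0 ≤ R * t ^ (22 * ν))).le]
  have a3 : (a : ℝ) ≤ R * t ^ (ν + 1) := by
    have := mul_le_mul_of_nonneg_left (sm (A := 2) (by linarith) (k := 21 * ν - 1) (by omega))
      (by positivity : 0 ≤ R * t ^ (ν + 1))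
    rw [show 22 * ν = ν + 1 + (21 * ν - 1) by omega, pow_add] at a2; linarith
  have a0 : (0 : ℝ) < a := by linarith
  have d1 : ((a / 8 : ℕ) : ℝ) ≤ a / 8 := Nat.cast_div_le
  have d2 : (a : ℝ) ≤ 8 * (a / 8 : ℕ) + 8 := by exact_mod_cast (by omega : a ≤ 8 * (a / 8) + 8)
  have lo : R * t ^ (24 * ν) ≤ (a / 8 : ℕ) := by linarith
  obtain ⟨m, m1, m2⟩ := exists_pow W2 (by exact_mod_cast a0) a3
  have tR : R * t ^ (ν + 1) ≤ R := mul_le_of_le_one_right R0.le (pow_le_one₀ ht.le t1)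
  have wL : ∀ b : ℕ, (b : ℝ) ≤ R → p.w * b ≤ E.L := fun b hb => by
    have h1 := mul_le_mul_of_nonneg_right (sm (A := p.w) (by linarith) (k := 22 * ν * n + ν) (by omega))
      (Nat.cast_nonneg (α := ℝ) E.L)
    have h2 := mul_le_mul_of_nonneg_left (hb.trans hR) w0
    have : (p.w : ℝ) * b ≤ E.L := by linarith
    exact_mod_cast this
  have ra : E.r₁ ≤ a := by exact_mod_cast (by linarith : (E.r₁ : ℝ) ≤ a)
  have up : ∀ j, a ≤ W ^ j * a := fun j => Nat.le_mul_of_pos_left _ (by positivity)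
  obtain ⟨b0, -, b1, b2, b3, -⟩ := hB E.Λ E.ω E.L E.N env 0
  have M1 : 1 ≤ t⁻¹ ^ (22 * ν) := one_le_pow₀ (one_le_inv_iff₀.2 ⟨ht, t1⟩)
  have key : C * (t⁻¹ ^ (22 * ν)) ^ n * t ^ (22 * ν * n + ν) ≤ 1 := by
    rw [mul_assoc, inv_pow_mul ht]; exact sm (by linarith) (by omega)
  have CM : 0 ≤ C * (t⁻¹ ^ (22 * ν)) ^ n := by positivity
  obtain ⟨α₁, α₂, h1, h2⟩ := (hE.epur a m (E.e 0) ra (wL _ (m1.trans tR))
    (b1.mono (by have := env.gd.2.1; have := hE.r0; omega)) b2 b3).2 fun j hj =>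
      hL E.Λ E.ω E.L E.N env R Y (t⁻¹ ^ (22 * ν)) hE.maj hE.crit
        (by
          have := sm (A := 2) (by linarith) (k := 22 * ν) (by omega)
          rwa [inv_pow, le_inv_comm₀ two_pos (by positivity), ← one_div, le_div_iff₀' two_pos])
        ((mul_le_mul_of_nonneg_left hY CM).trans key)
        ((mul_le_mul_of_nonneg_left hR CM).trans (by
          rw [← mul_assoc]; exact mul_le_of_le_one_left (Nat.cast_nonneg _) key)) _
        (by rw [inv_pow, div_inv_eq_mul]; exact a1.trans (by exact_mod_cast up j))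
        (le_trans (by
          exact_mod_cast Nat.mul_le_mul_right a (Nat.pow_le_pow_right (by omega) hj.le))
          ((m1.trans tR).trans (le_mul_of_one_le_left R0.le M1)))
  have pr := hE.prof a (hE.r0.trans ra) (wL _ (a3.trans tR))
  have q1 : 1 ≤ R / a := (one_le_div a0).2 (a3.trans tR)
  rw [max_eq_right (((div_le_one R0).2 (a3.trans tR)).trans q1)] at pr
  have d0 : (0 : ℝ) < (a / 8 : ℕ) := by linarith
  have q2 : R / a ≤ R / (a / 8 : ℕ) := div_le_div_of_nonneg_left R0.le d0 (by linarith)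
  push_cast at m1 m2
  refine ⟨a / 8, W ^ m * a, α₁, α₂, lo, ?_, by have := up m; omega, by push_cast; exact m1,
    by exact_mod_cast r24.trans lo, ?_, ?_⟩
  · have := mul_le_mul_of_nonneg_left (pow_anti ht t1 (show 10 * ν ≤ 22 * ν by omega)) R0.le
    linarith
  · have c1 : (W : ℝ) ^ (ew p.w * m) ≤ (R / a) ^ ew p.w := by
      rw [mul_comm, rpow_mul (by linarith), rpow_natCast]
      exact rpow_le_rpow (by positivity) ((le_div_iff₀ a0).2 (m1.trans tR)) e0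
    have c0 : 0 ≤ max |α₁| |α₂| := le_max_of_le_left (abs_nonneg _)
    calc max |α₁| |α₂| * ((a / 8 : ℕ) : ℝ) ^ 2 ≤ max |α₁| |α₂| * (a : ℝ) ^ 2 :=
          mul_le_mul_of_nonneg_left (pow_le_pow_left₀ d0.le (by linarith) 2) c0
      _ ≤ (W : ℝ) ^ (ew p.w * m) * ((a : ℝ) ^ 2 * nu E.Λ p.w 0 a (E.e 0)) := by
          rw [mul_comm ((a : ℝ) ^ 2), ← mul_assoc]; gcongr
      _ ≤ (R / a) ^ ew p.w * (P * (R / a) ^ ew p.w) :=
          (mul_le_mul_of_nonneg_left pr (by positivity)).trans (by gcongr)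
      _ = P * (R / a) ^ (2 * ew p.w) := by rw [two_mul, rpow_add (by positivity)]; ring
      _ ≤ _ := mul_le_mul_of_nonneg_left ((rpow_le_rpow (by positivity) q2 (by linarith)).trans
          (rpow_le_rpow_of_exponent_le (q1.trans q2) (by linarith))) P0
  · simp only [Dt.e, b0, sub_zero] at h2
    refine h2.trans ?_
    rw [mul_comm (-(11 / 5 : ℝ)), rpow_mul (by linarith), rpow_natCast]
    refine Dc3.num ht (by simpa using sm (A := 21) (by linarith) one_ne_zero) hν e0 (nr_ew_le w4) R0 P0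
      a1 ?_ pr
    have c1 := sm (A := 2 * W) (by linarith) one_ne_zero
    have c2 : R * t ^ (ν + 1) ≤ R * t ^ (ν + 1) * (2 * W * t ^ 1 * ((W : ℝ) ^ m * t ^ (21 * ν - 2))) := by
      have := mul_le_mul_of_nonneg_left a2 (by positivity : 0 ≤ (W : ℝ) ^ (m + 1))
      have e : t ^ (22 * ν) = t ^ (ν + 1) * t ^ 1 * t ^ (21 * ν - 2) := by
        rw [← pow_add, ← pow_add]; congr 1; omega
      rw [e] at this
      calc _ ≤ _ := m2.le.trans this
        _ = _ := by rw [pow_succ (W : ℝ) m]; ring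
    have c3 := le_of_mul_le_mul_left ((mul_one _).trans_le c2) (by positivity)
    exact c3.trans (mul_le_of_le_one_left (by positivity) c1)

end Crest.Agent.T145.Ev
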