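import Crest.Agent.T145.EvDef_2
import Crest.Agent.T145.FlRate_98
import Crest.Agent.T145.FlBas_4

/-!
# Row 145, even sector (helper85): numerics of `nr`, scales, and the decomposition DC
-/

set_option autoImplicit false

namespace Crest.Agent.T145.Ev

open Finset Pot Xi Real Fl

namespace N85

theorem nr_cw {w : ℕ} (hw : 4 ≤ w) : 104 ≤ ((nr w : ℝ) - 2) * cw w ∧ (nr w : ℝ) * cw w ≤ 105 := by
  have h0 := Fl.cw_pos (w := w) (by omega)
  have h1 := Fl.cw_le' hw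
  have h2 : 104 / cw w ≤ ⌈104 / cw w⌉₊ := Nat.le_ceil _
  have h3 : (⌈104 / cw w⌉₊ : ℝ) < 104 / cw w + 1 := Nat.ceil_lt_add_one (by positivity)
  have e : 104 / cw w * cw w = 104 := div_mul_cancel₀ _ h0.ne'
  unfold nr
  push_cast
  constructor <;> nlinarith

/-- `26 ≤ (nr - 1) cw / 4` -/
theorem nr_cw4 {w : ℕ} (hw : 4 ≤ w) : 26 ≤ ((nr w : ℝ) - 1) * (cw w / 4) := by
  have h0 := Fl.cw_pos (w := w) (by omega)
  have := (nr_cw hw).1
  nlinarith

theorem nr_ge {w : ℕ} (hw : 4 ≤ w) : 1040 ≤ nr w := by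
  have h0 := Fl.cw_pos (w := w) (by omega)
  have h1 := Fl.cw_le' hw
  have h2 := (nr_cw hw).1
  have : (1040 : ℝ) ≤ nr w := by
    by_contra h
    push Not at h
    nlinarith
  exact_mod_cast this

theorem nr_ew {w : ℕ} (hw : 4 ≤ w) : (nr w : ℝ) * ew w ≤ 1.05 := by
  have := (nr_cw hw).2
  unfold ew
  linarith

/-- `R⁻¹ ≤ Y` -/
theorem inv_le {p : Par} {Λ : Lat} {L : ℕ} {R Y : ℝ} (h : Maj p Λ L R Y) (hw : 4 ≤ p.w) : R⁻¹ ≤ Y := by
  refine le_trans ?_ h.2.1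
  rw [← rpow_neg_one]
  exact rpow_le_rpow_of_exponent_le h.1 (by linarith [Fl.ew_le' hw])

/-- `R t^k` is still large: `R ≤ (R t^k)²` -/
theorem le_sq {p : Par} {Λ : Lat} {L : ℕ} {R Y t : ℝ} (h : Maj p Λ L R Y) (hw : 4 ≤ p.w) {n k : ℕ}
    (t0 : 0 < t) (t1 : t ≤ 1) (hY : Y ≤ t ^ n) (hk : 2 * k ≤ n) : R ≤ (R * t ^ k) ^ 2 := by
  have R0 : 0 < R := lt_of_lt_of_le one_pos h.1
  have a : R⁻¹ ≤ t ^ (2 * k) := ((inv_le h hw).trans hY).trans (pow_le_pow_of_le_one t0.le t1 hk)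
  have b : 1 ≤ R * t ^ (2 * k) := by
    have := mul_le_mul_of_nonneg_left a R0.le
    rwa [mul_inv_cancel₀ R0.ne'] at this
  calc R = R * 1 := (mul_one _).symm
    _ ≤ R * (R * t ^ (2 * k)) := by gcongr
    _ = _ := by ring

/-- `t^{-1} ≤ R t^k` when `2 (k + 1) ≤ n`; in particular `C ≤ R t^k` -/
theorem big {p : Par} {Λ : Lat} {L : ℕ} {R Y t C : ℝ} (h : Maj p Λ L R Y) (hw : 4 ≤ p.w) {n k : ℕ}
    (t0 : 0 < t) (C1 : 1 ≤ C) (hC : C * t ≤ 1) (hY : Y ≤ t ^ n) (hk : k + 1 ≤ n) : C ≤ R * t ^ k := by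
  have R0 : 0 < R := lt_of_lt_of_le one_pos h.1
  have t1 : t ≤ 1 := by nlinarith
  have a : R⁻¹ ≤ t ^ (k + 1) := ((inv_le h hw).trans hY).trans (pow_le_pow_of_le_one t0.le t1 hk)
  have b : 1 ≤ R * t ^ (k + 1) := by
    have := mul_le_mul_of_nonneg_left a R0.le
    rwa [mul_inv_cancel₀ R0.ne'] at this
  have c : C * t ≤ R * t ^ k * t := by rw [mul_assoc, ← pow_succ]; linarith
  exact le_of_mul_le_mul_right c t0

/-- the first purified scale lies below `R t^k` -/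
theorem r1_le {p : Par} {W : ℕ} {E : Dt} {D₀ R Y P t : ℝ} (h : E.Bs p W D₀ R Y P) {n k : ℕ}
    (t0 : 0 < t) (t1 : t ≤ 1) (hY : Y ≤ t ^ n) (hk : 2 * k ≤ n) : (E.r₁ : ℝ) ≤ R * t ^ k := by
  have a := le_sq h.maj h.ed.w4 t0 t1 hY hk
  have r8 : (8 : ℝ) ≤ E.r₁ := by exact_mod_cast h.r8
  have b : (E.r₁ : ℝ) ^ 2 ≤ (E.r₁ : ℝ) ^ 100 := pow_le_pow_right₀ (by linarith) (by norm_num)
  have R0 : 0 < R := lt_of_lt_of_le one_pos h.maj.1
  exact (pow_le_pow_iff_left₀ (by linarith) (by positivity) two_ne_zero).1 (b.trans (h.r1.trans a))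

/-- the side conditions of the pattern `Xp` for `M = t⁻¹ ^ k` -/
theorem xp_side {C t Y R L : ℝ} {k m n : ℕ} (t0 : 0 < t) (C1 : 1 ≤ C) (hC : C * t ≤ 1) (hn : k * m + 1 ≤ n)
    (hY : Y ≤ t ^ n) (L0 : 0 ≤ L) (hR : R ≤ t ^ n * L) :
    C * (t⁻¹ ^ k) ^ m * Y ≤ 1 ∧ C * (t⁻¹ ^ k) ^ m * R ≤ L := by
  have t1 : t ≤ 1 := by nlinarith
  have a : t ^ n ≤ t ^ (k * m + 1) := pow_le_pow_of_le_one t0.le t1 hn
  have e : C * (t⁻¹ ^ k) ^ m * t ^ (k * m + 1) = C * t := by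
    rw [← pow_mul, pow_succ, inv_pow]; field_simp
  have b : C * (t⁻¹ ^ k) ^ m * t ^ n ≤ 1 := by
    refine le_trans ?_ (e.trans_le hC)
    gcongr
  have c : 0 ≤ C * (t⁻¹ ^ k) ^ m := by positivity
  refine ⟨(mul_le_mul_of_nonneg_left hY c).trans b, (mul_le_mul_of_nonneg_left hR c).trans ?_⟩
  rw [← mul_assoc]
  exact (mul_le_mul_of_nonneg_right b L0).trans_eq (one_mul _)

end N85

open N85

theorem dcStmt85 (hLow : LowStmt) (hB : BasStmt) : DcStmt := fun w => by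
  obtain ⟨W₀, hW⟩ := hLow w
  refine ⟨max W₀ 2, fun p W D₀ hp hW0 => ?_⟩
  obtain ⟨C₁, n₁, C1, hL⟩ := hW p W hp (le_of_max_le_left hW0)
  obtain ⟨P₀, -, hb⟩ := hB p
  have W2 : (2 : ℝ) ≤ W := by exact_mod_cast le_of_max_le_right hW0
  subst hp
  set N := nr p.w with hN
  refine ⟨C₁ + 16 * W + p.w + 21, 23 * N * (n₁ + 2) + 1, by linarith [(Nat.cast_nonneg p.w : (0 : ℝ) ≤ _)],
    fun E R Y P t h t0 hC hY hR => ?_⟩
  have w4 := h.ed.w4
  have w0 : (4 : ℝ) ≤ p.w := by exact_mod_cast w4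
  have N1 : 1040 ≤ N := nr_ge w4
  have Ne : (N : ℝ) * ew p.w ≤ 1.05 := nr_ew w4
  have e0 := Fl.ew_pos (w := p.w) (by omega)
  have tC : C₁ * t ≤ 1 := by nlinarith only [hC, W2, w0, t0]
  have tW : 16 * W * t ≤ 1 := by nlinarith only [hC, C1, w0, t0]
  have tw : p.w * t ≤ 1 := by nlinarith only [hC, C1, W2, t0]
  have t21 : 21 * t ≤ 1 := by nlinarith only [hC, C1, W2, w0, t0]
  have n1 : 2 * (23 * N) ≤ 23 * N * (n₁ + 2) + 1 := by rw [mul_add]; omega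
  have n2 : 23 * N * n₁ + 1 ≤ 23 * N * (n₁ + 2) + 1 := by rw [mul_add]; omega
  generalize 23 * N * (n₁ + 2) + 1 = n at hY hR n1 n2
  have t1 : t ≤ 1 := by linarith
  have R1 : 1 ≤ R := h.maj.1
  have R0 : 0 < R := by linarith
  have P0 : 0 < P := lt_of_lt_of_le one_pos h.P1
  have L0 : (0 : ℝ) ≤ E.L := Nat.cast_nonneg _
  have hr1 : (E.r₁ : ℝ) ≤ R * t ^ (23 * N) := r1_le h t0 t1 hY n1
  have r8 : (8 : ℝ) ≤ E.r₁ := by exact_mod_cast h.r8
  set x := R * t ^ (23 * N) with hx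
  set a := ⌈x⌉₊ with ha
  have a1 : x ≤ a := Nat.le_ceil _
  have a2 : (a : ℝ) ≤ 2 * x := by linarith [Nat.ceil_lt_add_one (show 0 ≤ x by linarith)]
  have a0 : (0 : ℝ) < a := by linarith
  have ra : E.r₁ ≤ a := by exact_mod_cast hr1.trans a1
  -- powers of `t`
  have pw : ∀ i j : ℕ, i + 1 ≤ j → 16 * t ^ j ≤ t ^ i := fun i j hij => by
    have : t ^ j ≤ t ^ (i + 1) := pow_le_pow_of_le_one t0.le t1 hij
    have h2 : 0 < t ^ i := pow_pos t0 _
    rw [pow_succ] at this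
    nlinarith only [this, h2, t21]
  have up0 : 8 * (a : ℝ) ≤ R * t ^ (N + 1) := by
    have := mul_le_mul_of_nonneg_left (pw (N + 1) (23 * N) (by omega)) R0.le
    linarith
  obtain ⟨m, m1, m2⟩ := exists_nat_pow_near (x := R * t ^ (N + 1) / (8 * a)) (y := (W : ℝ))
    ((one_le_div (by positivity)).2 up0) (by linarith)
  rw [le_div_iff₀ (by positivity)] at m1
  rw [div_lt_iff₀ (by positivity)] at m2
  have tN : t ^ (N + 1) ≤ t := by
    simpa using pow_le_pow_of_le_one t0.le t1 (show 1 ≤ N + 1 by omega)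
  have upR : (W : ℝ) ^ m * (8 * a) ≤ R * t := m1.trans (by gcongr)
  have RL : R ≤ E.L := hR.trans (mul_le_of_le_one_left L0 (pow_le_one₀ t0.le t1))
  have hL' : p.w * (W ^ m * (8 * a)) ≤ E.L := by
    have : (p.w : ℝ) * ((W : ℝ) ^ m * (8 * a)) ≤ E.L := by
      calc _ ≤ (p.w : ℝ) * (R * t) := by gcongr
        _ = R * (p.w * t) := by ring
        _ ≤ R * 1 := by gcongr
        _ ≤ _ := by linarith
    exact_mod_cast this
  have W1 : (1 : ℝ) ≤ (W : ℝ) ^ m := one_le_pow₀ (by linarith)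
  have aW : (W : ℝ) ^ m * (8 * a) ≤ R := upR.trans (mul_le_of_le_one_right R0.le t1)
  have aR : 8 * (a : ℝ) ≤ R := (le_mul_of_one_le_left (by positivity) W1).trans aW
  obtain ⟨e1, -, e3, e4, e5, -⟩ := hb E.Λ E.ω E.L E.N h.ed.toEnv 0
  have rg : E.Λ.rg ≤ 8 * a := by have := h.ed.gd.2.1; have := h.r0; omega
  obtain ⟨s1, s2⟩ := xp_side (k := 23 * N) (m := n₁) t0 C1 tC n2 hY L0 hR
  have tk : 0 < t ^ (23 * N) := pow_pos t0 _
  have M2 : 2 ≤ t⁻¹ ^ (23 * N) := by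
    rw [inv_pow, le_inv_comm₀ two_pos tk]
    have := pw 0 (23 * N) (by omega)
    rw [pow_zero] at this
    linarith
  obtain ⟨α₁, α₂, b1, b2⟩ := (h.epur (8 * a) m (E.e 0) (by omega) hL' (e3.mono rg) e4 e5).2 fun j hj => by
    refine hL E.Λ E.ω E.L E.N h.ed.toEnv R Y _ h.maj h.crit M2 s1 s2 _ ?_ ?_
    · rw [inv_pow, div_inv_eq_mul]
      push_cast
      have : (1 : ℝ) ≤ (W : ℝ) ^ j := one_le_pow₀ (by linarith)
      nlinarith only [this, a1, a0]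
    · push_cast
      have : (W : ℝ) ^ j ≤ (W : ℝ) ^ m := pow_le_pow_right₀ (by linarith) hj.le
      calc (W : ℝ) ^ j * (8 * a) ≤ (W : ℝ) ^ m * (8 * a) := by gcongr
        _ ≤ 1 * R := by rw [one_mul]; exact aW
        _ ≤ _ := by gcongr; linarith
  have Wm : 0 < W ^ m := by exact_mod_cast lt_of_lt_of_le one_pos W1
  have d8 : 8 * a / 8 = a := by omega
  rw [d8] at b2
  simp only [Dt.e, e1, sub_zero] at b2
  -- the profile at the scale `8 a`
  have pf := h.prof (8 * a) (by have := h.r0; omega) (le_trans (Nat.mul_le_mul_left _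
    (Nat.le_mul_of_pos_left _ Wm)) hL')
  push_cast at pf
  have q1 : 1 ≤ R / (8 * a) := (one_le_div (by positivity)).2 aR
  rw [max_eq_right (((div_le_one R0).2 aR).trans q1)] at pf
  have q2 : R / (8 * a) ≤ R / a := by gcongr; linarith
  have pf' : nu E.Λ p.w 0 (8 * a) (E.e 0) ≤ P * (R / a) ^ ew p.w / (a : ℝ) ^ 2 := by
    rw [le_div_iff₀ (by positivity)]
    by_cases hn : 0 ≤ nu E.Λ p.w 0 (8 * a) (E.e 0)
    · calc _ ≤ (8 * (a : ℝ)) ^ 2 * nu E.Λ p.w 0 (8 * a) (E.e 0) := by nlinarith only [mul_nonneg hn (sq_nonneg (a : ℝ))]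
        _ ≤ _ := pf.trans (by gcongr)
    · have : 0 ≤ P * (R / a) ^ ew p.w := by positivity
      exact (mul_nonpos_of_nonpos_of_nonneg (not_le.1 hn).le (sq_nonneg _)).trans this
  refine ⟨a, W ^ m * (8 * a), α₁, α₂, ?_, ?_, Nat.le_mul_of_pos_left _ Wm, by push_cast; exact m1,
    ra, ?_, ?_⟩
  · refine le_trans ?_ a1
    exact mul_le_mul_of_nonneg_left (pow_le_pow_of_le_one t0.le t1 (by omega)) R0.le
  · have := mul_le_mul_of_nonneg_left (pw (10 * N) (23 * N) (by omega)) R0.le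
    linarith
  · have c1 : (W : ℝ) ^ (ew p.w * m) ≤ (R / a) ^ ew p.w := by
      rw [mul_comm, rpow_mul (by linarith), rpow_natCast]
      refine rpow_le_rpow (by positivity) ?_ e0.le
      rw [le_div_iff₀ a0]
      nlinarith only [aW, W1, a0]
    calc max |α₁| |α₂| * (a : ℝ) ^ 2 ≤ (W : ℝ) ^ (ew p.w * m) * (P * (R / a) ^ ew p.w / (a : ℝ) ^ 2) *
          (a : ℝ) ^ 2 := by gcongr; exact b1.trans (by gcongr)
      _ = P * ((W : ℝ) ^ (ew p.w * m) * (R / a) ^ ew p.w) := by field_simp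
      _ ≤ P * ((R / a) ^ ew p.w * (R / a) ^ ew p.w) := by gcongr
      _ ≤ _ := by
        rw [← rpow_add (by positivity)]
        gcongr
        · exact q1.trans q2
        · linarith
  · have c1 : ((W : ℝ) ^ m)⁻¹ ≤ t ^ (22 * N - 2) := by
      rw [inv_le_comm₀ (by positivity) (by positivity), inv_le_iff_one_le_mul₀ (by positivity)]
      have e : t ^ (23 * N) = t ^ (N + 1) * t * t ^ (22 * N - 2) := by
        rw [← pow_succ, ← pow_add]; congr 1; omega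
      have f : R * t ^ (N + 1) * 1 ≤ R * t ^ (N + 1) * ((W : ℝ) ^ m * t ^ (22 * N - 2)) := by
        calc R * t ^ (N + 1) * 1 ≤ (W : ℝ) ^ (m + 1) * (8 * a) := by linarith
          _ ≤ (W : ℝ) ^ (m + 1) * (16 * x) := mul_le_mul_of_nonneg_left (by linarith) (by positivity)
          _ = R * t ^ (N + 1) * ((W : ℝ) ^ m * t ^ (22 * N - 2)) * (16 * W * t) := by rw [hx, e]; ring
          _ ≤ R * t ^ (N + 1) * ((W : ℝ) ^ m * t ^ (22 * N - 2)) * 1 := by gcongr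
          _ = _ := mul_one _
      exact le_of_mul_le_mul_left f (by positivity)
    have c2 : (W : ℝ) ^ (-(11 / 5 : ℝ) * m) ≤ t ^ (48 * N + 42) := by
      rw [mul_comm, mul_neg, ← neg_mul, rpow_mul (by linarith), rpow_neg (by linarith), rpow_natCast]
      calc _ ≤ (t ^ (22 * N - 2)) ^ (11 / 5 : ℝ) := rpow_le_rpow (by positivity) c1 (by norm_num)
        _ ≤ _ := by
          rw [← rpow_natCast, ← rpow_mul t0.le, ← rpow_natCast]
          refine rpow_le_rpow_of_exponent_ge t0 t1 ?_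
          have : (1040 : ℝ) ≤ N := by exact_mod_cast N1
          rw [Nat.cast_sub (by omega)]
          push_cast
          linarith
    have c3 : R / a ≤ (t ^ (23 * N))⁻¹ := by
      rw [div_le_iff₀ a0, ← div_eq_inv_mul, le_div_iff₀ tk]
      exact a1
    have c4 : (R / a) ^ ew p.w ≤ (t ^ 25)⁻¹ := by
      refine (rpow_le_rpow (by positivity) c3 e0.le).trans ?_
      rw [inv_rpow tk.le, inv_le_inv₀ (by positivity) (by positivity), ← rpow_natCast t (23 * N),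
        ← rpow_mul t0.le, ← rpow_natCast]
      refine rpow_le_rpow_of_exponent_ge t0 t1 ?_
      push_cast
      linarith
    have c5 : ((a : ℝ) ^ 2)⁻¹ ≤ (x ^ 2)⁻¹ := by gcongr
    calc _ ≤ 21 * (W : ℝ) ^ (-(11 / 5 : ℝ) * m) * (P * (R / a) ^ ew p.w / (a : ℝ) ^ 2) :=
          b2.trans (by gcongr)
      _ ≤ 21 * t ^ (48 * N + 42) * (P * (t ^ 25)⁻¹ * (x ^ 2)⁻¹) := by
          rw [div_eq_mul_inv (P * _)]; gcongr
      _ = P * t ^ (16 + 2 * N) / R ^ 2 * (21 * t) := by rw [hx]; field_simp; ring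
      _ ≤ P * t ^ (16 + 2 * N) / R ^ 2 * 1 := by gcongr
      _ = _ := mul_one _

end Crest.Agent.T145.Ev
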