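import Crest.Agent.T145.EvDef_2
import Crest.Agent.T145.FlSw_22
import Crest.Agent.T145.FlBas_4

/-!
# Row 145, the even sector: the deterministic leaf `DetStmt` (helper91)
-/

set_option autoImplicit false

namespace Crest.Agent.T145.Ev

open Finset Pot Pot.Ha91 Xi Real Fl Fl.Sw22

namespace D91

/-! ## the swept potential -/

/-- the swept potential is smooth, of size `σ (ρ / ℓ)²` -/
theorem sm_sw : ∃ C : ℝ, 0 ≤ C ∧ ∀ (v : Pt → ℝ) (z : Pt) (σ ℓ ρ : ℝ), Sm 3 Set.univ σ ℓ v → 1 ≤ ρ →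
    ρ ≤ ℓ → Sm 3 Set.univ (C * σ * (ρ / ℓ) ^ 2) ρ (sw v z ρ) := by
  obtain ⟨C1, h1, hC1⟩ := sm_chi 3
  refine ⟨2 ^ 3 * 384 * C1, by positivity, fun v z σ ℓ ρ hv hρ hℓ => ?_⟩
  have hρ0 : 0 < ρ := by linarith
  have hℓ0 : 0 < ℓ := by linarith
  have hσ : 0 ≤ σ := (abs_nonneg _).trans (hv.zero (z := z) trivial)
  set u := fun y => v y - Fl.aff v z y with hu
  set K := σ / ℓ ^ 2 with hK
  have hK0 : 0 ≤ K := by positivity
  have h0 : ∀ x, ∀ e ∈ nn, ∀ e' ∈ nn, |difs [e, e'] v x| ≤ K := fun x e he e' he' =>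
    hv [e, e'] (by simp) (by simp [he, he']) x trivial
  have h2 : ∀ n, ∀ x ∈ bl z n, ∀ e ∈ nn, ∀ e' ∈ nn, |difs [e, e'] u x| ≤ K :=
    fun n x _ e he e' he' => by rw [difs_til (by simp)]; exact h0 x e he e' he'
  have h3 : ∀ e ∈ nn, |dif e u z| ≤ K := dif_til (h0 z)
  have h4 : u z = 0 := til_self v z
  set m := ⌊2 * ρ⌋₊ with hm
  have hm1 : (m : ℝ) ≤ 2 * ρ := Nat.floor_le (by positivity)
  have hm2 : 2 * ρ ≤ m + 1 := (Nat.lt_floor_add_one _).le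
  have hm3 : ((m + 6 : ℕ) : ℝ) ≤ 8 * ρ := by push_cast; linarith
  have h5 := h2 (m + 6)
  have h6 : Sm 3 (bl z (m + 6)) (384 * K * ρ ^ 2) ρ u := fun ys h7 h8 x hx => by
    match ys, h7, h8 with
    | [], _, _ =>
      simp only [difs, List.length_nil, pow_zero, div_one]
      calc _ ≤ _ := flat_abs h4 h3 h5 hx
        _ ≤ 6 * (8 * ρ) ^ 2 * K := by gcongr
        _ = _ := by ring
    | [y], _, h8 =>
      simp only [List.length_singleton, pow_one]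
      calc _ ≤ _ := flat_dif h3 h5 (h8 y (by simp)) hx
        _ ≤ 384 * ρ * K := by gcongr; linarith
        _ = _ := by field_simp
    | [y, y'], _, h8 =>
      calc _ ≤ K := h5 x hx y (h8 y (by simp)) y' (h8 y' (by simp))
        _ ≤ 384 * K := by linarith
        _ = _ := by simp only [List.length_cons, List.length_nil]; field_simp
    | [y, y', y''], h7, h8 =>
      rw [difs_til (by simp)]
      calc _ ≤ σ / ℓ ^ 3 := hv _ h7 h8 x trivial
        _ = K / ℓ := by rw [hK]; field_simp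
        _ ≤ 384 * K / ρ := by gcongr; linarith
        _ = _ := by simp only [List.length_cons, List.length_nil]; field_simp
  have h7 : Sm 3 (bl z (m + 6)) C1 ρ fun x => Xi.chi ρ (x - z) := by
    simpa only [sub_eq_add_neg] using (hC1 ρ hρ0).shift (-z) fun _ _ => trivial
  have h8 := h6.mul hρ0 h7 (S := bl z (m + 3)) fun x hx w hw => bl_subset_bl hx (by omega) hw
  have h9 : Sm 3 {x | x ∉ bl z (m + 3)} (2 ^ 3 * (384 * K * ρ ^ 2) * C1) ρ (sw v z ρ) :=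
    (Sm.zero' 3 _ (by positivity) hρ0).congr fun x hx w hw => sup_lc _ z hρ0 hm2 w fun h =>
      hx (bl_subset_bl h (by omega) (mem_bl_comm.1 hw))
  refine (Sm.union h8 h9).mono le_rfl (fun x _ => em _) (le_of_eq ?_) hρ0
  rw [hK]; field_simp

theorem sub_sw {v : Pt → ℝ} {z : Pt} {ρ : ℝ} (hρ : 0 < ρ) {n : ℕ} (hn : (n : ℝ) ≤ ρ) {x : Pt}
    (hx : x ∈ bl z n) : (v - sw v z ρ) x = Fl.aff v z x := by
  rw [Pi.sub_apply, sw, lc_in hρ hn hx, sub_sub_cancel]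

theorem dif_sub_sw {v : Pt → ℝ} {z : Pt} {ρ : ℝ} (hρ : 0 < ρ) {n : ℕ} (hn : (n : ℝ) + 1 ≤ ρ) {x e : Pt}
    (hx : x ∈ bl z n) (he : e ∈ nn) :
    dif e (v - sw v z ρ) x = (e.1 : ℝ) * dif (1, 0) v z + e.2 * dif (0, 1) v z := by
  have h : ((n + 1 : ℕ) : ℝ) ≤ ρ := by exact_mod_cast hn
  rw [dif, sub_sw hρ h (bl_subset_bl hx (by omega) (nn_bl he x)), sub_sw hρ h (bl_mono z (by omega) hx)]
  exact congrFun (Sw22.dif_aff e v z) x

theorem dif_ev_sw {v : Pt → ℝ} {z : Pt} {ρ : ℝ} (hρ : 1 ≤ ρ) (i : Fin 2) :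
    dif (ev i) (v - sw v z ρ) z = dif (ev i) v z := by
  rw [dif_sub_sw (n := 0) (by linarith) (by simpa using hρ) (self_mem_bl _ _) (ev_nn i)]
  fin_cases i <;> simp [ev]

theorem lk_sw {v : Pt → ℝ} {z : Pt} {ρ k : ℝ} (hρ : 0 < ρ) (h : ∀ e ∈ nn, |dif e v z| ≤ k) {n : ℕ}
    (hn : (n : ℝ) + 2 ≤ ρ) : Lk (v - sw v z ρ) z n k 0 := fun y hy e he => by
  constructor
  · rw [dif_sub_sw hρ (by linarith) hy he]
    have h1 := h _ e1_nn
    have h2 := h _ e2_nn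
    rcases mem_nn.1 he with rfl | rfl | rfl | rfl <;> simpa
  · intro e' he'
    have h1 : ((n + 1 : ℕ) : ℝ) + 1 ≤ ρ := by push_cast; linarith
    change |dif e' (v - sw v z ρ) (y + e) - dif e' (v - sw v z ρ) y| ≤ 0
    rw [dif_sub_sw hρ h1 (bl_subset_bl hy (by omega) (nn_bl he y)) he',
      dif_sub_sw hρ h1 (bl_mono z (by omega) hy) he', sub_self, abs_zero]

/-! ## pairings with smeared charges -/

theorem xi_shift {a n d : ℕ} (ha : 1 ≤ a) {c : Pt} (hc : c ∈ bl 0 d) (hn : 2 * a + d ≤ n) (f : Pt → ℝ) :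
    ∑ y ∈ bl 0 n, xi a (y - c) * f y = ∑ w ∈ bl 0 (2 * a), xi a w * f (c + w) := by
  have ha0 : (0 : ℝ) < a := by exact_mod_cast ha
  rw [← sum_subset (bl_subset_bl (r := 2 * a) hc hn) fun y _ hy => by
    rw [show xi a (y - c) = 0 from (chq_xi' ha0 (r := 2 * a) (by simp) c).1 y hy, zero_mul], ← sum_bl]
  simp only [add_sub_cancel_left]

theorem pair {C : ℝ} (hC : ∀ r : ℝ, 1 ≤ r → ∀ D : Finset Pt, ∑ x ∈ D, |xi r x| ≤ C) {a : ℕ} (ha : 1 ≤ a)
    {F : Pt → ℝ} {α β γ B : ℝ} (h : ∀ w ∈ bl 0 (2 * a), |F w - (α + w.1 * β + w.2 * γ)| ≤ B) :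
    |∑ w ∈ bl 0 (2 * a), xi a w * F w - α| ≤ C * B := by
  have ha1 : (1 : ℝ) ≤ a := by exact_mod_cast ha
  have hB : 0 ≤ B := (abs_nonneg _).trans (h 0 (self_mem_bl _ _))
  have e : ∑ w ∈ bl 0 (2 * a), xi a w * F w - α =
      ∑ w ∈ bl 0 (2 * a), xi a w * (F w - (α + w.1 * β + w.2 * γ)) := by
    simp only [mul_sub, mul_add, sum_sub_distrib, sum_add_distrib, ← mul_assoc, ← sum_mul,
      (sy4_xi a).sum_fst, (sy4_xi a).sum_snd, sum_xi (r := a) (n := 2 * a) (by linarith) (by simp)]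
    ring
  rw [e]
  refine (abs_sum_le_sum_abs _ _).trans ((sum_le_sum fun w hw => ?_).trans
    ((sum_mul _ _ _).symm.le.trans (mul_le_mul_of_nonneg_right (hC a ha1 (bl 0 (2 * a))) hB)))
  rw [abs_mul]
  exact mul_le_mul_of_nonneg_left (h w hw) (abs_nonneg _)

theorem add_mem {c w : Pt} {d r n : ℕ} (hc : c ∈ bl 0 d) (hw : w ∈ bl 0 r) (h : r + d ≤ n) :
    c + w ∈ bl 0 n := bl_subset_bl hc h (add_mem_bl.2 hw)

theorem ev_mem (a : ℕ) (i : Fin 2) : (3 * a : ℤ) • ev i ∈ bl 0 (3 * a) ∧ -((3 * a : ℤ) • ev i) ∈ bl 0 (3 * a) := by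
  fin_cases i <;> simp [ev, mem_bl]

theorem pair1 {C : ℝ} (hC : ∀ r : ℝ, 1 ≤ r → ∀ D : Finset Pt, ∑ x ∈ D, |xi r x| ≤ C) {a : ℕ} (ha : 1 ≤ a)
    {v : Pt → ℝ} {z c : Pt} {k₁ k₂ : ℝ} (h : Lk v z (6 * a) k₁ k₂) (hc : c ∈ bl 0 (3 * a)) :
    |∑ w ∈ bl 0 (2 * a), xi a w * v (z + (c + w)) - v z| ≤ C * (10 * a * k₁) ∧
      |∑ w ∈ bl 0 (2 * a), xi a w * v (z + (c + w)) -
        (v z + (c.1 * dif (1, 0) v z + c.2 * dif (0, 1) v z))| ≤ C * (100 * (a : ℝ) ^ 2 * k₂) := by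
  constructor
  · refine pair hC ha (β := 0) (γ := 0) fun w hw => ?_
    have := tay1 (u := v) (z := z) (add_mem (n := 5 * a) hc hw (by omega)) (K := k₁) fun x hx =>
      ⟨(h _ (bl_mono z (by omega) (add_mem_bl.2 hx)) _ e1_nn).1,
        (h _ (bl_mono z (by omega) (add_mem_bl.2 hx)) _ e2_nn).1⟩
    push_cast at this
    simp only [mul_zero, add_zero]
    linarith
  · refine pair hC ha (β := dif (1, 0) v z) (γ := dif (0, 1) v z) fun w hw => ?_
    have := tay2 (u := v) (z := z) (add_mem (n := 5 * a) hc hw (by omega)) (K := k₂)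
      fun x hx e he e' he' => (h _ (bl_mono z (by omega) hx) e he).2 e' he'
    simp only [Prod.fst_add, Prod.snd_add] at this
    push_cast at this
    convert this using 2 <;> ring

theorem fd_sum {a : ℕ} (ha : 1 ≤ a) (i : Fin 2) (v : Pt → ℝ) (z : Pt) :
    ∑ y ∈ bl z (5 * a), fd a i (y - z) * v y =
      ∑ w ∈ bl 0 (2 * a), xi a w * v (z + ((3 * a : ℤ) • ev i + w)) -
        ∑ w ∈ bl 0 (2 * a), xi a w * v (z + (-((3 * a : ℤ) • ev i) + w)) := by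
  rw [← sum_bl, ← xi_shift (n := 5 * a) ha (ev_mem a i).1 (by omega) fun y => v (z + y),
    ← xi_shift (n := 5 * a) ha (ev_mem a i).2 (by omega) fun y => v (z + y), ← sum_sub_distrib]
  exact sum_congr rfl fun y _ => by rw [add_sub_cancel_left, fd, sub_neg_eq_add, sub_mul]

/-! ## summation by parts -/

theorem sum_shift {f : Pt → ℝ} {c e : Pt} {n : ℕ} {D : Finset Pt} (hf : Pot.Sup (bl c n) f) (he : e ∈ nn)
    (hD : bl c (n + 1) ⊆ D) : ∑ z ∈ D, f (z + e) = ∑ x ∈ bl c n, f x := by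
  have h : ∑ z ∈ D, f (z + e) = ∑ x ∈ D.map (Equiv.addRight e).toEmbedding, f x := by
    rw [sum_map]; rfl
  rw [h]
  refine (sum_subset (fun x hx => mem_map.2 ⟨x + -e, hD (bl_subset_bl hx (by omega)
    (nn_bl (neg_nn he) x)), by simp⟩) fun x _ hx => hf x hx).symm

theorem sbp {u : Pt → ℝ} (u' : Pt → ℝ) {c : Pt} {n : ℕ} {D : Finset Pt} (hu : Pot.Sup (bl c n) u)
    (hD : bl c (n + 1) ⊆ D) : ∑ z ∈ D, gr u u' z = E1 (bl c n) u u' := by
  have h1 : ∀ e ∈ nn, ∑ z ∈ D, dif e u z * dif e u' z =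
      ∑ x ∈ bl c n, u x * (2 * u' x - u' (x + e) - u' (x - e)) := fun e he => by
    have a1 := sum_shift (f := fun x => u x * (u' x - u' (x - e))) (fun x hx => by simp [hu x hx]) he hD
    have a2 : ∑ x ∈ bl c n, u x * (u' (x + e) - u' x) = ∑ x ∈ D, u x * (u' (x + e) - u' x) :=
      sum_subset ((bl_mono c (by omega)).trans hD) fun x _ hx => by simp [hu x hx]
    simp only [add_sub_cancel_right] at a1
    simp only [dif, sub_mul (u _), sum_sub_distrib, a1, ← a2]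
    rw [← sum_sub_distrib]
    exact sum_congr rfl fun x _ => by ring
  simp only [gr]
  rw [sum_comm, Fin.sum_univ_two, h1 _ (ev_nn 0), h1 _ (ev_nn 1), ← sum_add_distrib, E1]
  refine sum_congr rfl fun x _ => ?_
  simp only [A0, ev, Matrix.cons_val_zero, Matrix.cons_val_one, sub_eq_add_neg x, Prod.neg_mk, neg_zero]
  ring

end D91

open D91

theorem detStmt : DetStmt := by
  obtain ⟨C1, h1, hC1⟩ := sm_sw
  obtain ⟨C2, h2, hC2⟩ := sum_abs_xi
  refine ⟨1 + C1 + 200 * C2, by positivity, fun v z σ ℓ ρ hv hρ hℓ => ?_,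
    fun v z a k₁ k₂ ha h => ?_, fun u u' c n D hu hD => sbp u' hu hD⟩
  · have hρ0 : 0 < ρ := by linarith
    have hℓ0 : 0 < ℓ := by linarith
    have hσ : 0 ≤ σ := (abs_nonneg _).trans (hv.zero (z := z) trivial)
    refine ⟨(hC1 v z σ ℓ ρ hv hρ (by linarith)).mono le_rfl Set.Subset.rfl ?_ hρ0,
      fun u' => by simp only [gr, dif_ev_sw hρ, and_self], ?_, fun n hn => lk_sw hρ0 (fun e he => ?_) hn⟩
    · have h3 : (ρ / ℓ) ^ 2 ≤ 1 := pow_le_one₀ (by positivity) (by rw [div_le_one hℓ0]; linarith)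
      calc C1 * σ * (ρ / ℓ) ^ 2 ≤ C1 * σ * 1 := by gcongr
        _ ≤ _ := by rw [mul_one]; gcongr; linarith
    · rw [sub_sw (n := 0) hρ0 (by simpa using hρ0.le) (self_mem_bl _ _)]; simp [Fl.aff]
    · refine (hv.one (by norm_num) he trivial).trans ?_
      gcongr
      nlinarith
  · have ha0 : (0 : ℝ) ≤ a := Nat.cast_nonneg a
    have hk₁ : 0 ≤ k₁ := (abs_nonneg _).trans (h z (self_mem_bl _ _) _ e1_nn).1
    have hk₂ : 0 ≤ k₂ := (abs_nonneg _).trans ((h z (self_mem_bl _ _) _ e1_nn).2 _ e1_nn)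
    have b1 : 2 * (C2 * (10 * a * k₁)) ≤ (1 + C1 + 200 * C2) * a * k₁ := by
      have := mul_nonneg ha0 hk₁
      nlinarith [mul_nonneg h1 this, mul_nonneg h2 this]
    have b2 : 2 * (C2 * (100 * (a : ℝ) ^ 2 * k₂)) ≤ (1 + C1 + 200 * C2) * (a : ℝ) ^ 2 * k₂ := by
      have := mul_nonneg (sq_nonneg (a : ℝ)) hk₂
      nlinarith [mul_nonneg h1 this, mul_nonneg h2 this]
    refine ⟨fun i => ?_, ?_⟩
    · obtain ⟨p1, p2⟩ := pair1 hC2 ha h (ev_mem a i).1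
      obtain ⟨q1, q2⟩ := pair1 hC2 ha h (ev_mem a i).2
      have e : (((3 * a : ℤ) • ev i).1 : ℝ) * dif (1, 0) v z + (((3 * a : ℤ) • ev i).2 : ℝ) * dif (0, 1) v z =
          3 * a * dif (ev i) v z := by
        fin_cases i <;> simp [ev]
      simp only [Prod.fst_neg, Prod.snd_neg, Int.cast_neg, neg_mul, ← neg_add, e] at p2 q2
      rw [fd_sum ha]
      rw [abs_le] at *
      rw [abs_le]
      exact ⟨⟨by linarith [p1.1, q1.2], by linarith [p1.2, q1.1]⟩,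
        by linarith [p2.1, q2.2], by linarith [p2.2, q2.1]⟩
    · have p2 := (pair1 hC2 ha h (self_mem_bl 0 (3 * a))).2
      simp only [zero_add, Prod.fst_zero, Prod.snd_zero, Int.cast_zero, zero_mul, add_zero] at p2
      rw [← sum_bl]
      simp only [add_sub_cancel_left]
      linarith [abs_nonneg (∑ w ∈ bl 0 (2 * a), xi a w * v (z + w) - v z)]

end Crest.Agent.T145.Ev
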