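import Crest.Agent.T145.FlKs_11

/-!
# Row 145, even sector: the even kernel theorem in a window, rank two, any references (helper90)
-/

set_option autoImplicit false

namespace Crest.Agent.T145.Ev.K90

open Finset Real Filter Fl Fl.L11

variable {Λ : Lat}

/-- the box norm is a seminorm -/
theorem tri (hΛ : Λ.Ok) {c : ℕ} {X Y Z : Cfg Pt → ℝ} (a b : ℝ) (hX : Nc.In Λ 0 c X) (hY : Nc.In Λ 0 c Y)
    (e : ∀ s, Z s = a * X s + b * Y s) :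
    Nc.In Λ 0 c Z ∧ Nc.Nm Λ 0 c Z ≤ |a| * Nc.Nm Λ 0 c X + |b| * Nc.Nm Λ 0 c Y := by
  have cE : Cen ((Λ.Nr (bl 0 c) 0).W 0) := hΛ.cen_Nr_bl (self_mem_bl _ _)
  obtain rfl : Z = fun s => a * X s + b * Y s := funext e
  refine ⟨(hX.const_mul a).add (hY.const_mul b), ?_⟩
  simp only [Nc.Nm, Nc.EN]
  rw [← Ex_const_mul, ← Ex_const_mul, ← Ex_add ((hX.abs cE.nonneg).const_mul _)
    ((hY.abs cE.nonneg).const_mul _)]
  exact Ex_mono cE.nonneg (((hX.const_mul a).add (hY.const_mul b)).abs cE.nonneg)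
    (((hX.abs cE.nonneg).const_mul _).add ((hY.abs cE.nonneg).const_mul _)) fun s => by
      rw [← abs_mul, ← abs_mul]; exact abs_add_le _ _

theorem Nm_nn (hΛ : Λ.Ok) (c : ℕ) (X : Cfg Pt → ℝ) : 0 ≤ Nc.Nm Λ 0 c X :=
  Ex_nonneg (hΛ.cen_Nr_bl (self_mem_bl _ _)).nonneg fun _ _ => abs_nonneg _

/-- `St R H = e + a · τ + O (A)` in the box of radius `c` -/
def Dec (Λ : Lat) (R c : ℕ) (τ : Fin 2 → Cfg Pt → ℝ) (H : Cfg Pt → ℝ) (e : ℝ) (a : Fin 2 → ℝ) (A : ℝ) :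
    Prop := Nc.In Λ 0 c (fun s => Nc.St Λ 0 R H s - e - (a 0 * τ 0 s + a 1 * τ 1 s)) ∧
  Nc.Nm Λ 0 c (fun s => Nc.St Λ 0 R H s - e - (a 0 * τ 0 s + a 1 * τ 1 s)) ≤ A

/-- replace the eigenfunctions by the references -/
theorem core (hΛ : Λ.Ok) {R c : ℕ} {A B T b n : ℝ} {τ σ : Fin 2 → Cfg Pt → ℝ} (hA : 0 ≤ A) (hb : 0 < b)
    (hτ : ∀ i, Tame (τ i) ∧ Nc.Nm Λ 0 c (τ i) ≤ T) (hσ : ∀ i, Tame (σ i) ∧ ∃ e a, Dec Λ R c τ (σ i) e a A)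
    (hlo : ∀ (a : Fin 2 → ℝ) (e : ℝ),
      b * ‖a‖ ≤ Nc.Nm Λ 0 c (Nc.St Λ 0 R fun s => ∑ i, a i * σ i s - e)) (hAb : 4 * A ≤ b)
    {F : Cfg Pt → ℝ} (hF : Tame F) {e : ℝ} {a : Fin 2 → ℝ} (h : Dec Λ R c τ F e a n) (ha : ‖a‖ ≤ B) :
    ∃ (α : Fin 2 → ℝ) (e' : ℝ),
      Nc.Nm Λ 0 c (Nc.St Λ 0 R fun s => F s - ∑ i, α i * σ i s - e') ≤ n + 8 * A * T * B / b := by
  choose t e₀ u hu using hσ
  have hT : 0 ≤ T := (Nm_nn hΛ _ _).trans (hτ 0).2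
  have iτ : ∀ i, Nc.In Λ 0 c (τ i) := fun i => FlF4.In_tame hΛ _ _ (hτ i).1
  let M : (Fin 2 → ℝ) →ₗ[ℝ] (Fin 2 → ℝ) :=
    { toFun := fun α => α 0 • u 0 + α 1 • u 1
      map_add' := fun x y => by simp only [Pi.add_apply, add_smul]; abel
      map_smul' := fun r x => by simp only [Pi.smul_apply, smul_eq_mul, mul_smul, smul_add, RingHom.id_apply] }
  have le : ∀ (α : Fin 2 → ℝ) i, |α i| ≤ ‖α‖ := fun α i => norm_le_pi_norm α i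
  have ts : ∀ α : Fin 2 → ℝ, Tame fun s => ∑ i, α i * σ i s := fun α =>
    Tame.sum _ fun i _ => (t i).const_mul _
  have st : ∀ α : Fin 2 → ℝ, Nc.St Λ 0 R (fun s => ∑ i, α i * σ i s) =
      fun s => α 0 * Nc.St Λ 0 R (σ 0) s + α 1 * Nc.St Λ 0 R (σ 1) s := fun α => by
    simp only [Fin.sum_univ_two]
    rw [FlF4.St_add hΛ ((t 0).const_mul _) ((t 1).const_mul _), FlF4.St_smul, FlF4.St_smul]
  have rem : ∀ α : Fin 2 → ℝ, Dec Λ R c τ (fun s => ∑ i, α i * σ i s) (α 0 * e₀ 0 + α 1 * e₀ 1) (M α)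
      (2 * A * ‖α‖) := fun α => by
    obtain ⟨k1, k2⟩ := tri hΛ (α 0) (α 1) (hu 0).1 (hu 1).1 (Z := fun s =>
      Nc.St Λ 0 R (fun s => ∑ i, α i * σ i s) s - (α 0 * e₀ 0 + α 1 * e₀ 1) - (M α 0 * τ 0 s + M α 1 * τ 1 s))
      fun s => by simp only [st, M, LinearMap.coe_mk, AddHom.coe_mk, Pi.add_apply, Pi.smul_apply, smul_eq_mul]; ring
    refine ⟨k1, k2.trans ?_⟩
    have := mul_le_mul (le α 0) (hu 0).2 (Nm_nn hΛ _ _) (norm_nonneg _)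
    have := mul_le_mul (le α 1) (hu 1).2 (Nm_nn hΛ _ _) (norm_nonneg _)
    linarith
  have inv : ∀ α : Fin 2 → ℝ, b * ‖α‖ ≤ 4 * T * ‖M α‖ := fun α => by
    obtain ⟨k1, k2⟩ := tri hΛ (M α 0) (M α 1) (iτ 0) (iτ 1) fun _ => rfl
    have k3 := (tri hΛ 1 1 (rem α).1 k1 (Z := fun s => Nc.St Λ 0 R (fun s => ∑ i, α i * σ i s) s -
      (α 0 * e₀ 0 + α 1 * e₀ 1)) fun s => by ring).2
    have k4 := hlo α (α 0 * e₀ 0 + α 1 * e₀ 1)
    rw [FlF4.St_sub hΛ (ts α) (Tame.const _), FlF4.St_const hΛ] at k4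
    have := mul_le_mul (le (M α) 0) (hτ 0).2 (Nm_nn hΛ _ _) (norm_nonneg _)
    have := mul_le_mul (le (M α) 1) (hτ 1).2 (Nm_nn hΛ _ _) (norm_nonneg _)
    have := (rem α).2
    have := mul_le_mul_of_nonneg_right hAb (norm_nonneg α)
    rw [abs_one, one_mul, one_mul] at k3
    linarith
  obtain ⟨α, hα⟩ := LinearMap.injective_iff_surjective.1 ((injective_iff_map_eq_zero M).2 fun α h0 => by
    have := inv α
    rw [h0, norm_zero, mul_zero] at this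
    exact norm_le_zero_iff.1 (le_of_mul_le_mul_left (by simpa using this) hb)) a
  refine ⟨α, e - (α 0 * e₀ 0 + α 1 * e₀ 1), ?_⟩
  rw [FlF4.St_sub hΛ (hF.sub (ts α)) (Tame.const _), FlF4.St_const hΛ, FlF4.St_sub hΛ hF (ts α)]
  refine (tri hΛ 1 (-1) h.1 (rem α).1 fun s => by rw [hα]; ring).2.trans ?_
  have k1 : ‖α‖ ≤ 4 * T * B / b := by
    rw [le_div_iff₀ hb]
    have := inv α
    rw [hα] at this
    nlinarith [mul_le_mul_of_nonneg_left ha hT]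
  have := mul_le_mul_of_nonneg_left k1 hA
  have := (rem α).2
  have := h.2
  rw [abs_neg, abs_one, one_mul, one_mul, show 8 * A * T * B / b = 2 * (A * (4 * T * B / b)) by ring]
  linarith

section env
variable {p : Par} {ω : (Cfg Pt → ℝ) → ℝ} {L N R : ℕ} {X ψ : Cfg Pt → ℝ}

/-- a bounded outer multiplier -/
theorem om_mul_le (h : Env p Λ ω L N) (h0 : p.r₀ ≤ R) (hL : p.w * R ≤ L) (hX : Ins 0 R X)
    (hψ : Ins 0 (4 * R) ψ) (ho : Out (bl 0 R) ψ) {K : ℝ} (hK : ∀ s, |ψ s| ≤ K) :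
    |ω fun s => X s * ψ s| ≤ 2 * K * nu Λ p.w 0 R X := by
  obtain ⟨m, hm, hω⟩ := h.amb 0
  have h2 := A51.four_le h.toGs R
  have h3 := h.le
  have hm' : Nc.Amb Λ m (bl 0 (p.w * R)) := FlF4.amb_mono hm (bl_mono 0 (by omega))
  have hB : bl (0 : Pt) R ⊆ m.A := (bl_mono 0 (by omega)).trans hm.sub
  have k := FlF4.fus1 h.mem.ok hB (A51.ir h.toGs h0 hX) hm' subset_rfl ho hK
  have g := A51.gam_le h.toGs h0 (by omega)
  rw [hω _ ((hX.mono (by omega)).mul (hψ.mono (by omega))).1]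
  simp only [mul_comm (X _)]
  refine (FlF4.abs_ex_le_nc hm.ctr hm.anch hB k.1).trans (k.2.trans ?_)
  rw [mul_comm 2 K, mul_assoc]
  exact mul_le_mul_of_nonneg_left (mul_le_mul_of_nonneg_right g.2 (A51.nu_nonneg h.mem.ok _ _ _ _))
    ((abs_nonneg _).trans (hK 0))

theorem om_sub_mul (h : Env p Λ ω L N) (hX : Ins 0 N X) (hψ : Ins 0 N ψ) (e : ℝ) :
    (ω fun s => (X s - e) * ψ s) = (ω fun s => X s * ψ s) - e * ω ψ := by
  obtain ⟨m, hm, hω⟩ := h.amb 0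
  rw [hω _ ((hX.sub_const e).mul hψ).1, hω _ (hX.mul hψ).1, hω _ hψ.1, ← Ex_const_mul,
    ← Ex_sub (FlF4.ig_tame hm.ctr hm.anch (hX.mul hψ).2) (FlF4.ig_tame hm.ctr hm.anch (hψ.smul e).2)]
  congr 1; funext s; ring

theorem om_one (h : Env p Λ ω L N) : (ω fun _ => 1) = 1 := by
  obtain ⟨m, hm, hω⟩ := h.amb 0
  rw [hω _ (DepG.const _ _), (hm.ctr.cen hm.anch).wt.ex_const]

theorem abs_om_sub (h : Env p Λ ω L N) (h0 : p.r₀ ≤ R) (hL : p.w * R ≤ L) (hX : Ins 0 R X) (e : ℝ) :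
    |ω X - e| ≤ 2 * nu Λ p.w 0 R fun s => X s - e := by
  have h2 := A51.four_le h.toGs R
  have h3 := h.le
  have k1 := om_mul_le h h0 hL (hX.sub_const e) (Ins.const 0 _ 1) (Out.const _ _) (K := 1) fun _ => by simp
  rw [om_sub_mul h (hX.mono (by omega)) (Ins.const 0 _ 1), om_one h] at k1
  simpa using k1

/-- centring in `ω` is optimal up to a factor `3` -/
theorem ctr_le (h : Env p Λ ω L N) (h0 : p.r₀ ≤ R) (hL : p.w * R ≤ L) (hX : Ins 0 R X) (e : ℝ) :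
    nu Λ p.w 0 R (fun s => X s - ω X) ≤ 3 * nu Λ p.w 0 R fun s => X s - e := by
  have h2 := A51.four_le h.toGs R
  have se := ((semiStmt Λ p.w R 0 h.mem.ok (by have := h.gd.2.1; omega)).1 _ (hX.sub_const e)).2.2.2.2 _
    (Ins.const 0 R (ω X - e))
  have k := ((semiStmt Λ p.w R 0 h.mem.ok (by have := h.gd.2.1; omega)).1 _
    (Ins.const 0 R (ω X - e))).2.2.2.1 _ fun _ => abs_om_sub h h0 hL hX e
  have := se.2
  simp only [sub_sub_sub_cancel_right] at this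
  linarith

/-- covariances with bounded outer functions -/
theorem cv_le (h : Env p Λ ω L N) (h0 : p.r₀ ≤ R) (hL : p.w * R ≤ L) (hX : Ins 0 R X)
    (hψ : Ins 0 (4 * R) ψ) (ho : Out (bl 0 R) ψ) (hK : ∀ s, |ψ s| ≤ 2) (e : ℝ) :
    |(ω fun s => X s * ψ s) - ω X * ω ψ| ≤ 8 * nu Λ p.w 0 R fun s => X s - e := by
  have h2 := A51.four_le h.toGs R
  have h3 := h.le
  have k1 := om_mul_le h h0 hL (hX.sub_const e) hψ ho hK
  have k2 := abs_om_sub h h0 hL hX e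
  have k3 : |ω ψ| ≤ 2 := by
    obtain ⟨m, hm, hω⟩ := h.amb 0
    rw [hω _ (hψ.mono (by omega)).1]
    exact (hm.ctr.cen hm.anch).wt.abs_ex_le fun s _ => hK s
  rw [om_sub_mul h (hX.mono (by omega)) (hψ.mono (by omega))] at k1
  have k4 := mul_le_mul k2 k3 (abs_nonneg _) ((abs_nonneg _).trans k2)
  rw [← abs_mul] at k4
  have := abs_sub ((ω fun s => X s * ψ s) - e * ω ψ) ((ω X - e) * ω ψ)
  rw [show (ω fun s => X s * ψ s) - e * ω ψ - (ω X - e) * ω ψ = (ω fun s => X s * ψ s) - ω X * ω ψ by ring]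
    at this
  linarith

end env

/-- the even kernel theorem at scale `r`, modulo constants -/
def Kq (w W : ℕ) (Λ : Lat) (e : ℝ) (r : ℕ) : Prop :=
  (∀ F, Ins 0 r F → EvenF F → ∃ c : ℝ,
    3 * nu Λ w 0 (W * r) (fun s => F s - c) ≤ (W : ℝ) ^ (-2 + e) * nu Λ w 0 r F) ∧
  ∀ σ : Fin 2 → Cfg Pt → ℝ, (∀ i, Ins 0 r (σ i) ∧ EvenF (σ i) ∧ D4 0 (σ i) ∧ ∀ s, |σ i s| ≤ 2) →
    (∀ (a : Fin 2 → ℝ) (c : ℝ),
      (W : ℝ) ^ (-2 - e / 2) * ‖a‖ ≤ 8 * nu Λ w 0 (W * r) fun s => ∑ i, a i * σ i s - c) →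
    ∀ F, Ins 0 r F → EvenF F → D4 0 F → ∃ (a : Fin 2 → ℝ) (c : ℝ),
      3 * nu Λ w 0 (W * r) (fun s => F s - ∑ i, a i * σ i s - c) ≤ (W : ℝ) ^ (-3 + e) * nu Λ w 0 r F

set_option maxHeartbeats 800000 in
theorem keP (hK : Kr.KEvenStmt) (F : Fa) {θ₀ e : ℝ} (h0 : 0 < θ₀) {w : ℕ} (hw : 4 ≤ w) (e0 : 0 < e)
    (e1 : e ≤ 1) : ∀ᶠ W : ℕ in atTop, ∃ δ : ℝ, 0 < δ ∧ ∀ Λ, F.Mem Λ → ∀ l L', Λ.Win θ₀ δ l L' →
      2 - e / 12 ≤ π * Λ.gN l → ∀ r₀ L r : ℕ, Nc.Gd Λ (1 / 400) w r₀ L → r₀ ≤ r → 64 ≤ r →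
      w * (W * r) ≤ L → W * r ≤ L' → L' ≤ 2 * (W * r) → Kq w W Λ e r := by
  obtain ⟨ε, rfl⟩ : ∃ ε, e = 12 * ε := ⟨e / 12, by ring⟩
  obtain ⟨ω, hω⟩ : ∃ ω : ℝ, ω = w ^ 2 + 1 := ⟨_, rfl⟩
  have w4 : (4 : ℝ) ≤ w := by exact_mod_cast hw
  have ω1 : 1 ≤ ω := by nlinarith
  have ε0 : 0 < ε := by linarith
  obtain ⟨W₁, h₂⟩ := hK F θ₀ ε h0 ε0 (by linarith)
  filter_upwards [ev_rp (half_pos ε0) (6147 * ω ^ 5), ev_rp one_pos (max W₁ 1024 * ω)] with W hx hW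
  rw [rpow_one, ← le_div_iff₀ (by linarith)] at hW
  obtain ⟨δ₂, d2, h₂⟩ := h₂ _ ((le_max_left _ _).trans hW) 2 one_le_two
  have k1 := (le_max_right _ _).trans hW
  have W1 : (1 : ℝ) ≤ W := by rw [le_div_iff₀ (by linarith)] at k1; linarith
  have W1' : 1 ≤ W := by exact_mod_cast W1
  refine ⟨δ₂, d2, fun Λ hΛ l L' hw' hg r₀ L r hG a1 r64 a3 a4 a5 => ?_⟩
  have g1 := hG.2.1
  have b1 : 4 * r ≤ w * r := Nat.mul_le_mul_right _ hw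
  have b2 : 4 * (w * r) ≤ w * (w * r) := Nat.mul_le_mul_right _ hw
  have b3 : 4 * (W * r) ≤ w * (W * r) := Nat.mul_le_mul_right _ hw
  have b4 : r ≤ W * r := Nat.le_mul_of_pos_left _ W1'
  have b5 : w * r ≤ w * (W * r) := Nat.mul_le_mul_left _ b4
  have rg : (Λ.rg : ℝ) ≤ r := by exact_mod_cast (by omega : Λ.rg ≤ r)
  have r0 : (0 : ℝ) ≤ r := r.cast_nonneg
  have ok : (gm Λ w W r).Ok (W / ω) := by
    refine ⟨k1, show 2 * (w * r) ≤ w * (w * r) + _ by omega, show 64 ≤ w * (w * r) + _ by omega, ?_, ?_,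
      show 2 * (W * r) ≤ w * (W * r) by omega⟩ <;> simp only [gm] <;> push_cast
    · rw [div_mul_eq_mul_div, div_le_iff₀ (by linarith), mul_assoc]
      gcongr; nlinarith
    · rw [mul_assoc, div_mul_eq_mul_div, ← mul_div_assoc, le_div_iff₀ (by linarith), mul_assoc, mul_left_comm 2]
      refine mul_le_mul_of_nonneg_left ?_ W.cast_nonneg
      nlinarith [mul_nonneg r0 (show (0 : ℝ) ≤ w ^ 2 - 1 by nlinarith), Λ.rg.cast_nonneg (α := ℝ)]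
  obtain ⟨l1, l2⟩ := h₂ Λ hΛ l L' hw' _ ok ⟨a4, by simp only [gm]; exact_mod_cast a5⟩ (by linarith)
  have lo := ok.lo
  have W0 : (0 : ℝ) < W := by linarith
  have V1 : (1 : ℝ) ≤ W / ω := by linarith
  have V0 : (0 : ℝ) < W / ω := by linarith
  have p1 : ω ^ 2 ≤ ω ^ 5 := pow_le_pow_right₀ ω1 (by norm_num)
  have p2 : ω ^ 3 ≤ ω ^ 5 := pow_le_pow_right₀ ω1 (by norm_num)
  have p0 : 1 ≤ ω ^ 2 := one_le_pow₀ ω1
  have ok' := hΛ.ok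
  have ad := fun H (hH : Ins 0 r H) => adm ok' W hG hw a1 (b5.trans a3) hH
  have n0 := A51.nu_nonneg ok' w 0 r
  have hTS : ∀ H, Tame H → (gm Λ w W r).T Λ (Nc.St Λ 0 r H) = Nc.St Λ 0 (W * r) H := fun H hH =>
    St_St ok' b4 hH
  set G := gm Λ w W r with hGm
  have R0 : (0 : ℝ) < G.R := lt_of_lt_of_le (mul_pos V0 (by exact_mod_cast (by have := ok.hr; omega))) lo
  refine ⟨fun H hH he => ⟨G.E Λ (Nc.St Λ 0 r H), ?_⟩, fun σ hσ hlo H hH he h4 => ?_⟩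
  · have := (l2 _ (ad H hH) (Om.even_St he 0 r)).1
    rw [hTS H hH.2] at this
    rw [nu, FlF4.St_sub ok' hH.2 (Tame.const _), FlF4.St_const ok']
    refine (mul_le_mul_of_nonneg_left (this.trans (mul_le_mul_of_nonneg_right
      (dvp (n := 2) W0 ω1 (by push_cast; linarith)) (n0 H))) zero_le_three).trans ?_
    rw [← mul_assoc, ← mul_assoc]
    exact mul_le_mul_of_nonneg_right (L11.ab W1 hx (by linarith) (by linarith)) (n0 H)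
  let τ : Fin 2 → Cfg Pt → ℝ := ![Kr.cs (Kr.hm 0 G.R),
    fun s => (G.R : ℝ) ^ 2 * (G.di 0 s * G.di 0 s) + (G.R : ℝ) ^ 2 * (G.di 1 s * G.di 1 s)]
  have td : ∀ i, Tame fun s => G.di i s * G.di i s := fun i => (Kr.O11.tame_d i).mul (Kr.O11.tame_d i)
  have tτ : ∀ i, Tame (τ i) := Fin.forall_fin_two.2
    ⟨Tame.bdd (Kr.O11.abs_cs _), ((td 0).const_mul _).add ((td 1).const_mul _)⟩
  have cE : Cen ((Λ.Nr (bl 0 (w * (W * r))) 0).W 0) := ok'.cen_Nr_bl (self_mem_bl _ _)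
  have q1 : (1 : ℝ) ≤ W ^ ε := one_le_rpow W1 ε0.le
  have q2 : (W / ω) ^ ε ≤ W ^ ε := rpow_le_rpow V0.le (div_le_self W0.le ω1) ε0.le
  have key : ∀ H, Ins 0 r H → EvenF H → D4 0 H → ∃ c a, ‖a‖ ≤ 8 * (ω ^ 2 * W ^ (-2 + 5 / 4 * ε)) * nu Λ w 0 r H ∧
      Dec Λ (W * r) (w * (W * r)) τ H c a (ω ^ 3 * W ^ (-3 + 3 * ε) * nu Λ w 0 r H) := fun H hH he h4 => by
    obtain ⟨-, c1, c2, c3, c4⟩ := l2 _ (ad H hH) (Om.even_St he 0 r)
    obtain ⟨c3, c5⟩ := c3 (Om.d4_St ok' h4 r)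
    have c6 : G.C Λ (Nc.St Λ 0 r H) (fun t => G.yi (Λ.gN l) 1 t * G.yi (Λ.gN l) 0 t) = 0 := by
      simpa only [mul_comm] using c3
    simp only [Fin.sum_univ_two, c3, c6, ← c5, hTS H hH.2] at c4
    set y := G.C Λ (Nc.St Λ 0 r H) fun t => G.yi (Λ.gN l) 0 t * G.yi (Λ.gN l) 0 t
    set x := 2 * G.lam (Λ.gN l) * G.C Λ (Nc.St Λ 0 r H) (Kr.cs G.eq) with hx'
    have l3 := l1.trans (dvp (n := 2) W0 ω1 (by push_cast; linarith))
    refine ⟨G.E Λ (Nc.St Λ 0 r H) - x * G.E Λ (Kr.cs (Kr.hm 0 G.R)) - y / 2 *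
      ((G.E Λ fun t => G.di 0 t * G.di 0 t) + G.E Λ fun t => G.di 1 t * G.di 1 t), ![x, y / (2 * (G.R : ℝ) ^ 2)],
      (pi_norm_le_iff_of_nonneg (by have := n0 H; positivity)).2 (Fin.forall_fin_two.2 ⟨?_, ?_⟩),
      ((FlF4.In_St ok' (hH.1.mono (bl_mono 0 (by omega))) (by omega) (FlF4.In_tame ok' _ _ hH.2)).sub
        (cE.ig (Tame.const _))).sub (cE.ig (((tτ 0).const_mul _).add ((tτ 1).const_mul _))), ?_⟩
    · change |x| ≤ _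
      rw [hx', abs_mul, abs_mul, abs_two, abs_of_pos (show 0 < G.lam _ from exp_pos _)]
      calc _ ≤ 2 * (ω ^ 2 * W ^ (-2 + 5 / 4 * ε)) * (4 * nu Λ w 0 r H) := by gcongr; exact c1
        _ = _ := by ring
    · change |y / (2 * (G.R : ℝ) ^ 2)| ≤ _
      rw [abs_div, abs_of_pos (show 0 < 2 * (G.R : ℝ) ^ 2 by positivity), div_le_iff₀ (by positivity)]
      refine (c2 0 0).1.trans ?_
      have u1 : (W / ω) ^ ε * (G.r : ℝ) ^ 2 ≤ (W / ω) ^ (-2 + ε) * (G.R : ℝ) ^ 2 := by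
        have : ((W / ω) * G.r) ^ 2 ≤ (G.R : ℝ) ^ 2 := by gcongr
        calc _ = (W / ω) ^ (-2 + ε) * ((W / ω) * G.r) ^ 2 := by
              rw [rpow_add V0, rpow_neg V0.le, rpow_two]; field_simp
          _ ≤ _ := by gcongr
      have u2 : (W / ω) ^ (-2 + ε) ≤ ω ^ 2 * W ^ (-2 + 5 / 4 * ε) :=
        (rpow_le_rpow_of_exponent_le V1 (by linarith)).trans (dvp W0 ω1 (by push_cast; linarith))
      have u3 : 0 ≤ ω ^ 2 * W ^ (-2 + 5 / 4 * ε) * (G.R : ℝ) ^ 2 * nu Λ w 0 r H := by have := n0 H; positivity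
      calc _ ≤ ω ^ 2 * W ^ (-2 + 5 / 4 * ε) * (G.R : ℝ) ^ 2 * nu Λ w 0 r H :=
            mul_le_mul_of_nonneg_right (u1.trans (by gcongr)) (n0 H)
        _ ≤ _ := by linarith
    · refine le_trans (le_of_eq ?_) (c4.trans (mul_le_mul_of_nonneg_right
        (dvp (n := 3) W0 ω1 (by push_cast; linarith)) (n0 H)))
      change Nc.Nm Λ 0 _ _ = Nc.Nm Λ 0 _ _
      congr 1; funext s
      simp only [τ, Matrix.cons_val_zero, Matrix.cons_val_one]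
      field_simp; ring
  have nτ : ∀ i, Nc.Nm Λ 0 (w * (W * r)) (τ i) ≤ 2 * W ^ ε := by
    have c2 := fun i => ((l2 _ (ad _ (Ins.const 0 r 1)) (Om.even_St (EvenF.const 1) 0 r)).2.2.1 i i).2
    refine Fin.forall_fin_two.2 ⟨(cE.wt.ex_le (cE.ig (tτ 0).abs) fun s _ => Kr.O11.abs_cs _ s).trans
      (by linarith), (tri ok' _ _ (cE.ig (td 0)) (cE.ig (td 1)) fun _ => rfl).2.trans ?_⟩
    have c3 : ∀ i, |(G.R : ℝ) ^ 2| * Nc.Nm Λ 0 (w * (W * r)) (fun s => G.di i s * G.di i s) ≤ W ^ ε := fun i => by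
      rw [abs_of_pos (by positivity), ← le_div_iff₀' (by positivity)]
      exact (c2 i).trans (by gcongr)
    linarith [c3 0, c3 1]
  obtain ⟨c, a, a1, a2⟩ := key H hH he h4
  obtain ⟨α, c', k⟩ := core ok' (A := 2 * (ω ^ 3 * W ^ (-3 + 3 * ε))) (b := W ^ (-2 - 12 * ε / 2) / 8)
    (by positivity) (by positivity) (fun i => ⟨tτ i, nτ i⟩) (fun i => ⟨(hσ i).1.2, by
      obtain ⟨c, a, -, a2, a3⟩ := key _ (hσ i).1 (hσ i).2.1 (hσ i).2.2.1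
      refine ⟨c, a, a2, a3.trans ?_⟩
      rw [mul_comm 2]
      exact mul_le_mul_of_nonneg_left (FlF4.nu_le_of_bdd ok' _ _ _ (hσ i).2.2.2) (by positivity)⟩)
    (fun a c => by have := hlo a c; rw [nu] at this; linarith)
    (by
      have := L11.ab (s := -3 + 3 * ε) (t := -2 - 12 * ε / 2) W1 hx (show 64 * ω ^ 3 ≤ _ by nlinarith) (by linarith)
      linarith) hH.2 a2 a1
  refine ⟨α, c', (mul_le_mul_of_nonneg_left k zero_le_three).trans ?_⟩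
  have q3 : (W : ℝ) ^ ε * W ^ (-2 + 5 / 4 * ε) / W ^ (-2 - 12 * ε / 2) = W ^ (33 / 4 * ε) := by
    rw [← rpow_add W0, ← rpow_sub W0]; congr 1; ring
  have q4 : 1 ≤ (W : ℝ) ^ (33 / 4 * ε) := one_le_rpow W1 (by linarith)
  refine le_trans ?_ (mul_le_mul_of_nonneg_right
    (L11.ab (s := -3 + 3 * ε + 33 / 4 * ε) W1 hx le_rfl (by linarith)) (n0 H))
  rw [rpow_add W0 (-3 + 3 * ε)]
  have q5 : 0 ≤ ω ^ 3 * W ^ (-3 + 3 * ε) * nu Λ w 0 r H := by have := n0 H; positivity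
  calc _ = ω ^ 3 * W ^ (-3 + 3 * ε) * nu Λ w 0 r H *
        (3 + 6144 * (ω ^ 2 * (W ^ ε * W ^ (-2 + 5 / 4 * ε) / W ^ (-2 - 12 * ε / 2)))) := by field_simp; ring
    _ ≤ ω ^ 3 * W ^ (-3 + 3 * ε) * nu Λ w 0 r H * (6147 * (ω ^ 2 * W ^ (33 / 4 * ε))) := by
        rw [q3]; gcongr; nlinarith [one_le_mul_of_one_le_of_one_le p0 q4]
    _ = _ := by ring

end Crest.Agent.T145.Ev.K90

namespace Crest.Agent.T145.Ev

open Finset Real Filter Fl Fl.L11 K90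

/-- **KE in a window**: crude contraction of even insertions; rank two relative to any references `σ` whose
matrix against bounded outer functions `ψ` is bounded below -/
theorem keW (hK : Kr.KEvenStmt) (hT : T1mStmt) (F : Fa) {θ₀ e : ℝ} (h0 : 0 < θ₀) (w : ℕ) (e0 : 0 < e)
    (e1 : e ≤ 1) : ∃ W₀ : ℕ, ∀ W : ℕ, W₀ ≤ W → ∃ δ : ℝ, 0 < δ ∧ ∀ l : ℕ, ∃ r₁ : ℕ,
      ∀ (p : Par) Λ ω (L N L' : ℕ), p.F = F → p.w = w → Env p Λ ω L N → Λ.Win θ₀ δ l L' → L ≤ L' →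
        2 - e / 12 ≤ π * Λ.gN l → ∀ r : ℕ, p.r₀ ≤ r → r₁ ≤ r → w * (W * r) ≤ L →
        (∀ H, Ins 0 r H → EvenF H → nu Λ w 0 (W * r) (fun s => H s - ω H) ≤
          (W : ℝ) ^ (-2 + e) * nu Λ w 0 r fun s => H s - ω H) ∧
        ∀ σ ψ : Fin 2 → Cfg Pt → ℝ, (∀ i, Ins 0 r (σ i) ∧ EvenF (σ i) ∧ D4 0 (σ i) ∧ ∀ s, |σ i s| ≤ 2) →
          (∀ j, Ins 0 (4 * (W * r)) (ψ j) ∧ Out (bl 0 (W * r)) (ψ j) ∧ ∀ s, |ψ j s| ≤ 2) →
          (∀ a : Fin 2 → ℝ, (W : ℝ) ^ (-2 - e / 2) * ‖a‖ ≤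
            ‖fun j => (ω fun s => (∑ i, a i * σ i s) * ψ j s) - (ω fun s => ∑ i, a i * σ i s) * ω (ψ j)‖) →
          ∀ H, Ins 0 r H → EvenF H → D4 0 H → ∃ a : Fin 2 → ℝ,
            nu Λ w 0 (W * r) (fun s => H s - ∑ i, a i * σ i s - ω fun s => H s - ∑ i, a i * σ i s) ≤
              (W : ℝ) ^ (-3 + e) * nu Λ w 0 r fun s => H s - ω H := by
  by_cases hw : 4 ≤ w
  swap
  · exact ⟨0, fun _ _ => ⟨1, one_pos, fun _ => ⟨0, fun p _ _ _ _ _ _ hp h => absurd (hp ▸ h.w4) hw⟩⟩⟩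
  obtain ⟨W₀, H⟩ := eventually_atTop.1 ((keP hK F (half_pos h0) hw e0 e1).and (eventually_ge_atTop 1))
  refine ⟨W₀, fun W hW => ?_⟩
  obtain ⟨⟨δ₁, d, h₁⟩, W1⟩ := H W hW
  obtain ⟨δ, ⟨k1, k2⟩, d0⟩ := (((ev_subwin hT F h0 d 0).and (ev_le d)).and self_mem_nhdsWithin).exists
  refine ⟨δ, d0, fun l => ⟨max 64 (⌈l / δ₁⌉₊ + 1), ?_⟩⟩
  rintro p Λ ω L N L' rfl rfl hE hW' hL hg r a b c
  have b3 : 4 * (W * r) ≤ p.w * (W * r) := Nat.mul_le_mul_right _ hw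
  have b4 : r ≤ W * r := Nat.le_mul_of_pos_left _ W1
  have le := hE.le
  obtain ⟨j, j1, j2⟩ := dyad (show 1 ≤ W * r by omega)
  obtain ⟨q1, q2⟩ := h₁ Λ hE.mem l _ (k1 Λ hE.mem l _ hW' j (by omega)
    (Or.inr ⟨hW'.2.1.1.trans (by gcongr), by
      rw [mul_comm, ← div_le_iff₀ d]
      exact (Nat.le_ceil _).trans (by exact_mod_cast (by omega : _ ≤ 2 ^ j))⟩)) hg
    _ _ r hE.gd a (by omega) c j1 j2
  refine ⟨fun H hH he => ?_, fun σ ψ hσ hψ hlo H hH he h4 => ?_⟩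
  · obtain ⟨c', k⟩ := q1 _ (hH.sub_const (ω H)) (he.sub (EvenF.const _))
    simp only [sub_sub] at k
    exact (ctr_le hE (a.trans b4) c (hH.mono b4) _).trans k
  have is : ∀ α : Fin 2 → ℝ, Ins 0 (W * r) fun s => ∑ i, α i * σ i s := fun α =>
    Ins.sum _ fun i _ => ((hσ i).1.mono b4).smul _
  obtain ⟨α, c', k⟩ := q2 σ hσ (fun α c' => (hlo α).trans ((pi_norm_le_iff_of_nonneg
    (by have := A51.nu_nonneg hE.mem.ok p.w 0 (W * r) fun s => ∑ i, α i * σ i s - c'; positivity)).2 fun j =>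
      cv_le hE (a.trans b4) c (is α) (hψ j).1 (hψ j).2.1 (hψ j).2.2 c')) _ (hH.sub_const (ω H))
    (he.sub (EvenF.const _)) (h4.sub (D4.const _ _))
  refine ⟨α, (ctr_le hE (a.trans b4) c ((hH.mono b4).sub (is α)) (ω H + c')).trans (le_trans (le_of_eq ?_) k)⟩
  congr 2; funext s; ring

end Crest.Agent.T145.Ev
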