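import Crest.Agent.T145.KtD_54

/-!
# Row 145 (helper54): the discrete Kosterlitz-Thouless flow, part E (linearisation at the critical orbit)
-/

set_option autoImplicit false

namespace Crest.Agent.T145.KT

open Filter Topology Finset Asymptotics

theorem bigO_of_le {f g : ℕ → ℝ} {s : ℝ} (c : ℝ) (hg : g =O[atTop] pw s)
    (h : ∀ᶠ n in atTop, |f n| ≤ c * g n) : f =O[atTop] pw s :=
  IsBigO.trans (IsBigO.of_bound |c| (h.mono fun n hn => by
    rw [Real.norm_eq_abs, Real.norm_eq_abs, ← abs_mul]; exact hn.trans (le_abs_self _))) hg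

theorem eventually_le_div {f : ℕ → ℝ} {δ τ : ℝ} (hδ : 0 < δ) (hτ : 0 < τ)
    (h : f =O[atTop] pw (-1 - δ)) : ∀ᶠ n : ℕ in atTop, |f n| ≤ τ / n := by
  have h1 : (fun n : ℕ => f n * n) =O[atTop] pw (-δ) :=
    bigO_mul h (s := -1 - δ) (t := 1) (EventuallyEq.isBigO (Eventually.of_forall fun n => (Real.rpow_one _).symm))
      (by linarith)
  have h2 := (bigO_tendsto h1 (by linarith)).abs
  rw [abs_zero] at h2
  filter_upwards [h2.eventually (ge_mem_nhds hτ), eventually_ge_atTop 1] with n hn hn1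
  have : (0 : ℝ) < n := by exact_mod_cast hn1
  rwa [abs_mul, Nat.abs_cast, ← le_div_iff₀ this] at hn

/-- the data of the linearised flow along the critical orbit -/
structure CL (δ : ℝ) (e x y p q A : ℕ → ℝ) : Prop where
  pos : 0 < δ
  lt : δ < 1
  hx : (fun n => x n - 1 / (n : ℝ)) =O[atTop] pw (-1 - δ)
  hy : (fun n => y n - 1 / (n : ℝ)) =O[atTop] pw (-1 - δ)
  he : e =O[atTop] pw (-δ)
  st : ∀ᶠ n in atTop, St (e n) (x n) (y n) (x (n + 1)) (y (n + 1)) ∧
    Ln (e n) (x n) (y n) (p n) (q n) (p (n + 1)) (q (n + 1)) (A n)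
  hA : ∀ s, 0 ≤ s → (fun n => |p n| + |q n|) =O[atTop] pw s → A =O[atTop] pw s

namespace CL
variable {δ : ℝ} {e x y p q A : ℕ → ℝ}

theorem xO (h : CL δ e x y p q A) : x =O[atTop] pw (-1) := by
  simpa using (h.hx.trans (pw_bigO (t := -1) (by linarith [h.pos]))).add inv_bigO

theorem yO (h : CL δ e x y p q A) : y =O[atTop] pw (-1) := by
  simpa using (h.hy.trans (pw_bigO (t := -1) (by linarith [h.pos]))).add inv_bigO

theorem etaO (h : CL δ e x y p q A) : (fun n => |x n| + y n) =O[atTop] pw (-1) :=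
  h.xO.abs_left.add h.yO

theorem wO (h : CL δ e x y p q A) : (fun n => e n + (|x n| + y n)) =O[atTop] pw (-δ) :=
  h.he.add (h.etaO.trans (pw_bigO (by linarith [h.lt])))

theorem pO (h : CL δ e x y p q A) {s : ℝ} (hA : A =O[atTop] pw s) : p =O[atTop] pw s :=
  bigO_of_le 1 hA (h.st.mono fun n hn => by linarith [hn.2.le, abs_nonneg (q n)])

theorem inv_yO (h : CL δ e x y p q A) : (fun n => 1 / y n) =O[atTop] pw 1 := by
  refine bigO_of_le 2 (isBigO_refl (pw 1) atTop) ?_
  filter_upwards [eventually_le_div h.pos (τ := 1 / 2) (by norm_num) h.hy, eventually_ge_atTop 1,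
    h.st] with n hn hn1 hs
  have h0 : (0 : ℝ) < n := by exact_mod_cast hn1
  have h1 := (abs_le.1 hn).1
  have h2 := hs.1.pos
  have h3 : 1 / 2 / (n : ℝ) ≤ y n := by
    have : (1 : ℝ) / n = 2 * (1 / 2 / n) := by ring
    linarith
  rw [abs_of_pos (by positivity), pw, Real.rpow_one, div_le_iff₀ h2]
  rw [div_le_iff₀ h0] at h3
  linarith

/-- one improvement of the growth exponent -/
theorem improve (h : CL δ e x y p q A) {κ s t : ℝ} (hκ : 0 < κ) (hκ1 : κ ≤ 1) (ht : 1 + κ ≤ t)
    (hs : s - δ ≤ t) (hA : A =O[atTop] pw s) : (fun n => |p n| + |q n|) =O[atTop] pw t := by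
  obtain ⟨B, hB, m, -, hm⟩ := bigO_iff.1 (bigO_mul h.he hA (r := t) (by linarith))
  obtain ⟨a, ha⟩ := eventually_atTop.1 ((h.st.and (eventually_le_div h.pos
    (show 0 < κ / 8 by linarith) h.hx)).and ((eventually_le_div h.pos
    (show 0 < κ / 8 by linarith) h.hy).and (eventually_ge_atTop (max 2 m))))
  have ha2 : 2 ≤ a := (le_max_left _ _).trans (ha a le_rfl).2.2
  have hap : (0 : ℝ) < (a : ℝ) ^ t := Real.rpow_pos_of_pos (by exact_mod_cast (show 0 < a by omega)) _
  set S := 10 * B / κ + 2 * (|p a| + |q a|) / (a : ℝ) ^ t with hS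
  have hS1 : 2 * (|p a| + |q a|) ≤ S * (1 * (a : ℝ) ^ t) := by
    rw [hS, one_mul, add_mul, div_mul_cancel₀ _ hap.ne']
    exact le_add_of_nonneg_left (by positivity)
  have := grow (e := e) (x := x) (y := y) (p := p) (q := q) (A := A) (g := fun _ => 1)
    (I := fun _ => True) (S := S) (B := B) hκ hκ1 ht ha2 (fun _ _ _ => trivial)
    (fun _ => zero_le_one) monotone_const
    (fun n n1 _ => by
      obtain ⟨⟨⟨k1, k2⟩, k3⟩, k4, k5⟩ := ha n n1
      refine ⟨k2, k3, k1.pos.le, ?_, k1.e_nonneg, ?_⟩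
      · rw [add_div]; linarith [(abs_le.1 k4).2]
      · rw [one_mul]; exact (le_abs_self _).trans (hm n ((le_max_right _ _).trans k5)))
    (by
      rw [hS, mul_add, mul_div_cancel₀ _ hκ.ne']
      exact le_add_of_nonneg_right (by positivity))
    (by positivity) (by linarith [abs_nonneg (p a), abs_nonneg (q a)])
    (by linarith [abs_nonneg (p a)])
  refine bigO_iff.2 ⟨3 / 2 * S, by positivity, a, by omega, fun n hn => ?_⟩
  obtain ⟨k1, k2⟩ := this n hn trivial
  rw [abs_of_nonneg (by positivity)]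
  linarith

theorem growth (h : CL δ e x y p q A) {κ s : ℝ} (hκ : 0 < κ) (hκ1 : κ ≤ 1)
    (h0 : (fun n => |p n| + |q n|) =O[atTop] pw s) : A =O[atTop] pw (1 + κ) := by
  have key : ∀ k : ℕ, (fun n => |p n| + |q n|) =O[atTop] pw (1 + κ + k * δ) →
      A =O[atTop] pw (1 + κ) := by
    intro k
    induction k with
    | zero => intro h1; exact h.hA _ (by linarith) (by simpa using h1)
    | succ k ih =>
      intro h1
      have := mul_nonneg (Nat.cast_nonneg (α := ℝ) k) h.pos.le
      refine ih (h.improve hκ hκ1 (by linarith) ?_ (h.hA _ ?_ h1)) <;> push_cast <;> linarith [h.pos]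
  obtain ⟨k, hk⟩ := exists_nat_ge ((s - (1 + κ)) / δ)
  rw [div_le_iff₀ h.pos] at hk
  exact key k (h0.trans (pw_bigO (by linarith)))

theorem da (h : CL δ e x y p q A) {s : ℝ} (hA : A =O[atTop] pw s) :
    (fun n => (x (n + 1) * p (n + 1) - y (n + 1) * q (n + 1)) - (x n * p n - y n * q n))
      =O[atTop] pw (s - 1 - δ - 1) := by
  have h1 := bigO_mul (bigO_mul h.wO (bigO_mul h.etaO h.etaO le_rfl) le_rfl) hA
    (r := s - 1 - δ - 1) (by linarith)
  refine bigO_of_le 8 h1 ?_
  filter_upwards [h.st, (bigO_tendsto h.wO (by linarith [h.pos])).eventually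
    (ge_mem_nhds (show (0 : ℝ) < 1 / 100 by norm_num))] with n hn hw
  exact (hn.2.da hn.1 le_rfl hw).trans (le_of_eq (by ring))

/-- if the invariant is `O(n^(t-1))` then the solution is `O(n^t)` -/
theorem of_inv (h : CL δ e x y p q A) {s t : ℝ} (ht : -1 ≤ t) (hs : s - δ ≤ t)
    (hA : A =O[atTop] pw s) (ha : (fun n => x n * p n - y n * q n) =O[atTop] pw (t - 1)) :
    (fun n => |p n| + |q n|) =O[atTop] pw t := by
  have h1 : (fun n => p (n + 1) - p n + 2 * y n * q n) =O[atTop] pw (t - 1) :=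
    bigO_of_le 1 (bigO_mul (bigO_mul h.he h.etaO le_rfl) hA (by linarith))
      (h.st.mono fun n hn => by rw [one_mul]; exact hn.2.hp)
  have h2 := bigO_mul h.hx (h.pO hA) (r := t - 1) (by linarith)
  have hp : p =O[atTop] pw t := damp ht (((h1.add (ha.const_mul_left 2)).sub
    (h2.const_mul_left 2)).congr_left fun n => by ring)
  have hq : q =O[atTop] pw t := by
    have h3 := bigO_mul ((bigO_mul h.xO hp (r := t - 1) (by linarith)).sub ha) h.inv_yO (r := t)
      (by linarith)
    refine EventuallyEq.trans_isBigO (h.st.mono fun n hn => ?_) h3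
    have := hn.1.pos
    field_simp; ring
  exact hp.abs_left.add hq.abs_left

/-- the invariant converges, the growth is linear, and a vanishing limit forces decay -/
theorem main (h : CL δ e x y p q A) {s : ℝ} (h0 : (fun n => |p n| + |q n|) =O[atTop] pw s) :
    ∃ a, Tendsto (fun n => x n * p n - y n * q n) atTop (𝓝 a) ∧
      (fun n => x n * p n - y n * q n - a) =O[atTop] pw (-δ) ∧ A =O[atTop] pw 1 ∧
      (a = 0 → Tendsto (fun n => |p n| + |q n|) atTop (𝓝 0)) := by
  have hδ := h.pos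
  have hδ1 := h.lt
  have h1 := h.growth (κ := δ / 2) (by linarith) (by linarith) h0
  obtain ⟨a, ha, ha'⟩ := cauchy_of_diff (f := fun n => x n * p n - y n * q n) (by linarith) (h.da h1)
  have h2 : (fun n => x n * p n - y n * q n) =O[atTop] pw (1 - 1) := by
    simpa using (ha'.trans (pw_bigO (t := 1 - 1) (by linarith))).add (one_bigO (by linarith) a)
  have h3 : A =O[atTop] pw 1 := h.hA 1 zero_le_one (h.of_inv (by linarith) (by linarith) h1 h2)
  have key : ∀ s, s - 1 - δ < 0 → A =O[atTop] pw s →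
      (fun n => x n * p n - y n * q n - a) =O[atTop] pw (s - 1 - δ) := fun s hs hA => by
    obtain ⟨a', hb, hb'⟩ := cauchy_of_diff (f := fun n => x n * p n - y n * q n) hs (h.da hA)
    rwa [tendsto_nhds_unique ha hb]
  refine ⟨a, ha, by simpa using key 1 (by linarith) h3, h3, ?_⟩
  rintro rfl
  have it : ∀ k : ℕ, ∀ s, 0 ≤ s → s ≤ 1 → s < (k + 1) * δ → A =O[atTop] pw s →
      Tendsto (fun n => |p n| + |q n|) atTop (𝓝 0) := by
    have step : ∀ s, 0 ≤ s → s ≤ 1 → A =O[atTop] pw s →
        (fun n => |p n| + |q n|) =O[atTop] pw (s - δ) := fun s s0 s1 hA =>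
      h.of_inv (by linarith) le_rfl hA (by
        rw [show s - δ - 1 = s - 1 - δ by ring]; simpa using key s (by linarith) hA)
    intro k
    induction k with
    | zero => intro s s0 s1 s2 hA; exact bigO_tendsto (step s s0 s1 hA) (by simp at s2; linarith)
    | succ k ih =>
      intro s s0 s1 s2 hA
      rcases lt_or_ge (s - δ) 0 with hl | hl
      · exact bigO_tendsto (step s s0 s1 hA) hl
      · exact ih (s - δ) hl (by linarith) (by push_cast at s2; linarith) (h.hA _ hl (step s s0 s1 hA))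
  obtain ⟨k, hk⟩ := exists_nat_ge (1 / δ)
  rw [div_le_iff₀ hδ] at hk
  exact it k 1 zero_le_one le_rfl (by linarith) h3

end CL

end Crest.Agent.T145.KT
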