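import Crest.Agent.T145.KtC_54
import Crest.Agent.T145.KtE_54

/-!
# Row 145 (helper54): the discrete Kosterlitz-Thouless flow, part G
(finite horizons: Riccati comparison, infinite slope, exit, linear bounds with memory)
-/

set_option autoImplicit false

namespace Crest.Agent.T145.KT

open Filter Topology Finset Asymptotics

theorem St.eta_le' {e x y x' y' w : ℝ} (h : St e x y x' y') (hw : e + (|x| + y) ≤ w)
    (hw1 : w ≤ 1 / 100) : |x'| + y' ≤ (|x| + y) * (1 + 3 * (|x| + y)) := by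
  have h1 := h.abs_dx hw hw1
  have h2 := (abs_le.1 (h.abs_dy hw hw1)).2
  have h3 : |x'| ≤ |x| + |x' - x| := by simpa using abs_add_le x (x' - x)
  have hp := h.pos
  have := abs_nonneg x
  nlinarith [mul_nonneg this hp.le, mul_nonneg this this]

/-- `(u, v) = (∂ x, ∂ log y)` form of the linearised step implies the `(p, q)` form -/
theorem Ln.of_uv {e x y x' y' u v u' v' B w : ℝ} (s : St e x y x' y') (hw : e + (|x| + y) ≤ w)
    (hw1 : w ≤ 1 / 100) (hB : 0 ≤ B) (hu : |u' - u + 2 * y ^ 2 * v| ≤ w * (|x| + y) ^ 2 * B)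
    (hv : |v' - v + u| ≤ w * (|x| + y) * B) :
    Ln (2 * w) x y u (y * v) u' (y' * v') (|u| + |y * v| + (|x| + y) * B) := by
  have hy := s.pos
  have hx0 := abs_nonneg x
  have he := s.e_nonneg
  have h2 := s.dy hw hw1
  have h4 := s.abs_dy hw hw1
  obtain ⟨η, hη⟩ : ∃ η, η = |x| + y := ⟨_, rfl⟩
  rw [← hη] at hw hu hv h2 h4 ⊢
  have hη0 : 0 ≤ η := by linarith
  have hw0 : 0 ≤ w := by linarith
  have u0 := abs_nonneg u
  have v0 := abs_nonneg (y * v)
  have c1 : 0 ≤ w * η * |u| := by positivity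
  have c2 : 0 ≤ w * η * |y * v| := by positivity
  have c3 : 0 ≤ w * η * (η * B) := by positivity
  refine ⟨?_, ?_, le_add_of_nonneg_right (by positivity)⟩
  · rw [← hη, show u' - u + 2 * y * (y * v) = u' - u + 2 * y ^ 2 * v by ring]
    linarith
  · rw [← hη, show y' * v' - y * v + x * (y * v) + y * u =
      (y' - y + x * y) * v - (y' - y) * u + y' * (v' - v + u) by ring]
    have b1 : |(y' - y + x * y) * v| ≤ 2 * w * η * |y * v| := by
      rw [abs_mul, abs_mul, abs_of_pos hy, ← mul_assoc]; gcongr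
    have b2 : |(y' - y) * u| ≤ 102 / 100 * η * w * |u| := by
      rw [abs_mul]; exact mul_le_mul_of_nonneg_right (h4.trans (by gcongr; linarith)) u0
    have b3 : |y' * (v' - v + u)| ≤ 2 * η * (w * η * B) := by
      rw [abs_mul, abs_of_pos s.pos']
      refine mul_le_mul ?_ hv (abs_nonneg _) (by positivity)
      have : η * y ≤ (1 / 100) * η := by gcongr <;> linarith
      linarith [(abs_le.1 h4).2]
    have := abs_le.1 b1
    have := abs_le.1 b2
    have := abs_le.1 b3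
    rw [abs_le]; constructor <;> linarith

/-- Riccati comparison on a finite horizon -/
theorem ric {e x y : ℕ → ℝ} {a N : ℕ} {w κ τ : ℝ} (ha : 1 ≤ a) (hw : w ≤ 1 / 100) (hκ : κ ≤ 1 / 20)
    (hτ : τ ≤ 1 / 2) (hτ' : 8 * κ + 3 * w ≤ τ) (hxa : 0 < x a) (h0 : |1 / x a - a| ≤ τ * a)
    (h : ∀ n, a ≤ n → n < N → St (e n) (x n) (y n) (x (n + 1)) (y (n + 1)) ∧
      e n + (|x n| + y n) ≤ w ∧ |x n ^ 2 - y n ^ 2| ≤ κ / (n : ℝ) ^ 2) :
    ∀ n, a ≤ n → n ≤ N → 0 < x n ∧ |1 / x n - n| ≤ τ * n := by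
  intro n hn
  induction n, hn using Nat.le_induction with
  | base => exact fun _ => ⟨hxa, h0⟩
  | succ n hn ih =>
    intro hN
    obtain ⟨i1, i2⟩ := ih (by omega)
    obtain ⟨s, h1, h2⟩ := h n hn (by omega)
    have hn0 : (1 : ℝ) ≤ n := by exact_mod_cast ha.trans hn
    have hκ0 : 0 ≤ κ := by
      have := (abs_nonneg _).trans h2
      by_contra hc
      exact absurd this (not_le.2 (div_neg_of_neg_of_pos (not_le.1 hc) (by positivity)))
    have h3 : κ / (n : ℝ) ^ 2 ≤ 4 * κ * x n ^ 2 := by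
      have a1 : 1 / x n ≤ 2 * n := by nlinarith [(abs_le.1 i2).2]
      rw [div_le_iff₀ i1] at a1
      have a2 : 1 ≤ (2 * n * x n) ^ 2 := one_le_pow₀ a1
      rw [div_le_iff₀ (by positivity)]
      nlinarith
    obtain ⟨r1, r2⟩ := s.ricc i1 h1 hw (h2.trans h3) (by linarith)
    refine ⟨r1, ?_⟩
    have := abs_le.1 r2
    have := abs_le.1 i2
    push_cast
    rw [abs_le]; constructor <;> linarith

theorem close_of_inv {x y t τ κ : ℝ} (ht : 0 < t) (hx : 0 < x) (hτ : τ ≤ 1 / 2) (hκ : 0 ≤ κ)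
    (h : |1 / x - t| ≤ τ * t) (hD : |x ^ 2 - y ^ 2| ≤ κ / t ^ 2) (hκτ : κ ≤ τ) :
    |x - 1 / t| ≤ 2 * τ / t ∧ y ≤ (1 + 3 * τ) / t := by
  have hτ0 : 0 ≤ τ := hκ.trans hκτ
  have h1 := abs_le.1 h
  have h2 : (1 - τ) * t * x ≤ 1 := by rw [← le_div_iff₀ hx]; linarith
  have h3 : 1 ≤ (1 + τ) * t * x := by rw [← div_le_iff₀ hx]; linarith
  have h4 : 0 < t * x := by positivity
  have h5 : |t * x - 1| ≤ 2 * τ := by rw [abs_le]; constructor <;> nlinarith
  constructor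
  · rw [show x - 1 / t = (t * x - 1) / t by field_simp, abs_div, abs_of_pos ht]; gcongr
  · rw [le_div_iff₀ ht]
    refine (abs_le_of_sq_le_sq' ?_ (by positivity)).2
    have h6 := (abs_le.1 hD).1
    have h7 : y ^ 2 * t ^ 2 ≤ x ^ 2 * t ^ 2 + κ := by
      have := mul_le_mul_of_nonneg_right (show y ^ 2 ≤ x ^ 2 + κ / t ^ 2 by linarith) (sq_nonneg t)
      rwa [add_mul, div_mul_cancel₀ _ (by positivity)] at this
    have h8 : (t * x) ^ 2 ≤ (1 + 2 * τ) ^ 2 := by gcongr; linarith [(abs_le.1 h5).2]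
    nlinarith

variable {C δ : ℝ}

/-- upper bound for a rough orbit in terms of its limit -/
theorem sup_upper (hC : 0 ≤ C) (hδ : 0 < δ) (hδ1 : δ < 1) {ε : ℝ} (hε : om C δ ε ≤ 1 / 1000)
    {a : ℕ} (ha : 1 ≤ a) : ∃ C', ∀ (x y : ℕ → ℝ) (L : ℝ),
      (∀ j, a ≤ j → Step C δ x y j ∧ |x j| + y j ≤ ε) → (∀ j, a ≤ j → 1 / (2 * (j : ℝ)) ≤ x j) →
      Tendsto x atTop (𝓝 L) → ∀ n, 2 * a ≤ n → L * n ≤ 1 / 4 →
        x n ≤ 1 / n + 40 * L ^ 2 * n + C' * (n : ℝ) ^ (-1 - δ) := by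
  refine ⟨5 * (63 * ((C + 1) * 15 ^ δ) * ks (1 - δ) + 2 * a), fun x y L h hx hL n hn hLn => ?_⟩
  have hj0 : ∀ j, a ≤ j → (0 : ℝ) < j := fun j hj => by exact_mod_cast (show 0 < j by omega)
  have hxp : ∀ j, a ≤ j → 0 < x j := fun j hj =>
    lt_of_lt_of_le (by have := hj0 j hj; positivity) (hx j hj)
  obtain ⟨L', hL0, hL', -, hs⟩ := sup hC hδ.le (hε.trans (by norm_num)) h fun j hj => (hxp j hj).le
  obtain rfl : L' = L := tendsto_nhds_unique hL' hL
  set w : ℕ → ℝ := fun n => om C δ (min ε (3 * x n)) with hw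
  have hm0 : ∀ j, a ≤ j → 0 ≤ min ε (3 * x j) := fun j hj =>
    le_min ((h j hj).1.eta_pos.le.trans (h j hj).2) (by linarith [hxp j hj])
  have hw1 : ∀ j, a ≤ j → w j ≤ 1 / 1000 := fun j hj =>
    (om_mono hC hδ.le (hm0 j hj) (min_le_left _ _)).trans hε
  have hw0 : ∀ j, a ≤ j → 0 ≤ w j := fun j hj => om_nonneg hC (hm0 j hj)
  have hr : ∀ j, a ≤ j → j ≤ n → |1 / x (j + 1) - 1 / x j - 1| ≤ 8 * (L' * n) ^ 2 + 63 * w j := by
    intro j hj hjn
    have p := hxp j hj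
    have a1 : 1 ≤ 2 * n * x j := by
      have := hx j hj
      rw [div_le_iff₀ (by have := hj0 j hj; positivity)] at this
      have : (j : ℝ) ≤ n := by exact_mod_cast hjn
      nlinarith
    have a2 : L' ^ 2 ≤ 4 * (L' * n) ^ 2 * x j ^ 2 := by
      have := mul_le_mul_of_nonneg_left (one_le_pow₀ (n := 2) a1) (sq_nonneg L')
      linarith
    have a3 : |x j ^ 2 - y j ^ 2| ≤ (4 * (L' * n) ^ 2 + 30 * w j) * x j ^ 2 := by
      have b1 := abs_le.1 (hs j hj).2.2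
      have b2 : 30 * w j * x j * (x j - L') ≤ 30 * w j * x j * x j := by
        have := hw0 j hj
        gcongr; linarith
      have := sq_nonneg L'
      simp only [hw] at *
      rw [abs_le]; constructor <;> nlinarith
    have a4 : (L' * n) ^ 2 ≤ (1 / 4) ^ 2 := by gcongr
    have := (St.ricc (h j hj).1 p ((h j hj).1.w_le hC hδ.le
      (le_min (h j hj).2 ((hs j hj).2.1 j le_rfl))) ((hw1 j hj).trans (by norm_num)) a3
      (by linarith [hw1 j hj])).2
    simp only [hw] at *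
    linarith
  have a4 : (L' * n) ^ 2 ≤ (1 / 4) ^ 2 := by gcongr
  have hlin : ∀ j, a ≤ j → j ≤ n → 2 / 5 * ((j : ℝ) - a) ≤ 1 / x j := by
    intro j hj
    induction j, hj using Nat.le_induction with
    | base => intro _; simpa using (hxp a le_rfl).le
    | succ j hj ih =>
      intro hjn
      have := (abs_le.1 (hr j hj (by omega))).1
      have := hw1 j hj
      have := ih (by omega)
      push_cast; linarith
  have hx5 : ∀ j, 2 * a ≤ j → j ≤ n → x j ≤ 5 / j := fun j h1 h2 => by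
    have := hlin j (by omega) h2
    have h3 : (2 * a : ℝ) ≤ j := by exact_mod_cast h1
    have p := hxp j (by omega)
    rw [le_div_iff₀ p] at this
    rw [le_div_iff₀ (hj0 j (by omega))]
    nlinarith
  have hwj : ∀ j, 2 * a ≤ j → j ≤ n → w j ≤ (C + 1) * 15 ^ δ * (j : ℝ) ^ (1 - δ - 1) := by
    intro j h1 h2
    have h3 : a ≤ j := by omega
    refine (om_le hδ1.le hδ.le (hm0 j h3) (((le_om hC (hm0 j h3)).trans (hw1 j h3)).trans
      (by norm_num))).trans ?_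
    have e : (15 : ℝ) ^ δ * (j : ℝ) ^ (1 - δ - 1) = (15 / j) ^ δ := by
      rw [Real.div_rpow (by norm_num) (hj0 j h3).le, show 1 - δ - 1 = -δ by ring,
        Real.rpow_neg (hj0 j h3).le, div_eq_mul_inv]
    rw [mul_assoc, e]
    refine mul_le_mul_of_nonneg_left (Real.rpow_le_rpow (hm0 j h3) ((min_le_right _ _).trans ?_) hδ.le)
      (by linarith)
    have := hx5 j h1 h2
    rw [show (15 : ℝ) / j = 3 * (5 / j) by ring]; linarith
  have key : ∀ j, 2 * a ≤ j → j ≤ n → (j : ℝ) - 2 * a - 8 * (L' * n) ^ 2 * j -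
      63 * ((C + 1) * 15 ^ δ) * ks (1 - δ) * (j : ℝ) ^ (1 - δ) ≤ 1 / x j := by
    intro j hj
    induction j, hj using Nat.le_induction with
    | base =>
      intro _
      have := (one_div_pos.2 (hxp (2 * a) (by omega))).le
      have := ks_pos (show 1 - δ ≠ 0 by linarith)
      have : 0 ≤ 63 * ((C + 1) * 15 ^ δ) * ks (1 - δ) * ((2 * a : ℕ) : ℝ) ^ (1 - δ) := by positivity
      have : 0 ≤ 8 * (L' * n) ^ 2 * ((2 * a : ℕ) : ℝ) := by positivity
      push_cast at *; linarith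
    | succ j hj ih =>
      intro hjn
      have b1 := (abs_le.1 (hr j (by omega) (by omega))).1
      have b2 := hwj j hj (by omega)
      have b3 := le_ks_pos (t := j) (show 0 < 1 - δ by linarith) (by exact_mod_cast (show 1 ≤ j by omega))
      have b4 := mul_le_mul_of_nonneg_left b3 (show 0 ≤ (C + 1) * 15 ^ δ by positivity)
      have := ih (by omega)
      push_cast; linarith
  have k1 := key n hn le_rfl
  have k2 := hx5 n hn le_rfl
  have p := hxp n (by omega)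
  have n0 := hj0 n (by omega)
  have n1 : (1 : ℝ) ≤ (n : ℝ) ^ (1 - δ) := Real.one_le_rpow (by exact_mod_cast (show 1 ≤ n by omega))
    (by linarith)
  set E := 63 * ((C + 1) * 15 ^ δ) * ks (1 - δ) with hE
  have hE0 : 0 ≤ E := by have := ks_pos (show 1 - δ ≠ 0 by linarith); positivity
  have k3 : (n : ℝ) - 1 / x n ≤ 8 * (L' * n) ^ 2 * n + (E + 2 * a) * (n : ℝ) ^ (1 - δ) := by
    have : (2 * a : ℝ) * 1 ≤ 2 * a * (n : ℝ) ^ (1 - δ) := by gcongr
    linarith
  have e1 : x n - 1 / n = ((n : ℝ) - 1 / x n) * (x n / n) := by field_simp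
  have e2 : (n : ℝ) ^ (1 - δ) = (n : ℝ) ^ (-1 - δ) * n ^ 2 := by
    rw [← Real.rpow_natCast, ← Real.rpow_add n0]; congr 1; push_cast; ring
  have k4 : x n - 1 / n ≤ (8 * (L' * n) ^ 2 * n + (E + 2 * a) * (n : ℝ) ^ (1 - δ)) * (5 / n / n) := by
    rw [e1]
    exact (mul_le_mul_of_nonneg_right k3 (by positivity)).trans (by gcongr)
  have e3 : (8 * (L' * n) ^ 2 * n + (E + 2 * a) * (n : ℝ) ^ (1 - δ)) * (5 / n / n) =
      40 * L' ^ 2 * n + 5 * (E + 2 * a) * (n : ℝ) ^ (-1 - δ) := by rw [e2]; field_simp; ring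
  linarith

/-- infinite slope of the limiting stiffness at the threshold (argument of helper70) -/
theorem slope (hC : 0 ≤ C) (hδ : 0 < δ) (hδ1 : δ < 1) {ε c C₁ : ℝ} (hε : om C δ ε ≤ 1 / 1000)
    (hc : 0 < c) {a : ℕ} {x y : ℕ → ℝ} {X Y : ℝ → ℕ → ℝ} {L : ℝ → ℝ}
    (h : ∀ j, a ≤ j → Step C δ x y j ∧ |x j| + y j ≤ ε) (hx : Tendsto x atTop (𝓝 0))
    (hX : ∀ᶠ μ in 𝓝[>] (0 : ℝ), (∀ j, a ≤ j → Step C δ (X μ) (Y μ) j ∧ |X μ j| + Y μ j ≤ ε) ∧
      Tendsto (X μ) atTop (𝓝 (L μ)) ∧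
      ∀ j, a ≤ j → c * μ - C₁ * (j : ℝ) ^ (-1 - δ) ≤ X μ j - x j) :
    Tendsto (fun μ => L μ / μ) (𝓝[>] 0) atTop := by
  have h1 := (crit hC hδ hδ1 (hε.trans (by norm_num)) h hx).1
  have h2 : (fun n : ℕ => C₁ * (n : ℝ) ^ (-1 - δ)) =O[atTop] pw (-1 - δ) :=
    (isBigO_refl _ _).const_mul_left C₁
  obtain ⟨b, hb⟩ := eventually_atTop.1 ((eventually_le_div hδ (τ := 1 / 2) (by norm_num)
    (h1.sub h2)).and (eventually_ge_atTop (max a 1)))
  have hb1 : 1 ≤ b := (le_max_right _ _).trans (hb b le_rfl).2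
  have hab : a ≤ b := (le_max_left _ _).trans (hb b le_rfl).2
  obtain ⟨C', hC'⟩ := sup_upper hC hδ hδ1 hε hb1
  obtain ⟨C₂, hC₂, m, -, hm⟩ := bigO_iff.1 h1
  refine tendsto_atTop.2 fun K => ?_
  set K' := max K 1 with hK'
  have K1 : 1 ≤ K' := le_max_right _ _
  set τ := min (1 / (8 * K')) (c / (320 * K' ^ 2)) with hτ
  have τ0 : 0 < τ := by positivity
  have τ1 : τ * K' ≤ 1 / 8 := by
    have := min_le_left (1 / (8 * K')) (c / (320 * K' ^ 2))
    rw [← hτ, le_div_iff₀ (by positivity)] at this; linarith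
  have τ2 : τ * (320 * K' ^ 2) ≤ c := (le_div_iff₀ (by positivity)).1 (min_le_right _ _)
  set E := |C'| + |C₁| + C₂ with hE
  have t1 : Tendsto (fun μ : ℝ => E * τ ^ (-1 - δ) * μ ^ δ) (𝓝[>] 0) (𝓝 0) := by
    have := ((Real.continuous_rpow_const hδ.le).tendsto 0).const_mul (E * τ ^ (-1 - δ))
    rw [Real.zero_rpow hδ.ne', mul_zero] at this
    exact this.mono_left nhdsWithin_le_nhds
  have t2 : Tendsto (fun μ : ℝ => τ / μ) (𝓝[>] 0) atTop := by
    simpa [div_eq_mul_inv] using tendsto_inv_nhdsGT_zero.const_mul_atTop τ0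
  filter_upwards [hX, t1.eventually (ge_mem_nhds (show 0 < c / 4 by linarith)),
    t2.eventually_ge_atTop ((max (2 * b) m : ℕ) : ℝ), self_mem_nhdsWithin] with μ hμ e1 e2 μ0
  obtain ⟨k1, k2, k3⟩ := hμ
  have μ0 : 0 < μ := μ0
  by_contra hK
  have hL : L μ ≤ K' * μ := by
    rw [← div_le_iff₀ μ0]; exact (not_le.1 hK).le.trans (le_max_left _ _)
  set n := ⌈τ / μ⌉₊ with hn
  have n1 : τ / μ ≤ n := Nat.le_ceil _
  have n2 : max (2 * b) m ≤ n := by exact_mod_cast e2.trans n1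
  have n3 : (n : ℝ) ≤ 2 * (τ / μ) := by
    have := (Nat.ceil_lt_add_one (show 0 ≤ τ / μ by positivity)).le
    have : (1 : ℝ) ≤ ((max (2 * b) m : ℕ) : ℝ) := by exact_mod_cast (show 1 ≤ max (2 * b) m by omega)
    linarith
  have n4 : μ * n ≤ 2 * τ := by
    calc μ * n ≤ μ * (2 * (τ / μ)) := by gcongr
      _ = _ := by field_simp
  have hlow : ∀ j, b ≤ j → 1 / (2 * (j : ℝ)) ≤ X μ j := fun j hj => by
    have a1 := (abs_le.1 (hb j hj).1).1
    have a2 := k3 j (hab.trans hj)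
    have a3 : (1 : ℝ) / j = 2 * (1 / (2 * j)) := by ring
    have a4 : (1 : ℝ) / 2 / j = 1 / (2 * j) := by ring
    have := mul_pos hc μ0
    linarith
  have hL0 : 0 ≤ L μ := ge_of_tendsto k2 ((eventually_ge_atTop b).mono fun j hj =>
    le_trans (by positivity) (hlow j hj))
  have u1 := hC' (X μ) (Y μ) (L μ) (fun j hj => k1 j (hab.trans hj)) hlow k2 n (by omega)
    (by nlinarith [Nat.cast_nonneg (α := ℝ) n])
  have u2 := (abs_le.1 (hm n (by omega))).1
  have u3 := k3 n (by omega)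
  have u4 : 40 * L μ ^ 2 * n ≤ c / 4 * μ := by
    calc 40 * L μ ^ 2 * n ≤ 40 * (K' * μ) ^ 2 * n := by gcongr
      _ = 40 * K' ^ 2 * μ * (μ * n) := by ring
      _ ≤ 40 * K' ^ 2 * μ * (2 * τ) := by gcongr
      _ ≤ _ := by nlinarith
  have u5 : E * (n : ℝ) ^ (-1 - δ) ≤ c / 4 * μ := by
    have a1 : (n : ℝ) ^ (-1 - δ) ≤ (τ / μ) ^ (-1 - δ) :=
      Real.rpow_le_rpow_of_nonpos (by positivity) n1 (by linarith)
    have a2 : (τ / μ) ^ (-1 - δ) = τ ^ (-1 - δ) * μ ^ δ * μ := by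
      rw [Real.div_rpow τ0.le μ0.le, show -1 - δ = -(δ + 1) by ring, Real.rpow_neg μ0.le,
        Real.rpow_add_one μ0.ne']
      field_simp
    calc E * (n : ℝ) ^ (-1 - δ) ≤ E * (τ / μ) ^ (-1 - δ) := by gcongr
      _ = E * τ ^ (-1 - δ) * μ ^ δ * μ := by rw [a2]; ring
      _ ≤ _ := by gcongr
  have p0 : 0 ≤ (n : ℝ) ^ (-1 - δ) := by positivity
  have := mul_le_mul_of_nonneg_right (le_abs_self C') p0
  have := mul_le_mul_of_nonneg_right (le_abs_self C₁) p0
  have := mul_pos hc μ0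
  rw [hE] at u5
  linarith

end Crest.Agent.T145.KT
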