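import Crest.Agent.T145.EvDef_2
import Crest.Agent.T145.KtG_54
import Crest.Agent.T145.FlRate_98

/-!
# Row 145, even sector: one linearised step (`Ev.LnStmt`; helper58)
-/

set_option autoImplicit false

namespace Crest.Agent.T145.Ev

open Finset Pot Xi Real Fl

namespace Ln58

/-- the numerics of the linearised step -/
theorem num {a k CU CB D x y x' y' e γ γ' l l' ε ε' b P P' Y τ κ C : ℝ} (ha : 1 ≤ a) (hε : |ε| ≤ k)
    (hε' : |ε'| ≤ k) (hCU : 0 ≤ CU) (hCB : 0 ≤ CB) (hD : 0 ≤ D) (st : KT.St e x y x' y') (hP : 0 ≤ P)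
    (hP' : 0 ≤ P') (hY : 0 ≤ Y) (hYD : Y ≤ D * y) (hYτ : Y ≤ τ)
    (hU : |a * γ' - a * γ - 2 * l * (x' - x)| ≤ a * (CU * Y ^ 2 * P)) (hB : |b + γ| ≤ P * τ + CB * Y * P')
    (hV : |l' - l - b * (a + ε - ε')| ≤ (P + |b|) * τ) (hC1 : 2 + 4 * k + a * CU * D ≤ C)
    (hC2 : (1 + CB) * (a + 2 * k) + k * (4 * (1 + k) + a * CU * D) + (3 + CB) ≤ C)
    (hκ : C * (e + (|x| + y) + τ) ≤ κ) (hκ1 : κ ≤ 1 / 100) :
    KT.Ln (2 * κ) x y (a * γ) (y * (l - ε * γ)) (a * γ') (y' * (l' - ε' * γ'))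
      (2 * (|a * γ| + |y * (l - ε * γ)| + P + P')) := by
  have hy := st.pos
  have he := st.e_nonneg
  have hx := abs_nonneg x
  have hk : 0 ≤ k := (abs_nonneg _).trans hε
  have h0 : 0 ≤ a * CU * D := by positivity
  obtain ⟨s, hs⟩ : ∃ s, s = e + (|x| + y) + τ := ⟨_, rfl⟩
  rw [← hs] at hκ
  have hs0 : 0 ≤ s := by linarith
  have hsκ : s ≤ κ := (le_mul_of_one_le_left hs0 (by linarith)).trans hκ
  have hw : e + (|x| + y) ≤ κ := by linarith
  have hdx := st.abs_dx hw hκ1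
  have hhx := st.hx
  obtain ⟨A, hA⟩ : ∃ A, A = |a * γ| + |y * (l - ε * γ)| + P + P' := ⟨_, rfl⟩
  have u0 := abs_nonneg (a * γ)
  have v0 := abs_nonneg (y * (l - ε * γ))
  have hA0 : 0 ≤ A := by linarith
  have hγ : |γ| ≤ A := by
    have : |γ| ≤ |a * γ| := by
      rw [abs_mul, abs_of_nonneg (by linarith : 0 ≤ a)]; exact le_mul_of_one_le_left (abs_nonneg _) ha
    linarith
  have hεγ : |ε * γ| ≤ k * A := by rw [abs_mul]; gcongr
  have hl : y * |l| ≤ (1 + k) * A := by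
    have h1 : y * |l| ≤ |y * (l - ε * γ)| + y * |ε * γ| := by
      rw [abs_mul, abs_of_pos hy, ← mul_add]
      exact mul_le_mul_of_nonneg_left (by simpa using abs_add_le (l - ε * γ) (ε * γ)) hy.le
    have h2 : y * |ε * γ| ≤ 1 * (k * A) := by gcongr; linarith
    linarith
  obtain ⟨η, hη⟩ : ∃ η, η = |x| + y := ⟨_, rfl⟩
  have hη0 : 0 < η := by linarith
  have hEU : a * (CU * Y ^ 2 * P) ≤ a * CU * D * (s * η * A) :=
    calc _ = a * CU * (Y * Y * P) := by ring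
      _ ≤ a * CU * (s * (D * η) * A) := by
          gcongr
          · linarith
          · exact hYD.trans (by gcongr; linarith)
          · linarith
      _ = _ := by ring
  have hu : |a * γ' - a * γ + 2 * y ^ 2 * (l - ε * γ)| ≤ κ * (|x| + y) ^ 2 * (A / η) := by
    have h1 : |2 * l * (x' - x + y ^ 2)| ≤ 2 * (1 + k) * (s * η * A) :=
      calc _ ≤ 2 * |l| * (e * y ^ 2) := by rw [abs_mul, abs_mul, abs_two]; gcongr
        _ = 2 * e * y * (y * |l|) := by ring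
        _ ≤ 2 * s * η * ((1 + k) * A) := by gcongr <;> linarith
        _ = _ := by ring
    have h2 : |2 * y ^ 2 * (ε * γ)| ≤ 2 * k * (s * η * A) :=
      calc _ = 2 * y * y * |ε * γ| := by rw [abs_mul, abs_of_nonneg (by positivity : 0 ≤ 2 * y ^ 2)]; ring
        _ ≤ 2 * s * η * (k * A) := by gcongr <;> linarith
        _ = _ := by ring
    have h3 : C * (s * η * A) ≤ κ * (|x| + y) ^ 2 * (A / η) :=
      calc _ = C * s * (η * A) := by ring
        _ ≤ κ * (η * A) := by gcongr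
        _ = _ := by rw [← hη]; field_simp
    have h4 := mul_le_mul_of_nonneg_right hC1 (by positivity : 0 ≤ s * η * A)
    rw [show a * γ' - a * γ + 2 * y ^ 2 * (l - ε * γ) = (a * γ' - a * γ - 2 * l * (x' - x)) +
      2 * l * (x' - x + y ^ 2) + -(2 * y ^ 2 * (ε * γ)) by ring]
    refine (abs_add_three _ _ _).trans ?_
    rw [abs_neg]
    linarith
  have hv : |l' - ε' * γ' - (l - ε * γ) + a * γ| ≤ κ * (|x| + y) * (A / η) := by
    have h1 : |b + γ| ≤ (1 + CB) * (s * A) := by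
      have h1 : P * τ ≤ A * s := by gcongr <;> linarith
      have h2 : CB * Y * P' ≤ CB * s * A := by gcongr <;> linarith
      linarith
    have h2 : |(b + γ) * (a + ε - ε')| ≤ (1 + CB) * (s * A) * (a + 2 * k) := by
      rw [abs_mul]
      refine mul_le_mul h1 ?_ (abs_nonneg _) (by positivity)
      rw [abs_le] at hε hε' ⊢
      constructor <;> linarith
    have h3 : |γ' - γ| ≤ (4 * (1 + k) + a * CU * D) * (s * A) := by
      have h3 : |γ' - γ| ≤ |a * γ' - a * γ| := by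
        rw [← mul_sub, abs_mul, abs_of_nonneg (by linarith : 0 ≤ a)]
        exact le_mul_of_one_le_left (abs_nonneg _) ha
      have h4 : |2 * l * (x' - x)| ≤ 4 * (1 + k) * (s * A) :=
        calc _ ≤ 2 * |l| * (2 * y ^ 2) := by
              rw [abs_mul, abs_mul, abs_two]; gcongr; linarith [sq_nonneg y]
          _ = 4 * y * (y * |l|) := by ring
          _ ≤ 4 * s * ((1 + k) * A) := by gcongr; linarith
          _ = _ := by ring
      have h5 : a * CU * D * (s * η * A) ≤ a * CU * D * (s * 1 * A) := by gcongr; linarith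
      have h6 := abs_add_le (a * γ' - a * γ - 2 * l * (x' - x)) (2 * l * (x' - x))
      rw [sub_add_cancel] at h6
      linarith
    have h4 : |ε' * (γ' - γ)| ≤ k * ((4 * (1 + k) + a * CU * D) * (s * A)) := by rw [abs_mul]; gcongr
    have h5 : (P + |b|) * τ ≤ (3 + CB) * A * s := by
      have h5 : |b| ≤ |b + γ| + |γ| := by simpa using abs_sub (b + γ) γ
      have h6 : (1 + CB) * (s * A) ≤ (1 + CB) * (1 * A) := by gcongr; linarith
      gcongr <;> linarith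
    have h6 : C * (s * A) ≤ κ * (|x| + y) * (A / η) :=
      calc _ = C * s * A := by ring
        _ ≤ κ * A := by gcongr
        _ = _ := by rw [← hη]; field_simp
    have h7 := mul_le_mul_of_nonneg_right hC2 (by positivity : 0 ≤ s * A)
    rw [show l' - ε' * γ' - (l - ε * γ) + a * γ = (l' - l - b * (a + ε - ε')) +
      (b + γ) * (a + ε - ε') + -(ε' * (γ' - γ)) by ring]
    refine (abs_add_three _ _ _).trans ?_
    rw [abs_neg]
    linarith
  refine (KT.Ln.of_uv st hw hκ1 (by positivity) hu hv).mono hy.le (by linarith) le_rfl ?_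
  rw [← hη, mul_div_cancel₀ _ hη0.ne', ← hA]
  linarith

/-- the small parameter -/
theorem small {z C : ℝ} {n : ℕ} (hz : 0 < z) (hn : n ≠ 0) (hC : 1 ≤ C)
    (h : C * z ^ (1 / (400 * n) : ℝ) ≤ 1) : ∃ t : ℝ, 0 < t ∧ z ^ (1 / (400 * n) : ℝ) = t ^ (1 / 400 : ℝ) ∧
      (∀ j ≤ n, z ≤ t ^ j) ∧ (∀ j : ℕ, j ≠ 0 → t ^ j ≤ t ^ (1 / 400 : ℝ)) ∧ z ≤ t ^ (1 / 400 : ℝ) ∧
      ∀ K x : ℝ, 0 ≤ K → K ≤ C → x ≤ t ^ (1 / 400 : ℝ) → K * x ≤ 1 := by
  obtain ⟨t, ht⟩ : ∃ t, t = z ^ ((n : ℝ)⁻¹) := ⟨_, rfl⟩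
  have ht0 : 0 < t := by rw [ht]; positivity
  have htn : t ^ n = z := by rw [ht]; exact rpow_inv_natCast_pow hz.le hn
  have e : z ^ (1 / (400 * n) : ℝ) = t ^ (1 / 400 : ℝ) := by
    rw [ht, ← rpow_mul hz.le]; congr 1; field_simp
  rw [e] at h
  have hτ0 : 0 < t ^ (1 / 400 : ℝ) := by positivity
  have ht1 : t ≤ 1 := by
    by_contra h'
    have := one_lt_rpow (not_le.1 h') (show (0 : ℝ) < 1 / 400 by norm_num)
    nlinarith
  have htτ : ∀ j : ℕ, j ≠ 0 → t ^ j ≤ t ^ (1 / 400 : ℝ) := fun j hj =>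
    (pow_le_of_le_one ht0.le ht1 hj).trans (by
      simpa using rpow_le_rpow_of_exponent_ge ht0 ht1 (show (1 / 400 : ℝ) ≤ 1 by norm_num))
  exact ⟨t, ht0, e, fun j h => htn ▸ pow_le_pow_of_le_one ht0.le ht1 h, htτ, htn ▸ htτ n hn,
    fun K x h0 h1 h2 => (mul_le_mul_of_nonneg_left h2 h0).trans
      ((mul_le_mul_of_nonneg_right h1 hτ0.le).trans h)⟩

theorem nd {a C C₄ P P' Y u τ γ κ : ℝ} (ha : 0 ≤ a) (c4 : 1 ≤ C₄) (hC : a * C₄ ≤ C) (hP : 0 ≤ P)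
    (hP' : 0 ≤ P') (hτ : 0 ≤ τ) (hu : u ≤ τ) (hY : Y ≤ τ) (hκ : C * τ ≤ κ)
    (h : C₄⁻¹ - P * u - C₄ * Y * P' ≤ γ) : a * C₄⁻¹ - κ * (P + P') ≤ a * γ := by
  have g0 : a * C₄ * τ ≤ κ := (mul_le_mul_of_nonneg_right hC hτ).trans hκ
  have g1 : a * (P * u) ≤ κ * P :=
    calc _ = a * 1 * u * P := by ring
      _ ≤ a * 1 * τ * P := by gcongr
      _ ≤ a * C₄ * τ * P := by gcongr
      _ ≤ _ := by gcongr
  have g2 : a * (C₄ * Y * P') ≤ κ * P' :=
    calc _ = a * C₄ * Y * P' := by ring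
      _ ≤ a * C₄ * τ * P' := by gcongr
      _ ≤ _ := by gcongr
  linarith [mul_le_mul_of_nonneg_left h ha]

theorem half {e x y x' y' κ : ℝ} (st : KT.St e x y x' y') (hw : e + (|x| + y) ≤ κ) (hκ : κ ≤ 1 / 100) :
    y ≤ 2 * y' := by
  have h1 := (abs_le.1 (st.abs_dy hw hκ)).1
  have h2 : (|x| + y) * y ≤ 1 / 100 * y := mul_le_mul_of_nonneg_right (by linarith [st.e_nonneg]) st.pos.le
  linarith [st.pos]

end Ln58

open Ln58 in
theorem lnStmt (hDc : DcStmt) (hU : UStmt) (hV : VStmt) (hB : B1Stmt) (hN : NdStmt) : LnStmt := by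
  intro w
  obtain ⟨W₁, h1⟩ := hDc w
  obtain ⟨W₂, h2⟩ := hV w
  obtain ⟨W₃, h3⟩ := hB w
  obtain ⟨W₄, h4⟩ := hN w
  obtain ⟨Ce, hCe, he⟩ := abs_er_le
  refine ⟨W₁ + W₂ + W₃ + W₄ + 2, fun p W D₀ hw hW => ?_⟩
  obtain ⟨C₁, n₁, c1, h1⟩ := h1 p W D₀ hw (by omega)
  obtain ⟨C₂, n₂, c2, h2⟩ := h2 p W D₀ hw (by omega)
  obtain ⟨C₃, n₃, c3, h3⟩ := h3 p W D₀ hw (by omega)
  obtain ⟨C₄, n₄, c4, h4⟩ := h4 p W D₀ hw (by omega)
  obtain ⟨C₅, c5, h5⟩ := hU p W D₀ (by omega)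
  have hW2 : (2 : ℝ) ≤ W := by exact_mod_cast (show 2 ≤ W by omega)
  obtain ⟨a, ha⟩ : ∃ a, a = π * log W := ⟨_, rfl⟩
  have ha1 : 1 ≤ a := by
    have : 1 / 2 ≤ log (W : ℝ) := by linarith [log_two_gt_d9, log_le_log (by norm_num) hW2]
    nlinarith [pi_gt_three]
  have ha0 : 0 ≤ a := zero_le_one.trans ha1
  obtain ⟨k, hk⟩ : ∃ k, k = 2 * π ^ 2 * Ce := ⟨_, rfl⟩
  have hε : ∀ r : ℝ, 1 ≤ r → |2 * π ^ 2 * er r| ≤ k := fun r hr => by
    rw [abs_mul, abs_of_nonneg (by positivity : 0 ≤ 2 * π ^ 2), hk]; gcongr; exact he r hr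
  obtain ⟨n, hn⟩ : ∃ n, n = n₁ + n₂ + n₃ + n₄ + 1 := ⟨_, rfl⟩
  have hn1 : (1 : ℝ) ≤ n := by exact_mod_cast (show 1 ≤ n by omega)
  obtain ⟨C, d1, d2, d3, d4⟩ : ∃ C : ℝ, C₁ + C₂ + C₃ + C₄ + C₅ ≤ C ∧ 2 + 4 * k + a * C₅ * |D₀| ≤ C ∧
      (1 + C₃) * (a + 2 * k) + k * (4 * (1 + k) + a * C₅ * |D₀|) + (3 + C₃) ≤ C ∧ a * C₄ ≤ C :=
    ⟨_, le_max_left _ _, le_max_of_le_right (le_max_left _ _),
      le_max_of_le_right (le_max_of_le_right (le_max_left _ _)),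
      le_max_of_le_right (le_max_of_le_right (le_max_right _ _))⟩
  obtain ⟨f0, f1, f2, f3, f4, f5⟩ : 1 ≤ C ∧ C₁ ≤ C ∧ C₂ ≤ C ∧ C₃ ≤ C ∧ C₄ ≤ C ∧ C₅ ≤ C :=
    ⟨by linarith, by linarith, by linarith, by linarith, by linarith, by linarith⟩
  refine ⟨a * C₄⁻¹, C, 1 / (400 * n), by positivity, f0, by positivity,
    (div_lt_one (by positivity)).2 (by linarith), fun E R Y P P' e κ hE hK st hκ hκ1 => ?_⟩
  have hR : 1 ≤ R := hE.maj.1
  have hY := hE.maj.pos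
  have hL : (0 : ℝ) < E.L := by
    have g2 := hE.ed.w4
    have g3 := hE.ed.gd.2.1
    have g4 := hE.ed.mem.ok.one_le_rg
    exact_mod_cast (Nat.mul_pos (show 0 < 100 * p.w by omega) (show 0 < p.r₀ by omega)).trans_le hE.ed.big
  have hq : 0 < R / E.L := by positivity
  have hs : 0 ≤ e + (|xk E.ω W R| + yk E.ω W R) := add_nonneg st.e_nonneg (add_nonneg (abs_nonneg _) st.pos.le)
  have hτ0 : 0 ≤ (Y + R / E.L) ^ (1 / (400 * n) : ℝ) := by positivity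
  have hκ' := (mul_le_mul_of_nonneg_left (le_add_of_nonneg_left hs) (zero_le_one.trans f0)).trans hκ
  have hw' := ((le_add_of_nonneg_right hτ0).trans (le_mul_of_one_le_left (add_nonneg hs hτ0) f0)).trans hκ
  obtain ⟨t, t0, et, t1, t2, t3, t4⟩ := small (add_pos hY hq) (show n ≠ 0 by omega) f0
    (hκ'.trans (hκ1.trans (by norm_num)))
  rw [et] at hκ hκ' hτ0
  have hYτ := (le_add_of_nonneg_right hq.le).trans t3
  have hj : ∀ j ≤ n, Y ≤ t ^ j := fun j h => (le_add_of_nonneg_right hq.le).trans (t1 j h)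
  have hj' : ∀ j ≤ n, R ≤ t ^ j * E.L := fun j h =>
    (div_le_iff₀ hL).1 ((le_add_of_nonneg_left hY.le).trans (t1 j h))
  have hCt : ∀ K, 1 ≤ K → K ≤ C → K * t ≤ 1 := fun K h h' =>
    t4 K t (zero_le_one.trans h) h' (by simpa using t2 1 one_ne_zero)
  obtain ⟨a₁, a₂, α₁, α₂, hD⟩ := h1 E R Y P t hE t0 (hCt _ c1 f1) (hj _ (by omega)) (hj' _ (by omega))
  have eV := h2 E R Y P t hE t0 (hCt _ c2 f2) (hj _ (by omega)) (hj' _ (by omega)) _ _ _ _ hD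
    (half st hw' hκ1)
  have eB := h3 E R Y P t hE t0 (hCt _ c3 f3) (hj _ (by omega)) (hj' _ (by omega)) _ _ _ _ hD P' hK
  have eN := h4 E R Y P t hE t0 (hCt _ c4 f4) (hj _ (by omega)) (hj' _ (by omega)) P' hK
  have eU := h5 E R Y P hE (t4 _ _ (zero_le_one.trans c5) f5 hYτ) (by
    have := t4 C₅ _ (zero_le_one.trans c5) f5 ((le_add_of_nonneg_left hY.le).trans t3)
    rwa [← mul_div_assoc, div_le_one hL] at this)
  have hP : 0 ≤ P := zero_le_one.trans hE.P1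
  simp only [pd, qd, ← ha]
  refine ⟨num (b := E.bb R a₁ α₁) ha1 (hε R hR) (hε (W * R) (one_le_mul_of_one_le_of_one_le (by linarith) hR))
    (zero_le_one.trans c5) (zero_le_one.trans c3) (abs_nonneg D₀) st hP hK.1 hY.le
    (hE.cone.trans_le (mul_le_mul_of_nonneg_right (le_abs_self _) st.pos.le)) hYτ ?_
    (eB.trans (add_le_add_left (mul_le_mul_of_nonneg_left (t2 6 (by norm_num)) hP) _)) ?_ d2 d3 hκ hκ1,
    nd ha0 c4 d4 hP hK.1 hτ0 (t2 5 (by norm_num)) hYτ hκ' eN⟩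
  · rw [show a * gk E.ω' (W * R) - a * gk E.ω' R - 2 * lr E.ω E.ω' R * (xk E.ω W (W * R) - xk E.ω W R) =
      a * (gk E.ω' (W * R) - gk E.ω' R - 2 * lr E.ω E.ω' R * (gk E.ω (W * R) - gk E.ω R)) by
        rw [ha, xk, xk]; ring, abs_mul, abs_of_nonneg ha0]
    exact mul_le_mul_of_nonneg_left eU ha0
  · refine le_trans (le_of_eq ?_) eV
    congr 1
    rw [ha]; field_simp

end Crest.Agent.T145.Ev
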