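import Crest.Agent.T145.FlBas_4
import Crest.Agent.T145.FlFusA_4
import Crest.Agent.T145.ApiT_98

/-!
# Row 145, even sector: the local expansion with a linear multiplier (helper55)
-/

set_option autoImplicit false

namespace Crest.Agent.T145.Ev

open Finset Pot Xi Real Fl Filter Topology

namespace L55

/-- a function that vanishes at `0` and is `O(t)` to the right has a bounded derivative -/
theorem der_le {f : ℝ → ℝ} {f' a b : ℝ} (hf : HasDerivAt f f' 0) (h0 : f 0 = 0)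
    (h : ∀ t, 0 < t → |f t| ≤ a * (t * (1 + t * b))) : |f'| ≤ a := by
  have h1 : Tendsto (fun t => |t⁻¹ • (f (0 + t) - f 0)|) (𝓝[>] 0) (𝓝 |f'|) :=
    hf.tendsto_slope_zero_right.abs
  have h2 : Tendsto (fun t : ℝ => a * (1 + t * b)) (𝓝[>] 0) (𝓝 a) := by
    have : Tendsto (fun t : ℝ => a * (1 + t * b)) (𝓝 0) (𝓝 (a * (1 + 0 * b))) :=
      (by fun_prop : Continuous fun t : ℝ => a * (1 + t * b)).tendsto 0
    simpa using this.mono_left nhdsWithin_le_nhds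
  refine le_of_tendsto_of_tendsto h1 h2 (eventually_nhdsWithin_of_forall fun t (ht : 0 < t) => ?_)
  simp only [zero_add, h0, sub_zero, smul_eq_mul, abs_mul, abs_inv, abs_of_pos ht]
  rw [inv_mul_le_iff₀ ht]
  linarith [h t ht]

theorem der_ex {Λ : Lat} {m : Mdl Pt} {U : Finset Pt} (hm : Nc.Amb Λ m U) {F : Cfg Pt → ℝ} (hT : Tame F)
    (ξ η : Pt → ℝ) (φ t : ℝ) :
    HasDerivAt (fun t : ℝ => Ex (m.W 0) fun s => F s * cp (ξ + t • η) φ s)
      (2 * π * Ex (m.W 0) fun s => F s * pr η s * cp (ξ + t • η) (φ + π / 2) s) t := by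
  have hc := hm.ctr
  have ha := hm.anch
  rw [← Ex_const_mul]
  refine hasDerivAt_Ex (ε := 1) (B := fun s => 2 * π * |F s * pr η s|)
    (Φ := fun t s => F s * cp (ξ + t • η) φ s)
    (Φ' := fun t s => 2 * π * (F s * pr η s * cp (ξ + t • η) (φ + π / 2) s)) (hc.wt ha 0).nonneg one_pos
    (FlF4.ig_tame hc ha ((hT.mul (Tame.hom _)).abs.const_mul _))
    (FlF4.ig_tame hc ha (hT.mul (tame_cp _ _)))
    (fun s y _ => ((hasDerivAt_cp ξ η φ y s).const_mul (F s)).congr_deriv (by ring)) fun s y _ => ?_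
  rw [abs_mul, abs_of_pos two_pi_pos, abs_mul]
  exact mul_le_mul_of_nonneg_left (mul_le_of_le_one_right (abs_nonneg _) (abs_cp_le _ _ _))
    two_pi_pos.le

theorem qs_smul {u : Pt → ℝ} {z : Pt} {r : ℕ} {σ t : ℝ} (h : Qs u z r σ) (ht : 0 ≤ t) :
    Qs (t • u) z r (t * σ) := fun y hy => by
  refine ⟨?_, fun e he => ?_⟩
  · rw [Pi.smul_apply, smul_eq_mul, abs_mul, abs_of_nonneg ht, mul_assoc, mul_div_assoc]
    exact mul_le_mul_of_nonneg_left (h y hy).1 ht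
  · have : dif e (t • u) y = t * dif e u y := by simp only [dif, Pi.smul_apply, smul_eq_mul]; ring
    rw [this, abs_mul, abs_of_nonneg ht, mul_assoc, mul_div_assoc]
    exact mul_le_mul_of_nonneg_left ((h y hy).2 e he) ht

theorem A0_smul' (t : ℝ) (u : Pt → ℝ) : A0 (t • u) = t • A0 u := by
  funext y; simp only [A0, Pi.smul_apply, smul_eq_mul]; ring

theorem lc_smul (t : ℝ) (u : Pt → ℝ) (z : Pt) (ρ : ℝ) : lc (t • u) z ρ = t • lc u z ρ := by
  funext y; simp only [lc, Pi.smul_apply, smul_eq_mul]; ring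

end L55
open L55

/-- LOC with the linear multiplier `(η, s)`, at a site near which the charge `ξ` vanishes -/
theorem linLoc (hL : LocStmt) (p : Par) : ∃ C : ℝ, 0 ≤ C ∧ ∀ (Λ : Lat) (L : ℕ), Gs p Λ L →
  ∀ (m : Mdl Pt) (U : Finset Pt) (ι : Type) (I : Finset ι) (x : ι → Pt) (rr : ι → ℕ)
    (H : ι → Cfg Pt → ℝ) (z : Pt) (r a₀ : ℕ) (ρ σ P P₀ φ : ℝ) (F : Cfg Pt → ℝ) (ξ η u : Pt → ℝ),
    Nc.Amb Λ m U → Far p L U I x rr H → (∀ i ∈ I, ∀ y ∈ bl (x i) (rr i), ξ y = 0 ∧ η y = 0) →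
    p.w * r ≤ L → bl z (p.w * r) ⊆ U → (∀ i ∈ I, Disjoint (bl (x i) (p.w * rr i)) (bl z (p.w * r))) →
    p.r₀ ≤ a₀ → Ins z a₀ F → 0 ≤ P → Prof Λ p.w a₀ L z F r P → 0 ≤ P₀ →
    ((∀ c, a₀ ≤ c → Nc.Nm Λ z c (fun s => F s ^ 2) ≤ P₀ ^ 2) ∨
      ∀ y ∈ bl z (16 * p.w ^ 2 * a₀), u y = 0) →
    0 ≤ σ → Qs u z r σ → (∀ y ∈ bl z (r - 1), ξ y = 0 ∧ η y = A0 u y) →
    8 * (p.w : ℝ) ^ 2 * a₀ ≤ ρ → 600 * ρ ≤ r →
    |Ex (m.W 0) (fun s => (∏ i ∈ I, H i s) * F s * pr η s * cp ξ φ s) -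
      Ex (m.W 0) (fun s => (∏ i ∈ I, H i s) * F s * pr (η - A0 (lc u z ρ)) s * cp ξ φ s) -
      Ex (m.W 0) (fun s => F s * pr (A0 (lc u z ρ)) s) *
        Ex (m.W 0) fun s => (∏ i ∈ I, H i s) * cp ξ φ s| ≤
      C * (∏ i ∈ I, nu Λ p.w (x i) (rr i) (H i)) * σ *
        (P * (ρ / r) ^ (cw p.w / 4) / (r : ℝ) ^ 2 + P₀ * ((a₀ : ℝ) / r) ^ (2 + cw p.w / 2)) := by
  obtain ⟨C, hC, hL⟩ := hL p
  refine ⟨C / (2 * π), by positivity, ?_⟩
  intro Λ L hG m U ι I x rr H z r a₀ ρ σ P P₀ φ F ξ η u hm hF hξ hrL hz hd ha hI hP hPr hP₀ hor hσ hQ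
    hη hρ hρr
  have hTH : Tame fun s => ∏ i ∈ I, H i s := Tame.prod _ fun i hi => (hF.ins i hi).2
  have hT : Tame fun s => (∏ i ∈ I, H i s) * F s := hTH.mul hI.2
  set v := A0 (lc u z ρ) with hv
  set b := Ex (m.W 0) (fun s => F s * pr v s) with hb
  set E := P * (ρ / r) ^ (cw p.w / 4) / (r : ℝ) ^ 2 + P₀ * ((a₀ : ℝ) / r) ^ (2 + cw p.w / 2) with hE
  set PP := ∏ i ∈ I, nu Λ p.w (x i) (rr i) (H i) with hPP
  have e0 : φ - π / 2 + π / 2 = φ := by ring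
  have d1 := der_ex hm hT ξ η (φ - π / 2) 0
  have d2 := der_ex hm hT ξ (η - v) (φ - π / 2) 0
  have d3 := der_ex hm hTH ξ η φ 0
  have d4 := ((hasDerivAt_id' (0 : ℝ)).mul d3).const_mul (2 * π * b)
  have d5 := (d1.sub d2).sub d4
  simp only [zero_smul, add_zero, e0, zero_mul, one_mul] at d5
  have key := der_le (a := C * PP * σ * E) (b := σ) d5 (by simp) fun t ht => by
    have h := hL Λ L hG m U ι I x rr H z r a₀ ρ (t * σ) P P₀ (φ - π / 2) F (ξ + t • η) (t • u) hm hF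
      (fun i hi y hy => by simp [(hξ i hi y hy).1, (hξ i hi y hy).2]) hrL hz hd ha hI hP hPr hP₀
      (hor.imp id fun h y hy => by simp [h y hy]) (by positivity) (qs_smul hQ ht.le)
      (fun y hy => by simp [A0_smul', (hη y hy).1, (hη y hy).2]) hρ hρr
    rw [lc_smul, A0_smul', ← hv, e0, show ξ + t • η - t • v = ξ + t • (η - v) by
      rw [smul_sub]; abel] at h
    have e1 : Ex (m.W 0) (fun s => F s * pr (t • v) s) = t * b := by
      rw [hb, ← Ex_const_mul]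
      congr 1; funext s
      simp only [pr_smul, AddMonoidHom.smul_apply, smul_eq_mul]; ring
    rw [e1] at h
    simp only [Pi.sub_apply, Pi.mul_apply]
    refine le_trans (le_of_eq ?_) (h.trans (le_of_eq ?_))
    · congr 1; ring
    · ring
  have e2 : ∀ a1 a2 d : ℝ, 2 * π * a1 - 2 * π * a2 - 2 * π * b * d = 2 * π * (a1 - a2 - b * d) :=
    fun _ _ _ => by ring
  rw [e2, abs_mul, abs_of_pos two_pi_pos, ← le_div_iff₀' two_pi_pos] at key
  refine key.trans (le_of_eq ?_)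
  ring

end Crest.Agent.T145.Ev
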