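import Crest.Agent.T145.EvDef_2
import Crest.Agent.T145.FlA_51
import Crest.Agent.T145.FlBas_4
import Crest.Agent.T145.FlEnv_30
import Crest.Agent.T145.FlSXa_44
import Crest.Agent.T145.FlSw_22
import Crest.Agent.T145.FlCc_87

/-!
# Row 145, even sector, PURJ (helper87): inside the cone an odd invariant insertion is a multiple of `J`
-/

set_option autoImplicit false

namespace Crest.Agent.T145.Ev

open Finset Pot Xi Real Fl

namespace J87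

theorem ew_le {w : ℕ} (h : 4 ≤ w) : ew w ≤ 1 / 1000 := by
  have hw : (4 : ℝ) ≤ w := by exact_mod_cast h
  have h2 : (2 : ℝ) ^ 10 ≤ 4 * (w : ℝ) ^ 4 := by
    have : (4 : ℝ) ^ 4 ≤ (w : ℝ) ^ 4 := by gcongr
    linarith
  have l2 : 0 < log 2 := log_pos one_lt_two
  have l3 := log_le_log (by norm_num) h2
  rw [log_pow] at l3
  push_cast at l3
  have : cw w ≤ 1 / 10 := by rw [cw, div_le_iff₀ (by linarith)]; linarith
  rw [ew]; linarith

section nu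
variable {p : Par} {Λ : Lat} {L N r : ℕ} {ω : Sta} {z : Pt} {F G : Cfg Pt → ℝ}

theorem nu_add (h : Gs p Λ L) (h0 : p.r₀ ≤ r) (hF : Ins z r F) (hG : Ins z r G) :
    nu Λ p.w z r (fun s => F s + G s) ≤ nu Λ p.w z r F + nu Λ p.w z r G :=
  (((semiStmt Λ p.w r z h.mem.ok (SX44.rg_le h h0)).1 F hF).2.2.2.2 G hG).1

theorem nu_sub (h : Gs p Λ L) (h0 : p.r₀ ≤ r) (hF : Ins z r F) (hG : Ins z r G) :
    nu Λ p.w z r (fun s => F s - G s) ≤ nu Λ p.w z r F + nu Λ p.w z r G :=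
  (((semiStmt Λ p.w r z h.mem.ok (SX44.rg_le h h0)).1 F hF).2.2.2.2 G hG).2

theorem nu_smul (h : Gs p Λ L) (h0 : p.r₀ ≤ r) (hF : Ins z r F) (c : ℝ) :
    nu Λ p.w z r (fun s => c * F s) = |c| * nu Λ p.w z r F :=
  ((semiStmt Λ p.w r z h.mem.ok (SX44.rg_le h h0)).1 F hF).2.2.1 c

theorem nu_bdd (h : Gs p Λ L) (h0 : p.r₀ ≤ r) (hF : Ins z r F) {B : ℝ} (hB : ∀ s, |F s| ≤ B) :
    nu Λ p.w z r F ≤ B :=
  ((semiStmt Λ p.w r z h.mem.ok (SX44.rg_le h h0)).1 F hF).2.2.2.1 B hB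

theorem nu_le_Nm (h : Gs p Λ L) (h0 : p.r₀ ≤ r) (hF : Ins z r F) :
    nu Λ p.w z r F ≤ Nc.Nm Λ z (p.w * r) F :=
  ((semiStmt Λ p.w r z h.mem.ok (SX44.rg_le h h0)).1 F hF).2.1

theorem nu_sum (h : Gs p Λ L) (h0 : p.r₀ ≤ r) {ι : Type*} (T : Finset ι) {H : ι → Cfg Pt → ℝ}
    (hH : ∀ i ∈ T, Ins z r (H i)) :
    nu Λ p.w z r (fun s => ∑ i ∈ T, H i s) ≤ ∑ i ∈ T, nu Λ p.w z r (H i) := by
  classical
  induction T using Finset.induction_on with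
  | empty => simpa using nu_bdd h h0 (Ins.const z r 0) (B := 0) fun _ => by simp
  | insert i T hi ih =>
    simp only [sum_insert hi]
    have h1 := fun j hj => hH j (mem_insert_of_mem hj)
    exact (nu_add h h0 (hH i (mem_insert_self _ _)) (Ins.sum T h1)).trans (add_le_add le_rfl (ih h1))

theorem nu_mono (h : Gs p Λ L) (h0 : p.r₀ ≤ r) {b : ℕ} (hb : r ≤ b) (hL : p.w * b ≤ L)
    (hF : Ins z r F) : nu Λ p.w z b F ≤ 2 * nu Λ p.w z r F := by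
  simpa using (fusStmt p Λ L h z b hL).1 r F (fun _ => 1) h0 hb hF (DepG.const _ _) (Out.const _ _)
    fun _ => by simp

theorem ell_le (h : Env p Λ ω L N) (h0 : p.r₀ ≤ r) (hL : p.w * r ≤ L) {R : ℝ} (hR : (r : ℝ) + 1 ≤ R)
    (hN : 2 * R ≤ N) (hF : Ins 0 r F) : |ell ω R F| ≤ 32 * nu Λ p.w 0 r F := by
  obtain ⟨m, hm⟩ := h.amb 0
  have R0 : 0 < R := by have : (0 : ℝ) ≤ r := Nat.cast_nonneg r; linarith
  have h4 := A51.four_le h.toGs r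
  have h5 := h.le
  rw [ell, hm.2 _ ((hF.mono (show r ≤ N by omega)).mul (ins_Sn R0 hN)).1]
  exact SX44.prod1 prodStmt h.toGs hm.1 h0 hL (by omega) hF (out_Sn R0 hR) (abs_Sn_le R)

end nu

theorem num {l k v T D u aF aJ nF n₂ nS l₂ lS : ℝ} (hl : 0 < l) (v1 : 1 ≤ v) (vk : v ≤ k) (hT : 1 ≤ T)
    (hD : 0 ≤ D) (hu : 0 < u) (big : 192 * D * T ^ 3 ≤ k) (nF0 : 0 ≤ nF) (hF : |aF| ≤ 2 * v * nF)
    (h2 : n₂ ≤ 3 * (u * T ^ 3 * v / k ^ 2)) (hS : nS ≤ v / l ^ 2) (hl2 : |l₂| ≤ 32 * n₂)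
    (hlS : |lS| ≤ 32 * nS) (cone : u ≤ D * |l₂ + aJ * lS|) :
    aJ ≠ 0 ∧ |aF / aJ| * u ≤ 128 * D * (v ^ 2 / l ^ 2) * nF ∧
      |aF / aJ| * n₂ ≤ 384 * D * T ^ 3 * (v ^ 3 / (l ^ 2 * k ^ 2)) * nF := by
  have k0 : 0 < k := by linarith
  have a1 : D * |l₂| ≤ u / 2 := calc
    _ ≤ D * (32 * (3 * (u * T ^ 3 * k / k ^ 2))) := by
        refine mul_le_mul_of_nonneg_left (hl2.trans ?_) hD
        have : u * T ^ 3 * v / k ^ 2 ≤ u * T ^ 3 * k / k ^ 2 := by gcongr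
        linarith
    _ = u / 2 * (192 * D * T ^ 3 / k) := by field_simp; ring
    _ ≤ u / 2 * 1 := by gcongr; exact (div_le_one k0).2 big
    _ = _ := mul_one _
  have a2 : D * |aJ * lS| ≤ 32 * D * (v / l ^ 2) * |aJ| := by
    rw [abs_mul]
    calc _ ≤ D * (|aJ| * (32 * (v / l ^ 2))) := by gcongr; linarith
      _ = _ := by ring
  have a3 : u ≤ 64 * D * (v / l ^ 2) * |aJ| := by
    have := mul_le_mul_of_nonneg_left (abs_add_le l₂ (aJ * lS)) hD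
    linarith
  have a4 : aJ ≠ 0 := fun e => by rw [e, abs_zero, mul_zero] at a3; linarith
  have a5 : 0 < |aJ| := abs_pos.2 a4
  have a6 : |aF / aJ| * u ≤ 128 * D * (v ^ 2 / l ^ 2) * nF := calc
    _ ≤ 2 * v * nF / |aJ| * (64 * D * (v / l ^ 2) * |aJ|) := by rw [abs_div]; gcongr
    _ = _ := by field_simp; ring
  refine ⟨a4, a6, ?_⟩
  calc _ ≤ |aF / aJ| * (3 * (u * T ^ 3 * v / k ^ 2)) := by gcongr
    _ = |aF / aJ| * u * (3 * T ^ 3 * v / k ^ 2) := by ring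
    _ ≤ 128 * D * (v ^ 2 / l ^ 2) * nF * (3 * T ^ 3 * v / k ^ 2) := by gcongr
    _ = _ := by field_simp; ring

set_option maxHeartbeats 400000 in
/-- PURJ -/
theorem purJ (p : Par) {W : ℕ} (hW : 2 ≤ W) (D M : ℝ) : ∃ C : ℝ, 1 ≤ C ∧ ∀ Λ ω r₁ L N, Env p Λ ω L N →
    Pur p W Λ r₁ L → ∀ R Y : ℝ, Maj p Λ L R Y → Y ≤ D * (R ^ 2 * |ell ω R (Jz 0)|) → 2 * R ≤ N →
    ∀ (r b : ℕ) (F : Cfg Pt → ℝ), p.r₀ ≤ r → r₁ ≤ r → 1 ≤ r → r ≤ b → p.w * b ≤ L → (b : ℝ) + 1 ≤ R →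
      R ≤ M * b → Ins 0 r F → OddF F → D4 0 F → ∃ μ : ℝ,
        nu Λ p.w 0 b (fun s => F s - μ * Jz 0 s) ≤
          C * ((r : ℝ) / b) ^ (11 / 5 - 3 * ew p.w) * nu Λ p.w 0 r F ∧
        |μ| * Y ≤ C * ((b : ℝ) / r) ^ (2 * ew p.w) * r ^ 2 * nu Λ p.w 0 r F := by
  obtain ⟨T, hT⟩ : ∃ T : ℝ, T = max 1 M * W := ⟨_, rfl⟩
  obtain ⟨K, hK⟩ : ∃ K : ℝ, K = 1 + 192 * |D| * T ^ 3 := ⟨_, rfl⟩
  have W1 : (1 : ℝ) ≤ W := by exact_mod_cast (show 1 ≤ W by omega)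
  have T1 : 1 ≤ T := by rw [hT]; exact one_le_mul_of_one_le_of_one_le (le_max_left _ _) W1
  have K1 : 1 ≤ K := by rw [hK]; have : 0 ≤ 192 * |D| * T ^ 3 := by positivity
                        linarith
  have KW : 1 ≤ K ^ 10 * W := one_le_mul_of_one_le_of_one_le (one_le_pow₀ K1) W1
  have KW3 : 1 ≤ (K ^ 10 * W) ^ 3 := one_le_pow₀ KW
  refine ⟨6 * (K ^ 10 * W) ^ 3, by linarith, ?_⟩
  intro Λ ω r₁ L N hE hP R Y hM hc hN r b F h0 h1 r1 rb hL hR hR' hF hFo hF4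
  have hG := hE.toGs
  have e0 := SX44.ew_nonneg p.w
  have e1 := SX44.ew_le p.w
  have Y0 := SX44.Y_pos hM
  have R0 : 0 < R := by linarith [hM.1]
  have r0 : (0 : ℝ) < r := by exact_mod_cast r1
  have b0 : (0 : ℝ) < b := by exact_mod_cast r1.trans rb
  have nF0 := A51.nu_nonneg hG.mem.ok p.w 0 r F
  have D0 : 0 ≤ D := by
    by_contra hn
    have := mul_nonpos_of_nonpos_of_nonneg (not_le.1 hn).le
      (show 0 ≤ R ^ 2 * |ell ω R (Jz 0)| by positivity)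
    linarith
  rw [abs_of_nonneg D0] at hK
  obtain ⟨m, m1, m2, m3⟩ := Cc87.scale hW r1 rb
  obtain ⟨l, hl⟩ : ∃ l : ℝ, l = (W : ℝ) ^ m := ⟨_, rfl⟩
  rw [← hl] at m2 m3
  have l1 : 1 ≤ l := hl ▸ one_le_pow₀ W1
  have l0 : 0 < l := by linarith
  obtain ⟨x, hx⟩ : ∃ x : ℝ, x = r / b := ⟨_, rfl⟩
  rw [← hx] at m2 m3 ⊢
  have x0 : 0 < x := by rw [hx]; positivity
  have x1 : x ≤ 1 := (le_mul_of_one_le_left x0.le l1).trans m2
  by_cases big : K ≤ l ^ (1 / 10 : ℝ)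
  swap
  · refine ⟨0, ?_, by rw [abs_zero, zero_mul]; positivity⟩
    simp only [zero_mul, sub_zero]
    have a1 : l ≤ K ^ 10 := by
      have := pow_le_pow_left₀ (by positivity) (not_le.1 big).le 10
      rwa [← rpow_mul_natCast l0.le, show (1 / 10 : ℝ) * (10 : ℕ) = 1 by norm_num, rpow_one] at this
    have a2 : 1 ≤ K ^ 10 * W * x := m3.trans (by rw [mul_assoc]; gcongr)
    have a3 : x ^ 3 ≤ x ^ (11 / 5 - 3 * ew p.w) := by
      rw [← rpow_natCast x 3]; exact rpow_le_rpow_of_exponent_ge x0 x1 (by push_cast; linarith)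
    have a4 : 1 ≤ (K ^ 10 * W) ^ 3 * x ^ (11 / 5 - 3 * ew p.w) :=
      (one_le_pow₀ (n := 3) a2).trans (by rw [mul_pow]; gcongr)
    refine (nu_mono hG h0 rb hL hF).trans (mul_le_mul_of_nonneg_right ?_ nF0)
    linarith
  have pw : ∀ c : ℝ, (W : ℝ) ^ (c * m) = l ^ c := fun c => by
    rw [hl, mul_comm, rpow_natCast_mul (by linarith)]
  have hb' : p.w * (W ^ m * r) ≤ L := (Nat.mul_le_mul_left _ m1).trans hL
  have rb' : r ≤ W ^ m * r := Nat.le_mul_of_pos_left r (pow_pos (by omega) m)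
  have hb'' : ((W ^ m * r : ℕ) : ℝ) + 1 ≤ R := by
    have : ((W ^ m * r : ℕ) : ℝ) ≤ b := by exact_mod_cast m1
    linarith
  have h0' := h0.trans rb'
  have iJ : Ins 0 r (Jz 0) := ins_Jz 0 r1
  have iS : Ins 0 r (Sn (r / 4)) := ins_Sn4 r1
  obtain ⟨aF, f1, f2, -⟩ := hP r m F h0 h1 hb' hF hFo hF4
  obtain ⟨aJ, -, j2, -⟩ := hP r m _ h0 h1 hb' iJ (odd_Jz 0) (d4_Jz 0)
  obtain ⟨-, -, -, s3⟩ := hP r m _ h0 h1 hb' iS (odd_Sn _) (d4_Sn _)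
  rw [pw] at f1 f2 j2 s3
  obtain ⟨v, hv⟩ : ∃ v : ℝ, v = l ^ ew p.w := ⟨_, rfl⟩
  obtain ⟨k, hk⟩ : ∃ k : ℝ, k = l ^ (1 / 10 : ℝ) := ⟨_, rfl⟩
  have v1 : 1 ≤ v := hv ▸ one_le_rpow l1 e0
  have vk : v ≤ k := by rw [hv, hk]; exact rpow_le_rpow_of_exponent_le l1 e1
  have k0 : 0 < k := by linarith
  have q1 : l ^ (-(11 / 5) : ℝ) = 1 / (l ^ 2 * k ^ 2) := by
    rw [hk, ← rpow_mul_natCast l0.le, ← rpow_natCast l 2, ← rpow_add l0, one_div, ← rpow_neg l0.le]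
    norm_num
  have q2 : l ^ (-2 + ew p.w) = v / l ^ 2 := by
    rw [rpow_add l0, ← hv, rpow_neg l0.le, rpow_two]; ring
  rw [← hv] at f1
  rw [← hk] at big
  rw [q1] at f2 j2
  rw [q2] at s3
  have RT : R ≤ T * l * r := calc
    R ≤ max 1 M * b := hR'.trans (by gcongr; exact le_max_right _ _)
    _ ≤ max 1 M * (b * (l * (W * x))) := by gcongr; exact le_mul_of_one_le_right b0.le m3
    _ = _ := by rw [hT, hx]; field_simp
  have rR : (r : ℝ) ≤ R := by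
    have : (r : ℝ) ≤ b := by exact_mod_cast rb
    linarith
  have nJ := SX44.prof_le hM h0 ((Nat.mul_le_mul_left _ rb).trans hL) rR RT
    (A51.nu_nonneg hG.mem.ok _ _ _ _)
  have q3 : (T * l) ^ ew p.w ≤ T * v := by
    rw [mul_rpow (by linarith) l0.le, ← hv]
    gcongr
    exact (rpow_le_rpow_of_exponent_le T1 (by linarith)).trans_eq (rpow_one T)
  have u0 : 0 < Y / R ^ 2 := by positivity
  have iJ' := Cc87.Ins.sub' (iJ.mono rb') (iS.mono rb') aJ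
  have iF' := Cc87.Ins.sub' (hF.mono rb') (iS.mono rb') aF
  have rN : r ≤ N := by
    have h4 := A51.four_le hG (W ^ m * r)
    have h5 := hE.le
    omega
  obtain ⟨c1, c2, c3⟩ := num (aF := aF) (aJ := aJ) l0 v1 vk T1 D0 u0 (by linarith) nF0 f1
    (j2.trans (show _ ≤ 3 * (Y / R ^ 2 * T ^ 3 * v / k ^ 2) from
      calc _ ≤ 3 * (1 / (l ^ 2 * k ^ 2)) * (Y / R ^ 2 * ((T * l) ^ 2 * (T * v))) := by
            refine mul_le_mul_of_nonneg_left (nJ.trans ?_) (by positivity)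
            gcongr
        _ = _ := by field_simp))
    (s3.trans (mul_le_of_le_one_right (by positivity) (nu_bdd hG h0 iS (abs_Sn_le _))))
    (ell_le hE h0' hb' hb'' hN iJ') (ell_le hE h0' hb' hb'' hN (iS.mono rb')) (by
      rw [hE.ell_sub R0 hN (iJ.mono rN) (iS.mono rN), sub_add_cancel, div_le_iff₀ (by positivity)]
      linarith)
  have KK : 128 * (D * T ^ 3) + 1 ≤ K ^ 30 := by
    have t1 := le_self_pow₀ K1 (show 30 ≠ 0 by norm_num)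
    have t2 : 0 ≤ D * T ^ 3 := by positivity
    linarith only [t1, t2, hK]
  refine ⟨aF / aJ, ?_, ?_⟩
  · have e : (fun s => F s - aF / aJ * Jz 0 s) = fun s => (F s - aF * Sn (r / 4) s) -
        aF / aJ * (Jz 0 s - aJ * Sn (r / 4) s) := by funext s; field_simp; ring
    rw [e]
    refine (nu_mono hG h0' m1 hL (Cc87.Ins.sub' iF' iJ' _)).trans ?_
    have a1 := nu_sub hG h0' iF' (iJ'.smul (aF / aJ))
    rw [nu_smul hG h0' iJ'] at a1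
    have a2 : v ^ 3 / (l ^ 2 * k ^ 2) ≤ W ^ 3 * x ^ (11 / 5 - 3 * ew p.w) := calc
      _ = l⁻¹ ^ (11 / 5 - 3 * ew p.w) := by
          rw [div_eq_mul_one_div, ← q1, hv, ← rpow_mul_natCast l0.le, ← rpow_add l0, inv_rpow l0.le,
            ← rpow_neg l0.le]
          congr 1; push_cast; ring
      _ ≤ (W * x) ^ (11 / 5 - 3 * ew p.w) :=
          rpow_le_rpow (by positivity) (by rw [inv_le_iff_one_le_mul₀' l0]; exact m3) (by linarith)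
      _ ≤ _ := by
          rw [mul_rpow (by linarith) x0.le, ← rpow_natCast _ 3]
          gcongr
          push_cast; linarith
    have a3 : 1 / (l ^ 2 * k ^ 2) ≤ v ^ 3 / (l ^ 2 * k ^ 2) := by gcongr; exact one_le_pow₀ v1
    have a4 := f2.trans (show _ ≤ 3 * (v ^ 3 / (l ^ 2 * k ^ 2)) * nu Λ p.w 0 r F by gcongr)
    calc _ ≤ 2 * (3 * (128 * (D * T ^ 3) + 1) * (v ^ 3 / (l ^ 2 * k ^ 2)) * nu Λ p.w 0 r F) := by
          linarith
      _ ≤ 2 * (3 * K ^ 30 * (W ^ 3 * x ^ (11 / 5 - 3 * ew p.w)) * nu Λ p.w 0 r F) := by gcongr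
      _ = _ := by ring
  · have a1 : v ^ 2 ≤ ((b : ℝ) / r) ^ (2 * ew p.w) := by
      rw [hv, ← rpow_mul_natCast l0.le, mul_comm]
      refine rpow_le_rpow l0.le ?_ (by positivity)
      rw [hx, ← mul_div_assoc, div_le_one b0] at m2
      rwa [le_div_iff₀ r0]
    have a2 : 128 * (D * T ^ 2) ≤ 6 * (K ^ 10 * W) ^ 3 := by
      have t1 : D * T ^ 2 ≤ D * T ^ 3 := by gcongr; norm_num
      have t2 : K ^ 30 ≤ (K ^ 10 * W) ^ 3 := by
        rw [mul_pow, ← pow_mul]; exact le_mul_of_one_le_right (by positivity) (one_le_pow₀ W1)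
      linarith
    calc _ = |aF / aJ| * (Y / R ^ 2) * R ^ 2 := by field_simp
      _ ≤ 128 * D * (v ^ 2 / l ^ 2) * nu Λ p.w 0 r F * (T * l * r) ^ 2 := by gcongr
      _ = 128 * (D * T ^ 2) * v ^ 2 * r ^ 2 * nu Λ p.w 0 r F := by field_simp
      _ ≤ _ := by gcongr

/-- in the cone `Y` is at most a constant times `R² |l_R J|` -/
theorem cone {W : ℕ} (hW : 2 ≤ W) (D₀ : ℝ) : ∃ D : ℝ, ∀ (p : Par) (E : Dt) (R Y : ℝ), E.Lv p W D₀ R Y →
    Y ≤ D * (R ^ 2 * |ell E.ω R (Jz 0)|) := by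
  obtain ⟨c, C, -, hA⟩ := akStmt W hW
  obtain ⟨Ce, hCe, he⟩ := abs_er_le
  have hl : 0 < log (W : ℝ) := log_pos (by exact_mod_cast (by omega : 1 < W))
  refine ⟨D₀ * (√(π * log W * C / 2) * exp (2 * π ^ 2 * Ce)), fun p E R Y h => ?_⟩
  have e1 := SX44.ew_le p.w
  have h1 := abs_le.1 h.crit
  have p3 := pi_gt_three
  have g0 : 0 ≤ gk E.ω R := by nlinarith
  have g1 : gk E.ω R ≤ 1 := by nlinarith
  have h2 : -(gk E.ω R * er R) ≤ Ce := by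
    have h3 := he R h.maj.1
    have h4 : |gk E.ω R * er R| ≤ Ce := by
      rw [abs_mul, abs_of_nonneg g0]; nlinarith [abs_nonneg (er R)]
    linarith [neg_abs_le (gk E.ω R * er R)]
  have D0 : 0 ≤ D₀ := by linarith [h.D1]
  have h5 := (hA R h.maj.1).2.1
  rw [h.cone, yk]
  have h6 : exp (-2 * π ^ 2 * gk E.ω R * er R) ≤ exp (2 * π ^ 2 * Ce) :=
    exp_le_exp.2 (by nlinarith [sq_nonneg π])
  calc _ ≤ D₀ * (√(π * log W * C / 2) * R ^ 2 * |ell E.ω R (Jz 0)| * exp (2 * π ^ 2 * Ce)) := by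
        gcongr
    _ = _ := by ring

end J87

end Crest.Agent.T145.Ev
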