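import Crest.Agent.T145.EvDef_2
import Crest.Agent.T145.FlEnv_30
import Crest.Agent.T145.FlBas_4
import Crest.Agent.T145.FlBare_80

/-! # Row 145, even sector: the pattern `Xp` at the scale ratio `M ^ K` (helper81) -/

set_option autoImplicit false

namespace Crest.Agent.T145.Ev

open Finset Pot Xi Real Fl

namespace X81

variable {R M M' Y C : ℝ} {v v' : Pt → ℝ} {p : Par} {Λ : Lat} {ω : Sta} {L N n : ℕ}

theorem ew_bd {w : ℕ} (hw : 4 ≤ w) : 0 < ew w ∧ ew w ≤ 1 / 100 := by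
  have h1 : (1 : ℝ) ≤ (w : ℝ) ^ 4 := one_le_pow₀ (by exact_mod_cast (by omega : 1 ≤ w))
  have h2 : log 2 ≤ log (4 * (w : ℝ) ^ 4) := log_le_log (by norm_num) (by linarith)
  have h3 : 0 < log 2 := log_pos (by norm_num)
  have h4 : 0 < cw w := div_pos h3 (by linarith)
  have h5 : cw w ≤ 1 := (div_le_one (by linarith)).2 h2
  unfold ew
  constructor <;> linarith

theorem Y_pos (h : Maj p Λ L R Y) : 0 < Y := (rpow_pos_of_pos (by linarith [h.1]) _).trans_le h.2.1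

/-- a small majorant forces a large scale -/
theorem big (hw : 4 ≤ p.w) (h : Maj p Λ L R Y) (hC : C * Y ≤ 1) (h0 : 0 ≤ C) : C ≤ R := by
  have R0 : 0 < R := by linarith [h.1]
  have h1 := mul_le_mul_of_nonneg_left h.2.1 h0
  rw [rpow_neg R0.le, ← div_eq_mul_inv] at h1
  have h2 := (div_le_one (rpow_pos_of_pos R0 _)).1 (h1.trans hC)
  refine h2.trans ?_
  simpa using rpow_le_rpow_of_exponent_le h.1 (show ew p.w ≤ 1 by linarith [(ew_bd hw).2])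

theorem sv_mono (h : Sv R M v) (hR : 0 < R) (hM : 0 < M) (hM' : M ≤ M') : Sv R M' v :=
  ⟨h.1.mono (bl_mono 0 (Nat.floor_le_floor (mul_le_mul_of_nonneg_right hM' hR.le))),
    (h.2.mono le_rfl Set.Subset.rfl hM' (by positivity)).scale (div_pos hR (hM.trans_le hM'))
      (div_le_div_of_nonneg_left hR.le hM hM')⟩

theorem sv_zero (hR : 0 < R) (hM : 0 < M) : Sv R M 0 :=
  ⟨fun _ _ => rfl, Sm.zero' 3 _ hM.le (by positivity)⟩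

theorem E0_le (h : Sv R M v) (hR : 1 ≤ R) (hM : 1 ≤ M) : E0 (bl 0 ⌊M * R⌋₊) v ≤ 54 * M ^ 6 := by
  have h1 : (⌊M * R⌋₊ : ℝ) ≤ M * R := Nat.floor_le (by positivity)
  have h2 : 1 ≤ M * R := one_le_mul_of_one_le_of_one_le hM hR
  have h3 : ((bl (0 : Pt) ⌊M * R⌋₊).card : ℝ) ≤ (3 * (M * R)) ^ 2 := by
    rw [card_bl]; push_cast; exact pow_le_pow_left₀ (by positivity) (by linarith) 2
  refine (B80.E0_le h.1 fun e he x _ => h.2.one (by norm_num) he trivial).trans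
    ((mul_le_mul_of_nonneg_left h3 (by positivity)).trans_eq ?_)
  field_simp
  ring

theorem f2_up {m : ℕ} {f : Pt → ℝ} {a b : ℝ} (h : F2 (nnL.edI (bl 0 m)) f a) (hm : m ≤ n) (hb : a ≤ b) :
    F2 (nnL.edI (bl 0 n)) f b := (h.subset (Lat.edI_mono (bl_mono 0 hm))).mono hb

theorem chq {f : Pt → ℝ} {a : ℝ} (h : F2 (nnL.edI (bl 0 n)) f a) (hn : n ≤ N) : Chq (bl 0 N) f 0 :=
  (chq_flow h).mono (bl_mono 0 hn)

/-- second moment of a flow -/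
theorem two (h : Env p Λ ω L N) {f : Pt → ℝ} {a : ℝ} (hf : F2 (nnL.edI (bl 0 n)) f a) (hn : n ≤ N) :
    ω (fun s => pr f s ^ 2) ≤ p.F.τ₂ * a := by
  obtain ⟨m, hm⟩ := h.amb 0
  rw [hm.ex_eq ((ins_pr (chq hf hn)).pow 2)]
  exact (B80.mo_amb h.ok hm.1 (bl_mono 0 hn) hf).two.trans
    (mul_le_mul_of_nonneg_right h.mem.2.2.2 hf.nonneg)

theorem τ_pos (h : Env p Λ ω L N) : 0 < p.F.τ₂ := h.ok.pos.trans_le h.mem.2.2.2

theorem ins_X (h : Sv R M v) (hN : ⌊M * R⌋₊ + 1 ≤ N) : Ins 0 N (X v) := ins_A0 h.1 hN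

theorem X_two (h : Env p Λ ω L N) (hv : Sv R M v) (hR : 1 ≤ R) (hM : 1 ≤ M) (hN : ⌊M * R⌋₊ + 1 ≤ N) :
    ω (fun s => X v s ^ 2) ≤ p.F.τ₂ * (54 * M ^ 6) :=
  two h ((B80.f2_A0 hv.1).mono (E0_le hv hR hM)) hN

theorem XX_le (h : Env p Λ ω L N) (hv : Sv R M v) (hv' : Sv R M v') (hR : 1 ≤ R) (hM : 1 ≤ M)
    (hN : ⌊M * R⌋₊ + 1 ≤ N) : |ω fun s => X v s * X v' s| ≤ p.F.τ₂ * (54 * M ^ 6) := by
  refine (h.abs_ex_mul_le (ins_X hv hN) (ins_X hv' hN)).trans ?_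
  have := τ_pos h
  rw [← mul_self_sqrt (show 0 ≤ p.F.τ₂ * (54 * M ^ 6) by positivity)]
  exact mul_le_mul (sqrt_le_sqrt (X_two h hv hR hM hN)) (sqrt_le_sqrt (X_two h hv' hR hM hN))
    (sqrt_nonneg _) (sqrt_nonneg _)

theorem floor_lt {K : ℕ} (hR : 1 ≤ R) (hM : 2 ≤ M) (hK : 7 ≤ K) :
    32 * (M * R) ≤ ⌊M ^ K * R⌋₊ ∧ ⌊M * R⌋₊ + 1 ≤ ⌊M ^ K * R⌋₊ := by
  have h1 : 64 * M ≤ M ^ K := by
    have : (2 : ℝ) ^ 6 ≤ M ^ 6 := pow_le_pow_left₀ (by norm_num) hM 6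
    have : M ^ 7 ≤ M ^ K := pow_le_pow_right₀ (by linarith) hK
    nlinarith
  have h2 := Nat.lt_floor_add_one (M ^ K * R)
  have h3 : (⌊M * R⌋₊ : ℝ) ≤ M * R := Nat.floor_le (by positivity)
  have h4 : 2 ≤ M * R := by nlinarith
  have h5 := mul_le_mul_of_nonneg_right h1 (show 0 ≤ R by linarith)
  exact ⟨by linarith, by exact_mod_cast (show (⌊M * R⌋₊ : ℝ) + 1 ≤ ⌊M ^ K * R⌋₊ by linarith)⟩

end X81

/-- two patterns at once -/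
theorem Xp.and {f₁ f₂ : Sta → ℝ → ℝ → ℝ → ℝ → Prop} (h₁ : Xp f₁) (h₂ : Xp f₂) :
    Xp fun ω R M C ε => ∃ C₁ ε₁ C₂ ε₂, C₁ ≤ C ∧ C₂ ≤ C ∧ ε₁ ≤ ε ∧ ε₂ ≤ ε ∧
      f₁ ω R M C₁ ε₁ ∧ f₂ ω R M C₂ ε₂ := fun p => by
  obtain ⟨C₁, n₁, c1, h₁⟩ := h₁ p
  obtain ⟨C₂, n₂, c2, h₂⟩ := h₂ p
  refine ⟨C₁ + C₂, n₁ + n₂, by linarith, fun Λ ω L N hE R Y M hM g1 g2 m2 y1 l1 => ?_⟩
  have Y0 := (X81.Y_pos hM).le
  have R0 : 0 ≤ R := by linarith [hM.1]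
  have key : ∀ (C : ℝ) (n : ℕ), 0 ≤ C → C ≤ C₁ + C₂ → n ≤ n₁ + n₂ → C * M ^ n * Y ≤ 1 ∧
      C * M ^ n * R ≤ L ∧ C * (M ^ n * Y ^ (1 / 4 : ℝ) + 1 / M) ≤
        (C₁ + C₂) * (M ^ (n₁ + n₂) * Y ^ (1 / 4 : ℝ) + 1 / M) := fun C n h0 h1 h2 => by
    have a : M ^ n ≤ M ^ (n₁ + n₂) := pow_le_pow_right₀ (by linarith) h2
    refine ⟨le_trans ?_ y1, le_trans ?_ l1, ?_⟩ <;> gcongr
  obtain ⟨a1, a2, a3⟩ := key C₁ n₁ (by linarith) (by linarith) (by omega)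
  obtain ⟨b1, b2, b3⟩ := key C₂ n₂ (by linarith) (by linarith) (by omega)
  exact ⟨_, _, _, _, by linarith, by linarith, a3, b3, h₁ Λ ω L N hE R Y M hM g1 g2 m2 a1 a2,
    h₂ Λ ω L N hE R Y M hM g1 g2 m2 b1 b2⟩

/-- use a pattern at the ratio `M ^ (K + 1)`; polynomial losses `c M ^ K` are free -/
theorem Xp.lift {f g : Sta → ℝ → ℝ → ℝ → ℝ → Prop} (h : Xp f)
    (H : ∀ p : Par, ∃ (K : ℕ) (c : ℝ), 1 ≤ c ∧ ∀ Λ ω L N, Env p Λ ω L N → ∀ R M C' ε' C ε : ℝ, 1 ≤ R →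
      2 ≤ M → c * M ^ (K + 1) ≤ R → c * M ^ (K + 1) * R ≤ L → 1 / 4 ≤ gk ω R → gk ω R ≤ 1 → 0 ≤ ε' →
      c * M ^ K * ε' ≤ ε → c / M ≤ ε → c * C' ≤ C → c ≤ C → f ω R (M ^ (K + 1)) C' ε' → g ω R M C ε) :
    Xp g := fun p => by
  obtain ⟨C₀, n₀, c0, h⟩ := h p
  obtain ⟨K, c, c1, H⟩ := H p
  have cc : 1 ≤ c * C₀ := one_le_mul_of_one_le_of_one_le c1 c0
  refine ⟨c * C₀, (K + 1) * n₀ + (K + 1), cc, fun Λ ω L N hE R Y M hM g1 g2 m2 y1 l1 => ?_⟩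
  have Y0 := (X81.Y_pos hM).le
  have R0 : 0 ≤ R := by linarith [hM.1]
  have M1 : 1 ≤ M := by linarith
  have a1 : C₀ * (M ^ (K + 1)) ^ n₀ ≤ c * C₀ * M ^ ((K + 1) * n₀ + (K + 1)) := by
    rw [← pow_mul]
    exact mul_le_mul (le_mul_of_one_le_left (by linarith) c1) (pow_le_pow_right₀ M1 (by omega))
      (by positivity) (by positivity)
  have a2 : c * M ^ (K + 1) ≤ c * C₀ * M ^ ((K + 1) * n₀ + (K + 1)) :=
    mul_le_mul (le_mul_of_one_le_right (by linarith) c0) (pow_le_pow_right₀ M1 (by omega))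
      (by positivity) (by positivity)
  have y4 : 0 ≤ Y ^ (1 / 4 : ℝ) := rpow_nonneg Y0 _
  have m0 : 0 ≤ M ^ ((K + 1) * n₀ + (K + 1)) * Y ^ (1 / 4 : ℝ) := by positivity
  refine H Λ ω L N hE R M C₀ _ _ _ hM.1 m2
    (a2.trans (X81.big hE.w4 hM y1 (by positivity))) ((mul_le_mul_of_nonneg_right a2 R0).trans l1) g1 g2
    (by positivity) ?_ ?_ le_rfl (le_mul_of_one_le_right (by linarith) c0)
    (h Λ ω L N hE R Y _ hM g1 g2 (m2.trans (le_self_pow₀ M1 (by omega)))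
      ((mul_le_mul_of_nonneg_right a1 Y0).trans y1) ((mul_le_mul_of_nonneg_right a1 R0).trans l1))
  · have e : c * M ^ K * (C₀ * ((M ^ (K + 1)) ^ n₀ * Y ^ (1 / 4 : ℝ) + 1 / M ^ (K + 1))) =
        c * C₀ * (M ^ ((K + 1) * n₀ + K) * Y ^ (1 / 4 : ℝ) + 1 / M) := by
      rw [← pow_mul, pow_add M ((K + 1) * n₀), pow_succ M K]
      field_simp
    rw [e]
    have : M ^ ((K + 1) * n₀ + K) ≤ M ^ ((K + 1) * n₀ + (K + 1)) := pow_le_pow_right₀ M1 (by omega)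
    gcongr
  · rw [div_eq_mul_one_div]
    exact mul_le_mul (le_mul_of_one_le_right (by linarith) c0) (by linarith) (by positivity) (by positivity)

end Crest.Agent.T145.Ev
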