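import Crest.Agent.T145.EvS1A_55
import Crest.Agent.T145.EvXp_81

/-!
# Row 145, even sector: scales for S1 (helper55)
-/

set_option autoImplicit false

namespace Crest.Agent.T145.Ev

open Finset Pot Xi Real Fl

namespace S55

/-- the Gaussian values at `M = t ^ (-m)` -/
theorem xp {f : Sta → ℝ → ℝ → ℝ → ℝ → Prop} (h : Xp f) (p : Par) {m : ℕ} (hm : m ≠ 0) :
    ∃ (C : ℝ) (n : ℕ), 1 ≤ C ∧ ∀ (W : ℕ) (D₀ : ℝ) (E : Dt) (R Y P t : ℝ) (n' : ℕ), E.Bs p W D₀ R Y P →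
      0 < t → 2 * C * t ≤ 1 → n ≤ n' → Y ≤ t ^ n' → R ≤ t ^ n' * E.L →
      ∃ ε, ε ≤ 2 * C * t ^ m ∧ f E.ω R (t⁻¹ ^ m) C ε := by
  obtain ⟨C, n, hC, h⟩ := h p
  refine ⟨C, (m * n + m) * 4, hC, fun W D₀ E R Y P t n' hB ht hCt hn hY hR => ?_⟩
  have t1 : t ≤ 1 := by nlinarith
  have Y0 := X81.Y_pos hB.maj
  have hw := hB.ed.w4
  have he := N3.ew_le hw
  have hc := abs_le.1 hB.crit
  have p3 := pi_gt_three
  have p4 := pi_lt_four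
  have e := N3.inv_pow_mul ht m n m
  have k1 : t ^ n' ≤ t ^ (m * n + m) := N3.pow_anti ht t1 (by omega)
  have k2 : C * t ^ m ≤ 1 := by
    have := pow_le_of_le_one ht.le t1 hm
    nlinarith
  have M0 : 0 < (t⁻¹ ^ m) ^ n := by positivity
  have k3 : Y ^ (1 / 4 : ℝ) ≤ t ^ (m * n + m) := by
    calc Y ^ (1 / 4 : ℝ) ≤ ((t ^ (m * n + m)) ^ 4) ^ (1 / 4 : ℝ) := by
          gcongr; rw [← pow_mul]; exact hY.trans (N3.pow_anti ht t1 hn)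
      _ = _ := by rw [one_div]; exact pow_rpow_inv_natCast (by positivity) (by norm_num)
  refine ⟨_, ?_, h E.Λ E.ω E.L E.N hB.ed.toEnv R Y (t⁻¹ ^ m) hB.maj (by nlinarith) (by nlinarith) ?_ ?_ ?_⟩
  · have := mul_le_mul_of_nonneg_left k3 M0.le
    rw [e] at this
    rw [one_div (t⁻¹ ^ m), ← inv_pow, inv_inv]
    nlinarith
  · refine le_trans ?_ (le_self_pow₀ ((one_le_inv₀ ht).2 t1) hm)
    rw [le_inv_comm₀ two_pos ht]; nlinarith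
  · calc C * (t⁻¹ ^ m) ^ n * Y ≤ C * (t⁻¹ ^ m) ^ n * t ^ (m * n + m) := by gcongr; exact hY.trans k1
      _ ≤ 1 := by rw [mul_assoc, e]; exact k2
  · calc C * (t⁻¹ ^ m) ^ n * R ≤ C * (t⁻¹ ^ m) ^ n * (t ^ (m * n + m) * E.L) := by
          gcongr; exact hR.trans (by gcongr)
      _ = C * ((t⁻¹ ^ m) ^ n * t ^ (m * n + m)) * E.L := by ring
      _ ≤ _ := by rw [e]; exact mul_le_of_le_one_left (Nat.cast_nonneg _) k2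

/-- the scales of the proof -/
structure Sc (w r₀ a₂ L r b : ℕ) (R t τ : ℝ) : Prop where
  f1 : 8 * (w : ℝ) ^ 2 * r₀ ≤ R * τ
  f2 : 600 * (R * τ) ≤ r
  f3 : R * t ≤ 8 * (w : ℝ) ^ 2 * r
  f4 : ((4 * (w * (w * r)) : ℕ) : ℝ) ≤ R * t
  f5 : 16 * w * (⌊t⁻¹ * R⌋₊ + 1) ≤ b
  f6 : w * (2 * b + 1) ≤ L
  f7 : (b : ℝ) ≤ 2 * (R / τ)
  f8 : ((4 * (w * (w * a₂)) : ℕ) : ℝ) + 2 ≤ R * τ
  f9 : 4 * (w * (w * r)) ≤ ⌊t⁻¹ * R⌋₊
  f10 : ((⌊t⁻¹ * R⌋₊ + 1 : ℕ) : ℝ) ≤ 2 * (t⁻¹ * R)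

set_option maxHeartbeats 1000000 in
theorem scales {w r₀ a₂ L : ℕ} {R t τ : ℝ} (hw : 4 ≤ w) (R1 : 1 ≤ R) (ht : 0 < t)
    (hC : 4800 * (w : ℝ) ^ 2 * t ≤ 1) (τ0 : 0 < τ) (τt : τ ≤ t ^ 2) (h0 : r₀ ≤ a₂) (h8 : 1 ≤ a₂)
    (h2 : (a₂ : ℝ) ≤ R * τ * t) (hL : R ≤ τ * t * L) : ∃ r, Sc w r₀ a₂ L r ⌈R / τ⌉₊ R t τ := by
  have w4 : (4 : ℝ) ≤ w := by exact_mod_cast hw
  have w16 : (16 : ℝ) ≤ (w : ℝ) ^ 2 := by nlinarith
  have ww : (w : ℝ) ≤ (w : ℝ) ^ 2 := by nlinarith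
  have t1 : 76800 * t ≤ 1 := by nlinarith
  have a1 : (1 : ℝ) ≤ a₂ := by exact_mod_cast h8
  have a0 : (r₀ : ℝ) ≤ a₂ := by exact_mod_cast h0
  obtain ⟨ρ, hρ⟩ : ∃ ρ, ρ = R * τ := ⟨_, rfl⟩
  rw [← hρ] at h2
  have ρ0 : 0 < ρ := by rw [hρ]; positivity
  have ρ1 : 76800 ≤ ρ := by nlinarith
  have ρ2 : 4800 * ((w : ℝ) ^ 2 * a₂) ≤ ρ := by
    have : (w : ℝ) ^ 2 * a₂ ≤ (w : ℝ) ^ 2 * (ρ * t) := by gcongr
    nlinarith
  have ρ3 : ρ ≤ R * t * t := by rw [hρ, mul_assoc, ← pow_two]; gcongr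
  obtain ⟨x, hx⟩ : ∃ x, x = R * t / (4 * (w : ℝ) ^ 2) := ⟨_, rfl⟩
  have x1 : 4 * (w : ℝ) ^ 2 * x = R * t := by rw [hx]; field_simp
  have x0 : 0 < x := by rw [hx]; positivity
  have x2 : 1200 * ρ ≤ x := by
    have : R * t * t = x * (4 * (w : ℝ) ^ 2 * t) := by rw [← x1]; ring
    nlinarith
  have r1 := Nat.floor_le x0.le
  have r2 := Nat.lt_floor_add_one x
  have T1 : 1 ≤ t⁻¹ := (one_le_inv₀ ht).2 (by linarith)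
  have T2 : 1 ≤ t⁻¹ * R := one_le_mul_of_one_le_of_one_le T1 R1
  have T3 := Nat.floor_le (show 0 ≤ t⁻¹ * R by positivity)
  have b1 := Nat.le_ceil (R / τ)
  have b2 := Nat.ceil_lt_add_one (show 0 ≤ R / τ by positivity)
  have b3 : t⁻¹ * R ≤ t * (R / τ) := by
    rw [← mul_div_assoc, le_div_iff₀ τ0]
    calc t⁻¹ * R * τ ≤ t⁻¹ * R * t ^ 2 := by gcongr
      _ = _ := by field_simp
  have b0 : 0 < R / τ := by positivity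
  have b4 : 1 ≤ R / τ := by nlinarith
  have b5 : R / τ ≤ t * L := by rw [div_le_iff₀ τ0]; linarith
  have f4 : ((4 * (w * (w * ⌊x⌋₊)) : ℕ) : ℝ) ≤ R * t := by
    push_cast; rw [← x1]; nlinarith
  refine ⟨⌊x⌋₊, ?_, ?_, ?_, f4, ?_, ?_, by linarith, ?_, Nat.le_floor (f4.trans ?_), by push_cast; linarith⟩
  · rw [← hρ]; nlinarith
  · rw [← hρ]; linarith
  · rw [← x1]; nlinarith
  · have : 16 * (w : ℝ) * (⌊t⁻¹ * R⌋₊ + 1) ≤ ⌈R / τ⌉₊ := by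
      calc 16 * (w : ℝ) * (⌊t⁻¹ * R⌋₊ + 1) ≤ 16 * (w : ℝ) ^ 2 * (2 * (t * (R / τ))) := by
            gcongr; linarith
        _ = 32 * (w : ℝ) ^ 2 * t * (R / τ) := by ring
        _ ≤ 1 * (R / τ) := by gcongr; nlinarith
        _ ≤ _ := by linarith
    exact_mod_cast this
  · have : (w : ℝ) * (2 * ⌈R / τ⌉₊ + 1) ≤ L := by
      calc (w : ℝ) * (2 * ⌈R / τ⌉₊ + 1) ≤ (w : ℝ) ^ 2 * (5 * (t * L)) := by gcongr; linarith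
        _ = 5 * (w : ℝ) ^ 2 * t * L := by ring
        _ ≤ 1 * L := by gcongr; nlinarith
        _ = _ := one_mul _
    exact_mod_cast this
  · rw [← hρ]; push_cast; nlinarith
  · nlinarith

theorem lr_of_sm {u : Pt → ℝ} {z : Pt} {r n : ℕ} {σ ℓ : ℝ} (h : Sm 3 (bl z (n + 2)) σ ℓ u) (hσ : 0 ≤ σ)
    (r0 : 0 < r) (hn : r ≤ n) (hℓ : (r : ℝ) ≤ ℓ) : Lr (A0 u) u z r σ := by
  have h' := h.scale (show (0 : ℝ) < r by exact_mod_cast r0) hℓ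
  refine ⟨hσ, fun y hy => ⟨rfl, fun e he e' he' => ?_⟩⟩
  have hy' : y ∈ (bl z (n + 2) : Set Pt) := bl_mono z (by omega) hy
  exact ⟨h' [e, e'] (by simp) (by simp [he, he']) y hy',
    fun e'' he'' => h' [e, e', e''] (by simp) (by simp [he, he', he'']) y hy'⟩

/-- the rate of the local expansion -/
theorem rate {w : ℕ} (hw : 4 ≤ w) {t x A : ℝ} (ht : 0 < t) (t1 : t ≤ 1) (A1 : 1 ≤ A) (x0 : 0 ≤ x)
    (hx : x * t ≤ A * t ^ nr w) : x ^ (cw w / 4) ≤ A * t ^ 26 := by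
  have hc := N3.cw_pos hw
  have hc' := N3.cw_le hw
  have h1 : x ≤ A * t ^ ((nr w : ℝ) - 1) := by
    rw [rpow_sub_one ht.ne', rpow_natCast, ← mul_div_assoc, le_div_iff₀ ht]; exact hx
  calc x ^ (cw w / 4) ≤ (A * t ^ ((nr w : ℝ) - 1)) ^ (cw w / 4) := by gcongr
    _ = A ^ (cw w / 4) * t ^ (((nr w : ℝ) - 1) * (cw w / 4)) := by
        rw [mul_rpow (by linarith) (by positivity), ← rpow_mul ht.le]
    _ ≤ A ^ (1 : ℝ) * t ^ ((26 : ℕ) : ℝ) := by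
        refine mul_le_mul (rpow_le_rpow_of_exponent_le A1 (by linarith))
          (rpow_le_rpow_of_exponent_ge ht t1 ?_) (by positivity) (by positivity)
        have := N3.nr_cw' hw
        push_cast; linarith
    _ = _ := by rw [rpow_one, rpow_natCast]

/-- the size of the coefficients -/
theorem coef {p : Par} {E : Dt} {R P t α₁ α₂ : ℝ} {a₁ a₂ : ℕ} (hw : 4 ≤ p.w)
    (h : E.Dc p R P t a₁ a₂ α₁ α₂) (R0 : 0 < R) (P0 : 0 ≤ P) (ht : 0 < t) (t1 : t ≤ 1) :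
    max |α₁| |α₂| * (a₁ : ℝ) ^ 2 * t ^ nr p.w ≤ P := by
  have he := N3.ew_le hw
  have he0 := N3.ew_pos hw
  obtain ⟨τ, hτ⟩ : ∃ τ, τ = t ^ nr p.w := ⟨_, rfl⟩
  have τ0 : 0 < τ := by rw [hτ]; positivity
  have τ1 : τ ≤ 1 := by rw [hτ]; exact pow_le_one₀ ht.le t1
  have lo := h.lo
  rw [mul_comm 24, pow_mul, ← hτ] at lo
  have a0 : (0 : ℝ) < a₁ := lt_of_lt_of_le (by positivity) lo
  have h1 : R / a₁ ≤ τ⁻¹ ^ 24 := by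
    rw [div_le_iff₀ a0, inv_pow, ← div_eq_inv_mul, le_div_iff₀ (by positivity)]; exact lo
  have T1 : 1 ≤ τ⁻¹ := (one_le_inv₀ τ0).2 τ1
  have h2 : (R / a₁) ^ (3 * ew p.w) ≤ τ⁻¹ := by
    calc _ ≤ (τ⁻¹ ^ 24) ^ (3 * ew p.w) := by gcongr
      _ = τ⁻¹ ^ ((24 : ℕ) * (3 * ew p.w)) := by rw [← rpow_natCast, ← rpow_mul (by positivity)]
      _ ≤ τ⁻¹ ^ (1 : ℝ) := rpow_le_rpow_of_exponent_le T1 (by push_cast; linarith)
      _ = _ := rpow_one _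
  rw [← hτ, ← le_div_iff₀ τ0, div_eq_mul_inv]
  exact h.b.trans (by gcongr)

end S55

end Crest.Agent.T145.Ev
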