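import Crest.Agent.T145.EvS1B_55

/-!
# Row 145, even sector: one site of S1 (helper55)
-/

set_option autoImplicit false

namespace Crest.Agent.T145.Ev

open Finset Pot Xi Real Fl

namespace S55

theorem numA {A P P₀ K R r t σ Q x : ℝ} (A1 : 1 ≤ A) (P1 : 1 ≤ P) (P0 : 0 ≤ P₀) (K0 : 0 ≤ K) (R0 : 0 < R)
    (ht : 0 < t) (t1 : t ≤ 1) (hσ : 0 ≤ σ) (hr : R * t ≤ A * r) (hQ : Q ≤ P * (A * t⁻¹))
    (x0 : 0 ≤ x) (hx : x ≤ A * t ^ 26) :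
    σ * ((Q + P₀) * x / r ^ 2) * (K * t⁻¹ ^ 3) ≤ (A + P₀) * A ^ 3 * K * P / R ^ 2 * (σ * t ^ 20) := by
  have r0 : 0 < r := by nlinarith [mul_pos R0 ht]
  have T1 : 1 ≤ t⁻¹ := (one_le_inv₀ ht).2 t1
  have h1 : Q + P₀ ≤ (A + P₀) * P * t⁻¹ := by
    have : P₀ * 1 ≤ P₀ * (P * t⁻¹) := by gcongr; exact one_le_mul_of_one_le_of_one_le P1 T1
    linarith
  have h2 : 1 / r ^ 2 ≤ A ^ 2 / (R * t) ^ 2 := by
    rw [div_le_div_iff₀ (by positivity) (by positivity), one_mul, ← mul_pow]; gcongr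
  calc _ = σ * ((Q + P₀) * x * (1 / r ^ 2)) * (K * t⁻¹ ^ 3) := by ring
    _ ≤ σ * ((A + P₀) * P * t⁻¹ * (A * t ^ 26) * (A ^ 2 / (R * t) ^ 2)) * (K * t⁻¹ ^ 3) := by gcongr
    _ = _ := by field_simp

theorem numC {α₁ α₂ A a P R t τ K C₁ C₂ ε₁ ε₂ c₁ c₂ g : ℝ} (h1 : |α₁| ≤ A) (h2 : |α₂| ≤ A) (R0 : 0 < R)
    (ht : 0 < t) (t1 : t ≤ 1) (τ0 : 0 < τ) (τt : τ ≤ t ^ 2) (hA : A * a ^ 2 * τ ≤ P) (lo : R * τ ^ 24 ≤ a)
    (hi : a ≤ R * τ ^ 10) (K0 : 0 ≤ K) (C1 : 0 ≤ C₁) (C2 : 0 ≤ C₂) (e1 : ε₁ ≤ 2 * C₁ * (τ ^ 51 * t ^ 9))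
    (e2 : ε₂ ≤ 2 * C₂ * (τ ^ 51 * t ^ 9))
    (k1 : |c₁ + g| ≤ ε₁ + C₁ * (a ^ 2 * (t⁻¹ / (R / t⁻¹) ^ 2) *
      (a * (K * t⁻¹ / (R / t⁻¹)) + a ^ 2 * (t⁻¹ / (R / t⁻¹) ^ 2)))) (k2 : |c₂| ≤ ε₂) :
    |α₁ * c₁ + α₂ * c₂ + α₁ * g| ≤ (C₁ * (K + 3) + 2 * C₂) * P / R ^ 2 * (τ ^ 2 * t ^ 9) := by
  have A0 : 0 ≤ A := (abs_nonneg _).trans h1
  have a0 : 0 < a := lt_of_lt_of_le (by positivity) lo
  have P0 : 0 ≤ P := le_trans (by positivity) hA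
  have τ1 : τ ≤ t := τt.trans (by nlinarith)
  have b1 : A * τ ^ 49 ≤ P / R ^ 2 := by
    rw [le_div_iff₀ (by positivity)]
    calc A * τ ^ 49 * R ^ 2 = A * (R * τ ^ 24) ^ 2 * τ := by ring
      _ ≤ A * a ^ 2 * τ := by gcongr
      _ ≤ P := hA
  have b2 : A * (τ ^ 51 * t ^ 9) ≤ P / R ^ 2 * (τ ^ 2 * t ^ 9) := by
    calc _ = A * τ ^ 49 * (τ ^ 2 * t ^ 9) := by ring
      _ ≤ _ := by gcongr
  have b3 : a * (K * t⁻¹ / (R / t⁻¹)) ≤ K * (τ ^ 10 / t ^ 2) := by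
    calc _ ≤ R * τ ^ 10 * (K * t⁻¹ / (R / t⁻¹)) := by gcongr
      _ = _ := by field_simp
  have b4 : a ^ 2 * (t⁻¹ / (R / t⁻¹) ^ 2) ≤ τ ^ 10 / t ^ 2 := by
    calc _ ≤ (R * τ ^ 10) ^ 2 * (t⁻¹ / (R / t⁻¹) ^ 2) := by gcongr
      _ = τ ^ 10 / t ^ 2 * (τ ^ 9 * (τ / t)) := by field_simp
      _ ≤ τ ^ 10 / t ^ 2 * (1 * 1) := by
          gcongr
          · exact pow_le_one₀ τ0.le (τ1.trans t1)
          · exact (div_le_one ht).2 τ1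
      _ = _ := by ring
  have b5 : A * (a ^ 2 * (t⁻¹ / (R / t⁻¹) ^ 2) * (a * (K * t⁻¹ / (R / t⁻¹)) +
      a ^ 2 * (t⁻¹ / (R / t⁻¹) ^ 2))) ≤ (K + 1) * (P / R ^ 2 * (τ ^ 2 * t ^ 9)) := by
    calc _ ≤ A * (a ^ 2 * (t⁻¹ / (R / t⁻¹) ^ 2) * (K * (τ ^ 10 / t ^ 2) + τ ^ 10 / t ^ 2)) := by gcongr
      _ = (K + 1) * (A * a ^ 2 * τ / R ^ 2 * (τ ^ 2 * (τ ^ 7 / t ^ 5))) := by field_simp
      _ ≤ (K + 1) * (P / R ^ 2 * (τ ^ 2 * ((t ^ 2) ^ 7 / t ^ 5))) := by gcongr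
      _ = _ := by field_simp
  have ε0 : 0 ≤ ε₂ := (abs_nonneg _).trans k2
  calc _ = |α₁ * (c₁ + g) + α₂ * c₂| := by congr 1; ring
    _ ≤ |α₁| * |c₁ + g| + |α₂| * |c₂| := by rw [← abs_mul, ← abs_mul]; exact abs_add_le _ _
    _ ≤ A * (2 * C₁ * (τ ^ 51 * t ^ 9) + C₁ * (a ^ 2 * (t⁻¹ / (R / t⁻¹) ^ 2) *
          (a * (K * t⁻¹ / (R / t⁻¹)) + a ^ 2 * (t⁻¹ / (R / t⁻¹) ^ 2)))) +
          A * (2 * C₂ * (τ ^ 51 * t ^ 9)) :=
        add_le_add (mul_le_mul h1 (k1.trans (by gcongr)) (abs_nonneg _) A0)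
          (mul_le_mul h2 (k2.trans e2) (abs_nonneg _) A0)
    _ = (2 * C₁ + 2 * C₂) * (A * (τ ^ 51 * t ^ 9)) + C₁ * (A * (a ^ 2 * (t⁻¹ / (R / t⁻¹) ^ 2) *
          (a * (K * t⁻¹ / (R / t⁻¹)) + a ^ 2 * (t⁻¹ / (R / t⁻¹) ^ 2)))) := by ring
    _ ≤ (2 * C₁ + 2 * C₂) * (P / R ^ 2 * (τ ^ 2 * t ^ 9)) +
          C₁ * ((K + 1) * (P / R ^ 2 * (τ ^ 2 * t ^ 9))) := by gcongr
    _ = _ := by ring

theorem numD {Ca Cb Cc C P R x y : ℝ} (ha : Ca ≤ C) (hb : Cb + Cc ≤ C) (hP : 0 ≤ P) (hx : 0 ≤ x)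
    (hy : 0 ≤ y) : Ca * P / R ^ 2 * x + (Cb * P / R ^ 2 * y + Cc * P / R ^ 2 * y) ≤
      C * P / R ^ 2 * (x + y) := by
  calc _ = Ca * (P / R ^ 2 * x) + (Cb + Cc) * (P / R ^ 2 * y) := by ring
    _ ≤ C * (P / R ^ 2 * x) + C * (P / R ^ 2 * y) := by gcongr
    _ = _ := by ring

set_option maxHeartbeats 1600000 in
theorem site (hN : LocNStmt) (hH : HfStmt) (h1 : X1Stmt) (h2 : X2Stmt) (hD : DetStmt) (hW : SwStmt)
    (hB : BasStmt) (hT : TgStmt) (p : Par) : ∃ (C : ℝ) (n : ℕ), 1 ≤ C ∧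
    ∀ (W : ℕ) (D₀ : ℝ) (E : Dt) (R Y P t : ℝ) (n' : ℕ), E.Bs p W D₀ R Y P → 0 < t → C * t ≤ 1 → n ≤ n' →
    Y ≤ t ^ n' → R ≤ t ^ n' * E.L → ∀ a₁ a₂ α₁ α₂, E.Dc p R P t a₁ a₂ α₁ α₂ →
    ∀ u u', Sv R t⁻¹ u → Sv R t⁻¹ u' → ∀ (z : Pt) (σ : ℝ), z ∈ bl 0 ⌈R / t ^ nr p.w⌉₊ →
      (∀ y ∈ bl z ⌈R * t⌉₊, A0 u' y = 0) → 0 ≤ σ → σ ≤ t⁻¹ →
      Sm 3 (bl z (⌊t⁻¹ * R⌋₊ + 2)) σ (R / t⁻¹) u →
      |E.ω (fun s => X u s * X u' s * E.e z s) + E.bb R a₁ α₁ * gr u u' z| ≤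
        C * P / R ^ 2 * (σ * t ^ 20 + (t ^ nr p.w) ^ 2 * t ^ 9) := by
  obtain ⟨CA, hCA, hA⟩ := termA hN hH hW p
  obtain ⟨CB, hCB, hBB⟩ := termB hH p
  obtain ⟨C₁, n₁, hC₁, h1⟩ := xp h1 p (m := nr p.w * 51 + 9) (by omega)
  obtain ⟨C₂, n₂, hC₂, h2⟩ := xp h2 p (m := nr p.w * 51 + 9) (by omega)
  obtain ⟨CD, hCD, hD, -⟩ := hD
  obtain ⟨CS, hCS, hW⟩ := hW
  obtain ⟨P₀, hP₀, hB⟩ := hB p
  obtain ⟨_, _, -, -, hT⟩ := hT
  obtain ⟨K, hK⟩ : ∃ K, K = 109 + 2 * CS + CD := ⟨_, rfl⟩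
  have K1 : 1 ≤ K := by linarith
  obtain ⟨A, hAw⟩ : ∃ A, A = 8 * (p.w : ℝ) ^ 2 := ⟨_, rfl⟩
  have A0' : 0 ≤ A := by rw [hAw]; positivity
  obtain ⟨Ca, hCa⟩ : ∃ Ca, Ca = CA * ((A + P₀) * A ^ 3 * K) := ⟨_, rfl⟩
  obtain ⟨Cb, hCb⟩ : ∃ Cb, Cb = CB * K ^ 2 := ⟨_, rfl⟩
  obtain ⟨Cc, hCc⟩ : ∃ Cc, Cc = C₁ * (K + 3) + 2 * C₂ := ⟨_, rfl⟩
  have Ca0 : 0 ≤ Ca := by rw [hCa]; positivity
  have Cb0 : 0 ≤ Cb := by rw [hCb]; positivity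
  have Cc1 : 2 * C₁ ≤ Cc := by rw [hCc]; nlinarith
  have Cc2 : 2 * C₂ ≤ Cc := by rw [hCc]; nlinarith
  refine ⟨Ca + Cb + Cc + 600 * A + K, n₁ + n₂ + nr p.w + 1, by linarith, ?_⟩
  intro W D₀ E R Y P t n' hE ht hCt hn hY hR a₁ a₂ α₁ α₂ hDc u u' hu hu' z σ hz h0 hσ hσt hsm
  have hEn : Env p E.Λ E.ω E.L E.N := hE.ed.toEnv
  have hG : Gs p E.Λ E.L := hEn.toGs
  have hw := hG.w4
  have w4 : (4 : ℝ) ≤ p.w := by exact_mod_cast hw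
  have A1 : 128 ≤ A := by rw [hAw]; nlinarith
  have R1 : 1 ≤ R := hE.maj.1
  have R0 : 0 < R := by linarith
  have P1 := hE.P1
  have small : ∀ c : ℝ, c ≤ Ca + Cb + Cc + 600 * A + K → c * t ≤ 1 := fun c hc =>
    (mul_le_mul_of_nonneg_right hc ht.le).trans hCt
  have t4 : 4 * t ≤ 1 := small _ (by linarith)
  have t1 : t ≤ 1 := by linarith
  have T1 : 1 ≤ t⁻¹ := (one_le_inv₀ ht).2 t1
  have hn0 := N3.nr_ge hw
  have hcoef := coef hw hDc R0 (by linarith) ht t1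
  have hrate := fun {x : ℝ} => rate hw (x := x) (A := A) ht t1 (by linarith)
  obtain ⟨lo, hi, le, up, r1, -, hnu⟩ := hDc
  obtain ⟨ε₁, e1, h1⟩ := h1 W D₀ E R Y P t n' hE ht (small _ (by linarith)) (by omega) hY hR
  obtain ⟨ε₂, e2, h2⟩ := h2 W D₀ E R Y P t n' hE ht (small _ (by linarith)) (by omega) hY hR
  have hL : R ≤ t ^ nr p.w * t * E.L := by
    rw [← pow_succ]; exact hR.trans (by gcongr ?_ * _; exact N3.pow_anti ht t1 (by omega))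
  have τt : t ^ nr p.w ≤ t ^ 2 := N3.pow_anti ht t1 (by omega)
  have hM : t⁻¹ ^ (nr p.w * 51 + 9) = ((t ^ nr p.w) ^ 51 * t ^ 9)⁻¹ := by
    rw [inv_pow, pow_add, pow_mul]
  rw [hM] at h1 h2
  rw [pow_add, pow_mul] at e1 e2
  rw [mul_comm 24, pow_mul] at lo
  rw [mul_comm 10, pow_mul] at hi
  rw [pow_succ, ← mul_assoc] at up
  rw [pow_add, mul_comm 2, pow_mul] at hnu
  have τ0 : 0 < t ^ nr p.w := by positivity
  generalize t ^ nr p.w = τ at *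
  have τ1 : τ ≤ t := τt.trans (pow_le_of_le_one ht.le t1 two_ne_zero)
  have r0 := hE.r0
  have r8 := hE.r8
  obtain ⟨r, S⟩ := scales (r₀ := p.r₀) hw R1 ht (by
    have := small (600 * A) (by linarith); rw [hAw] at this; linarith) τ0 τt (by omega) (by omega) up hL
  obtain ⟨f1, f2, f3, f4, f5, f6, f7, f8, f9, f10⟩ := S
  generalize ⌈R / τ⌉₊ = b at *
  obtain ⟨b₀, hb₀⟩ : ∃ b₀, b₀ = ⌊t⁻¹ * R⌋₊ := ⟨_, rfl⟩
  have eu0 := X81.E0_le hu R1 T1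
  have eu' := X81.E0_le hu' R1 T1
  have su := hu.1
  have su' := hu'.1
  rw [← hb₀] at f5 f9 f10 eu0 eu' su su' hsm
  have hℓ : R / t⁻¹ = R * t := by rw [div_inv_eq_mul]
  have g1 := Nat.mul_le_mul_right r hw
  have g2 := Nat.mul_le_mul_right (p.w * r) hw
  have g3 := Nat.mul_le_mul_right a₂ hw
  have g4 := Nat.mul_le_mul_right (p.w * a₂) hw
  have g5 : 64 * (b₀ + 1) ≤ b := le_trans (Nat.mul_le_mul_right _ (by omega)) f5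
  have g6 := Nat.mul_le_mul_right (2 * b + 1) hw
  have g7 := hEn.le
  have two := Lj36.gs_two hG
  have rg := Lj36.gs_rg hG
  have a8 : (8 : ℝ) ≤ a₂ := by exact_mod_cast (show 8 ≤ a₂ by omega)
  have a64 : ((64 * a₂ : ℕ) : ℝ) ≤ (4 * (p.w * (p.w * a₂)) : ℕ) := by exact_mod_cast (by omega)
  have ρ1 : 1 ≤ R * τ := by push_cast at a64; linarith
  have r600 : (600 : ℝ) ≤ r := by linarith
  have r64 : ((64 * r : ℕ) : ℝ) ≤ (4 * (p.w * (p.w * r)) : ℕ) := by exact_mod_cast (by omega)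
  have rt : 64 * (r : ℝ) ≤ R * t := by push_cast at r64 f4 ⊢; linarith
  have rpos : 0 < r := by exact_mod_cast (show (0 : ℝ) < r by linarith)
  have ar : 4 * (p.w * (p.w * a₂)) ≤ r := by
    exact_mod_cast (show ((4 * (p.w * (p.w * a₂)) : ℕ) : ℝ) ≤ r by linarith)
  have sub : bl 0 b₀ ⊆ bl z (2 * b) := bl_subset_bl (mem_bl_comm.1 hz) (by omega)
  have hLr : Lr (A0 u) u z r σ := lr_of_sm hsm hσ rpos (by omega) (by rw [hℓ]; linarith)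
  have hn2 : ⌈2 * (R * τ)⌉₊ + 1 ≤ r := by
    have := Nat.ceil_lt_add_one (show 0 ≤ 2 * (R * τ) by linarith)
    exact_mod_cast (show ((⌈2 * (R * τ)⌉₊ : ℝ) + 1) ≤ r by linarith)
  obtain ⟨ssw, esw, zsw⟩ := (hW (A0 u) u z r σ hLr rpos).2.2 (R * τ) _ ρ1 (Nat.le_ceil _) hn2
  obtain ⟨smw, gsw, -, lsw⟩ := hD u z t⁻¹ (R / t⁻¹) (R * τ) hu.2 ρ1 (by rw [hℓ]; linarith)
  obtain ⟨v, hv⟩ : ∃ v, v = sw u z (R * τ) := ⟨_, rfl⟩
  rw [← hv] at ssw esw zsw smw gsw lsw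
  have ssw' : Pot.Sup (bl z (2 * b)) v := ssw.mono (bl_mono z (by omega))
  have T3 : t⁻¹ ≤ t⁻¹ ^ 3 := le_self_pow₀ T1 (by norm_num)
  have T6 : 0 ≤ t⁻¹ ^ 6 := by positivity
  have ee : (K * t⁻¹ ^ 3) ^ 2 = K ^ 2 * t⁻¹ ^ 6 := by ring
  have KK : K * t⁻¹ ^ 6 ≤ K ^ 2 * t⁻¹ ^ 6 := by gcongr; exact le_self_pow₀ K1 two_ne_zero
  have E1' : E0 (bl z (2 * b)) u' ≤ (K * t⁻¹ ^ 3) ^ 2 := by
    rw [B80.E0_congr (su'.mono sub) su', ee]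
    have : 54 * t⁻¹ ^ 6 ≤ K * t⁻¹ ^ 6 := by gcongr; linarith
    linarith
  have E2' : E0 (bl z (2 * b)) (u - v) ≤ (K * t⁻¹ ^ 3) ^ 2 := by
    refine (E0_sub_le (su.mono sub) ssw').trans ?_
    rw [B80.E0_congr (su.mono sub) su, B80.E0_congr ssw' ssw, ee]
    have a1 : CS * σ ^ 2 * (R * τ / r) ^ 4 ≤ CS * t⁻¹ ^ 6 * 1 := by
      refine mul_le_mul (mul_le_mul_of_nonneg_left ((pow_le_pow_left₀ hσ hσt 2).trans
        (pow_le_pow_right₀ T1 (by norm_num))) hCS) (pow_le_one₀ (by positivity)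
        ((div_le_one (by linarith)).2 (by linarith))) (by positivity) (by positivity)
    have : (108 + 2 * CS) * t⁻¹ ^ 6 ≤ K * t⁻¹ ^ 6 := by gcongr; linarith
    linarith
  have ℓ0 : 0 < R / t⁻¹ := by positivity
  have ku' : ∀ y, ∀ d ∈ nn, |dif d u' y| ≤ K * t⁻¹ / (R / t⁻¹) := fun y d hd =>
    (hu'.2.one (by norm_num) hd (Set.mem_univ y)).trans (by
      gcongr; exact le_mul_of_one_le_left (by positivity) K1)
  have kv : ∀ n : ℕ, (n : ℝ) + 2 ≤ R * τ →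
      Lk (u - v) z n (K * t⁻¹ / (R / t⁻¹)) (t⁻¹ / (R / t⁻¹) ^ 2) := fun n hn y hy d hd =>
    ⟨(lsw n hn y hy d hd).1.trans (by gcongr; linarith),
      fun d' hd' => ((lsw n hn y hy d hd).2 d' hd').trans (by positivity)⟩
  have ck : ∀ c : ℕ, ((4 * c : ℕ) : ℝ) ≤ R * t → c * (K * t⁻¹ / (R / t⁻¹)) ≤ K * t⁻¹ ^ 3 := fun c hc => by
    have c0 : (0 : ℝ) ≤ c := Nat.cast_nonneg c
    push_cast at hc
    calc c * (K * t⁻¹ / (R / t⁻¹)) ≤ R / t⁻¹ * (K * t⁻¹ / (R / t⁻¹)) := by gcongr; rw [hℓ]; linarith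
      _ = K * t⁻¹ := by field_simp
      _ ≤ _ := by gcongr
  have hole : ∀ c : ℕ, (c : ℝ) ≤ R * t → ∀ y ∈ bl z c, A0 u' y = 0 := fun c hc y hy =>
    h0 y (bl_mono z (by exact_mod_cast hc.trans (Nat.le_ceil _)) hy)
  obtain ⟨-, btr, bins, bev, -, -, bnm⟩ := hB E.Λ E.ω E.L E.N hEn z
  obtain ⟨-, -, bins0, -⟩ := hB E.Λ E.ω E.L E.N hEn 0
  -- term A
  have M1 : 1 ≤ A * t⁻¹ := one_le_mul_of_one_le_of_one_le (by linarith) T1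
  have pr1 := Le60.prof_trl semiStmt hG le_rfl (bins0.mono (by omega)) (Le60.prof_rescale hw hE.prof R0
    (by linarith) M1 (r := r) (by
      rw [div_le_iff₀ (by linarith), hAw]
      calc R = R * t * t⁻¹ := by field_simp
        _ ≤ 8 * (p.w : ℝ) ^ 2 * r * t⁻¹ := by gcongr
        _ = _ := by ring) (by
      linarith [mul_le_of_le_one_right R0.le t1, le_mul_of_one_le_left R0.le M1])) z
  rw [btr] at pr1
  have tA := hA E.Λ E.ω E.L E.N hEn z r (2 * b) (R * τ) σ _ P₀ _ (K * t⁻¹ ^ 3) (E.e z) u u'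
    (bins.mono (by omega)) bev (by positivity) pr1 (by linarith)
    (fun c hc => (bnm z c (bl_mono z (by omega))).1) hLr f1 f2 (by omega) f6 (su'.mono sub) (hole _ f4) ku'
    (by positivity) E1' (ck _ f4)
  rw [← hv] at tA
  have nA := numA (K := K) (σ := σ) (r := r) (Q := P * (A * t⁻¹) ^ ew p.w) (by linarith) P1
    (by linarith : 0 ≤ P₀) (by linarith) R0 ht t1 hσ (hAw ▸ f3) (by
      gcongr
      exact (rpow_le_rpow_of_exponent_le M1 (by linarith [N3.ew_le hw])).trans_eq (rpow_one _))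
    (by positivity) (hrate (x := R * τ / r) (by positivity) (by
      rw [div_mul_eq_mul_div, div_le_iff₀ (by linarith), hAw]
      calc R * τ * t = τ * (R * t) := by ring
        _ ≤ τ * (8 * (p.w : ℝ) ^ 2 * r) := by gcongr
        _ = _ := by ring))
  have tA' : |E.ω fun s => E.e z s * X v s * X u' s| ≤ Ca * P / R ^ 2 * (σ * t ^ 20) := by
    refine tA.trans ?_
    calc _ = CA * _ := by ring
      _ ≤ CA * _ := mul_le_mul_of_nonneg_left nA hCA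
      _ = _ := by rw [hCa]; ring
  -- term B
  obtain ⟨⟨iT1, -⟩, ⟨iT2, -⟩, -⟩ := hT a₁ (by omega)
  have iTc : Ins 0 a₂ (Tc E.ω a₁ α₁ α₂) :=
    (((iT1.mono (by omega)).sub_const _).smul _).add (((iT2.mono (by omega)).sub_const _).smul _)
  have iR : Ins 0 a₂ fun s => E.e 0 s - Tc E.ω a₁ α₁ α₂ s := (bins0.mono (by omega)).sub iTc
  have f8' : ((4 * (p.w * (p.w * a₂)) : ℕ) : ℝ) ≤ R * t := by linarith
  have tB := hBB E.Λ E.ω E.L E.N hEn z a₂ (2 * b) _ (K * t⁻¹ ^ 3) _ (u - v) u' (by omega) (iR.trl z)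
    (by omega) f6 ((su.mono sub).sub ssw') (su'.mono sub)
    (fun y hy => ⟨by rw [A0_sub]; exact zsw _ (by linarith) y hy, hole _ f8' y hy⟩)
    (fun y hy d hd => ⟨(kv _ f8 y hy d hd).1, ku' y d hd⟩) (by positivity) E2' E1' (ck _ f8')
  rw [Le60.nu_trl semiStmt hG (by omega) iR le_rfl] at tB
  have tB' : |E.ω fun s => trl z (fun s => E.e 0 s - Tc E.ω a₁ α₁ α₂ s) s * (X (u - v) s * X u' s)| ≤
      Cb * P / R ^ 2 * (τ ^ 2 * t ^ 9) := by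
    refine tB.trans ?_
    calc _ ≤ CB * (P * (t ^ 16 * τ ^ 2) / R ^ 2) * (K * t⁻¹ ^ 3) ^ 2 := by gcongr
      _ = Cb * P / R ^ 2 * (τ ^ 2 * t ^ 9) * t := by rw [hCb]; field_simp
      _ ≤ _ := mul_le_of_le_one_right (by positivity) t1
  -- term C
  obtain ⟨M, hM'⟩ : ∃ M, M = (τ ^ 51 * t ^ 9)⁻¹ := ⟨_, rfl⟩
  rw [← hM'] at h1 h2
  have M0 : 0 < M := by rw [hM']; positivity
  have τ1' : τ ≤ 1 := τ1.trans t1
  have m1 : τ ^ 51 * t ^ 9 ≤ τ ^ 24 * t := by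
    gcongr ?_ * ?_
    · exact pow_le_pow_of_le_one τ0.le τ1' (by norm_num)
    · exact pow_le_of_le_one ht.le t1 (by norm_num)
  have m2 : τ ^ 24 ≤ τ := pow_le_of_le_one τ0.le τ1' (by norm_num)
  have m3 : R / M ≤ R * τ ^ 24 := by
    rw [hM', div_inv_eq_mul]
    gcongr
    exact m1.trans (mul_le_of_le_one_right (by positivity) t1)
  have m4 : t⁻¹ * τ⁻¹ ≤ M := by
    rw [hM', ← mul_inv]
    exact inv_anti₀ (by positivity) (m1.trans (by rw [mul_comm t]; gcongr))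
  have m5 : t⁻¹ * t⁻¹ ≤ M := le_trans (by gcongr) m4
  have m6 : 4 * (R / τ) ≤ M * R := by
    calc 4 * (R / τ) = 4 * t * (t⁻¹ * τ⁻¹) * R := by field_simp
      _ ≤ 1 * M * R := by gcongr
      _ = _ := by ring
  have m7 : t⁻¹ ≤ M := (le_mul_of_one_le_left (by positivity) T1).trans m5
  have m8 : 2 * b ≤ ⌊M * R⌋₊ := Nat.le_floor (by push_cast; linarith)
  have svu := X81.sv_mono hu R0 (by positivity) m7
  have svu' := X81.sv_mono hu' R0 (by positivity) m7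
  have RM : 0 < R / M := by positivity
  have m9 : R / M ≤ R * τ := m3.trans (by gcongr)
  have svv : Sv R M (u - v) := by
    refine ⟨svu.1.sub (ssw.mono (bl_subset_bl hz (by omega))), ?_⟩
    refine ((hu.2.scale RM (m9.trans (by rw [hℓ]; gcongr))).sub (smw.scale RM m9)).mono le_rfl
      Set.Subset.rfl (le_trans ?_ m5) RM
    have : K * t ≤ 1 := small _ (by linarith)
    have : K ≤ t⁻¹ := by rw [← one_div, le_div_iff₀ ht]; exact this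
    calc t⁻¹ + CD * t⁻¹ = (1 + CD) * t⁻¹ := by ring
      _ ≤ _ := by gcongr; linarith
  have a6 : ((6 * a₁ : ℕ) : ℝ) ≤ (4 * (p.w * (p.w * a₂)) : ℕ) := by exact_mod_cast (by omega)
  have aM : (a₁ : ℝ) ≤ M * R := by
    have : R * τ ^ 10 ≤ R * 1 := by gcongr; exact pow_le_one₀ τ0.le τ1'
    linarith [le_mul_of_one_le_left R0.le (T1.trans m7)]
  have zM : eu z ≤ M * R := by
    have := eu_le_of_bl hz
    rw [sub_zero] at this; linarith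
  have x1 := (h1 a₁ z (u - v) u' _ _ (m3.trans lo) aM zM svv svu' (kv _ (by linarith))
    fun y _ d hd => ⟨ku' y d hd, fun d' hd' => hu'.2.two (by norm_num) hd hd' (Set.mem_univ y)⟩).2
  have x2 := (h2 a₁ z (u - v) u' (m3.trans lo) aM zM svv svu').2.1
  rw [(gsw u').1] at x1
  have iG : Ins z E.N fun s => X (u - v) s * X u' s :=
    (ins_X ((su.mono sub).sub ssw') (by omega)).mul (ins_X (su'.mono sub) (by omega))
  have tC := numC (le_max_left |α₁| |α₂|) (le_max_right _ _) R0 ht t1 τ0 τt hcoef lo hi (by linarith)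
    (by linarith) (by linarith) e1 e2 x1 x2
  rw [← termC hEn z α₁ α₂ (iT1.mono (by omega)) (iT2.mono (by omega)) iG, ← hCc] at tC
  -- assembly
  have i1 : Ins z E.N fun s => E.e z s * X v s * X u' s :=
    ((bins.mono (by omega)).mul (ins_X ssw' (by omega))).mul (ins_X (su'.mono sub) (by omega))
  have i2 := ((iR.trl z).mono (show a₂ ≤ E.N by omega)).mul iG
  have i3 := ((iTc.trl z).mono (show a₂ ≤ E.N by omega)).mul iG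
  have dec : (fun s => X u s * X u' s * E.e z s) = fun s => E.e z s * X v s * X u' s +
      (trl z (fun s => E.e 0 s - Tc E.ω a₁ α₁ α₂ s) s * (X (u - v) s * X u' s) +
        trl z (Tc E.ω a₁ α₁ α₂) s * (X (u - v) s * X u' s)) := by
    funext s
    have : trl z (fun s => E.e 0 s - Tc E.ω a₁ α₁ α₂ s) s = E.e z s - trl z (Tc E.ω a₁ α₁ α₂) s := by
      show _ = et E.Λ E.ω z s - _
      rw [← btr]; rfl
    rw [this, X_sub]; ring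
  rw [dec, hEn.ex_add i1 (i2.add i3), hEn.ex_add i2 i3, Dt.bb,
    show α₁ * kp (gk E.ω R) a₁ / (2 * π ^ 2) * gr u u' z =
      α₁ * (kp (gk E.ω R) a₁ * gr u u' z / (2 * π ^ 2)) by ring, add_assoc, add_assoc]
  refine (abs_add_le _ _).trans ((add_le_add tA' ((abs_add_le _ _).trans (add_le_add tB' tC))).trans ?_)
  exact numD (by linarith) (by linarith) (by linarith) (by positivity) (by positivity)

end S55

end Crest.Agent.T145.Ev
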