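import Crest.Agent.T145.EvS1C_55

/-!
# Row 145, even sector: S1, two linear functionals with separated charges (helper55)
-/

set_option autoImplicit false

namespace Crest.Agent.T145.Ev

open Finset Pot Xi Real Fl S55

set_option maxHeartbeats 800000 in
theorem s1Stmt (hN : LocNStmt) (hH : HfStmt) (h1 : X1Stmt) (h2 : X2Stmt) (hF : FarEStmt) (hD : DetStmt)
    (hW : SwStmt) (hB : BasStmt) (hT : TgStmt) : S1Stmt := fun w => ⟨0, fun p W D₀ _ _ => by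
  obtain ⟨C, n, hC, hs⟩ := site hN hH h1 h2 hD hW hB hT p
  obtain ⟨CF, hCF, hF⟩ := hF p
  obtain ⟨CX, hCX, hX⟩ := nu_XX p.F
  obtain ⟨_, -, -, -, hD⟩ := hD
  obtain ⟨Cf, hCf⟩ : ∃ Cf, Cf = CF * CX * 432 := ⟨_, rfl⟩
  have Cf0 : 0 ≤ Cf := by rw [hCf]; positivity
  have w0 : 0 ≤ (p.w : ℝ) ^ 2 := by positivity
  refine ⟨250 * C + Cf + 4800 * (p.w : ℝ) ^ 2, n + nr p.w + 1, by linarith, ?_⟩
  intro E R Y P t hE ht hCt hY hR a₁ a₂ α₁ α₂ hDc u u' hu hu' hsep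
  have hEn : Env p E.Λ E.ω E.L E.N := hE.ed.toEnv
  have hG : Gs p E.Λ E.L := hEn.toGs
  have hw := hG.w4
  have R1 : 1 ≤ R := hE.maj.1
  have R0 : 0 < R := by linarith
  have P1 := hE.P1
  have small : ∀ c : ℝ, c ≤ 250 * C + Cf + 4800 * (p.w : ℝ) ^ 2 → c * t ≤ 1 := fun c hc =>
    (mul_le_mul_of_nonneg_right hc ht.le).trans hCt
  have t1 : t ≤ 1 := by linarith [small 1 (by linarith)]
  have T1 : 1 ≤ t⁻¹ := (one_le_inv₀ ht).2 t1
  have hn0 := N3.nr_ge hw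
  have hs := hs W D₀ E R Y P t _ hE ht (small _ (by linarith)) (by omega) hY hR a₁ a₂ α₁ α₂ hDc
  have hrate := fun {x : ℝ} => rate hw (x := x) (A := 2) ht t1 (by norm_num)
  have up := hDc.up
  have le := hDc.le
  have r1 := hDc.r1
  have hL : R ≤ t ^ nr p.w * t * E.L := by
    rw [← pow_succ]; exact hR.trans (by gcongr ?_ * _; exact N3.pow_anti ht t1 (by omega))
  have τt : t ^ nr p.w ≤ t ^ 2 := N3.pow_anti ht t1 (by omega)
  rw [pow_succ, ← mul_assoc] at up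
  have τ0 : 0 < t ^ nr p.w := by positivity
  generalize t ^ nr p.w = τ at *
  have τ1 : τ ≤ t := τt.trans (pow_le_of_le_one ht.le t1 two_ne_zero)
  have r0 := hE.r0
  have r8 := hE.r8
  obtain ⟨r, S⟩ := scales (r₀ := p.r₀) hw R1 ht (small _ (by linarith)) τ0 τt (by omega) (by omega) up hL
  obtain ⟨-, -, -, -, f5, f6, f7, -, -, f10⟩ := S
  have b1 := Nat.le_ceil (R / τ)
  generalize ⌈R / τ⌉₊ = b at *
  have eu0 := X81.E0_le hu R1 T1
  have eu' := X81.E0_le hu' R1 T1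
  have su := hu.1
  have su' := hu'.1
  have b2 := Nat.lt_floor_add_one (t⁻¹ * R)
  obtain ⟨b₀, hb₀⟩ : ∃ b₀, b₀ = ⌊t⁻¹ * R⌋₊ := ⟨_, rfl⟩
  rw [← hb₀] at f5 f10 eu0 eu' su su' b2 hs ⊢
  have g5 : 64 * (b₀ + 1) ≤ b := le_trans (Nat.mul_le_mul_right _ (by omega)) f5
  have g6 := Nat.mul_le_mul_right (2 * b + 1) hw
  have g7 := hEn.le
  have RT : R ≤ t⁻¹ * R := le_mul_of_one_le_left R0.le T1
  have ra : p.r₀ ≤ b₀ + 1 := by
    have a1 : (p.r₀ : ℝ) ≤ a₂ := by exact_mod_cast (show p.r₀ ≤ a₂ by omega)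
    have a2 : R * τ * t ≤ R * 1 * 1 := by gcongr; linarith
    exact_mod_cast (show (p.r₀ : ℝ) ≤ b₀ + 1 by linarith)
  have iG : Ins 0 (b₀ + 1) fun s => X u s * X u' s := (ins_X su le_rfl).mul (ins_X su' le_rfl)
  have sb : bl 0 b ⊆ E.D := (bl_mono 0 (by omega)).trans hE.ed.lo
  rw [hE.ed.der _ (iG.mono (by omega)), ← sum_sdiff sb, ← hD u u' 0 b₀ (bl 0 b) su (bl_mono 0 (by omega)),
    add_assoc, mul_sum, ← sum_add_distrib]
  -- the far part
  have far : |∑ z ∈ E.D \ bl 0 b, E.ω fun s => X u s * X u' s * et E.Λ E.ω z s| ≤ Cf * P * t ^ 7 := by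
    refine (abs_sum_le_sum_abs _ _).trans ((sum_le_sum_of_subset_of_nonneg
      (sdiff_subset_sdiff hE.ed.hi subset_rfl) fun _ _ _ => abs_nonneg _).trans
      ((hF E.Λ E.ω E.L E.N hEn R P R0 (by linarith) hE.prof (b₀ + 1) b _ ra f5 (by omega) iG).trans ?_))
    have k1 := hX p E.Λ E.L rfl hG b₀ u u' _ ra su su' eu0 eu'
    have a0 : (0 : ℝ) < (b₀ + 1 : ℕ) := by positivity
    have bτ : 0 < R / τ := by positivity
    have hc := N3.cw_pos hw
    have k2 : max (((b₀ + 1 : ℕ) : ℝ) / R) (R / (b₀ + 1 : ℕ)) ^ ew p.w ≤ 2 * t⁻¹ := by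
      have a1 : max (((b₀ + 1 : ℕ) : ℝ) / R) (R / (b₀ + 1 : ℕ)) ≤ 2 * t⁻¹ :=
        max_le ((div_le_iff₀ R0).2 (by linarith))
          (((div_le_one a0).2 (by push_cast; linarith)).trans (by linarith))
      calc _ ≤ (2 * t⁻¹) ^ ew p.w :=
            rpow_le_rpow (le_max_of_le_left (by positivity)) a1 (N3.ew_pos hw).le
        _ ≤ (2 * t⁻¹) ^ (1 : ℝ) := rpow_le_rpow_of_exponent_le (by linarith) (by linarith [N3.ew_le hw])
        _ = _ := rpow_one _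
    have k3 : ∀ c : ℕ, b ≤ c → (((b₀ + 1 : ℕ) : ℝ) / c) ^ (cw p.w / 2) ≤ 2 * t ^ 26 := fun c hc' => by
      have c1 : (b : ℝ) ≤ c := by exact_mod_cast hc'
      have c2 : ((b₀ + 1 : ℕ) : ℝ) ≤ c := by exact_mod_cast (show b₀ + 1 ≤ c by omega)
      have c0 : (0 : ℝ) < c := a0.trans_le c2
      refine (rpow_le_rpow_of_exponent_ge (by positivity) ((div_le_one c0).2 c2)
        (show cw p.w / 4 ≤ _ by linarith)).trans (hrate (by positivity) ?_)
      rw [div_mul_eq_mul_div, div_le_iff₀ c0]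
      calc ((b₀ + 1 : ℕ) : ℝ) * t ≤ 2 * (t⁻¹ * R) * t := by gcongr
        _ = 2 * τ * (R / τ) := by field_simp
        _ ≤ _ := by gcongr; linarith
    calc _ ≤ CF * (CX * (54 * t⁻¹ ^ 6)) * P * (2 * t⁻¹) * (2 * t ^ 26 + 2 * t ^ 26) := by
          gcongr
          · exact k3 _ le_rfl
          · exact k3 _ (by omega)
      _ = Cf * P * t ^ 19 := by rw [hCf]; field_simp; ring
      _ ≤ _ := mul_le_mul_of_nonneg_left (N3.pow_anti ht t1 (by norm_num)) (by positivity)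
  -- the near part
  obtain ⟨σ, hσ⟩ : ∃ σ : Pt → ℝ, σ = fun z => if z ∈ bl 0 (2 * b₀ + 5) then t⁻¹ else 0 := ⟨_, rfl⟩
  have σ0 : ∀ z, 0 ≤ σ z ∧ σ z ≤ t⁻¹ := fun z => by
    rw [hσ]; dsimp only; split_ifs <;> constructor <;> linarith
  have sm : ∀ v, Pot.Sup (bl 0 b₀) v → Sm 3 Set.univ t⁻¹ (R / t⁻¹) v → ∀ z,
      Sm 3 (bl z (b₀ + 2)) (σ z) (R / t⁻¹) v := fun v hv hv' z => by
    rw [hσ]; dsimp only; split_ifs with hz
    · exact hv'.mono le_rfl (Set.subset_univ _) le_rfl (by positivity)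
    · refine (Sm.zero' 3 _ le_rfl (by positivity)).congr fun y hy x hx => hv x fun hx' => hz ?_
      rw [mem_coe, mem_bl] at hy
      rw [mem_bl] at hx hx' ⊢
      omega
  have near : ∀ z ∈ bl 0 b, |E.ω (fun s => X u s * X u' s * et E.Λ E.ω z s) + E.bb R a₁ α₁ * gr u u' z| ≤
      C * P / R ^ 2 * (σ z * t ^ 20 + τ ^ 2 * t ^ 9) := fun z hz => by
    rcases hsep z with h | h
    · have := hs u' u hu' hu z (σ z) hz h (σ0 z).1 (σ0 z).2 (sm u' su' hu'.2 z)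
      rw [gr_comm] at this
      simpa only [mul_comm (X u' _)] using this
    · exact hs u u' hu hu' z (σ z) hz h (σ0 z).1 (σ0 z).2 (sm u su hu.2 z)
  have s1 : ∑ z ∈ bl 0 b, σ z ≤ (15 * (t⁻¹ * R)) ^ 2 * t⁻¹ := by
    rw [hσ, sum_ite_mem, sum_const, nsmul_eq_mul]
    gcongr
    refine le_trans (Nat.cast_le.2 (card_le_card inter_subset_right)) ?_
    rw [card_bl]
    push_cast at f10 ⊢
    gcongr
    linarith [Nat.floor_le (show 0 ≤ t⁻¹ * R by positivity), hb₀ ▸ le_refl (b₀ : ℝ)]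
  have s2 : ((bl (0 : Pt) b).card : ℝ) ≤ (5 * (R / τ)) ^ 2 := by
    have : 1 ≤ R / τ := (one_le_div τ0).2 (by linarith)
    rw [card_bl]
    push_cast
    gcongr
    linarith
  refine (abs_add_le _ _).trans ((add_le_add far ((abs_sum_le_sum_abs _ _).trans (sum_le_sum near))).trans ?_)
  rw [← mul_sum, sum_add_distrib, ← sum_mul, sum_const, nsmul_eq_mul]
  calc _ ≤ Cf * P * t ^ 7 + C * P / R ^ 2 *
        ((15 * (t⁻¹ * R)) ^ 2 * t⁻¹ * t ^ 20 + (5 * (R / τ)) ^ 2 * (τ ^ 2 * t ^ 9)) := by gcongr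
    _ = P * (Cf * t ^ 7 + C * (225 * t ^ 17 + 25 * t ^ 9)) := by field_simp; norm_num
    _ ≤ P * (Cf * t ^ 7 + C * (225 * t ^ 7 + 25 * t ^ 7)) := by
        gcongr P * (_ + C * (225 * ?_ + 25 * ?_)) <;> exact N3.pow_anti ht t1 (by norm_num)
    _ = P * t ^ 6 * ((250 * C + Cf) * t) := by ring
    _ ≤ _ := mul_le_of_le_one_right (by positivity) (small _ (by linarith))⟩

end Crest.Agent.T145.Ev
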