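import Crest.Agent.T145.EvLe_60
import Crest.Agent.T145.EvNum_3
import Crest.Agent.T145.EvXp_81
import Crest.Agent.T145.FlSw_22

/-!
# Row 145, even sector: tools for the sums of energy stars against a charge (helper48)
-/

set_option autoImplicit false

namespace Crest.Agent.T145.Ev.S48

open Finset Pot Xi Real Fl Lj36

/-- the energy star against a charge with a hole is the reference combination -/
theorem tc (hS : SemiStmt) (hP : ProdStmt) (hB : BasStmt) (hT : TgStmt) {p : Par} {Λ : Lat} {ω : Sta}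
    {L N : ℕ} (hE : Env p Λ ω L N) {z : Pt} {a₁ a₂ : ℕ} (α₁ α₂ φ : ℝ) {ξ : Pt → ℝ} {q : ℤ} (h1 : 1 ≤ a₁)
    (h8 : 8 * a₁ ≤ a₂) (h0 : p.r₀ ≤ a₂) (hL : p.w * a₂ ≤ L) (hz : bl z (p.w * a₂) ⊆ bl 0 N)
    (hq : Chq (bl 0 N) ξ q) (hξ : ∀ y ∈ bl z a₂, ξ y = 0) :
    |ω (fun s => cp ξ φ s * et Λ ω z s) -
      (α₁ * cv ω (trl z (T1 a₁)) (cp ξ φ) + α₂ * cv ω (trl z (T2 a₁)) (cp ξ φ))| ≤
      16 * nu Λ p.w 0 a₂ fun s => et Λ ω 0 s - Tc ω a₁ α₁ α₂ s := by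
  obtain ⟨_, _, -, -, hT⟩ := hT
  obtain ⟨_, -, hB⟩ := hB p
  obtain ⟨⟨t1, -⟩, ⟨t2, -⟩, -⟩ := hT a₁ h1
  obtain ⟨-, b1, -⟩ := hB Λ ω L N hE z
  obtain ⟨-, -, b2, -⟩ := hB Λ ω L N hE 0
  have hG := hE.toGs
  have hw := le_wmul hG a₂
  have hN := hE.le
  have hrg := gs_rg hG
  replace t1 := t1.mono (r' := a₂) (by omega)
  replace t2 := t2.mono (r' := a₂) (by omega)
  replace b2 := b2.mono (r' := a₂) (by omega)
  have hI : Ins 0 a₂ fun s => et Λ ω 0 s - Tc ω a₁ α₁ α₂ s :=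
    b2.sub (((t1.sub_const _).smul _).add ((t2.sub_const _).smul _))
  have up : ∀ {F}, Ins 0 a₂ F → Ins 0 N (trl z F) := fun h =>
    (h.trl z).of_subset ((bl_mono z hw).trans hz)
  have hc := ins_cp hq φ
  obtain ⟨m, hm⟩ := hE.amb 0
  have h := (hP p Λ L hG m (bl 0 N) Unit univ (fun _ => z) (fun _ => a₂)
    (fun _ => trl z fun s => et Λ ω 0 s - Tc ω a₁ α₁ α₂ s) (cp ξ φ) hm.1
    ⟨by simp, fun _ _ => hI.trl z, fun _ _ => ⟨h0, hL⟩, fun _ _ => hz, fun _ _ _ _ h => (h rfl).elim⟩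
    (fun _ _ => Fl.out_cp hξ φ) (Fl.abs_cp_le ξ φ)).1
  simp only [univ_unique, prod_singleton] at h
  rw [← hm.ex_eq ((up hI).mul hc), Le60.nu_trl hS hG h0 hI le_rfl] at h
  refine le_of_eq_of_le (congrArg _ ?_) h
  have e : (fun s => trl z (fun s => et Λ ω 0 s - Tc ω a₁ α₁ α₂ s) s * cp ξ φ s) = fun s =>
      cp ξ φ s * trl z (et Λ ω 0) s - (α₁ * (trl z (T1 a₁) s * cp ξ φ s - ω (T1 a₁) * cp ξ φ s) +
        α₂ * (trl z (T2 a₁) s * cp ξ φ s - ω (T2 a₁) * cp ξ φ s)) := by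
    funext s; simp only [trl, Tc]; ring
  have i1 := ((up t1).mul hc).sub (hc.smul (ω (T1 a₁)))
  have i2 := ((up t2).mul hc).sub (hc.smul (ω (T2 a₁)))
  rw [e, hm.ex_sub (hc.mul (up b2)) ((i1.smul _).add (i2.smul _)), hm.ex_add (i1.smul _) (i2.smul _),
    hm.ex_smul i1.1, hm.ex_smul i2.1, hm.ex_sub ((up t1).mul hc) (hc.smul _),
    hm.ex_sub ((up t2).mul hc) (hc.smul _), hm.ex_smul hc.1, hm.ex_smul hc.1, b1, cv, cv,
    hE.trl 0 z _ (t1.mono (by omega)).1, hE.trl 0 z _ (t2.mono (by omega)).1]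

theorem gr_comm (u v : Pt → ℝ) (z : Pt) : gr u v z = gr v u z := sum_congr rfl fun _ _ => mul_comm _ _

theorem ev_nn (i : Fin 2) : ev i ∈ nn := by fin_cases i <;> decide

/-- the swept potential -/
theorem swp (hD : DetStmt) (hW : SwStmt) : ∃ K : ℝ, 1 ≤ K ∧ ∀ (v : Pt → ℝ) (z : Pt) (σ ℓ ρ : ℝ) (r a n : ℕ),
    Sm 3 Set.univ σ ℓ v → Pot.Sup (bl 0 a) v → 1 ≤ ρ → 4 * ρ ≤ r → r ≤ ℓ → a ≤ n → bl z r ⊆ bl 0 n →
    Pot.Sup (bl 0 n) (v - sw v z ρ) ∧ Sm 3 Set.univ (K * σ) ρ (v - sw v z ρ) ∧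
      gr (v - sw v z ρ) (v - sw v z ρ) z = gr v v z ∧
      (∀ k : ℕ, (k : ℝ) + 2 ≤ ρ → Lk (v - sw v z ρ) z k (K * σ / ℓ) 0 ∧
        ∀ y ∈ bl z k, A0 (v - sw v z ρ) y = 0) ∧
      |E0 (bl 0 n) (v - sw v z ρ) - E0 (bl 0 a) v| ≤ K * σ ^ 2 * (ρ / r) ^ 2 := by
  obtain ⟨C, hC, d1, -, d3⟩ := hD
  obtain ⟨C', hC', hW⟩ := hW
  refine ⟨1 + 392 * C + C', by linarith, fun v z σ ℓ ρ r a n hv hs h1 h2 h3 h4 h5 => ?_⟩
  have hσ : 0 ≤ σ := (abs_nonneg _).trans (hv.zero (z := 0) trivial)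
  have r0 : (0 : ℝ) < r := by linarith
  have hm := Nat.ceil_lt_add_one (show 0 ≤ 2 * ρ by linarith)
  have hm2 : ⌈2 * ρ⌉₊ + 1 ≤ r := by exact_mod_cast (show ((⌈2 * ρ⌉₊ : ℝ) + 1) ≤ r by linarith)
  obtain ⟨-, w1, w2⟩ := hW _ v z r σ (Lr.of_univ (hv.scale r0 h3) z) (by omega)
  obtain ⟨w2, w3, w4⟩ := w2 ρ _ h1 (Nat.le_ceil _) hm2
  obtain ⟨e1, e2, -, e3⟩ := d1 v z σ ℓ ρ hv h1 (h2.trans h3)
  generalize ⌈2 * ρ⌉₊ = m at *
  generalize sw v z ρ = s at *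
  have hsub : bl z m ⊆ bl 0 n := (bl_mono z (by omega)).trans h5
  have hv' := hs.mono (bl_mono 0 h4)
  have hs' := w2.mono hsub
  refine ⟨hv'.sub hs', ((hv.scale (by linarith) (by linarith)).sub e1).mono le_rfl Set.Subset.rfl
    (by nlinarith [mul_nonneg hC hσ, mul_nonneg hC' hσ]) (by linarith), by rw [(e2 _).1, (e2 _).2],
    fun k hk => ⟨fun y hy e he => ⟨((e3 k hk) y hy e he).1.trans ?_, ((e3 k hk) y hy e he).2⟩,
      fun y hy => by rw [A0_sub]; exact w4 k (by linarith) y hy⟩, ?_⟩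
  · have : 0 < ℓ := by linarith
    gcongr; linarith
  have f1 : E1 (bl 0 n) v s = E1 (bl 0 n) s v := by
    rw [← d3 v s 0 n _ hv' Subset.rfl, ← d3 s v 0 n _ hs' Subset.rfl]
    exact sum_congr rfl fun _ _ => gr_comm _ _ _
  have f2 : E0 (bl 0 n) (v - s) = E0 (bl 0 n) v - E1 (bl 0 n) v s - E1 (bl 0 n) s v + E0 (bl 0 n) s := by
    simp only [E0, E1, A0_sub, Pi.sub_apply, ← sum_sub_distrib, ← sum_add_distrib]
    exact sum_congr rfl fun _ _ => by ring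
  have f3 : |E1 (bl 0 n) s v| ≤ 196 * C * σ ^ 2 * (ρ / r) ^ 2 := by
    rw [E1, ← sum_subset hsub fun x _ hx => by rw [w2 x hx, zero_mul]]
    refine (abs_sum_le_sum_abs _ _).trans ((sum_le_card_nsmul _ _ (C * σ * (4 * σ / (r : ℝ) ^ 2))
      fun x hx => ?_).trans ?_)
    · rw [abs_mul]
      exact mul_le_mul (e1.zero trivial) (w1 x (bl_mono z (by omega) hx)).2 (abs_nonneg _) (by positivity)
    · rw [card_bl, nsmul_eq_mul]
      push_cast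
      calc _ ≤ (7 * ρ) ^ 2 * (C * σ * (4 * σ / (r : ℝ) ^ 2)) := by gcongr; linarith
        _ = _ := by ring
  have f4 : (ρ / r) ^ 4 ≤ (ρ / r) ^ 2 :=
    pow_le_pow_of_le_one (by positivity) (by rw [div_le_one r0]; linarith) (by norm_num)
  have f5 := B80.E0_nonneg w2
  have f6 : 0 ≤ σ ^ 2 * (ρ / r) ^ 2 := by positivity
  have f7 := mul_le_mul_of_nonneg_left f4 (show 0 ≤ C' * σ ^ 2 by positivity)
  rw [f2, f1, B80.E0_congr hv' hs, B80.E0_congr hs' w2, abs_le]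
  rw [abs_le] at f3
  constructor <;> nlinarith [mul_nonneg hC' f6]

theorem lk_zero {v : Pt → ℝ} {z : Pt} {n : ℕ} {k : ℝ} (h : ∀ y ∈ bl z (n + 2), v y = 0) (hk : 0 ≤ k) :
    Lk v z n k 0 := fun y hy e he => by
  have h1 : ∀ {m : ℕ} {y e : Pt}, y ∈ bl z m → e ∈ nn → y + e ∈ bl z (m + 1) := fun hy he =>
    bl_subset_bl hy (by omega) (add_nn_mem_bl he _)
  have h2 := h y (bl_mono z (by omega) hy)
  have h3 := fun e he => h (y + e) (bl_mono z (by omega) (h1 hy he))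
  refine ⟨by simp [dif, h2, h3 e he, hk], fun e' he' => ?_⟩
  simp [difs, dif, h2, h3 e he, h3 e' he', h _ (h1 (h1 hy he) he')]

theorem abs_exp_sub {x y : ℝ} (hx : x ≤ 0) (hy : y ≤ 0) : |exp x - exp y| ≤ |x - y| := by
  wlog h : x ≤ y generalizing x y
  · rw [abs_sub_comm, abs_sub_comm x]; exact this hy hx (le_of_not_ge h)
  rw [abs_sub_comm, abs_sub_comm x, abs_of_nonneg (sub_nonneg.2 (exp_le_exp.2 h)),
    abs_of_nonneg (sub_nonneg.2 h), show exp x = exp y * exp (x - y) by rw [← exp_add]; simp]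
  nlinarith [add_one_le_exp (x - y), exp_le_one_iff.2 hy, exp_pos y]

variable {w : ℕ} {t : ℝ}

/-- the gain of the local expansion -/
theorem rp (hw : 4 ≤ w) (ht : 0 < t) (h1 : t ≤ 1) {x e : ℝ} (h0 : 0 ≤ x) (hx : x ≤ t ^ (nr w - 2))
    (he : cw w / 4 ≤ e) : x ^ e ≤ t ^ 26 := by
  have hc := N3.cw_pos hw
  refine (rpow_le_rpow h0 hx (by linarith)).trans ?_
  rw [← rpow_natCast, ← rpow_mul ht.le, ← rpow_natCast, Nat.cast_sub (by linarith [N3.nr_ge hw])]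
  refine rpow_le_rpow_of_exponent_ge ht h1 ?_
  have := N3.nr_cw hw
  have := N3.nr_ge' hw
  push_cast
  nlinarith

theorem g_bd {g : ℝ} (hw : 4 ≤ w) (h : |π * g - 2| ≤ ew w / 100) : 1 / 4 ≤ g ∧ g ≤ 1 := by
  rw [abs_le] at h
  have := N3.ew_le hw
  constructor <;> nlinarith [pi_gt_three, pi_lt_four, h.1, h.2]

/-- the pattern `Xp` at `M = t⁻¹ ^ k` -/
theorem xp_t {f : Sta → ℝ → ℝ → ℝ → ℝ → Prop} (h : Xp f) (p : Par) {k : ℕ} (hk : k ≠ 0) :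
    ∃ (C : ℝ) (n : ℕ), 2 ≤ C ∧ ∀ Λ ω L N, Env p Λ ω L N → ∀ R Y t : ℝ, Maj p Λ L R Y →
      |π * gk ω R - 2| ≤ ew p.w / 100 → 0 < t → C * t ≤ 1 → Y ≤ t ^ n → R ≤ t ^ n * L →
      ∃ C' ε, C' ≤ C ∧ ε ≤ C * t ^ k ∧ f ω R (t⁻¹ ^ k) C' ε := by
  obtain ⟨C, n, c1, h⟩ := h p
  refine ⟨2 * C, (k * n + k) * 4, by linarith, fun Λ ω L N hE R Y t hM hg ht hC hY hR => ?_⟩
  have t1 : t ≤ 1 := by nlinarith
  have Y0 := (X81.Y_pos hM).le
  obtain ⟨g1, g2⟩ := g_bd hE.w4 hg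
  have h2 : 2 ≤ t⁻¹ := by rw [le_inv_comm₀ two_pos ht]; nlinarith
  have h3 : C * (t⁻¹ ^ k) ^ n * t ^ ((k * n + k) * 4) ≤ 1 := by
    calc _ ≤ C * ((t⁻¹ ^ k) ^ n * t ^ (k * n + 1)) := by
          rw [mul_assoc]; gcongr C * (_ * ?_); exact N3.pow_anti ht t1 (by omega)
      _ ≤ 1 := by rw [N3.inv_pow_mul ht]; nlinarith
  refine ⟨C, _, by linarith, ?_, h Λ ω L N hE R Y _ hM g1 g2 (h2.trans (le_self_pow₀ (by linarith) hk))
    (le_trans (by gcongr) h3) ?_⟩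
  · have h4 : Y ^ (1 / 4 : ℝ) ≤ t ^ (k * n + k) := by
      refine (rpow_le_rpow Y0 hY (by norm_num)).trans_eq ?_
      rw [pow_mul, one_div]
      exact pow_rpow_inv_natCast (by positivity) (n := 4) (by norm_num)
    calc _ ≤ C * ((t⁻¹ ^ k) ^ n * t ^ (k * n + k) + 1 / t⁻¹ ^ k) := by gcongr
      _ = _ := by rw [N3.inv_pow_mul ht, inv_pow, one_div, inv_inv]; ring
  · calc _ ≤ C * (t⁻¹ ^ k) ^ n * (t ^ ((k * n + k) * 4) * L) := by gcongr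
      _ ≤ 1 * L := by rw [← mul_assoc]; gcongr
      _ = _ := one_mul _

/-- the size of the coefficients -/
theorem alpha {p : Par} {E : Dt} {R P : ℝ} {a₁ a₂ : ℕ} {α₁ α₂ : ℝ} (hw : 4 ≤ p.w) (ht : 0 < t)
    (h1 : t ≤ 1) (hR : 0 < R) (hP : 0 ≤ P) (h : E.Dc p R P t a₁ a₂ α₁ α₂) :
    max |α₁| |α₂| * (a₁ : ℝ) ^ 2 ≤ P * t⁻¹ ^ 76 := by
  have a0 : (0 : ℝ) < a₁ := lt_of_lt_of_le (by positivity) h.lo
  have h2 : R / a₁ ≤ t⁻¹ ^ (24 * nr p.w) := by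
    rw [div_le_iff₀ a0, inv_pow, ← div_eq_inv_mul, le_div_iff₀ (by positivity)]; exact h.lo
  have he := N3.ew_pos hw
  refine h.b.trans (mul_le_mul_of_nonneg_left ((rpow_le_rpow (by positivity) h2 (by positivity)).trans ?_) hP)
  rw [← rpow_natCast, ← rpow_mul (by positivity), ← rpow_natCast]
  refine rpow_le_rpow_of_exponent_le ((one_le_inv₀ ht).2 h1) ?_
  push_cast
  linarith [N3.nr_ew_le hw]

end Crest.Agent.T145.Ev.S48
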