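import Crest.Agent.T145.EvS3_74
import Crest.Agent.T145.EvS2a_48

/-!
# Row 145, even sector: the sum of energy stars against a neutral charge (`S2Stmt`, helper74)
-/

set_option autoImplicit false

namespace Crest.Agent.T145.Ev

open Finset Pot Xi Real Fl

namespace S74

theorem sm_up {v : Pt → ℝ} {σ l l' : ℝ} (h : Sm 3 Set.univ σ l v) (h0 : 0 < l) (h1 : 0 < l') (h2 : l' ≤ 2 * l) :
    Sm 3 Set.univ (8 * σ) l' v := fun ys hk hy z hz => by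
  have hσ : 0 ≤ σ := (abs_nonneg _).trans (h.zero (z := 0) trivial)
  refine (h ys hk hy z hz).trans ?_
  rw [div_le_div_iff₀ (by positivity) (by positivity)]
  calc _ ≤ σ * (2 * l) ^ ys.length := by gcongr
    _ = 2 ^ ys.length * σ * l ^ ys.length := by ring
    _ ≤ 2 ^ 3 * σ * l ^ ys.length := by gcongr; norm_num
    _ = _ := by norm_num

theorem gr_le {v : Pt → ℝ} {σ l : ℝ} (h : Sm 3 Set.univ σ l v) (z : Pt) : |gr v v z| ≤ 2 * (σ / l) ^ 2 := by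
  have k : ∀ i, |dif (ev i) v z * dif (ev i) v z| ≤ (σ / l) ^ 2 := fun i => by
    have := h.one (by norm_num) (S48.ev_nn i) (z := z) trivial
    rw [abs_mul, pow_two]; exact mul_self_le_mul_self (abs_nonneg _) this
  rw [gr, Fin.sum_univ_two]
  linarith [abs_add_le (dif (ev 0) v z * dif (ev 0) v z) (dif (ev 1) v z * dif (ev 1) v z), k 0, k 1]

theorem gr_zero {v : Pt → ℝ} {z : Pt} (h : ∀ y ∈ bl z 1, v y = 0) : gr v v z = 0 :=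
  sum_eq_zero fun i _ => by
    simp [dif, h z (self_mem_bl _ _), h _ (add_nn_mem_bl (S48.ev_nn i) z)]

namespace Nu
variable {w r₀ j m L : ℕ} {R t C P c e K : ℝ} (h : Nu w r₀ j m L R t)
include h

theorem n3' {x : ℝ} (hx : x ≤ R * t ^ (j + 1 + 1)) : x + 2 ≤ R * t ^ (j + 1) := by
  have h1 := (h.big h.t1).trans h.sρ
  rw [pow_succ, ← mul_assoc] at hx
  nlinarith [h.t1]

theorem n9' (hj : 60 ≤ j) : 16 * w * (⌊t⁻¹ * R⌋₊ + 1) ≤ ⌈R * t⁻¹ ^ (j + 1)⌉₊ := by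
  have h1 := h.up (show 3 ≤ j + 1 by omega)
  have s0 := (inv_pos.2 h.t0).le
  have h2 : (16 * w * (⌊t⁻¹ * R⌋₊ + 1) : ℝ) ≤ ⌈R * t⁻¹ ^ (j + 1)⌉₊ :=
    calc _ ≤ t⁻¹ * (2 * (t⁻¹ * R)) := by
          gcongr; exacts [h.big h.t2, by linarith [h.n8, h.n8', h.oneR]]
      _ ≤ t⁻¹ * (t⁻¹ * (t⁻¹ * R)) := by gcongr; exacts [mul_nonneg s0 h.R0.le, by linarith [h.big h.t1]]
      _ = R * t⁻¹ ^ 3 := by ring
      _ ≤ _ := le_trans (by gcongr; exact h.R0.le) h.b0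
  exact_mod_cast h2

theorem n12' (hR : R ≤ t ^ (m + 1) * L) : ⌊t⁻¹ ^ m * R⌋₊ + 1 ≤ L := by
  have h1 : 1 ≤ t⁻¹ ^ m * R := one_le_mul_of_one_le_of_one_le (one_le_pow₀ h.s1) h.oneR
  have h2 : t⁻¹ ^ m * R ≤ t * L :=
    calc _ ≤ t⁻¹ ^ m * (t ^ (m + 1) * L) := by gcongr; exact (pow_pos (inv_pos.2 h.t0) _).le
      _ = (t * t⁻¹) ^ m * (t * L) := by ring
      _ = _ := by rw [h.ts, one_pow, one_mul]
  have h3 := Nat.floor_le (zero_le_one.trans h1)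
  exact_mod_cast (show (⌊t⁻¹ ^ m * R⌋₊ : ℝ) + 1 ≤ L by
    nlinarith [h.t1, h.t0, (Nat.cast_nonneg L : (0 : ℝ) ≤ L)])

theorem errF' {ν : ℝ} (hC : 0 ≤ C) (hP : 0 ≤ P) (h1 : ν ≤ 1) (e0 : 0 ≤ e) (e1 : e ≤ 1) (c0 : 0 ≤ c)
    (c1 : c ≤ 1) (hc : 26 ≤ j * (c / 4)) (hCt : 8 * C * t ≤ 1) :
    C * ν * P * max ((⌊t⁻¹ * R⌋₊ + 1 : ℕ) / R) (R / (⌊t⁻¹ * R⌋₊ + 1 : ℕ)) ^ e *
      ((((⌊t⁻¹ * R⌋₊ + 1 : ℕ) : ℝ) / ⌈R * t⁻¹ ^ (j + 1)⌉₊) ^ (c / 2) +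
        (((⌊t⁻¹ * R⌋₊ + 1 : ℕ) : ℝ) / L) ^ (c / 2)) ≤ P * t ^ 6 / 4 := by
  have R0 := h.R0
  have t0 := h.t0
  have hc' : 26 ≤ j * (c / 2) := hc.trans (by gcongr; norm_num)
  have a0 : ((⌊t⁻¹ * R⌋₊ + 1 : ℕ) : ℝ) ≤ 2 * ⌊t⁻¹ * R⌋₊ := by push_cast; linarith [h.n8', h.oneR]
  have a1 : ∀ b : ℝ, (⌈R * t⁻¹ ^ (j + 1)⌉₊ : ℝ) ≤ b → (((⌊t⁻¹ * R⌋₊ + 1 : ℕ) : ℝ) / b) ^ (c / 2) ≤
      2 * t ^ 26 := fun b hb => by
    have b0 : 0 ≤ b := (Nat.cast_nonneg _).trans hb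
    calc _ ≤ (2 * (⌊t⁻¹ * R⌋₊ / b)) ^ (c / 2) := by rw [← mul_div_assoc]; gcongr
      _ ≤ _ := by
        rw [mul_rpow zero_le_two (by positivity)]
        exact mul_le_mul (rp1 zero_le_two le_rfl one_le_two (by positivity) (by linarith))
          (rp t0 h.le1 (by positivity) (h.n13 hb) hc' (by positivity)) (by positivity) zero_le_two
  have a2 := a1 L (by exact_mod_cast (Nat.le_add_right _ _).trans (h.n11.trans h.n12))
  have a3 : max (((⌊t⁻¹ * R⌋₊ + 1 : ℕ) : ℝ) / R) (R / (⌊t⁻¹ * R⌋₊ + 1 : ℕ)) ^ e ≤ 2 * t⁻¹ :=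
    rp1 (by positivity) (max_le (by rw [div_le_iff₀ R0]; linarith [h.n8])
      (le_trans (by rw [div_le_one (by positivity)]; push_cast; linarith [h.n8']) (by linarith [h.s1])))
      (by linarith [h.s1]) e0 e1
  calc _ ≤ C * 1 * P * (2 * t⁻¹) * (2 * t ^ 26 + 2 * t ^ 26) := by gcongr; exact a1 _ le_rfl
    _ = (8 * C * t) * (600 * t) * (t * t⁻¹) * (P * t ^ 23 / 600) := by ring
    _ ≤ 1 * 1 * (t * t⁻¹) * (P * t ^ 6 / 4) := by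
      gcongr ?_ * ?_ * _ * (_ * ?_ / ?_)
      exacts [h.t1, h.dn (by norm_num), by norm_num]
    _ = _ := by rw [h.ts]; ring

theorem ak {a : ℕ} (hK : 0 ≤ K) (ha : (a : ℝ) ≤ R * t ^ (10 * (j + 1))) :
    a * (K * (8 * t⁻¹) / ⌈R * t⌉₊) ≤ 8 * K * t ^ (10 * j + 8) := by
  have R0 := h.R0
  have t0 := h.t0
  calc _ ≤ R * t ^ (10 * (j + 1)) * (K * (8 * t⁻¹) / (R * t)) := by gcongr; exact h.n7
    _ = _ := by field_simp; ring

theorem err1 {α : ℝ} {a : ℕ} (hC : 0 ≤ C) (hK : 0 ≤ K) (hP : 0 ≤ P) (hj : 60 ≤ j)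
    (hα : α * (a : ℝ) ^ 2 ≤ P * t⁻¹ ^ 76) (ha : (a : ℝ) ≤ R * t ^ (10 * (j + 1))) :
    α * (C * (a * (K * (8 * t⁻¹) / ⌈R * t⌉₊)) ^ 4) ≤ 4096 * C * K ^ 4 * P * t ^ 21 / R ^ 2 := by
  have R0 := h.R0
  have t0 := h.t0
  calc _ = α * (a : ℝ) ^ 2 * (C * (a : ℝ) ^ 2 * (K * (8 * t⁻¹) / ⌈R * t⌉₊) ^ 4) := by ring
    _ ≤ P * t⁻¹ ^ 76 * (C * (R * t ^ 60) ^ 2 * (K * (8 * t⁻¹) / (R * t)) ^ 4) := by
      gcongr
      exacts [ha.trans (mul_le_mul_of_nonneg_left (h.dn (by omega)) R0.le), h.n7]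
    _ = 4096 * C * K ^ 4 * P * t ^ 36 / R ^ 2 := by field_simp; ring
    _ ≤ _ := by gcongr _ * ?_ / _; exact h.dn (by norm_num)

theorem err0 (hK : 0 ≤ K) (hj : 60 ≤ j) :
    K * (8 * t⁻¹) ^ 2 * (R * t ^ (j + 1) / ⌈R * t⌉₊) ^ 2 ≤ 64 * K * t ^ 118 := by
  have R0 := h.R0
  have t0 := h.t0
  calc _ ≤ K * (8 * t⁻¹) ^ 2 * (t ^ 60) ^ 2 := by gcongr; exact h.n6.trans (h.dn hj)
    _ = _ := by field_simp; ring

theorem err2 {α κ γ g x y : ℝ} {a : ℕ} (hC : 0 ≤ C) (hK : 0 ≤ K) (hP : 0 ≤ P)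
    (hα : |α| * (a : ℝ) ^ 2 ≤ P * t⁻¹ ^ 76) (hκ : |κ| ≤ C * (a : ℝ) ^ 2) (hγ : |γ| ≤ 2 * (t⁻¹ / (R / t⁻¹)) ^ 2)
    (g0 : 0 ≤ g) (g1 : g ≤ 1) (hx : 0 ≤ x) (hy : 0 ≤ y) (hd : |x - y| ≤ 64 * K * t ^ 118) :
    |α * (κ * γ * exp (-2 * π ^ 2 * g * x)) - α * (κ * γ * exp (-2 * π ^ 2 * g * y))| ≤
      4096 * C * K * P * t ^ 21 / R ^ 2 := by
  have R0 := h.R0
  have t0 := h.t0
  have a1 : |exp (-2 * π ^ 2 * g * x) - exp (-2 * π ^ 2 * g * y)| ≤ 2 * 4 ^ 2 * 1 * (64 * K * t ^ 118) := by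
    refine (S48.abs_exp_sub (by nlinarith [mul_nonneg (mul_nonneg (sq_nonneg π) g0) hx])
      (by nlinarith [mul_nonneg (mul_nonneg (sq_nonneg π) g0) hy])).trans ?_
    rw [← mul_sub, abs_mul, neg_mul, neg_mul, abs_neg, abs_of_nonneg (by positivity)]
    gcongr; exact pi_le_four
  rw [← mul_sub, ← mul_sub, abs_mul, abs_mul, abs_mul]
  calc _ ≤ |α| * (C * (a : ℝ) ^ 2 * (2 * (t⁻¹ / (R / t⁻¹)) ^ 2) * (2 * 4 ^ 2 * 1 * (64 * K * t ^ 118))) := by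
        gcongr
    _ = |α| * (a : ℝ) ^ 2 * (C * (2 * (t⁻¹ / (R / t⁻¹)) ^ 2) * (2 * 4 ^ 2 * 1 * (64 * K * t ^ 118))) := by ring
    _ ≤ P * t⁻¹ ^ 76 * (C * (2 * (t⁻¹ / (R / t⁻¹)) ^ 2) * (2 * 4 ^ 2 * 1 * (64 * K * t ^ 118))) := by gcongr
    _ = 4096 * C * K * P * t ^ 38 / R ^ 2 := by field_simp; ring
    _ ≤ _ := by gcongr _ * ?_ / _; exact h.dn (by norm_num)

end Nu

end S74

open S74

theorem s2Stmt74 (hL : LocStmt) (h1 : X1Stmt) (h2 : X2Stmt) (hF : FarEStmt) (hB : BasStmt) (hT : TgStmt)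
    (hDt : DetStmt) : S2Stmt := by
  intro w
  refine ⟨0, fun p W D₀ _ _ => ?_⟩
  obtain ⟨CL, hCL, hL⟩ := leStmt semiStmt prodStmt hL swStmt p
  obtain ⟨m, hm⟩ : ∃ m : ℕ, m = 74 * nr p.w + 7 := ⟨_, rfl⟩
  obtain ⟨C₁, n₁, hC₁, h1⟩ := S48.xp_t h1 p (k := m) (by omega)
  obtain ⟨C₂, n₂, hC₂, h2⟩ := S48.xp_t h2 p (k := m) (by omega)
  obtain ⟨CF, hCF, hF⟩ := hF p
  obtain ⟨P₀, hP₀, hB⟩ := hB p
  obtain ⟨cT, CT, hcT, hCT, hT⟩ := hT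
  obtain ⟨K, K1, hK⟩ := S48.swp hDt swStmt
  have K0 : 0 ≤ K := zero_le_one.trans K1
  have C1 : 0 ≤ C₁ := zero_le_two.trans hC₁
  have C2 : 0 ≤ C₂ := zero_le_two.trans hC₂
  obtain ⟨C₃, hC₃, e₃⟩ : ∃ C₃ : ℝ, 0 ≤ C₃ ∧
      C₃ = 2 * (64 * CL) * (1 + P₀ * p.r₀ ^ 2) + 4096 * C₁ * K ^ 4 + 4096 * CT * K := ⟨_, by positivity, rfl⟩
  have c1 : (0 : ℝ) ≤ 16 * p.w := by positivity
  have c2 : (0 : ℝ) ≤ 8 * (p.w : ℝ) ^ 2 * p.r₀ := by positivity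
  refine ⟨600 + 16 * p.w + 8 * (p.w : ℝ) ^ 2 * p.r₀ + 8 * CF + 100 * C₃ + 400 * (C₁ + C₂) + 64 * K,
    m + 1 + n₁ + n₂, by linarith, ?_⟩
  intro E R Y P t hE t0 hC hY hR a₁ a₂ α₁ α₂ hD v hv hv0 Z hZ
  obtain ⟨k1, k2, k3, k4, k5, k6, k7⟩ := ks (by norm_num) c1 c2 (by positivity) (by positivity)
    (by positivity) (by positivity) t0 hC
  have h : Env p E.Λ E.ω E.L E.N := hE.ed.toEnv
  have hG := h.toGs
  have hw := hG.w4
  obtain ⟨j, hj, j1, hc⟩ := nr_spec hw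
  have j6 : 60 ≤ j := by have := N3.nr_ge hw; omega
  have e0 := ew_nonneg p.w
  have e3 : 3 * ew p.w ≤ 1 := by linarith only [ew_le' hw]
  have e1 : ew p.w ≤ 1 := by linarith only [ew_le' hw]
  have c0 := cw_nonneg p.w
  have R1 := hE.maj.1
  have P1 := hE.P1
  have P0 : 0 ≤ P := zero_le_one.trans P1
  have p0 : 0 ≤ P₀ := zero_le_one.trans hP₀
  have t1 : t ≤ 1 := by linarith only [k1, t0]
  have mn : ∀ {k}, k ≤ m + 1 + n₁ + n₂ → Y ≤ t ^ k ∧ R ≤ t ^ k * E.L := fun hk =>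
    have := pow_le_pow_of_le_one t0.le t1 hk
    ⟨hY.trans this, hR.trans (mul_le_mul_of_nonneg_right this (Nat.cast_nonneg _))⟩
  have u : Nu p.w p.r₀ j m E.L R t := ⟨t0, k1, k2, k3, by omega, j1, by omega, by
      rw [← inv_le_iff_one_le_mul₀' (one_pos.trans_le R1), ← rpow_neg_one]
      exact (rpow_le_rpow_of_exponent_le R1 (neg_le_neg e1)).trans (hE.maj.2.1.trans (mn (by omega)).1),
    (mn (by omega)).2⟩
  have hα' := S48.alpha hw t0 t1 u.R0 P0 hD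
  obtain ⟨d1, d2, d3, d4, d5, d6, d7⟩ := hD
  rw [hj] at d1 d2 d4 d7 hm
  have a2ρ := u.n3' d4
  have a2r : a₂ ≤ ⌈R * t⌉₊ := by
    exact_mod_cast (show (a₂ : ℝ) ≤ ⌈R * t⌉₊ by linarith only [a2ρ, u.n2, u.sρ, u.s1])
  have a2R : ((a₂ + 2 : ℕ) : ℝ) ≤ R := by push_cast; linarith only [a2ρ, u.ρR]
  have r8 := hE.r8
  have r0 := hE.r0
  have nL := u.n12
  have nN := nL.trans h.le
  have rw' := Lj36.le_wmul hG ⌈R * t⌉₊
  have bw := u.n11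
  have ab := u.n9' j6
  have ab' : ⌊t⁻¹ * R⌋₊ + 1 ≤ ⌈R * t⁻¹ ^ (j + 1)⌉₊ := (Nat.le_mul_of_pos_left _ (by omega)).trans ab
  have rg : E.Λ.rg ≤ p.r₀ := by have := Lj36.gs_rg hG; omega
  have hB := hB E.Λ E.ω E.L E.N h
  have iE : Ins 0 p.r₀ (E.e 0) := (hB 0).2.2.1.mono rg
  have sub : ∀ {z}, z ∈ bl 0 ⌈R * t⁻¹ ^ (j + 1)⌉₊ → bl z (p.w * ⌈R * t⌉₊) ⊆ bl 0 ⌊t⁻¹ ^ m * R⌋₊ :=
    fun hz => bl_subset_bl hz (by omega)
  have nN' := (u.n12' (mn (by omega)).2).trans h.le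
  have M1 : 1 ≤ t⁻¹ ^ m := one_le_pow₀ u.s1
  have s0 : 0 < t⁻¹ := inv_pos.2 t0
  obtain ⟨g0, g1⟩ := gb hE.crit e1
  obtain ⟨C₁', ε₁, x1, x2, h1⟩ := h1 _ _ _ _ h R Y t hE.maj hE.crit t0 (by nlinarith only [k6, C1, C2, t0])
    (mn (by omega)).1 (mn (by omega)).2
  obtain ⟨_, ε₂, -, x3, h2⟩ := h2 _ _ _ _ h R Y t hE.maj hE.crit t0 (by nlinarith only [k6, C1, C2, t0])
    (mn (by omega)).1 (mn (by omega)).2
  have hα := u.errA P0 (by positivity) e3 d1 d6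
  have tm : 0 ≤ t ^ m := by positivity
  have site : ∀ z ∈ bl 0 ⌈R * t⁻¹ ^ (j + 1)⌉₊, ∀ (v : Pt → ℝ) (k : ℝ), Sv R (t⁻¹ ^ m) v →
      E0 (bl 0 ⌊t⁻¹ ^ m * R⌋₊) v ≤ log (t⁻¹ ^ m) → Lk v z (6 * a₁) k 0 → a₁ * k ≤ 1 →
      (∀ y ∈ bl z a₂, A0 v y = 0) →
      |E.ω (fun s => trl z (E.e 0) s * cp (A0 v) 0 s) - α₁ * (kp (gk E.ω R) a₁ * gr v v z *
        exp (-2 * π ^ 2 * gk E.ω R * E0 (bl 0 ⌊t⁻¹ ^ m * R⌋₊) v))| ≤
        32 * (P * t ^ (16 + 2 * (j + 1)) / R ^ 2) +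
          2 * (P * t⁻¹ ^ (3 * (24 * (j + 1))) / R ^ 2 * (2 * (C₁ + C₂) * t ^ m)) +
          |α₁| * (C₁ * (a₁ * k) ^ 4) := fun z hz v k hv hv0 hk hk1 h0 => by
    have wa := Nat.mul_le_mul_left p.w a2r
    have k0 := dec h α₁ α₂ (by omega) (by omega)
      ((bl_mono z wa).trans ((sub hz).trans (bl_mono 0 nN))) (iE.mono (by omega))
      ((hT a₁ (by omega)).1.1.mono (by omega)) ((hT a₁ (by omega)).2.1.1.mono (by omega))
      (ins_cp (chq_A0 hv.1 nN') 0) (out_cp h0 0) (abs_cp_le _ 0)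
    have b1 : R / t⁻¹ ^ m ≤ a₁ := by
      rw [inv_pow, div_inv_eq_mul]
      exact le_trans (mul_le_mul_of_nonneg_left (u.dn (by omega)) u.R0.le) d1
    have b2 : (a₁ : ℝ) ≤ t⁻¹ ^ m * R :=
      le_trans (le_trans (Nat.cast_le.2 (by omega)) a2R) (le_mul_of_one_le_left u.R0.le M1)
    have b3 : eu z ≤ t⁻¹ ^ m * R := by
      have := eu_le_of_bl hz; rw [sub_zero] at this; linarith only [this, u.n10, u.mR, u.oneB]
    have y1 := (h1 a₁ z v v k 0 b1 b2 b3 hv hv hk hk).1 hk1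
    have y2 := (h2 a₁ z v v b1 b2 b3 hv hv).1 hv0
    simp only [mul_zero, zero_mul, add_zero] at y1
    have z1 := mul_le_mul_of_nonneg_left (y1.trans (add_le_add x2
      (mul_le_mul_of_nonneg_right x1 (by positivity)))) (abs_nonneg α₁)
    have z2 := mul_le_mul ((le_max_right _ _).trans hα) (y2.trans (show _ ≤ 2 * (C₁ + C₂) * t ^ m by
      nlinarith only [x3, C1, C2, tm])) (abs_nonneg _) (by positivity)
    have z3 := mul_le_mul ((le_max_left _ _).trans hα) (show C₁ * t ^ m ≤ 2 * (C₁ + C₂) * t ^ m by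
      nlinarith only [C1, C2, tm]) (by positivity) (by positivity)
    rw [← abs_mul, mul_sub, mul_add, abs_le] at z1
    rw [← abs_mul, abs_le] at z2
    have y3 := abs_le.1 (k0.trans (mul_le_mul_of_nonneg_left d7 (by norm_num)))
    rw [abs_le]; constructor <;> linarith only [z1, z2, z3, y3]
  have hq := chq_A0 hv.1 le_rfl
  have hv' := X81.sv_mono hv u.R0 s0 (le_self_pow₀ u.s1 (by omega : m ≠ 0))
  have lg := fun {x} hx => u.lg (A := 1) (x := x) hx (by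
    rw [abs_one]; exact_mod_cast (by omega : 2 * 1 + 2 ≤ m))
  have l0 := log_nonneg u.s1
  have cm : ∀ z, (fun s => cp (A0 v) 0 s * E.e z s) = fun s => trl z (E.e 0) s * cp (A0 v) 0 s := fun z => by
    rw [(hB z).2.1]; exact funext fun s => mul_comm _ _
  rw [show 2 * π ^ 2 * E.bb R a₁ α₁ = α₁ * kp (gk E.ω R) a₁ by rw [Dt.bb]; field_simp, mul_sum, sum_mul,
    ← sum_sub_distrib]
  refine (split (A := bl 0 (⌊t⁻¹ * R⌋₊ + (a₂ + 2))) (δ₁ := C₃ * P * t ^ 21 / R ^ 2) (hZ.trans hE.ed.hi)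
    ((sum_congr rfl fun z hz => ?_).trans_le
      (hF _ _ _ _ h R P u.R0 P0 hE.prof _ _ _ (u.r₀a.trans (Nat.le_succ _)) ab
        (ab.trans ((Nat.le_add_right _ _).trans (bw.trans nL))) (ins_cp hq 0)))
    (fun z hz hz' => ?_) (fun z hz _ => ?_) (by positivity)).trans
    (u.fin hC₃ (add_nonneg C1 C2) P0 (u.errF' hCF P0
      (((semiStmt _ _ _ 0 h.ok (Lj36.gs_le hG (u.r₀a.trans (Nat.le_succ _)))).1 _ (ins_cp hq 0)).2.2.2.1 1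
        (abs_cp_le _ 0)) e0 e1 c0 (by linarith only [cw_le' hw]) hc k4) u.cdB (u.cdA a2R) hm.ge k5 k6)
  · rw [gr_zero fun y hy => hv.1 y fun hy' => (mem_sdiff.1 hz).2
      (bl_subset_bl hy' (by omega) (mem_bl_comm.1 hy)), mul_zero, zero_mul, sub_zero]
  · have h0 : ∀ y ∈ bl z (a₂ + 2), v y = 0 := fun y hy => hv.1 y fun hy' =>
      hz' (bl_subset_bl hy' (by omega) (mem_bl_comm.1 hy))
    have k := site z hz v 0 hv' (by rw [B80.E0_congr hv'.1 hv.1]; linarith only [lg zero_le_one, l0, hv0])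
      (S48.lk_zero (fun y hy => h0 y (bl_mono z (by omega) hy)) le_rfl) (by simp) fun y hy => by
        rw [A0_congr (v := fun _ => 0) fun x hx => h0 x (bl_subset_bl hy (by omega) hx), A0_const]; rfl
    rw [B80.E0_congr hv'.1 hv.1] at k
    rw [cm, mul_assoc, mul_assoc, ← mul_assoc (kp _ _)]
    simpa using k
  · have hs := (sub hz).trans (bl_mono 0 nN)
    have ρ1 : 1 ≤ R * t ^ (j + 1) := u.s1.trans u.sρ
    have sm := sm_up hv.2 (by positivity) u.r0 (l' := ⌈R * t⌉₊) (by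
      have := Nat.ceil_lt_add_one (mul_pos u.R0 t0).le
      rw [div_inv_eq_mul]; linarith only [this, u.one (a := 1) (by omega), pow_one t ▸ this,
        show R * t ^ 1 = R * t by ring])
    have k := (hL _ _ _ _ h (E.e 0) p.r₀ R P P₀ t⁻¹ le_rfl iE (hB 0).2.2.2.1 u.R0 P0 hE.prof
      p0 (fun c hc => ((hB 0).2.2.2.2.2.2 0 c (bl_mono 0 (rg.trans hc))).1) u.s1 0 Unit ∅ _ _ _ z _
      _ 0 _ v _ (far0 p _ _) (by simp) (hq.mono (bl_mono 0 (by omega))) (by omega) hs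
      (by simp) (Lr.of_univ sm z) (by rw [div_inv_eq_mul]; exact u.n7) u.n5').1 _ u.n1 u.n2
    simp only [prod_empty, one_mul, mul_one] at k
    obtain ⟨w1, w2, w3, w4, w5⟩ := hK v z _ _ (R * t ^ (j + 1)) ⌈R * t⌉₊ _ _ sm hv.1 ρ1
      (by linarith only [u.n2, ρ1]) le_rfl (by omega) ((bl_mono z rw').trans (sub hz))
    replace w5 := w5.trans (u.err0 K0 j6)
    have t118 : 64 * K * t ^ 118 ≤ 1 := le_trans (by
      gcongr; simpa using u.dn (show 1 ≤ 118 by norm_num)) k7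
    have k2 := site z hz _ _ ⟨w1, (w2.mono le_rfl Set.Subset.rfl (show _ ≤ t⁻¹ ^ m from
      calc _ ≤ t⁻¹ * t⁻¹ := by nlinarith only [u.big k7, s0, K0]
        _ ≤ _ := by rw [← pow_two]; exact u.up (by omega)) (by positivity)).scale (by positivity) (by
          rw [inv_pow, div_inv_eq_mul]; exact mul_le_mul_of_nonneg_left (u.dn (by omega)) u.R0.le)⟩
      (by linarith only [lg le_rfl, l0, hv0, t118, (abs_le.1 w5).2])
      (w4 _ (le_trans (by exact_mod_cast (by omega : 6 * a₁ + 2 ≤ a₂ + 2)) a2ρ)).1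
      ((u.ak K0 d2).trans (le_trans (by
        have := u.dn (show 1 ≤ 10 * j + 8 by omega)
        rw [pow_one] at this; nlinarith only [this, K0, t0]) k7)) (w4 _ a2ρ).2
    rw [A0_sub, w3] at k2
    replace hα' := (mul_le_mul_of_nonneg_right (le_max_left _ _) (sq_nonneg _)).trans hα'
    have f1 := u.err1 C1 K0 P0 j6 hα' d2
    obtain ⟨q1, q2⟩ := (hT a₁ (by omega)).2.2.2 _ g0 g1
    have f2 := abs_le.1 (u.err2 hCT K0 P0 hα'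
      ((abs_of_nonneg (le_trans (by positivity) q1)).trans_le q2) (gr_le hv.2 z) (by linarith only [g0]) g1
      (B80.E0_nonneg w1) (B80.E0_nonneg hv.1) w5)
    have k3 := abs_le.1 (k.trans (le_trans (by
      gcongr ?_ * _; nlinarith only [mul_nonneg hCL s0.le]) (u.errL (C := 64 * CL) (by positivity)
        P1 p0 e0 e1 c0 hc)))
    have k4 := abs_le.1 k2
    rw [cm, mul_assoc, mul_assoc, ← mul_assoc (kp _ _), abs_le, e₃, add_mul, add_mul, add_mul, add_mul,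
      add_div, add_div]
    constructor <;> linarith only [k3, k4, f1, f2]

end Crest.Agent.T145.Ev
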