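import Crest.Agent.T145.EvS4D_36
import Crest.Agent.T145.EvNum_3
import Crest.Agent.T145.EvLe_60
import Crest.Agent.T145.FlBare_80
import Crest.Agent.T145.FlNeu_31
import Crest.Agent.T145.Route_51

/-!
# Row 145, even sector: the coefficient of `T2` (S4, helper36)
-/

set_option autoImplicit false

namespace Crest.Agent.T145.Ev

open Finset Pot Xi Real Fl

namespace S436

theorem E0_sub_le {z : Pt} {n : ℕ} {u v : Pt → ℝ} (hu : Pot.Sup (bl z n) u) (hv : Pot.Sup (bl z n) v) :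
    E0 (bl z n) (u - v) ≤ 2 * E0 (bl z n) u + 2 * E0 (bl z n) v := by
  rw [B80.E0_bl hu, B80.E0_bl hv, B80.E0_bl (hu.sub hv), mul_sum, mul_sum, ← sum_add_distrib]
  refine sum_le_sum fun i _ => ?_
  rw [mul_sum, mul_sum, ← sum_add_distrib]
  refine sum_le_sum fun x _ => ?_
  simp only [df, Pi.sub_apply]
  nlinarith [sq_nonneg (u (x + ev i) - u x + (v (x + ev i) - v x))]

theorem lk_zero {v : Pt → ℝ} {z : Pt} {n : ℕ} {k : ℝ} (hk : 0 ≤ k) (h : ∀ y ∈ bl z (n + 2), v y = 0) :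
    Lk v z n k 0 := fun y hy e he => by
  have h1 : ∀ w ∈ bl z (n + 1), ∀ e' ∈ nn, dif e' v w = 0 := fun w hw e' he' => by
    rw [dif, h w (bl_mono z (by omega) hw), h _ (bl_subset_bl hw (by omega) (add_nn_mem_bl he' w)),
      sub_zero]
  refine ⟨by rw [h1 y (bl_mono z (by omega) hy) e he, abs_zero]; exact hk, fun e' he' => ?_⟩
  change |dif e' v (y + e) - dif e' v y| ≤ 0
  rw [h1 y (bl_mono z (by omega) hy) e' he',
    h1 _ (bl_subset_bl hy (by omega) (add_nn_mem_bl he y)) e' he', sub_zero, abs_zero]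

theorem lk_mono {v : Pt → ℝ} {z : Pt} {n n' : ℕ} {k k' : ℝ} (h : Lk v z n k k') (hn : n' ≤ n) :
    Lk v z n' k k' := fun y hy => h y (bl_mono z hn hy)

variable {p : Par} {Λ : Lat} {ω : Sta} {L N : ℕ}

theorem nuX (hS : SemiStmt) (hG : Gs p Λ L) {CB : ℝ} {n a : ℕ} {v : Pt → ℝ} {F : Cfg Pt → ℝ}
    (hv : Pot.Sup (bl 0 n) v) (hn : n + 1 ≤ a) (ha : p.r₀ ≤ a) (hF : Ins 0 a F)
    (h : ∀ s, |F s| ≤ |X v s|) (hB : Nc.EN Λ 0 (p.w * a) (fun s => pr (A0 v) s ^ 2) ≤ CB) :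
    nu Λ p.w 0 a F ≤ 1 + CB := by
  have hΛ := hG.mem.ok
  have hc : Cen ((Λ.Nr (bl 0 (p.w * a)) 0).W 0) :=
    (hΛ.ctr_Nr _ _).cen (hΛ.anch_Nr_bl (self_mem_bl _ _))
  have hX : Tame fun s => pr (A0 v) s ^ 2 := (E30.ins_prA0 hv hn).2.pow 2
  refine ((hS Λ p.w a 0 hΛ (Lj36.gs_le hG ha)).1 F hF).2.1.trans ?_
  calc Nc.Nm Λ 0 (p.w * a) F
      ≤ Ex ((Λ.Nr (bl 0 (p.w * a)) 0).W 0) fun s => 1 + pr (A0 v) s ^ 2 :=
        Ex_mono hc.wt.nonneg (hc.ig hF.2.abs) (hc.ig ((Tame.const 1).add hX)) fun s =>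
          (h s).trans (by rw [X, abs_le]; constructor <;> nlinarith)
    _ = 1 + Nc.EN Λ 0 (p.w * a) (fun s => pr (A0 v) s ^ 2) := by
        rw [Ex_add (hc.ig (Tame.const 1)) (hc.ig hX), hc.wt.ex_const]; rfl
    _ ≤ _ := by gcongr

theorem split (hE : Env p Λ ω L N) {F G T₁ T₂ : Cfg Pt → ℝ} {z : Pt} {a k : ℕ} (hF : Ins 0 N F)
    (hG : Ins 0 a G) (h1 : Ins 0 a T₁) (h2 : Ins 0 a T₂) (hz : z ∈ bl 0 k) (hk : a + k ≤ N) (α₁ α₂ : ℝ) :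
    ω (fun s => F s * trl z G s) =
      ω (fun s => trl z (fun s => G s - (α₁ * (T₁ s - ω T₁) + α₂ * (T₂ s - ω T₂))) s * F s) +
        α₁ * cv ω (trl z T₁) F + α₂ * cv ω (trl z T₂) F := by
  have hs : bl z a ⊆ bl 0 N := bl_subset_bl hz hk
  have up : ∀ {T : Cfg Pt → ℝ}, Ins 0 a T → Ins 0 N (trl z T) := fun h =>
    E30.ins_mono (E30.ins_trl h z) hs
  have hc : ∀ {T : Cfg Pt → ℝ}, Ins 0 a T →
      cv ω (trl z T) F = ω fun s => (trl z T s - ω T) * F s := fun {T} h => by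
    rw [cv, hE.trl 0 z T (h.1.mono (bl_mono 0 (by omega))), ← hE.ex_smul hF.1,
      ← hE.ex_sub (E30.ins_mul (up h) hF) (E30.ins_smul hF _)]
    congr 1; funext s; ring
  have i1 := E30.ins_mul (E30.ins_sub (up h1) (E30.ins_const 0 N (ω T₁))) hF
  have i2 := E30.ins_mul (E30.ins_sub (up h2) (E30.ins_const 0 N (ω T₂))) hF
  have i0 := E30.ins_mul (up (E30.ins_sub hG (E30.ins_add
    (E30.ins_smul (E30.ins_sub h1 (E30.ins_const 0 a (ω T₁))) α₁)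
    (E30.ins_smul (E30.ins_sub h2 (E30.ins_const 0 a (ω T₂))) α₂)))) hF
  rw [hc h1, hc h2, ← hE.ex_smul i1.1, ← hE.ex_smul i2.1, ← hE.ex_add i0 (E30.ins_smul i1 _),
    ← hE.ex_add (E30.ins_add i0 (E30.ins_smul i1 _)) (E30.ins_smul i2 _)]
  congr 1; funext s
  simp only [trl]; ring

theorem tpow {t x K γ : ℝ} {n : ℕ} (h0 : 0 < t) (h1 : t ≤ 1) (hx : 0 ≤ x) (hK : 1 ≤ K)
    (h : x ≤ K * t ^ n) (hγ : 0 ≤ γ) (hγ1 : γ ≤ 1) (h7 : 7 ≤ n * γ) : x ^ γ ≤ K * t ^ 7 := by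
  calc x ^ γ ≤ (K * t ^ n) ^ γ := by gcongr
    _ = K ^ γ * t ^ ((n : ℝ) * γ) := by
        rw [mul_rpow (by linarith) (by positivity), rpow_mul h0.le, rpow_natCast]
    _ ≤ K ^ (1 : ℝ) * t ^ ((7 : ℕ) : ℝ) :=
        mul_le_mul (rpow_le_rpow_of_exponent_le hK hγ1)
          (rpow_le_rpow_of_exponent_ge h0 h1 (by push_cast; exact h7)) (by positivity) (by positivity)
    _ = _ := by rw [rpow_one, rpow_natCast]

theorem nr_spec {w : ℕ} (hw : 4 ≤ w) : 2 ≤ nr w ∧ 104 ≤ (nr w : ℝ) * cw w := by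
  have hc := Lj36.cw_pos hw
  refine ⟨Nat.le_add_left _ _, ?_⟩
  have := (div_le_iff₀ hc).1 (Nat.le_ceil (104 / cw w))
  rw [nr]; push_cast; nlinarith

/-- the real scales -/
structure Sc (R t C Y : ℝ) (L n₀ k : ℕ) : Prop where
  t0 : 0 < t
  t1 : t ≤ 1
  R0 : 0 < R
  r1 : C ≤ R * t ^ n₀
  r2 : C * (R * t ^ n₀) ≤ R
  b1 : C * R ≤ R * t⁻¹ ^ n₀
  b2 : C * (R * t⁻¹ ^ n₀) ≤ L
  m1 : C * (R * t⁻¹ ^ n₀) ≤ t⁻¹ ^ (80 * n₀) * R
  m2 : C ≤ t⁻¹ ^ (80 * n₀)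
  y1 : ∀ j ≤ k, C * (t⁻¹ ^ (80 * n₀)) ^ j * Y ≤ 1
  y2 : ∀ j ≤ k, C * (t⁻¹ ^ (80 * n₀)) ^ j * R ≤ L
  y3 : ∀ j ≤ k, (t⁻¹ ^ (80 * n₀)) ^ j * Y ^ (1 / 4 : ℝ) + 1 / t⁻¹ ^ (80 * n₀) ≤ 2 * t ^ (80 * n₀)
  y4 : Y ≤ t ^ 7

theorem sc {R t C Y e : ℝ} {L n₀ k : ℕ} (hC : 1 ≤ C) (h0 : 0 < t) (hCt : C * t ≤ 1) (hn : 1 ≤ n₀)
    (hR : 1 ≤ R) (he : e ≤ 1) (hY : R ^ (-e) ≤ Y) (h1 : Y ≤ t ^ (4 * (80 * n₀ * (k + 1))))
    (h2 : R ≤ t ^ (4 * (80 * n₀ * (k + 1))) * L) : Sc R t C Y L n₀ k := by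
  have t1 : t ≤ 1 := by nlinarith
  have R0 : 0 < R := by linarith
  have hi : C ≤ t⁻¹ := by rw [← one_div, le_div_iff₀ h0]; exact hCt
  have i1 : 1 ≤ t⁻¹ := hC.trans hi
  have hp : ∀ {a b : ℕ}, a ≤ b → t ^ b ≤ t ^ a := fun h => pow_le_pow_of_le_one h0.le t1 h
  have hq : ∀ {a : ℕ}, 1 ≤ a → C * t ^ a ≤ 1 := fun h =>
    le_trans (mul_le_mul_of_nonneg_left (by simpa using hp h) (by linarith)) hCt
  have hm : ∀ a b : ℕ, t⁻¹ ^ a * t ^ (a + b) = t ^ b := fun a b => by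
    rw [pow_add, ← mul_assoc, ← mul_pow, inv_mul_cancel₀ h0.ne', one_pow, one_mul]
  have hY0 : 0 < Y := (rpow_pos_of_pos R0 _).trans_le hY
  have hL : (0 : ℝ) ≤ L := Nat.cast_nonneg _
  obtain ⟨n, hn'⟩ : ∃ n, n = 4 * (80 * n₀ * (k + 1)) := ⟨_, rfl⟩
  rw [← hn'] at h1 h2
  have hR1 : 1 ≤ R * t ^ n := by
    have : R⁻¹ ≤ t ^ n := by
      rw [← rpow_neg_one]
      exact (rpow_le_rpow_of_exponent_le hR (by linarith)).trans (hY.trans h1)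
    rwa [inv_le_iff_one_le_mul₀' R0] at this
  have hk : ∀ j ≤ k, ∃ b, 1 ≤ b ∧ n = 80 * n₀ * j + b := fun j hj =>
    ⟨n - 80 * n₀ * j, by
      have : 80 * n₀ * j ≤ 80 * n₀ * k := Nat.mul_le_mul_left _ hj
      rw [mul_add] at hn'; omega⟩
  have hnn : n₀ + 1 ≤ n ∧ 7 ≤ n := by rw [mul_add] at hn'; omega
  have hpw : ∀ {a : ℕ}, 1 ≤ a → C ≤ t⁻¹ ^ a := fun h => hi.trans (le_self_pow₀ i1 (by omega))
  refine ⟨h0, t1, R0, ?_, ?_, ?_, ?_, ?_, hpw (by omega), fun j hj => ?_, fun j hj => ?_,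
    fun j hj => ?_, h1.trans (hp hnn.2)⟩
  · calc C ≤ C * (R * t ^ (n₀ + 1)) := le_mul_of_one_le_right (by linarith)
          (hR1.trans (mul_le_mul_of_nonneg_left (hp hnn.1) R0.le))
      _ = C * t * (R * t ^ n₀) := by ring
      _ ≤ _ := mul_le_of_le_one_left (by positivity) hCt
  · rw [mul_left_comm]; exact mul_le_of_le_one_right R0.le (hq hn)
  · rw [mul_comm]; exact mul_le_mul_of_nonneg_left (hpw hn) R0.le
  · obtain ⟨b, hb⟩ := Nat.exists_eq_add_of_le hnn.1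
    calc C * (R * t⁻¹ ^ n₀) ≤ C * (t ^ n * L * t⁻¹ ^ n₀) := by gcongr
      _ = C * (t⁻¹ ^ n₀ * t ^ (n₀ + (1 + b))) * L := by rw [hb, add_assoc]; ring
      _ ≤ 1 * L := by rw [hm]; gcongr; exact hq (by omega)
      _ = _ := one_mul _
  · calc C * (R * t⁻¹ ^ n₀) ≤ t⁻¹ ^ (79 * n₀) * (R * t⁻¹ ^ n₀) := by gcongr; exact hpw (by omega)
      _ = _ := by rw [show 80 * n₀ = 79 * n₀ + n₀ by ring, pow_add]; ring
  · obtain ⟨b, hb, e⟩ := hk j hj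
    calc _ ≤ C * (t⁻¹ ^ (80 * n₀)) ^ j * t ^ n := by gcongr
      _ = C * t ^ b := by rw [← pow_mul, mul_assoc, e, hm]
      _ ≤ 1 := hq hb
  · obtain ⟨b, hb, e⟩ := hk j hj
    calc _ ≤ C * (t⁻¹ ^ (80 * n₀)) ^ j * (t ^ n * L) := by gcongr
      _ = C * t ^ b * L := by rw [← pow_mul, ← mul_assoc, mul_assoc C, e, hm]
      _ ≤ 1 * L := by gcongr; exact hq hb
      _ = _ := one_mul _
  · have h3 : Y ^ (1 / 4 : ℝ) ≤ t ^ (80 * n₀ * j + 80 * n₀) := by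
      calc _ ≤ ((t ^ (80 * n₀ * (k + 1))) ^ 4) ^ (1 / 4 : ℝ) := by
            rw [← pow_mul, mul_comm _ 4, ← hn']; gcongr
        _ = t ^ (80 * n₀ * (k + 1)) := by
            rw [one_div]; exact pow_rpow_inv_natCast (by positivity) (by norm_num)
        _ ≤ _ := hp (by rw [mul_add, mul_one]; exact Nat.add_le_add_right (Nat.mul_le_mul_left _ hj) _)
    have h4 : (t⁻¹ ^ (80 * n₀)) ^ j * Y ^ (1 / 4 : ℝ) ≤ t ^ (80 * n₀) := by
      rw [← pow_mul, ← hm (80 * n₀ * j)]; gcongr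
    have h5 : 1 / t⁻¹ ^ (80 * n₀) = t ^ (80 * n₀) := by rw [inv_pow, one_div, inv_inv]
    rw [h5]; linarith

theorem g_mem {g e : ℝ} (he : e ≤ 1) (h : |π * g - 2| ≤ e / 100) : 1 / 4 ≤ g ∧ g ≤ 1 := by
  rw [abs_le] at h
  have h3 := pi_gt_three
  have h4 := pi_le_four
  constructor <;> by_contra hc <;> nlinarith

/-- size of the coefficients -/
theorem al_le {p : Par} {E : Dt} {R P t α₁ α₂ : ℝ} {a₁ a₂ : ℕ} (hw : 4 ≤ p.w) (t0 : 0 < t) (t1 : t ≤ 1)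
    (R0 : 0 < R) (hP : 0 ≤ P) (h : E.Dc p R P t a₁ a₂ α₁ α₂) :
    max |α₁| |α₂| * t ^ (72 * nr p.w) ≤ P / R ^ 2 := by
  have h1 := h.lo
  have h2 : (a₁ : ℝ) ≤ R := h.hi.trans (mul_le_of_le_one_right R0.le (pow_le_one₀ t0.le t1))
  have a0 : (0 : ℝ) < a₁ := lt_of_lt_of_le (by positivity) h1
  have h3 : (R / a₁) ^ (3 * ew p.w) ≤ R / a₁ := by
    conv_rhs => rw [← rpow_one (R / a₁)]
    exact rpow_le_rpow_of_exponent_le ((one_le_div a0).2 h2) (by linarith [N3.ew_le hw])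
  have h4 := h.b.trans (mul_le_mul_of_nonneg_left h3 hP)
  have h5 : 0 ≤ max |α₁| |α₂| := le_max_of_le_left (abs_nonneg _)
  rw [← mul_div_assoc, le_div_iff₀ a0] at h4
  rw [le_div_iff₀ (by positivity)]
  refine le_of_mul_le_mul_right ?_ R0
  calc _ = max |α₁| |α₂| * (R * t ^ (24 * nr p.w)) ^ 3 := by
        rw [show 72 * nr p.w = 24 * nr p.w * 3 by ring, pow_mul]; ring
    _ ≤ max |α₁| |α₂| * (a₁ : ℝ) ^ 3 := by gcongr
    _ ≤ _ := by rw [pow_succ _ 2, ← mul_assoc]; exact h4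

end S436
open S436 Lj36

set_option maxHeartbeats 800000 in
theorem S4.repS (hS : SemiStmt) (hPu : PuStmt) (hHf : HfStmt) (h2 : X2Stmt) (h4 : X4Stmt) (hD : DetStmt)
    (hB : BasStmt) (hT : TgStmt) : S4.RepS := by
  intro σ hσ w
  refine ⟨0, fun p W D₀ _ _ => ?_⟩
  obtain ⟨CP, hCP, hPu⟩ := hPu p
  obtain ⟨CH, hCH, hHf⟩ := hHf
  obtain ⟨C2, n2, hC2, h2⟩ := h2 p
  obtain ⟨C4, n4, hC4, h4⟩ := h4 p
  obtain ⟨CD, hCD, -, hD, -⟩ := hD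
  obtain ⟨_, -, hB⟩ := hB p
  obtain ⟨_, _, -, -, hT⟩ := hT
  obtain ⟨K, hK0, hK⟩ : ∃ K, 0 ≤ K ∧ K = CP * √(2 * σ + CH * σ ^ 2) := ⟨_, by positivity, rfl⟩
  have hw2 : (0 : ℝ) ≤ (p.w : ℝ) ^ 2 := by positivity
  have hex := exp_pos σ
  obtain ⟨C, hC⟩ : ∃ C, C = 16 + 8 * (p.w : ℝ) ^ 2 + exp σ + K + 2 * C2 + 2 * C4 := ⟨_, rfl⟩
  refine ⟨C, 4 * (80 * nr p.w * (n2 + n4 + 1)), by linarith, ?_⟩
  intro E R Y P t hBs t0 hCt hY hR a₁ a₂ α₁ α₂ hc z v v'' hz hA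
  have hE := hBs.ed.toEnv
  have hG := hE.toGs
  have hw := hG.w4
  have hw' : (4 : ℝ) ≤ p.w := by exact_mod_cast hw
  have hn := N3.nr_ge hw
  have P1 := hBs.P1
  have R1 := hBs.maj.1
  have S := sc (by linarith) t0 hCt (by omega) R1 (by linarith [N3.ew_le hw]) hBs.maj.2.1 hY hR
  have hal := al_le hw t0 S.t1 S.R0 (by linarith) hc
  obtain ⟨g1, g2⟩ := g_mem (by linarith [N3.ew_le hw]) hBs.crit
  have t1 := S.t1
  have R0 := S.R0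
  have c16 : 16 ≤ C := by linarith
  have cw : 8 * (p.w : ℝ) ^ 2 ≤ C := by linarith
  have hup : (a₂ : ℝ) ≤ R * t ^ nr p.w * t := by rw [mul_assoc, ← pow_succ]; exact hc.up
  have hρ0 : 0 < R * t ^ nr p.w := by positivity
  have hρM : R / t⁻¹ ^ (80 * nr p.w) ≤ R * t ^ nr p.w := by
    rw [inv_pow, div_inv_eq_mul]; gcongr _ * ?_; exact N3.pow_anti t0 t1 (by omega)
  have haM : R / t⁻¹ ^ (80 * nr p.w) ≤ a₁ := by
    refine le_trans ?_ hc.lo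
    rw [inv_pow, div_inv_eq_mul]; gcongr _ * ?_; exact N3.pow_anti t0 t1 (by omega)
  have x2 := h2 _ _ _ _ hE R Y _ hBs.maj g1 g2 (le_trans (by linarith) S.m2)
    (le_trans (by have := maj_pos hBs.maj; gcongr; linarith) (S.y1 n2 (by omega)))
    (le_trans (by gcongr; linarith) (S.y2 n2 (by omega)))
  have x4 := h4 _ _ _ _ hE R Y _ hBs.maj g1 g2 (le_trans (by linarith) S.m2)
    (le_trans (by have := maj_pos hBs.maj; gcongr; linarith) (S.y1 n4 (by omega)))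
    (le_trans (by gcongr; linarith) (S.y2 n4 (by omega)))
  have y2 := mul_le_mul_of_nonneg_left (S.y3 n2 (by omega)) (by linarith : 0 ≤ C2)
  have y4 := mul_le_mul_of_nonneg_left (S.y3 n4 (by omega)) (by linarith : 0 ≤ C4)
  obtain ⟨r1, r2, b1, b2, m1, m2⟩ := And.intro S.r1 (And.intro S.r2 (And.intro S.b1 (And.intro S.b2
    (And.intro S.m1 S.m2))))
  have hb' := (Nat.ceil_lt_add_one (show 0 ≤ R * t⁻¹ ^ nr p.w by positivity)).le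
  have hb'' := Nat.le_ceil (R * t⁻¹ ^ nr p.w)
  generalize ⌈R * t⁻¹ ^ nr p.w⌉₊ = b at *
  generalize R * t⁻¹ ^ nr p.w = B at *
  generalize t⁻¹ ^ (80 * nr p.w) = M at *
  generalize R * t ^ nr p.w = ρ at *
  have ρR : 16 * ρ ≤ R := le_trans (by gcongr) r2
  have RB : 16 * R ≤ B := le_trans (by gcongr) b1
  have BL : 16 * B ≤ E.L := le_trans (by gcongr; linarith) b2
  have BM : 16 * B ≤ M * R := le_trans (by gcongr; linarith) m1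
  have a0 : (0 : ℝ) ≤ a₂ := Nat.cast_nonneg _
  have aρ : C * a₂ ≤ ρ := by
    calc C * a₂ ≤ C * (ρ * t) := by gcongr
      _ = C * t * ρ := by ring
      _ ≤ ρ := mul_le_of_le_one_left hρ0.le hCt
  have aρ1 : 16 * (a₂ : ℝ) ≤ ρ := le_trans (by gcongr) aρ
  have aρ2 : 8 * ((p.w * (p.w * a₂) : ℕ) : ℝ) ≤ ρ := by
    refine le_trans ?_ aρ
    push_cast
    calc _ = 8 * (p.w : ℝ) ^ 2 * a₂ := by ring
      _ ≤ _ := by gcongr
  have a12 : 8 * (a₁ : ℝ) ≤ a₂ := by exact_mod_cast hc.le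
  have k4 := Nat.floor_le (show 0 ≤ R / 4 by positivity)
  have k5 := Nat.floor_le (show 0 ≤ 4 * R by positivity)
  have k6 := (Nat.lt_floor_add_one (4 * R)).le
  have k7 := (Nat.lt_floor_add_one (M * R)).le
  have LN : (E.L : ℝ) ≤ E.N := by exact_mod_cast hE.le
  have hσM : σ ≤ log M := by rw [le_log_iff_exp_le (by linarith)]; linarith
  have hσM' : σ ≤ M := by linarith [add_one_le_exp σ]
  have q1 := hc.le
  have q2 := hc.r1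
  have q3 := hBs.r8
  have q4 := hBs.r0
  have q5 := gs_rg hG
  have q6 := le_wmul hG a₂
  have q7 := le_wmul hG (p.w * a₂)
  have sv : ∀ {u : Pt → ℝ} {k : ℕ}, Pot.Sup (bl 0 k) u → (k : ℝ) ≤ 4 * R → Sm 3 Set.univ σ ρ u →
      Sv R M u := fun hu hk hm =>
    ⟨hu.mono (bl_mono 0 (Nat.le_floor (by linarith))),
      (hm.mono le_rfl Set.Subset.rfl hσM' hρ0).scale (div_pos R0 (by linarith)) hρM⟩
  have sv1 := sv hA.s1 (by linarith) hA.m1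
  have sv2 := sv hA.s2 k5 hA.m2
  have hzM : eu z ≤ M * R := by
    have := eu_le_of_bl hz
    rw [sub_zero] at this; linarith
  have hq : Chq (bl 0 (⌊4 * R⌋₊ + 1)) (xi R - A0 v'') 1 :=
    E30.chq_sub0 (E30.chq_xi R0 (by push_cast; linarith)) (E30.chq_A0 hA.s2 le_rfl)
  have n1 : b + (⌊4 * R⌋₊ + 1) ≤ E.N := by
    exact_mod_cast (show (b : ℝ) + (⌊4 * R⌋₊ + 1) ≤ E.N by linarith)
  have n2' : ⌊R / 4⌋₊ + 1 ≤ E.N := by exact_mod_cast (show (⌊R / 4⌋₊ : ℝ) + 1 ≤ E.N by linarith)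
  have n3 : a₂ + b ≤ E.N := by exact_mod_cast (show (a₂ : ℝ) + b ≤ E.N by linarith)
  have n4' : 4 * (p.w * (p.w * a₂)) ≤ ⌊R / 4⌋₊ + b := by
    have : (4 : ℝ) * ((p.w * (p.w * a₂) : ℕ) : ℝ) ≤ ⌊R / 4⌋₊ + b := by
      linarith [Nat.cast_nonneg (α := ℝ) ⌊R / 4⌋₊]
    exact_mod_cast this
  have n5 : p.w * (⌊R / 4⌋₊ + b + 1) ≤ E.L := by
    have : (p.w : ℝ) * (⌊R / 4⌋₊ + b + 1) ≤ E.L := by
      calc _ ≤ (p.w : ℝ) * (2 * B) := by gcongr; linarith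
        _ ≤ C * B := by
            rw [← mul_assoc]
            exact mul_le_mul_of_nonneg_right (by nlinarith only [cw, hw']) (by linarith)
        _ ≤ _ := b2
    exact_mod_cast this
  have n6 : ⌊4 * R⌋₊ + 1 ≤ ⌊M * R⌋₊ := Nat.le_floor (by push_cast; linarith)
  have z0 : (0 : Pt) ∈ bl z b := mem_bl_comm.1 hz
  have iF : Ins 0 E.N fun s => X v s * cp (xi R - A0 v'') (-(π / 2)) s :=
    E30.ins_mul (E30.ins_prA0 hA.s1 n2') (E30.ins_le (E30.ins_cp hq _) (by omega))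
  have i0 : Ins 0 a₂ (E.e 0) := E30.ins_le (hB _ _ _ _ hE 0).2.2.1 (by omega)
  have i1 : Ins 0 a₂ (T1 a₁) := E30.ins_le (hT a₁ (by omega)).1.1 (by omega)
  have i2 : Ins 0 a₂ (T2 a₁) := E30.ins_le (hT a₁ (by omega)).2.1.1 (by omega)
  have i3 : Ins 0 a₂ fun s => E.e 0 s - Tc E.ω a₁ α₁ α₂ s := E30.ins_sub i0 (E30.ins_add
    (E30.ins_smul (E30.ins_sub i1 (E30.ins_const _ _ _)) _)
    (E30.ins_smul (E30.ins_sub i2 (E30.ins_const _ _ _)) _))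
  have sp := split hE iF i0 i1 i2 hz n3 α₁ α₂
  -- the rest
  obtain ⟨l1, l2⟩ := hA.h0 (4 * (p.w * (p.w * a₂))) (by rw [Nat.cast_mul 4, Nat.cast_ofNat]; linarith)
  have su : Pot.Sup (bl z (⌊R / 4⌋₊ + b)) v := hA.s1.mono (bl_subset_bl z0 le_rfl)
  have fl := (hHf v z (p.w * (p.w * a₂)) _ (σ / R) (by omega) n4' su (fun y hy => (l2 y hy).1)
    fun y hy e he => (l1 y hy e he).1).mono (show _ ≤ 2 * σ + CH * σ ^ 2 by
      rw [B80.E0_congr su hA.s1]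
      have : ((p.w * (p.w * a₂) : ℕ) : ℝ) * (σ / R) ≤ σ := by
        rw [mul_comm, div_mul_eq_mul_div, div_le_iff₀ R0]; gcongr; linarith
      have h' := hA.e1
      gcongr)
  have k0 := (hPu _ _ _ _ hE z a₂ _ _ (cp (xi R - A0 v'') (-(π / 2))) _ _ _ _ (by omega) (by omega) n5
    (E30.ins_trl i3 z) (E30.depG_cp (E30.chq_mono hq (bl_subset_bl z0 (by omega))) _)
    (E30.out_cp (fun y hy => (l2 y (bl_mono z (by omega) hy)).2) _) (E30.abs_cp_le _ _) fl fl).1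
  rw [Le60.nu_trl hS hG (by omega) i3 le_rfl, mul_right_comm, ← hK] at k0
  replace k0 := k0.trans (mul_le_mul_of_nonneg_left hc.nu hK0)
  -- the two references
  have k1 := ((x2 a₁ z v v haM (by linarith) hzM sv1 sv1).2.2 (-A0 v'') (-(π / 2))
    ((B80.f2_gb hA.s2 ((B80.gb_bl hA.s2).mono (bl_mono 0 n6))).neg.mono (hA.e2.trans hσM))).2.1.trans y2
  have w1 := ((hD v z a₁ (σ / R) 0 (by omega) (hA.h0 (6 * a₁) (by push_cast; linarith)).1).2)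
  rw [mul_zero, abs_nonpos_iff, sub_eq_zero] at w1
  have k2 := (x4 a₁ z v v'' (v z) haM (by linarith) hzM sv1 hA.s1 sv2
    (by rw [B80.E0_congr sv2.1 hA.s2]; exact hA.e2.trans hσM) w1.symm
    (hA.alt.imp_right fun h => ⟨h.1, sum_eq_zero fun x _ => h.2 x⟩)).trans y4
  rw [← sub_eq_add_neg] at k1
  rw [Dt.e, ← (hB _ _ _ _ hE z).2.1, sp]
  have e0 : (fun s => trl z (fun s => E.e 0 s - (α₁ * (T1 a₁ s - E.ω (T1 a₁)) +
      α₂ * (T2 a₁ s - E.ω (T2 a₁)))) s * (X v s * cp (xi R - A0 v'') (-(π / 2)) s)) =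
      fun s => trl z (fun s => E.e 0 s - Tc E.ω a₁ α₁ α₂ s) s * pr (A0 v) s *
        cp (xi R - A0 v'') (-(π / 2)) s := funext fun s => (mul_assoc _ _ _).symm
  rw [e0]
  generalize E.ω (fun s => trl z (fun s => E.e 0 s - Tc E.ω a₁ α₁ α₂ s) s * pr (A0 v) s *
        cp (xi R - A0 v'') (-(π / 2)) s) = u₀ at *
  generalize cv E.ω (trl z (T1 a₁)) _ = u₁ at *
  generalize cv E.ω (trl z (T2 a₁)) _ = u₂ at *
  have hQ : 0 ≤ P / R ^ 2 := by positivity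
  have f1 : ∀ {α u c : ℝ}, |α| ≤ max |α₁| |α₂| → 0 ≤ c → |u| ≤ c * (2 * t ^ (80 * nr p.w)) →
      |α * u| ≤ 2 * c * (t * (P / R ^ 2 * t ^ (2 * nr p.w + 8))) := fun {α u c} h1 h2 h3 => by
    rw [abs_mul]
    calc _ ≤ max |α₁| |α₂| * (c * (2 * t ^ (80 * nr p.w))) := by gcongr
      _ = 2 * c * (max |α₁| |α₂| * t ^ (72 * nr p.w) * t ^ (8 * nr p.w)) := by
          rw [show 80 * nr p.w = 72 * nr p.w + 8 * nr p.w by ring, pow_add]; ring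
      _ ≤ 2 * c * (P / R ^ 2 * t ^ (2 * nr p.w + 8 + 1)) := by
          gcongr _ * (?_ * ?_); exact N3.pow_anti t0 t1 (by omega)
      _ = _ := by ring
  have f2 := f1 (le_max_left _ _) (by linarith) k1
  have f3 := f1 (le_max_right _ _) (by linarith) k2
  have f0 : |u₀| ≤ K * (t * (P / R ^ 2 * t ^ (2 * nr p.w + 8))) := by
    refine k0.trans (mul_le_mul_of_nonneg_left ?_ hK0)
    calc _ = P / R ^ 2 * t ^ (16 + 2 * nr p.w) := by ring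
      _ ≤ P / R ^ 2 * t ^ (2 * nr p.w + 8 + 1) := by
          gcongr _ * ?_; exact N3.pow_anti t0 t1 (by omega)
      _ = _ := by ring
  have hQ' : 0 ≤ P / R ^ 2 * t ^ (2 * nr p.w + 8) := by positivity
  calc _ = |u₀ + α₁ * u₁ + α₂ * (u₂ + π * gk E.ω R * v z * ph (gk E.ω R) a₁ R)| := by ring_nf
    _ ≤ (K + 2 * C2 + 2 * C4) * (t * (P / R ^ 2 * t ^ (2 * nr p.w + 8))) := by
        linarith [abs_add_three u₀ (α₁ * u₁) (α₂ * (u₂ + π * gk E.ω R * v z * ph (gk E.ω R) a₁ R))]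
    _ ≤ C * (t * (P / R ^ 2 * t ^ (2 * nr p.w + 8))) := by gcongr; linarith
    _ ≤ P / R ^ 2 * t ^ (2 * nr p.w + 8) := by
        rw [← mul_assoc]; exact mul_le_of_le_one_left hQ' hCt
    _ = _ := by ring

end Crest.Agent.T145.Ev
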