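import Crest.Agent.T145.EvS4_36
import Crest.Agent.T145.EvS4a_94
import Crest.Agent.T145.EvS4B_60
import Crest.Agent.T145.EvS4F_14
import Crest.Agent.T145.EvS4Adm_46

/-!
# Row 145, even sector: S4 (helper36)
-/

set_option autoImplicit false

namespace Crest.Agent.T145.Ev

open Fl

theorem s4Stmt (hS : SemiStmt) (hP : ProdStmt) (hL : LocStmt) (hW : SwStmt) (hBa : Fl.BareStmt)
    (hX : XfStmt) (hN : LocNStmt) (hPu : PuStmt) (hHf : HfStmt) (h2 : X2Stmt) (h4 : X4Stmt)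
    (hF : FarEStmt) (hD : DetStmt) (hB : BasStmt) (hT : TgStmt) : S4Stmt :=
  S4.s4_of hB (S4.aS hN hB) (S4.bS60 hS hP hL hW hX hB) (S4.fS hBa hF) S4.admS
    (S4.repS hS hPu hHf h2 h4 hD hB hT)

end Crest.Agent.T145.Ev
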