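import Crest.Agent.T145.EvSite_60
import Crest.Agent.T145.EvXp_81
import Crest.Agent.T145.EvDet_91
import Crest.Agent.T145.EvBas_9

/-!
# Row 145, even sector: the middle sites of S4 (helper60)
-/

set_option autoImplicit false

namespace Crest.Agent.T145.Ev.M60

open Finset Pot Xi Real Fl Le60 Lj36 Si60

variable {p : Par} {W : ℕ} {E : Dt} {D₀ R Y P t α₁ α₂ : ℝ} {a₁ a₂ : ℕ}

theorem g_mem {g : ℝ} {w : ℕ} (hw : 4 ≤ w) (h : |π * g - 2| ≤ ew w / 100) : 1 / 4 ≤ g ∧ g ≤ 1 := by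
  have h1 := abs_le.1 h
  have h2 := N3.ew_le hw
  have h3 := pi_gt_three
  have h4 := pi_le_four
  constructor <;> by_contra hn <;> nlinarith

/-- a pattern `Xp` at the ratio `t⁻¹ ^ (k + 1)` -/
theorem xp_at {f : Sta → ℝ → ℝ → ℝ → ℝ → Prop} (h : Xp f) (p : Par) (k : ℕ) : ∃ (C : ℝ) (n : ℕ), 1 ≤ C ∧
    ∀ (W : ℕ) (E : Dt) (D₀ R Y P t : ℝ), E.Bs p W D₀ R Y P → 0 < t → C * t ≤ 1 → Y ≤ t ^ n →
      R ≤ t ^ n * E.L → ∃ C' ε : ℝ, C' ≤ C ∧ ε ≤ t ^ k ∧ f E.ω R (t⁻¹ ^ (k + 1)) C' ε := by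
  obtain ⟨C, n, C1, h⟩ := h p
  refine ⟨2 * C, ((k + 1) * n + (k + 1)) * 4, by linarith, fun W E D₀ R Y P t hB t0 hC hY hL => ?_⟩
  have hE := hB.ed.toEnv
  have t1 : t ≤ 1 := by nlinarith
  have Y0 := (maj_pos hB.maj).le
  have g := g_mem hE.w4 hB.crit
  have e : C * (t⁻¹ ^ (k + 1)) ^ n * t ^ (((k + 1) * n + (k + 1)) * 4) ≤ 1 := by
    refine le_trans (mul_le_mul_of_nonneg_left (N3.pow_anti t0 t1 (show (k + 1) * n + 1 ≤ _ by omega))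
      (by positivity)) ?_
    rw [mul_assoc, N3.inv_pow_mul t0, pow_one]; linarith [mul_pos (one_pos.trans_le C1) t0]
  have y4 : Y ^ (1 / 4 : ℝ) ≤ t ^ ((k + 1) * n + (k + 1)) := by
    refine (rpow_le_rpow Y0 hY (by norm_num)).trans_eq ?_
    rw [pow_mul, ← rpow_natCast _ 4, ← rpow_mul (by positivity)]; norm_num
  refine ⟨C, _, by linarith, ?_, h E.Λ E.ω E.L E.N hE R Y _ hB.maj g.1 g.2 ?_
    (le_trans (by gcongr) e) ?_⟩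
  · calc _ ≤ C * ((t⁻¹ ^ (k + 1)) ^ n * t ^ ((k + 1) * n + (k + 1)) + 1 / t⁻¹ ^ (k + 1)) := by gcongr
      _ = 2 * C * t * t ^ k := by rw [N3.inv_pow_mul t0, inv_pow, one_div, inv_inv]; ring
      _ ≤ 1 * t ^ k := by gcongr
      _ = _ := one_mul _
  · exact le_trans ((le_inv_comm₀ two_pos t0).2 (by nlinarith))
      (le_self_pow₀ ((one_le_inv₀ t0).2 t1) (by omega))
  · calc _ ≤ C * (t⁻¹ ^ (k + 1)) ^ n * (t ^ (((k + 1) * n + (k + 1)) * 4) * E.L) := by gcongr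
      _ ≤ 1 * E.L := by rw [← mul_assoc]; gcongr
      _ = _ := one_mul _

/-- size of the main term -/
theorem mt_le (hw : 4 ≤ p.w) (hD : E.Dc p R P t a₁ a₂ α₁ α₂) (hR : 0 < R) (hP : 0 ≤ P) (t0 : 0 < t)
    (t1 : t ≤ 1) {z : Pt} {G : Cfg Pt → ℝ} {k : ℕ} (h1 : |cv E.ω (trl z (T1 a₁)) G| ≤ t ^ (72 * nr p.w + k))
    (h2 : |cv E.ω (trl z (T2 a₁)) G| ≤ t ^ (72 * nr p.w + k)) :
    |mt E.ω a₁ α₁ α₂ z G| ≤ 2 * (P * t ^ k / R ^ 2) := by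
  have lo := hD.lo
  have a0 : (0 : ℝ) < a₁ := lt_of_lt_of_le (by positivity) lo
  have h3 : 1 ≤ R / a₁ := by
    rw [one_le_div a0]; exact hD.hi.trans (mul_le_of_le_one_right hR.le (pow_le_one₀ t0.le t1))
  have h4 : max |α₁| |α₂| * (a₁ : ℝ) ^ 2 ≤ P * (R / a₁) := hD.b.trans (by
    gcongr
    simpa using rpow_le_rpow_of_exponent_le h3 (show 3 * ew p.w ≤ 1 by linarith [N3.ew_le hw]))
  have h5 : max |α₁| |α₂| * t ^ (72 * nr p.w + k) ≤ P * t ^ k / R ^ 2 := by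
    rw [← mul_div_assoc, le_div_iff₀ a0] at h4
    rw [le_div_iff₀ (by positivity)]
    refine le_of_mul_le_mul_right ?_ hR
    have m0 : 0 ≤ max |α₁| |α₂| := le_max_of_le_left (abs_nonneg _)
    calc _ = max |α₁| |α₂| * (R * t ^ (24 * nr p.w)) ^ 2 * (R * t ^ (24 * nr p.w)) * t ^ k := by ring
      _ ≤ max |α₁| |α₂| * (a₁ : ℝ) ^ 2 * a₁ * t ^ k := by gcongr
      _ ≤ P * R * t ^ k := by gcongr
      _ = _ := by ring
  refine (abs_add_le _ _).trans ?_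
  rw [abs_mul, abs_mul, two_mul]
  exact add_le_add ((mul_le_mul (le_max_left _ _) h1 (abs_nonneg _) (by positivity)).trans h5)
    ((mul_le_mul (le_max_right _ _) h2 (abs_nonneg _) (by positivity)).trans h5)

/-- a globally smooth local potential of `ξ_R` -/
theorem pot : ∃ C : ℝ, 0 ≤ C ∧ ∀ R : ℝ, 200 ≤ R → ∀ z : Pt, ∃ u, Sm 3 Set.univ C R u ∧
    ∀ n : ℕ, (n : ℝ) ≤ R → ∀ y ∈ bl z n, xi R y = A0 u y := by
  obtain ⟨C, C0, h⟩ := sm_wt 3 (M := 8) (by norm_num)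
  refine ⟨C, C0, fun R hR z => ?_⟩
  have h4 := Nat.ceil_lt_add_one (show 0 ≤ 2 * R by linarith)
  have h5 := Nat.le_ceil (2 * R)
  by_cases hz : z ∈ bl 0 (2 * ⌈2 * R⌉₊)
  · refine ⟨(-1 : ℝ) • wt R (8 * R), by
      simpa using (h R (8 * R) (by push_cast; linarith) (by linarith) le_rfl).smul (-1), fun n hn y hy => ?_⟩
    rw [A0_smul, A0_wt, Pi.smul_apply, Pi.sub_apply, xi_in (r := 8 * R) (by linarith)
      (n := n + 2 * ⌈2 * R⌉₊) (by push_cast; linarith) (bl_subset_bl hz le_rfl hy)]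
    simp
  · refine ⟨fun _ => 0, Sm.zero' 3 _ C0 (by linarith), fun n hn y hy => ?_⟩
    have h6 : n ≤ ⌈2 * R⌉₊ := by exact_mod_cast (show (n : ℝ) ≤ ⌈2 * R⌉₊ by linarith)
    rw [A0_const, sup_xi (by linarith) h5 y fun h' => hz (bl_subset_bl h' (by omega) (mem_bl_comm.1 hy))]
    rfl

/-- the norm of `X χ` -/
theorem nu_chi (hS : SemiStmt) (p : Par) : ∃ C : ℝ, 0 ≤ C ∧ ∀ Λ L, Gs p Λ L → ∀ (ρ : ℝ) (h : ℕ), 1 ≤ ρ →
    2 * ρ ≤ h → (h : ℝ) ≤ 3 * ρ → p.r₀ ≤ h → Pot.Sup (bl 0 (h - 1)) (Xi.chi ρ) ∧ Ins 0 h (X (Xi.chi ρ)) ∧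
      nu Λ p.w 0 h (X (Xi.chi ρ)) ≤ C := by
  obtain ⟨C₁, h1, hC⟩ := sm_chi 1
  obtain ⟨C₂, h2, hB⟩ := Fl.bareStmt p.F
  refine ⟨C₂ * (6 * C₁ ^ 2 * 6 ^ 2) + 1, by positivity, fun Λ L hG ρ h ρ1 a1 a2 a3 => ?_⟩
  have h1' : 1 ≤ h := by exact_mod_cast (show (1 : ℝ) ≤ h by linarith)
  have s : Pot.Sup (bl 0 (h - 1)) (Xi.chi ρ) :=
    sup_chi (by linarith) (by rw [Nat.cast_sub h1']; push_cast; linarith)
  have i : Ins 0 h (X (Xi.chi ρ)) := E30.ins_prA0 s (by omega)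
  refine ⟨s, i, ((hS Λ p.w h 0 hG.mem.ok (gs_le hG a3)).1 _ i).2.1.trans ?_⟩
  have e : E0 (bl 0 (h - 1)) (Xi.chi ρ) ≤ 6 * C₁ ^ 2 * 6 ^ 2 := by
    refine (B80.E0_le s fun e he x _ => (hC ρ (by linarith)).one le_rfl he trivial).trans ?_
    rw [card_bl]
    push_cast [Nat.cast_sub h1']
    calc _ ≤ 6 * (C₁ / ρ) ^ 2 * (6 * ρ) ^ 2 := by
          gcongr
          · have : (1 : ℝ) ≤ h := by exact_mod_cast h1'
            linarith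
          · linarith
      _ = _ := by field_simp
  have k := ((hB Λ hG.mem 0 (h - 1) _ s).2.2 (p.w * h) (by have := le_wmul hG h; omega)).1
  refine (B9.nm_le hG.mem.ok i.2 (P := √(C₂ * (6 * C₁ ^ 2 * 6 ^ 2))) ?_).trans_eq
    (by rw [sq_sqrt (by positivity)])
  rw [sq_sqrt (by positivity), Nc.Nm]
  simp only [abs_pow, sq_abs]
  exact k.trans (by gcongr)

set_option maxHeartbeats 800000 in
/-- MID: the sites outside the hole of `Sn R` -/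
theorem mid (hS : SemiStmt) (hP : ProdStmt) (hL : LocStmt) (hW : SwStmt) (hB : BasStmt) (hT : TgStmt)
    (h2 : X2Stmt) (h4 : X4Stmt) : LamD fun p _ E R _ P t _ _ _ _ => ∀ Z : Finset Pt,
    (∀ z ∈ Z, z ∉ bl 0 ⌊R / 4⌋₊ ∧ z ∈ bl 0 ⌊t⁻¹ ^ 2 * R⌋₊) →
    ∑ z ∈ Z, |E.ω fun s => X (Xi.chi (R / (16 * p.w))) s * Sn R s * E.e z s| ≤ P * t ^ 7 := by
  refine fun w => ⟨0, fun p W D₀ _ _ => ?_⟩
  obtain ⟨C₁, c1, k1⟩ := site hS hP hL hW hB hT p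
  obtain ⟨C₂, n₂, c2, k2⟩ := xp_at h2 p (72 * nr p.w + 14)
  obtain ⟨C₃, n₃, c3, k3⟩ := xp_at h4 p (72 * nr p.w + 14)
  obtain ⟨σ, σ0, k4⟩ := pot
  obtain ⟨C₅, c5, k5⟩ := nu_chi hS p
  obtain ⟨C₆, c6, k6⟩ := sm_chi 3
  obtain ⟨C₇, c7, k7⟩ := D91.sm_sw
  obtain ⟨C₈, c8, k8⟩ := id hW
  have w0 : (0 : ℝ) ≤ p.w := p.w.cast_nonneg
  have r0 : (0 : ℝ) ≤ p.r₀ := p.r₀.cast_nonneg
  have wr : (0 : ℝ) ≤ p.w * p.r₀ := by positivity
  have q1 : 0 ≤ C₅ * (σ * (1 + σ) + 1) := by positivity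
  have q2 : 0 ≤ C₇ * σ := by positivity
  have q3 : 0 ≤ C₈ * σ ^ 2 := by positivity
  obtain ⟨C, d1, d2, d3, d4, d5, d6, d7, d8⟩ : ∃ C : ℝ, C₁ ≤ C ∧ C₂ ≤ C ∧ C₃ ≤ C ∧ 200 * (p.w + 1) ≤ C ∧
      8 * (p.w * p.r₀) ≤ C ∧ C₆ + C₇ * σ ≤ C ∧ C₅ * (σ * (1 + σ) + 1) ≤ C ∧ C₈ * σ ^ 2 ≤ C :=
    ⟨C₁ + C₂ + C₃ + 200 * (p.w + 1) + 8 * (p.w * p.r₀) + (C₆ + C₇ * σ) + C₅ * (σ * (1 + σ) + 1) +
      C₈ * σ ^ 2, by linarith, by linarith, by linarith, by linarith, by linarith, by linarith, by linarith,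
      by linarith⟩
  refine ⟨C, nr p.w + n₂ + n₃ + 4, c1.trans d1, fun E R Y P t h t0 hC hY hRL a₁ a₂ α₁ α₂ hD Z hZ => ?_⟩
  have hE := h.ed.toEnv
  have hG := hE.toGs
  have hw := hG.w4
  have hn : 4 ≤ nr p.w := le_trans (by norm_num) (N3.nr_ge hw)
  have C1 := c1.trans d1
  have t1 := N3.t_le_one C1 t0 hC
  have ct : ∀ A : ℝ, A ≤ C → A * t ≤ 1 := fun A hA => le_trans (by gcongr) hC
  have pw : ∀ k, k ≤ nr p.w + n₂ + n₃ + 4 → Y ≤ t ^ k ∧ R ≤ t ^ k * E.L := fun k hk =>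
    ⟨hY.trans (N3.pow_anti t0 t1 hk), hRL.trans (by gcongr ?_ * _; exact N3.pow_anti t0 t1 hk)⟩
  have P1 := h.P1
  have RC : C ≤ R := X81.big hw h.maj (le_trans (by gcongr; simpa using (pw 1 (by omega)).1) hC) (by linarith)
  have R0 : 0 < R := by linarith
  have hw' : (4 : ℝ) ≤ p.w := by exact_mod_cast hw
  have i1 : 1 ≤ t⁻¹ := (one_le_inv₀ t0).2 t1
  have iC : C ≤ t⁻¹ := by rw [← one_div, le_div_iff₀ t0]; exact hC
  obtain ⟨_, ε₂, -, e2, x2⟩ := k2 W E D₀ R Y P t h t0 (ct _ d2) (pw _ (by omega)).1 (pw _ (by omega)).2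
  obtain ⟨_, ε₃, -, e3, x4⟩ := k3 W E D₀ R Y P t h t0 (ct _ d3) (pw _ (by omega)).1 (pw _ (by omega)).2
  have ρ1 : 1 ≤ R * t ^ nr p.w := N3.one_le_R hw h.maj t0 t1 (pw (nr p.w) (by omega)).1 (by linarith)
  have ρ2 : R * t ^ nr p.w ≤ R * t * t := by
    rw [mul_assoc, ← pow_two]; gcongr R * ?_; exact N3.pow_anti t0 t1 (by omega)
  have mM : ∀ k, k ≤ 72 * nr p.w + 14 + 1 → t⁻¹ ^ k ≤ t⁻¹ ^ (72 * nr p.w + 14 + 1) ∧
      R / t⁻¹ ^ (72 * nr p.w + 14 + 1) ≤ R * t ^ k := fun k hk => ⟨pow_le_pow_right₀ i1 hk, by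
    rw [inv_pow, div_inv_eq_mul]; gcongr R * ?_; exact N3.pow_anti t0 t1 hk⟩
  have M1 := (mM 1 (by omega)).1
  have M2 := (mM 1 (by omega)).2
  have M3 := (mM 3 (by omega)).1
  have M4 := (mM (nr p.w) (by omega)).2
  have M5 := (mM (24 * nr p.w) (by omega)).2.trans hD.lo
  have a1 : (a₁ : ℝ) ≤ R * t := hD.hi.trans (by gcongr R * ?_; exact pow_le_of_le_one t0.le t1 (by omega))
  have a8 : 1 ≤ a₁ := by have := hD.r1; have := h.r8; omega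
  have L3 : t⁻¹ ^ 3 * R ≤ E.L := by
    rw [inv_pow, inv_mul_le_iff₀ (by positivity)]; exact (pw 3 (by omega)).2
  have k1 := k1 W E D₀ R Y P t α₁ α₂ a₁ a₂ h t0 (ct _ d1) (pw _ (by omega)).1 hD
  clear mM pw k2 k3 hY hRL
  generalize R * t ^ nr p.w = ρ at *
  rw [pow_one] at M1 M2
  generalize t⁻¹ ^ (72 * nr p.w + 14 + 1) = M at *
  have wt := ct _ d4
  have Rt : 0 < R * t := by positivity
  have wRt : 200 * (p.w * (R * t)) + 200 * (R * t) ≤ R := by nlinarith only [wt, R0]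
  have wRt0 : 0 ≤ p.w * (R * t) := by positivity
  have hχ1 : 1 ≤ R / (16 * p.w) := by rw [le_div_iff₀ (by positivity)]; linarith
  have hχ2 : p.w * (R / (16 * p.w)) = R / 16 := by field_simp
  have hχ3 : R * t ≤ R / (16 * p.w) := by rw [le_div_iff₀ (by positivity)]; linarith
  have hχ4 : (p.r₀ : ℝ) ≤ 2 * (R / (16 * p.w)) := by
    rw [← mul_div_assoc, le_div_iff₀ (by positivity)]; linarith
  have sχ := k6 _ (one_pos.trans_le hχ1)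
  generalize R / (16 * p.w) = κ at *
  obtain ⟨g, g1, g2⟩ : ∃ g : ℕ, 2 * κ ≤ g ∧ (g : ℝ) ≤ 2 * κ + 1 :=
    ⟨_, Nat.le_ceil _, (Nat.ceil_lt_add_one (by linarith)).le⟩
  obtain ⟨r, r1, r2⟩ : ∃ r : ℕ, R * t ≤ r ∧ (r : ℝ) ≤ R * t + 1 :=
    ⟨_, Nat.le_ceil _, (Nat.ceil_lt_add_one Rt.le).le⟩
  have gr : p.r₀ ≤ g := by exact_mod_cast hχ4.trans g1
  obtain ⟨s1, s2, s3⟩ := k5 E.Λ E.L hG κ g hχ1 g1 (by linarith) gr
  have f4 := Nat.lt_floor_add_one (R / 4)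
  have wg : (p.w : ℝ) * g ≤ R / 8 + p.w := by nlinarith only [g2, hχ2, w0]
  have wr' : (p.w : ℝ) * r ≤ p.w * (R * t) + p.w := by nlinarith only [r2, w0]
  have n1 : p.w * g + p.w * r ≤ ⌊R / 4⌋₊ := by
    exact_mod_cast (show (p.w : ℝ) * g + p.w * r ≤ ⌊R / 4⌋₊ by linarith)
  have f5 : (⌊R / 4⌋₊ : ℝ) ≤ R / 4 := Nat.floor_le (by positivity)
  have f6 : (⌊t⁻¹ ^ 2 * R⌋₊ : ℝ) ≤ t⁻¹ ^ 2 * R := Nat.floor_le (by positivity)
  have f7 : R ≤ t⁻¹ ^ 2 * R := le_mul_of_one_le_left R0.le (one_le_pow₀ i1)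
  have f8 : 4 * (t⁻¹ ^ 2 * R) ≤ t⁻¹ ^ 3 * R := by
    rw [pow_succ' _ 2, mul_assoc]; gcongr; linarith
  have f9 : t⁻¹ ^ 3 * R ≤ M * R := by gcongr
  have f10 := Nat.lt_floor_add_one (M * R)
  have n2 : ⌊t⁻¹ ^ 2 * R⌋₊ + ⌊R / 4⌋₊ ≤ E.L := by
    exact_mod_cast (show (⌊t⁻¹ ^ 2 * R⌋₊ : ℝ) + ⌊R / 4⌋₊ ≤ E.L by linarith)
  have n3 : ⌊t⁻¹ ^ 2 * R⌋₊ + ⌊R / 4⌋₊ ≤ ⌊M * R⌋₊ := by
    exact_mod_cast (show (⌊t⁻¹ ^ 2 * R⌋₊ : ℝ) + ⌊R / 4⌋₊ ≤ ⌊M * R⌋₊ by linarith)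
  have hN := hE.le
  have n4 := le_wmul hG g
  have n5 := le_wmul hG r
  have n6 : 2 * R ≤ E.N := le_trans (by linarith) (L3.trans (by exact_mod_cast hN))
  have κ4 : 4 * κ ≤ R / 16 := by nlinarith only [hχ2, hw', hχ1]
  have t8 : 8 * t ≤ 1 := ct _ (by linarith)
  have ρ3 : 8 * ρ ≤ R * t := by nlinarith only [ρ2, t8, Rt]
  have rp : (0 : ℝ) < r := by linarith
  have ρ4 : ρ / r ≤ t := by rw [div_le_iff₀ rp]; nlinarith only [ρ2, r1, t0]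
  have ρ5 : R * t ^ 2 ≤ r := by nlinarith only [r1, t1, Rt]
  have ρ6 : r * t ^ 2 ≤ R := (mul_le_of_le_one_right rp.le (pow_le_one₀ t0.le t1)).trans (by linarith)
  obtain ⟨m, m1, m2⟩ : ∃ m : ℕ, 2 * ρ ≤ m ∧ m + 1 ≤ r := ⟨_, Nat.le_ceil _, by
    have := Nat.ceil_lt_add_one (show 0 ≤ 2 * ρ by linarith)
    exact_mod_cast (show (⌈2 * ρ⌉₊ : ℝ) + 1 ≤ r by linarith)⟩
  have lM : C₈ * σ ^ 2 * (ρ / r) ^ 4 ≤ log M := by
    have b2 : (ρ / r) ^ 4 ≤ t :=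
      (pow_le_pow_left₀ (by positivity) ρ4 4).trans (pow_le_of_le_one t0.le t1 (by norm_num))
    refine (mul_le_mul_of_nonneg_left b2 q3).trans ((ct _ d8).trans ?_)
    rw [le_log_iff_exp_le (by linarith)]
    linarith [exp_one_lt_three]
  have v5 : C₇ * σ * (ρ / R) ^ 2 ≤ M := le_trans (mul_le_of_le_one_right q2
    (pow_le_one₀ (by positivity) (by rw [div_le_one R0]; linarith))) (by linarith)
  have n7 : g + 2 * a₁ ≤ ⌊R / 4⌋₊ := by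
    exact_mod_cast (show (g : ℝ) + 2 * a₁ ≤ ⌊R / 4⌋₊ by linarith)
  have M0 : 0 < M := by linarith
  have svχ : Sv R M (Xi.chi κ) := ⟨s1.mono (bl_mono 0 (by omega)),
    (sχ.mono le_rfl Set.Subset.rfl (by linarith) (by linarith)).scale (by positivity) (M2.trans hχ3)⟩
  have hF : Far p E.L (bl 0 E.N) ({()} : Finset Unit) (fun _ => 0) (fun _ => g) fun _ => X (Xi.chi κ) :=
    ⟨by simp, fun _ _ => s2, fun _ _ => ⟨gr, by omega⟩, fun _ _ => bl_mono 0 (by omega),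
      fun _ _ _ _ h => absurd rfl h⟩
  have one : ∀ z ∈ Z, |E.ω fun s => X (Xi.chi κ) s * Sn R s * E.e z s| ≤ 3 * (P * t ^ 14 / R ^ 2) := by
    intro z hz
    obtain ⟨z1, z2⟩ := hZ z hz
    obtain ⟨u, u1, u2⟩ := k4 R (by linarith) z
    have lr : Lr (xi R) u z r σ := Lr.of_sm (u1.scale rp (by linarith)) (fun _ _ => trivial)
      (u2 (r + 2) (by push_cast; linarith))
    have k := k1 0 Unit _ _ _ _ z r σ (-(π / 2)) (xi R) u 1 hF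
      (fun _ _ y hy => xi_in R0 (n := g) (by linarith) hy) (E30.chq_xi R0 n6) (by omega)
      (bl_subset_bl z2 (by omega)) (fun _ _ => disj z1 n1) lr ρ5 ρ6
    simp only [prod_singleton] at k
    obtain ⟨v1, v2, -⟩ := (k8 _ u z r σ lr (by omega)).2.2 _ _ ρ1 m1 m2
    have v3 := k7 u z σ R _ u1 ρ1 (by linarith)
    have v4 := v2.trans lM
    have v6 := sup_A0 v1
    generalize sw u z ρ = v at *
    have sub : bl z (m + 1) ⊆ bl 0 ⌊M * R⌋₊ := bl_subset_bl z2 (by omega)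
    have v7 : Pot.Sup (bl 0 ⌊M * R⌋₊) v := v1.mono ((bl_mono z (by omega)).trans sub)
    have sv : Sv R M v := ⟨v7, (v3.mono le_rfl Set.Subset.rfl v5 (by linarith)).scale (by positivity) M4⟩
    have ez : eu z ≤ M * R := by
      have := eu_le_of_bl z2
      rw [sub_zero] at this; linarith
    have y1 := ((x2 a₁ z _ _ M5 (by linarith) ez svχ svχ).2.2 (-A0 v) (-(π / 2))
      (((B80.f2_A0 v1).neg.subset (Lat.edI_mono sub)).mono v4)).2.1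
    have w1 : ∑ y ∈ bl z (2 * a₁), xi a₁ (y - z) * Xi.chi κ y = 0 := sum_eq_zero fun y hy => by
      rw [s1 y fun h' => disjoint_left.1 (disj z1 n7) (bl_mono 0 (by omega) h') hy, mul_zero]
    have y2 := x4 a₁ z _ v 0 M5 (by linarith) ez svχ (s1.mono (bl_mono 0 (by omega))) sv
      ((B80.E0_congr v7 v1).trans_le v4) w1.symm (Or.inr ⟨rfl, sum_eq_zero fun y _ => by
        by_cases hy : y ∈ bl 0 (g - 1)
        · rw [v6 y fun h' => disjoint_left.1 (disj z1 n1) (bl_mono 0 (by omega) hy)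
            (bl_mono z (by omega) h'), mul_zero]
        · rw [s1 y hy, zero_mul]⟩)
    rw [mul_zero, zero_mul, add_zero] at y2
    rw [← sub_eq_add_neg] at y1
    have y3 := mt_le hw hD R0 (by linarith) t0 t1 (y1.trans e2) (y2.trans e3)
    have y4 : C₅ * (P * (σ * (1 + σ) * t ^ 20 + t ^ (15 + 2 * nr p.w)) / R ^ 2) ≤ P * t ^ 14 / R ^ 2 := calc
      _ ≤ C₅ * (P * (σ * (1 + σ) * t ^ 15 + t ^ 15) / R ^ 2) := by
        gcongr C₅ * (P * (σ * (1 + σ) * ?_ + ?_) / R ^ 2) <;> exact N3.pow_anti t0 t1 (by omega)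
      _ = C₅ * (σ * (1 + σ) + 1) * t * (P * t ^ 14 / R ^ 2) := by ring
      _ ≤ 1 * (P * t ^ 14 / R ^ 2) := by gcongr; exact ct _ d7
      _ = _ := one_mul _
    rw [E30.Sn_eq]
    have y5 := k.trans ((mul_le_mul_of_nonneg_right s3 (by positivity)).trans y4)
    linarith only [y3, y5, abs_sub_abs_le_abs_sub (E.ω fun s => X (Xi.chi κ) s *
      cp (xi R) (-(π / 2)) s * E.e z s) (mt E.ω a₁ α₁ α₂ z fun s => X (Xi.chi κ) s *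
        cp (xi R - A0 v) (-(π / 2)) s)]
  have hc : (Z.card : ℝ) ≤ (3 * (t⁻¹ ^ 2 * R)) ^ 2 := by
    refine (Nat.cast_le.2 (card_le_card fun z hz => (hZ z hz).2)).trans ?_
    rw [card_bl]; push_cast; gcongr; linarith
  calc _ ≤ (3 * (t⁻¹ ^ 2 * R)) ^ 2 * (3 * (P * t ^ 14 / R ^ 2)) :=
        ((sum_le_card_nsmul _ _ _ one).trans_eq (nsmul_eq_mul _ _)).trans (by gcongr)
    _ = 27 * t * (P * t ^ 9) := by field_simp; ring
    _ ≤ 1 * (P * t ^ 7) := by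
        gcongr ?_ * (P * ?_)
        · exact ct _ (by linarith)
        · exact N3.pow_anti t0 t1 (by omega)
    _ = _ := one_mul _

end Crest.Agent.T145.Ev.M60
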