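import Crest.Agent.T145.EvCr3_60
import Crest.Agent.T145.EvNum_3

/-!
# Row 145, even sector: the energy star at one site against far insertions and a charge (helper60)
-/

set_option autoImplicit false

namespace Crest.Agent.T145.Ev.Si60

open Finset Pot Xi Real Fl Le60 Lj36

/-- the Gaussian main term at the site `z` -/
noncomputable def mt (ω : Sta) (a : ℕ) (α₁ α₂ : ℝ) (z : Pt) (G : Cfg Pt → ℝ) : ℝ :=
  α₁ * cv ω (trl z (T1 a)) G + α₂ * cv ω (trl z (T2 a)) G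

variable {p : Par} {W : ℕ} {E : Dt} {D₀ R Y P t α₁ α₂ : ℝ} {a₁ a₂ : ℕ}

theorem ins_T (hT : TgStmt) {a : ℕ} (ha : 1 ≤ a) : Ins 0 (5 * a) (T1 a) ∧ Ins 0 (5 * a) (T2 a) := by
  obtain ⟨_, _, -, -, h⟩ := hT
  exact ⟨(h a ha).1.1, E30.ins_le (h a ha).2.1.1 (by omega)⟩

theorem ins_Tc (hT : TgStmt) {a : ℕ} (ha : 1 ≤ a) (ω : Sta) (α₁ α₂ : ℝ) : Ins 0 (5 * a) (Tc ω a α₁ α₂) :=
  E30.ins_add (E30.ins_smul (E30.ins_sub (ins_T hT ha).1 (E30.ins_const _ _ _)) _)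
    (E30.ins_smul (E30.ins_sub (ins_T hT ha).2 (E30.ins_const _ _ _)) _)

theorem om_Tc (hT : TgStmt) {Λ : Lat} {ω : Sta} {L N a : ℕ} (hE : Env p Λ ω L N) (ha : 1 ≤ a)
    (haN : 5 * a ≤ N) {c z : Pt} (hz : bl z (5 * a) ⊆ bl c N) {G : Cfg Pt → ℝ} (hG : Ins c N G)
    (α₁ α₂ : ℝ) : ω (fun s => trl z (Tc ω a α₁ α₂) s * G s) = mt ω a α₁ α₂ z G := by
  obtain ⟨h1, h2⟩ := ins_T hT ha
  have k : ∀ F, Ins 0 (5 * a) F → Ins c N (fun s => (trl z F s - ω F) * G s) ∧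
      ω (fun s => (trl z F s - ω F) * G s) = cv ω (trl z F) G := fun F hF => by
    have h3 := E30.ins_mono (E30.ins_trl hF z) hz
    refine ⟨E30.ins_mul (E30.ins_sub h3 (E30.ins_const _ _ _)) hG, ?_⟩
    simp only [sub_mul]
    rw [hE.ex_sub (E30.ins_mul h3 hG) (E30.ins_smul hG _), hE.ex_smul hG.1, cv,
      hE.trl 0 z F (E30.ins_le hF haN).1]
  rw [mt, ← (k _ h1).2, ← (k _ h2).2, ← hE.ex_smul (k _ h1).1.1, ← hE.ex_smul (k _ h2).1.1,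
    ← hE.ex_add (E30.ins_smul (k _ h1).1 _) (E30.ins_smul (k _ h2).1 _)]
  exact congrArg ω (funext fun s => by simp only [trl, Tc]; ring)

/-- REM: the star is replaced by the references when the multiplier does not see `bl z a₂` -/
theorem rem (hS : SemiStmt) (hP : ProdStmt) (hB : BasStmt) (hT : TgStmt) (h : E.Ok p W)
    (hD : E.Dc p R P t a₁ a₂ α₁ α₂) {c z : Pt} {ι : Type} {I : Finset ι} {x : ι → Pt} {rr : ι → ℕ}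
    {H : ι → Cfg Pt → ℝ} {B : Cfg Pt → ℝ} (hF : Far p E.L (bl c E.N) I x rr H) (hL : p.w * a₂ ≤ E.L)
    (hz : bl z (p.w * a₂) ⊆ bl c E.N) (hd : ∀ i ∈ I, Disjoint (bl (x i) (p.w * rr i)) (bl z (p.w * a₂)))
    (b1 : DepG (bl c E.N) B) (b2 : ∀ i ∈ I, Out (bl (x i) (rr i)) B) (b3 : Out (bl z a₂) B)
    (b4 : ∀ s, |B s| ≤ 1) :
    |E.ω (fun s => (∏ i ∈ I, H i s) * B s * E.e z s) -
      mt E.ω a₁ α₁ α₂ z fun s => (∏ i ∈ I, H i s) * B s| ≤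
      32 * (∏ i ∈ I, nu E.Λ p.w (x i) (rr i) (H i)) * (P * t ^ (16 + 2 * nr p.w) / R ^ 2) := by
  have hE := h.ed.toEnv
  have hG := hE.toGs
  obtain ⟨_, -, hB⟩ := hB p
  have h1 := hD.le
  have h2 := hD.r1
  have h3 := h.r8
  have h4 := h.r0
  have h5 := gs_rg hG
  have h6 := le_wmul hG a₂
  have h7 := hE.le
  have i1 : Ins 0 a₂ (E.e 0) := E30.ins_le (hB _ _ _ _ hE 0).2.2.1 (by omega)
  have i2 : Ins 0 a₂ (Tc E.ω a₁ α₁ α₂) := E30.ins_le (ins_Tc hT (by omega) _ _ _) (by omega)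
  have i3 := E30.ins_sub i1 i2
  have hza : bl z a₂ ⊆ bl c E.N := (bl_mono z h6).trans hz
  have iG : Ins c E.N fun s => (∏ i ∈ I, H i s) * B s :=
    E30.ins_mul (E30.ins_far (by have := hG.w4; omega) hF) (E30.ins_bdd b1 b4)
  obtain ⟨m, hm⟩ := hE.amb c
  have k := ((hP p E.Λ E.L hG m _ ι I x rr H B hm.1 hF b2 b4).2 z a₂ (by omega) hL hz hd).2.1 _
    (E30.ins_trl i3 z) b3
  rw [nu_trl hS hG (by omega) i3 le_rfl, ← hm.2 _ (((depG_prod hG hF).mul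
    ((E30.ins_trl i3 z).1.mono hza)).mul b1)] at k
  refine le_trans (le_of_eq ?_) (k.trans (mul_le_mul_of_nonneg_left hD.nu
    (mul_nonneg (by norm_num) (prod_nonneg hS hG hF))))
  rw [← om_Tc hT hE (by omega) (by omega) ((bl_mono z (by omega)).trans hza) iG, Dt.e,
    ← (hB _ _ _ _ hE z).2.1, ← hE.ex_sub (E30.ins_mul iG (E30.ins_mono (E30.ins_trl i1 z) hza))
      (E30.ins_mul (E30.ins_mono (E30.ins_trl i2 z) hza) iG)]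
  exact congrArg _ (congrArg E.ω (funext fun s => by simp only [trl]; ring))

set_option maxHeartbeats 400000 in
/-- SITE: sweep the charge, then replace the star -/
theorem site (hS : SemiStmt) (hP : ProdStmt) (hL : LocStmt) (hW : SwStmt) (hB : BasStmt) (hT : TgStmt)
    (p : Par) : ∃ C : ℝ, 1 ≤ C ∧ ∀ (W : ℕ) (E : Dt) (D₀ R Y P t α₁ α₂ : ℝ) (a₁ a₂ : ℕ),
    E.Bs p W D₀ R Y P → 0 < t → C * t ≤ 1 → Y ≤ t ^ nr p.w → E.Dc p R P t a₁ a₂ α₁ α₂ →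
    ∀ (c : Pt) (ι : Type) (I : Finset ι) (x : ι → Pt) (rr : ι → ℕ) (H : ι → Cfg Pt → ℝ) (z : Pt) (r : ℕ)
      (σ φ : ℝ) (ξ u : Pt → ℝ) (q : ℤ), Far p E.L (bl c E.N) I x rr H →
      (∀ i ∈ I, ∀ y ∈ bl (x i) (rr i), ξ y = 0) → Chq (bl c E.N) ξ q → p.w * r ≤ E.L →
      bl z (p.w * r) ⊆ bl c E.N → (∀ i ∈ I, Disjoint (bl (x i) (p.w * rr i)) (bl z (p.w * r))) →
      Lr ξ u z r σ → R * t ^ 2 ≤ r → r * t ^ 2 ≤ R →
      |E.ω (fun s => (∏ i ∈ I, H i s) * cp ξ φ s * E.e z s) - mt E.ω a₁ α₁ α₂ z fun s =>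
        (∏ i ∈ I, H i s) * cp (ξ - A0 (sw u z (R * t ^ nr p.w))) φ s| ≤
        (∏ i ∈ I, nu E.Λ p.w (x i) (rr i) (H i)) *
          (P * (σ * (1 + σ) * t ^ 20 + t ^ (15 + 2 * nr p.w)) / R ^ 2) := by
  obtain ⟨C₁, hC₁, h1⟩ := leStmt hS hP hL hW p
  obtain ⟨P₀, hP₀, hB'⟩ := hB p
  have hK : (0 : ℝ) ≤ (p.w : ℝ) ^ 2 * p.r₀ := by positivity
  have hK' : 0 ≤ C₁ * (1 + P₀ * (p.r₀ : ℝ) ^ 2) := by positivity
  refine ⟨600 + 8 * ((p.w : ℝ) ^ 2 * p.r₀) + C₁ * (1 + P₀ * (p.r₀ : ℝ) ^ 2), by linarith, ?_⟩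
  intro W E D₀ R Y P t α₁ α₂ a₁ a₂ h t0 hC hY hD c ι I x rr H z r σ φ ξ u q hF hξ hq hrL hz hd hLr r1 r2
  have hE := h.ed.toEnv
  have hG := hE.toGs
  have hw := hG.w4
  have hn : 4 ≤ nr p.w := le_trans (by norm_num) (N3.nr_ge hw)
  have hσ := hLr.1
  have P1 := h.P1
  have R1 := h.maj.1
  have t1 : 600 * t ≤ 1 := le_trans (by gcongr; linarith) hC
  have t2 : 8 * ((p.w : ℝ) ^ 2 * p.r₀) * t ≤ 1 := le_trans (by gcongr; linarith) hC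
  have t3 : C₁ * (1 + P₀ * (p.r₀ : ℝ) ^ 2) * t ≤ 1 := le_trans (by gcongr; linarith) hC
  have t4 : t ≤ 1 := by linarith
  have hw' : (4 : ℝ) ≤ p.w := by exact_mod_cast hw
  have h2' : (2 : ℝ) ≤ p.r₀ := by exact_mod_cast gs_two hG
  have h16 : 16 * (p.r₀ : ℝ) ≤ (p.w : ℝ) ^ 2 * p.r₀ := by gcongr; nlinarith
  have ρ1 : 1 ≤ R * t ^ nr p.w * t := by
    rw [mul_assoc, ← pow_succ]; exact N3.one_le_R hw h.maj t0 t4 hY (by linarith)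
  have ρ2 : R * t ^ nr p.w ≤ r * t ^ (nr p.w - 2) := by
    rw [show nr p.w = 2 + (nr p.w - 2) by omega, pow_add, ← mul_assoc, Nat.add_sub_cancel_left]; gcongr
  have ρ3 : (a₂ : ℝ) ≤ R * t ^ nr p.w * t := by rw [mul_assoc, ← pow_succ]; exact hD.up
  have ρ0 : 0 < R * t ^ nr p.w := by positivity
  generalize R * t ^ nr p.w = ρ at *
  have r0 : (0 : ℝ) < r := lt_of_lt_of_le (by positivity) r1
  have ρ4 : 8 * (p.w : ℝ) ^ 2 * p.r₀ ≤ ρ := by nlinarith [mul_le_mul_of_nonneg_left ρ1 hK]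
  have ρ5 : 600 * ρ ≤ r := by
    have := ρ2.trans (mul_le_mul_of_nonneg_left (pow_le_of_le_one t0.le t4 (by omega)) r0.le)
    nlinarith
  have ρ6 : (a₂ : ℝ) + 1 ≤ ρ := by nlinarith
  have har : a₂ ≤ r := by exact_mod_cast (show (a₂ : ℝ) ≤ r by linarith)
  have hwa := Nat.mul_le_mul_left p.w har
  have hrw : bl z r ⊆ bl z (p.w * r) := bl_mono z (le_wmul hG r)
  obtain ⟨s1, s2, s3⟩ := swept hW hq (hrw.trans hz) hLr (ρ := ρ) (by linarith) (by linarith)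
  have hrg : E.Λ.rg ≤ p.r₀ := by have := gs_rg hG; omega
  obtain ⟨-, -, b1, b2, -, -, b3⟩ := hB' _ _ _ _ hE 0
  have M1 : 1 ≤ t⁻¹ ^ 2 := one_le_pow₀ (one_le_inv₀ t0 |>.2 t4)
  have k1 := (h1 _ _ _ _ hE (E.e 0) p.r₀ R P P₀ (t⁻¹ ^ 2) le_rfl (E30.ins_le b1 hrg) b2 (by linarith)
    (by linarith) h.prof (by linarith) (fun c hc => (b3 0 c (bl_mono 0 (hrg.trans hc))).1) M1 c ι I x rr H
    z r σ φ ξ u q hF hξ hq hrL hz hd hLr (by rwa [inv_pow, div_inv_eq_mul])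
    (by rwa [inv_pow, le_inv_mul_iff₀' (by positivity)])).1 ρ ρ4 ρ5
  have k2 := rem hS hP hB hT h.toOk hD hF (hwa.trans hrL) ((bl_mono z hwa).trans hz)
    (fun i hi => (hd i hi).mono_right (bl_mono z hwa)) (depG_cp s1 φ) (fun i hi => out_cp (fun y hy => by
      rw [Pi.sub_apply, hξ i hi y hy, s2.1 y fun h' =>
        disjoint_left.1 (hd i hi) (bl_mono _ (le_wmul hG _) hy) (hrw h'), sub_zero]) φ)
    (out_cp (s3 a₂ ρ6) φ) (abs_cp_le _ φ)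
  rw [Dt.e, (hB' _ _ _ _ hE z).2.1] at k1
  simp only [mul_right_comm _ (et E.Λ E.ω z _)] at k1
  have hPi := prod_nonneg hS hG hF
  generalize ∏ i ∈ I, nu E.Λ p.w (x i) (rr i) (H i) = PP at *
  have c0 := cw_pos hw
  have e1 : (ρ / r) ^ (cw p.w / 4) ≤ t ^ 26 := calc
    _ ≤ (t ^ (nr p.w - 2)) ^ (cw p.w / 4) := by gcongr; rwa [div_le_iff₀' r0]
    _ = t ^ (((nr p.w : ℝ) - 2) * (cw p.w / 4)) := by
      rw [← rpow_natCast, ← rpow_mul t0.le, Nat.cast_sub (by omega), Nat.cast_two]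
    _ ≤ t ^ ((26 : ℕ) : ℝ) := rpow_le_rpow_of_exponent_ge t0 t4 (by push_cast; linarith [N3.nr_cw hw])
    _ = _ := rpow_natCast _ _
  have e2 : (t⁻¹ ^ 2) ^ ew p.w ≤ t⁻¹ := calc
    _ ≤ (t⁻¹ ^ 2) ^ (1 / 2 : ℝ) := rpow_le_rpow_of_exponent_le M1 (by linarith [N3.ew_le hw])
    _ = _ := by rw [← sqrt_eq_rpow, sqrt_sq (by positivity)]
  have e3 : 1 / (r : ℝ) ^ 2 ≤ 1 / (R * t ^ 2) ^ 2 := by gcongr
  have e4 : ((p.r₀ : ℝ) / r) ^ (2 + cw p.w / 2) ≤ (p.r₀ : ℝ) ^ 2 * (P * t⁻¹ * t ^ 26 * (1 / (r : ℝ) ^ 2)) := by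
    rw [rpow_add (by positivity), rpow_two]
    have : ((p.r₀ : ℝ) / r) ^ (cw p.w / 2) ≤ t ^ 26 :=
      (rpow_le_rpow_of_exponent_ge (by positivity) (by rw [div_le_one r0]; linarith)
        (by linarith : cw p.w / 4 ≤ _)).trans (le_trans (by gcongr; linarith) e1)
    calc _ ≤ ((p.r₀ : ℝ) / r) ^ 2 * (1 * 1 * t ^ 26) := by gcongr; linarith
      _ ≤ ((p.r₀ : ℝ) / r) ^ 2 * (P * t⁻¹ * t ^ 26) := by gcongr; exact (one_le_inv₀ t0).2 t4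
      _ = _ := by ring
  have e5 : P * (t⁻¹ ^ 2) ^ ew p.w * (ρ / r) ^ (cw p.w / 4) / (r : ℝ) ^ 2 +
      P₀ * ((p.r₀ : ℝ) / r) ^ (2 + cw p.w / 2) ≤ (1 + P₀ * (p.r₀ : ℝ) ^ 2) * t * (P * t ^ 20 / R ^ 2) := calc
    _ ≤ P * t⁻¹ * t ^ 26 * (1 / (r : ℝ) ^ 2) +
        P₀ * ((p.r₀ : ℝ) ^ 2 * (P * t⁻¹ * t ^ 26 * (1 / (r : ℝ) ^ 2))) := by
      rw [div_eq_mul_one_div]; gcongr
    _ = (1 + P₀ * (p.r₀ : ℝ) ^ 2) * (P * t⁻¹ * t ^ 26 * (1 / (r : ℝ) ^ 2)) := by ring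
    _ ≤ (1 + P₀ * (p.r₀ : ℝ) ^ 2) * (P * t⁻¹ * t ^ 26 * (1 / (R * t ^ 2) ^ 2)) := by gcongr
    _ = _ := by field_simp
  refine (abs_sub_le _ _ _).trans ((add_le_add k1 k2).trans ?_)
  calc _ ≤ C₁ * PP * (σ * (1 + σ)) * ((1 + P₀ * (p.r₀ : ℝ) ^ 2) * t * (P * t ^ 20 / R ^ 2)) +
        32 * PP * (P * t ^ (16 + 2 * nr p.w) / R ^ 2) := by gcongr
    _ = C₁ * (1 + P₀ * (p.r₀ : ℝ) ^ 2) * t * (PP * (σ * (1 + σ)) * (P * t ^ 20 / R ^ 2)) +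
        32 * t * (PP * (P * t ^ (15 + 2 * nr p.w) / R ^ 2)) := by ring
    _ ≤ 1 * (PP * (σ * (1 + σ)) * (P * t ^ 20 / R ^ 2)) +
        1 * (PP * (P * t ^ (15 + 2 * nr p.w) / R ^ 2)) := by gcongr; linarith
    _ = _ := by ring

end Crest.Agent.T145.Ev.Si60
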