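import Crest.Agent.T145.FlLow_11
import Crest.Agent.T145.FlDef2_82
import Crest.Agent.T145.FlBare_80

/-!
# Row 145, even sector: soft transport of a charge by a compactly supported potential (helper11)
-/

set_option autoImplicit false

namespace Crest.Agent.T145.Ev.T11

open Finset Pot Xi Real Filter Fl Fl.L11

/-- a soft statement at every scale of a window -/
def Win (P : Lat → ℝ → ℝ → ℕ → ℕ → Prop) : Prop := ∀ (F : Fa) (θ₀ K ε : ℝ), 0 < θ₀ → 1 ≤ K → 0 < ε →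
  ∃ δ : ℝ, 0 < δ ∧ ∀ l : ℕ, ∃ r₁ : ℕ, ∀ Λ N, F.Mem Λ → Λ.Win θ₀ δ l (2 ^ N) →
    ∀ n : ℕ, r₁ ≤ n → n ≤ 2 ^ N → P Λ K ε l n

/-- (Q) for a charge at every scale of a window -/
theorem chqW (hQ : Kr.QStmt) (hT : T1mStmt) : Win fun Λ K ε l n => ∀ (m : Mdl Pt) (f : Pt → ℝ),
    Nc.Amb Λ m (bl 0 n) → (∀ x, |f x| ≤ K / (n : ℝ) ^ 2) →
    |Ex (m.W 0) (cp f 0) - exp (-2 * π ^ 2 * Λ.gN l * GD nL (bl 0 n) f f) *
      Ex (m.W 0) (cp (Kr.sw (bl 0 n) f) 0)| ≤ ε := fun F θ₀ K ε h0 hK hε => by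
  have p3 := pi_gt_three
  obtain ⟨δ₀, d0, H⟩ := (chq hQ).sub0 hT F h0 (show 1 ≤ 2 * π * K by nlinarith) hε 0
  obtain ⟨δ, d, H⟩ := exists_of_ev (H.and (ev_le d0))
  refine ⟨δ, d, fun l => ⟨2 * ⌈l / δ₀⌉₊ + 1, fun Λ N hΛ hw n h1 h2 m f hm hf => ?_⟩⟩
  have j1 : 2 ^ Nat.log 2 n ≤ n := Nat.pow_log_le_self 2 (by omega)
  have j2 : n < 2 ^ (Nat.log 2 n + 1) := Nat.lt_pow_succ_log_self one_lt_two n
  rw [pow_succ] at j2
  have j3 : ((2 ^ Nat.log 2 n : ℕ) : ℝ) ≤ n := by exact_mod_cast j1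
  have j4 : (n : ℝ) ≤ (2 ^ Nat.log 2 n : ℕ) * 2 := by exact_mod_cast j2.le
  have j0 : (0 : ℝ) < (2 ^ Nat.log 2 n : ℕ) := by positivity
  have k := H.1 Λ hΛ l _ hw (Nat.log 2 n) (j1.trans h2) (Or.inr ⟨hw.2.1.1.trans (by gcongr; exact H.2), by
      rw [mul_comm, ← div_le_iff₀ d0]
      exact (Nat.le_ceil _).trans (by exact_mod_cast (by omega : _ ≤ 2 ^ Nat.log 2 n))⟩)
    n m ((2 * π) • f) hm (by nlinarith [mul_le_mul_of_nonneg_right (show 2 ≤ 2 * π * K by nlinarith) j0.le])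
    fun x => by
      rw [Pi.smul_apply, smul_eq_mul, abs_mul, abs_of_pos two_pi_pos, mul_div_assoc]
      refine mul_le_mul_of_nonneg_left ((hf x).trans ?_) two_pi_pos.le
      gcongr
  rw [Kr.Sw44.sw_smul, GD, (Kr.Sw44.coD _).G_smul] at k
  simp only [pr_smul, AddMonoidHom.smul_apply, smul_eq_mul] at k
  unfold cp
  simp only [add_zero]
  convert k using 4
  rw [GD]; ring_nf

/-- TRANSPORT: adding `A₀ ψ` to any smooth charge multiplies its mean by the Gaussian factor -/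
theorem trn (hQ : Kr.QStmt) (hT : T1mStmt) : Win fun Λ K ε l n => ∀ (m : Mdl Pt) (ξ ψ : Pt → ℝ),
    Nc.Amb Λ m (bl 0 n) → 0 ≤ Λ.gN l → Pot.Sup (bl 0 n) ψ → (∀ x, |ξ x| ≤ K / (n : ℝ) ^ 2) →
    (∀ x, |A0 ψ x| ≤ K / (n : ℝ) ^ 2) → ∀ a : ℝ,
    a = exp (-2 * π ^ 2 * Λ.gN l * (2 * ∑ x ∈ bl 0 n, ξ x * ψ x + E0 (bl 0 n) ψ)) →
    |Ex (m.W 0) (cp (ξ + A0 ψ) 0) - a * Ex (m.W 0) (cp ξ 0)| ≤ ε * (1 + a) := fun F θ₀ K ε h0 hK hε => by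
  obtain ⟨δ, d, H⟩ := chqW hQ hT F θ₀ (2 * K) ε h0 (by linarith) hε
  refine ⟨δ, d, fun l => (H l).imp fun r₁ H Λ N hΛ hw n h1 h2 m ξ ψ hm hg hψ b1 b2 a ha => ?_⟩
  have k0 : K / (n : ℝ) ^ 2 ≤ 2 * K / (n : ℝ) ^ 2 := by gcongr; linarith
  have k1 := H Λ N hΛ hw n h1 h2 m ξ hm fun x => (b1 x).trans k0
  have k2 := H Λ N hΛ hw n h1 h2 m (ξ + A0 ψ) hm fun x => (abs_add_le _ _).trans
    ((add_le_add (b1 x) (b2 x)).trans_eq (by ring))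
  have co := Kr.Sw44.coD (bl 0 n)
  have e1 : GD nL (bl 0 n) (ξ + A0 ψ) (ξ + A0 ψ) =
      GD nL (bl 0 n) ξ ξ + (2 * ∑ x ∈ bl 0 n, ξ x * ψ x + E0 (bl 0 n) ψ) := by
    have e := GD_A0 ξ hψ
    have e' := GD_A0 (A0 ψ) hψ
    simp only [GD] at e e' ⊢
    rw [G_add_left, co.G_add_right, co.G_add_right, co.G_comm (A0 ψ) ξ, e, e', E0]
    simp only [mul_comm (ψ _)]; ring
  rw [Kr.Sw44.sw_add, sw_A0 hψ, add_zero, e1, mul_add, exp_add, ← ha] at k2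
  have a0 : 0 < a := ha ▸ exp_pos _
  rw [abs_le] at k1 k2 ⊢
  constructor <;> nlinarith [mul_le_mul_of_nonneg_left k1.1 a0.le, mul_le_mul_of_nonneg_left k1.2 a0.le]

theorem E0_neg (D : Finset Pt) (ψ : Pt → ℝ) : E0 D (-ψ) = E0 D ψ := by simp [E0, A0_neg]

/-- the covariance of any smooth charge with a neutral test charge `A₀ ψ` -/
theorem cov (hQ : Kr.QStmt) (hT : T1mStmt) : Win fun Λ K ε l n => ∀ (m : Mdl Pt) (ξ ψ : Pt → ℝ),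
    Nc.Amb Λ m (bl 0 n) → 0 ≤ Λ.gN l → Λ.gN l ≤ 1 → Pot.Sup (bl 0 n) ψ → (∀ x, |ξ x| ≤ K / (n : ℝ) ^ 2) →
    (∀ x, |A0 ψ x| ≤ K / (n : ℝ) ^ 2) → |∑ x ∈ bl 0 n, ξ x * ψ x| ≤ K →
    |Cv (m.W 0) (cp ξ 0) (cp (A0 ψ) 0) - Ex (m.W 0) (cp ξ 0) * exp (-2 * π ^ 2 * Λ.gN l * E0 (bl 0 n) ψ) *
      (cosh (4 * π ^ 2 * Λ.gN l * ∑ x ∈ bl 0 n, ξ x * ψ x) - 1)| ≤ ε := fun F θ₀ K ε h0 hK hε => by
  obtain ⟨δ, d, H⟩ := trn hQ hT F θ₀ K (ε / (3 + exp (4 * π ^ 2 * K))) h0 hK (by positivity)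
  refine ⟨δ, d, fun l => (H l).imp fun r₁ H Λ N hΛ hw n h1 h2 m ξ ψ hm g0 g1 hψ b1 b2 ht => ?_⟩
  have hW : Wt (m.W 0) := (hm.ctr.cen hm.anch).wt
  have k1 := H Λ N hΛ hw n h1 h2 m ξ ψ hm g0 hψ b1 b2 _ rfl
  have k2 := H Λ N hΛ hw n h1 h2 m ξ (-ψ) hm g0 (fun x hx => by rw [Pi.neg_apply, hψ x hx, neg_zero]) b1
    (fun x => by rw [A0_neg, Pi.neg_apply, abs_neg]; exact b2 x) _ rfl
  have k3 := H Λ N hΛ hw n h1 h2 m 0 ψ hm g0 hψ (fun x => (abs_nonneg _).trans (b1 x) |>.trans_eq' (by simp))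
    b2 _ rfl
  have c0 : cp 0 0 = fun _ => 1 := funext fun s => by simp [cp, pr_zero]
  simp only [Pi.zero_apply, zero_mul, sum_const_zero, mul_zero, zero_add, c0, hW.ex_const, mul_one] at k3
  simp only [A0_neg, ← sub_eq_add_neg, E0_neg, Pi.neg_apply, mul_neg, sum_neg_distrib] at k2
  have E := B80.E0_nonneg hψ
  set t := ∑ x ∈ bl 0 n, ξ x * ψ x
  set g := Λ.gN l
  set e := exp (-2 * π ^ 2 * g * E0 (bl 0 n) ψ) with he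
  have e1 : e ≤ 1 := exp_le_one_iff.2 (by nlinarith [mul_nonneg (mul_nonneg (sq_nonneg π) g0) E])
  have e0 : 0 < e := exp_pos _
  have b : ∀ u, |u| ≤ K → exp (4 * π ^ 2 * g * u) ≤ exp (4 * π ^ 2 * K) := fun u hu => exp_le_exp.2 (by
    rw [mul_assoc]
    exact mul_le_mul_of_nonneg_left (by nlinarith [abs_le.1 hu, le_abs_self u]) (by positivity))
  rw [show -2 * π ^ 2 * g * (2 * t + E0 (bl 0 n) ψ) =
    -2 * π ^ 2 * g * E0 (bl 0 n) ψ + 4 * π ^ 2 * g * -t by ring, exp_add, ← he] at k1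
  rw [show -2 * π ^ 2 * g * (-(2 * t) + E0 (bl 0 n) ψ) =
    -2 * π ^ 2 * g * E0 (bl 0 n) ψ + 4 * π ^ 2 * g * t by ring, exp_add, ← he] at k2
  have u1 := (mul_le_of_le_one_left (exp_pos _).le e1).trans (b _ ((abs_neg t).trans_le ht))
  have u2 := (mul_le_of_le_one_left (exp_pos _).le e1).trans (b _ ht)
  have c1 := hW.abs_ex_le fun s _ => abs_cp_le ξ 0 s
  have k4 := (abs_mul _ _).trans_le (mul_le_mul c1 k3 (abs_nonneg _) zero_le_one)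
  simp only [Cv, cp_mul, add_zero, sub_zero]
  rw [Ex_div_const, Ex_add (hW.ig_bdd (abs_cp_le _ _)) (hW.ig_bdd (abs_cp_le _ _)), cosh_eq, ← mul_neg]
  have p : ε / (3 + exp (4 * π ^ 2 * K)) * (3 + exp (4 * π ^ 2 * K)) = ε := div_mul_cancel₀ _ (by positivity)
  have p0 : 0 < ε / (3 + exp (4 * π ^ 2 * K)) := by positivity
  rw [abs_le] at k1 k2 k4 ⊢
  constructor <;> nlinarith [mul_le_mul_of_nonneg_left u1 p0.le, mul_le_mul_of_nonneg_left u2 p0.le,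
    mul_le_mul_of_nonneg_left e1 p0.le]

end Crest.Agent.T145.Ev.T11
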