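import Crest.Agent.T145.EvDef_2
import Crest.Agent.T145.FlStep_58

/-!
# Row 145, even sector: `Ev.uStmt` (helper68)
-/

set_option autoImplicit false

namespace Crest.Agent.T145.Ev

open Finset Pot Xi Real Fl

/-- USTEP -/
theorem uStmt (hA : AkStmt) (hD : DkStmt) : UStmt := by
  intro p W D₀ hW
  obtain ⟨C, hC, h⟩ := hD p W D₀ hW
  obtain ⟨c, A, c0, hA⟩ := hA W hW
  have W2 : (2 : ℝ) ≤ W := by exact_mod_cast hW
  have A0 : 0 ≤ A := c0.le.trans ((hA 1 le_rfl).1.trans (hA 1 le_rfl).2.1)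
  have hCC : C ≤ C * (1 + 64 * W ^ 4 * A) := le_mul_of_one_le_right (by linarith) (by
    have : (0 : ℝ) ≤ 64 * W ^ 4 * A := by positivity
    linarith)
  refine ⟨C * (1 + 64 * W ^ 4 * A), hC.trans hCC, fun E R Y P b h1 h2 => ?_⟩
  have R1 : 1 ≤ R := b.maj.1
  have R0 : 0 < R := by linarith
  have Y0 : 0 ≤ Y := (rpow_nonneg R0.le _).trans b.maj.2.1
  have P0 : 0 ≤ P := zero_le_one.trans b.P1
  have hR' : R ≤ W * R := le_mul_of_one_le_left R0.le (by linarith)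
  obtain ⟨k, -⟩ := h E R Y P b ((mul_le_mul_of_nonneg_right hCC Y0).trans h1)
    ((mul_le_mul_of_nonneg_right hCC R0.le).trans h2)
  obtain ⟨-, a2, -, a4⟩ := hA R R1
  have h0 : ∀ x, 0 ≤ (Xi.chi (W * R) x - Xi.chi R x) / eu x ^ 2 := fun x =>
    div_nonneg (sub_nonneg.2 (a4 x)) (sq_nonneg _)
  have e : gk E.ω' (W * R) - gk E.ω' R - 2 * lr E.ω E.ω' R * (gk E.ω (W * R) - gk E.ω R) =
      -(1 / 4) * ∑ x ∈ bl 0 ⌈2 * (W * R)⌉₊, (Xi.chi (W * R) x - Xi.chi R x) / eu x ^ 2 *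
        (eu x ^ 4 * (KK E.ω' x - 2 * lr E.ω E.ω' R * KK E.ω x)) := by
    rw [Step58.gk_sub _ R0 hR', Step58.gk_sub _ R0 hR', mul_left_comm (2 * lr E.ω E.ω' R), ← mul_sub, mul_sum,
      ← sum_sub_distrib]
    exact congrArg _ (sum_congr rfl fun x _ => by ring)
  have s : |∑ x ∈ bl 0 ⌈2 * (W * R)⌉₊, (Xi.chi (W * R) x - Xi.chi R x) / eu x ^ 2 *
      (eu x ^ 4 * (KK E.ω' x - 2 * lr E.ω E.ω' R * KK E.ω x))| ≤
      Ak W R * (256 * W ^ 4 * (C * Y ^ 2 * P)) := by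
    refine (abs_sum_le_sum_abs _ _).trans ?_
    rw [Ak, sum_mul]
    refine sum_le_sum fun x _ => ?_
    rw [abs_mul, abs_of_nonneg (h0 x)]
    by_cases hx : Xi.chi (W * R) x - Xi.chi R x = 0
    · simp [hx]
    obtain ⟨x1, x2⟩ := eu_of_chi_ne R0 hR' hx
    refine mul_le_mul_of_nonneg_left ?_ (h0 x)
    rw [abs_mul, abs_of_nonneg (by positivity : 0 ≤ eu x ^ 4)]
    refine (mul_le_mul (pow_le_pow_left₀ (by linarith) x2 4)
      (k x (by linarith) (by linarith)).1 (abs_nonneg _) (by positivity)).trans_eq ?_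
    field_simp
    ring
  show |_| ≤ _
  rw [e, abs_mul, abs_neg, abs_of_nonneg (by norm_num : (0 : ℝ) ≤ 1 / 4)]
  have t : 0 ≤ C * Y ^ 2 * P := by positivity
  have := mul_le_mul_of_nonneg_right a2 (by positivity : 0 ≤ 256 * (W : ℝ) ^ 4 * (C * Y ^ 2 * P))
  nlinarith

end Crest.Agent.T145.Ev
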