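import Crest.Agent.T145.EvDef_2
import Crest.Agent.T145.FlBas_4
import Crest.Agent.T145.FlA_51
import Crest.Agent.T145.FlRate_98
import Crest.Agent.T145.FlSw_22
import Crest.Agent.T145.FlXf_91

/-!
# Row 145, the even sector: the step of the logarithmic derivative of the left functional (helper29)
-/

set_option autoImplicit false

namespace Crest.Agent.T145.Ev

open Finset Pot Xi Real Fl

namespace V29

variable {p : Par} {Λ : Lat} {ω ω' : Sta} {D : Finset Pt} {L N : ℕ}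

theorem ins_et (hΛ : Λ.Ok) (ω : Sta) (z : Pt) : Ins z Λ.rg (et Λ ω z) := (Om.ins_est hΛ z).sub_const _

/-- linearity of the state against a local insertion anywhere in the domain -/
theorem lin3 (h : Env p Λ ω L N) {z : Pt} (hz : z ∈ bl 0 (N + N / 4)) {G : Cfg Pt → ℝ} (hG : Ins z Λ.rg G)
    {F₁ F₂ F₃ : Cfg Pt → ℝ} (h1 : Ins 0 (N / 4) F₁) (h2 : Ins 0 (N / 4) F₂) (h3 : Ins 0 (N / 4) F₃)
    (c : ℝ) : ω (fun s => (F₁ s + c * F₂ s - c * F₃ s) * G s) =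
      ω (fun s => F₁ s * G s) + c * ω (fun s => F₂ s * G s) - c * ω fun s => F₃ s * G s := by
  have hw := h.w4
  have hrg := h.gd.2.1
  have h1' := h.mem.ok.one_le_rg
  have hb : 100 * 4 * p.r₀ ≤ L := le_trans (by gcongr) h.big
  have hLN := h.le
  obtain ⟨m, hm, hω⟩ := h.amb (z.1 / 2, z.2 / 2)
  have hC := hm.ctr.cen hm.anch
  have s0 : bl 0 (N / 4) ⊆ bl (z.1 / 2, z.2 / 2) N := fun x hx => by
    rw [mem_bl] at hz hx ⊢
    simp only [Prod.fst_zero, Prod.snd_zero] at hz hx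
    omega
  have sz : bl z Λ.rg ⊆ bl (z.1 / 2, z.2 / 2) N := fun x hx => by
    rw [mem_bl] at hz hx ⊢
    simp only [Prod.fst_zero, Prod.snd_zero] at hz
    omega
  have e : ∀ F, Ins 0 (N / 4) F → ω (fun s => F s * G s) = Ex (m.W 0) fun s => F s * G s :=
    fun F hF => hω _ ((hF.1.mono s0).mul (hG.1.mono sz))
  rw [e _ ((h1.add (h2.smul c)).sub (h3.smul c)), e _ h1, e _ h2, e _ h3, ← Ex_const_mul, ← Ex_const_mul,
    ← Ex_add (hC.ig (h1.2.mul hG.2)) (hC.ig ((h2.2.mul hG.2).const_mul c)),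
    ← Ex_sub (hC.ig ((h1.2.mul hG.2).add ((h2.2.mul hG.2).const_mul c)))
      (hC.ig ((h3.2.mul hG.2).const_mul c))]
  exact Ex_congr fun s _ => by ring

/-- the left functional is bounded by the norm -/
theorem ell_le (h : Env p Λ ω L N) {a : ℕ} {R : ℝ} (h0 : p.r₀ ≤ a) (hL : p.w * a ≤ L) (ha : (a : ℝ) + 1 ≤ R)
    (hR : 2 * R ≤ N) {F : Cfg Pt → ℝ} (hF : Ins 0 a F) :
    |ω fun s => F s * Sn R s| ≤ 16 * nu Λ p.w 0 a F := by
  obtain ⟨m, hm, hω⟩ := h.amb 0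
  have R0 : 0 < R := by linarith [(Nat.cast_nonneg a : (0 : ℝ) ≤ a)]
  have h4 := A51.four_le h.toGs a
  have hLN := h.le
  rw [hω _ ((hF.mono (by omega)).mul (ins_Sn R0 hR)).1]
  simpa using (prodStmt p Λ L h.toGs m (bl 0 N) Unit univ (fun _ => 0) (fun _ => a) (fun _ => F)
    (Sn R) hm ⟨by simp, fun _ _ => hF, fun _ _ => ⟨h0, hL⟩,
      fun _ _ => bl_mono _ (hL.trans h.le), fun _ _ _ _ hij => absurd rfl hij⟩
    (fun _ _ => out_Sn R0 ha) (abs_Sn_le _)).1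

theorem split (α k R : ℝ) (s : Cfg Pt) : Jz 0 s * Sn R s =
    (Jz 0 s - α * Sn k s) * Sn R s + α / 2 * cp (xi k - xi R) 0 s - α / 2 * cp (xi k + xi R) 0 s := by
  have := cp_mul (xi k) (xi R) (-(π / 2)) (-(π / 2)) s
  rw [← Sn_eq, ← Sn_eq, sub_self, show -(π / 2) + -(π / 2) = -π by ring] at this
  have h2 := cp_add_pi (xi k + xi R) (-π) s
  rw [neg_add_cancel] at h2
  linear_combination α * this + α / 2 * h2

/-- the bookkeeping at one scale -/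
theorem core (h : Ed p Λ ω ω' D L N) {a ρ b : ℕ} {k R : ℝ} (α μ : ℝ) (h0 : p.r₀ ≤ b) (hb : b ≤ ρ)
    (hρ : 2 * ρ ≤ a) (hL : p.w * a ≤ L) (ha : (a : ℝ) + 1 ≤ R) (hR : 2 * R ≤ (N / 4 : ℕ)) (k0 : 0 < k)
    (hk : 2 * k ≤ b) :
    |ell ω' R (Jz 0) - μ * ell ω R (Jz 0) -
      (∑ z ∈ D \ bl 0 ρ, ω (fun s => (Jz 0 s - α * Sn k s) * Sn R s * et Λ ω z s) +
        α / 2 * ∑ z ∈ D \ bl 0 ρ, ω (fun s => cp (xi k - xi R) 0 s * et Λ ω z s) -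
        α / 2 * ∑ z ∈ D \ bl 0 ρ, ω fun s => cp (xi k + xi R) 0 s * et Λ ω z s)| ≤
      16 * nu Λ p.w 0 a (fun s => Jh Λ ω ρ s - μ * Jz 0 s) ∧
    |ell ω R (Jz 0) - (α / 2 * ω (cp (xi k - xi R) 0) - α / 2 * ω (cp (xi k + xi R) 0))| ≤
      16 * nu Λ p.w 0 b fun s => Jz 0 s - α * Sn k s := by
  have ok := h.mem.ok
  have hrg := h.gd.2.1
  have h1' := ok.one_le_rg
  have hLN := h.le
  have h4 := A51.four_le h.toGs a
  have R0 : 0 < R := by linarith [(Nat.cast_nonneg a : (0 : ℝ) ≤ a)]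
  have hba : (b : ℝ) ≤ a := by exact_mod_cast (by omega : b ≤ a)
  have hN : ((N / 4 : ℕ) : ℝ) ≤ N := by exact_mod_cast Nat.div_le_self N 4
  have iS : Ins 0 (N / 4) (Sn R) := ins_Sn R0 hR
  have iJ : Ins 0 b (Jz 0) := ins_Jz 0 (by omega)
  have iH : Ins 0 b fun s => Jz 0 s - α * Sn k s := iJ.sub ((ins_Sn k0 hk).smul α)
  have i1 : Ins 0 (N / 4) fun s => (Jz 0 s - α * Sn k s) * Sn R s := (iH.mono (by omega)).mul iS
  have c1 : Chq (bl 0 (N / 4)) (xi k) 1 := chq_xi k0 (by linarith)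
  have i2 := ins_cp (c1.sub (chq_xi R0 hR)) 0
  have i3 := ins_cp (c1.add (chq_xi R0 hR)) 0
  have iE : ∀ z ∈ bl (0 : Pt) ρ, Ins 0 a (et Λ ω z) := fun z hz => (ins_et ok ω z).move hz (by omega)
  have iJh : Ins 0 a (Jh Λ ω ρ) := (iJ.mono (by omega)).mul (Ins.sum _ iE)
  have iJa : Ins 0 a (Jz 0) := iJ.mono (by omega)
  constructor
  · have e1 : ell ω' R (Jz 0) = ∑ z ∈ D \ bl 0 ρ, ω (fun s => Jz 0 s * Sn R s * et Λ ω z s) +
        ∑ z ∈ bl 0 ρ, ω fun s => Jz 0 s * Sn R s * et Λ ω z s := by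
      rw [sum_sdiff ((bl_mono 0 (by omega)).trans h.lo)]
      exact h.der _ ((iJ.mono (by omega)).mul iS)
    have e2 : ∑ z ∈ bl 0 ρ, ω (fun s => Jz 0 s * Sn R s * et Λ ω z s) - μ * ell ω R (Jz 0) =
        ω fun s => (Jh Λ ω ρ s - μ * Jz 0 s) * Sn R s := by
      obtain ⟨m, hm, hω⟩ := h.amb 0
      have hC := hm.ctr.cen hm.anch
      have iS' : Ins 0 N (Sn R) := iS.mono (by omega)
      have iJ' : Ins 0 N fun s => Jz 0 s * Sn R s := (iJ.mono (by omega)).mul iS'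
      have iz : ∀ z ∈ bl (0 : Pt) ρ, Ins 0 N fun s => Jz 0 s * Sn R s * et Λ ω z s := fun z hz =>
        iJ'.mul ((iE z hz).mono (by omega))
      rw [sum_congr rfl fun z hz => hω _ (iz z hz).1, ell, hω _ iJ'.1,
        hω _ (((iJh.sub (iJa.smul μ)).mono (by omega)).mul iS').1,
        ← Ex_sum _ fun z hz => hC.ig (iz z hz).2, ← Ex_const_mul,
        ← Ex_sub (hC.ig (Ins.sum _ iz).2) (hC.ig (iJ'.smul μ).2)]
      refine Ex_congr fun s _ => ?_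
      rw [← mul_sum, Jh]; ring
    have e3 : ∀ z ∈ D \ bl 0 ρ, ω (fun s => Jz 0 s * Sn R s * et Λ ω z s) = _ := fun z hz =>
      (congrArg ω (funext fun s => by rw [split α k R])).trans
        (lin3 h.toEnv (h.hi (mem_sdiff.1 hz).1) (ins_et ok ω z) i1 i2 i3 (α / 2))
    rw [e1, sum_congr rfl e3, sum_sub_distrib, sum_add_distrib, ← mul_sum, ← mul_sum]
    refine le_of_eq_of_le (congrArg _ ?_) (ell_le h.toEnv (by omega) hL ha (by linarith)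
      (iJh.sub (iJa.smul μ)))
    rw [← e2]; ring
  · have e := lin3 h.toEnv (self_mem_bl 0 _) (Ins.const 0 _ 1) i1 i2 i3 (α / 2)
    simp only [mul_one, ← split α k R] at e
    refine le_of_eq_of_le (congrArg _ ?_) (ell_le h.toEnv h0 (le_trans (by gcongr; omega) hL)
      (show (b : ℝ) + 1 ≤ R by linarith) (by linarith) iH)
    rw [ell, e]; ring

theorem alg {l l' μ α Φ b T X S₂ S₃ n₂ n₃ A₁ A₂ A₃ B B' a lam K ε P : ℝ}
    (c1 : |l' - μ * l - (X + α / 2 * S₂ - α / 2 * S₃)| ≤ A₁) (c2 : |l - (α / 2 * n₂ - α / 2 * n₃)| ≤ A₂)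
    (hX : |X| ≤ A₃) (h2 : |S₂ - 2 * π ^ 2 * b * T * Φ| ≤ B) (h3 : |S₃| ≤ B) (h4 : |n₂ - Φ| ≤ B')
    (h5 : |n₃| ≤ B') (hα : |α| ≤ a) (T0 : 0 ≤ T) (l0 : 0 < lam) (hl : lam ≤ K * |l|)
    (e0 : 0 ≤ ε) (P0 : 0 ≤ P) (e1 : A₁ + A₃ + a * B ≤ ε * P * lam) (e2 : T * (A₂ + a * B') ≤ ε * lam) :
    |l' / l - μ - 2 * π ^ 2 * b * T| ≤ K * ε * (P + 20 * |b|) := by
  have hl0 : l ≠ 0 := fun h => by rw [h, abs_zero, mul_zero] at hl; linarith
  have hp : π ^ 2 ≤ 10 := by nlinarith [pi_lt_d2, pi_pos]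
  have half : ∀ x y c : ℝ, |x| ≤ c → |y| ≤ c → |α / 2 * (x - y)| ≤ a * c := fun x y c hx hy => by
    rw [abs_mul, abs_div, abs_two]
    have := abs_sub x y
    have := abs_nonneg α
    have := abs_nonneg (x - y)
    nlinarith
  have k1 := half _ _ _ h2 h3
  have k2 := half _ _ _ h4 h5
  have k3 : |l - α / 2 * Φ| ≤ A₂ + a * B' := by
    refine le_of_eq_of_le (congrArg _ ?_) ((abs_add_le _ _).trans (add_le_add c2 k2)); ring
  have k4 : |2 * π ^ 2 * b * T * (l - α / 2 * Φ)| ≤ 20 * |b| * (ε * lam) := by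
    rw [abs_mul, abs_mul, abs_mul, abs_of_nonneg T0, abs_of_nonneg (by positivity : 0 ≤ 2 * π ^ 2),
      mul_assoc]
    exact mul_le_mul (by gcongr; linarith) ((mul_le_mul_of_nonneg_left k3 T0).trans e2) (by positivity)
      (by positivity)
  have k5 : |l' - μ * l - 2 * π ^ 2 * b * T * l| ≤ A₁ + A₃ + a * B + 20 * |b| * (ε * lam) := by
    refine le_of_eq_of_le (congrArg _ ?_) ((abs_sub _ _).trans (add_le_add ((abs_add_le _ _).trans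
      (add_le_add ((abs_add_le _ _).trans (add_le_add c1 hX)) k1)) k4))
    ring
  rw [show l' / l - μ - 2 * π ^ 2 * b * T = (l' - μ * l - 2 * π ^ 2 * b * T * l) / l by field_simp,
    abs_div, div_le_iff₀ (abs_pos.2 hl0)]
  calc _ ≤ ε * (P + 20 * |b|) * lam := by linarith
    _ ≤ ε * (P + 20 * |b|) * (K * |l|) := by gcongr
    _ = _ := by ring

theorem yk_le {W : ℕ} (hW : 2 ≤ W) : ∃ C : ℝ, 0 ≤ C ∧ ∀ (ω : Sta) (R : ℝ), 1 ≤ R → |gk ω R| ≤ 2 →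
    yk ω W R ≤ C * R ^ 2 * |ell ω R (Jz 0)| := by
  obtain ⟨c, C, -, hA⟩ := akStmt W hW
  obtain ⟨Ce, hCe, he⟩ := abs_er_le
  have hl : 0 ≤ log (W : ℝ) := log_natCast_nonneg W
  refine ⟨√(π * log W * C / 2) * exp (2 * π ^ 2 * (2 * Ce)), by positivity, fun ω R hR hg => ?_⟩
  have h3 : |gk ω R * er R| ≤ 2 * Ce := by rw [abs_mul]; gcongr; exact he R hR
  have x2 : exp (-2 * π ^ 2 * gk ω R * er R) ≤ exp (2 * π ^ 2 * (2 * Ce)) :=
    exp_le_exp.2 (by nlinarith [(abs_le.1 h3).1, sq_nonneg π])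
  have a2 := (hA R hR).2.1
  have := pi_pos
  calc _ ≤ √(π * log W * C / 2) * R ^ 2 * |ell ω R (Jz 0)| * exp (2 * π ^ 2 * (2 * Ce)) := by
        rw [yk]; gcongr
    _ = _ := by ring

theorem lr0 : ∃ C : ℝ, 0 ≤ C ∧ ∀ (R : ℝ) (z : Pt) (r : ℕ), 1 ≤ r → (r : ℝ) ≤ R → ∃ u, Lr (xi R) u z r C := by
  obtain ⟨C, h0, hC⟩ := lr_xi
  refine ⟨C, h0, fun R z r hr hR => ?_⟩
  have h := hC R 0 z r hr hR
  simp only [sub_zero] at h
  have r1 : (1 : ℝ) ≤ r := by exact_mod_cast hr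
  exact ⟨_, h.mono (mul_le_of_le_one_right h0 (pow_le_one₀ (div_nonneg (by linarith) (by linarith))
    ((div_le_one (by linarith)).2 hR)))⟩

theorem gr_in {k R R' : ℝ} (hR : 0 < R) (h : R ≤ R') {ρ : ℕ} (hρ : (ρ : ℝ) + 1 ≤ R) {z : Pt}
    (hz : z ∈ bl 0 ρ) : gr (Phi k - Phi R') (Phi k - Phi R') z = gr (Phi k - Phi R) (Phi k - Phi R) z := by
  have e : ∀ i, dif (ev i) (Phi k - Phi R') z = dif (ev i) (Phi k - Phi R) z := fun i => by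
    have h1 : z + ev i ∈ bl 0 (ρ + 1) :=
      bl_one_sub le_rfl z hz (add_nn_mem_bl (by fin_cases i <;> decide) z)
    have h2 : z ∈ bl 0 (ρ + 1) := bl_mono 0 (Nat.le_succ _) hz
    have h3 : ((ρ + 1 : ℕ) : ℝ) ≤ R := by push_cast; exact hρ
    simp only [dif, Pi.sub_apply, Phi_in hR h3 h1, Phi_in hR h3 h2, Phi_in (hR.trans_le h) (h3.trans h) h1,
      Phi_in (hR.trans_le h) (h3.trans h) h2]
    ring
  simp only [gr, e]

theorem gr_nonneg (v : Pt → ℝ) (z : Pt) : 0 ≤ gr v v z := sum_nonneg fun _ _ => mul_self_nonneg _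

theorem rp_le {x z : ℝ} (n : ℕ) (hn : n ≠ 0) (hx : 0 ≤ x) (hz : 0 ≤ z) (h : x ≤ z ^ n) :
    x ^ (1 / n : ℝ) ≤ z := by
  refine (rpow_le_rpow hx h (by positivity)).trans_eq ?_
  rw [one_div, pow_rpow_inv_natCast hz hn]

theorem rpe {u y e : ℝ} (u0 : 0 < u) (u1 : u ≤ 1) (h1 : 1 ≤ y) (h2 : y ≤ (u ^ 2800)⁻¹) (e1 : e ≤ 1 / 1000) :
    y ^ e ≤ (u ^ 3)⁻¹ := by
  refine (rpow_le_rpow_of_exponent_le h1 (e1.trans_eq (by norm_num))).trans
    (rp_le 1000 (by norm_num) (by linarith) (by positivity) (h2.trans ?_))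
  rw [inv_pow, ← pow_mul]
  exact inv_anti₀ (by positivity) (pow_le_pow_of_le_one u0.le u1 (by norm_num))

theorem rp5 {W z : ℝ} (m : ℕ) (hW : 0 < W) (hz : 0 ≤ z) (h : (W ^ m)⁻¹ ≤ z ^ 5) :
    W ^ (-(11 / 5 : ℝ) * m) ≤ z / (W ^ m) ^ 2 := by
  have h1 := rp_le 5 (by norm_num) (by positivity) hz h
  have e : W ^ (-(11 / 5 : ℝ) * m) = (W ^ m)⁻¹ ^ (1 / (5 : ℕ) : ℝ) / (W ^ m) ^ 2 := by
    rw [← pow_mul, ← rpow_natCast, ← rpow_natCast, ← rpow_neg hW.le, ← rpow_mul hW.le, ← rpow_sub hW]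
    congr 1; push_cast; ring
  rw [e]; gcongr

/-- the choice of the scales -/
theorem scales {W r₁ : ℕ} {K R u : ℝ} (hW : 2 ≤ W) (u0 : 0 < u) (hK : 8 ≤ K) (hu : K * u ≤ 1)
    (hR : 1 ≤ R * (u ^ 2800) ^ 2) (h1 : (r₁ : ℝ) ^ 100 ≤ R) {k : ℕ} (hk : k = ⌈R * u ^ 2800⌉₊) :
    R * u ^ 2800 ≤ k ∧ (k : ℝ) ≤ 2 * (R * u ^ 2800) ∧ K ≤ k ∧ r₁ ≤ k ∧ ∃ m : ℕ,
      (W : ℝ) ^ m * (4 * k) ≤ R * u ^ 56 ∧ R * u ^ 56 ≤ W * ((W : ℝ) ^ m * (4 * k)) := by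
  have u1 : u ≤ 1 := by nlinarith
  have t0 : 0 < u ^ 2800 := by positivity
  have t1 : u ^ 2800 ≤ u ^ 57 := pow_le_pow_of_le_one u0.le u1 (by norm_num)
  have t2 : u ^ 2800 ≤ u := pow_le_of_le_one u0.le u1 (by norm_num)
  have t3 : 0 < u ^ 56 := by positivity
  rw [pow_succ u 56] at t1
  generalize u ^ 2800 = t at *
  generalize u ^ 56 = s at *
  have R0 : 0 < R := by by_contra h; nlinarith [sq_nonneg t]
  have a0 : K ≤ R * t := by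
    have : K * t ≤ 1 := le_trans (by gcongr) hu
    nlinarith [mul_pos R0 t0]
  have a1 : R * t ≤ k := hk ▸ Nat.le_ceil _
  have a2 : (k : ℝ) ≤ 2 * (R * t) := by
    have := Nat.ceil_lt_add_one (mul_pos R0 t0).le
    rw [← hk] at this; linarith
  have k0 : (0 : ℝ) < 4 * k := by linarith
  refine ⟨a1, a2, a0.trans a1, ?_, ?_⟩
  · by_contra h
    have b1 : (k : ℝ) < r₁ := by exact_mod_cast not_le.1 h
    have b2 : (r₁ : ℝ) ^ 2 ≤ r₁ ^ 100 := pow_le_pow_right₀ (by linarith) (by norm_num)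
    have b3 : (R * t) ^ 2 < r₁ ^ 2 := by gcongr; linarith
    nlinarith
  · have b1 : 1 ≤ R * s / (4 * k) := by
      rw [one_le_div k0]
      have : 8 * u ≤ 1 := le_trans (by gcongr) hu
      nlinarith [mul_pos R0 t3, mul_le_mul_of_nonneg_left t1 R0.le]
    obtain ⟨m, b2, b3⟩ := exists_nat_pow_near b1 (show (1 : ℝ) < W by exact_mod_cast hW)
    rw [le_div_iff₀ k0] at b2
    rw [div_lt_iff₀ k0, pow_succ] at b3
    exact ⟨m, b2, by linarith⟩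

theorem geo {w W K R u k b L : ℝ} (w4 : 4 ≤ w) (W2 : 2 ≤ W) (u0 : 0 < u) (hK : 100 * (w * W) ≤ K)
    (hu : K * u ≤ 1) (hR : 1 ≤ R * (u ^ 2800) ^ 2) (hL : R ≤ (u ^ 2800) ^ 3 * L)
    (k2 : k ≤ 2 * (R * u ^ 2800)) (b1 : b ≤ R * u ^ 56) :
    K ≤ (u ^ 2800)⁻¹ ∧ K ≤ R ∧ K * ((u ^ 2800)⁻¹ * R) ≤ L ∧ 100 * (w * b) ≤ R ∧ 50 * (w * k) ≤ R ∧
      100 * (W * R) ≤ (u ^ 2800)⁻¹ * R ∧ 100 * (w * R) ≤ (u ^ 2800)⁻¹ * R ∧
      100 * ((u ^ 2800)⁻¹ * R) ≤ L ∧ W / u ^ 56 ≤ (u ^ 2800)⁻¹ ∧ 4 * W ≤ W / u ^ 56 := by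
  have hw : 8 ≤ w * W := by nlinarith
  have u1 : u ≤ 1 := by nlinarith
  have t0 : 0 < u ^ 2800 := by positivity
  have t1 : u ^ 2800 ≤ u ^ 57 := pow_le_pow_of_le_one u0.le u1 (by norm_num)
  have t2 : u ^ 2800 ≤ u := pow_le_of_le_one u0.le u1 (by norm_num)
  have t3 : 0 < u ^ 56 := by positivity
  have t4 : u ^ 56 ≤ u := pow_le_of_le_one u0.le u1 (by norm_num)
  rw [pow_succ u 56] at t1
  generalize u ^ 2800 = t at *
  generalize u ^ 56 = s at *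
  have R0 : 0 < R := by by_contra h; nlinarith [sq_nonneg t]
  have L0 : 0 ≤ L := by by_contra h; nlinarith [pow_pos t0 3]
  have K0 : 0 ≤ K := by linarith
  have c : ∀ x, x ≤ K → x * u ≤ 1 := fun x h => le_trans (by gcongr) hu
  have Kt : K * t ≤ 1 := le_trans (by gcongr) hu
  have a1 : K ≤ t⁻¹ := by rw [← one_div, le_div_iff₀ t0]; exact Kt
  have hw1 : 100 * w ≤ K := by nlinarith
  have hw2 : 100 * W ≤ K := by nlinarith
  have a3 : K * (t⁻¹ * R) ≤ L := calc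
    K * (t⁻¹ * R) ≤ K * (t⁻¹ * (t ^ 3 * L)) := by gcongr
    _ = K * t * t * L := by field_simp
    _ ≤ 1 * 1 * L := by gcongr; linarith
    _ = L := by ring
  refine ⟨a1, ?_, a3, ?_, ?_, ?_, ?_, le_trans (by gcongr; linarith) a3, ?_, ?_⟩
  · calc K ≤ K * (R * t ^ 2) := le_mul_of_one_le_right K0 hR
      _ = K * t * t * R := by ring
      _ ≤ 1 * 1 * R := by gcongr; linarith
      _ = R := by ring
  · calc 100 * (w * b) ≤ 100 * (w * (R * u)) := by gcongr; exact b1.trans (by gcongr)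
      _ = 100 * w * u * R := by ring
      _ ≤ 1 * R := by gcongr; exact c _ hw1
      _ = R := one_mul R
  · calc 50 * (w * k) ≤ 50 * (w * (2 * (R * u))) := by gcongr; exact k2.trans (by gcongr)
      _ = 100 * w * u * R := by ring
      _ ≤ 1 * R := by gcongr; exact c _ hw1
      _ = R := one_mul R
  · rw [← mul_assoc]; gcongr; linarith
  · rw [← mul_assoc]; gcongr; linarith
  · rw [← one_div, div_le_div_iff₀ t3 t0]
    nlinarith [c W (by linarith), mul_le_mul_of_nonneg_left t1 (show 0 ≤ W by linarith)]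
  · rw [le_div_iff₀ t3]
    nlinarith [c 4 (by linarith)]

theorem logs {u K W CX Ce : ℝ} (u0 : 0 < u) (u1 : u ≤ 1) (hu : K * u ≤ 1) (X0 : 0 ≤ CX) (e0 : 0 ≤ Ce)
    (h1 : 8400 * CX ≤ K) (h2 : exp (3 * Ce + 1) ≤ (u ^ 2800)⁻¹) (W1 : 1 ≤ W) (h3 : W ≤ (u ^ 2800)⁻¹) :
    log (u ^ 2800)⁻¹ ≤ 2800 / u ∧ 3 * Ce + 1 ≤ log (u ^ 2800)⁻¹ ∧
      log (W * (u ^ 2800)⁻¹) ≤ 2 * log (u ^ 2800)⁻¹ ∧
      CX * (1 + log (W * (u ^ 2800)⁻¹)) ≤ 3 * CX * log (u ^ 2800)⁻¹ ∧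
      CX * (1 + log (W * (u ^ 2800)⁻¹)) ≤ (u ^ 2800)⁻¹ := by
  have a1 : log (u ^ 2800)⁻¹ ≤ 2800 / u := by
    rw [← inv_pow, log_pow, div_eq_mul_inv]
    have := log_le_sub_one_of_pos (inv_pos.2 u0)
    push_cast; linarith
  have t2 : (u ^ 2)⁻¹ ≤ (u ^ 2800)⁻¹ :=
    inv_anti₀ (by positivity) (pow_le_pow_of_le_one u0.le u1 (by norm_num))
  generalize (u ^ 2800)⁻¹ = T at *
  have a2 : 3 * Ce + 1 ≤ log T := (le_log_iff_exp_le (by linarith)).2 h2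
  have a3 : log (W * T) ≤ 2 * log T := by
    rw [log_mul (by linarith) (by linarith)]
    linarith [log_le_log (by linarith) h3]
  have a4 : CX * (1 + log (W * T)) ≤ 3 * CX * log T := by nlinarith
  refine ⟨a1, a2, a3, a4, a4.trans (le_trans ?_ t2)⟩
  calc 3 * CX * log T ≤ 3 * CX * (2800 / u) := by gcongr
    _ = 8400 * CX * u * (u ^ 2)⁻¹ := by field_simp; ring
    _ ≤ K * u * (u ^ 2)⁻¹ := by gcongr
    _ ≤ _ := mul_le_of_le_one_left (by positivity) hu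

/-- the sizes of the coefficient and of the remainder of the purification -/
theorem purn {W u R k Y α ν ν' e : ℝ} {m : ℕ} (W2 : 2 ≤ W) (u0 : 0 < u) (u1 : u ≤ 1) (R0 : 0 < R)
    (Y0 : 0 ≤ Y) (k1 : R * u ^ 2800 ≤ k) (k2 : k ≤ 2 * (R * u ^ 2800)) (b1 : W ^ m * (4 * k) ≤ R * u ^ 56)
    (b2 : R * u ^ 56 ≤ W * (W ^ m * (4 * k))) (e1 : e ≤ 1 / 1000) (n0 : 0 ≤ ν)
    (h0 : ν ≤ Y * (u ^ 2800)⁻¹ ^ e / (4 * k) ^ 2) (h1 : |α| ≤ 2 * W ^ (e * m) * ν)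
    (h2 : ν' ≤ 3 * W ^ (-(11 / 5 : ℝ) * m) * ν) :
    |α| ≤ Y / R ^ 2 / (u ^ 6 * (u ^ 2800) ^ 2) ∧ ν' ≤ 24 * W ^ 3 * u ^ 433 * (Y / R ^ 2) := by
  have t0 : 0 < u ^ 2800 := by positivity
  have t1 : u ^ 2800 ≤ 1 := pow_le_one₀ u0.le u1
  have k0 : 0 < k := lt_of_lt_of_le (by positivity) k1
  have W0 : 0 < W := by linarith
  have x1 : 1 ≤ W ^ m := one_le_pow₀ (by linarith)
  have x2 : W ^ m ≤ (u ^ 2800)⁻¹ := by
    rw [← one_div, le_div_iff₀ t0]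
    refine le_of_mul_le_mul_right ?_ R0
    calc W ^ m * u ^ 2800 * R = W ^ m * (R * u ^ 2800) := by ring
      _ ≤ W ^ m * (4 * k) := mul_le_mul_of_nonneg_left (by linarith) (by positivity)
      _ ≤ R * 1 := b1.trans (by gcongr; exact pow_le_one₀ u0.le u1)
      _ = _ := by ring
  have n1 : ν ≤ Y * (u ^ 3)⁻¹ / (4 * k) ^ 2 :=
    h0.trans (by gcongr; exact rpe u0 u1 ((one_le_inv₀ t0).2 t1) le_rfl e1)
  have x3 : W ^ (e * m) ≤ (u ^ 3)⁻¹ := by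
    rw [mul_comm, rpow_mul W0.le, rpow_natCast]; exact rpe u0 u1 x1 x2 e1
  have x4 := rp5 (z := 8 * W * u ^ 548) m W0 (by positivity) (by
    rw [inv_le_iff_one_le_mul₀ (by positivity)]
    refine le_of_mul_le_mul_right ?_ (show 0 < R * u ^ 56 by positivity)
    have h8 : 8 * W ≤ (8 * W) ^ 5 := le_self_pow₀ (by linarith) (by norm_num)
    have h9 : u ^ 2800 ≤ u ^ 2796 := pow_le_pow_of_le_one u0.le u1 (by norm_num)
    calc 1 * (R * u ^ 56) ≤ W * (W ^ m * (4 * (2 * (R * u ^ 2800)))) := by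
          rw [one_mul]; exact b2.trans (by gcongr)
      _ = 8 * W * u ^ 2800 * W ^ m * R := by ring
      _ ≤ (8 * W) ^ 5 * u ^ 2796 * W ^ m * R := by gcongr
      _ = _ := by ring)
  constructor
  · calc |α| ≤ 2 * (u ^ 3)⁻¹ * (Y * (u ^ 3)⁻¹ / (4 * k) ^ 2) := h1.trans (by gcongr)
      _ ≤ 16 * (u ^ 3)⁻¹ * (Y * (u ^ 3)⁻¹ / (4 * (R * u ^ 2800)) ^ 2) := by gcongr; norm_num
      _ = _ := by field_simp; ring
  · have b3 : R * u ^ 56 / W ≤ W ^ m * (4 * k) := by rw [div_le_iff₀' W0]; exact b2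
    calc ν' ≤ 3 * (8 * W * u ^ 548 / (W ^ m) ^ 2) * (Y * (u ^ 3)⁻¹ / (4 * k) ^ 2) := h2.trans (by gcongr)
      _ = 24 * W * u ^ 545 * Y / (W ^ m * (4 * k)) ^ 2 := by field_simp; ring
      _ ≤ 24 * W * u ^ 545 * Y / (R * u ^ 56 / W) ^ 2 := by gcongr
      _ = _ := by field_simp

theorem errs {w W u R Y P C₁ C₄ Cl x ν T : ℝ} (w0 : 0 ≤ w) (W0 : 0 ≤ W) (u0 : 0 < u) (u1 : u ≤ 1)
    (Y0 : 0 ≤ Y) (P0 : 0 ≤ P) (c1 : 0 ≤ C₁) (c4 : 0 ≤ C₄) (hx : x ≤ 3 * w * u ^ 8)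
    (hν : ν ≤ 24 * W ^ 3 * u ^ 433 * (Y / R ^ 2)) (hT : T ≤ 2800 / u) :
    16 * (C₁ * P * Y * x / R ^ 2) + C₄ * (W / u ^ 56) ^ 5 * (1 + Cl) ^ 2 * ν * P +
      Y / R ^ 2 / (u ^ 6 * (u ^ 2800) ^ 2) * (P * (u ^ 2800) ^ 6) ≤
      (48 * w * C₁ + 24 * C₄ * W ^ 8 * (1 + Cl) ^ 2 + 1 + 2800 * (384 * W ^ 3 + 1)) * u ^ 8 * P *
        (Y / R ^ 2) ∧
    T * (16 * (24 * W ^ 3 * u ^ 433 * (Y / R ^ 2)) + Y / R ^ 2 / (u ^ 6 * (u ^ 2800) ^ 2) * (u ^ 2800) ^ 3) ≤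
      (48 * w * C₁ + 24 * C₄ * W ^ 8 * (1 + Cl) ^ 2 + 1 + 2800 * (384 * W ^ 3 + 1)) * u ^ 8 *
        (Y / R ^ 2) := by
  have hp : ∀ a b : ℕ, b ≤ a → u ^ a ≤ u ^ b := fun a b h => pow_le_pow_of_le_one u0.le u1 h
  rw [show C₁ * P * Y * x / R ^ 2 = C₁ * P * x * (Y / R ^ 2) by ring]
  have l0 : 0 ≤ Y / R ^ 2 := by positivity
  generalize Y / R ^ 2 = l at *
  constructor
  · have a1 : 16 * (C₁ * P * x * l) ≤ 48 * w * C₁ * u ^ 8 * P * l := calc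
      _ ≤ 16 * (C₁ * P * (3 * w * u ^ 8) * l) := by gcongr
      _ = _ := by ring
    have a2 : C₄ * (W / u ^ 56) ^ 5 * (1 + Cl) ^ 2 * ν * P ≤
        24 * C₄ * W ^ 8 * (1 + Cl) ^ 2 * u ^ 8 * P * l := calc
      _ ≤ C₄ * (W / u ^ 56) ^ 5 * (1 + Cl) ^ 2 * (24 * W ^ 3 * u ^ 433 * l) * P := by gcongr
      _ = 24 * C₄ * W ^ 8 * (1 + Cl) ^ 2 * u ^ 153 * P * l := by field_simp
      _ ≤ _ := by gcongr 24 * C₄ * W ^ 8 * (1 + Cl) ^ 2 * ?_ * P * l; exact hp _ _ (by norm_num)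
    have a3 : l / (u ^ 6 * (u ^ 2800) ^ 2) * (P * (u ^ 2800) ^ 6) ≤ u ^ 8 * P * l := calc
      _ = u ^ 11194 * P * l := by field_simp
      _ ≤ _ := by gcongr ?_ * P * l; exact hp _ _ (by norm_num)
    have a4 : 0 ≤ 2800 * (384 * W ^ 3 + 1) * u ^ 8 * P * l := by positivity
    linarith
  · have a1 : 0 ≤ (48 * w * C₁ + 24 * C₄ * W ^ 8 * (1 + Cl) ^ 2 + 1) * u ^ 8 * l := by positivity
    calc _ ≤ 2800 / u * (16 * (24 * W ^ 3 * u ^ 433 * l) + l / (u ^ 6 * (u ^ 2800) ^ 2) * (u ^ 2800) ^ 3) := by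
          gcongr
      _ = 2800 * (384 * W ^ 3 * u ^ 432 + u ^ 2793) * l := by field_simp; ring
      _ ≤ 2800 * (384 * W ^ 3 * u ^ 8 + u ^ 8) * l := by
          gcongr 2800 * (384 * W ^ 3 * ?_ + ?_) * l <;> exact hp _ _ (by norm_num)
      _ ≤ _ := by linarith

theorem neun {C t Y Φ : ℝ} (c0 : 0 ≤ C) (t0 : 0 < t) (t1 : t ≤ 1) (h : 8 * C ≤ t⁻¹) (Y0 : 0 ≤ Y)
    (hY : Y ≤ t ^ 12) (hΦ : Φ ≤ 1) : C * (1 + t⁻¹) ^ 3 * t⁻¹ ^ 5 * Y * max 1 Φ ≤ t ^ 3 := by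
  have a1 : 1 ≤ t⁻¹ := (one_le_inv₀ t0).2 t1
  rw [max_eq_left hΦ]
  calc _ ≤ C * (t⁻¹ + t⁻¹) ^ 3 * t⁻¹ ^ 5 * t ^ 12 * 1 := by gcongr
    _ = 8 * C * t ^ 4 := by field_simp; ring
    _ ≤ t⁻¹ * t ^ 4 := by gcongr
    _ = _ := by field_simp

theorem cmn {C A t Y : ℝ} {j : ℕ} (t0 : 0 < t) (t1 : t ≤ 1) (h : C ≤ t⁻¹) (hj : C * A ≤ j)
    (hY : Y ≤ t ^ (2 * (j + 4))) : C * √Y * exp (C * (A * log t⁻¹)) ≤ t ^ 3 := by
  have a1 : 1 ≤ t⁻¹ := (one_le_inv₀ t0).2 t1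
  have a2 : √Y ≤ t ^ (j + 4) := by rw [sqrt_le_left (by positivity), ← pow_mul, mul_comm]; exact hY
  have a3 : exp (C * (A * log t⁻¹)) ≤ t⁻¹ ^ j := by
    rw [← exp_log (show 0 < t⁻¹ ^ j by positivity), log_pow, ← mul_assoc]
    exact exp_le_exp.2 (mul_le_mul_of_nonneg_right hj (log_nonneg a1))
  calc _ ≤ t⁻¹ * t ^ (j + 4) * t⁻¹ ^ j := by gcongr
    _ = _ := by rw [inv_pow, pow_add]; field_simp

end V29

open V29 in
set_option maxHeartbeats 1000000 in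
theorem vStmt (hSh : ShStmt) (hCr : Cr3Stmt) (h2 : S2Stmt) (h3 : S3Stmt) (hD : DetStmt) (hN : NeuStmt)
    (hM : CmStmt) (hK : KbStmt) : VStmt := by
  obtain ⟨CX, X0, hX1, hX2, -⟩ := xfStmt
  obtain ⟨-, -, -, -, hD⟩ := hD
  obtain ⟨Ce, e0, he⟩ := abs_er_le
  obtain ⟨Cl, l0, hl⟩ := lr0
  intro w
  obtain ⟨W₂, h2⟩ := h2 w
  obtain ⟨W₃, h3⟩ := h3 (12 * CX) w
  refine ⟨max 2 (max W₂ W₃), fun p W D₀ hw hW => ?_⟩
  simp only [max_le_iff] at hW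
  obtain ⟨C₂, n₂, c2, h2⟩ := h2 p W D₀ hw hW.2.1
  obtain ⟨C₃, n₃, c3, h3⟩ := h3 p W D₀ hw hW.2.2
  replace hW := hW.1
  obtain ⟨C₁, c1, hSh⟩ := hSh p W D₀ hW
  obtain ⟨C₄, c4, hCr⟩ := hCr p
  obtain ⟨C₅, c5, hN⟩ := hN p
  obtain ⟨C₆, c6, hM⟩ := hM p
  obtain ⟨C₇, c7, hK⟩ := hK p
  obtain ⟨C₈, c8, hy⟩ := yk_le hW
  obtain ⟨j, hj⟩ := exists_nat_ge (C₆ * (12 * CX))
  obtain ⟨K₀, hK₀⟩ : ∃ x : ℝ, x = 2 * |D₀| * C₈ * W ^ 2 := ⟨_, rfl⟩
  obtain ⟨K₁, hK₁⟩ : ∃ x : ℝ, x = 48 * p.w * C₁ + 24 * C₄ * W ^ 8 * (1 + Cl) ^ 2 + 1 +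
    2800 * (384 * W ^ 3 + 1) := ⟨_, rfl⟩
  have K00 : 0 ≤ K₀ := by rw [hK₀]; positivity
  have K10 : 0 ≤ K₁ := by rw [hK₁]; positivity
  obtain ⟨K, K8, k0, k1, k2, k3, k4, k5, k6, k7, k8, k9, k10, k11⟩ : ∃ K : ℝ, 8 ≤ K ∧ 40 * (K₀ * K₁) ≤ K ∧
      C₁ ≤ K ∧ C₂ ≤ K ∧ C₃ ≤ K ∧ C₄ ≤ K ∧ 8 * C₅ ≤ K ∧ C₆ ≤ K ∧ C₇ * W ≤ K ∧ exp (3 * Ce + 1) ≤ K ∧
      8400 * CX ≤ K ∧ 100 * (p.w * W : ℝ) ≤ K ∧ 2 * Cl ≤ K := by
    refine ⟨8 + 40 * (K₀ * K₁) + C₁ + C₂ + C₃ + C₄ + 8 * C₅ + C₆ + C₇ * W + exp (3 * Ce + 1) + 8400 * CX +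
      100 * (p.w * W : ℝ) + 2 * Cl, ?_⟩
    have : 0 ≤ K₀ * K₁ := by positivity
    have : 0 ≤ C₇ * W := by positivity
    have : 0 ≤ (p.w * W : ℝ) := by positivity
    have := (exp_pos (3 * Ce + 1)).le
    refine ⟨?_, ?_, ?_, ?_, ?_, ?_, ?_, ?_, ?_, ?_, ?_, ?_, ?_⟩ <;> linarith
  refine ⟨K ^ 2800, n₂ + n₃ + 2 * (j + 4) + 12, one_le_pow₀ (by linarith), ?_⟩
  intro E R Y P t hB t0 hCt hY hRL a₁ a₂ α₁ α₂ hDc hyk
  obtain ⟨u, u0, rfl⟩ : ∃ u : ℝ, 0 < u ∧ t = u ^ 2800 :=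
    ⟨t ^ ((2800 : ℕ) : ℝ)⁻¹, by positivity, (rpow_inv_natCast_pow t0.le (by norm_num)).symm⟩
  have hu : K * u ≤ 1 := by
    rw [← mul_pow] at hCt
    exact (pow_le_one_iff_of_nonneg (by positivity) (by norm_num)).1 hCt
  have u1 : u ≤ 1 := by nlinarith
  have t1 : u ^ 2800 ≤ 1 := pow_le_one₀ u0.le u1
  rw [show (u ^ 2800) ^ (1 / 400 : ℝ) = u ^ 7 by
    rw [← rpow_natCast, ← rpow_mul u0.le, ← rpow_natCast]; norm_num]
  have ed := hB.ed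
  have ok := ed.mem.ok
  have w4 := ed.w4
  have Y0 := hB.maj.pos
  have R1 := hB.maj.one_le
  have R0 : 0 < R := by linarith only [R1]
  have P0 : 0 ≤ P := by linarith only [hB.P1]
  have W2 : (2 : ℝ) ≤ W := by exact_mod_cast hW
  have w4' : (4 : ℝ) ≤ p.w := by exact_mod_cast w4
  have ew1 := ew_le' w4
  have ew0 := ew_nonneg p.w
  have L0 : (0 : ℝ) ≤ E.L := Nat.cast_nonneg _
  have LN : (E.L : ℝ) ≤ E.N := by exact_mod_cast ed.le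
  have hYn : ∀ i, i ≤ n₂ + n₃ + 2 * (j + 4) + 12 → Y ≤ (u ^ 2800) ^ i ∧ R ≤ (u ^ 2800) ^ i * E.L :=
    fun i hi => ⟨hY.trans (pow_le_pow_of_le_one t0.le t1 hi),
      hRL.trans (mul_le_mul_of_nonneg_right (pow_le_pow_of_le_one t0.le t1 hi) L0)⟩
  have hRY : 1 ≤ R * (u ^ 2800) ^ 2 := by
    have h1 : R⁻¹ ≤ Y := le_trans (by
      rw [← rpow_neg_one]; exact rpow_le_rpow_of_exponent_le R1 (by linarith only [ew1])) hB.maj.2.1
    exact (inv_le_iff_one_le_mul₀' R0).1 (h1.trans (hYn 2 (by omega)).1)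
  obtain ⟨k, hk⟩ : ∃ k : ℕ, k = ⌈R * u ^ 2800⌉₊ := ⟨_, rfl⟩
  obtain ⟨s1, s2, s3, s4, m, s5, s6⟩ := scales hW u0 K8 hu hRY hB.r1 hk
  obtain ⟨g1, g2, g3, g4, g5, g6, g7, g8, g9, g10⟩ :=
    geo w4' W2 u0 k10 hu hRY (hYn 3 (by omega)).2 s2 s5
  obtain ⟨o1, o2, o3, o4, o5⟩ := logs u0 u1 hu X0 e0 k9 (k8.trans g1) (by linarith only [W2])
    (by nlinarith only [g1, k10, w4', W2])
  have tK : ∀ c, c ≤ K → c * u ^ 2800 ≤ 1 := fun c h => by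
    rw [← le_div_iff₀ t0, one_div]; exact h.trans g1
  have YK : ∀ c, c ≤ K → c * Y ≤ 1 := fun c h =>
    (mul_le_mul_of_nonneg_right h Y0.le).trans ((mul_le_mul_of_nonneg_left
      ((hYn 1 (by omega)).1.trans_eq (pow_one _)) (by linarith only [K8])).trans (tK K le_rfl))
  have T1 : 1 ≤ (u ^ 2800)⁻¹ := by linarith only [g1, K8]
  have RG : R ≤ (u ^ 2800)⁻¹ * R := le_mul_of_one_le_left R0.le T1
  have GK : ∀ c x, c ≤ K → 0 ≤ x → x ≤ (u ^ 2800)⁻¹ * R → c * x ≤ E.L := fun c x h h0 h1 =>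
    (mul_le_mul h h1 h0 (by linarith only [K8])).trans g3
  have WR : R ≤ W * R := le_mul_of_one_le_left R0.le (by linarith only [W2])
  -- natural scales
  obtain ⟨b, hb⟩ : ∃ b : ℕ, b = W ^ m * (4 * k) := ⟨_, rfl⟩
  have hb' : (b : ℝ) = (W : ℝ) ^ m * (4 * k) := by rw [hb]; push_cast; ring
  rw [← hb'] at g4
  have kb : 4 * k ≤ b := hb ▸ Nat.le_mul_of_pos_left _ (by positivity)
  have kb' : 4 * (k : ℝ) ≤ b := by exact_mod_cast kb
  have k8' : 8 ≤ (k : ℝ) := K8.trans s3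
  have k1' : 1 ≤ k := by exact_mod_cast (show (1 : ℝ) ≤ k by linarith only [k8'])
  have wb : 4 * (b : ℝ) ≤ p.w * b := by gcongr
  have wk : 4 * (k : ℝ) ≤ p.w * k := by gcongr
  have wR : 4 * R ≤ p.w * R := by gcongr
  have r0k : p.r₀ ≤ k := hB.r0.trans s4
  obtain ⟨a, a1, a2⟩ : ∃ a : ℕ, (a : ℝ) ≤ R / 2 ∧ R / 2 < a + 1 :=
    ⟨_, Nat.floor_le (by positivity), Nat.lt_floor_add_one _⟩
  have a3 : 2 * (3 * p.w * b) ≤ a := by
    exact_mod_cast (show (2 * (3 * p.w * b) : ℝ) ≤ a by linarith only [g4, a2, g2, K8])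
  have a4 : p.w * a ≤ E.L := by
    have : (p.w * a : ℝ) ≤ p.w * R := by gcongr; linarith only [a1, R0]
    exact_mod_cast (show (p.w * a : ℝ) ≤ E.L by linarith only [this, g7, g8, L0])
  have wb' : 4 * b ≤ p.w * b := Nat.mul_le_mul_right _ w4
  have a5 : p.w * b ≤ E.L := by have := A51.four_le ed.toGs a; nlinarith only [a3, a4, this]
  obtain ⟨n, hn⟩ : ∃ n : ℕ, n = ⌊(u ^ 2800)⁻¹ * R⌋₊ := ⟨_, rfl⟩
  have n1 : (n : ℝ) ≤ (u ^ 2800)⁻¹ * R := hn ▸ Nat.floor_le (by positivity)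
  have n2 : (u ^ 2800)⁻¹ * R < n + 1 := hn ▸ Nat.lt_floor_add_one _
  have n3 : 8 * (W * R) ≤ n := by linarith only [n2, g6, WR, R1]
  have n4 : n + 1 + p.w * k ≤ E.L := by
    exact_mod_cast (show (n + 1 + p.w * k : ℝ) ≤ E.L by linarith only [n1, g5, g8, RG, R1])
  have n5 := ed.le
  have n6 : 2 * (W * R) ≤ (E.N / 4 : ℕ) := by
    have : (E.N : ℝ) ≤ 4 * (E.N / 4 : ℕ) + 4 := by exact_mod_cast (by omega : E.N ≤ 4 * (E.N / 4) + 4)
    linarith only [this, LN, g8, g6, WR, R1]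
  -- the stiffness
  have gg : 1 / 4 ≤ gk E.ω R ∧ gk E.ω R ≤ 1 := by
    have := abs_le.1 (hB.crit.trans (show ew p.w / 100 ≤ 1 by linarith only [ew1]))
    constructor <;> nlinarith only [this.1, this.2, pi_gt_three, pi_lt_four]
  have gW : |gk E.ω (W * R)| ≤ 2 := by
    have h1 := (hK _ _ _ _ ed.toEnv R Y hB.maj).2.2 R (W * R) W (by linarith only [W2]) R1 WR
      (div_le_self R0.le (by linarith only [W2])) le_rfl (by linarith only [g8, g6, WR, R1])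
    have h2 : (W : ℝ) ^ (2 * ew p.w) ≤ W :=
      (rpow_le_rpow_of_exponent_le (by linarith only [W2]) (by linarith only [ew1])).trans_eq (rpow_one _)
    have h3 : C₇ * Y ^ 2 * (W : ℝ) ^ (2 * ew p.w) ≤ C₇ * W * Y * (1 * Y) :=
      (mul_le_mul_of_nonneg_left h2 (by positivity)).trans_eq (by ring)
    have h4 := mul_le_one₀ (YK _ k7) (by positivity) (YK 1 (by linarith only [K8]))
    have := abs_le.1 (h1.trans (h3.trans h4))
    exact abs_le.2 ⟨by linarith only [this.1, gg.1], by linarith only [this.2, gg.2]⟩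
  have D0 : D₀ = |D₀| := (abs_of_nonneg (by linarith only [hB.D1])).symm
  have lo1 : Y / R ^ 2 ≤ K₀ * |ell E.ω R (Jz 0)| := by
    have h1 := hy E.ω R R1 (abs_le.2 ⟨by linarith only [gg.1], by linarith only [gg.2]⟩)
    rw [div_le_iff₀ (by positivity), hB.cone, hK₀]
    calc _ ≤ |D₀| * (C₈ * R ^ 2 * |ell E.ω R (Jz 0)|) := by rw [D0, abs_abs]; gcongr
      _ = 1 * |D₀| * C₈ * 1 * |ell E.ω R (Jz 0)| * R ^ 2 := by ring
      _ ≤ _ := by gcongr; exacts [one_le_two, one_le_pow₀ (by linarith only [W2])]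
  have lo2 : Y / R ^ 2 ≤ K₀ * |ell E.ω (W * R) (Jz 0)| := by
    have h1 := hy E.ω (W * R) (R1.trans WR) gW
    rw [div_le_iff₀ (by positivity), hB.cone, hK₀]
    calc _ ≤ |D₀| * (2 * (C₈ * (W * R) ^ 2 * |ell E.ω (W * R) (Jz 0)|)) := by
          rw [D0, abs_abs]; gcongr; linarith only [h1, hyk]
      _ = _ := by ring
  -- the near part and the purification
  obtain ⟨μ, hμ⟩ := hSh E R Y P hB (YK _ k1) (GK _ _ k1 R0.le RG) a (3 * p.w * b)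
    (by nlinarith only [a2, w4', g2, K8]) (by linarith only [a1]) (by nlinarith only [wb', kb, k1']) a3
  obtain ⟨α, p1, p2, -⟩ := hB.pur (4 * k) m (Jz 0) (by omega) (by omega) (hb ▸ a5) (ins_Jz 0 (by omega))
    (odd_Jz 0) (d4_Jz 0)
  have p0 := hB.maj.prof.le Y0.le R0 (inv_pos.2 t0) (a := 4 * k) (by omega)
    (le_trans (Nat.mul_le_mul_left _ kb) a5) (by rw [div_inv_eq_mul]; push_cast; linarith only [s1, k8'])
    (by push_cast; linarith only [kb', wb, g4, RG, k8'])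
  rw [← hb] at p2
  rw [show ((4 * k : ℕ) : ℝ) / 4 = k by push_cast; ring] at p2
  rw [show ((4 * k : ℕ) : ℝ) = 4 * k by push_cast; ring] at p0
  obtain ⟨q1, q2⟩ := purn W2 u0 u1 R0 Y0.le s1 s2 s5 s6 ew1 (A51.nu_nonneg ok _ _ _ _) p0 p1 p2
  have q3 : (((3 * p.w * b : ℕ) : ℝ) / R) ^ (1 / 7 : ℝ) ≤ 3 * p.w * u ^ 8 := by
    refine rp_le 7 (by norm_num) (by positivity) (by positivity) ?_
    rw [div_le_iff₀ R0, mul_pow, ← pow_mul]
    have : 3 * (p.w : ℝ) ≤ (3 * p.w) ^ 7 := le_self_pow₀ (by linarith only [w4']) (by norm_num)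
    calc _ = 3 * (p.w : ℝ) * ((W : ℝ) ^ m * (4 * k)) := by rw [← hb']; push_cast; ring
      _ ≤ (3 * p.w) ^ 7 * (R * u ^ 56) := by gcongr
      _ = _ := by ring
  have key : ∀ R' : ℝ, R ≤ R' → R' ≤ W * R → Y / R ^ 2 ≤ K₀ * |ell E.ω R' (Jz 0)| →
      |lr E.ω E.ω' R' - μ - 2 * π ^ 2 * E.bb R a₁ α₁ * (log (R' / k) / (2 * π) - er k - er R' -
        ∑ z ∈ bl 0 (3 * p.w * b), gr (Phi k - Phi R) (Phi k - Phi R) z)| ≤
        K₀ * (K₁ * u ^ 8) * (P + 20 * |E.bb R a₁ α₁|) := by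
    intro R' h1 h1' hlo
    have R0' : 0 < R' := R0.trans_le h1
    have k0' : (0 : ℝ) < k := by linarith only [k8']
    have TW : 1 ≤ W * (u ^ 2800)⁻¹ := one_le_mul_of_one_le_of_one_le (by linarith only [W2]) T1
    have hWk : W * R ≤ W * (u ^ 2800)⁻¹ * k := by
      rw [mul_assoc]; gcongr; rw [← div_eq_inv_mul, le_div_iff₀ t0]; exact s1
    have hWR : W * R ≤ W * (u ^ 2800)⁻¹ * R := by rw [mul_assoc]; gcongr
    have hWR' : W * R ≤ W * (u ^ 2800)⁻¹ * R' := hWR.trans (by gcongr)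
    obtain ⟨x1, x2⟩ := hX2 (W * (u ^ 2800)⁻¹) k R' n k TW (by linarith only [g5, wk, h1, k8'])
      (h1'.trans hWk) (by linarith only [k9, s3, X0]) (by linarith only [n3, h1', R0']) k1' le_rfl
    replace x2 := x2.mono le_rfl subset_rfl o5 k0'
    have sv : Pot.Sup (bl 0 n) (Phi k - Phi R') := fun x hx => by
      rw [Pi.sub_apply, sup_Phi k0' (by linarith only [n3, g5, wk, WR, R0]) x hx,
        sup_Phi R0' (by linarith only [n3, h1', R0']) x hx, sub_self]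
    have x3 : E0 (bl 0 n) (Phi k - Phi R') ≤ log (u ^ 2800)⁻¹ := by
      have h2 : log (R' / k) ≤ 2 * log (u ^ 2800)⁻¹ :=
        (log_le_log (by positivity) ((div_le_iff₀ k0').2 (h1'.trans hWk))).trans o3
      have h3 : log (R' / k) / (2 * π) ≤ log (u ^ 2800)⁻¹ / 3 := by
        rw [div_le_iff₀ (by positivity)]
        nlinarith only [h2, o2, e0, pi_gt_three]
      rw [x1]
      linarith only [h3, o2, (abs_le.1 (he k (by linarith only [k8']))).1,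
        (abs_le.1 (he R' (R1.trans h1))).1]
    have x4 : ∑ z ∈ E.D, gr (Phi k - Phi R') (Phi k - Phi R') z = E0 (bl 0 n) (Phi k - Phi R') :=
      hD _ _ 0 n E.D sv ((bl_mono 0 (by omega)).trans ed.lo)
    have sub : bl 0 (3 * p.w * b) ⊆ E.D :=
      (bl_mono 0 (by have := A51.four_le ed.toGs a; omega)).trans ed.lo
    have x5 : log (R' / k) / (2 * π) - er k - er R' -
        ∑ z ∈ bl 0 (3 * p.w * b), gr (Phi k - Phi R) (Phi k - Phi R) z =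
        ∑ z ∈ E.D \ bl 0 (3 * p.w * b), gr (Phi k - Phi R') (Phi k - Phi R') z := by
      rw [sum_sdiff_eq_sub sub, x4, x1, sum_congr rfl fun z hz => gr_in (k := k) R0 h1
        (by push_cast; linarith only [g4, g2, K8]) hz]
    have x6 : ∑ z ∈ E.D \ bl 0 (3 * p.w * b), gr (Phi k - Phi R') (Phi k - Phi R') z ≤ 2800 / u :=
      (sum_le_sum_of_subset_of_nonneg sdiff_subset fun z _ _ => gr_nonneg _ z).trans
        (x4.trans_le (x3.trans o1))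
    have x7 : 0 ≤ E0 (bl 0 n) (Phi k - Phi R') := x4 ▸ sum_nonneg fun z _ => gr_nonneg _ z
    have mv : ∀ ρ : ℝ, 1 ≤ ρ → ρ ≤ W * R → W * R ≤ W * (u ^ 2800)⁻¹ * ρ →
        F2 (nnL.edI (bl 0 n)) (xi ρ - xi R) (3 * CX * log (u ^ 2800)⁻¹) := fun ρ f1 f2 f3 => by
      have := hX1 _ (W * R) ρ R 0 n f1 R1 f2 WR (by rw [eu_zero]; positivity) f3 hWR n3
      simp only [sub_zero] at this
      exact RJ57.f2_mono this o4
    have f1 : F2 (nnL.edI (bl 0 n)) (xi k - xi R + (xi R' - xi R)) (12 * CX * log (u ^ 2800)⁻¹) :=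
      RJ57.f2_mono (RJ57.f2_add (mv k (by linarith only [k8']) (by linarith only [g5, wk, WR, k8']) hWk)
        (mv R' (R1.trans h1) h1' hWR')) (le_of_eq (by ring))
    have f2 : (2 : ℝ) • xi R + (xi k - xi R + (xi R' - xi R)) = xi k + xi R' := by
      rw [two_smul]; abel
    have y2 := h2 E R Y P _ hB t0 (tK _ k2) (hYn _ (by omega)).1 (hYn _ (by omega)).2 a₁ a₂ α₁ α₂ hDc
      (Phi k - Phi R') ⟨hn ▸ sv, x2.scale (by positivity) (by rw [div_inv_eq_mul]; exact s1)⟩ (hn ▸ x3)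
      (E.D \ bl 0 (3 * p.w * b)) sdiff_subset
    have y3 := h3 E R Y P _ hB t0 (tK _ k3) (hYn _ (by omega)).1 (hYn _ (by omega)).2 a₁ a₂ α₁ α₂ hDc
      _ 0 (hn ▸ f1) (fun z => by
        obtain ⟨v, hv⟩ := hl k z k k1' le_rfl
        obtain ⟨v', hv'⟩ := hl R' z k k1' (by linarith only [g5, wk, h1, k8'])
        rw [f2, ← hk]
        exact ⟨_, (hv.add hv').mono (by linarith only [k11, g1])⟩) (E.D \ bl 0 (3 * p.w * b)) sdiff_subset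
    have y4 := hN _ _ _ _ ed.toEnv R Y _ hB.maj (by linarith only [YK 1 (by linarith only [K8])]) T1
      (by linarith only [g8, RG, R1]) k n _ _ (by linarith only [k5, s3, c5])
      (by rw [div_inv_eq_mul]; exact s1) (by linarith only [g5, wk, RG, k8']) n1 (by omega) (by omega) sv x2
    replace y4 := y4.trans (neun c5 t0 t1 (k5.trans g1) Y0.le (hYn _ (by omega)).1 (exp_le_one_iff.2 (by
      have := mul_nonneg (mul_nonneg (sq_nonneg π) (show 0 ≤ gk E.ω R by linarith only [gg.1])) x7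
      linarith only [this])))
    have y5 := ((hM _ _ _ _ ed.toEnv R Y hB.maj (by linarith only [YK 1 (by linarith only [K8])])
      (k6.trans g2) (GK _ _ k6 R0.le RG) gg.1 (YK _ k6) 2 (by norm_num) (by norm_num)).2 0 _ _ 0
      (bl_mono _ (Nat.ceil_le.2 (by linarith only [LN, g8, RG, R0])))
      (Xf91.f2_up (by omega) f1)).trans (cmn t0 t1 (k6.trans g1) hj (hYn _ (by omega)).1)
    rw [Int.cast_ofNat, f2] at y5
    rw [f2] at y3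
    rw [← xi_sub] at y2 y4
    rw [← hn] at y2
    have M0 : 0 ≤ W / u ^ 56 * R := by positivity
    have M1 : W / u ^ 56 * R ≤ (u ^ 2800)⁻¹ * R := by gcongr
    have M2 : 4 * (W * R) ≤ W / u ^ 56 * R := by rw [← mul_assoc]; gcongr
    have M3 := Nat.lt_floor_add_one (W / u ^ 56 * R)
    have y6 := hCr _ _ _ _ ed.toEnv R P (W / u ^ 56) R1 hB.P1 hB.prof (by linarith only [g10, W2])
      (by rw [mul_assoc]; exact GK _ _ k4 M0 M1) Unit univ (fun _ => 0) b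
      (fun _ s => Jz 0 s - α * Sn k s) (xi R') 1 Cl (-(π / 2)) (E.D \ bl 0 (3 * p.w * b))
      (by linarith only [k4, s3, kb', k8'])
      (by rw [div_div_eq_mul_div, div_le_iff₀' (by linarith only [W2]), hb']; exact s6) (by simp)
      ⟨by simp, fun _ _ => (ins_Jz 0 (by omega)).sub ((ins_Sn k0' (by linarith only [kb', k8'])).smul α),
        fun _ _ => ⟨by omega, a5⟩, fun _ _ => bl_mono _ (Nat.le_floor (by
          push_cast; linarith only [g4, M2, WR, R0])), fun _ _ _ _ h => absurd rfl h⟩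
      (by linarith only [g4, wb, M2, WR, R0]) (fun _ _ y hy => xi_in R0'
        (by linarith only [g4, wb, h1, g2, K8]) hy)
      (chq_xi R0' (by linarith only [M2, M3, h1', WR, R1]))
      (fun z => hl R' z b (by omega) (by linarith only [g4, wb, h1, R0]))
      (sdiff_subset.trans ed.hi) fun z hz _ _ => (mem_sdiff.1 hz).2
    simp only [univ_unique, prod_singleton, ← Sn_eq] at y6
    obtain ⟨z1, z2⟩ := core ed (a := a) (ρ := 3 * p.w * b) (b := b) (k := k) (R := R') α μ (by omega)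
      (by nlinarith only [wb']) a3 a4 (by linarith only [a1, h1, g2, K8]) (by linarith only [n6, h1'])
      k0' (by linarith only [kb', k8'])
    obtain ⟨z3, z4⟩ := errs (P := P) (Cl := Cl) (by positivity) (by positivity) u0 u1 Y0.le P0
      (zero_le_one.trans c1) c4 q3 q2 x6
    rw [← hK₁] at z3 z4
    rw [x5]
    exact alg (z1.trans (mul_le_mul_of_nonneg_left hμ (by norm_num)))
      (z2.trans (mul_le_mul_of_nonneg_left q2 (by norm_num)))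
      ((abs_sum_le_sum_abs _ _).trans y6) y2 y3 y4 y5 q1 (sum_nonneg fun z _ => gr_nonneg _ z)
      (by positivity) hlo (by positivity) P0 z3 z4
  have f1 := key R le_rfl WR lo1
  have f2 := key (W * R) WR le_rfl lo2
  have f3 : log (W * R / k) = log W + log (R / k) := by
    rw [mul_div_assoc, log_mul (by positivity) (by positivity)]
  have f4 : 2 * (K₀ * (K₁ * u ^ 8) * (P + 20 * |E.bb R a₁ α₁|)) ≤ (P + |E.bb R a₁ α₁|) * u ^ 7 := calc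
    _ ≤ 2 * (K₀ * (K₁ * u ^ 8) * (20 * P + 20 * |E.bb R a₁ α₁|)) := by gcongr; linarith only [P0]
    _ = 40 * (K₀ * K₁) * u * ((P + |E.bb R a₁ α₁|) * u ^ 7) := by ring
    _ ≤ K * u * ((P + |E.bb R a₁ α₁|) * u ^ 7) := by gcongr
    _ ≤ _ := mul_le_of_le_one_left (by positivity) hu
  rw [f3] at f2
  refine le_of_eq_of_le (congrArg _ ?_) ((abs_sub _ _).trans ((add_le_add f2 f1).trans
    (by linarith only [f4])))
  ring

end Crest.Agent.T145.Ev
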