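import Crest.Agent.T145.EvDef_2

/-!
# Row 145, even sector: `X1Stmt` with a universal constant (helper11)

`LowStmt` fixes `W₀` before `p`, so the deterministic error of `X1Stmt` must not depend on `p`.
-/

set_option autoImplicit false

namespace Crest.Agent.T145.Ev

open Finset Pot Xi Real Fl

/-- X1 with a universal constant in the deterministic error -/
def X1uStmt : Prop := ∃ C₀ : ℝ, 0 ≤ C₀ ∧ Xp fun ω R M _ ε =>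
  ∀ (a : ℕ) (z : Pt) (v v' : Pt → ℝ) (k₁ k₂ : ℝ), R / M ≤ a →
  (a : ℝ) ≤ M * R → eu z ≤ M * R → Sv R M v → Sv R M v' → Lk v z (6 * a) k₁ k₂ → Lk v' z (6 * a) k₁ k₂ →
    (a * k₁ ≤ 1 → |cv ω (trl z (T1 a)) (cp (A0 v) 0) -
      kp (gk ω R) a * gr v v z * exp (-2 * π ^ 2 * gk ω R * E0 (bl 0 ⌊M * R⌋₊) v)| ≤
        ε + C₀ * ((a * k₁) ^ 4 + (a : ℝ) ^ 2 * k₂ * (a * k₁ + (a : ℝ) ^ 2 * k₂))) ∧
    |cv ω (trl z (T1 a)) (fun s => X v s * X v' s) + kp (gk ω R) a * gr v v' z / (2 * π ^ 2)| ≤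
      ε + C₀ * ((a : ℝ) ^ 2 * k₂ * (a * k₁ + (a : ℝ) ^ 2 * k₂))

theorem x1_of_u (h : X1uStmt) : X1Stmt := fun p => by
  obtain ⟨C₀, h0, h⟩ := h
  obtain ⟨C, n, hC, h⟩ := h p
  refine ⟨C + C₀, n, by linarith, fun Λ ω L N hE R Y M hM g1 g2 m2 y1 l1 a z v v' k₁ k₂ a1 a2 a3 s1 s2 l2 l3 => ?_⟩
  have hR : 0 ≤ R := by linarith [hM.1]
  have hY : 0 ≤ Y := (Real.rpow_nonneg hR _).trans hM.2.1
  have hn : 0 ≤ M ^ n := by positivity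
  have k1 : 0 ≤ k₁ := (abs_nonneg _).trans (l2 z (by simp [mem_bl]) (1, 0) (by simp [nn])).1
  have k2 : 0 ≤ k₂ :=
    (abs_nonneg _).trans ((l2 z (by simp [mem_bl]) (1, 0) (by simp [nn])).2 (1, 0) (by simp [nn]))
  obtain ⟨x1, x2⟩ := h Λ ω L N hE R Y M hM g1 g2 m2
    (by nlinarith [mul_nonneg h0 (mul_nonneg hn hY)]) (by nlinarith [mul_nonneg h0 (mul_nonneg hn hR)])
    a z v v' k₁ k₂ a1 a2 a3 s1 s2 l2 l3
  have e0 : 0 ≤ M ^ n * Y ^ (1 / 4 : ℝ) + 1 / M := by positivity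
  have f1 : 0 ≤ (a : ℝ) ^ 2 * k₂ * (a * k₁ + (a : ℝ) ^ 2 * k₂) := by positivity
  have f2 : 0 ≤ ((a : ℝ) * k₁) ^ 4 := by positivity
  refine ⟨fun hk => (x1 hk).trans ?_, x2.trans ?_⟩ <;>
    nlinarith [mul_nonneg h0 e0, mul_nonneg (by linarith : 0 ≤ C) f1, mul_nonneg (by linarith : 0 ≤ C) f2]

end Crest.Agent.T145.Ev
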