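import Crest.Agent.T145.FlDef2_82
import Crest.Agent.T145.FlEnv_30
import Crest.Agent.T145.FlRate_98
import Crest.Agent.T145.NcT4Def_78

/-!
# Row 145, the odd flow: CORE (helper82)
-/

set_option autoImplicit false

namespace Crest.Agent.T145.Fl

open Finset Pot Xi Real

namespace C82

theorem win_mono {Λ : Lat} {θ δ δ' : ℝ} {l L : ℕ} (h : Λ.Win θ δ l L) (hδ : δ ≤ δ') : Λ.Win θ δ' l L :=
  ⟨h.1, ⟨h.2.1.1.trans (by gcongr), h.2.1.2.trans (by gcongr)⟩, h.2.2.1, h.2.2.2.trans hδ⟩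

theorem geo {rg r₀ w s N : ℕ} (hs : 2 ≤ s) (hN : s ≤ N) (hw : 4 ≤ w) (hr : 2 * rg ≤ r₀)
    (h1 : 100 * w * r₀ ≤ 2 ^ (N - s)) (h2 : 8 ≤ 2 ^ (N - s)) :
    2 ^ (N - 2) ≤ 2 ^ (N - 1) - rg - 1 ∧ 2 ^ (N - 1) - rg - 1 ≤ 2 ^ N ∧
      2 * (2 ^ (N - 1) - rg - 1 + rg) < 2 ^ N ∧
      2 ^ N ≤ 2 * (2 ^ (N - 1) - rg - 1 + (2 ^ (N - 1) - rg - 1) / 4) + 1 := by
  have a1 : 2 ^ (N - s) ≤ 2 ^ (N - 2) := Nat.pow_le_pow_right (by norm_num) (by omega)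
  have a2 : 2 ^ (N - 1) = 2 * 2 ^ (N - 2) := by rw [← pow_succ']; congr 1; omega
  have a3 : 2 ^ N = 4 * 2 ^ (N - 2) := by
    rw [show 4 = 2 ^ 2 by norm_num, ← pow_add]; congr 1; omega
  have a4 : 400 * r₀ ≤ 100 * w * r₀ := Nat.mul_le_mul_right _ (by omega)
  omega

theorem pow_mul_le {a s N : ℕ} (t : ℕ) (h : a + t ≤ s) (hN : s ≤ N) : 2 ^ a * 2 ^ (N - s) ≤ 2 ^ (N - t) := by
  rw [← pow_add]; exact Nat.pow_le_pow_right (by norm_num) (by omega)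

theorem num {W c η β j γ : ℝ} (hW : 1 ≤ W) (hA : 8 ^ (2 + η) ≤ c * W ^ β) (h : j * (2 + η) + β ≤ γ) :
    W ^ (-γ) ≤ c * ((8 * W ^ j)⁻¹) ^ (2 + η) := by
  have hW0 : 0 < W := by linarith
  have h8 : (0 : ℝ) < 8 ^ (2 + η) := by positivity
  rw [inv_rpow (by positivity), mul_rpow (by norm_num) (by positivity), ← rpow_mul hW0.le,
    ← div_eq_mul_inv, le_div_iff₀ (by positivity)]
  calc W ^ (-γ) * (8 ^ (2 + η) * W ^ (j * (2 + η)))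
      ≤ W ^ (-γ) * (c * W ^ β * W ^ (j * (2 + η))) := by gcongr
    _ = c * W ^ (-γ + β + j * (2 + η)) := by rw [rpow_add hW0, rpow_add hW0]; ring
    _ ≤ c * 1 := by
      have hc : 0 ≤ c := by
        by_contra hc
        have := mul_nonpos_of_nonpos_of_nonneg (not_le.1 hc).le (rpow_nonneg hW0.le β)
        linarith
      exact mul_le_mul_of_nonneg_left (rpow_le_one_of_one_le_of_nonpos hW (by linarith)) hc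
    _ = c := mul_one c

theorem ev_rpow (c : ℝ) {a : ℝ} (ha : 0 < a) : ∃ W₀ : ℕ, ∀ W : ℕ, W₀ ≤ W → c ≤ (W : ℝ) ^ a :=
  Filter.eventually_atTop.1
    (((tendsto_rpow_atTop ha).comp tendsto_natCast_atTop_atTop).eventually_ge_atTop c)

theorem rng {g g₀ : ℝ} (h1 : |g - g₀| ≤ 1 / 8) (h2 : |g₀ - 2 / π| ≤ 1 / 8) : 1 / 4 ≤ g ∧ g ≤ 1 := by
  have a : 1 / 2 ≤ 2 / π := by rw [le_div_iff₀ pi_pos]; linarith [pi_le_four]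
  have b : 2 / π ≤ 3 / 4 := by rw [div_le_iff₀ pi_pos]; linarith [pi_gt_three]
  rw [abs_le] at h1 h2
  constructor <;> linarith [h1.1, h1.2, h2.1, h2.2]

/-- the lower bounds of `Pack` -/
theorem low {p : Par} {Λ : Lat} {ω : (Cfg Pt → ℝ) → ℝ} {L N' : ℕ} (h : Env p Λ ω L N') {c η V : ℝ}
    {s r₁ n₀ : ℕ} (hL : ∀ (ρ R : ℝ) (z : Pt) (n : ℕ) (m : Mdl Pt), (r₁ : ℝ) ≤ ρ → 4 * ρ ≤ R → R ≤ V * ρ →
      eu z ≤ R → 2 ^ s * R ≤ n → n ≤ n₀ → Nc.Amb Λ m (bl 0 n) →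
      c * (ρ / R) ^ (2 + η) ≤ Ex (m.W 0) fun t => trl z (Sn ρ) t * Sn R t)
    (hs : 2 ^ s * L ≤ N') (hn : N' ≤ n₀) {r t : ℕ} (hr : 4 * r₁ + 1 ≤ r) (ht : 1 ≤ t) (hV : 8 * (t : ℝ) ≤ V)
    (hw : p.w * (t * r) ≤ L) : c * ((8 * (t : ℝ))⁻¹) ^ (2 + η) ≤ ell ω (2 * (t * r)) (Sn (r / 4)) := by
  obtain ⟨m, hm⟩ := h.amb 0
  have r0 : (1 : ℝ) ≤ r := by exact_mod_cast (by omega : 1 ≤ r)
  have t0 : (1 : ℝ) ≤ t := by exact_mod_cast ht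
  have tr : (r : ℝ) ≤ t * r := le_mul_of_one_le_left (by linarith) t0
  have h4 : 4 * (t * r) ≤ L := (Nat.mul_le_mul_right _ h.w4).trans hw
  have h4' : 4 * ((t : ℝ) * r) ≤ L := by exact_mod_cast h4
  have hLN : (L : ℝ) ≤ N' := by exact_mod_cast h.le
  have hs' : (2 : ℝ) ^ s * L ≤ N' := by exact_mod_cast hs
  have hr' : 4 * (r₁ : ℝ) + 1 ≤ r := by exact_mod_cast hr
  have := hL (r / 4) (2 * (t * r)) 0 N' m (by linarith) (by linarith) (by nlinarith) (by simp; positivity)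
    ((mul_le_mul_of_nonneg_left (by nlinarith) (by positivity)).trans hs') hn hm.1
  rw [E30.trl_zero, show (r : ℝ) / 4 / (2 * (t * r)) = (8 * (t : ℝ))⁻¹ by field_simp; norm_num] at this
  rwa [ell, hm.ex_eq (E30.ins_mul (E30.ins_Sn (by linarith) (by nlinarith))
    (E30.ins_Sn (by nlinarith) (by linarith)))]

end C82

open C82 in
theorem coreStmt (hG : Nc.GdStmt) (hK : KsWStmt) (hL : LowStmt) (hS : SmallWStmt) (hE : EntLowStmt)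
    (hLk : LinkStmt) (hP : PurStmt) (hN : Ent2Stmt) : CoreStmt := by
  intro F θ₀ w₀ h0
  obtain ⟨w', r₀, c, hc, hgd⟩ := hG F θ₀ (1 / 400) h0 (by norm_num)
  obtain ⟨w, hw0, hw1, hw4⟩ : ∃ w, w₀ ≤ w ∧ w' ≤ w ∧ 4 ≤ w := ⟨w₀ + w' + 4, by omega, by omega, by omega⟩
  have gs : ∀ (K : ℕ) (Λ : Lat) (l N s : ℕ) (δ : ℝ), F.Mem Λ → Λ.Win θ₀ δ l (2 ^ N) → c ≤ s → s ≤ N →
      Gs ⟨F, w, r₀, K⟩ Λ (2 ^ (N - s)) := fun K Λ l N s δ hΛ hW h1 h2 => by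
    have g := (hgd Λ hΛ).1 _ hW.2.2.1
    refine ⟨hΛ, hw4, by simp only; omega, g.2.1, fun r a b =>
      FlF4.gam_le hΛ.ok g a (b.trans ?_) le_rfl (Nat.mul_le_mul_right _ hw1)⟩
    rw [Nat.le_div_iff_mul_le (by omega)]
    have a1 := pow_mul_le (a := s) (s := s) (N := N) 0 le_rfl h2
    have a2 : c ≤ 2 ^ s := h1.trans Nat.lt_two_pow_self.le
    have a3 := Nat.mul_le_mul_left (2 ^ (N - s)) a2
    rw [Nat.sub_zero, mul_comm] at a1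
    omega
  refine ⟨w, r₀, hw0, fun v₀ => ?_⟩
  have he := ew_pos (w := w) (by omega)
  obtain ⟨W₁, h1⟩ := hK ⟨F, w, r₀, 0⟩ θ₀ h0
  obtain ⟨W₂, h2⟩ := hS ⟨F, w, r₀, 0⟩ θ₀ h0
  obtain ⟨W₃, h3⟩ := hP w
  obtain ⟨W₄, h4⟩ := hN w
  obtain ⟨cL, hcL, h5⟩ := hL F θ₀ (ew w / 40) h0 (by positivity)
  obtain ⟨W₅, hW₅⟩ := ev_rpow (8 ^ (2 + ew w / 40) / cL) (a := ew w / 20) (by positivity)
  obtain ⟨v, hv0, hv2, hv⟩ : ∃ v, v₀ ≤ v ∧ 2 ≤ v ∧ W₁ + W₂ + W₃ + W₄ + W₅ ≤ 2 ^ v :=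
    ⟨v₀ + 2 + (W₁ + W₂ + W₃ + W₄ + W₅), by omega, by omega,
      le_trans (by omega) Nat.lt_two_pow_self.le⟩
  obtain ⟨W, hW⟩ : ∃ W : ℕ, W = 2 ^ v := ⟨_, rfl⟩
  rw [← hW] at hv
  have W2 : 2 ≤ W := by rw [hW]; exact le_trans hv2 Nat.lt_two_pow_self.le
  have W1 : (1 : ℝ) ≤ W := by exact_mod_cast (by omega : 1 ≤ W)
  have hA : (8 : ℝ) ^ (2 + ew w / 40) ≤ cL * (W : ℝ) ^ (ew w / 20) := by
    have := hW₅ W (by omega)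
    rwa [div_le_iff₀' hcL] at this
  obtain ⟨δ₁, s₁, d1, h1⟩ := h1 W (by omega)
  obtain ⟨δ₂, s₂, d2, h2⟩ := h2 W (by omega)
  obtain ⟨δ₅, s₅, d5, h5⟩ := h5 (8 * (W * W)) (by nlinarith)
  obtain ⟨δ₆, s₆, d6, h6⟩ := hE F θ₀ (ew w / 2) h0 (by positivity)
  obtain ⟨s, s1, s2, s5, sc⟩ : ∃ s, s₁ ≤ s ∧ s₂ ≤ s ∧ s₅ + 2 ≤ s ∧ c ≤ s :=
    ⟨s₁ + s₂ + s₅ + 2 + c, by omega, by omega, by omega, by omega⟩
  obtain ⟨C₇, δ₇, c7, d7, h7⟩ := hLk ⟨F, w, r₀, 2 ^ s⟩ θ₀ (1 / 8) h0 (by norm_num)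
  obtain ⟨C₀, D, hD, h4⟩ := h4 ⟨F, w, r₀, 2 ^ s⟩ W rfl (by omega)
  obtain ⟨C, C0, C7, C6, C2⟩ : ∃ C : ℝ, C₀ ≤ C ∧ C₇ ≤ C ∧ 2 ^ s₆ ≤ C ∧ 2 ≤ C :=
    ⟨max (max C₀ C₇) (max (2 ^ s₆) 2), le_max_of_le_left (le_max_left _ _),
      le_max_of_le_left (le_max_right _ _), le_max_of_le_right (le_max_left _ _),
      le_max_of_le_right (le_max_right _ _)⟩
  obtain ⟨δ₀, d0, e1, e2, e5, e6, e7, e8⟩ : ∃ δ₀ : ℝ, 0 < δ₀ ∧ δ₀ ≤ δ₁ ∧ δ₀ ≤ δ₂ ∧ δ₀ ≤ δ₅ ∧ δ₀ ≤ δ₆ ∧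
      δ₀ ≤ δ₇ ∧ δ₀ ≤ 1 / 8 :=
    ⟨min (min (min δ₁ δ₂) (min δ₅ δ₆)) (min δ₇ (1 / 8)), by positivity, by simp, by simp, by simp,
      by simp, by simp, by simp⟩
  refine ⟨⟨⟨F, w, r₀, 2 ^ s⟩, v, s, C, D, δ₀⟩, rfl, rfl, hv0, rfl, hv2, by simp only; omega,
    by simp only; linarith, hD, d0, fun y₀ hy => ?_⟩
  obtain ⟨y₁, y0, ya, yb⟩ : ∃ y₁ : ℝ, 0 < y₁ ∧ y₁ ≤ y₀ ∧ C₇ * y₁ ≤ 1 :=
    ⟨min y₀ (1 / (C₇ + 1)), by positivity, min_le_left _ _,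
      (mul_le_mul_of_nonneg_left (min_le_right _ _) c7).trans (by
        rw [mul_one_div, div_le_one (by linarith)]; linarith)⟩
  obtain ⟨ε₁, hε, h4⟩ := h4 C C0 y₁ y0
  obtain ⟨δ₈, d8, h2⟩ := h2 ε₁ hε
  refine ⟨min δ₀ δ₈, lt_min d0 d8, min_le_left _ _, fun l => ?_⟩
  obtain ⟨ρ₁, h1⟩ := h1 l
  obtain ⟨ρ₅, h5⟩ := h5 l
  obtain ⟨ρ₆, c₆, hc6, h6⟩ := h6 l
  obtain ⟨ρ₇, h7⟩ := h7 l
  obtain ⟨r₁, hr1, h2⟩ := h2 l (r₀ + ρ₁ + 4 * ρ₅ + 1)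
  obtain ⟨⟨ka, ha⟩, hb⟩ := h4 r₁
  obtain ⟨k₁, ka1, k1⟩ : ∃ k₁, ka ≤ k₁ ∧ ρ₆ + ρ₇ + r₁ ^ 2 + 100 * w * r₀ + 8 ≤ k₁ :=
    ⟨_, Nat.le_add_left _ _, Nat.le_add_right _ ka⟩
  obtain ⟨kb, hb⟩ := hb k₁ c₆ hc6
  have pw : ∀ k, k₁ ≤ k → ρ₆ + ρ₇ + r₁ ^ 2 + 100 * w * r₀ + 8 ≤ W ^ k := fun k hk =>
    (k1.trans hk).trans (Nat.lt_pow_self (by omega)).le
  have Rm : ∀ k k', k ≤ k' → Rk W k ≤ Rk W k' := fun k k' hk =>
    mul_le_mul_of_nonneg_left (pow_le_pow_right₀ W1 hk) (by norm_num)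
  have Rl : ∀ R : ℝ, Rk W k₁ ≤ R → (ρ₆ : ℝ) ≤ R ∧ (ρ₇ : ℝ) ≤ R ∧ 0 < R := fun R hR => by
    have a : ((ρ₆ + ρ₇ + 8 : ℕ) : ℝ) ≤ (W ^ k₁ : ℕ) := by
      exact_mod_cast le_trans (by omega) (pw k₁ le_rfl)
    push_cast at a
    have b : (0 : ℝ) ≤ ρ₆ := Nat.cast_nonneg _
    have b' : (0 : ℝ) ≤ ρ₇ := Nat.cast_nonneg _
    unfold Rk at hR
    refine ⟨by linarith, by linarith, by linarith⟩
  refine ⟨r₁, max k₁ kb, fun Λ N hΛ hw hk => ?_⟩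
  simp only at hk hw
  have sN : s ≤ N := by omega
  have wk : W ^ max k₁ kb ≤ 2 ^ (N - s) := by
    rw [hW, ← pow_mul]; exact Nat.pow_le_pow_right (by norm_num) (by omega)
  have big := (pw _ (le_max_left k₁ kb)).trans wk
  have cw : ∀ δ, δ₀ ≤ δ → Mid.Cw θ₀ δ Λ l N := fun δ h =>
    ⟨win_mono hw.1 ((min_le_left _ _).trans h), hw.2.trans h⟩
  have g0 := gs 0 Λ l N s _ hΛ hw.1 sc sN
  have g1 := gs (2 ^ s) Λ l N s _ hΛ hw.1 sc sN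
  obtain ⟨n1, n2, n3, n4⟩ := geo (rg := Λ.rg) (r₀ := r₀) (s := s) (N := N) (by omega) sN hw4 g0.gd.2.1
    (by omega) (by omega)
  have L0 := pow_mul_le (a := 0) (s := s) (N := N) 2 (by omega) sN
  have L1 := pow_mul_le (a := s) (s := s) (N := N) 0 le_rfl sN
  have L2 := pow_mul_le (a := 0) (s := s) (N := N) 0 (by omega) sN
  simp only [pow_zero, one_mul, Nat.sub_zero] at L0 L1 L2
  have L3 : 2 ^ N ≤ 2 ^ s * 2 ^ (N - s) := by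
    rw [← pow_add]; exact Nat.pow_le_pow_right (by norm_num) (by omega)
  have env : Env ⟨F, w, r₀, 2 ^ s⟩ Λ (tor Λ N) (2 ^ (N - s)) (nA Λ N) :=
    env_om g1 (by simp only; omega) (L0.trans n1) (n2.trans L3) n3 n4
  have ks : ∀ r : ℕ, r₀ ≤ r → r₀ + ρ₁ + 4 * ρ₅ + 1 ≤ r → w * (W * r) ≤ 2 ^ (N - s) → Ks w W Λ r :=
    fun r a b d => h1 Λ N _ g0 (cw _ e1) (by simpa using pow_mul_le 0 s1 sN) r a (by omega) d
  have lw := fun {r t : ℕ} => low (r := r) (t := t) env (h5 Λ N hΛ (cw _ e5))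
    ((pow_mul_le 2 s5 sN).trans n1) n2
  have pack : Pack ⟨F, w, r₀, 2 ^ s⟩ W Λ (tor Λ N) r₁ (2 ^ (N - s)) (nA Λ N) := by
    refine ⟨env, fun r a b d => ks r a (hr1.trans b) d, fun r a b d => ?_, fun r a b d => ?_⟩
    · refine le_trans ?_ (lw (by omega) (by omega) (by nlinarith) d)
      have := num (j := 1) (γ := 2 + ew w / 10) W1 hA (by linarith)
      rwa [rpow_one, neg_add, ← sub_eq_add_neg] at this
    · have := lw (r := r) (t := W * W) (by omega) (by nlinarith) (by push_cast; exact le_rfl)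
        (by rwa [mul_assoc])
      push_cast at this
      rw [mul_assoc (W : ℝ)] at this
      refine le_trans ?_ this
      have := num (j := 2) (γ := 4 + ew w / 10) W1 hA (by linarith)
      rwa [rpow_two, pow_two, neg_add, ← sub_eq_add_neg] at this
  have sm : Small ⟨F, w, r₀, 2 ^ s⟩ W Λ r₁ (2 ^ (N - s)) ε₁ :=
    h2 Λ N _ g0 ⟨win_mono hw.1 (min_le_right _ _), hw.2.trans e2⟩ (by simpa using pow_mul_le 0 s2 sN) ks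
  have maj := fun R (hR : Rk W k₁ ≤ R) => ha Λ _ _ _ pack sm R ((Rm _ _ ka1).trans hR)
  have lnk : ∀ R : ℝ, Rk W k₁ ≤ R → C * R ≤ (2 ^ (N - s) : ℕ) →
      1 / 4 ≤ gk (tor Λ N) R ∧ gk (tor Λ N) R ≤ 1 := fun R hR hC =>
    rng (h7 Λ _ _ _ N env (cw _ e7).1 L2 R y₁ (maj R hR) yb (Rl R hR).2.1
      ((mul_le_mul_of_nonneg_right C7 (Rl R hR).2.2.le).trans hC)) (hw.2.trans e8)
  have cone := hb Λ _ _ _ pack sm fun k hk hC => by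
    have hR := Rl _ (Rm _ _ hk)
    refine ⟨(lnk _ (Rm _ _ hk) hC).1, (lnk _ (Rm _ _ hk) hC).2, ?_⟩
    obtain ⟨m, hm⟩ := env.amb 0
    have hLN : ((2 ^ (N - s) : ℕ) : ℝ) ≤ nA Λ N := by exact_mod_cast env.le
    have := h6 Λ N hΛ (cw _ e6) (Rk W k) (nA Λ N) m hR.1
      (((mul_le_mul_of_nonneg_right C6 hR.2.2.le).trans hC).trans hLN) n2 hm.1
    rwa [← hm.ex_eq (E30.ins_cp (E30.chq_xi hR.2.2
      (((mul_le_mul_of_nonneg_right C2 hR.2.2.le).trans hC).trans hLN)) 0), ← neg_div] at this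
  have pur := h3 _ W rfl (by omega) Λ _ _ _ _ pack
  subst hW
  exact ⟨pack, pur, by simp only; omega,
    le_trans (by omega) (pw _ (le_max_left k₁ kb)),
    fun R hR => (maj R ((Rm _ _ (le_max_left _ _)).trans hR)).mono ya,
    fun R hR => lnk R ((Rm _ _ (le_max_left _ _)).trans hR),
    fun k hk hC => ⟨(cone k ((le_max_right _ _).trans hk) hC).1,
      (cone k ((le_max_right _ _).trans hk) hC).2.trans ya⟩⟩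

end Crest.Agent.T145.Fl
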