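import Mathlib

/-!
# Row 145 (helper54): the discrete Kosterlitz-Thouless flow, part A (one step, invariant, rough orbits)
-/

set_option autoImplicit false

namespace Crest.Agent.T145.KT

open Filter Topology Finset

/-- one step of the normalised flow with relative error `e` -/
structure St (e x y x' y' : ℝ) : Prop where
  pos : 0 < y
  pos' : 0 < y'
  hx : |x' - x + y ^ 2| ≤ e * y ^ 2
  hy : |Real.log y' - Real.log y + x| ≤ e * (|x| + y)

/-- one step with error `C η ^ δ`, `η = |x| + y` -/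
def Step (C δ : ℝ) (x y : ℕ → ℝ) (n : ℕ) : Prop :=
  St (C * (|x n| + y n) ^ δ) (x n) (y n) (x (n + 1)) (y (n + 1))

/-- the modulus `ω η = C η ^ δ + η` -/
noncomputable def om (C δ η : ℝ) : ℝ := C * η ^ δ + η

theorem om_mono {C δ a b : ℝ} (hC : 0 ≤ C) (hδ : 0 ≤ δ) (ha : 0 ≤ a) (hab : a ≤ b) :
    om C δ a ≤ om C δ b :=
  add_le_add (mul_le_mul_of_nonneg_left (Real.rpow_le_rpow ha hab hδ) hC) hab

theorem le_om {C δ a : ℝ} (hC : 0 ≤ C) (ha : 0 ≤ a) : a ≤ om C δ a :=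
  le_add_of_nonneg_left (mul_nonneg hC (Real.rpow_nonneg ha _))

theorem om_nonneg {C δ a : ℝ} (hC : 0 ≤ C) (ha : 0 ≤ a) : 0 ≤ om C δ a := ha.trans (le_om hC ha)

theorem om_le {C δ a : ℝ} (hδ : δ ≤ 1) (hδ0 : 0 ≤ δ) (ha : 0 ≤ a) (ha1 : a ≤ 1) :
    om C δ a ≤ (C + 1) * a ^ δ := by
  have : a ≤ a ^ δ := by
    conv_lhs => rw [← Real.rpow_one a]
    exact Real.rpow_le_rpow_of_exponent_ge' ha ha1 hδ0 hδ
  rw [om]; linarith

theorem tendsto_om (C : ℝ) {δ : ℝ} (hδ : 0 < δ) : Tendsto (om C δ) (𝓝 0) (𝓝 0) := by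
  have h := ((Real.continuous_rpow_const hδ.le).tendsto 0).const_mul C |>.add tendsto_id
  unfold om
  simpa [Real.zero_rpow hδ.ne'] using h

theorem exists_om_le (C : ℝ) {δ w : ℝ} (hδ : 0 < δ) (hw : 0 < w) :
    ∃ ε, 0 < ε ∧ ∀ a, 0 ≤ a → a ≤ ε → om C δ a ≤ w := by
  obtain ⟨ε, hε, h⟩ := Metric.eventually_nhds_iff.1 ((tendsto_om C hδ).eventually (ge_mem_nhds hw))
  exact ⟨ε / 2, by linarith, fun a ha h' => h (by rw [Real.dist_eq, sub_zero, abs_of_nonneg ha]; linarith)⟩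

namespace St
variable {e x y x' y' w : ℝ}

theorem mono (h : St e x y x' y') {e' : ℝ} (he : e ≤ e') : St e' x y x' y' :=
  ⟨h.pos, h.pos', h.hx.trans (by gcongr), h.hy.trans (by have := h.pos; gcongr)⟩

theorem e_nonneg (h : St e x y x' y') : 0 ≤ e :=
  nonneg_of_mul_nonneg_left ((abs_nonneg _).trans h.hx) (pow_pos h.pos 2)

theorem sub_ge (h : St e x y x' y') : (1 - e) * y ^ 2 ≤ x - x' := by
  have := (abs_le.1 h.hx).2; linarith

theorem sub_le (h : St e x y x' y') : x - x' ≤ (1 + e) * y ^ 2 := by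
  have := (abs_le.1 h.hx).1; linarith

theorem lt (h : St e x y x' y') (he : e < 1) : x' < x := by
  have := h.sub_ge
  have := mul_pos (sub_pos.2 he) (pow_pos h.pos 2)
  linarith

theorem abs_log_le (h : St e x y x' y') : |Real.log y' - Real.log y| ≤ (1 + e) * (|x| + y) := by
  have h1 := abs_le.1 h.hy
  have h2 := h.pos
  have h3 := le_abs_self x
  have h4 := neg_abs_le x
  rw [abs_le]; constructor <;> nlinarith

theorem y_eq (h : St e x y x' y') : y' = y * Real.exp (Real.log y' - Real.log y) := by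
  rw [Real.exp_sub, Real.exp_log h.pos, Real.exp_log h.pos', mul_div_cancel₀ _ h.pos.ne']

/-- `y' = y (1 - x) + O(w η y)` -/
theorem dy (h : St e x y x' y') (hw : e + (|x| + y) ≤ w) (hw1 : w ≤ 1 / 100) :
    |y' - y + x * y| ≤ 2 * w * (|x| + y) * y := by
  have he := h.e_nonneg
  have hp := h.pos
  have hx0 := abs_nonneg x
  set t := Real.log y' - Real.log y with ht
  set η := |x| + y with hη
  have h1 : |t| ≤ (1 + e) * η := h.abs_log_le
  have h1' : |t| ≤ 101 / 100 * η := h1.trans (by gcongr; linarith)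
  have h2 := Real.abs_exp_sub_one_sub_id_le (x := t) (h1'.trans (by linarith))
  have h3 : |t + x| ≤ e * η := h.hy
  have h4 : y' - y + x * y = y * ((Real.exp t - 1 - t) + (t + x)) := by
    conv_lhs => rw [h.y_eq]
    ring
  have h5 : t ^ 2 ≤ (101 / 100 * η) ^ 2 := by rw [← sq_abs]; gcongr
  rw [h4, abs_mul, abs_of_pos hp, mul_comm]
  refine mul_le_mul_of_nonneg_right ((abs_add_le _ _).trans ?_) hp.le
  nlinarith

theorem abs_dy (h : St e x y x' y') (hw : e + (|x| + y) ≤ w) (hw1 : w ≤ 1 / 100) :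
    |y' - y| ≤ 102 / 100 * (|x| + y) * y := by
  have h1 := h.dy hw hw1
  have hp := h.pos
  have h2 : |y' - y| ≤ |y' - y + x * y| + |x| * y := by
    have := abs_sub (y' - y + x * y) (x * y)
    rwa [add_sub_cancel_right, abs_mul, abs_of_pos hp] at this
  have h3 : 0 ≤ (|x| + y) * y := by positivity
  nlinarith [mul_pos hp hp]

theorem abs_dx (h : St e x y x' y') (hw : e + (|x| + y) ≤ w) (hw1 : w ≤ 1 / 100) :
    |x' - x| ≤ 101 / 100 * y ^ 2 := by
  have h1 := h.sub_le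
  have h2 := h.sub_ge
  have he := h.e_nonneg
  have hp := h.pos
  have := abs_nonneg x
  have h3 := pow_pos hp 2
  rw [abs_le]; constructor <;> nlinarith

theorem eta_le (h : St e x y x' y') (hw : e + (|x| + y) ≤ w) (hw1 : w ≤ 1 / 100) :
    |x'| + y' ≤ 103 / 100 * (|x| + y) := by
  have h1 := h.abs_dx hw hw1
  have h2 := (abs_le.1 (h.abs_dy hw hw1)).2
  have h3 : |x'| ≤ |x| + |x' - x| := by simpa using abs_add_le x (x' - x)
  have he := h.e_nonneg
  have hp := h.pos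
  have := abs_nonneg x
  nlinarith

theorem le_eta (h : St e x y x' y') (hw : e + (|x| + y) ≤ w) (hw1 : w ≤ 1 / 100) :
    97 / 100 * (|x| + y) ≤ |x'| + y' := by
  have h1 := h.abs_dx hw hw1
  have h2 := (abs_le.1 (h.abs_dy hw hw1)).1
  have h3 : |x| ≤ |x'| + |x' - x| := by simpa using abs_sub x' (x' - x)
  have he := h.e_nonneg
  have hp := h.pos
  have := abs_nonneg x
  nlinarith

/-- the invariant `x² - y²` is almost conserved -/
theorem dD (h : St e x y x' y') (hw : e + (|x| + y) ≤ w) (hw1 : w ≤ 1 / 100) :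
    |(x' ^ 2 - y' ^ 2) - (x ^ 2 - y ^ 2)| ≤ 9 * w * (|x| + y) * y ^ 2 := by
  have he := h.e_nonneg
  have hp := h.pos
  have hx0 := abs_nonneg x
  have h1 := h.hx
  have h2 := h.dy hw hw1
  have h3 := h.abs_dx hw hw1
  have h4 := h.abs_dy hw hw1
  set η := |x| + y with hη
  have e1 : (x' ^ 2 - y' ^ 2) - (x ^ 2 - y ^ 2) =
      2 * x * (x' - x + y ^ 2) + (x' - x) ^ 2 - 2 * y * (y' - y + x * y) - (y' - y) ^ 2 := by ring
  have b1 : |2 * x * (x' - x + y ^ 2)| ≤ 2 * η * (e * y ^ 2) := by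
    rw [abs_mul, abs_mul, abs_two]; gcongr; linarith
  have b2 : (x' - x) ^ 2 ≤ (101 / 100 * y ^ 2) ^ 2 := by rw [← sq_abs]; gcongr
  have b3 : |2 * y * (y' - y + x * y)| ≤ 2 * y * (2 * w * η * y) := by
    rw [abs_mul, abs_mul, abs_two, abs_of_pos hp]; gcongr
  have b4 : (y' - y) ^ 2 ≤ (102 / 100 * η * y) ^ 2 := by rw [← sq_abs]; gcongr
  have hyη : y ≤ η := by linarith
  have hηw : η ≤ w := by linarith
  have c1 : y ^ 2 ≤ w * η := by nlinarith
  have c2 : η ^ 2 ≤ w * η := by nlinarith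
  have y2 := pow_pos hp 2
  have c3 : y ^ 2 * y ^ 2 ≤ w * η * y ^ 2 := by gcongr
  have c4 : η ^ 2 * y ^ 2 ≤ w * η * y ^ 2 := by gcongr
  have c5 : η * (e * y ^ 2) ≤ w * η * y ^ 2 := by
    have : e ≤ w := by linarith
    calc η * (e * y ^ 2) ≤ η * (w * y ^ 2) := by gcongr
      _ = _ := by ring
  have c6 : 0 ≤ w * η * y ^ 2 := by have : 0 ≤ w := by linarith
                                    positivity
  rw [e1, abs_le]
  have := abs_le.1 b1
  have := abs_le.1 b3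
  have := sq_nonneg (x' - x)
  have := sq_nonneg (y' - y)
  constructor <;> nlinarith

theorem dD' (h : St e x y x' y') (hw : e + (|x| + y) ≤ w) (hw1 : w ≤ 1 / 100) :
    |(x' ^ 2 - y' ^ 2) - (x ^ 2 - y ^ 2)| ≤ 10 * w * (|x| + y) * (x - x') := by
  refine (h.dD hw hw1).trans ?_
  have h1 := h.sub_ge
  have he := h.e_nonneg
  have hp := h.pos
  have hx0 := abs_nonneg x
  have y2 := pow_pos hp 2
  have : 9 * y ^ 2 ≤ 10 * (x - x') := by nlinarith
  have h0 : 0 ≤ w * (|x| + y) := by have : 0 ≤ w := by linarith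
                                    positivity
  nlinarith

end St

variable {C δ : ℝ} {x y : ℕ → ℝ}

theorem Step.eta_pos {n : ℕ} (h : Step C δ x y n) : 0 < |x n| + y n :=
  add_pos_of_nonneg_of_pos (abs_nonneg _) h.pos

theorem Step.w_le {n : ℕ} (h : Step C δ x y n) (hC : 0 ≤ C) (hδ : 0 ≤ δ) {σ : ℝ}
    (hσ : |x n| + y n ≤ σ) : C * (|x n| + y n) ^ δ + (|x n| + y n) ≤ om C δ σ :=
  om_mono hC hδ h.eta_pos.le hσ

/-- monotonicity of `x` and drift of the invariant along a stretch of the orbit -/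
theorem drift (hC : 0 ≤ C) (hδ : 0 ≤ δ) {σ : ℝ} (hσ : om C δ σ ≤ 1 / 100) {m n : ℕ} (hmn : m ≤ n)
    (h : ∀ j, m ≤ j → j < n → Step C δ x y j ∧ |x j| + y j ≤ σ) :
    x n ≤ x m ∧
      |(x n ^ 2 - y n ^ 2) - (x m ^ 2 - y m ^ 2)| ≤ 10 * om C δ σ * σ * (x m - x n) := by
  induction n, hmn using Nat.le_induction with
  | base => simp
  | succ n hmn ih =>
    obtain ⟨i1, i2⟩ := ih fun j h1 h2 => h j h1 (by omega)
    obtain ⟨s, hs⟩ := h n hmn (by omega)
    have hw := s.w_le hC hδ hs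
    have h1 := St.dD' s hw hσ
    have h2 : x (n + 1) < x n := St.lt s (by have := s.eta_pos; linarith)
    have h3 : 10 * om C δ σ * (|x n| + y n) * (x n - x (n + 1)) ≤
        10 * om C δ σ * σ * (x n - x (n + 1)) := by
      have := om_nonneg (δ := δ) hC (s.eta_pos.le.trans hs)
      have := sub_pos.2 h2
      gcongr
    refine ⟨by linarith, ?_⟩
    have := abs_sub_le (x (n + 1) ^ 2 - y (n + 1) ^ 2) (x n ^ 2 - y n ^ 2) (x m ^ 2 - y m ^ 2)
    linarith

/-- rough orbits: `x ≥ 0` for ever -/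
theorem sup (hC : 0 ≤ C) (hδ : 0 ≤ δ) {ε : ℝ} (hε : om C δ ε ≤ 1 / 100) {a : ℕ}
    (h : ∀ j, a ≤ j → Step C δ x y j ∧ |x j| + y j ≤ ε) (hx : ∀ j, a ≤ j → 0 ≤ x j) :
    ∃ L, 0 ≤ L ∧ Tendsto x atTop (𝓝 L) ∧ Tendsto y atTop (𝓝 0) ∧ ∀ n, a ≤ n → L ≤ x n ∧
      (∀ j, n ≤ j → |x j| + y j ≤ 3 * x n) ∧
      |x n ^ 2 - y n ^ 2 - L ^ 2| ≤ 30 * om C δ (min ε (3 * x n)) * x n * (x n - L) := by
  have hanti : ∀ m n, a ≤ m → m ≤ n → x n ≤ x m := fun m n h1 h2 =>
    (drift hC hδ hε h2 fun j h3 _ => h j (h1.trans h3)).1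
  have hA : Antitone fun k => x (k + a) := fun k l hkl => hanti _ _ (by omega) (by omega)
  have hB : BddBelow (Set.range fun k => x (k + a)) := ⟨0, by rintro _ ⟨k, rfl⟩; exact hx _ (by omega)⟩
  have hT := (tendsto_add_atTop_iff_nat a).1 (tendsto_atTop_ciInf hA hB)
  set L := ⨅ k, x (k + a) with hL
  have hLx : ∀ n, a ≤ n → L ≤ x n := fun n hn =>
    le_of_tendsto hT ((eventually_ge_atTop n).mono fun j hj => hanti _ _ hn hj)
  have hL0 : 0 ≤ L := ge_of_tendsto hT ((eventually_ge_atTop a).mono hx)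
  have hy2 : Tendsto (fun n => y n ^ 2) atTop (𝓝 0) := by
    have h1 : Tendsto (fun n => 2 * (x n - x (n + 1))) atTop (𝓝 0) := by
      simpa using (hT.sub ((tendsto_add_atTop_iff_nat 1).2 hT)).const_mul 2
    refine squeeze_zero' (Eventually.of_forall fun n => sq_nonneg _)
      ((eventually_ge_atTop a).mono fun n hn => ?_) h1
    obtain ⟨s, hs⟩ := h n hn
    have h2 := St.sub_ge s
    have h3 := s.w_le hC hδ hs
    have h4 := s.eta_pos
    have h5 := sq_nonneg (y n)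
    nlinarith
  have hy : Tendsto y atTop (𝓝 0) := by
    have := hy2.sqrt
    rw [Real.sqrt_zero] at this
    exact this.congr' ((eventually_ge_atTop a).mono fun n hn => Real.sqrt_sq (h n hn).1.pos.le)
  have hD : Tendsto (fun n => x n ^ 2 - y n ^ 2) atTop (𝓝 (L ^ 2)) := by
    simpa using (hT.pow 2).sub hy2
  have key : ∀ n σ, a ≤ n → om C δ σ ≤ 1 / 100 → (∀ j, n ≤ j → |x j| + y j ≤ σ) →
      |x n ^ 2 - y n ^ 2 - L ^ 2| ≤ 10 * om C δ σ * σ * (x n - L) := by
    intro n σ hn hσ hj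
    have t1 := (hD.const_sub (x n ^ 2 - y n ^ 2)).abs
    have t2 := (hT.const_sub (x n)).const_mul (10 * om C δ σ * σ)
    refine le_of_tendsto_of_tendsto t1 t2 ((eventually_ge_atTop n).mono fun k hk => ?_)
    have := (drift hC hδ hσ hk fun j h1 _ => ⟨(h j (hn.trans h1)).1, hj j h1⟩).2
    simpa only [abs_sub_comm] using this
  refine ⟨L, hL0, hT, hy, fun n hn => ?_⟩
  have hbd : BddAbove (Set.range fun k => |x (k + n)| + y (k + n)) :=
    ⟨ε, by rintro _ ⟨k, rfl⟩; exact (h _ (by omega)).2⟩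
  set σ := ⨆ k, (|x (k + n)| + y (k + n)) with hσ
  have hσ1 : ∀ j, n ≤ j → |x j| + y j ≤ σ := fun j hj => by
    have := le_ciSup hbd (j - n)
    rwa [Nat.sub_add_cancel hj] at this
  have hσ0 : 0 ≤ σ := (h n hn).1.eta_pos.le.trans (hσ1 n le_rfl)
  have hσε : σ ≤ ε := ciSup_le fun k => (h _ (by omega)).2
  have hσw : om C δ σ ≤ 1 / 100 := (om_mono hC hδ hσ0 hσε).trans hε
  have hx0 := hx n hn
  have hσ3 : σ ≤ 3 * x n := by
    have : σ ≤ 5 / 2 * x n + σ / 20 := ciSup_le fun k => by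
      have hk : a ≤ k + n := by omega
      have k1 := (abs_le.1 (key (k + n) σ hk hσw fun j hj => hσ1 j (by omega))).1
      have k2 := hanti n (k + n) hn (by omega)
      have k3 := hx _ hk
      have k4 := hLx _ hk
      have k5 := om_nonneg (δ := δ) hC hσ0
      have k6 : 10 * om C δ σ * σ * (x (k + n) - L) ≤ 10 * (1 / 100) * σ * x n := by
        have : 0 ≤ x (k + n) - L := by linarith
        gcongr; linarith
      have k7 : y (k + n) ≤ 3 / 2 * x n + σ / 20 := by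
        refine (abs_le_of_sq_le_sq' ?_ (by positivity)).2
        nlinarith [sq_nonneg L, mul_nonneg hσ0 hx0]
      rw [abs_of_nonneg k3]; linarith
    linarith
  have h3 : ∀ j, n ≤ j → |x j| + y j ≤ 3 * x n := fun j hj => (hσ1 j hj).trans hσ3
  refine ⟨hLx n hn, h3, ?_⟩
  have hm0 : 0 ≤ min ε (3 * x n) := hσ0.trans (le_min hσε hσ3)
  refine (key n (min ε (3 * x n)) hn ((om_mono hC hδ hm0 (min_le_left _ _)).trans hε)
    fun j hj => (hσ1 j hj).trans (le_min hσε hσ3)).trans ?_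
  have := om_nonneg (δ := δ) hC hm0
  have := sub_nonneg.2 (hLx n hn)
  calc 10 * om C δ (min ε (3 * x n)) * min ε (3 * x n) * (x n - L)
      ≤ 10 * om C δ (min ε (3 * x n)) * (3 * x n) * (x n - L) := by gcongr; exact min_le_right _ _
    _ = _ := by ring

end Crest.Agent.T145.KT
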