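import Crest.Agent.T145.ScB_97
import Crest.Agent.T145.Xi_22
import Crest.Agent.T145.KtA_54

/-!
# Row 145, the odd flow with left functionals: words and Props (helper82)

Text: `docs/T145_82.md`.  Layer A = calculus rules in an ambient model, layer B = local expansion,
layer C = identities in the invariant state `ω`, layer D = cone, entrance, one step of the flow.
Order of constants: family, `w`, `W`, (`r₀`, `K`), `C`, `y₀`, then `ε₁`, `r₁`, `k₀`.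
-/

set_option autoImplicit false

namespace Crest.Agent.T145.Fl

open Finset Pot Xi Real

/-- family, ratio of the N-boxes, first good scale, ratio (ambient radius) / (last good scale) -/
structure Par where
  F : Fa
  w : ℕ
  r₀ : ℕ
  K : ℕ

/-- the rate of decorrelation -/
noncomputable def cw (w : ℕ) : ℝ := log 2 / log (4 * (w : ℝ) ^ 4)

/-- the exponent of slow variation -/
noncomputable def ew (w : ℕ) : ℝ := cw w / 100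

/-- the norm of the insertion `F` flowed to radius `r` -/
noncomputable def nu (Λ : Lat) (w : ℕ) (z : Pt) (r : ℕ) (F : Cfg Pt → ℝ) : ℝ :=
  Nc.Nm Λ z (w * r) (Nc.St Λ z r F)

/-- `cos (2 π (ξ, s) + φ)` -/
noncomputable def cp (ξ : Pt → ℝ) (φ : ℝ) (s : Cfg Pt) : ℝ := cos (2 * π * pr ξ s + φ)

/-- the reference insertion `sin 2 π (ξ_ρ, s)` -/
noncomputable def Sn (ρ : ℝ) (s : Cfg Pt) : ℝ := sin (2 * π * pr (xi ρ) s)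

/-- nearest neighbour energy of a function supported in `D` -/
noncomputable def E0 (D : Finset Pt) (v : Pt → ℝ) : ℝ := ∑ x ∈ D, v x * A0 v x

/-- all scales in `[r₀, L]` are good -/
structure Gs (p : Par) (Λ : Lat) (L : ℕ) : Prop where
  mem : p.F.Mem Λ
  w4 : 4 ≤ p.w
  gd : Nc.Gd Λ (1 / 400) p.w p.r₀ L

/-- a family of insertions with disjoint N-boxes inside `U` -/
structure Far (p : Par) (L : ℕ) (U : Finset Pt) {ι : Type} (I : Finset ι) (x : ι → Pt) (r : ι → ℕ)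
    (H : ι → Cfg Pt → ℝ) : Prop where
  card : I.card ≤ 4
  ins : ∀ i ∈ I, Ins (x i) (r i) (H i)
  big : ∀ i ∈ I, p.r₀ ≤ r i ∧ p.w * r i ≤ L
  sub : ∀ i ∈ I, bl (x i) (p.w * r i) ⊆ U
  dis : ∀ i ∈ I, ∀ j ∈ I, i ≠ j → Disjoint (bl (x i) (p.w * r i)) (bl (x j) (p.w * r j))

/-- norm profile of `F` from the scale `a₀` on, size `P / r²` at the reference scale `r` -/
def Prof (Λ : Lat) (w a₀ L : ℕ) (z : Pt) (F : Cfg Pt → ℝ) (r P : ℝ) : Prop :=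
  ∀ a : ℕ, a₀ ≤ a → w * a ≤ L → (a : ℝ) ^ 2 * nu Λ w z a F ≤ P * max (a / r) (r / a) ^ ew w

/-! ## Layer A -/

/-- SEMI: `nu` is a translation covariant seminorm -/
def SemiStmt : Prop := ∀ (Λ : Lat) (w r : ℕ) (z : Pt), Λ.Ok → r + 2 * Λ.rg ≤ w * r →
  (∀ F, Ins z r F → 0 ≤ nu Λ w z r F ∧ nu Λ w z r F ≤ Nc.Nm Λ z (w * r) F ∧
    (∀ c : ℝ, nu Λ w z r (fun s => c * F s) = |c| * nu Λ w z r F) ∧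
    (∀ B : ℝ, (∀ s, |F s| ≤ B) → nu Λ w z r F ≤ B) ∧
    ∀ G, Ins z r G → nu Λ w z r (fun s => F s + G s) ≤ nu Λ w z r F + nu Λ w z r G ∧
      nu Λ w z r (fun s => F s - G s) ≤ nu Λ w z r F + nu Λ w z r G) ∧
  ∀ F, Ins 0 r F → Ins z r (trl z F) ∧ nu Λ w z r (trl z F) = nu Λ w 0 r F ∧
    ∀ c, r ≤ c → Nc.Nm Λ z c (trl z F) = Nc.Nm Λ 0 c F

/-- PROD: far insertions, a bounded multiplier `B`, and (i) nothing, (ii) an unflowed insertion, (iii) a flowed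
insertion, (iv) a flowed insertion times a function on an annulus -/
def ProdStmt : Prop := ∀ (p : Par) (Λ : Lat) (L : ℕ), Gs p Λ L →
  ∀ (m : Mdl Pt) (U : Finset Pt) (ι : Type) (I : Finset ι) (x : ι → Pt) (r : ι → ℕ) (H : ι → Cfg Pt → ℝ)
    (B : Cfg Pt → ℝ), Nc.Amb Λ m U → Far p L U I x r H → (∀ i ∈ I, Out (bl (x i) (r i)) B) →
    (∀ s, |B s| ≤ 1) →
    |Ex (m.W 0) fun s => (∏ i ∈ I, H i s) * B s| ≤ 16 * ∏ i ∈ I, nu Λ p.w (x i) (r i) (H i) ∧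
    ∀ (z : Pt) (R : ℕ), p.r₀ ≤ R → p.w * R ≤ L → bl z (p.w * R) ⊆ U →
      (∀ i ∈ I, Disjoint (bl (x i) (p.w * r i)) (bl z (p.w * R))) →
      (∀ G, Ins z R G → |Ex (m.W 0) fun s => (∏ i ∈ I, H i s) * G s * B s| ≤
        32 * (∏ i ∈ I, nu Λ p.w (x i) (r i) (H i)) * Nc.Nm Λ z (p.w * R) G) ∧
      (∀ F, Ins z R F → Out (bl z R) B → |Ex (m.W 0) fun s => (∏ i ∈ I, H i s) * F s * B s| ≤
        32 * (∏ i ∈ I, nu Λ p.w (x i) (r i) (H i)) * nu Λ p.w z R F) ∧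
      ∀ (a : ℕ) (F G : Cfg Pt → ℝ), p.r₀ ≤ a → p.w * (p.w * a) ≤ R → Ins z a F → Tame G →
        DepG (Nc.an z (p.w * (p.w * a)) R) G → Out (bl z a) B →
        |Ex (m.W 0) fun s => (∏ i ∈ I, H i s) * F s * G s * B s| ≤
          128 * (∏ i ∈ I, nu Λ p.w (x i) (r i) (H i)) * nu Λ p.w z a F *
            Nc.EA Λ z (p.w * a) (p.w * R) fun s => |G s|

/-- FUS: fusion in the norm -/
def FusStmt : Prop := ∀ (p : Par) (Λ : Lat) (L : ℕ), Gs p Λ L → ∀ (z : Pt) (R : ℕ), p.w * R ≤ L →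
  (∀ (a : ℕ) (F B : Cfg Pt → ℝ), p.r₀ ≤ a → a ≤ R → Ins z a F → DepG (bl z R) B → Out (bl z a) B →
    (∀ s, |B s| ≤ 1) → nu Λ p.w z R (fun s => F s * B s) ≤ 2 * nu Λ p.w z a F) ∧
  (∀ (a : ℕ) (F G : Cfg Pt → ℝ), p.r₀ ≤ a → p.w * (p.w * a) ≤ R → Ins z a F → Tame G →
    DepG (Nc.an z (p.w * (p.w * a)) R) G →
    nu Λ p.w z R (fun s => F s * G s) ≤
      4 * nu Λ p.w z a F * Nc.EA Λ z (p.w * a) (p.w * R) fun s => |G s|) ∧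
  ∀ (ι : Type) (I : Finset ι) (x : ι → Pt) (r : ι → ℕ) (H : ι → Cfg Pt → ℝ) (B : Cfg Pt → ℝ), p.r₀ ≤ R →
    Far p L (bl z R) I x r H → DepG (bl z R) B → (∀ i ∈ I, Out (bl (x i) (r i)) B) → (∀ s, |B s| ≤ 1) →
    nu Λ p.w z R (fun s => (∏ i ∈ I, H i s) * B s) ≤ 16 * ∏ i ∈ I, nu Λ p.w (x i) (r i) (H i)

/-- RATE: centred insertions contract -/
def RateStmt : Prop := ∀ w : ℕ, ∃ C : ℝ, 0 ≤ C ∧ ∀ (p : Par) (Λ : Lat) (L : ℕ), p.w = w → Gs p Λ L →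
  ∀ (m : Mdl Pt) (z : Pt) (r R : ℕ) (F : Cfg Pt → ℝ), p.r₀ ≤ r → r ≤ R → w * R ≤ L →
    Nc.Amb Λ m (bl z (w * R)) → Ins z r F →
    nu Λ w z R (fun s => F s - Ex (m.W 0) F) ≤ C * ((r : ℝ) / R) ^ cw w * nu Λ w z r F

/-- BARE: moments of `(A₀ v, s)` in ambient models, free boxes, free annuli -/
def BareStmt : Prop := ∀ F : Fa, ∃ C : ℝ, 0 ≤ C ∧ ∀ Λ, F.Mem Λ → ∀ (z : Pt) (n : ℕ) (v : Pt → ℝ),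
  Pot.Sup (bl z n) v → 0 ≤ E0 (bl z n) v ∧
    (∀ m, Nc.Amb Λ m (bl z (n + 1)) →
      Ex (m.W 0) (fun s => pr (A0 v) s ^ 2) ≤ C * E0 (bl z n) v ∧
      Ex (m.W 0) (fun s => pr (A0 v) s ^ 4) ≤ C * E0 (bl z n) v ^ 2) ∧
    ∀ c', n + 1 ≤ c' →
      Nc.EN Λ z c' (fun s => pr (A0 v) s ^ 2) ≤ C * E0 (bl z n) v ∧
      Nc.EN Λ z c' (fun s => pr (A0 v) s ^ 4) ≤ C * E0 (bl z n) v ^ 2 ∧
      ∀ c, (∀ y ∈ bl z (c + 1), v y = 0) → c < c' →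
        Nc.EA Λ z c c' (fun s => pr (A0 v) s ^ 2) ≤ C * E0 (bl z n) v ∧
        Nc.EA Λ z c c' (fun s => pr (A0 v) s ^ 4) ≤ C * E0 (bl z n) v ^ 2

/-! ## Layer B -/

/-- `u` vanishes to second order at `z`, curvature `σ / r²` -/
def Qs (u : Pt → ℝ) (z : Pt) (r : ℕ) (σ : ℝ) : Prop := ∀ y ∈ bl z r,
  |u y| ≤ σ * eu (y - z) ^ 2 / (r : ℝ) ^ 2 ∧ ∀ e ∈ nn, |dif e u y| ≤ σ * (eu (y - z) + 1) / (r : ℝ) ^ 2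

/-- cut-off at radius `ρ` about `z` -/
noncomputable def lc (u : Pt → ℝ) (z : Pt) (ρ : ℝ) (y : Pt) : ℝ := u y * Xi.chi ρ (y - z)

/-- LOC: the local expansion of `F e^{i X}` at `z`, generic `F` -/
def LocStmt : Prop := ∀ p : Par, ∃ C : ℝ, 0 ≤ C ∧ ∀ (Λ : Lat) (L : ℕ), Gs p Λ L →
  ∀ (m : Mdl Pt) (U : Finset Pt) (ι : Type) (I : Finset ι) (x : ι → Pt) (rr : ι → ℕ)
    (H : ι → Cfg Pt → ℝ) (z : Pt) (r a₀ : ℕ) (ρ σ P P₀ φ : ℝ) (F : Cfg Pt → ℝ) (ξ u : Pt → ℝ),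
    Nc.Amb Λ m U → Far p L U I x rr H → (∀ i ∈ I, ∀ y ∈ bl (x i) (rr i), ξ y = 0) →
    p.w * r ≤ L → bl z (p.w * r) ⊆ U → (∀ i ∈ I, Disjoint (bl (x i) (p.w * rr i)) (bl z (p.w * r))) →
    p.r₀ ≤ a₀ → Ins z a₀ F → 0 ≤ P → Prof Λ p.w a₀ L z F r P → 0 ≤ P₀ →
    ((∀ c, a₀ ≤ c → Nc.Nm Λ z c (fun s => F s ^ 2) ≤ P₀ ^ 2) ∨
      ∀ y ∈ bl z (16 * p.w ^ 2 * a₀), u y = 0) →
    0 ≤ σ → Qs u z r σ → (∀ y ∈ bl z (r - 1), ξ y = A0 u y) →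
    8 * (p.w : ℝ) ^ 2 * a₀ ≤ ρ → 600 * ρ ≤ r →
    |Ex (m.W 0) (fun s => (∏ i ∈ I, H i s) * F s * cp ξ φ s) -
      Ex (m.W 0) (fun s => (∏ i ∈ I, H i s) * F s * cp (ξ - A0 (lc u z ρ)) φ s) -
      2 * π * Ex (m.W 0) (fun s => F s * pr (A0 (lc u z ρ)) s) *
        Ex (m.W 0) fun s => (∏ i ∈ I, H i s) * cp ξ (φ + π / 2) s| ≤
      C * (∏ i ∈ I, nu Λ p.w (x i) (rr i) (H i)) * (σ * (1 + σ)) *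
        (P * (ρ / r) ^ (cw p.w / 4) / (r : ℝ) ^ 2 + P₀ * ((a₀ : ℝ) / r) ^ (2 + cw p.w / 2))

/-! ## Layer C -/

/-- `ω` is represented by the model `m` on the ball `bl c N` -/
def Rep (Λ : Lat) (ω : (Cfg Pt → ℝ) → ℝ) (m : Mdl Pt) (c : Pt) (N : ℕ) : Prop :=
  Nc.Amb Λ m (bl c N) ∧ ∀ F, DepG (bl c N) F → ω F = Ex (m.W 0) F

/-- an invariant state (the torus) -/
structure Env (p : Par) (Λ : Lat) (ω : (Cfg Pt → ℝ) → ℝ) (L N : ℕ) : Prop extends Gs p Λ L where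
  big : 100 * p.w * p.r₀ ≤ L
  le : L ≤ N
  leK : N ≤ p.K * L
  amb : ∀ c, ∃ m, Rep Λ ω m c N
  trl : ∀ (c z : Pt) F, DepG (bl c N) F → ω (trl z F) = ω F
  d4 : ∀ F, DepG (bl 0 N) F → ω (fun s => F (mapH (rotZ 0) s)) = ω F ∧ ω (fun s => F (mapH (swpZ 0) s)) = ω F
  flux : ∃ D : Finset Pt, bl 0 N ⊆ D ∧ D ⊆ bl 0 (N + N / 4) ∧
    ∀ F, Ins 0 (N / 4) F → ∑ z ∈ D, ω (fun s => F s * Jz z s) = 0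

/-- `K (x) = ω (J₀ J_x)` -/
noncomputable def KK (ω : (Cfg Pt → ℝ) → ℝ) (x : Pt) : ℝ := ω fun s => Jz 0 s * Jz x s

/-- the running stiffness -/
noncomputable def gk (ω : (Cfg Pt → ℝ) → ℝ) (ρ : ℝ) : ℝ :=
  -(1 / 4) * ∑ x ∈ bl 0 ⌈2 * ρ⌉₊, KK ω x * eu x ^ 2 * Xi.chi ρ x

/-- the left functional -/
noncomputable def ell (ω : (Cfg Pt → ℝ) → ℝ) (R : ℝ) (F : Cfg Pt → ℝ) : ℝ := ω fun s => F s * Sn R s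

/-- `Y` majorises the profile of `J` at the reference scale `R` -/
def Maj (p : Par) (Λ : Lat) (L : ℕ) (R Y : ℝ) : Prop :=
  1 ≤ R ∧ R ^ (-ew p.w) ≤ Y ∧ Prof Λ p.w p.r₀ L 0 (Jz 0) R Y

/-- KB: size of `K` and variation of `g` -/
def KbStmt : Prop := ∀ p : Par, ∃ C : ℝ, 0 ≤ C ∧ ∀ Λ ω L N, Env p Λ ω L N → ∀ R Y, Maj p Λ L R Y →
  (∀ x ∈ bl 0 L, x ≠ 0 → |KK ω x| * eu x ^ 4 ≤ C * Y ^ 2 * max (eu x / R) (R / eu x) ^ (2 * ew p.w)) ∧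
  (∀ x ∈ bl 0 (N - 1), KK ω x.swap = KK ω x ∧ KK ω (-x.1, x.2) = KK ω x) ∧
  ∀ a b M : ℝ, 1 ≤ M → 1 ≤ a → a ≤ b → R / M ≤ a → b ≤ M * R → 2 * b + 1 ≤ L →
    |gk ω b - gk ω a| ≤ C * Y ^ 2 * M ^ (2 * ew p.w)

/-- affine part (forward differences) -/
noncomputable def aff (u : Pt → ℝ) (z y : Pt) : ℝ :=
  u z + (((y - z).1 : ℝ) * dif (1, 0) u z + ((y - z).2 : ℝ) * dif (0, 1) u z)

/-- near `z` the charge `ξ` is `A₀ u`, `u` smooth at scale `r` (orders two and three) -/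
def Lr (ξ u : Pt → ℝ) (z : Pt) (r : ℕ) (σ : ℝ) : Prop := 0 ≤ σ ∧ ∀ y ∈ bl z (r + 2), ξ y = A0 u y ∧
  ∀ e ∈ nn, ∀ e' ∈ nn, |difs [e, e'] u y| ≤ σ / (r : ℝ) ^ 2 ∧
    ∀ e'' ∈ nn, |difs [e, e', e''] u y| ≤ σ / (r : ℝ) ^ 3

/-- the swept potential -/
noncomputable def sw (u : Pt → ℝ) (z : Pt) (ρ : ℝ) : Pt → ℝ := lc (fun y => u y - aff u z y) z ρ

/-- SW: the swept potential is small (deterministic) -/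
def SwStmt : Prop := ∃ C : ℝ, 0 ≤ C ∧ ∀ (ξ u : Pt → ℝ) (z : Pt) (r : ℕ) (σ : ℝ), Lr ξ u z r σ → 1 ≤ r →
  Qs (fun y => u y - aff u z y) z r (C * σ) ∧
    (∀ y ∈ bl z r, ξ y = A0 (fun y => u y - aff u z y) y ∧ |ξ y| ≤ 4 * σ / (r : ℝ) ^ 2) ∧
    ∀ (ρ : ℝ) (n : ℕ), 1 ≤ ρ → 2 * ρ ≤ n → n + 1 ≤ r → Pot.Sup (bl z n) (sw u z ρ) ∧
      E0 (bl z n) (sw u z ρ) ≤ C * σ ^ 2 * (ρ / r) ^ 4 ∧
      ∀ k : ℕ, (k : ℝ) + 1 ≤ ρ → ∀ y ∈ bl z k, ξ y - A0 (sw u z ρ) y = 0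

/-- BETA: the contact term of `J` -/
def BetaStmt : Prop := ∀ p : Par, ∃ C : ℝ, 0 ≤ C ∧ ∀ Λ ω L N, Env p Λ ω L N → ∀ (r : ℕ) (Y : ℝ),
  Maj p Λ L r Y → r ≤ L → ∀ (ξ u : Pt → ℝ) (z : Pt) (σ ρ : ℝ), Lr ξ u z r σ → 1 ≤ ρ → 8 * ρ ≤ r →
    |ω (fun s => Jz z s * pr (A0 (sw u z ρ)) s) - gk ω ρ * ξ z| ≤ C * σ * Y ^ 2 / (r : ℝ) ^ 2

/-- `ξ` is an integer charge in `U` -/
def Chq (U : Finset Pt) (ξ : Pt → ℝ) (q : ℤ) : Prop := Pot.Sup U ξ ∧ ∑ x ∈ U, ξ x = q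

/-- LJ: the local Schwinger–Dyson equation (sharp and crude form) -/
def LjStmt : Prop := ∀ p : Par, ∃ C : ℝ, 0 ≤ C ∧ ∀ Λ ω L N, Env p Λ ω L N → ∀ R Y M : ℝ,
  Maj p Λ L R Y → 1 ≤ M →
  ∀ (c : Pt) (ι : Type) (I : Finset ι) (x : ι → Pt) (rr : ι → ℕ) (H : ι → Cfg Pt → ℝ) (z : Pt) (r : ℕ)
    (σ φ : ℝ) (ξ u : Pt → ℝ) (q : ℤ), Far p L (bl c N) I x rr H →
    (∀ i ∈ I, ∀ y ∈ bl (x i) (rr i), ξ y = 0) → Chq (bl c N) ξ q → p.w * r ≤ L →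
    bl z (p.w * r) ⊆ bl c N → (∀ i ∈ I, Disjoint (bl (x i) (p.w * rr i)) (bl z (p.w * r))) →
    Lr ξ u z r σ → (r : ℝ) ≤ M * R →
    (∀ ρ : ℝ, C ≤ ρ → 600 * ρ ≤ r → R / M ≤ ρ →
      |ω (fun s => (∏ i ∈ I, H i s) * Jz z s * cp ξ φ s) -
        ω (fun s => (∏ i ∈ I, H i s) * Jz z s * cp (ξ - A0 (sw u z ρ)) φ s) -
        2 * π * gk ω ρ * ξ z * ω fun s => (∏ i ∈ I, H i s) * cp ξ (φ + π / 2) s| ≤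
        C * (∏ i ∈ I, nu Λ p.w (x i) (rr i) (H i)) * (σ * (1 + σ)) * M ^ (2 * ew p.w) *
          (Y * (ρ / r) ^ (cw p.w / 4) + Y ^ 2) / (r : ℝ) ^ 2) ∧
    (C ≤ r → R / M ≤ r →
      |ω (fun s => (∏ i ∈ I, H i s) * Jz z s * cp ξ φ s) -
        2 * π * gk ω (r / 600) * ξ z * ω fun s => (∏ i ∈ I, H i s) * cp ξ (φ + π / 2) s| ≤
        C * (∏ i ∈ I, nu Λ p.w (x i) (rr i) (H i)) * (1 + σ) ^ 2 * M ^ (2 * ew p.w) * (Y + Y ^ 2) /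
          (r : ℝ) ^ 2)

/-- FAR: the far part of the sum over the torus -/
def FarStmt : Prop := ∀ p : Par, ∃ C : ℝ, 0 ≤ C ∧ ∀ Λ ω L N, Env p Λ ω L N → ∀ R Y : ℝ, Maj p Λ L R Y →
  ∀ (a b : ℕ) (G : Cfg Pt → ℝ), p.r₀ ≤ a → R ≤ a → 16 * p.w * a ≤ b → 16 * p.w * a ≤ L → Ins 0 a G →
    ∑ z ∈ bl 0 (N + N / 4) \ bl 0 b, |ω fun s => G s * Jz z s| ≤
      C * nu Λ p.w 0 a G * Y * (a / R) ^ ew p.w *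
        (((a : ℝ) / b) ^ (cw p.w / 2) + ((a : ℝ) / L) ^ (cw p.w / 2))

/-- NEU: neutral charges are Gaussian with covariance `g A₀⁻¹` -/
def NeuStmt : Prop := ∀ p : Par, ∃ C : ℝ, 0 ≤ C ∧ ∀ Λ ω L N, Env p Λ ω L N → ∀ R Y M : ℝ,
  Maj p Λ L R Y → Y ≤ 1 → 1 ≤ M → 2 * R + 1 ≤ L → ∀ (r b : ℕ) (σ : ℝ) (v : Pt → ℝ), C ≤ r → R / M ≤ r →
    (r : ℝ) ≤ M * R → (b : ℝ) ≤ M * R → p.w * r ≤ L → b + 1 + p.w * r ≤ N → Pot.Sup (bl 0 b) v →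
    Sm 3 Set.univ σ r v →
    |ω (cp (A0 v) 0) - exp (-2 * π ^ 2 * gk ω R * E0 (bl 0 b) v)| ≤
      C * (1 + σ) ^ 3 * M ^ 5 * Y * max 1 (exp (-2 * π ^ 2 * gk ω R * E0 (bl 0 b) v))

/-- CM, CH: charged expectations are small -/
def CmStmt : Prop := ∀ p : Par, ∃ C : ℝ, 0 ≤ C ∧ ∀ Λ ω L N, Env p Λ ω L N → ∀ R Y : ℝ,
  Maj p Λ L R Y → Y ≤ 1 → C ≤ R → C * R ≤ L → 1 / 4 ≤ gk ω R → C * Y ≤ 1 → ∀ q : ℤ, q ≠ 0 → |q| ≤ 3 →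
    |ω (cp ((q : ℝ) • xi R) 0)| ≤ C * Y ∧
    ∀ (c : Pt) (f : Pt → ℝ) (n φ : ℝ), bl 0 ⌈2 * R⌉₊ ⊆ bl c N → F2 (nnL.edI (bl c N)) f n →
      |ω (cp ((q : ℝ) • xi R + f) φ)| ≤ C * √Y * exp (C * n)

/-- XF: moving a smeared charge costs logarithmic energy; two-centre algebra (deterministic) -/
def XfStmt : Prop := ∃ C : ℝ, 0 ≤ C ∧
  (∀ (M T ρ R : ℝ) (z : Pt) (n : ℕ), 1 ≤ ρ → 1 ≤ R → ρ ≤ T → R ≤ T → eu z ≤ T → T ≤ M * ρ → T ≤ M * R →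
    8 * T ≤ n →
    F2 (nnL.edI (bl 0 n)) ((fun y => xi ρ (y - z)) - xi R) (C * (1 + log M))) ∧
  (∀ (M ρ R : ℝ) (n r : ℕ), 1 ≤ M → 2 * ρ + 2 ≤ R → R ≤ M * ρ → C ≤ ρ → 2 * R ≤ n → 1 ≤ r → (r : ℝ) ≤ ρ →
    E0 (bl 0 n) (Phi ρ - Phi R) = log (R / ρ) / (2 * π) - er ρ - er R ∧
      Sm 3 Set.univ (C * (1 + log M)) r (Phi ρ - Phi R)) ∧
  ∀ (M ρ : ℝ) (x : Pt) (n r : ℕ), 1 ≤ M → C ≤ ρ → x ∉ bl 0 ⌈4 * ρ + 4⌉₊ → 8 * eu x ≤ n → (n : ℝ) ≤ M * ρ →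
    1 ≤ r → (r : ℝ) ≤ ρ → ∃ v : Pt → ℝ, Pot.Sup (bl 0 n) v ∧ Sm 3 Set.univ (C * (1 + log M)) r v ∧
      |E0 (bl 0 n) v - 2 * (pk x - Xi.cr ρ - er ρ)| ≤ C * eu x / n ∧
      F2 (nnL.edI (bl 0 (n + 1))) (xi ρ - (fun y => xi ρ (y - x)) - A0 v) (C * (eu x / n) ^ 2)

/-- purification -/
def Pur (p : Par) (W : ℕ) (Λ : Lat) (r₁ L : ℕ) : Prop := ∀ (r m : ℕ) (F : Cfg Pt → ℝ), p.r₀ ≤ r → r₁ ≤ r →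
  p.w * (W ^ m * r) ≤ L → Ins 0 r F → OddF F → D4 0 F →
    ∃ a : ℝ, |a| ≤ 2 * (W : ℝ) ^ (ew p.w * m) * nu Λ p.w 0 r F ∧
      nu Λ p.w 0 (W ^ m * r) (fun s => F s - a * Sn (r / 4) s) ≤
        3 * (W : ℝ) ^ (-(11 / 5 : ℝ) * m) * nu Λ p.w 0 r F ∧
      nu Λ p.w 0 (W ^ m * r) F ≤ (W : ℝ) ^ ((-2 + ew p.w) * m) * nu Λ p.w 0 r F

/-- CC: two odd invariant insertions against an odd charge (`F`, `G` are given at the origin) -/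
def CcStmt : Prop := ∀ (p : Par) (W : ℕ) (A : ℝ), 2 ≤ W → ∃ κ₀ : ℝ, 0 < κ₀ ∧ ∀ κ, 0 < κ → κ ≤ κ₀ →
  ∃ C : ℝ, 0 ≤ C ∧ ∀ Λ ω r₁ L N, Env p Λ ω L N → Pur p W Λ r₁ L → ∀ R Y : ℝ, Maj p Λ L R Y → C * Y ≤ 1 →
    C * R ≤ L → 1 / 4 ≤ gk ω R →
    ∀ (z : Pt) (ρ a n : ℕ) (φ : ℝ) (ζ : Pt → ℝ) (F G : Cfg Pt → ℝ), p.r₀ ≤ a → r₁ ≤ a →
      R * Y ^ (41 * κ) ≤ a → (a : ℝ) ≤ ρ * Y ^ (40 * κ) → (ρ : ℝ) ≤ R → eu z ≤ R * Y ^ (-κ) →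
      Disjoint (bl 0 (p.w * ρ)) (bl z (p.w * ρ)) → bl z (p.w * ρ) ⊆ bl 0 n → n ≤ N → 8 * R ≤ n →
      8 * eu z ≤ n →
      Ins 0 a F → OddF F → D4 0 F → Ins 0 a G → OddF G → D4 0 G →
      (∀ y ∈ bl 0 ρ, ζ y = 0) → (∀ y ∈ bl z ρ, ζ y = 0) → Pot.Sup (bl 0 n) ζ →
      F2 (nnL.edI (bl 0 n)) (ζ - xi R) A →
      |ω fun s => F s * trl z G s * cp ζ φ s| ≤
        C * nu Λ p.w 0 a F * nu Λ p.w 0 a G * ((a : ℝ) / ρ) ^ 4 * Y ^ (7 * κ)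

/-- STEP-y -/
def StepYStmt : Prop := ∀ (p : Par) (W : ℕ), 2 ≤ W → ∃ C δ : ℝ, 0 ≤ C ∧ 0 < δ ∧
  ∀ Λ ω r₁ L N, Env p Λ ω L N → Pur p W Λ r₁ L → ∀ R Y : ℝ, Maj p Λ L R Y → C * Y ≤ 1 → C * R ≤ L →
    (r₁ : ℝ) ^ 2 ≤ R →
    1 / 4 ≤ gk ω R → gk ω R ≤ 1 →
    |ell ω (W * R) (Jz 0) -
      exp (-2 * π ^ 2 * gk ω R * (log W / (2 * π) + er R - er (W * R))) * ell ω R (Jz 0)| ≤
      C * Y ^ 2 * (Y ^ δ + (R / L) ^ δ) / R ^ 2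

/-- STEP-x -/
def StepXStmt : Prop := ∀ (p : Par) (W : ℕ), 2 ≤ W → ∃ C δ : ℝ, 0 ≤ C ∧ 0 < δ ∧
  ∀ Λ ω r₁ L N, Env p Λ ω L N → Pur p W Λ r₁ L → ∀ R Y : ℝ, Maj p Λ L R Y → C * Y ≤ 1 → C * R ≤ L →
    (r₁ : ℝ) ^ 2 ≤ R →
    1 / 4 ≤ gk ω R → gk ω R ≤ 1 → ∀ x : Pt, R / 2 ≤ eu x → eu x ≤ 4 * W * R →
    |KK ω x - 2 * ell ω R (Jz 0) ^ 2 * exp (-4 * π ^ 2 * gk ω R * (pk x - Xi.cr R + er R))| ≤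
      C * Y ^ 2 * (Y ^ δ + (R / L) ^ δ) / R ^ 4

/-! ## Layer D -/

/-- the shell constant -/
noncomputable def Ak (W R : ℝ) : ℝ := ∑ x ∈ bl 0 ⌈2 * (W * R)⌉₊, (Xi.chi (W * R) x - Xi.chi R x) / eu x ^ 2

/-- AK (deterministic) -/
def AkStmt : Prop := ∀ W : ℕ, 2 ≤ W → ∃ c C : ℝ, 0 < c ∧ ∀ R : ℝ, 1 ≤ R →
  c ≤ Ak W R ∧ Ak W R ≤ C ∧ |Ak W (W * R) - Ak W R| ≤ C / R ∧ ∀ x, Xi.chi R x ≤ Xi.chi (W * R) x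

/-- the flow variables -/
noncomputable def xk (ω : (Cfg Pt → ℝ) → ℝ) (W R : ℝ) : ℝ := (π * gk ω R - 2) * log W

noncomputable def yk (ω : (Cfg Pt → ℝ) → ℝ) (W R : ℝ) : ℝ :=
  √(π * log W * Ak W R / 2) * R ^ 2 * |ell ω R (Jz 0)| * exp (-2 * π ^ 2 * gk ω R * er R)

/-- STEP: one step of the Kosterlitz–Thouless flow -/
def StepStmt : Prop := ∀ (p : Par) (W : ℕ) (D : ℝ), 2 ≤ W → ∃ C δ : ℝ, 0 ≤ C ∧ 0 < δ ∧ δ < 1 ∧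
  ∀ Λ ω r₁ L N, Env p Λ ω L N → Pur p W Λ r₁ L → ∀ R : ℝ, Maj p Λ L R (D * yk ω W R) → C * R ≤ L →
    (r₁ : ℝ) ^ 2 ≤ R →
    C * (|xk ω W R| + yk ω W R) ≤ 1 →
    KT.St (C * (|xk ω W R| + yk ω W R) ^ δ + C * (R / L) ^ δ) (xk ω W R) (yk ω W R)
      (xk ω W (W * R)) (yk ω W (W * R))

/-- the odd kernel theorem at scale `r`, with the reference insertion -/
def Ks (w W : ℕ) (Λ : Lat) (r : ℕ) : Prop := ∀ F, Ins 0 r F → OddF F → D4 0 F →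
  nu Λ w 0 (W * r) F ≤ (W : ℝ) ^ (-2 + ew w / 10) * nu Λ w 0 r F ∧
    ∃ c : ℝ, nu Λ w 0 (W * r) (fun s => F s - c * Sn (r / 4) s) ≤
      (W : ℝ) ^ (-3 + ew w / 10) * nu Λ w 0 r F

/-- all soft inputs of the cone argument -/
structure Pack (p : Par) (W : ℕ) (Λ : Lat) (ω : (Cfg Pt → ℝ) → ℝ) (r₁ L N : ℕ) : Prop
    extends Env p Λ ω L N where
  ks : ∀ r : ℕ, p.r₀ ≤ r → r₁ ≤ r → p.w * (W * r) ≤ L → Ks p.w W Λ r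
  low₁ : ∀ r : ℕ, p.r₀ ≤ r → r₁ ≤ r → p.w * (W * r) ≤ L →
    (W : ℝ) ^ (-2 - ew p.w / 10) ≤ ell ω (2 * (W * r)) (Sn (r / 4))
  low₂ : ∀ r : ℕ, p.r₀ ≤ r → r₁ ≤ r → p.w * (W * (W * r)) ≤ L →
    (W : ℝ) ^ (-4 - ew p.w / 10) ≤ ell ω (2 * (W * (W * r))) (Sn (r / 4))

/-- PUR -/
def PurStmt : Prop := ∀ w : ℕ, ∃ W₀ : ℕ, ∀ (p : Par) (W : ℕ), p.w = w → W₀ ≤ W → ∀ Λ ω r₁ L N,
  Pack p W Λ ω r₁ L N → Pur p W Λ r₁ L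

/-- soft smallness from the scale `r₁` on -/
def Small (p : Par) (W : ℕ) (Λ : Lat) (r₁ L : ℕ) (ε₁ : ℝ) : Prop := ∀ r : ℕ, r₁ ≤ r → p.w * (W * r) ≤ L →
  ((W * r : ℕ) : ℝ) ^ 2 * nu Λ p.w 0 (W * r) (Jz 0) ≤ ε₁ + (r : ℝ) ^ 2 * nu Λ p.w 0 r (Jz 0) / 2

/-- the scales -/
noncomputable def Rk (W k : ℕ) : ℝ := 2 * (W : ℝ) ^ k

/-- MAJ0: a small majorant; ENT: entrance into the cone, `y_k` itself is a majorant -/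
def EntStmt : Prop := ∀ w : ℕ, ∃ W₀ : ℕ, ∀ (p : Par) (W : ℕ), p.w = w → W₀ ≤ W → ∃ C D : ℝ, 0 ≤ C ∧ 1 ≤ D ∧
  ∀ y₀ : ℝ, 0 < y₀ → ∃ ε₁ : ℝ, 0 < ε₁ ∧ ∀ r₁ : ℕ,
    (∃ k₀ : ℕ, ∀ Λ ω L N, Pack p W Λ ω r₁ L N → Small p W Λ r₁ L ε₁ → ∀ R : ℝ, Rk W k₀ ≤ R →
      Maj p Λ L R y₀) ∧
    ∀ (k₁ : ℕ) (c : ℝ), 0 < c → ∃ k₀ : ℕ, ∀ Λ ω L N, Pack p W Λ ω r₁ L N → Small p W Λ r₁ L ε₁ →
      (∀ k, k₁ ≤ k → C * Rk W k ≤ L → 1 / 4 ≤ gk ω (Rk W k) ∧ gk ω (Rk W k) ≤ 1 ∧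
        c * Rk W k ^ (-ew p.w / 2) ≤ ω (cp (xi (Rk W k)) 0)) →
      ∀ k, k₀ ≤ k → C * Rk W k ≤ L →
        Maj p Λ L (Rk W k) (D * yk ω W (Rk W k)) ∧ yk ω W (Rk W k) ≤ y₀

end Crest.Agent.T145.Fl
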