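import Mathlib

/-!
# Row 145 (helper94): the local expansion F1, abstract form (double telescoping)

Levels `0, 1, …, K` around one centre.  `X i` is the piece of the phase at level `i` (`X 0` = innermost piece).
-/

set_option autoImplicit false

noncomputable section

namespace Crest.Agent.T145.F94

open Finset Complex

variable {α : Type*}

/-- `exp (i ∑_{a ≤ i < b} X i)` -/
def ex (X : ℕ → α → ℝ) (a b : ℕ) : α → ℂ := fun s => cexp (I * ((∑ i ∈ Ico a b, X i s : ℝ) : ℂ))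

/-- `exp (i X i) - 1` -/
def em (X : ℕ → α → ℝ) (i : ℕ) : α → ℂ := fun s => cexp (I * (X i s : ℂ)) - 1

theorem norm_ex (X : ℕ → α → ℝ) (a b : ℕ) (s : α) : ‖ex X a b s‖ = 1 := by
  rw [ex, mul_comm, norm_exp_ofReal_mul_I]

theorem norm_em (X : ℕ → α → ℝ) (i : ℕ) (s : α) : ‖em X i s‖ ≤ |X i s| := by
  rw [em]; exact Real.norm_exp_I_mul_ofReal_sub_one_le

theorem ex_self (X : ℕ → α → ℝ) (a : ℕ) : ex X a a = 1 := by
  ext s; simp [ex]

theorem ex_succ (X : ℕ → α → ℝ) {a b : ℕ} (h : a < b) :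
    ex X a b = ex X (a + 1) b + em X a * ex X (a + 1) b := by
  ext s
  simp only [ex, em, Pi.add_apply, Pi.mul_apply]
  rw [sum_eq_sum_Ico_succ_bot h]
  push_cast
  rw [mul_add, Complex.exp_add]; ring

theorem ex_tel (X : ℕ → α → ℝ) {a c b : ℕ} (h : a ≤ c) (h' : c ≤ b) :
    ex X a b = ex X c b + ∑ i ∈ Ico a c, em X i * ex X (i + 1) b := by
  induction c, h using Nat.le_induction with
  | base => simp
  | succ c hc ih =>
    rw [ih (by omega), sum_Ico_succ_top hc, ex_succ X (show c < b by omega)]; abel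

theorem ex_mul (X : ℕ → α → ℝ) {a c b : ℕ} (h : a ≤ c) (h' : c ≤ b) :
    ex X a b = ex X a c * ex X c b := by
  ext s
  simp only [ex, Pi.mul_apply]
  rw [← Complex.exp_add, ← sum_Ico_consecutive _ h h']
  push_cast; ring_nf

theorem ex_one (X : ℕ → α → ℝ) (a : ℕ) : ex X a (a + 1) = fun s => cexp (I * (X a s : ℂ)) := by
  ext s; simp [ex]

/-- the rules of the calculus at one centre -/
structure Lv (ν : ℕ → (α → ℂ) → ℝ) (ω : (α → ℂ) → ℂ) (In Out : ℕ → (α → ℂ) → Prop)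
    (X : ℕ → α → ℝ) (d : ℕ → ℝ) (C θ : ℝ) (K : ℕ) : Prop where
  one_le : 1 ≤ C
  θ_nonneg : 0 ≤ θ
  d_nonneg : ∀ i, 0 ≤ d i
  ν_nonneg : ∀ j H, 0 ≤ ν j H
  in_add : ∀ j H G, In j H → In j G → In j (H + G)
  in_mul : ∀ j H G, In j H → In j G → In j (H * G)
  in_const : ∀ j (c : ℂ), In j fun _ => c
  in_mono : ∀ j k H, j ≤ k → In j H → In k H
  in_exp : ∀ i k, i < k → In k fun s => cexp (I * (X i s : ℂ))
  out_add : ∀ j H G, Out j H → Out j G → Out j (H + G)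
  out_mul : ∀ j H G, Out j H → Out j G → Out j (H * G)
  out_const : ∀ j (c : ℂ), Out j fun _ => c
  out_exp : ∀ i j, 1 ≤ i → j ≤ i → Out j fun s => cexp (I * (X i s : ℂ))
  ν_add : ∀ j H G, In j H → In j G → ν j (H + G) ≤ ν j H + ν j G
  ν_smul : ∀ j (c : ℂ) H, In j H → ν j ((fun _ => c) * H) ≤ C * ‖c‖ * ν j H
  ν_neg : ∀ j H, In j H → ν j (-H) = ν j H
  ν_one : ∀ j, ν j 1 ≤ C
  ω_add : ∀ j H G, j ≤ K → In j H → In j G → ω (H + G) = ω H + ω G
  ω_const : ∀ c : ℂ, ω (fun _ => c) = c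
  ω_le : ∀ j H, j ≤ K → In j H → ‖ω H‖ ≤ C * ν j H
  dec : ∀ j k H, j ≤ k → k ≤ K → In j H → ω H = 0 → ν k H ≤ C * θ ^ (k - j) * ν j H
  mul1 : ∀ j i H Z, j < i → i < K → In j H → In K Z → Out j Z → (∀ s, ‖Z s‖ ≤ |X i s|) →
    ν K (H * Z) ≤ C * ν j H * d i
  bare1 : ∀ i Z, i < K → In K Z → (∀ s, ‖Z s‖ ≤ |X i s|) → ν K Z ≤ C * d i

namespace Lv
variable {ν : ℕ → (α → ℂ) → ℝ} {ω : (α → ℂ) → ℂ} {In Out : ℕ → (α → ℂ) → Prop}
  {X : ℕ → α → ℝ} {d : ℕ → ℝ} {C θ : ℝ} {K : ℕ} (h : Lv ν ω In Out X d C θ K)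
include h

theorem C_nonneg : 0 ≤ C := zero_le_one.trans h.one_le

theorem in_one (j : ℕ) : In j 1 := h.in_const j 1
theorem in_zero (j : ℕ) : In j 0 := h.in_const j 0

theorem in_neg {j : ℕ} {H : α → ℂ} (hH : In j H) : In j (-H) := by
  have := h.in_mul j _ _ (h.in_const j (-1)) hH
  convert this using 1; ext s; simp

theorem in_sub {j : ℕ} {H G : α → ℂ} (hH : In j H) (hG : In j G) : In j (H - G) := by
  rw [sub_eq_add_neg]; exact h.in_add j _ _ hH (h.in_neg hG)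

theorem in_sum {ι : Type*} {j : ℕ} (T : Finset ι) {H : ι → α → ℂ} (hH : ∀ i ∈ T, In j (H i)) :
    In j (∑ i ∈ T, H i) :=
  sum_induction H (In j) (fun _ _ => h.in_add j _ _) (h.in_zero j) hH

theorem ν_zero (j : ℕ) : ν j 0 ≤ 0 := by
  have := h.ν_smul j 0 1 (h.in_one j)
  rw [mul_one, norm_zero, mul_zero, zero_mul] at this
  exact this

theorem ν_sub {j : ℕ} {H G : α → ℂ} (hH : In j H) (hG : In j G) : ν j (H - G) ≤ ν j H + ν j G := by
  rw [sub_eq_add_neg, ← h.ν_neg j G hG]; exact h.ν_add j _ _ hH (h.in_neg hG)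

theorem ν_sum {ι : Type*} {j : ℕ} (T : Finset ι) {H : ι → α → ℂ} (hH : ∀ i ∈ T, In j (H i)) :
    ν j (∑ i ∈ T, H i) ≤ ∑ i ∈ T, ν j (H i) := by
  classical
  induction T using Finset.induction_on with
  | empty => simpa using h.ν_zero j
  | insert a T ha ih =>
    rw [sum_insert ha, sum_insert ha]
    have h1 := fun i hi => hH i (mem_insert_of_mem hi)
    exact (h.ν_add j _ _ (hH a (mem_insert_self _ _)) (h.in_sum T h1)).trans (by gcongr; exact ih h1)

theorem ν_const (j : ℕ) (c : ℂ) : ν j (fun _ => c) ≤ C ^ 2 * ‖c‖ := by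
  have h1 := h.ν_smul j c 1 (h.in_one j)
  have h2 := h.ν_one j
  have h3 := h.C_nonneg
  rw [mul_one] at h1
  calc _ ≤ C * ‖c‖ * ν j 1 := h1
    _ ≤ C * ‖c‖ * C := by gcongr
    _ = _ := by ring

theorem in_em {i k : ℕ} (hi : i < k) : In k (em X i) := h.in_sub (h.in_exp i k hi) (h.in_one k)

theorem out_em {i j : ℕ} (h1 : 1 ≤ i) (hi : j ≤ i) : Out j (em X i) := by
  have := h.out_add j _ _ (h.out_exp i j h1 hi) (h.out_const j (-1))
  convert this using 1
  ext s; simp [em, sub_eq_add_neg]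

theorem in_ex {a b k : ℕ} (hb : b ≤ k) : In k (ex X a b) := by
  induction b with
  | zero => rw [show ex X a 0 = 1 by ext s; simp [ex]]; exact h.in_one k
  | succ b ih =>
    rcases le_or_gt a b with hab | hab
    · rw [ex_mul X hab (Nat.le_succ b), ex_one]
      exact h.in_mul k _ _ (ih (by omega)) (h.in_exp b k (by omega))
    · rw [show ex X a (b + 1) = 1 by ext s; simp [ex, Ico_eq_empty_of_le (show b + 1 ≤ a by omega)]]
      exact h.in_one k

theorem out_ex {a b j : ℕ} (h1 : 1 ≤ a) (ha : j ≤ a) : Out j (ex X a b) := by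
  induction b with
  | zero => rw [show ex X a 0 = 1 by ext s; simp [ex]]; exact h.out_const j 1
  | succ b ih =>
    rcases le_or_gt a b with hab | hab
    · rw [ex_mul X hab (Nat.le_succ b), ex_one]
      exact h.out_mul j _ _ ih (h.out_exp b j (by omega) (by omega))
    · rw [show ex X a (b + 1) = 1 by ext s; simp [ex, Ico_eq_empty_of_le (show b + 1 ≤ a by omega)]]
      exact h.out_const j 1

omit h in
theorem norm_em_ex (i a b : ℕ) (s : α) : ‖(em X i * ex X a b) s‖ ≤ |X i s| := by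
  rw [Pi.mul_apply, norm_mul, norm_ex, mul_one]; exact norm_em X i s

theorem in_em_ex {i : ℕ} (hi : i < K) : In K (em X i * ex X (i + 1) K) :=
  h.in_mul K _ _ (h.in_em hi) (h.in_ex le_rfl)

theorem ν_em_ex {i : ℕ} (hi : i < K) : ν K (em X i * ex X (i + 1) K) ≤ C * d i :=
  h.bare1 i _ hi (h.in_em_ex hi) (norm_em_ex i _ _)

/-- a mean zero insertion at level `j` times the phases of the levels `> j` -/
theorem tel0 {j : ℕ} (hj : j < K) {G : α → ℂ} (hG : In j G) (h0 : ω G = 0) :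
    ν K (G * ex X (j + 1) K) ≤
      C ^ 2 * ν j G * (θ ^ (K - j) + ∑ k ∈ Ico (j + 1) K, θ ^ (k - 1 - j) * d k) := by
  have hC := h.C_nonneg
  have hC1 := h.one_le
  have hν := h.ν_nonneg j G
  have hθ := h.θ_nonneg
  have hGK := h.in_mono j K G hj.le hG
  rw [ex_tel X (show j + 1 ≤ K from hj) le_rfl, ex_self, mul_add, mul_one, mul_sum]
  have hin : ∀ k ∈ Ico (j + 1) K, In K (G * (em X k * ex X (k + 1) K)) := fun k hk =>
    h.in_mul K _ _ hGK (h.in_em_ex (mem_Ico.1 hk).2)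
  refine (h.ν_add K _ _ hGK (h.in_sum _ hin)).trans ?_
  rw [mul_add, mul_sum]
  refine add_le_add ((h.dec j K G hj.le le_rfl hG h0).trans ?_) ((h.ν_sum _ hin).trans ?_)
  · have : C ≤ C ^ 2 := by nlinarith
    calc C * θ ^ (K - j) * ν j G = C * ν j G * θ ^ (K - j) := by ring
      _ ≤ _ := by gcongr
  · refine sum_le_sum fun k hk => ?_
    obtain ⟨hk1, hk2⟩ := mem_Ico.1 hk
    have h1 := h.mul1 (k - 1) k G _ (by omega) hk2 (h.in_mono j _ G (by omega) hG) (h.in_em_ex hk2)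
      (h.out_mul _ _ _ (h.out_em (by omega) (by omega)) (h.out_ex (by omega) (by omega)))
      (norm_em_ex k _ _)
    have h2 := h.dec j (k - 1) G (by omega) (by omega) hG h0
    have h3 := h.d_nonneg k
    calc _ ≤ C * ν (k - 1) G * d k := h1
      _ ≤ C * (C * θ ^ (k - 1 - j) * ν j G) * d k := by gcongr
      _ = _ := by ring

/-- the error weight of the piece at level `j` -/
def wt (d : ℕ → ℝ) (θ : ℝ) (K j : ℕ) : ℝ :=
  θ ^ (K - (j + 1)) + (∑ k ∈ Ico (j + 2) K, θ ^ (k - 1 - (j + 1)) * d k) + ∑ i ∈ range (j + 2), d i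

omit h in
theorem wt_nonneg (hθ : 0 ≤ θ) (hd : ∀ i, 0 ≤ d i) (j : ℕ) : 0 ≤ wt d θ K j :=
  add_nonneg (add_nonneg (pow_nonneg hθ _) (sum_nonneg fun k _ => mul_nonneg (pow_nonneg hθ _) (hd k)))
    (sum_nonneg fun i _ => hd i)

/-- second telescope: an insertion `H` at level `j + 1` times the phases of the levels `> j` -/
theorem tel {j : ℕ} (hj : j + 1 < K) {H : α → ℂ} {μ : ℝ} (hH : In (j + 1) H) (h1 : ν (j + 1) H ≤ μ)
    (h2 : ν K (H * (em X (j + 1) * ex X (j + 2) K)) ≤ μ * d (j + 1)) :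
    ν K (H * ex X (j + 1) K - (fun _ => ω H) * ex X 0 K) ≤ 3 * C ^ 5 * μ * wt d θ K j := by
  have hC := h.C_nonneg
  have hC1 := h.one_le
  have hθ := h.θ_nonneg
  have hμ : 0 ≤ μ := (h.ν_nonneg _ _).trans h1
  have hω : ‖ω H‖ ≤ C * μ := (h.ω_le _ H hj.le hH).trans (by gcongr)
  set G : α → ℂ := H - fun _ => ω H with hGd
  have hG : In (j + 1) G := h.in_sub hH (h.in_const _ _)
  have hG0 : ω G = 0 := by
    have e : G = H + fun _ => -ω H := by ext s; simp [hGd, sub_eq_add_neg]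
    rw [e, h.ω_add _ _ _ hj.le hH (h.in_const _ _), h.ω_const]; ring
  have hGν : ν (j + 1) G ≤ 2 * C ^ 3 * μ := by
    refine (h.ν_sub hH (h.in_const _ _)).trans ?_
    have h3 := h.ν_const (j + 1) (ω H)
    have h4 : C ^ 2 * ‖ω H‖ ≤ C ^ 2 * (C * μ) := by gcongr
    have h5 : 1 ≤ C ^ 3 := one_le_pow₀ hC1
    nlinarith
  have e : H * ex X (j + 1) K - (fun _ => ω H) * ex X 0 K =
      G * ex X (j + 2) K + H * (em X (j + 1) * ex X (j + 2) K) -
        ∑ i ∈ range (j + 2), (fun _ => ω H) * (em X i * ex X (i + 1) K) := by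
    rw [ex_tel X (Nat.zero_le (j + 2)) hj, ex_succ X hj, ← mul_sum, range_eq_Ico, hGd]; ring
  have hHK := h.in_mono _ K H hj.le hH
  have i1 : In K (G * ex X (j + 2) K) := h.in_mul K _ _ (h.in_mono _ K G hj.le hG) (h.in_ex le_rfl)
  have i2 : In K (H * (em X (j + 1) * ex X (j + 2) K)) := h.in_mul K _ _ hHK (h.in_em_ex hj)
  have i3 : ∀ i ∈ range (j + 2), In K ((fun _ => ω H) * (em X i * ex X (i + 1) K)) := fun i hi =>
    h.in_mul K _ _ (h.in_const _ _) (h.in_em_ex (by have := mem_range.1 hi; omega))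
  rw [e]
  refine (h.ν_sub (h.in_add K _ _ i1 i2) (h.in_sum _ i3)).trans ?_
  have b1 := h.tel0 hj hG hG0
  have b3 : ν K (∑ i ∈ range (j + 2), (fun _ => ω H) * (em X i * ex X (i + 1) K)) ≤
      C ^ 3 * μ * ∑ i ∈ range (j + 2), d i := by
    refine (h.ν_sum _ i3).trans ?_
    rw [mul_sum]
    refine sum_le_sum fun i hi => ?_
    have hi' : i < K := by have := mem_range.1 hi; omega
    have := h.ν_em_ex hi'
    have := h.d_nonneg i
    calc _ ≤ C * ‖ω H‖ * ν K (em X i * ex X (i + 1) K) := h.ν_smul K _ _ (h.in_em_ex hi')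
      _ ≤ C * (C * μ) * (C * d i) := by have := h.ν_nonneg K (em X i * ex X (i + 1) K); gcongr
      _ = _ := by ring
  have b2 : d (j + 1) ≤ ∑ i ∈ range (j + 2), d i :=
    single_le_sum (fun i _ => h.d_nonneg i) (mem_range.2 (by omega))
  set A := θ ^ (K - (j + 1)) + ∑ k ∈ Ico (j + 1 + 1) K, θ ^ (k - 1 - (j + 1)) * d k with hA
  set D := ∑ i ∈ range (j + 2), d i with hD
  have hA0 : 0 ≤ A := add_nonneg (pow_nonneg hθ _)
    (sum_nonneg fun k _ => mul_nonneg (pow_nonneg hθ _) (h.d_nonneg k))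
  have hD0 : 0 ≤ D := sum_nonneg fun i _ => h.d_nonneg i
  have hw : wt d θ K j = A + D := rfl
  have c1 : C ^ 2 * ν (j + 1) G * A ≤ C ^ 2 * (2 * C ^ 3 * μ) * A := by gcongr
  have c2 : μ * d (j + 1) ≤ C ^ 5 * μ * D := by
    have : 1 ≤ C ^ 5 := one_le_pow₀ hC1
    calc μ * d (j + 1) ≤ μ * D := by gcongr
      _ = 1 * μ * D := by ring
      _ ≤ _ := by gcongr
  have c3 : C ^ 3 * μ * D ≤ C ^ 5 * μ * D := by
    have : C ^ 3 ≤ C ^ 5 := pow_le_pow_right₀ hC1 (by norm_num)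
    gcongr
  have c4 : 0 ≤ C ^ 5 * μ * A := by positivity
  have c5 : 0 ≤ C ^ 5 * μ * D := by positivity
  have := h.ν_add K _ _ i1 i2
  rw [hw]
  nlinarith

/-- F1: `F e^{iX} = F e^{iX_{≥ J}} + m e^{iX} + error`, `m = ∑_{j < J} ω (F (e^{iX_j} - 1))` -/
theorem f1 {J : ℕ} (hJ : J < K) {F : α → ℂ} {μ : ℕ → ℝ} (hF : ∀ j < J, In (j + 1) (F * em X j))
    (h1 : ∀ j < J, ν (j + 1) (F * em X j) ≤ μ j)
    (h2 : ∀ j < J, ν K (F * em X j * (em X (j + 1) * ex X (j + 2) K)) ≤ μ j * d (j + 1)) :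
    ν K (F * ex X 0 K - F * ex X J K - (fun _ => ∑ j ∈ range J, ω (F * em X j)) * ex X 0 K) ≤
      3 * C ^ 5 * ∑ j ∈ range J, μ j * wt d θ K j := by
  have e : F * ex X 0 K - F * ex X J K - (fun _ => ∑ j ∈ range J, ω (F * em X j)) * ex X 0 K =
      ∑ j ∈ range J, (F * em X j * ex X (j + 1) K - (fun _ => ω (F * em X j)) * ex X 0 K) := by
    rw [sum_sub_distrib, ← sum_mul]
    congr 1
    · conv_lhs => rw [ex_tel X (Nat.zero_le J) hJ.le]
      rw [mul_add, add_sub_cancel_left, mul_sum, range_eq_Ico]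
      exact sum_congr rfl fun j _ => (mul_assoc _ _ _).symm
    · congr 1; ext s; simp
  rw [e, mul_sum]
  refine (h.ν_sum _ fun j hj => ?_).trans (sum_le_sum fun j hj => ?_)
  · have hj := mem_range.1 hj
    exact h.in_sub (h.in_mul K _ _ (h.in_mono _ K _ (by omega) (hF j hj)) (h.in_ex le_rfl))
      (h.in_mul K _ _ (h.in_const _ _) (h.in_ex le_rfl))
  · have hj := mem_range.1 hj
    rw [← mul_assoc]
    exact h.tel (by omega) (hF j hj) (h1 j hj) (h2 j hj)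

end Lv

end Crest.Agent.T145.F94
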