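import Crest.Agent.T145.FlFus_4
import Crest.Agent.T145.NcT4Def_78
import Crest.Agent.T145.Soft_23

/-!
# Row 145: polynomial contraction in the seminorm `nu` (helper4)

`Dk Λ C κ L` is the conclusion of `Nc.PDecStmt` and `Nc.RateStmt` for one model below the scale `L`.
-/

set_option autoImplicit false

namespace Crest.Agent.T145.FlF4

open Finset Nc

/-- polynomial decay with constants `C, κ` below the scale `L` -/
structure Dk (Λ : Lat) (C : ℕ) (κ : ℝ) (L : ℕ) : Prop where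
  one : 2 * Λ.rg + 2 ≤ C
  rate : ∀ r R : ℕ, 1 ≤ r → C * r ≤ R → C * R ≤ L → gam Λ r R ≤ 1 + C * ((r : ℝ) / R) ^ κ
  dec : ∀ (r a R : ℕ) (z : Pt) (X : Cfg Pt → ℝ), 1 ≤ r → C * r ≤ a → C * a ≤ R → C * R ≤ L →
    DepG (bl z r) X → In Λ z a X → ∀ m : Mdl Pt, Amb Λ m (bl z (R + Λ.rg)) →
      Ex (m.W 0) (fun s => |St Λ z R X s - Ex (m.W 0) X|) ≤ C * ((a : ℝ) / R) ^ κ * Nm Λ z a X ∧
      (∀ m' : Mdl Pt, Amb Λ m' (bl z (R + Λ.rg)) →
        |Ex (m.W 0) X - Ex (m'.W 0) X| ≤ C * ((a : ℝ) / R) ^ κ * Nm Λ z a X) ∧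
      (∀ R', R + Λ.rg ≤ R' →
        |Ex (m.W 0) X - EN Λ z R' X| ≤ C * ((a : ℝ) / R) ^ κ * Nm Λ z a X ∧
        Nm Λ z R' (fun s => St Λ z R X s - Ex (m.W 0) X) ≤ C * ((a : ℝ) / R) ^ κ * Nm Λ z a X) ∧
      ∀ (q : ℕ) (G : Cfg Pt → ℝ), C * a ≤ q → C * q ≤ R → Out (bl z R) G →
        Ig ((hole m (bl z q)).W 0) G →
        |Cv (m.W 0) X G| ≤ C * ((a : ℝ) / q) ^ κ * Nm Λ z a X *
          Ex ((hole m (bl z q)).W 0) fun s => |G s|

theorem cmp {C C' : ℕ} {κ κ' : ℝ} (hC : C ≤ C') (hκ : κ' ≤ κ) {a R : ℕ} (ha : 1 ≤ a)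
    (hR : a ≤ R) : (C : ℝ) * ((a : ℝ) / R) ^ κ ≤ C' * ((a : ℝ) / R) ^ κ' := by
  have h1 : (0 : ℝ) < a := by exact_mod_cast ha
  have h2 : (a : ℝ) ≤ R := by exact_mod_cast hR
  have h3 : (0 : ℝ) < (a : ℝ) / R := div_pos h1 (by linarith)
  exact mul_le_mul (by exact_mod_cast hC)
    (Real.rpow_le_rpow_of_exponent_ge h3 (div_le_one_of_le₀ h2 (by linarith)) hκ) (by positivity)
    (by positivity)

theorem dk (hR : RateStmt) (hP : PDecStmt) (F : Fa) {θ₀ : ℝ} (h : 0 < θ₀) :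
    ∃ (C : ℕ) (κ : ℝ), 0 < κ ∧ κ ≤ 1 ∧ ∀ Λ, F.Mem Λ → ∀ L, Stf Λ θ₀ L → Dk Λ C κ L := by
  obtain ⟨C₁, c₁, h1, H1⟩ := hR F θ₀ h
  obtain ⟨C₂, c₂, h2, H2⟩ := hP F θ₀ h
  set C := C₁ + C₂ + (2 * F.base.rg + 2) with hC
  have hκ : 0 < min (min c₁ c₂) 1 := lt_min (lt_min h1 h2) one_pos
  have k1 : min (min c₁ c₂) 1 ≤ c₁ := (min_le_left _ _).trans (min_le_left _ _)
  have k2 : min (min c₁ c₂) 1 ≤ c₂ := (min_le_left _ _).trans (min_le_right _ _)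
  have e1 : ∀ {a b : ℕ}, C * a ≤ b → C₁ * a ≤ b := fun h =>
    (Nat.mul_le_mul_right _ (by omega)).trans h
  have e2 : ∀ {a b : ℕ}, C * a ≤ b → C₂ * a ≤ b := fun h =>
    (Nat.mul_le_mul_right _ (by omega)).trans h
  have e3 : ∀ {a b : ℕ}, C * a ≤ b → a ≤ b := fun h =>
    (Nat.le_mul_of_pos_left _ (by omega)).trans h
  refine ⟨C, _, hκ, min_le_right _ _, fun Λ hΛ L hL => ⟨by rw [hΛ.rg_eq]; omega,
    fun r R hr h3 h4 => (H1 Λ hΛ L r R hL hr (e1 h3) (e1 h4)).trans ?_,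
    fun r a R z X hr h3 h4 h5 hX hI m hm => ?_⟩⟩
  · have := cmp (by omega : C₁ ≤ C) k1 hr (e3 h3)
    linarith
  obtain ⟨A1, A2, A3, A4⟩ := H2 Λ hΛ L r a R z X hL hr (e2 h3) (e2 h4) (e2 h5) hX hI m hm
  have hN := L37.Nm_nonneg hΛ.ok z a X
  have ha : 1 ≤ a := hr.trans (e3 h3)
  have b1 := mul_le_mul_of_nonneg_right (cmp (by omega : C₂ ≤ C) k2 ha (e3 h4)) hN
  refine ⟨A1.trans b1, fun m' hm' => (A2 m' hm').trans b1, fun R' hR' =>
    ⟨(A3 R' hR').1.trans b1, (A3 R' hR').2.trans b1⟩, fun q G h6 h7 hG hG' =>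
    (A4 q G (e2 h6) (e2 h7) hG hG').trans ?_⟩
  have hq : Λ.rg ≤ q := by
    have := hΛ.rg_eq
    have := (Nat.mul_le_mul_left C ha).trans h6
    omega
  have hh := hole_ca hΛ.ok hq (by
    have := hΛ.rg_eq
    have h8 : (2 * F.base.rg + 2) * q ≤ R := (Nat.mul_le_mul_right _ (by omega)).trans h7
    nlinarith) hm
  exact mul_le_mul_of_nonneg_right (mul_le_mul_of_nonneg_right
    (cmp (by omega : C₂ ≤ C) k2 ha (e3 h6)) hN)
    (Ex_nonneg (hh.1.wt hh.2 0).nonneg fun _ _ => abs_nonneg _)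

variable {Λ : Lat} {m : Mdl Pt} {z : Pt} {q r c a R : ℕ} {F G : Cfg Pt → ℝ} {B D : Finset Pt}
  {C L : ℕ} {κ : ℝ}

theorem Dk.le (hD : Dk Λ C κ L) {a b : ℕ} (h : C * a ≤ b) (ha : 1 ≤ a) : 2 * a + 2 * Λ.rg ≤ b := by
  have h1 : (2 * Λ.rg + 2) * a ≤ b := (Nat.mul_le_mul_right _ hD.one).trans h
  nlinarith

theorem Dk.anti (hD : Dk Λ C κ L) {L' : ℕ} (h : L' ≤ L) : Dk Λ C κ L' :=
  ⟨hD.one, fun r R h1 h2 h3 => hD.rate r R h1 h2 (h3.trans h),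
    fun r a R z X h1 h2 h3 h4 => hD.dec r a R z X h1 h2 h3 (h4.trans h)⟩

/-- every annulus containing one of ratio `≥ C` has a bounded cross ratio -/
theorem Dk.gam_le (hΛ : Λ.Ok) (hD : Dk Λ C κ L) (hκ : 0 ≤ κ) {r' c' : ℕ} (hr : 1 ≤ r) (h : C * r ≤ c)
    (hL : C * c ≤ L) (h1 : r' ≤ r) (h2 : c ≤ c') :
    gam Λ r' c' ≤ 1 + C * ((r : ℝ) / c) ^ κ ∧ gam Λ r' c' ≤ 1 + C := by
  have h3 := hD.le h hr
  have h4 := (gam_anti hΛ h1 h2 (by omega)).trans (hD.rate r c hr h hL)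
  have h5 : ((r : ℝ) / c) ^ κ ≤ 1 := Real.rpow_le_one (by positivity)
    (div_le_one_of_le₀ (by exact_mod_cast (by omega : r ≤ c)) (by positivity)) hκ
  exact ⟨h4, h4.trans (by have : (0 : ℝ) ≤ C := by positivity
                          nlinarith)⟩

section pd
variable (hΛ : Λ.Ok) (hD : Dk Λ C κ L) (h : Ir Λ z q r c F) (hr : C * (r + Λ.rg) ≤ a) (hc : c ≤ a)
  (hR : C * a ≤ R) (hL : C * R ≤ L) (hm : Amb Λ m (bl z (R + Λ.rg)))
include hΛ hD h hr hc hR hm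

theorem pd_aux : 2 * a + 2 * Λ.rg ≤ R ∧ In Λ z a (St Λ z q F) ∧
    Nm Λ z a (St Λ z q F) ≤ gam Λ r c * nu Λ z q c F ∧ Ig (m.W 0) F ∧
    Ex (m.W 0) (St Λ z q F) = Ex (m.W 0) F := by
  have h0 := hΛ.one_le_rg
  have h2 := h.St hΛ
  have h3 := Dc15.nm_le d1Stmt lgeo hΛ h2.rc hc h2.dep h2.ig
  have h4 := h.qr
  have h5 := h.rc
  have h1 := hD.le hR (by omega)
  have hmq : Amb Λ m (bl z q) := amb_mono hm (bl_mono z (by omega))
  have h6 := (fus0 hΛ hmq.sub h (amb_mono hm (bl_mono z (by omega))) subset_rfl).1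
  exact ⟨h1, h3.1, h3.2, h6, by rw [St_cE hΛ hmq]; exact ex_cE hm.ctr hm.anch hmq.sub h6⟩

include hL

/-- **(C)** in the ambient model -/
theorem pd_nc (hB : B ⊆ m.A) (hRB : bl z R ⊆ B) :
    nc m B (fun s => F s - Ex (m.W 0) F) ≤
      C * ((a : ℝ) / R) ^ κ * (gam Λ r c * nu Λ z q c F) := by
  obtain ⟨h1, h3, h4, h5, h6⟩ := pd_aux hΛ hD h hr hc hR hm
  have h0 := hΛ.one_le_rg
  have h7 := (hD.dec _ a R z _ (by omega) hr hR hL (h.St hΛ).dep h3 m hm).1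
  have hW := hm.ctr.wt hm.anch 0
  have h8 := h.qr
  have h9 := h.rc
  have hmR : Amb Λ m (bl z R) := amb_mono hm (bl_mono z (by omega))
  have hqR : bl z q ⊆ bl z R := bl_mono z (by omega)
  refine (nc_anti hm.ctr hm.anch hB hRB (h5.sub (hW.ig_const _))).trans (le_trans (le_of_eq ?_)
    (h7.trans (mul_le_mul_of_nonneg_left h4 (by positivity))))
  refine Ex_congr fun s hs => ?_
  rw [h6, St_cE hΛ hmR, St_cE hΛ (amb_mono hmR hqR), cE_cE_supp hm.ctr hm.anch hmR.sub hqR h5 hs,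
    Mdl.cE_def, (wt_fibre hm.ctr hm.anch hmR.sub s).ex_sub_const (Mdl.ig_fib' hmR.sub hs h5)]
  rfl

/-- the mean hardly depends on the ambient model -/
theorem pd_amb {m' : Mdl Pt} (hm' : Amb Λ m' (bl z (R + Λ.rg))) :
    |Ex (m.W 0) F - Ex (m'.W 0) F| ≤ C * ((a : ℝ) / R) ^ κ * (gam Λ r c * nu Λ z q c F) := by
  obtain ⟨h1, h3, h4, h5, h6⟩ := pd_aux hΛ hD h hr hc hR hm
  have h0 := hΛ.one_le_rg
  rw [← h6, ← (pd_aux hΛ hD h hr hc hR hm').2.2.2.2]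
  exact ((hD.dec _ a R z _ (by omega) hr hR hL (h.St hΛ).dep h3 m hm).2.1 m' hm').trans
    (mul_le_mul_of_nonneg_left h4 (by positivity))

/-- **(C)** in the norm; the constant is the mean in any ambient model -/
theorem pd_nu {Q P : ℕ} (hQ : R ≤ Q) (hP : Q + Λ.rg ≤ P) :
    nu Λ z Q P (fun s => F s - Ex (m.W 0) F) ≤
      C * ((a : ℝ) / R) ^ κ * (gam Λ r c * nu Λ z q c F) := by
  obtain ⟨h1, h3, h4, h5, h6⟩ := pd_aux hΛ hD h hr hc hR hm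
  have h0 := hΛ.one_le_rg
  have h7 := ((hD.dec _ a R z _ (by omega) hr hR hL (h.St hΛ).dep h3 m hm).2.2.1 P (by omega)).2
  have h8 := h.qr
  have h9 := h.rc
  have hF : DepG (bl z P) F := h.dep.mono (bl_mono z (by omega))
  have hI : In Λ z P F := (nu_box hΛ h8 h9 (by omega) h.dep h.ig).1
  have hb := amb_bx (z := z) hΛ (by omega : R + Λ.rg ≤ P)
  have hW := hb.ctr.wt hb.anch 0
  have hd : DepG (bl z P) fun s => F s - Ex (m.W 0) F := hF.sub (DepG.const _ _)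
  have hIb := (In_bx hF).1 hI
  have hqR : bl z q ⊆ bl z R := bl_mono z (by omega)
  refine (nu_anti hΛ hP hQ hd ((In_bx hd).2 (hIb.sub (hW.ig_const _)))).trans (le_trans (le_of_eq ?_)
    (h7.trans (mul_le_mul_of_nonneg_left h4 (by positivity))))
  rw [nu_eq hΛ hd (by omega), Nm_bx ((depG_St hΛ (depG_St hΛ hF (by omega)) (by omega)).sub
    (DepG.const _ _))]
  refine Ex_congr fun s hs => ?_
  rw [h6, St_cE hΛ hb, St_cE hΛ (amb_mono hb hqR), cE_cE_supp hb.ctr hb.anch hb.sub hqR hIb hs,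
    Mdl.cE_def, (wt_fibre hb.ctr hb.anch hb.sub s).ex_sub_const (Mdl.ig_fib' hb.sub hs hIb)]
  rfl

/-- the mean in the free box -/
theorem pd_EN {P : ℕ} (hP : R + Λ.rg ≤ P) :
    |Ex (m.W 0) F - EN Λ z P F| ≤ C * ((a : ℝ) / R) ^ κ * (gam Λ r c * nu Λ z q c F) := by
  obtain ⟨h1, h3, h4, h5, h6⟩ := pd_aux hΛ hD h hr hc hR hm
  have h0 := hΛ.one_le_rg
  have h8 := h.qr
  have h9 := h.rc
  have h7 := ((hD.dec _ a R z _ (by omega) hr hR hL (h.St hΛ).dep h3 m hm).2.2.1 P hP).1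
  have hF : DepG (bl z P) F := h.dep.mono (bl_mono z (by omega))
  have hI : In Λ z P F := (nu_box hΛ h8 h9 (by omega) h.dep h.ig).1
  have hb := amb_bx (z := z) hΛ (by omega : q + Λ.rg ≤ P)
  have e : EN Λ z P (St Λ z q F) = EN Λ z P F := by
    rw [EN_bx hF, EN_bx (depG_St hΛ hF (by omega)), St_cE hΛ hb]
    exact ex_cE hb.ctr hb.anch hb.sub ((In_bx hF).1 hI)
  rw [← h6, ← e]
  exact h7.trans (mul_le_mul_of_nonneg_left h4 (by positivity))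

/-- decay of covariances -/
theorem pd_cov {p : ℕ} (hp : C * a ≤ p) (hpR : C * p ≤ R) (hG : Out (bl z R) G)
    (hI : Ig ((hole m (bl z p)).W 0) G) (hFG : Ig (m.W 0) fun s => F s * G s) :
    |Cv (m.W 0) F G| ≤ C * ((a : ℝ) / p) ^ κ * (gam Λ r c * nu Λ z q c F) *
      Ex ((hole m (bl z p)).W 0) fun s => |G s| := by
  obtain ⟨h1, h3, h4, h5, h6⟩ := pd_aux hΛ hD h hr hc hR hm
  have h0 := hΛ.one_le_rg
  have h8 := h.qr
  have h9 := h.rc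
  have h7 := (hD.dec _ a R z _ (by omega) hr hR hL (h.St hΛ).dep h3 m hm).2.2.2 p G hp hpR hG hI
  have hp1 := hD.le hp (by omega)
  have hp2 := hD.le hpR (by omega)
  have hh := hole_ca hΛ (by omega : Λ.rg ≤ p) (by omega) hm
  have hmq : Amb Λ m (bl z q) := amb_mono hm (bl_mono z (by omega))
  have hGq : Out (bl z q) G := fun s s' e => hG s s' fun x hx => e x fun hx' => hx (bl_mono z (by omega) hx')
  have e : Cv (m.W 0) (St Λ z q F) G = Cv (m.W 0) F G := by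
    rw [Cv, Cv, h6, ← ex_cE hm.ctr hm.anch hmq.sub hFG, St_cE hΛ hmq]
    simp only [mul_comm _ (G _)]
    rw [show (m.cE (bl z q) fun s => G s * F s) = fun s => G s * m.cE (bl z q) F s from
      funext fun s => Mdl.cE_out_mul hGq F s]
  rw [← e]
  exact h7.trans (mul_le_mul_of_nonneg_right (mul_le_mul_of_nonneg_left h4 (by positivity))
    (Ex_nonneg (hh.1.wt hh.2 0).nonneg fun _ _ => abs_nonneg _))

end pd

end Crest.Agent.T145.FlF4
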