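import Mathlib

/-!
# Row 145 (helper94): the local expansion LOC, abstract form (outside-in double telescoping)

`P j = Ψ (U_{≥ j})`, `D l j = ∂_l Ψ (U_{≥ j})`, `X l j` = the piece of the slot `l` at level `j`.
`nf` is the final seminorm (ambient expectation, with any outside factor), `ν j` the norm at level `j`.
-/

set_option autoImplicit false

noncomputable section

namespace Crest.Agent.T145.F94

open Finset

/-- a seminorm on a subalgebra-like class -/
structure Sn {E : Type*} [CommRing E] [Algebra ℝ E] (I : E → Prop) (N : E → ℝ) : Prop where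
  zero : I 0
  add : ∀ H G, I H → I G → I (H + G)
  smul : ∀ (c : ℝ) H, I H → I (c • H)
  N_add : ∀ H G, I H → I G → N (H + G) ≤ N H + N G
  N_smul : ∀ (c : ℝ) H, I H → N (c • H) ≤ |c| * N H

namespace Sn
variable {E : Type*} [CommRing E] [Algebra ℝ E] {I : E → Prop} {N : E → ℝ} (h : Sn I N)
include h

theorem neg {H : E} (hH : I H) : I (-H) := by simpa using h.smul (-1) H hH
theorem sub {H G : E} (hH : I H) (hG : I G) : I (H - G) := by
  rw [sub_eq_add_neg]; exact h.add _ _ hH (h.neg hG)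
theorem sum {ι : Type*} (T : Finset ι) {H : ι → E} (hH : ∀ i ∈ T, I (H i)) : I (∑ i ∈ T, H i) :=
  sum_induction H I (fun _ _ => h.add _ _) h.zero hH
theorem N_neg {H : E} (hH : I H) : N (-H) ≤ N H := by simpa using h.N_smul (-1) H hH
theorem N_zero : N 0 ≤ 0 := by simpa using h.N_smul 0 0 h.zero
theorem N_sub {H G : E} (hH : I H) (hG : I G) : N (H - G) ≤ N H + N G := by
  rw [sub_eq_add_neg]
  exact (h.N_add _ _ hH (h.neg hG)).trans (by gcongr; exact h.N_neg hG)

theorem N_sum {ι : Type*} (T : Finset ι) {H : ι → E} (hH : ∀ i ∈ T, I (H i)) :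
    N (∑ i ∈ T, H i) ≤ ∑ i ∈ T, N (H i) := by
  classical
  induction T using Finset.induction_on with
  | empty => simpa using h.N_zero
  | insert a T ha ih =>
    rw [sum_insert ha, sum_insert ha]
    have h1 := fun i hi => hH i (mem_insert_of_mem hi)
    exact (h.N_add _ _ (hH a (mem_insert_self _ _)) (h.sum T h1)).trans (by gcongr; exact ih h1)

theorem N_sum_le {ι : Type*} (T : Finset ι) {H : ι → E} {a : ι → ℝ} (hH : ∀ i ∈ T, I (H i))
    (ha : ∀ i ∈ T, N (H i) ≤ a i) : N (∑ i ∈ T, H i) ≤ ∑ i ∈ T, a i :=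
  (h.N_sum T hH).trans (sum_le_sum ha)

end Sn

theorem tel_Ico {E : Type*} [AddCommGroup E] (D : ℕ → E) {a b : ℕ} (hab : a ≤ b) :
    D a = D b + ∑ i ∈ Ico a b, (D i - D (i + 1)) := by
  induction b, hab using Nat.le_induction with
  | base => simp
  | succ b hb ih => rw [sum_Ico_succ_top hb]; conv_lhs => rw [ih]
                    abel

/-- LOC.  `g l j i` bounds the final norm of `(F X_j - m_j) (D_i - D_{i+1})`, `g₀ l j` that of
`(F X_j - m_j) D_K`, `a j` that of `F` times the Taylor remainder, `e l i` that of `D_i - D_{i+1}`. -/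
theorem loc {E ι : Type*} [CommRing E] [Algebra ℝ E] [Fintype ι] {I : E → Prop} {nf : E → ℝ}
    (h : Sn I nf) (F : E) (P : ℕ → E) (D X : ι → ℕ → E) (m : ι → ℕ → ℝ) {J K : ℕ} (hJ : J + 1 ≤ K)
    (a : ℕ → ℝ) (e g₀ : ι → ℕ → ℝ) (g : ι → ℕ → ℕ → ℝ)
    (ha : ∀ j < J, I (F * (P j - P (j + 1) - ∑ l, D l (j + 2) * X l j)) ∧
      nf (F * (P j - P (j + 1) - ∑ l, D l (j + 2) * X l j)) ≤ a j)
    (he : ∀ l, ∀ i ≤ J, I (D l i - D l (i + 1)) ∧ nf (D l i - D l (i + 1)) ≤ e l i)
    (hg₀ : ∀ l, ∀ j < J, I ((F * X l j - algebraMap ℝ E (m l j)) * D l K) ∧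
      nf ((F * X l j - algebraMap ℝ E (m l j)) * D l K) ≤ g₀ l j)
    (hg : ∀ l, ∀ j < J, ∀ i ∈ Ico (j + 2) K,
      I ((F * X l j - algebraMap ℝ E (m l j)) * (D l i - D l (i + 1))) ∧
      nf ((F * X l j - algebraMap ℝ E (m l j)) * (D l i - D l (i + 1))) ≤ g l j i) :
    I (F * P 0 - F * P J - ∑ l, (∑ j ∈ range J, m l j) • D l 0) ∧
    nf (F * P 0 - F * P J - ∑ l, (∑ j ∈ range J, m l j) • D l 0) ≤
      ∑ j ∈ range J, (a j + ∑ l, ((g₀ l j + ∑ i ∈ Ico (j + 2) K, g l j i) +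
        |m l j| * ∑ i ∈ range (j + 2), e l i)) := by
  set G : ι → ℕ → E := fun l j => F * X l j - algebraMap ℝ E (m l j) with hG
  set T : ℕ → E := fun j => F * (P j - P (j + 1) - ∑ l, D l (j + 2) * X l j) +
    ∑ l, ((G l j * D l K + ∑ i ∈ Ico (j + 2) K, G l j * (D l i - D l (i + 1))) -
      m l j • ∑ i ∈ range (j + 2), (D l i - D l (i + 1))) with hT
  have eT : ∀ j < J, T j = F * (P j - P (j + 1)) - ∑ l, m l j • D l 0 := by
    intro j hj
    have e1 : ∀ l, G l j * D l K + ∑ i ∈ Ico (j + 2) K, G l j * (D l i - D l (i + 1)) =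
        G l j * D l (j + 2) := fun l => by
      rw [← mul_sum, ← mul_add, ← tel_Ico (D l) (show j + 2 ≤ K by omega)]
    have e2 : ∀ l, ∑ i ∈ range (j + 2), (D l i - D l (i + 1)) = D l 0 - D l (j + 2) := fun l => by
      rw [range_eq_Ico, tel_Ico (D l) (Nat.zero_le (j + 2))]; abel
    simp only [hT, e1, e2]
    simp only [hG]
    rw [mul_sub F (P j - P (j + 1)), mul_sum, sub_add, ← sum_sub_distrib]
    congr 1
    refine sum_congr rfl fun l _ => ?_
    simp only [Algebra.smul_def]; ring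
  have e : F * P 0 - F * P J - ∑ l, (∑ j ∈ range J, m l j) • D l 0 = ∑ j ∈ range J, T j := by
    rw [sum_congr rfl fun j hj => eT j (mem_range.1 hj), sum_sub_distrib, ← mul_sum, sum_comm,
      range_eq_Ico, tel_Ico P (Nat.zero_le J)]
    simp only [← sum_smul]
    rw [← tel_Ico P (Nat.zero_le J)]
    congr 1
    rw [← mul_sub]; congr 1
    conv_lhs => rw [tel_Ico P (Nat.zero_le J)]
    abel
  have iA : ∀ l, ∀ j < J, I (G l j * D l K + ∑ i ∈ Ico (j + 2) K, G l j * (D l i - D l (i + 1))) :=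
    fun l j hj => h.add _ _ (hg₀ l j hj).1 (h.sum _ fun i hi => (hg l j hj i hi).1)
  have iB : ∀ l, ∀ j < J, I (∑ i ∈ range (j + 2), (D l i - D l (i + 1))) :=
    fun l j hj => h.sum _ fun i hi => (he l i (by have := mem_range.1 hi; omega)).1
  have iC : ∀ l, ∀ j < J, I ((G l j * D l K + ∑ i ∈ Ico (j + 2) K, G l j * (D l i - D l (i + 1))) -
      m l j • ∑ i ∈ range (j + 2), (D l i - D l (i + 1))) :=
    fun l j hj => h.sub (iA l j hj) (h.smul _ _ (iB l j hj))
  have iT : ∀ j ∈ range J, I (T j) := fun j hj =>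
    h.add _ _ (ha j (mem_range.1 hj)).1 (h.sum _ fun l _ => iC l j (mem_range.1 hj))
  rw [e]
  refine ⟨h.sum _ iT, h.N_sum_le _ iT fun j hj => ?_⟩
  have hj := mem_range.1 hj
  refine (h.N_add _ _ (ha j hj).1 (h.sum _ fun l _ => iC l j hj)).trans (add_le_add (ha j hj).2 ?_)
  refine h.N_sum_le _ (fun l _ => iC l j hj) fun l _ => ?_
  refine (h.N_sub (iA l j hj) (h.smul _ _ (iB l j hj))).trans (add_le_add ?_ ?_)
  · exact (h.N_add _ _ (hg₀ l j hj).1 (h.sum _ fun i hi => (hg l j hj i hi).1)).trans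
      (add_le_add (hg₀ l j hj).2
        (h.N_sum_le _ (fun i hi => (hg l j hj i hi).1) fun i hi => (hg l j hj i hi).2))
  · refine (h.N_smul _ _ (iB l j hj)).trans (mul_le_mul_of_nonneg_left ?_ (abs_nonneg _))
    exact h.N_sum_le _ (fun i hi => (he l i (by have := mem_range.1 hi; omega)).1)
      fun i hi => (he l i (by have := mem_range.1 hi; omega)).2

end Crest.Agent.T145.F94
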