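import Crest.Agent.T145.FlFus_4
import Crest.Agent.T145.FlLocA_94

/-!
# Row 145 (helper94): the local expansion LOC on the lattice, abstract levels

Levels: `a j` (insertion radius), `w a j` (norm radius), moments are read off `bl z (w² a j)`.
-/

set_option autoImplicit false

noncomputable section

namespace Crest.Agent.T145.F94

open Finset Nc FlF4

variable {Λ : Lat} {m : Mdl Pt} {z : Pt} {F G Y Z : Cfg Pt → ℝ} {D : Finset Pt}

/-- an outside factor of size `N` -/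
def Dm (Λ : Lat) (m : Mdl Pt) (z : Pt) (ρ C : ℕ) (G : Cfg Pt → ℝ) (N : ℝ) : Prop :=
  Out (bl z ρ) G ∧ ∀ Y : Cfg Pt → ℝ, DepG (bl z ρ) Y → In Λ z C Y →
    Ig (m.W 0) (fun s => Y s * G s) ∧ Ex (m.W 0) (fun s => |Y s * G s|) ≤ N * Nm Λ z C Y

/-- the free box itself -/
theorem dm_bx {ρ C : ℕ} (h : ρ ≤ C) : Dm Λ (bx Λ z C) z ρ C (fun _ => 1) 1 :=
  ⟨Out.const _ _, fun Y hY hI => by
    have hd := hY.mono (bl_mono z h)
    simp only [mul_one, one_mul]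
    exact ⟨(In_bx hd).1 hI, (Nm_bx hd).ge⟩⟩

/-- a factor read off a larger ball -/
theorem dm_hole (hΛ : Λ.Ok) {ρ C R : ℕ} (h1 : ρ + 2 * Λ.rg ≤ C) (h2 : C + 2 * Λ.rg ≤ R)
    (hm : Amb Λ m (bl z (R + Λ.rg))) (hG : Out (bl z R) G) (hI : Ig ((hole m (bl z C)).W 0) G) :
    Dm Λ m z ρ C G (gam Λ ρ C * gam Λ C R * Ex ((hole m (bl z C)).W 0) fun s => |G s|) :=
  ⟨hG.mono (bl_mono z (by omega)), fun Y hY hIY => by
    have := ((ld1 Λ hΛ).2 z ρ C R Y h1 h2 (hY.mono (bl_mono z (by omega))) hIY).2.2.2.2 m G hm hG hI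
    exact ⟨this.1, this.2.2.2.trans_eq (by ring)⟩⟩

/-- domination -/
theorem Dm.dom {ρ C : ℕ} {N : ℝ} (hD : Dm Λ m z ρ C G N) (hm : Amb Λ m (bl z ρ))
    (hY : DepG (bl z ρ) Y) (hI : In Λ z C Y) (hZ : ∀ s, |Z s| ≤ |Y s|) :
    Ig (m.W 0) (fun s => Z s * G s) ∧ nc m (bl z ρ) (fun s => Z s * G s) ≤ N * Nm Λ z C Y := by
  have h := hD.2 Y hY hI
  have h1 := nc_le_ex hm.ctr hm.anch hm.sub (H := fun s => Z s * G s)
    (h.1.abs (hm.ctr.wt hm.anch 0).nonneg) fun s _ => by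
      rw [abs_mul, abs_mul]; exact mul_le_mul_of_nonneg_right (hZ s) (abs_nonneg _)
  exact ⟨h1.1, h1.2.trans h.2⟩

/-- one insertion, one moment, in the free box -/
theorem box1 (hΛ : Λ.Ok) {q r c R C : ℕ} {y : ℝ} (h : Ir Λ z q r c F) (hR : c + 2 * Λ.rg ≤ R)
    (hC : R + 2 * Λ.rg ≤ C) (hY : Bd Λ D Y y) (h0 : ∀ s, 0 ≤ Y s) (hDC : D ⊆ bl z C)
    (hd : Disjoint (bl z c) D) (hO : Out (bl z R) Y) (hYd : DepG (bl z C) Y) :
    In Λ z C (fun s => F s * Y s) ∧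
      Nm Λ z C (fun s => F s * Y s) ≤ gam Λ r c * gam Λ c R * Nm Λ z c F * y := by
  have h1 := h.rc
  have hd' : DepG (bl z C) fun s => F s * Y s := (h.dep.mono (bl_mono z (by omega))).mul hYd
  rw [In_bx hd', Nm_bx hd']
  simpa using holes ({()} : Finset Unit) (z := fun _ => z) (q := fun _ => q) (r := fun _ => r)
    (c := fun _ => c) (R := fun _ => R) (F := fun _ => F) hΛ hY h0 ((lat_bx hΛ z C).mono hDC)
    (fun _ _ _ _ h => absurd rfl h) fun _ _ => ⟨h, hR, amb_bx hΛ (by omega), hO, hd⟩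

theorem Dm.rep (hΛ : Λ.Ok) {ρ C q r c : ℕ} {N t : ℝ} (hD : Dm Λ m z ρ C G N) (hm : Amb Λ m (bl z ρ))
    (h : Ir Λ z q r c F) (hρ : q ≤ ρ) (hZo : Out (bl z q) Z)
    (key : ∀ H : Cfg Pt → ℝ, Ir Λ z q r c H → Ig (m.W 0) (fun s => H s * Z s * G s) ∧
      nc m (bl z ρ) (fun s => H s * Z s * G s) ≤ t * Nm Λ z c H) :
    Ig (m.W 0) (fun s => F s * Z s * G s) ∧
      nc m (bl z ρ) (fun s => F s * Z s * G s) ≤ t * nu Λ z q c F := by
  have h1 := (key F h).1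
  refine ⟨h1, le_trans (le_of_eq ?_) (key _ (h.St hΛ)).2⟩
  have hqρ : bl z q ⊆ bl z ρ := bl_mono z hρ
  have hO' : Out (bl z q) fun s => Z s * G s := hZo.mul (hD.1.mono hqρ)
  rw [← nc_cE hm.ctr hm.anch hm.sub hqρ h1, St_cE hΛ (amb_mono hm hqρ)]
  congr 1
  funext s
  simp only [mul_assoc]
  rw [Mdl.cE_mul_out hO']

/-- fusion in the final norm -/
theorem Dm.fus (hΛ : Λ.Ok) {ρ C q r c R : ℕ} {N y : ℝ} (hD : Dm Λ m z ρ C G N) (hN : 0 ≤ N)
    (hm : Amb Λ m (bl z ρ)) (h : Ir Λ z q r c F) (hR : c + 2 * Λ.rg ≤ R) (hC : R + 2 * Λ.rg ≤ C)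
    (hρ : r + Λ.rg ≤ ρ) (hρC : ρ ≤ C) (hY : Bd Λ D Y y) (hDC : D ⊆ bl z C)
    (hd : Disjoint (bl z c) D) (hO : Out (bl z R) Y) (hYd : DepG (bl z ρ) Y)
    (hZo : Out (bl z q) Z) (hZ : ∀ s, |Z s| ≤ Y s) :
    Ig (m.W 0) (fun s => F s * Z s * G s) ∧ nc m (bl z ρ) (fun s => F s * Z s * G s) ≤
      N * (gam Λ r c * gam Λ c R * y) * nu Λ z q c F := by
  have h0 : ∀ s, 0 ≤ Y s := fun s => (abs_nonneg _).trans (hZ s)
  have hq := h.qr
  refine hD.rep hΛ hm h (by omega) hZo fun H hH => ?_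
  have h1 := box1 hΛ hH hR hC hY h0 hDC hd hO (hYd.mono (bl_mono z hρC))
  have h2 := hD.dom hm ((hH.dep.mono (bl_mono z hρ)).mul hYd) h1.1 (Z := fun s => H s * Z s)
    fun s => by
      rw [abs_mul, abs_mul, abs_of_nonneg (h0 s)]
      exact mul_le_mul_of_nonneg_left (hZ s) (abs_nonneg _)
  exact ⟨h2.1, h2.2.trans ((mul_le_mul_of_nonneg_left h1.2 hN).trans_eq (by ring))⟩

/-- a bounded multiplier -/
theorem Dm.fus0 (hΛ : Λ.Ok) {ρ C q r c : ℕ} {N : ℝ} (hD : Dm Λ m z ρ C G N) (hN : 0 ≤ N)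
    (hm : Amb Λ m (bl z ρ)) (h : Ir Λ z q r c F) (hC : c ≤ C) (hρ : r + Λ.rg ≤ ρ)
    (hZo : Out (bl z q) Z) (hZ : ∀ s, |Z s| ≤ 1) :
    Ig (m.W 0) (fun s => F s * Z s * G s) ∧ nc m (bl z ρ) (fun s => F s * Z s * G s) ≤
      N * gam Λ r c * nu Λ z q c F := by
  have hq := h.qr
  refine hD.rep hΛ hm h (by omega) hZo fun H hH => ?_
  have h1 := Dc15.nm_le d1Stmt lgeo hΛ hH.rc hC hH.dep hH.ig
  have h2 := hD.dom hm (hH.dep.mono (bl_mono z hρ)) h1.1 (Z := fun s => H s * Z s) fun s => by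
    rw [abs_mul]; exact mul_le_of_le_one_right (abs_nonneg _) (hZ s)
  exact ⟨h2.1, h2.2.trans ((mul_le_mul_of_nonneg_left h1.2 hN).trans_eq (by ring))⟩

/-- Cauchy–Schwarz in the final norm -/
theorem Dm.cs (hΛ : Λ.Ok) {ρ C : ℕ} {N y n : ℝ} (hD : Dm Λ m z ρ C G N) (hN : 0 ≤ N)
    (hm : Amb Λ m (bl z ρ)) (hρC : ρ ≤ C) (hT : Tame F) (hF : DepG (bl z ρ) F) (hn : 0 ≤ n)
    (h0 : Nm Λ z C (fun s => F s ^ 2) ≤ n ^ 2) (hy : 0 ≤ y)
    (hY : Bd Λ (bl z C) (fun s => Y s ^ 2) (y ^ 2)) (hYd : DepG (bl z ρ) Y) (hZ : ∀ s, |Z s| ≤ Y s) :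
    Ig (m.W 0) (fun s => F s * Z s * G s) ∧
      nc m (bl z ρ) (fun s => F s * Z s * G s) ≤ N * (n * y) := by
  have hY0 : ∀ s, 0 ≤ Y s := fun s => (abs_nonneg _).trans (hZ s)
  have hd := hF.mul hYd
  have hd' := hd.mono (bl_mono z hρC)
  have hb := lat_bx hΛ z C
  have hW := hb.cen.nonneg
  have b1 := hY _ hb
  have b2 : Ig ((bx Λ z C).W 0) fun s => F s ^ 2 := hb.cen.ig (hT.pow 2)
  rw [Nm_bx ((hF.mono (bl_mono z hρC)).comp (· ^ 2))] at h0
  simp only [abs_pow] at h0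
  have b5 : Ig ((bx Λ z C).W 0) fun s => |F s| ^ 2 := by simpa only [sq_abs] using b2
  have h2 := hD.dom hm hd ((In_bx hd').2 (Ig.mul_of_sq hW b2 b1.1)) (Z := fun s => F s * Z s)
    fun s => by
      rw [abs_mul, abs_mul, abs_of_nonneg (hY0 s)]
      exact mul_le_mul_of_nonneg_left (hZ s) (abs_nonneg _)
  refine ⟨h2.1, h2.2.trans (mul_le_mul_of_nonneg_left ?_ hN)⟩
  rw [Nm_bx hd']
  simp only [abs_mul, abs_of_nonneg (hY0 _)]
  refine (le_abs_self _).trans ((abs_Ex_mul_le hW b5 b1.1).trans ?_)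
  refine (mul_le_mul (Real.sqrt_le_sqrt h0) (Real.sqrt_le_sqrt b1.2) (Real.sqrt_nonneg _)
    (Real.sqrt_nonneg _)).trans_eq ?_
  rw [Real.sqrt_sq hn, Real.sqrt_sq hy]

theorem cos_rem (y x x' : ℝ) :
    |Real.cos (y + x' + x) - Real.cos (y + x') - -Real.sin y * x| ≤ |x| * (|x| + |x'|) := by
  have h1 : ∀ t, HasDerivAt (fun t => Real.cos (y + x' + t) + Real.sin y * t)
      (Real.sin y - Real.sin (y + x' + t)) t := fun t => by
    have := (((hasDerivAt_id' t).const_add (y + x')).cos).add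
      ((hasDerivAt_id' t).const_mul (Real.sin y))
    exact this.congr_deriv (by ring)
  have h2 := Convex.norm_image_sub_le_of_norm_hasDerivWithin_le (s := Set.uIcc 0 x)
    (f := fun t => Real.cos (y + x' + t) + Real.sin y * t) (C := |x| + |x'|)
    (fun t _ => (h1 t).hasDerivWithinAt) (fun t ht => by
      have h3 := Real.abs_sin_sub_sin_le y (y + x' + t)
      have h4 : |t| ≤ |x| := by
        simpa using Set.abs_sub_left_of_mem_uIcc ht
      rw [show y - (y + x' + t) = -(x' + t) by ring, abs_neg] at h3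
      exact h3.trans ((abs_add_le _ _).trans (by linarith))) (convex_uIcc _ _)
    Set.left_mem_uIcc Set.right_mem_uIcc
  simp only [Real.norm_eq_abs, add_zero, mul_zero, sub_zero] at h2
  rw [mul_comm |x|]
  convert h2 using 2; ring

theorem f2_ed {ed ed' : Finset (Pt × Pt)} {f : Pt → ℝ} {n : ℝ} (h : F2 ed f n) (hE : ed ⊆ ed') :
    F2 ed' f n :=
  let ⟨φ, h1, h2⟩ := h
  ⟨fun e => ind (e ∈ ed) * φ e, by rw [dv_ind hE, h1], by rwa [sum_ind_sq hE]⟩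

/-- the levels; `j₀ ≤ 1` is the first level whose piece is read off `bl z (w² a j)` -/
structure Lev (Λ : Lat) (z : Pt) (w : ℕ) (a : ℕ → ℕ) (j₀ K : ℕ) (D : ℕ → Finset Pt) (f : ℕ → Pt → ℝ)
    (x : ℕ → ℝ) : Prop where
  j1 : j₀ ≤ 1
  w2 : 2 ≤ w
  rg : 2 * Λ.rg ≤ a 0
  mono : Monotone a
  ba : ∀ j < K, w * (w * a j) + 2 * Λ.rg ≤ a (j + 2)
  top : a K + Λ.rg ≤ a (K + 1)
  g1 : ∀ j ≤ K, gam Λ (a j) (w * a j) ≤ 2
  g2 : ∀ j < K, gam Λ (w * a j) (w * (w * a j)) ≤ 2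
  sub : ∀ j < K, D j ⊆ bl z (a (j + 2))
  disj : ∀ j, j₀ ≤ j → j < K → Disjoint (bl z (w * (w * a j))) (D j)
  x0 : ∀ j, 0 ≤ x j
  fl : ∀ j < K, F2 (Λ.edI (D j)) (f j) (x j ^ 2)

namespace Lev
variable {w j₀ K : ℕ} {a : ℕ → ℕ} {D : ℕ → Finset Pt} {f : ℕ → Pt → ℝ} {x : ℕ → ℝ}
  (h : Lev Λ z w a j₀ K D f x)
include h

theorem ac (j : ℕ) : a j + 2 * Λ.rg ≤ w * a j ∧ w * a j + 2 * Λ.rg ≤ w * (w * a j) := by
  have h1 := h.rg.trans (h.mono (Nat.zero_le j))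
  have h2 := Nat.mul_le_mul_right (a j) h.w2
  have h3 := Nat.mul_le_mul_right (w * a j) h.w2
  omega

theorem bm {i j : ℕ} (hij : i ≤ j) : bl z (w * (w * a i)) ⊆ bl z (w * (w * a j)) :=
  bl_mono z (Nat.mul_le_mul_left _ (Nat.mul_le_mul_left _ (h.mono hij)))

theorem dep {j k : ℕ} (hj : j < K) (hk : j + 2 ≤ k) : DepG (bl z (a k)) fun s => pr (f j) s :=
  (depG_flow (h.fl j hj)).mono ((h.sub j hj).trans (bl_mono z (h.mono hk)))

theorem out {i j : ℕ} (hi : j₀ ≤ i) (hij : i ≤ j) (hj : j < K) :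
    Out (bl z (w * (w * a i))) fun s => pr (f j) s :=
  (depG_flow (h.fl j hj)).dep.out ((h.disj j (by omega) hj).symm.mono_right (h.bm hij))

/-- fusion at the level `j` against a moment read off `bl z (w² a j)` -/
theorem fus (hΛ : Λ.Ok) {ρ C j k : ℕ} {N y n : ℝ} (hD : Dm Λ m z ρ C G N) (hN : 0 ≤ N)
    (hm : Amb Λ m (bl z ρ)) (hj : j < K) (hjk : j + 2 ≤ k) (hρ : a k ≤ ρ) (hρC : ρ ≤ C)
    (hT : Tame F) (hF : DepG (bl z (a j)) F) (hn : nu Λ z (a j) (w * a j) F ≤ n)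
    (hY : Bd Λ (bl z (a k) \ bl z (w * (w * a j))) Y y) (hO : Out (bl z (w * (w * a j))) Y)
    (hYd : DepG (bl z (a k)) Y) (hZo : Out (bl z (a j)) Z) (hZ : ∀ s, |Z s| ≤ Y s) :
    Ig (m.W 0) (fun s => F s * Z s * G s) ∧
      nc m (bl z ρ) (fun s => F s * Z s * G s) ≤ N * (4 * n * y) := by
  obtain ⟨e1, e2⟩ := h.ac j
  have e3 := h.ba j hj
  have e4 := h.mono hjk
  have := hD.fus hΛ hN hm ⟨le_rfl, e1, hF.mono (bl_mono z (by omega)), In_tame hΛ z _ hT⟩ e2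
    (by omega) (by omega) hρC hY (sdiff_subset.trans (bl_mono z (by omega)))
    (disjoint_sdiff.mono_left (bl_mono z (by omega))) hO (hYd.mono (bl_mono z hρ)) hZo hZ
  refine ⟨this.1, this.2.trans ?_⟩
  have h1 := one_le_gam hΛ e2
  have h3 := mul_le_mul (h.g1 j hj.le) (h.g2 j hj) (by linarith) zero_le_two
  have hy := hY.nonneg hΛ fun s => (abs_nonneg _).trans (hZ s)
  rw [mul_assoc, mul_right_comm 4]
  exact mul_le_mul_of_nonneg_left (mul_le_mul (mul_le_mul_of_nonneg_right (by linarith) hy) hn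
    (nu_nonneg hΛ _ _ _ _) (by positivity)) hN

theorem fl' {i j k : ℕ} (hi : j₀ ≤ i) (hij : i ≤ j) (hj : j < K) (hk : j + 2 ≤ k) :
    F2 (Λ.edI (bl z (a k) \ bl z (w * (w * a i)))) (f j) (x j ^ 2) :=
  f2_ed (h.fl j hj) (Lat.edI_mono (subset_sdiff.2 ⟨(h.sub j hj).trans (bl_mono z (h.mono hk)),
    (h.disj j (by omega) hj).symm.mono_right (h.bm hij)⟩))

theorem fl0 {j k : ℕ} (hj : j < K) (hk : j + 2 ≤ k) : F2 (Λ.edI (bl z (a k))) (f j) (x j ^ 2) :=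
  f2_ed (h.fl j hj) (Lat.edI_mono ((h.sub j hj).trans (bl_mono z (h.mono hk))))

/-- fusion of the micro insertion `F` at the level `j`; below `j₀` it is Cauchy–Schwarz -/
theorem fusF (hΛ : Λ.Ok) {ρ C j k : ℕ} {N y n : ℝ} (hD : Dm Λ m z ρ C G N) (hN : 0 ≤ N)
    (hm : Amb Λ m (bl z ρ)) (hj : j < K) (hjk : j + 2 ≤ k) (hρ : a k ≤ ρ) (hρC : ρ ≤ C)
    (hT : Tame F) (hF : DepG (bl z (a 0)) F) (hn0 : 0 ≤ n)
    (h0 : j < j₀ → ∀ c, a 0 ≤ c → Nm Λ z c (fun s => F s ^ 2) ≤ n ^ 2)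
    (hn : j₀ ≤ j → nu Λ z (a j) (w * a j) F ≤ n)
    (hy : 0 ≤ y) (hY : ∀ U, (∀ i, j ≤ i → i < K → i + 2 ≤ k → F2 (Λ.edI U) (f i) (x i ^ 2)) →
      Bd Λ U (fun s => Y s ^ 2) (y ^ 2)) (hO : j₀ ≤ j → Out (bl z (w * (w * a j))) Y)
    (hYd : DepG (bl z (a k)) Y) (hZo : j₀ ≤ j → Out (bl z (a j)) Z) (hZ : ∀ s, |Z s| ≤ Y s) :
    Ig (m.W 0) (fun s => F s * Z s * G s) ∧
      nc m (bl z ρ) (fun s => F s * Z s * G s) ≤ N * (4 * n * y) := by
  have hY0 : ∀ s, 0 ≤ Y s := fun s => (abs_nonneg _).trans (hZ s)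
  have e0 := h.mono (Nat.zero_le k)
  rcases lt_or_ge j j₀ with h1 | h1
  · have := hD.cs hΛ hN hm hρC hT (hF.mono (bl_mono z (by omega))) hn0 (h0 h1 C (by omega)) hy
      ((hY _ fun i _ hi hk => h.fl0 hi hk).mono (bl_mono z (by omega))) (hYd.mono (bl_mono z hρ)) hZ
    exact ⟨this.1, this.2.trans (mul_le_mul_of_nonneg_left (by nlinarith [mul_nonneg hn0 hy]) hN)⟩
  · have b1 := (hY _ fun i hi hK hk => h.fl' h1 hi hK hk).cs
      (G' := fun _ => 1) (g' := 1) (by simpa using Bd.const Λ _ 1)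
    simp only [mul_one, Real.sqrt_one, Real.sqrt_sq hy, abs_of_nonneg (hY0 _)] at b1
    exact h.fus hΛ hD hN hm hj hjk hρ hρC hT (hF.mono (bl_mono z (h.mono (Nat.zero_le j)))) (hn h1) b1
      (hO h1) hYd (hZo h1) hZ

end Lev

theorem sn_nc (hc : m.Ctr) (ha : m.Anch) {B : Finset Pt} (hB : B ⊆ m.A) (G : Cfg Pt → ℝ) :
    Sn (E := Cfg Pt → ℝ) (fun H => Ig (m.W 0) fun s => H s * G s)
      fun H => nc m B fun s => H s * G s where
  zero := by simpa using (hc.wt ha 0).ig_const 0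
  add H H' h h' := (h.add h').congr fun s _ => by simp [add_mul]
  smul t H h := (h.const_mul t).congr fun s _ => by simp [mul_assoc]
  N_add H H' h h' := by simpa only [Pi.add_apply, add_mul] using nc_add_le hc ha hB h h'
  N_smul t H _ := by simpa only [Pi.smul_apply, smul_eq_mul, mul_assoc] using (nc_smul m B t _).le

theorem bd_a (hΛ : Λ.Ok) {U : Finset Pt} {f f' : Pt → ℝ} {x x' : ℝ} (hx : 0 ≤ x) (hx' : 0 ≤ x')
    (h : F2 (Λ.edI U) f (x ^ 2)) (h' : F2 (Λ.edI U) f' (x' ^ 2)) :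
    Bd Λ U (fun s => (|pr f s| * (|pr f s| + |pr f' s|)) ^ 2) ((cB Λ.τ 4 * (x * (x + x'))) ^ 2) := by
  have hβ := one_le_cB hΛ.pos.le 4
  refine ((((bd_pow₂ hΛ hx h hx' h' 4 0).add ((bd_pow₂ hΛ hx h hx' h' 3 1).smul zero_le_two)).add
    (bd_pow₂ hΛ hx h hx' h' 2 2)).congr fun s => by ring).le ?_
  have : 0 ≤ (x * (x + x')) ^ 2 * cB Λ.τ 4 * (cB Λ.τ 4 - 1) := by
    have := sub_nonneg.2 hβ; positivity
  norm_num; nlinarith

theorem bd_x (hΛ : Λ.Ok) {U : Finset Pt} {f : Pt → ℝ} {x : ℝ} (hx : 0 ≤ x)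
    (h : F2 (Λ.edI U) f (x ^ 2)) : Bd Λ U (fun s => |pr f s|) (cB Λ.τ 4 * x) :=
  (bd_one hΛ hx h).le (mul_le_mul_of_nonneg_right (cB_mono le_rfl (by norm_num)) hx)

theorem bd_x2 (hΛ : Λ.Ok) {U : Finset Pt} {f : Pt → ℝ} {x : ℝ} (hx : 0 ≤ x)
    (h : F2 (Λ.edI U) f (x ^ 2)) : Bd Λ U (fun s => |pr f s| ^ 2) ((cB Λ.τ 4 * x) ^ 2) := by
  have hβ := one_le_cB hΛ.pos.le 4
  refine (bd_pow hΛ hx h 2).le ?_
  rw [mul_pow]
  exact mul_le_mul_of_nonneg_right ((cB_mono (k' := 4) le_rfl (by norm_num)).trans (by nlinarith))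
    (sq_nonneg _)

/-- **LOC** for a phase, abstract levels -/
theorem Lev.loc {w j₀ K J ρ C : ℕ} {a : ℕ → ℕ} {D : ℕ → Finset Pt} {f : ℕ → Pt → ℝ} {x : ℕ → ℝ}
    (h : Lev Λ z w a j₀ K D f x) (hΛ : Λ.Ok) (hJ : J + 1 ≤ K) {N : ℝ} (hD : Dm Λ m z ρ C G N)
    (hN : 0 ≤ N) (hm : Amb Λ m (bl z ρ)) (hρ : a (K + 1) ≤ ρ) (hρC : ρ ≤ C) (hC : w * a K ≤ C)
    {θ : ℕ → Cfg Pt → ℝ} (hθ : ∀ j < K, ∀ s, θ j s = θ (j + 1) s + pr (f j) s)
    (hO : ∀ j, j₀ ≤ j → j ≤ K → Out (bl z (a j)) (θ j)) (hT : Tame F)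
    (hF : DepG (bl z (a 0)) F) {n : ℕ → ℝ} (hn' : ∀ j, 0 ≤ n j)
    (h0 : 0 < j₀ → ∀ c, a 0 ≤ c → Nm Λ z c (fun s => F s ^ 2) ≤ n 0 ^ 2)
    (hn : ∀ j, j₀ ≤ j → j < J → nu Λ z (a j) (w * a j) F ≤ n j) {μ : (Cfg Pt → ℝ) → ℝ}
    {ϱ : ℕ → ℕ → ℝ} (hϱ : ∀ i k, 0 ≤ ϱ i k)
    (hμ : ∀ i ≤ K, ∀ H, Tame H → DepG (bl z (a i)) H → |μ H| ≤ 2 * nu Λ z (a i) (w * a i) H ∧
      ∀ k, i ≤ k → k ≤ K →
        nu Λ z (a k) (w * a k) (fun s => H s - μ H) ≤ ϱ i k * nu Λ z (a i) (w * a i) H) :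
    Ig (m.W 0) (fun s => (F s * Real.cos (θ 0 s) - F s * Real.cos (θ J s) +
      (∑ j ∈ range J, μ fun t => F t * pr (f j) t) * Real.sin (θ 0 s)) * G s) ∧
    nc m (bl z ρ) (fun s => (F s * Real.cos (θ 0 s) - F s * Real.cos (θ J s) +
      (∑ j ∈ range J, μ fun t => F t * pr (f j) t) * Real.sin (θ 0 s)) * G s) ≤
      N * ∑ j ∈ range J, 16 * cB Λ.τ 4 ^ 2 * (n j * x j) *
        (∑ i ∈ range (j + 2), x i + ϱ (j + 2) K + ∑ i ∈ Ico (j + 2) K, ϱ (j + 2) i * x i) := by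
  set β := cB Λ.τ 4 with hβ
  have hβ1 : 1 ≤ β := one_le_cB hΛ.pos.le 4
  have hx := h.x0
  have j1 := h.j1
  have h0' : ∀ j < j₀, ∀ c, a 0 ≤ c → Nm Λ z c (fun s => F s ^ 2) ≤ n j ^ 2 := fun j hj => by
    obtain rfl : j = 0 := by omega
    exact h0 hj
  have tX : ∀ j, Tame fun s => F s * pr (f j) s := fun j => hT.mul (Tame.hom _)
  have dX : ∀ j < J, ∀ i, j + 2 ≤ i → DepG (bl z (a i)) fun s => F s * pr (f j) s :=
    fun j hj i hi => (hF.mono (bl_mono z (h.mono (Nat.zero_le i)))).mul (h.dep (by omega) hi)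
  have ab : ∀ j, bl z (a j) ⊆ bl z (w * (w * a j)) := fun j => bl_mono z (by have := h.ac j; omega)
  -- the norm of `F X_j`
  have hf : ∀ j < J, nu Λ z (a (j + 2)) (w * a (j + 2)) (fun s => F s * pr (f j) s) ≤
      4 * n j * (β * x j) := fun j hj => by
    have e1 := (h.ac (j + 2)).1
    have := (h.fusF hΛ (dm_bx (ρ := a (j + 2)) (C := w * a (j + 2)) (by omega)) zero_le_one
      (amb_bx hΛ (by omega)) (j := j) (by omega) le_rfl le_rfl (by omega) hT hF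
      (hn' j) (h0' j) (fun h1 => hn j h1 hj) (mul_nonneg (by linarith) (hx j))
      (Y := fun s => |pr (f j) s|) (Z := fun s => pr (f j) s)
      (fun U hU => bd_x2 hΛ (hx j) (hU j le_rfl (by omega) le_rfl))
      (fun h1 => (h.out h1 le_rfl (by omega)).comp _) ((h.dep (by omega) le_rfl).comp _)
      (fun h1 => (h.out h1 le_rfl (by omega)).mono (ab j)) fun _ => le_rfl).2
    rw [nu_eq hΛ ((dX j hj _ le_rfl).mono (bl_mono z (by omega))) (by omega)]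
    simpa only [mul_one, one_mul] using this
  have hr : ∀ j < J, ∀ i, j + 2 ≤ i → i ≤ K →
      nu Λ z (a i) (w * a i) (fun s => F s * pr (f j) s - μ fun t => F t * pr (f j) t) ≤
        ϱ (j + 2) i * (4 * n j * (β * x j)) := fun j hj i hi hK =>
    ((hμ _ (by omega) _ (tX j) (dX j hj _ le_rfl)).2 i hi hK).trans
      (mul_le_mul_of_nonneg_left (hf j hj) (hϱ _ _))
  have hsin : ∀ i < K, ∀ s, |-Real.sin (θ i s) - -Real.sin (θ (i + 1) s)| ≤ |pr (f i) s| :=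
    fun i hi s => by
      rw [neg_sub_neg, abs_sub_comm]
      simpa [hθ i hi s] using Real.abs_sin_sub_sin_le (θ i s) (θ (i + 1) s)
  have key := F94.loc (ι := Unit) (sn_nc hm.ctr hm.anch hm.sub G) F (fun j s => Real.cos (θ j s))
    (fun _ j s => -Real.sin (θ j s)) (fun _ j s => pr (f j) s)
    (fun _ j => μ fun t => F t * pr (f j) t) hJ
    (fun j => N * (4 * n j * (β * (x j * (x j + x (j + 1)))))) (fun _ i => N * (β * x i))
    (fun _ j => N * 2 * (ϱ (j + 2) K * (4 * n j * (β * x j))))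
    (fun _ j i => N * (4 * (ϱ (j + 2) i * (4 * n j * (β * x j))) * (β * x i)))
    (fun j hj => by
      have := h.fusF hΛ hD hN hm (j := j) (k := j + 3) (by omega) (by omega)
        ((h.mono (by omega)).trans hρ) hρC hT hF (hn' j) (h0' j)
        (fun h1 => hn j h1 hj) (y := β * (x j * (x j + x (j + 1))))
        (by have := hx j; have := hx (j + 1); positivity)
        (Y := fun s => |pr (f j) s| * (|pr (f j) s| + |pr (f (j + 1)) s|))
        (Z := fun s => Real.cos (θ j s) - Real.cos (θ (j + 1) s) - -Real.sin (θ (j + 2) s) * pr (f j) s)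
        (fun U hU => bd_a hΛ (hx _) (hx _) (hU j le_rfl (by omega) (by omega))
          (hU (j + 1) (by omega) (by omega) le_rfl))
        (fun h1 => (h.out h1 le_rfl (by omega)).comp₂ (h.out h1 (Nat.le_succ j) (by omega))
          fun p q => |p| * (|p| + |q|))
        ((h.dep (by omega) (by omega)).comp₂ (h.dep (j := j + 1) (by omega) le_rfl)
          fun p q => |p| * (|p| + |q|))
        (fun h1 => ((hO j h1 (by omega)).comp₂ ((hO (j + 1) (by omega) (by omega)).mono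
          (bl_mono z (h.mono (by omega)))) fun p q => Real.cos p - Real.cos q).comp₂
          (((hO (j + 2) (by omega) (by omega)).mono (bl_mono z (h.mono (by omega)))).comp₂
            ((h.out h1 le_rfl (by omega)).mono (ab j)) fun p q => -Real.sin p * q) (· - ·))
        fun s => by rw [hθ j (by omega), hθ (j + 1) (by omega)]; exact cos_rem _ _ _
      simpa only [Pi.mul_apply, Pi.sub_apply, univ_unique, sum_singleton] using this)
    (fun _ i hi => by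
      have e1 := h.mono (show i + 2 ≤ K + 1 by omega)
      have d1 : DepG (bl z ρ) fun s => pr (f i) s :=
        (h.dep (by omega) le_rfl).mono (bl_mono z (by omega))
      have := hD.dom hm d1 (In_tame hΛ z C (Tame.hom _)) (hsin i (by omega))
      refine ⟨this.1, this.2.trans (mul_le_mul_of_nonneg_left ?_ hN)⟩
      rw [Nm_bx (d1.mono (bl_mono z hρC))]
      exact (bd_x hΛ (hx i) (h.fl0 (by omega) le_rfl) _
        ((lat_bx hΛ z C).mono (bl_mono z (by omega)))).2)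
    (fun _ j hj => by
      have := hD.fus0 hΛ hN hm ⟨le_rfl, (h.ac K).1, ((dX j hj K (by omega)).sub
        (DepG.const _ (μ fun t => F t * pr (f j) t))).mono (bl_mono z (by omega)),
        In_tame hΛ z _ ((tX j).sub (Tame.const _))⟩ hC (h.top.trans hρ)
        ((hO K (by omega) le_rfl).comp fun p => -Real.sin p)
        fun s => by rw [abs_neg]; exact Real.abs_sin_le_one _
      exact ⟨this.1, this.2.trans (mul_le_mul (mul_le_mul_of_nonneg_left (h.g1 K le_rfl) hN)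
        (hr j hj K (by omega) le_rfl) (nu_nonneg hΛ _ _ _ _) (by positivity))⟩)
    (fun _ j hj i hi => by
      obtain ⟨h1, h2⟩ := mem_Ico.1 hi
      exact h.fus hΛ hD hN hm (j := i) (k := i + 2) h2 le_rfl
        ((h.mono (by omega)).trans hρ) hρC ((tX j).sub (Tame.const _))
        ((dX j hj i h1).sub (DepG.const _ _)) (hr j hj i h1 h2.le)
        (bd_x hΛ (hx i) (h.fl' (by omega) le_rfl h2 le_rfl))
        ((h.out (by omega) le_rfl h2).comp _) ((h.dep h2 le_rfl).comp _)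
        ((hO i (by omega) h2.le).comp₂ ((hO (i + 1) (by omega) h2).mono
          (bl_mono z (h.mono (by omega)))) fun p q => -Real.sin p - -Real.sin q) (hsin i h2))
  simp only [Pi.mul_apply, Pi.sub_apply, univ_unique, sum_singleton, Pi.smul_apply, smul_eq_mul,
    mul_neg, sub_neg_eq_add] at key
  refine ⟨key.1, key.2.trans ?_⟩
  rw [mul_sum]
  refine sum_le_sum fun j hj => ?_
  have hj := mem_range.1 hj
  have m1 := (hμ _ (by omega) _ (tX j) (dX j hj _ le_rfl)).1.trans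
    (mul_le_mul_of_nonneg_left (hf j hj) zero_le_two)
  have s1 : x j + x (j + 1) ≤ ∑ i ∈ range (j + 2), x i := by
    rw [sum_range_succ, sum_range_succ]
    have := sum_nonneg (s := range j) fun i _ => hx i
    linarith
  have s2 : ∑ i ∈ Ico (j + 2) K, N * (4 * (ϱ (j + 2) i * (4 * n j * (β * x j))) * (β * x i)) =
      N * (16 * β ^ 2 * (n j * x j) * ∑ i ∈ Ico (j + 2) K, ϱ (j + 2) i * x i) := by
    simp only [mul_sum]; exact sum_congr rfl fun i _ => by ring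
  rw [s2, ← mul_sum, ← mul_sum]
  set S := ∑ i ∈ range (j + 2), x i
  have hS : 0 ≤ S := sum_nonneg fun i _ => hx i
  have p : 0 ≤ N * (n j * x j) := mul_nonneg hN (mul_nonneg (hn' j) (hx j))
  have t1 := mul_le_mul_of_nonneg_right m1 (show 0 ≤ N * (β * S) by positivity)
  have t2 := mul_le_mul_of_nonneg_left s1 (show 0 ≤ N * (n j * x j) * β by positivity)
  have t3 : 0 ≤ N * (n j * x j) * β * (β - 1) := by have := sub_nonneg.2 hβ1; positivity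
  have t4 := mul_nonneg t3 hS
  have t5 := mul_nonneg t3 (hϱ (j + 2) K)
  have t6 : 0 ≤ N * (n j * x j) * β ^ 2 * S := by positivity
  have t7 : 0 ≤ N * (n j * x j) * β * ϱ (j + 2) K := by have := hϱ (j + 2) K; positivity
  nlinarith

end Crest.Agent.T145.F94
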