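import Crest.Agent.T145.FlLocB_94
import Crest.Agent.T145.FlDef_82
import Crest.Agent.T145.XiB_22

/-!
# Row 145 (helper94): LOC, deterministic part (the grid of levels, flows of the pieces, the sums)
-/

set_option autoImplicit false

noncomputable section

namespace Crest.Agent.T145.F94

open Finset Pot Xi Fl

/-- the grid -/
theorem grid {w a₀ r : ℕ} {ρ : ℝ} (hw : 2 ≤ w) (ha : 1 ≤ a₀) (h1 : 8 * (w : ℝ) ^ 2 * a₀ ≤ ρ)
    (h2 : 600 * ρ ≤ r) : ∃ (J K : ℕ) (a : ℕ → ℕ) (β : ℕ → ℝ) (s₀ : ℝ), 1 ≤ J ∧ J + 1 ≤ K ∧ a 0 = a₀ ∧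
      a (K + 1) = r ∧ Monotone a ∧ β 0 = 0 ∧ β J = ρ ∧ 0 < s₀ ∧ s₀ * r ≤ a₀ ∧
      (∀ j, 1 ≤ j → j < K → (a j : ℝ) = s₀ * (8 * (w : ℝ) ^ 2) ^ j * r ∧
        ((w * (w * a j) + 1 : ℕ) : ℝ) ≤ β j) ∧ (a K : ℝ) + 1 ≤ β K ∧
      (∀ j, 1 ≤ j → j ≤ K → 2 * β j + 1 ≤ a (j + 1)) ∧
      (∀ j < K, β (j + 1) ≤ (8 * (w : ℝ) ^ 2) ^ 2 * (s₀ * (8 * (w : ℝ) ^ 2) ^ j) * r) ∧
      r ≤ 8 * a K ∧ 2 * a K ≤ r := by
  classical
  set Q : ℕ := 8 * w ^ 2 with hQ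
  have hQr : (8 * (w : ℝ) ^ 2) = Q := by rw [hQ]; push_cast; ring
  rw [hQr] at h1 ⊢
  have hw2 : 4 ≤ w * w := Nat.mul_le_mul hw hw
  have hQw : Q = 8 * (w * w) := by rw [hQ]; ring
  have hQ0 : (0 : ℝ) < Q := by exact_mod_cast (by omega : 0 < Q)
  have hpow : ∀ k, k < Q ^ k := fun k => Nat.lt_pow_self (by omega)
  have hex : ∃ k : ℕ, ρ < (w * w * a₀ * Q ^ (k + 1) + 1 : ℕ) := by
    obtain ⟨k, hk⟩ := exists_nat_gt ρ
    refine ⟨k, hk.trans_le ?_⟩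
    have : 1 * Q ^ (k + 1) ≤ w * w * a₀ * Q ^ (k + 1) := Nat.mul_le_mul_right _ (by nlinarith)
    exact_mod_cast (by have := hpow (k + 1); omega)
  obtain ⟨J, hJ1, hJ2⟩ : ∃ J : ℕ, ρ < (w * w * a₀ * Q ^ (J + 1) + 1 : ℕ) ∧
      ((w * w * a₀ * Q ^ J + 1 : ℕ) : ℝ) ≤ ρ := by
    refine ⟨Nat.find hex, Nat.find_spec hex, ?_⟩
    rcases h : Nat.find hex with _ | k
    · refine le_trans ?_ h1
      exact_mod_cast (by rw [hQw]; nlinarith : w * w * a₀ * Q ^ 0 + 1 ≤ Q * a₀)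
    · exact not_lt.1 (Nat.find_min hex (by omega))
  have hd : (0 : ℝ) < (w * w * Q ^ J : ℕ) := by
    have := hpow J
    exact_mod_cast Nat.mul_pos (by omega) (by omega)
  set a₁ := ⌊(ρ - 1) / (w * w * Q ^ J : ℕ)⌋₊ with ha₁
  have b1 : a₀ ≤ a₁ := Nat.le_floor (by rw [le_div_iff₀ hd]; push_cast at hJ2 ⊢; linarith)
  have hρ1 : 0 ≤ (ρ - 1) / (w * w * Q ^ J : ℕ) := div_nonneg (by
    have : (1 : ℝ) ≤ (w * w * a₀ * Q ^ J + 1 : ℕ) := by exact_mod_cast Nat.le_add_left _ _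
    linarith) hd.le
  have b2 : (a₁ : ℝ) ≤ Q * a₀ := (Nat.floor_le hρ1).trans (by
    rw [div_le_iff₀ hd]; push_cast at hJ1 ⊢; rw [pow_succ] at hJ1; linarith)
  have b3 : ((w * (w * (a₁ * Q ^ J)) + 1 : ℕ) : ℝ) ≤ ρ := by
    have := Nat.floor_le hρ1
    rw [← ha₁, le_div_iff₀ hd] at this; push_cast at this ⊢; linarith
  have b4 : ρ ≤ (2 * (w * (w * (a₁ * Q ^ J))) + 1 : ℕ) := by
    have h3 := (Nat.lt_floor_add_one ((ρ - 1) / (w * w * Q ^ J : ℕ))).le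
    have h4 : (1 : ℝ) ≤ a₁ := by exact_mod_cast ha.trans b1
    rw [← ha₁, div_le_iff₀ hd] at h3
    have := mul_le_mul_of_nonneg_right h4 hd.le
    push_cast at h3 this ⊢; linarith
  have hg : ∀ k, 1 ≤ a₁ * Q ^ k := fun k => Nat.mul_pos (by omega) (by have := hpow k; omega)
  have hg' : ∀ k, 4 ≤ w * (w * (a₁ * Q ^ k)) := fun k => by have := hg k; nlinarith
  have hs : ∀ k, a₁ * Q ^ (k + 1) = 8 * (w * (w * (a₁ * Q ^ k))) := fun k => by rw [pow_succ, hQw]; ring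
  have hle : ∀ k, a₁ * Q ^ k ≤ w * (w * (a₁ * Q ^ k)) := fun k => by have := hg k; nlinarith
  have hex2 : ∃ k, r / 4 < 2 * (w * (w * (a₁ * Q ^ (J + 1 + k)))) + 3 := ⟨r, by
    have h3 := hle (J + 1 + r)
    have h4 := hpow (J + 1 + r)
    have : 1 * Q ^ (J + 1 + r) ≤ a₁ * Q ^ (J + 1 + r) := Nat.mul_le_mul_right _ (by omega)
    omega⟩
  obtain ⟨K, hK0, hK1, hK2⟩ : ∃ K, J + 1 ≤ K ∧ r / 4 < 2 * (w * (w * (a₁ * Q ^ K))) + 3 ∧
      ∀ k, J + 1 ≤ k → k < K → 2 * (w * (w * (a₁ * Q ^ k))) + 3 ≤ r / 4 :=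
    ⟨J + 1 + Nat.find hex2, by omega, Nat.find_spec hex2, fun k h3 h4 => by
      obtain ⟨i, rfl⟩ := Nat.exists_eq_add_of_le h3
      exact not_lt.1 (Nat.find_min hex2 (by omega))⟩
  have hρ : (256 : ℝ) / 8 ≤ ρ := by
    have : (32 : ℝ) * 1 ≤ Q * a₀ := by exact_mod_cast Nat.mul_le_mul (by omega) ha
    linarith
  have hr4 : (r : ℝ) ≤ 4 * (r / 4 : ℕ) + 3 := by exact_mod_cast (by omega : r ≤ 4 * (r / 4) + 3)
  have hr0 : (0 : ℝ) < r := by linarith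
  have hr100 : 100 ≤ r := by exact_mod_cast (by linarith : (100 : ℝ) ≤ r)
  set a : ℕ → ℕ := fun j => if j = 0 then a₀ else if j ≤ K then a₁ * Q ^ (j - 1)
    else if j = K + 1 then r / 4 else r with hadef
  set β : ℕ → ℝ := fun j => if j = 0 then 0 else if j = J + 1 then ρ
    else if j ≤ K then (w * (w * a j) + 1 : ℕ) else a j + 1 with hβdef
  have ea : ∀ j, j < K → a (j + 1) = a₁ * Q ^ j := fun j hj => by
    simp only [hadef, Nat.succ_ne_zero, if_false, if_pos (show j + 1 ≤ K from hj), Nat.add_sub_cancel]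
  have eK : a (K + 1) = r / 4 := by simp [hadef]
  have eT : ∀ j, K + 1 < j → a j = r := fun j hj => by
    simp only [hadef, if_neg (show j ≠ 0 by omega), if_neg (show ¬ j ≤ K by omega),
      if_neg (show j ≠ K + 1 by omega)]
  have eβK : β (K + 1) = (r / 4 : ℕ) + 1 := by
    simp only [hβdef, Nat.succ_ne_zero, if_false, if_neg (show K + 1 ≠ J + 1 by omega),
      if_neg (show ¬ K + 1 ≤ K by omega), eK]
  have eβJ : β (J + 1) = ρ := by simp [hβdef]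
  have eβ : ∀ j < K, j ≠ J → β (j + 1) = (w * (w * (a₁ * Q ^ j)) + 1 : ℕ) := fun j hj hne => by
    simp only [hβdef, Nat.succ_ne_zero, if_false, if_neg (show j + 1 ≠ J + 1 by omega),
      if_pos (show j + 1 ≤ K from hj), ea j hj]
  have lo : ∀ j < K, ((w * (w * (a₁ * Q ^ j)) + 1 : ℕ) : ℝ) ≤ β (j + 1) := fun j hj => by
    by_cases h : j = J
    · rw [h, eβJ]; exact b3
    · rw [eβ j hj h]
  have hi : ∀ j < K, β (j + 1) ≤ (2 * (w * (w * (a₁ * Q ^ j))) + 1 : ℕ) := fun j hj => by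
    by_cases h : j = J
    · rw [h, eβJ]; exact b4
    · rw [eβ j hj h]; exact_mod_cast (by omega)
  have two : ∀ j ≤ K, 2 * β (j + 1) + 1 ≤ a (j + 2) := fun j hj => by
    rcases hj.eq_or_lt with rfl | hj
    · rw [eβK, eT _ (by omega)]
      exact_mod_cast (by omega : 2 * (r / 4 + 1) + 1 ≤ r)
    rcases (show j + 1 ≤ K from hj).eq_or_lt with h | h
    · rw [show j + 2 = K + 1 by omega, eK]
      by_cases h' : j = J
      · rw [h', eβJ]; linarith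
      · rw [eβ j hj h']
        exact_mod_cast (by have := hK2 j (by omega) hj; omega :
          2 * (w * (w * (a₁ * Q ^ j)) + 1) + 1 ≤ r / 4)
    · rw [ea (j + 1) h, hs]
      have h3 := hi j hj
      have h4 : (4 : ℝ) ≤ (w * (w * (a₁ * Q ^ j)) : ℕ) := by exact_mod_cast hg' j
      push_cast at h3 h4 ⊢; linarith
  have es : ∀ j, (a₁ : ℝ) / (Q * r) * Q ^ (j + 1) * r = (a₁ * Q ^ j : ℕ) := fun j => by
    push_cast; field_simp; ring
  refine ⟨J + 1, K + 1, a, β, a₁ / (Q * r), by omega, by omega, by simp [hadef], eT _ (by omega),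
    monotone_nat_of_le_succ fun j => ?_, by simp [hβdef], eβJ, ?_, ?_, fun j h3 h4 => ?_, ?_,
    fun j h3 h4 => ?_, fun j hj => ?_, by omega, by omega⟩
  · rcases j with _ | j
    · rw [ea 0 (by omega)]; simpa [hadef] using b1
    rcases lt_or_ge j K with h | h
    · have h3 := lo j h
      have h4 := two j h.le
      have h5 : ((a₁ * Q ^ j : ℕ) : ℝ) ≤ (w * (w * (a₁ * Q ^ j)) : ℕ) := by exact_mod_cast hle j
      have h6 : (0 : ℝ) ≤ (a₁ * Q ^ j : ℕ) := Nat.cast_nonneg _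
      rw [Nat.cast_add, Nat.cast_one] at h3
      rw [ea j h]
      exact_mod_cast (by linarith : ((a₁ * Q ^ j : ℕ) : ℝ) ≤ a (j + 2))
    · rw [eT (j + 1 + 1) (by omega)]
      rcases h.eq_or_lt with rfl | h
      · rw [eK]; omega
      · rw [eT _ (by omega)]
  · have : (0 : ℝ) < a₁ := by exact_mod_cast ha.trans b1
    positivity
  · rw [div_mul_eq_mul_div, div_le_iff₀ (by positivity)]
    nlinarith
  · obtain ⟨j, rfl⟩ : ∃ k, j = k + 1 := ⟨j - 1, by omega⟩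
    rw [ea j (by omega), es]
    exact ⟨rfl, lo j (by omega)⟩
  · rw [eβK, eK]
  · obtain ⟨j, rfl⟩ : ∃ k, j = k + 1 := ⟨j - 1, by omega⟩
    exact two j (by omega)
  · rw [show (Q : ℝ) ^ 2 * (a₁ / (Q * r) * Q ^ j) * r = a₁ / (Q * r) * Q ^ (j + 1 + 1) * r by ring, es,
      hs]
    have h4 := hg' j
    rcases (Nat.lt_succ_iff.1 hj).eq_or_lt with rfl | h
    · rw [eβK]; exact_mod_cast (by omega)
    · exact (hi j h).trans (by exact_mod_cast (by omega))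

/-- the sums over the levels -/
theorem bracket {Q s₀ κ X R : ℝ} {j K : ℕ} (hQ : 2 ≤ Q) (h0 : 0 < s₀) (hκ1 : κ ≤ 1)
    (hX : 0 ≤ X) (hR : 0 ≤ R) (hj : j + 2 ≤ K) (hK : ∀ i < K, s₀ * Q ^ i ≤ 1) {ϱ : ℕ → ℝ}
    (h1 : ϱ K ≤ R * (8 * Q ^ 3 * (s₀ * Q ^ j)) ^ κ)
    (h2 : ∀ i, j + 2 ≤ i → i < K → ϱ i ≤ R * (s₀ * Q ^ (j + 2) / (s₀ * Q ^ i)) ^ κ) :
    ∑ i ∈ range (j + 2), X * (s₀ * Q ^ i) ^ 2 + ϱ K + ∑ i ∈ Ico (j + 2) K, ϱ i * (X * (s₀ * Q ^ i) ^ 2) ≤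
      (2 * Q * X + 8 * Q ^ 3 * R + 2 * Q ^ 2 * R * X) * (s₀ * Q ^ j) ^ κ := by
  have hQ0 : 0 < Q := by linarith
  have hs : ∀ i, 0 < s₀ * Q ^ i := fun i => by positivity
  have geo : ∀ n, ∑ i ∈ range (n + 1), s₀ * Q ^ i ≤ 2 * (s₀ * Q ^ n) := fun n => by
    induction n with
    | zero => simp; linarith
    | succ n ih => rw [sum_range_succ, pow_succ]; nlinarith [hs n]
  have pw : ∀ t : ℝ, 0 < t → t ≤ 1 → t ≤ t ^ κ := fun t ht h => by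
    simpa using Real.rpow_le_rpow_of_exponent_ge ht h hκ1
  have up : ∀ t : ℝ, 1 ≤ t → t ^ κ ≤ t := fun t ht => by
    simpa using Real.rpow_le_rpow_of_exponent_le ht hκ1
  set t := (s₀ * Q ^ j) ^ κ with ht
  have ht0 : 0 ≤ t := by positivity
  have a1 : ∑ i ∈ range (j + 2), X * (s₀ * Q ^ i) ^ 2 ≤ 2 * Q * X * t := by
    refine (sum_le_sum (g := fun i => X * (s₀ * Q ^ i)) fun i hi => ?_).trans ?_
    · have := hK i (by have := mem_range.1 hi; omega)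
      exact mul_le_mul_of_nonneg_left (by nlinarith [hs i]) hX
    · rw [← mul_sum]
      have h3 := geo (j + 1)
      have h4 := mul_le_mul_of_nonneg_left (pw _ (hs j) (hK j (by omega))) hQ0.le
      rw [pow_succ] at h3
      nlinarith
  have a2 : ϱ K ≤ 8 * Q ^ 3 * R * t := by
    rw [Real.mul_rpow (by positivity) (hs j).le] at h1
    have := mul_le_mul_of_nonneg_right (up (8 * Q ^ 3)
      (by linarith [one_le_pow₀ (n := 3) (show 1 ≤ Q by linarith)])) (mul_nonneg hR ht0)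
    nlinarith
  have a3 : ∑ i ∈ Ico (j + 2) K, ϱ i * (X * (s₀ * Q ^ i) ^ 2) ≤ 2 * Q ^ 2 * R * X * t := by
    refine (sum_le_sum (g := fun i => Q ^ 2 * R * X * t * (s₀ * Q ^ i)) fun i hi => ?_).trans ?_
    · obtain ⟨h3, h4⟩ := mem_Ico.1 hi
      have h5 : (s₀ * Q ^ (j + 2) / (s₀ * Q ^ i)) ^ κ * (s₀ * Q ^ i) ≤ Q ^ 2 * t := by
        rw [Real.div_rpow (hs _).le (hs _).le, div_mul_eq_mul_div, div_le_iff₀ (by positivity),
          show s₀ * Q ^ (j + 2) = Q ^ 2 * (s₀ * Q ^ j) by ring, Real.mul_rpow (by positivity) (hs j).le]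
        exact mul_le_mul (mul_le_mul_of_nonneg_right (up _ (one_le_pow₀ (by linarith))) ht0)
          (pw _ (hs i) (hK i h4)) (hs i).le (by positivity)
      calc _ ≤ R * (s₀ * Q ^ (j + 2) / (s₀ * Q ^ i)) ^ κ * (X * (s₀ * Q ^ i) ^ 2) :=
            mul_le_mul_of_nonneg_right (h2 i h3 h4) (by positivity)
        _ = R * X * (s₀ * Q ^ i) * ((s₀ * Q ^ (j + 2) / (s₀ * Q ^ i)) ^ κ * (s₀ * Q ^ i)) := by ring
        _ ≤ R * X * (s₀ * Q ^ i) * (Q ^ 2 * t) := mul_le_mul_of_nonneg_left h5 (by positivity)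
        _ = _ := by ring
    · rw [← mul_sum]
      obtain ⟨k, rfl⟩ : ∃ k, K = k + 1 := ⟨K - 1, by omega⟩
      have h3 : ∑ i ∈ Ico (j + 2) (k + 1), s₀ * Q ^ i ≤ 2 :=
        (sum_le_sum_of_subset_of_nonneg (fun i hi => mem_range.2 (mem_Ico.1 hi).2)
          fun i _ _ => (hs i).le).trans ((geo k).trans (by linarith [hK k (by omega)]))
      nlinarith [mul_le_mul_of_nonneg_left h3 (show 0 ≤ Q ^ 2 * R * X * t by positivity)]
  linarith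

theorem geo_rpow {Q s₀ δ : ℝ} {J : ℕ} (hQ : 1 < Q) (h0 : 0 < s₀) (hδ : 0 < δ) (hJ : s₀ * Q ^ J ≤ 1) :
    ∑ j ∈ range J, (s₀ * Q ^ j) ^ δ ≤ 1 / (Q ^ δ - 1) := by
  have hQ0 : 0 < Q := by linarith
  have hq : 1 < Q ^ δ := Real.one_lt_rpow hQ hδ
  have e : ∀ j : ℕ, (s₀ * Q ^ j) ^ δ = s₀ ^ δ * (Q ^ δ) ^ j := fun j => by
    rw [Real.mul_rpow h0.le (by positivity), ← Real.rpow_natCast, ← Real.rpow_natCast,
      ← Real.rpow_mul hQ0.le, ← Real.rpow_mul hQ0.le, mul_comm δ]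
  have h1 : (s₀ * Q ^ J) ^ δ ≤ 1 := Real.rpow_le_one (by positivity) hJ hδ.le
  simp only [e] at h1 ⊢
  rw [← mul_sum, geom_sum_eq hq.ne', ← mul_div_assoc]
  have : 0 < s₀ ^ δ := by positivity
  exact div_le_div_of_nonneg_right (by linarith) (by linarith)

theorem out_pr {B : Finset Pt} {g : Pt → ℝ} (h : ∀ x ∈ B, g x = 0) : Out B fun s => pr g s :=
  fun s t e => by
    rw [← sub_eq_zero, ← map_sub, pr_congr (g := 0) fun x hx => h x (by_contra fun hx' => hx (by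
      rw [Finsupp.sub_apply, e x hx', sub_self]))]
    simp

theorem lc_zero (u : Pt → ℝ) (z : Pt) : lc u z 0 = 0 := by
  funext y; simp [lc, Xi.chi, cut, cut1]

theorem lc_in {u : Pt → ℝ} {z : Pt} {β : ℝ} {n : ℕ} (h0 : 0 < β) (hn : (n : ℝ) ≤ β) {y : Pt}
    (hy : y ∈ bl z n) : lc u z β y = u y := by
  rw [lc, chi_one h0 hn (Ha91.add_mem_bl.1 (by rwa [add_sub_cancel])), mul_one]

theorem lc_out {u : Pt → ℝ} {z : Pt} {β : ℝ} {n : ℕ} (h0 : 0 ≤ β) (hn : 2 * β ≤ n + 1) {y : Pt}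
    (hy : y ∉ bl z n) : lc u z β y = 0 := by
  rcases h0.eq_or_lt with rfl | h0
  · rw [lc_zero]; rfl
  · rw [lc, sup_chi h0 hn _ fun h => hy (by simpa using (Ha91.add_mem_bl (z := z)).2 h), mul_zero]

theorem dif_lc : ∃ C : ℝ, 0 ≤ C ∧ ∀ (u : Pt → ℝ) (z : Pt) (r : ℕ) (σ β : ℝ), 0 ≤ σ → Qs u z r σ →
    (β = 0 ∨ 1 ≤ β) → 2 * β + 1 ≤ r → ∀ e ∈ nn, ∀ y, |dif e (lc u z β) y| ≤ C * σ * β / (r : ℝ) ^ 2 := by
  obtain ⟨C, h0, hC⟩ := sm_chi 1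
  refine ⟨7 + 36 * C, by positivity, fun u z r σ β hσ hu hβ hr e he y => ?_⟩
  rcases hβ with rfl | hβ
  · simp [lc_zero, dif]
  have hβ0 : 0 < β := by linarith
  have hn := Nat.floor_le (show 0 ≤ 2 * β by linarith)
  have hn' := (Nat.lt_floor_add_one (2 * β)).le
  by_cases hy : y ∈ bl z (⌊2 * β⌋₊ + 1)
  · obtain ⟨h1, h2⟩ := hu y (bl_mono z (by exact_mod_cast (by push_cast; linarith :
      ((⌊2 * β⌋₊ + 1 : ℕ) : ℝ) ≤ r)) hy)
    have h3 := eu_le_of_bl hy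
    have h4 := eu_nonneg (y - z)
    push_cast at h3
    have h5 := (hC β hβ0).one le_rfl he (z := y - z) trivial
    have h6 : |dif e u y| ≤ σ * (7 * β) / (r : ℝ) ^ 2 := (h2 e he).trans (by gcongr; linarith)
    have h7 : |u y| ≤ σ * (6 * β) ^ 2 / (r : ℝ) ^ 2 := h1.trans (by gcongr; linarith)
    rw [show dif e (lc u z β) y = dif e u y * Xi.chi β (y - z + e) + u y * dif e (Xi.chi β) (y - z) by
      simp only [dif, lc, add_sub_right_comm]; ring]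
    refine (abs_add_le _ _).trans ?_
    rw [abs_mul, abs_mul]
    refine (add_le_add (mul_le_mul h6 (abs_chi_le _ _) (abs_nonneg _) (by positivity))
      (mul_le_mul h7 h5 (abs_nonneg _) (by positivity))).trans_eq ?_
    field_simp
    ring
  · rw [dif, lc_out hβ0.le hn' (mem_bl_one_of hy (Ha91.nn_bl he y)),
      lc_out hβ0.le hn' (mem_bl_one_of hy (self_mem_bl _ _)), sub_self, abs_zero]
    positivity

/-- the flow of one piece -/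
theorem fl_lc : ∃ C : ℝ, 0 ≤ C ∧ ∀ (Λ : Lat) (u : Pt → ℝ) (z : Pt) (r : ℕ) (σ β β' t x : ℝ), Λ.Ok → 0 ≤ σ →
    Qs u z r σ → (β = 0 ∨ 1 ≤ β) → β ≤ β' → 1 ≤ β' → 2 * β' + 1 ≤ r → C * |t| * σ * (β' / r) ^ 2 ≤ x →
    F2 (Λ.edI (bl z (⌊2 * β'⌋₊ + 1))) (A0 (t • (lc u z β' - lc u z β))) (x ^ 2) ∧
    ∀ b : ℕ, (∀ y ∈ bl z (b + 1), lc u z β' y = lc u z β y) →
      F2 (Λ.edI (bl z (⌊2 * β'⌋₊ + 1) \ bl z b)) (A0 (t • (lc u z β' - lc u z β))) (x ^ 2) := by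
  obtain ⟨C, h0, hC⟩ := dif_lc
  refine ⟨20 * C, by positivity, fun Λ u z r σ β β' t x hΛ hσ hu hβ hββ hβ' hr hx => ?_⟩
  have hn := Nat.floor_le (show 0 ≤ 2 * β' by linarith)
  have hn' := (Nat.lt_floor_add_one (2 * β')).le
  have hβ0 : 0 ≤ β := hβ.elim (fun h => h.ge) fun h => by linarith
  have hout : ∀ y, y ∉ bl z ⌊2 * β'⌋₊ → (t • (lc u z β' - lc u z β)) y = 0 := fun y hy => by
    simp [lc_out (by linarith) hn' hy, lc_out hβ0 (by linarith) hy]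
  have hK : ∀ e ∈ nn, ∀ y, |dif e (t • (lc u z β' - lc u z β)) y| ≤
      |t| * (2 * (C * σ * β' / (r : ℝ) ^ 2)) := fun e he y => by
    rw [show dif e (t • (lc u z β' - lc u z β)) y =
      t * (dif e (lc u z β') y - dif e (lc u z β) y) by simp [dif]; ring, abs_mul]
    refine mul_le_mul_of_nonneg_left ((abs_sub _ _).trans ?_) (abs_nonneg _)
    have h1 := hC u z r σ β' hσ hu (Or.inr hβ') hr e he y
    have h2 := (hC u z r σ β hσ hu hβ (by linarith) e he y).trans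
      (show _ ≤ C * σ * β' / (r : ℝ) ^ 2 by gcongr)
    linarith
  have hle : 2 * (2 * (⌊2 * β'⌋₊ : ℝ) + 3) ^ 2 * (|t| * (2 * (C * σ * β' / (r : ℝ) ^ 2))) ^ 2 ≤ x ^ 2 := by
    refine le_trans ?_ (pow_le_pow_left₀ (by positivity) hx 2)
    have h1 : 2 * (2 * (⌊2 * β'⌋₊ : ℝ) + 3) ^ 2 ≤ (10 * β') ^ 2 := by
      have : (2 * (⌊2 * β'⌋₊ : ℝ) + 3) ^ 2 ≤ (7 * β') ^ 2 :=
        pow_le_pow_left₀ (by positivity) (by linarith) 2
      nlinarith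
    refine (mul_le_mul_of_nonneg_right h1 (sq_nonneg _)).trans_eq ?_
    rw [← mul_pow]; congr 1; ring
  exact ⟨RJ57.f2_mono (f2_A0_bl hΛ hout fun e he y _ => hK e he y) hle, fun b hb =>
    RJ57.f2_mono (f2_A0_an (c' := 0) hΛ (fun y hy => by simp [hb y hy]) hout
      fun e he y _ => hK e he y) hle⟩

end Crest.Agent.T145.F94
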