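import Crest.Agent.T145.FlBas_4
import Crest.Agent.T145.KrSw_44
import Crest.Agent.T145.XiC_22
import Crest.Agent.T145.Soft_23

/-!
# Row 145, odd flow: the soft lower bound `E (S_a S_b) ≥ c (b / a) ^ (-π g)` from (Q) (helper11)
-/

set_option autoImplicit false

namespace Crest.Agent.T145.Fl.L11

open Finset Pot Xi Real

/-! ## Green forms of the smeared charges -/

theorem op_A0 {D : Finset Pt} {x : Pt} (hx : x ∈ D) (u : Pt → ℝ) : op (eD nL D) u x = A0 u x := by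
  rw [op_eD nL_ok hx, A0_apply, nL_J]; rfl

theorem gr_A0 {D : Finset Pt} {u : Pt → ℝ} (hu : Pot.Sup D u) : gr D (eD nL D) (A0 u) = u :=
  (Kr.Sw44.coD D).gr_unique' hu fun _ hx => op_A0 hx u

theorem xg_A0 {D : Finset Pt} {u : Pt → ℝ} (hu : Pot.Sup D u) : Kr.xg D (A0 u) = A0 u := by
  funext x
  rw [Kr.xg, gr_A0 hu, Kr.Sw44.op_of_sup nL_ok (subset_insert x D) hu, op_A0 (mem_insert_self x D)]

theorem sw_A0 {D : Finset Pt} {u : Pt → ℝ} (hu : Pot.Sup D u) : Kr.sw D (A0 u) = 0 := by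
  rw [Kr.sw, xg_A0 hu, sub_self]

theorem GD_A0 {D : Finset Pt} (f : Pt → ℝ) {u : Pt → ℝ} (hu : Pot.Sup D u) :
    GD nL D f (A0 u) = ∑ x ∈ D, f x * u x := by
  rw [GD, G, gr_A0 hu]; rfl

theorem xi_eq (r : ℝ) : xi r = dl (0 : Pt) + A0 (Phi r) := funext (xi_apply r)

theorem GD_xi {n : ℕ} {a b : ℝ} (ha : 0 < a) (hb : 0 < b) (h1 : 2 * a ≤ n) (h2 : 2 * b ≤ n) :
    GD nL (bl 0 n) (xi a) (xi b) =
      GD nL (bl 0 n) (dl 0) (dl 0) - cr a + ∑ x ∈ bl 0 n, Phi b x * xi a x := by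
  have co := Kr.Sw44.coD (bl 0 n)
  have e1 : GD nL (bl 0 n) (xi a) (xi b) = GD nL (bl 0 n) (xi a) (dl 0) + GD nL (bl 0 n) (xi a) (A0 (Phi b)) := by
    conv_lhs => rw [xi_eq b]
    exact co.G_add_right _ _ _
  have e2 : GD nL (bl 0 n) (xi a) (dl 0) =
      GD nL (bl 0 n) (dl 0) (dl 0) + GD nL (bl 0 n) (dl 0) (A0 (Phi a)) := by
    rw [GD, co.G_comm, xi_eq a]
    exact co.G_add_right _ _ _
  rw [e1, e2, GD_A0 _ (sup_Phi ha (by linarith)), GD_A0 _ (sup_Phi hb (by linarith))]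
  have e3 : ∑ x ∈ bl 0 n, dl (0 : Pt) x * Phi a x = -cr a := by
    rw [← Phi_zero ha]; exact ip_dl (self_mem_bl _ _) _
  rw [e3]
  simp only [mul_comm (xi a _)]
  ring

theorem GD_self {n : ℕ} {a : ℝ} (ha : 0 < a) (h : 2 * a ≤ n) :
    GD nL (bl 0 n) (xi a) (xi a) = GD nL (bl 0 n) (dl 0) (dl 0) - cr a - er a := by
  rw [GD_xi ha ha h h, er_eq ha (bl_mono 0 (Nat.ceil_le.2 h))]; ring

theorem GD_two {n : ℕ} {a b : ℝ} (ha : 0 < a) (hab : 2 * a + 1 ≤ b) (h : 2 * b ≤ n) :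
    GD nL (bl 0 n) (xi a) (xi b) = GD nL (bl 0 n) (dl 0) (dl 0) - cr b := by
  have hb : 0 < b := by linarith
  have hk : 2 * a ≤ (⌈2 * a⌉₊ : ℕ) := Nat.le_ceil _
  have hk' : ((⌈2 * a⌉₊ : ℕ) : ℝ) ≤ b := (Nat.ceil_lt_add_one (by linarith)).le.trans hab
  rw [GD_xi ha hb (by linarith) h, ← sum_subset (bl_mono 0 (Nat.ceil_le.2 (by linarith : 2 * a ≤ n)))
    fun x _ hx => by rw [sup_xi ha hk x hx, mul_zero],
    sum_congr rfl fun x hx => by rw [Phi_in hb hk' hx, sub_mul]]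
  have := pk_pair ha hk 0
  simp only [sub_zero] at this
  rw [sum_sub_distrib, this, ← mul_sum, sum_xi ha hk, psi_in ha (n := 0) (by simpa using ha.le) (self_mem_bl _ _)]
  ring

theorem le_G00 : ∃ C : ℝ, 0 ≤ C ∧ ∀ (n : ℕ) (b : ℝ), 0 < b → 1 ≤ n →
    cr b + log (n / b) / (2 * π) - C / n ≤ GD nL (bl 0 n) (dl 0) (dl 0) := by
  obtain ⟨C, hC, h⟩ := pk_sub_cr
  refine ⟨C, hC, fun n b hb hn => ?_⟩
  have hn' : (0 : ℝ) < n := by exact_mod_cast hn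
  have := le_GD_dl (D := bl 0 n) (self_mem_bl 0 n) 0 (M := cr b + log (n / b) / (2 * π) - C / n)
    fun w _ e _ hw => by
      have h1 := le_eu_of_not_bl hw
      have h0 : w + e - 0 ≠ 0 := fun h0 => hw (by rw [sub_zero] at h0; rw [h0]; exact self_mem_bl _ _)
      have h2 := (abs_le.1 (h b hb _ h0)).1
      have h3 : log (n / b) / (2 * π) ≤ log (eu (w + e - 0) / b) / (2 * π) := by
        gcongr; linarith
      have h4 : C / eu (w + e - 0) ≤ C / n := by gcongr; linarith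
      linarith
  rwa [sub_zero, pk_zero, sub_zero] at this

/-! ## (Q) for a charge in an ambient model -/

theorem chq (hQ : Kr.QStmt) : Soft fun Λ K ε _ l L => ∀ (n : ℕ) (m : Mdl Pt) (f : Pt → ℝ),
    Nc.Amb Λ m (bl 0 n) → (n : ℝ) ≤ K * L → (∀ x, |f x| ≤ K / (L : ℝ) ^ 2) →
    |Ex (m.W 0) (fun s => cos (pr f s)) - exp (-(Λ.gN l * GD nL (bl 0 n) f f) / 2) *
      Ex (m.W 0) fun s => cos (pr (Kr.sw (bl 0 n) f) s)| ≤ ε := by
  refine hQ.mono fun Λ K ε δ l L hΛ hK _ _ h n m f hm hn hf => ?_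
  have q := (h (bl 0 n) f ⟨0, L, bl_mono 0 (Nat.le_floor hn),
    le_mul_of_one_le_left (Nat.cast_nonneg _) hK, ext_bl 0 n L⟩ fun x _ => hf x).1 m hm
  set a := exp (-(Λ.gN l * GD nL (bl 0 n) f f) / 2)
  obtain ⟨p1, p2, -⟩ := Kr.qpStmt Λ (bl 0 n) f a hΛ
  have hW : Wt (m.W 0) := (hm.ctr.cen hm.anch).wt
  obtain ⟨i1, e1⟩ := hm.near.dlr hΛ hm.ctr.1 hm.sub hW (hW.ig_bdd fun s => abs_cos_le_one (pr f s))
  have i2 := (hW.ig_bdd fun s => abs_cos_le_one (pr (Kr.sw (bl 0 n) f) s)).const_mul a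
  rw [e1, ← Ex_const_mul, ← Ex_sub i1 i2]
  refine (abs_Ex_le hW.nonneg (i1.sub i2)).trans ((Ex_mono hW.nonneg ((i1.sub i2).abs hW.nonneg)
    (hW.ig_bdd fun s => (abs_of_nonneg (p2 s).1).trans_le (p2 s).2) fun s => ?_).trans q)
  simpa only [add_zero] using p1 (fun _ => 0) s (Out.const _ _)

theorem sn_sn (a b : ℝ) (s : Cfg Pt) : Sn a s * Sn b s =
    (cos (pr ((2 * π) • (xi b - xi a)) s) - cos (pr ((2 * π) • (xi a + xi b)) s)) / 2 := by
  simp only [Sn, pr_smul, pr_sub, pr_add, AddMonoidHom.smul_apply, AddMonoidHom.sub_apply,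
    AddMonoidHom.add_apply, smul_eq_mul, mul_sub, mul_add, cos_sub, cos_add]
  ring

/-- LOW -/
theorem low (hQ : Kr.QStmt) : ∃ c₀ C₀ : ℝ, 0 < c₀ ∧ Soft fun Λ K ε _ l L =>
    ∀ (a b : ℝ) (n : ℕ) (m : Mdl Pt), Nc.Amb Λ m (bl 0 n) → C₀ ≤ a → 2 * a + 1 ≤ b → (n : ℝ) = 2 * b →
      (L : ℝ) ≤ K * a → (n : ℝ) ≤ K * L → 1 / 2 ≤ Λ.gN l → Λ.gN l ≤ 1 →
      c₀ * (b / a) ^ (-(π * Λ.gN l)) - ε ≤ Ex (m.W 0) fun s => Sn a s * Sn b s := by
  obtain ⟨C, hC, hG⟩ := le_G00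
  obtain ⟨Ce, hCe, he⟩ := abs_er_le
  obtain ⟨Cx, hCx, hx⟩ := abs_xi_le
  refine ⟨exp (-(4 * π ^ 2 * Ce)) / 4, 1 + 10 * C, by positivity, fun F θ₀ K ε h0 hK hε => ?_⟩
  obtain ⟨δ, hδ, H⟩ := chq hQ F θ₀ (K + 4 * π * Cx * K ^ 2) ε h0
    (hK.trans (le_add_of_nonneg_right (by positivity))) hε
  refine ⟨δ, hδ, fun Λ hΛ l L hw a b n m hm ha hab hn hL hn' g1 g2 => ?_⟩
  set g := Λ.gN l
  have hL0 : (0 : ℝ) < L := hw.L_pos'
  have a1 : 1 ≤ a := by linarith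
  have a0 : 0 < a := by linarith
  have b0 : 0 < b := by linarith
  have hf : ∀ x, 2 * π * (|xi a x| + |xi b x|) ≤ (K + 4 * π * Cx * K ^ 2) / (L : ℝ) ^ 2 := fun x => by
    have h1 : Cx / b ^ 2 ≤ Cx / a ^ 2 := by gcongr; linarith
    have h2 : Cx / a ^ 2 ≤ Cx * K ^ 2 / (L : ℝ) ^ 2 := by
      rw [div_le_div_iff₀ (by positivity) (by positivity), mul_assoc, ← mul_pow]
      gcongr
    calc _ ≤ 2 * π * (Cx * K ^ 2 / (L : ℝ) ^ 2 + Cx * K ^ 2 / (L : ℝ) ^ 2) := by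
          gcongr
          exacts [(hx a a1 x).trans h2, (hx b (by linarith) x).trans (h1.trans h2)]
      _ = 4 * π * Cx * K ^ 2 / (L : ℝ) ^ 2 := by ring
      _ ≤ _ := by gcongr; linarith
  have hn2 : (n : ℝ) ≤ (K + 4 * π * Cx * K ^ 2) * L :=
    hn'.trans (by gcongr; exact le_add_of_nonneg_right (by positivity))
  have q1 := H Λ hΛ l L hw n m ((2 * π) • (xi b - xi a)) hm hn2 fun x => le_trans (by
    rw [Pi.smul_apply, smul_eq_mul, abs_mul, abs_of_pos two_pi_pos, add_comm]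
    gcongr; exact abs_sub _ _) (hf x)
  have q2 := H Λ hΛ l L hw n m ((2 * π) • (xi a + xi b)) hm hn2 fun x => le_trans (by
    rw [Pi.smul_apply, smul_eq_mul, abs_mul, abs_of_pos two_pi_pos]
    gcongr; exact abs_add_le _ _) (hf x)
  have hW : Wt (m.W 0) := (hm.ctr.cen hm.anch).wt
  have co := Kr.Sw44.coD (bl 0 n)
  have s1 : Kr.sw (bl 0 n) ((2 * π) • (xi b - xi a)) = 0 := by
    rw [Kr.Sw44.sw_smul, xi_sub, sw_A0 ((sup_Phi b0 (by linarith)).sub (sup_Phi a0 (by linarith))), smul_zero]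
  have gaa := GD_self (n := n) a0 (by linarith)
  have gbb := GD_self (n := n) b0 (by linarith)
  have gab := GD_two (n := n) a0 hab (by linarith)
  have gba : GD nL (bl 0 n) (xi b) (xi a) = _ := (co.G_comm _ _).trans gab
  have v1 : GD nL (bl 0 n) ((2 * π) • (xi b - xi a)) ((2 * π) • (xi b - xi a)) =
      (2 * π) ^ 2 * (log (b / a) / (2 * π) - er a - er b) := by
    simp only [GD] at gaa gbb gab gba ⊢
    rw [co.G_smul, G_sub_left, co.G_sub_right, co.G_sub_right, gaa, gbb, gab, gba, ← cr_sub a0 b0]; ring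
  have v2 : GD nL (bl 0 n) ((2 * π) • (xi a + xi b)) ((2 * π) • (xi a + xi b)) =
      (2 * π) ^ 2 * (log (b / a) / (2 * π) - er a - er b + 4 * (GD nL (bl 0 n) (dl 0) (dl 0) - cr b)) := by
    simp only [GD] at gaa gbb gab gba ⊢
    rw [co.G_smul, G_add_left, co.G_add_right, co.G_add_right, gaa, gbb, gab, gba, ← cr_sub a0 b0]; ring
  rw [s1, v1] at q1
  simp only [pr_zero, AddMonoidHom.zero_apply, cos_zero, hW.ex_const, mul_one] at q1
  rw [v2] at q2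
  set A := exp (-(g * ((2 * π) ^ 2 * (log (b / a) / (2 * π) - er a - er b))) / 2) with hA
  have hA0 : 0 < A := exp_pos _
  have g0 := hG n b b0 (by exact_mod_cast (by linarith : (1 : ℝ) ≤ n))
  rw [show (n : ℝ) / b = 2 by rw [hn]; field_simp] at g0
  have l2 := log_two_gt_d9
  have l2' := log_two_lt_d9
  have p3 := pi_gt_three
  have p4 := pi_lt_four
  have k1 : 1 / 20 ≤ GD nL (bl 0 n) (dl 0) (dl 0) - cr b := by
    have h1 : C / n ≤ 1 / 40 := by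
      rw [div_le_div_iff₀ (by linarith) (by norm_num)]; linarith
    have h2 : 3 / 40 ≤ log 2 / (2 * π) := by rw [le_div_iff₀ two_pi_pos]; linarith
    linarith
  have k2 : exp (-(g * ((2 * π) ^ 2 * (log (b / a) / (2 * π) - er a - er b +
      4 * (GD nL (bl 0 n) (dl 0) (dl 0) - cr b)))) / 2) ≤ A / 2 := by
    rw [hA, le_div_iff₀ two_pos, ← exp_log two_pos, ← exp_add, exp_log two_pos]
    refine exp_le_exp.2 ?_
    have : 1 / 2 * (36 * (1 / 20)) ≤ g * ((2 * π) ^ 2 * (GD nL (bl 0 n) (dl 0) (dl 0) - cr b)) := by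
      gcongr; nlinarith
    nlinarith
  have k3 : exp (-(4 * π ^ 2 * Ce)) * (b / a) ^ (-(π * g)) ≤ A := by
    rw [hA, rpow_def_of_pos (div_pos b0 a0), ← exp_add]
    refine exp_le_exp.2 ?_
    have e1 := (abs_le.1 (he a a1)).1
    have e2 := (abs_le.1 (he b (by linarith))).1
    have e3 : -(g * ((2 * π) ^ 2 * (log (b / a) / (2 * π) - er a - er b))) / 2 =
        log (b / a) * -(π * g) + 2 * π ^ 2 * (g * (er a + er b)) := by field_simp; ring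
    have e4 : -(2 * Ce) ≤ g * (er a + er b) := by nlinarith
    rw [e3]
    nlinarith [mul_le_mul_of_nonneg_left e4 (by positivity : 0 ≤ 2 * π ^ 2)]
  have c1 := abs_le.1 (hW.abs_ex_le (C := 1) fun s _ =>
    abs_cos_le_one (pr (Kr.sw (bl 0 n) ((2 * π) • (xi a + xi b))) s))
  simp only [sn_sn]
  rw [Ex_div_const, Ex_sub (hW.ig_bdd fun s => abs_cos_le_one _) (hW.ig_bdd fun s => abs_cos_le_one _)]
  have q1' := (abs_le.1 q1).1
  have q2' := (abs_le.1 q2).2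
  nlinarith [mul_le_mul_of_nonneg_left c1.2 (exp_pos (-(g * ((2 * π) ^ 2 * (log (b / a) / (2 * π) - er a - er b +
      4 * (GD nL (bl 0 n) (dl 0) (dl 0) - cr b)))) / 2)).le]

end Crest.Agent.T145.Fl.L11
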