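import Crest.Agent.T145.FlCone_64
import Crest.Agent.T145.FlRate_98

/-!
# Row 145, odd flow: small lemmas for the assembly (helper64)
-/

set_option autoImplicit false

namespace Crest.Agent.T145.Fl.O64

open Finset Real

variable {p : Par} {Λ : Lat} {ω : (Cfg Pt → ℝ) → ℝ} {L N r c : ℕ} {F G : Cfg Pt → ℝ} {z z' : Pt}
  {m m' : Mdl Pt} {R Y : ℝ}

theorem Gs.anti (h : Gs p Λ L) {L' : ℕ} (hL : L' ≤ L) : Gs p Λ L' :=
  ⟨h.mem, h.w4, h.gd.1, h.gd.2.1, fun r h1 h2 => h.gd.2.2 r h1 (h2.trans hL)⟩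

/-- a larger box -/
theorem nm_le (h : Gs p Λ L) (h0 : p.r₀ ≤ r) (hL : r ≤ L) {q : ℕ} (hq : r ≤ q) (hc : p.w * q ≤ c)
    (hF : Ins z r F) : Nc.Nm Λ z c (Nc.St Λ z q F) ≤ 2 * nu Λ p.w z r F := by
  have i := A51.ir h h0 hF
  have h1 := A51.four_le h q
  have h2 := h.gd.2.1
  have h3 : p.w * r ≤ p.w * q := Nat.mul_le_mul_left _ hq
  exact (FlF4.nu_up h.mem.ok le_rfl i.rc (h3.trans hc) hq (by omega) i.dep i.ig).trans
    (mul_le_mul_of_nonneg_right (A51.gam_le h h0 hL).2 (A51.nu_nonneg h.mem.ok _ _ _ _))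

theorem abs_ex_le (h : Gs p Λ L) (h0 : p.r₀ ≤ r) (hL : r ≤ L) (hm : Nc.Amb Λ m (bl z (p.w * r)))
    (hF : Ins z r F) : |Ex (m.W 0) F| ≤ 2 * nu Λ p.w z r F := by
  have hB : bl z r ⊆ m.A := (A51.sub_big h z r).trans hm.sub
  have k := FlF4.fus0 h.mem.ok hB (A51.ir h h0 hF) hm subset_rfl
  exact (FlF4.abs_ex_le_nc hm.ctr hm.anch hB k.1).trans (k.2.trans
    (mul_le_mul_of_nonneg_right (A51.gam_le h h0 hL).2 (A51.nu_nonneg h.mem.ok _ _ _ _)))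

/-- change of the ambient model -/
theorem amb (w : ℕ) : ∃ C : ℝ, 0 ≤ C ∧ ∀ (p : Par) (Λ : Lat) (L : ℕ), p.w = w → Gs p Λ L →
    ∀ (m m' : Mdl Pt) (z : Pt) (r R : ℕ) (F : Cfg Pt → ℝ), p.r₀ ≤ r → r ≤ R → w * R ≤ L →
      Nc.Amb Λ m (bl z (w * R)) → Nc.Amb Λ m' (bl z (w * R)) → Ins z r F →
      |Ex (m'.W 0) F - Ex (m.W 0) F| ≤ C * ((r : ℝ) / R) ^ cw w * nu Λ w z r F := by
  obtain ⟨C, C0, H⟩ := rateStmt w
  refine ⟨2 * C, by positivity, ?_⟩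
  rintro p Λ L rfl h m m' z r R F h0 hr hL hm hm' hF
  have h1 := A51.four_le h R
  have k := abs_ex_le h (h0.trans hr) (by omega) hm' ((hF.mono hr).sub_const (Ex (m.W 0) F))
  rw [(hm'.ctr.wt hm'.anch 0).ex_sub_const (FlF4.ig_tame hm'.ctr hm'.anch hF.2)] at k
  have := H p Λ L rfl h m z r R F h0 hr hL hm hF
  linarith

theorem nu_J (h : Gs p Λ L) (r : ℕ) (z : Pt) : nu Λ p.w z r (Jz z) = nu Λ p.w 0 r (Jz 0) := by
  rw [← trl_Jz]; exact Om.Nm_St_trl h.mem.ok z _ _ _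

/-- the two-point function of `J` in any model -/
theorem jj (h : Gs p Λ L) (h0 : p.r₀ ≤ r) (hL : r ≤ L) (hm : Nc.Amb Λ m (bl z (p.w * r)))
    (hm' : Nc.Amb Λ m (bl z' (p.w * r))) (hd : Disjoint (bl z (p.w * r)) (bl z' (p.w * r))) :
    |Ex (m.W 0) fun s => Jz z s * Jz z' s| ≤ 4 * nu Λ p.w 0 r (Jz 0) ^ 2 := by
  have h1 : 1 ≤ r := by have := Cone.two_le h h0; omega
  have o : ∀ B : Finset Pt, Out B fun _ : Cfg Pt => (1 : ℝ) := fun _ _ _ _ => rfl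
  have k := FlF4.fus2 (B := m.A) h.mem.ok subset_rfl (A51.ir h h0 (ins_Jz z h1)) hm
    ((A51.sub_big h z r).trans hm.sub) (o _) (A51.ir h h0 (ins_Jz z' h1)) hm'
    ((A51.sub_big h z' r).trans hm'.sub) (o _) hd (K := 1) fun _ => by simp
  have g := A51.gam_le h h0 hL
  have n := A51.nu_nonneg h.mem.ok p.w 0 r (Jz 0)
  rw [FlF4.nc_self hm.ctr hm.anch, ← A51.nu_eq, ← A51.nu_eq, nu_J h r z, nu_J h r z'] at k
  simp only [one_mul] at k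
  have a := mul_le_mul_of_nonneg_right g.2 n
  refine k.2.trans ((mul_le_mul a a (mul_nonneg g.1 n) (by positivity)).trans_eq (by ring))

end Crest.Agent.T145.Fl.O64
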