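import Crest.Agent.T145.FlDef2_82
import Crest.Agent.T145.FlOddA_64
import Crest.Agent.T145.FlEnv_30
import Crest.Agent.T145.Soft_23

/-!
# Row 145, odd flow: from a verified scale to the results of the core (helper64)
-/

set_option autoImplicit false

namespace Crest.Agent.T145.Fl.O64

open Finset Real

variable {q : Dat} {F : Fa} {θ₀ y₀ A : ℝ} {Λ : Lat} {r₁ k₀ N k : ℕ}

theorem W_cast (q : Dat) : (q.W : ℝ) = 2 ^ q.v := by simp [Dat.W]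
theorem W_pow (q : Dat) (k : ℕ) : q.fw.r k = q.W ^ k := by simp [Dat.W, Dat.fw, Mid.Fw.r, pow_mul]
theorem R_eq (q : Dat) (k : ℕ) : q.R k = 2 * (q.W : ℝ) ^ k := rfl
theorem R_eq' (q : Dat) (k : ℕ) : q.R k = 2 * ((q.W ^ k : ℕ) : ℝ) := by rw [R_eq, Nat.cast_pow]
theorem one_le_W (q : Dat) : 1 ≤ q.W := Nat.one_le_two_pow
theorem one_le_W' (q : Dat) : (1 : ℝ) ≤ q.W := by exact_mod_cast one_le_W q
theorem one_le_Wk (q : Dat) (k : ℕ) : (1 : ℝ) ≤ (q.W : ℝ) ^ k := one_le_pow₀ (one_le_W' q)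
theorem R_pos (q : Dat) (k : ℕ) : 0 < q.R k := by rw [R_eq]; linarith [one_le_Wk q k]
theorem R_mono (q : Dat) {j k : ℕ} (h : j ≤ k) : q.R j ≤ q.R k := by
  rw [R_eq, R_eq]; linarith [pow_le_pow_right₀ (one_le_W' q) h]
theorem four_le_W (c : q.Core F θ₀) : 4 ≤ q.W := Nat.pow_le_pow_right two_pos c.v2
theorem four_le_W' (c : q.Core F θ₀) : (4 : ℝ) ≤ q.W := by exact_mod_cast four_le_W c
theorem L_mono (q : Dat) {N N' : ℕ} (h : N ≤ N') : q.L N ≤ q.L N' :=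
  Nat.pow_le_pow_right two_pos (Nat.sub_le_sub_right h _)
theorem L_le (q : Dat) (N : ℕ) : q.L N ≤ 2 ^ N := Nat.pow_le_pow_right two_pos (Nat.sub_le _ _)
theorem kap_eq (q : Dat) : q.fw.κ = π * log q.W := by rw [W_cast]; rfl
theorem kap_nonneg (q : Dat) : 0 ≤ q.fw.κ := by
  rw [kap_eq]; exact mul_nonneg pi_pos.le (log_nonneg (one_le_W' q))
theorem x_eq (q : Dat) (Λ : Lat) (N k : ℕ) :
    q.fw.x Λ N k = q.fw.κ * (gk (tor Λ N) (q.R k) - 2 / π) := by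
  rw [kap_eq]; change xk _ _ _ = _; rw [xk]; field_simp

/-- `2 ^ (-c)` -/
noncomputable def th (c : ℝ) : ℝ := (1 / 2 : ℝ) ^ c

theorem th_pos (c : ℝ) : 0 < th c := rpow_pos_of_pos (by norm_num) c
theorem th_lt {c : ℝ} (h : 0 < c) : th c < 1 := rpow_lt_one (by norm_num) (by norm_num) h

theorem ratio (h : q.v * k + q.s ≤ N) (c : ℝ) :
    (q.R k / q.L N) ^ c = (2 ^ (q.s + 1) : ℝ) ^ c * th c ^ (N - q.v * k) := by
  obtain ⟨n, rfl⟩ := Nat.exists_eq_add_of_le h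
  rw [th, ← rpow_mul_natCast (by norm_num), mul_comm c, rpow_natCast_mul (by norm_num),
    ← mul_rpow (by positivity) (by positivity), R_eq, W_cast, Dat.L,
    show q.v * k + q.s + n - q.s = q.v * k + n by omega, show q.v * k + q.s + n - q.v * k = q.s + n by omega]
  congr 1
  push_cast
  rw [← pow_mul, one_div, inv_pow]
  field_simp
  ring

/-- the scale `k` of the torus `N` is verified, with room `A` -/
structure At (q : Dat) (Λ : Lat) (y₀ A : ℝ) (r₁ k₀ N k : ℕ) : Prop extends q.Res Λ y₀ r₁ k₀ N where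
  k0 : k₀ ≤ k
  room : A * (q.W : ℝ) ^ (k + 1) ≤ q.L N
  top : q.v * k + q.s ≤ N

theorem base (c : q.Core F θ₀) (hy : 0 < y₀) (A : ℝ) : ∃ (δ : ℝ) (s : ℕ), 0 < δ ∧ q.s ≤ s ∧
    A ≤ 2 ^ (s - q.s) ∧ ∀ l, ∃ r₁ k₀,
    ∀ (P : Mid.Par) Λ N k, s ≤ P.s → P.δ ≤ δ → q.fw.V F θ₀ P Λ l N k → k₀ ≤ k →
      At q Λ y₀ A r₁ k₀ N k := by
  obtain ⟨δ, h0, h1, H⟩ := c.res y₀ hy
  obtain ⟨t, ht⟩ := pow_unbounded_of_one_lt A (one_lt_two (α := ℝ))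
  refine ⟨δ, q.s + t, h0, by omega, by simpa using ht.le, fun l => ?_⟩
  obtain ⟨r₁, k₀, H⟩ := H l
  refine ⟨r₁, k₀, fun P Λ N k hs hδ hV hk => ?_⟩
  have h2 : q.v * (k + 1) + P.s ≤ N := hV.2.2
  have h3 : q.v * k₀ ≤ q.v * k := Nat.mul_le_mul_left _ hk
  rw [mul_add, mul_one] at h2
  refine ⟨H Λ N hV.1 ⟨hV.2.1.1.mono_d hδ, hV.2.1.2.trans (hδ.trans h1)⟩ (by omega), hk, ?_, by omega⟩
  calc _ ≤ 2 ^ t * (q.W : ℝ) ^ (k + 1) := by gcongr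
    _ = 2 ^ (t + q.v * (k + 1)) := by rw [W_cast, ← pow_mul, pow_add]
    _ ≤ q.L N := by
      rw [Dat.L]; push_cast
      exact pow_le_pow_right₀ one_le_two (by rw [mul_add, mul_one]; omega)

namespace At
variable (h : At q Λ y₀ A r₁ k₀ N k)
include h

theorem env : Env q.p Λ (tor Λ N) (q.L N) (nA Λ N) := h.pack.toEnv
theorem gs : Gs q.p Λ (q.L N) := h.pack.toGs

theorem r1_le : r₁ ≤ q.W ^ k := by
  have h1 := h.r1.trans (Nat.pow_le_pow_right (one_le_W q) h.k0)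
  nlinarith
theorem r0_le : q.p.r₀ ≤ q.W ^ k := h.r0.trans h.r1_le

theorem room' {B : ℝ} (hB : B ≤ A) {t : ℝ} (ht : t ≤ B * (q.W : ℝ) ^ (k + 1)) : t ≤ q.L N :=
  ht.trans ((mul_le_mul_of_nonneg_right hB (by positivity)).trans h.room)

theorem roomR {B : ℝ} (h0 : 0 ≤ B) (hB : 2 * B ≤ A) : B * q.R k ≤ q.L N := h.room' hB (by
  have := mul_le_mul_of_nonneg_left (pow_le_pow_right₀ (one_le_W' q) (by omega : k ≤ k + 1)) h0
  rw [R_eq]; linarith)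

theorem roomN {n : ℕ} (hn : n ≤ q.W ^ (k + 1)) {B : ℝ} (h0 : 0 ≤ B) (hB : B ≤ A) : B * n ≤ q.L N :=
  h.room' hB (mul_le_mul_of_nonneg_left (by exact_mod_cast hn) h0)

theorem roomW {n : ℕ} (hn : n ≤ q.W ^ (k + 1)) (hB : (q.p.w : ℝ) ≤ A) : q.p.w * n ≤ q.L N := by
  exact_mod_cast h.roomN hn (Nat.cast_nonneg _) hB

theorem majR : Maj q.p Λ (q.L N) (q.R k) y₀ := h.maj _ (R_mono q h.k0)

theorem majD (h0 : 0 ≤ q.C) (hA : 2 * q.C ≤ A) :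
    Maj q.p Λ (q.L N) (q.R k) (q.D * q.y Λ N k) ∧ q.y Λ N k ≤ y₀ := h.cone k h.k0 (h.roomR h0 hA)

theorem lnkR (h0 : 0 ≤ q.C) (hA : 2 * q.C ≤ A) :
    1 / 4 ≤ gk (tor Λ N) (q.R k) ∧ gk (tor Λ N) (q.R k) ≤ 1 := h.lnk _ (R_mono q h.k0) (h.roomR h0 hA)

end At

/-- constants -/
noncomputable def mkP (s : ℕ) {C d c δ : ℝ} (hC : 0 ≤ C) (hd : 0 < d) (hd1 : d < 1) (hc : 0 < c)
    (hδ : 0 < δ) : Mid.Par :=
  ⟨s, C, d, th c, 1, δ, hC, hd, hd1, th_pos c, th_lt hc, one_pos, hδ⟩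

end Crest.Agent.T145.Fl.O64
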