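import Crest.Agent.T145.FlSXa_44

/-!
# Row 145, module FLOW (helper44): STEP-x, part b: the sine-sine expectations
-/

set_option autoImplicit false

namespace Crest.Agent.T145.Fl.SX44

open Finset Pot Xi Real

/-- the side conditions on the scales -/
structure Sc (W w R u L a n r : ℝ) : Prop where
  M1 : 1 ≤ 10 ^ 4 * W * w * u ^ 91
  a64 : 64 * a ≤ R
  T1 : 4 * W * R ≤ 10 ^ 4 * W * w * u ^ 91 * (a / 4)
  T2 : 4 * W * R ≤ 10 ^ 4 * W * w * u ^ 91 * R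
  T3 : R ≤ 4 * W * R
  n1 : 8 * (4 * W * R) ≤ n
  n2 : n ≤ 10 ^ 4 * W * w * u ^ 91 * (a / 4)
  n3 : n ≤ 10 ^ 4 * W * w * u ^ 91 * R
  n4 : n + 1 + w * r ≤ L
  n5 : 4 * W * R / n ≤ 1 / u ^ 81
  r1 : R / (10 ^ 4 * W * w * u ^ 91) ≤ r
  r2 : r ≤ 10 ^ 4 * W * w * u ^ 91 * R

theorem sc {W w R u L a n r : ℝ} (hW : 2 ≤ W) (hw : 4 ≤ w) (hR : 1 ≤ R) (hu : 1 ≤ u)
    (h1 : (70 * W) ^ 2 * R ≤ L) (h2 : u ^ 162 * R ≤ L) (ha : 0 < a) (h3 : 16 * w * a ≤ R)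
    (h4 : R ≤ 32 * w * (u ^ 10 * a)) (h5 : 32 * W * R * u ^ 81 ≤ n) (h6 : n ≤ 32 * W * R * u ^ 81 + 1)
    (h7 : a / 8 ≤ r) (h8 : r ≤ a / 4) : Sc W w R u L a n r := by
  have hU : 1 ≤ u ^ 81 := one_le_pow₀ hu
  have hV : 1 ≤ u ^ 10 := one_le_pow₀ hu
  have e : u ^ 91 = u ^ 81 * u ^ 10 := by ring
  have e' : u ^ 162 = (u ^ 81) ^ 2 := by ring
  rw [e'] at h2
  set U := u ^ 81
  set V := u ^ 10
  have hL : 70 * W * U * R ≤ L := by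
    refine le_of_pow_le_pow_left₀ two_ne_zero (le_trans (by positivity) h1) ?_
    calc _ = ((70 * W) ^ 2 * R) * (U ^ 2 * R) := by ring
      _ ≤ L * L := mul_le_mul h1 h2 (by positivity) (le_trans (by positivity) h1)
      _ = _ := by ring
  have p1 : W * R ≤ W * R * U := le_mul_of_one_le_right (by positivity) hU
  have p2 : 2 * R ≤ W * R := by nlinarith
  have p3 : W * R * U ≤ W * (32 * w * (V * a)) * U := by gcongr
  have p4 : 4 ≤ w * V := by nlinarith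
  have p5 : W * R * U * 4 ≤ W * R * U * (w * V) := by gcongr
  have p6 : 0 ≤ W * w * U * V * a := by positivity
  have p7 : w * r ≤ w * (a / 4) := by gcongr
  have p8 : 1 ≤ W * U := by nlinarith
  have p9 : w * V * a * 1 ≤ w * V * a * (W * U) := by gcongr
  have p10 : 4 * a ≤ w * a := by gcongr
  refine ⟨?_, by linarith, ?_, ?_, by linarith, by linarith, ?_, ?_, by linarith, ?_, ?_, ?_⟩ <;>
    try rw [e]
  · nlinarith
  · nlinarith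
  · nlinarith
  · nlinarith
  · nlinarith
  · rw [div_le_div_iff₀ (by linarith) (by positivity)]; nlinarith
  · rw [div_le_iff₀ (by positivity)]
    calc R ≤ 10 ^ 4 * W * w * (U * V) * (a / 8) := by nlinarith
      _ ≤ 10 ^ 4 * W * w * (U * V) * r := by gcongr
      _ = _ := by ring
  · nlinarith

theorem expo_le {g t B : ℝ} (k : ℝ) (hk : 0 ≤ k) (hk4 : k ≤ 4) (h0 : 0 ≤ g) (h1 : g ≤ 1) (hB : 0 ≤ B)
    (ht : -B ≤ t) : -k * π ^ 2 * g * t ≤ 40 * B := by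
  have h2 : π ^ 2 ≤ 10 := by nlinarith [pi_lt_d2, pi_pos]
  have h3 : k * π ^ 2 * g ≤ 4 * 10 * 1 := by gcongr
  have h4 : 0 ≤ k * π ^ 2 * g := by positivity
  nlinarith

theorem pk_ge {C : ℝ} (hC0 : 0 ≤ C) (hC : ∀ r : ℝ, 0 < r → ∀ z : Pt, z ≠ 0 →
    |pk z - cr r - log (eu z / r) / (2 * π)| ≤ C / eu z) {r : ℝ} (hr : 0 < r) {z : Pt}
    (h1 : 1 ≤ eu z) (h2 : r / 2 ≤ eu z) : -(C + 1) ≤ pk z - cr r := by
  have h3 := (abs_le.1 (hC r hr z fun h => by rw [h, eu_zero] at h1; linarith)).1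
  have h4 : C / eu z ≤ C := div_le_self hC0 h1
  have h5 : -1 ≤ log (eu z / r) := by
    have h6 : (2 : ℝ)⁻¹ ≤ eu z / r := by rw [le_div_iff₀ hr]; linarith
    have h7 := log_le_log (by norm_num) h6
    rw [log_inv] at h7
    linarith [log_two_lt_d9]
  have h8 : -1 ≤ log (eu z / r) / (2 * π) := by
    rw [le_div_iff₀ (by positivity)]; linarith [pi_gt_three]
  linarith

theorem small_u {t Y u : ℝ} {i j : ℕ} (hu : 1 ≤ u) (huY : u ^ (2 * j) * Y ≤ 1) (h0 : 0 ≤ t)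
    (h1 : t ^ 2 ≤ Y) (h2 : i + 81 ≤ j) : t * u ^ i ≤ 1 / u ^ 81 := by
  rw [le_div_iff₀ (by positivity), mul_assoc, ← pow_add]
  refine le_trans (mul_le_mul_of_nonneg_left (pow_le_pow_right₀ hu h2) h0) ?_
  refine le_of_pow_le_pow_left₀ two_ne_zero zero_le_one ?_
  calc _ = u ^ (2 * j) * t ^ 2 := by ring
    _ ≤ u ^ (2 * j) * Y := by gcongr
    _ ≤ _ := by linarith

theorem neu_num {CN CX D u Y E X : ℝ} {j : ℕ} (hN : 0 ≤ CN) (hX : 0 ≤ CX) (_hD : 0 ≤ D) (hu : 1 ≤ u)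
    (hM : 1 ≤ D * u ^ 91) (hY : 0 ≤ Y) (hY1 : Y ≤ 1) (huY : u ^ (2 * j) * Y ≤ 1) (hj : 809 ≤ j)
    (h0 : 0 ≤ X) (hE : X ≤ E) :
    CN * (1 + CX * (1 + log (D * u ^ 91))) ^ 3 * (D * u ^ 91) ^ 5 * Y * X ≤
      CN * (1 + CX) ^ 3 * D ^ 8 * E / u ^ 81 := by
  have h1 := log_nonneg hM
  have h2 := log_le_sub_one_of_pos (one_pos.trans_le hM)
  have h5 : 1 + CX * (1 + log (D * u ^ 91)) ≤ (1 + CX) * (D * u ^ 91) := by nlinarith
  have hE0 := h0.trans hE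
  calc _ ≤ CN * ((1 + CX) * (D * u ^ 91)) ^ 3 * (D * u ^ 91) ^ 5 * Y * E := by gcongr
    _ = CN * (1 + CX) ^ 3 * D ^ 8 * E * (Y * u ^ 728) := by ring
    _ ≤ CN * (1 + CX) ^ 3 * D ^ 8 * E * (1 / u ^ 81) :=
      mul_le_mul_of_nonneg_left (small_u hu huY hY (by nlinarith) (by omega)) (by positivity)
    _ = _ := by ring

theorem chg_num {CM CX D u Y : ℝ} {j k : ℕ} (hC : 0 ≤ CM) (hD : 0 ≤ D) (hu : 1 ≤ u)
    (hM : 1 ≤ D * u ^ 91) (hY : 0 ≤ Y) (huY : u ^ (2 * j) * Y ≤ 1) (hj : 91 * k + 81 ≤ j)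
    (hk : 4 * CM * CX ≤ k) :
    CM * √Y * exp (CM * (4 * (CX * (1 + log (D * u ^ 91))))) ≤ CM * (3 * D) ^ k / u ^ 81 := by
  have h0 := log_nonneg hM
  have h1 : exp (CM * (4 * (CX * (1 + log (D * u ^ 91))))) ≤ (3 * (D * u ^ 91)) ^ k := by
    calc _ ≤ exp (k * (1 + log (D * u ^ 91))) := by
          refine exp_le_exp.2 ?_
          rw [show CM * (4 * (CX * (1 + log (D * u ^ 91)))) =
            4 * CM * CX * (1 + log (D * u ^ 91)) by ring]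
          exact mul_le_mul_of_nonneg_right hk (by linarith)
      _ = (exp 1 * (D * u ^ 91)) ^ k := by rw [exp_nat_mul, exp_add, exp_log (by linarith)]
      _ ≤ _ := by gcongr; linarith [exp_one_lt_d9]
  calc _ ≤ CM * √Y * (3 * (D * u ^ 91)) ^ k := by gcongr
    _ = CM * (3 * D) ^ k * (√Y * u ^ (91 * k)) := by
      rw [mul_pow, mul_pow, mul_pow, ← pow_mul]; ring
    _ ≤ CM * (3 * D) ^ k * (1 / u ^ 81) := mul_le_mul_of_nonneg_left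
        (small_u hu huY (sqrt_nonneg _) (sq_sqrt hY).le hj) (by positivity)
    _ = _ := by ring

theorem exp_num {g E P B ε : ℝ} (h0 : 0 ≤ g) (h1 : g ≤ 1) (hB : 0 ≤ B) (hE : -B ≤ E) (hP : -B ≤ P)
    (h : |E - 2 * P| ≤ ε) :
    |exp (-2 * π ^ 2 * g * E) - exp (-4 * π ^ 2 * g * P)| ≤ exp (40 * B) * (20 * ε) := by
  refine (abs_exp_sub (expo_le 2 (by norm_num) (by norm_num) h0 h1 hB hE)
    (expo_le 4 (by norm_num) le_rfl h0 h1 hB hP)).trans (mul_le_mul_of_nonneg_left ?_ (exp_pos _).le)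
  rw [show -2 * π ^ 2 * g * E - -4 * π ^ 2 * g * P = -(2 * π ^ 2 * g * (E - 2 * P)) by ring, abs_neg,
    abs_mul, abs_of_nonneg (show 0 ≤ 2 * π ^ 2 * g by positivity)]
  have h5 : π ^ 2 ≤ 10 := by nlinarith [pi_lt_d2, pi_pos]
  exact mul_le_mul (by nlinarith) h (abs_nonneg _) (by norm_num)

theorem half_num {a₁ a₂ e A₁ A₂ A U : ℝ} (hU : 0 ≤ U) (h1 : |a₁| ≤ A₁ / U) (h2 : |a₂ - e| ≤ A₂ / U)
    (h3 : A₁ + A₂ ≤ A) : |(a₁ + a₂) / 2 - e / 2| ≤ A / U := by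
  rw [show (a₁ + a₂) / 2 - e / 2 = (a₁ + (a₂ - e)) / 2 by ring, abs_div, abs_two]
  refine (half_le_self (abs_nonneg _)).trans ((abs_add_le _ _).trans ((add_le_add h1 h2).trans ?_))
  rw [← add_div]
  exact div_le_div_of_nonneg_right h3 hU

set_option maxHeartbeats 1000000 in
theorem sines (hN : NeuStmt) (hC : CmStmt) (hX : XfStmt) (p : Par) {W : ℕ} (hW : 2 ≤ W) :
    ∃ (A : ℝ) (j : ℕ), 1 ≤ A ∧ 10 ≤ j ∧ ∀ Λ ω L N m, Env p Λ ω L N → Rep Λ ω m 0 N → ∀ R Y u : ℝ,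
      Maj p Λ L R Y → A * Y ≤ 1 → A * R ≤ L → 1 / 4 ≤ gk ω R → gk ω R ≤ 1 → 1 ≤ u → u ^ j * Y ≤ 1 →
      u ^ j * R ≤ L → ∀ a : ℕ, A ≤ a → 16 * p.w * (a : ℝ) ≤ R → R ≤ 32 * p.w * (u ^ 10 * a) →
      ∀ x : Pt, R / 2 ≤ eu x → eu x ≤ 4 * W * R →
      |Ex (m.W 0) (fun s => Sn (a / 4) s * trl x (Sn (a / 4)) s) -
        exp (-4 * π ^ 2 * gk ω R * (pk x - cr (a / 4) - er (a / 4))) / 2| ≤ A / u ^ 81 ∧
      |Ex (m.W 0) (fun s => Sn (a / 4) s * Sn R s) - exp (-2 * π ^ 2 * gk ω R *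
        (log (R / (a / 4)) / (2 * π) - er (a / 4) - er R)) / 2| ≤ A / u ^ 81 ∧
      exp (-4 * π ^ 2 * gk ω R * (pk x - cr R + er R)) ≤ A := by
  obtain ⟨CN, hN0, hN⟩ := hN p
  obtain ⟨CM, hM0, hM⟩ := hC p
  obtain ⟨CX, hX0, hX1, hX2, hX3⟩ := hX
  obtain ⟨Cp, hp0, hp⟩ := pk_sub_cr
  obtain ⟨Ce, he0, he⟩ := abs_er_le
  obtain ⟨k, hk⟩ : ∃ k : ℕ, 4 * CM * CX ≤ k := exists_nat_ge _
  obtain ⟨D, hD⟩ : ∃ t : ℝ, t = 10 ^ 4 * W * p.w := ⟨_, rfl⟩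
  obtain ⟨B, hB⟩ : ∃ t : ℝ, t = 2 * Cp + 2 * Ce + CX + 2 := ⟨_, rfl⟩
  have hcτ0 : 0 < FlF4.cB p.F.τ₂ 1 := FlF4.cB_pos _ _
  have hD0 : 0 ≤ D := by rw [hD]; positivity
  have hB0 : 0 ≤ B := by rw [hB]; positivity
  obtain ⟨A₁, hA₁⟩ : ∃ t : ℝ, t = CN * (1 + CX) ^ 3 * D ^ 8 * exp (40 * B) := ⟨_, rfl⟩
  obtain ⟨A₂, hA₂⟩ : ∃ t : ℝ, t = CM * (3 * D) ^ k := ⟨_, rfl⟩
  obtain ⟨A₃, hA₃⟩ : ∃ t : ℝ, t = 2 * π * (FlF4.cB p.F.τ₂ 1 * √CX) := ⟨_, rfl⟩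
  obtain ⟨A₄, hA₄⟩ : ∃ t : ℝ, t = exp (40 * B) * (20 * CX) := ⟨_, rfl⟩
  obtain ⟨A₅, hA₅⟩ : ∃ t : ℝ, t = (70 * W) ^ 2 := ⟨_, rfl⟩
  obtain ⟨A₆, hA₆⟩ : ∃ t : ℝ, t = exp (40 * B) := ⟨_, rfl⟩
  have q1 : 0 ≤ A₁ := by rw [hA₁]; positivity
  have q2 : 0 ≤ A₂ := by rw [hA₂]; positivity
  have q3 : 0 ≤ A₃ := by rw [hA₃]; positivity
  have q4 : 0 ≤ A₄ := by rw [hA₄]; positivity
  have q5 : 0 ≤ A₅ := by rw [hA₅]; positivity
  have q6 : 1 ≤ A₆ := by rw [hA₆]; exact one_le_exp (by positivity)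
  obtain ⟨A, a1, a2, a3, a4, a5⟩ : ∃ A : ℝ, A₁ + A₂ + A₃ + A₄ ≤ A ∧ A₅ ≤ A ∧ A₆ ≤ A ∧ CM ≤ A ∧
      8 * (CX + CN + 2) ≤ A := ⟨A₁ + A₂ + A₃ + A₄ + A₅ + A₆ + CM + 8 * (CX + CN + 2), by linarith,
    by linarith, by linarith, by linarith, by linarith⟩
  refine ⟨A, 2 * (91 * k + 900), q6.trans a3, by omega, ?_⟩
  intro Λ ω L N m hE hm R Y u hMaj hAY hAR hg1 hg2 hu huY huR a ha ha1 ha2 x hx1 hx2
  have hR := hMaj.1
  have hR0 : 0 < R := one_pos.trans_le hR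
  have hY := Y_pos hMaj
  have hA5 : ∀ t : ℝ, t ≤ A → t * Y ≤ 1 ∧ t * R ≤ L := fun t h1 =>
    ⟨le_trans (mul_le_mul_of_nonneg_right h1 hY.le) hAY,
      le_trans (mul_le_mul_of_nonneg_right h1 hR0.le) hAR⟩
  have hY1 : Y ≤ 1 := by simpa using (hA5 1 (q6.trans a3)).1
  have hLN' := hE.le
  have hLN : (L : ℝ) ≤ N := by exact_mod_cast hLN'
  obtain ⟨n, hn1, hn2⟩ : ∃ n : ℕ, 32 * W * R * u ^ 81 ≤ n ∧ (n : ℝ) ≤ 32 * W * R * u ^ 81 + 1 :=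
    ⟨_, Nat.le_ceil _, (Nat.ceil_lt_add_one (by positivity)).le⟩
  obtain ⟨r, hr1, hr2⟩ : ∃ r : ℕ, (r : ℝ) ≤ a / 4 ∧ (a : ℝ) / 4 - 1 ≤ r := by
    refine ⟨a / 4, Nat.cast_div_le, ?_⟩
    have h1 : a ≤ 4 * (a / 4) + 4 := by omega
    have h2 : (a : ℝ) ≤ 4 * (a / 4 : ℕ) + 4 := by exact_mod_cast h1
    linarith only [h2]
  have hA8 := a5.trans ha
  obtain ⟨M1, a64, T1, T2, T3, n1, n2, n3, n4, n5, r1, r2⟩ :=
    sc (by exact_mod_cast hW) (by exact_mod_cast hE.w4) hR hu (hA₅ ▸ (hA5 _ a2).2)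
    (le_trans (mul_le_mul_of_nonneg_right (pow_le_pow_right₀ hu (by omega)) hR0.le) huR)
    (by linarith only [hA8, hX0, hN0]) ha1 ha2 hn1 hn2 (by linarith only [hA8, hX0, hN0, hr2]) hr1
  rw [← hD] at M1 T1 T2 n2 n3 r1 r2
  obtain ⟨ρ, hρ⟩ : ∃ t : ℝ, t = a / 4 := ⟨_, rfl⟩
  rw [← hρ] at T1 n2 hr1 hr2 ⊢
  have b1 : CX + CN + 2 ≤ ρ / 2 := by linarith only [hA8, hρ]
  have b2 : 256 * ρ ≤ R := by linarith only [a64, hρ]
  have hρ1 : 1 ≤ ρ := by linarith only [b1, hX0, hN0]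
  have hρ0 : 0 < ρ := one_pos.trans_le hρ1
  have hg0 : 0 ≤ gk ω R := by linarith only [hg1]
  have hU : 1 ≤ u ^ 81 := one_le_pow₀ hu
  have hU0 : 0 ≤ u ^ 81 := zero_le_one.trans hU
  have hr0 : 1 ≤ r := by
    have : (1 : ℝ) ≤ r := by linarith only [b1, hX0, hN0, hr2]
    exact_mod_cast this
  have hwr : (0 : ℝ) ≤ p.w * r := by positivity
  have b3 : 32 * R ≤ 4 * n := by linarith only [n1, T3]
  have b4 : (n : ℝ) + 1 ≤ L := by linarith only [n4, hwr]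
  have hn0 : (0 : ℝ) < n := by linarith only [b3, hR0]
  have hnN : n + 1 + p.w * r ≤ L := by exact_mod_cast n4
  have neu : ∀ v : Pt → ℝ, Pot.Sup (bl 0 n) v →
      Sm 3 Set.univ (CX * (1 + log (D * u ^ 91))) r v → -B ≤ E0 (bl 0 n) v →
      |ω (cp (A0 v) 0) - exp (-2 * π ^ 2 * gk ω R * E0 (bl 0 n) v)| ≤ A₁ / u ^ 81 := by
    intro v h1 h2 h3
    refine (hN Λ ω L N hE R Y _ hMaj hY1 M1 (by linarith only [b3, b4, hR0]) r n _ v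
      (by linarith only [b1, hr2, hX0, hN0]) r1 r2 n3 (by omega) (by omega) h1 h2).trans ?_
    rw [hA₁]
    exact neu_num hN0 hX0 hD0 hu M1 hY.le hY1 huY (by omega) (zero_le_one.trans (le_max_left _ _))
      (max_le (hA₆ ▸ q6) (exp_le_exp.2 (expo_le 2 (by norm_num) (by norm_num) hg0 hg2 hB0 h3)))
  have chg : ∀ (f : Pt → ℝ) (φ : ℝ), F2 (nnL.edI (bl 0 N)) f (4 * (CX * (1 + log (D * u ^ 91)))) →
      |ω (cp (((2 : ℤ) : ℝ) • xi R + f) φ)| ≤ A₂ / u ^ 81 := by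
    intro f φ hf
    refine ((hM Λ ω L N hE R Y hMaj hY1 (by linarith only [a4, ha, a64, hρ, hρ0]) (hA5 CM a4).2 hg1
      (hA5 CM a4).1 2 (by norm_num) (by norm_num)).2 0 f _ φ
      (bl_mono _ (Nat.ceil_le.2 (by linarith only [b3, b4, hLN, hR0]))) hf).trans ?_
    rw [hA₂]
    exact chg_num hM0 hD0 hu M1 hY.le huY (by omega) hk
  have mv : ∀ z : Pt, eu z ≤ 4 * W * R →
      F2 (nnL.edI (bl 0 N)) ((fun y => xi ρ (y - z)) - xi R) (CX * (1 + log (D * u ^ 91))) :=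
    fun z hz => hX1 _ (4 * W * R) ρ R z N hρ1 hR (by linarith only [b2, T3, hρ0]) T3 hz T1 T2
      (by linarith only [n1, b4, hLN])
  have mv0 := mv 0 (by rw [eu_zero]; linarith only [T3, hR0])
  simp only [sub_zero] at mv0
  have c1 : Chq (bl 0 N) (xi ρ) 1 := chq_xi hρ0 (by linarith only [b2, b3, b4, hLN, hρ0])
  have c2 : Chq (bl 0 N) (xi R) 1 := chq_xi hR0 (by linarith only [b3, b4, hLN, hR0])
  have c3 : Chq (bl 0 N) (fun y => xi ρ (y - x)) (0 + 1) := by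
    simpa using (chq_flow (mv x hx2)).add c2
  have e1 := abs_le.1 (he ρ hρ1)
  have e2 := abs_le.1 (he R hR)
  have hx3 : 1 ≤ eu x := by linarith only [hx1, b2, hρ1]
  have k1 := pk_ge hp0 hp hρ0 hx3 (by linarith only [hx1, b2, hρ1])
  have k2 := pk_ge hp0 hp hR0 hx3 hx1
  have n6 : eu x / n ≤ 1 / u ^ 81 := le_trans (div_le_div_of_nonneg_right hx2 hn0.le) n5
  have n7 : 1 / u ^ 81 ≤ 1 := (div_le_one (one_pos.trans_le hU)).2 hU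
  refine ⟨?_, ?_, le_trans (exp_le_exp.2 (expo_le 4 (by norm_num) le_rfl hg0 hg2 hB0
    (by linarith only [hB, k2, e2.1, hp0, he0, hX0]))) (hA₆ ▸ a3)⟩
  · obtain ⟨v, v1, v2, v3, v4⟩ := hX3 _ ρ x n r M1 (by linarith only [b1, hN0, hρ0]) (fun h => by
      have h1 := eu_le_of_bl h
      have h2 := (Nat.ceil_lt_add_one (show 0 ≤ 4 * ρ + 4 by positivity)).le
      rw [sub_zero] at h1
      linarith only [h1, h2, hx1, b2, hρ1]) (by linarith only [n1, hx2]) n2 hr0 hr1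
    have v5 : |E0 (bl 0 n) v - 2 * (pk x - cr ρ - er ρ)| ≤ CX * (1 / u ^ 81) :=
      v3.trans (by rw [mul_div_assoc]; exact mul_le_mul_of_nonneg_left n6 hX0)
    have v6 : CX * (1 / u ^ 81) ≤ CX := mul_le_of_le_one_right hX0 n7
    have v7 : -B ≤ E0 (bl 0 n) v := by linarith only [(abs_le.1 v5).1, v6, hB, k1, e1.2]
    rw [trl_Sn, Sn_eq, sinsin hm c1 c3]
    refine half_num hU0 (A₁ := A₂) (A₂ := A₃ + A₁ + A₄) ?_ ?_ (by linarith only [a1])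
    · rw [show xi ρ + (fun y => xi ρ (y - x)) = ((2 : ℤ) : ℝ) • xi R +
        ((xi ρ - xi R) + ((fun y => xi ρ (y - x)) - xi R)) by funext y; simp; ring]
      exact chg _ _ ((mv0.add (mv x hx2)).mono (le_of_eq (by ring)))
    · have hq : 0 ≤ eu x / n := div_nonneg (eu_nonneg x) hn0.le
      have h1 := lip hE.mem hm (c1.sub c3) (n := n + 1) (by omega) (a := √CX * (eu x / n))
        (by positivity) (v4.mono (by rw [mul_pow, sq_sqrt hX0]))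
      have h3 := exp_num hg0 hg2 hB0 v7 (by linarith only [hB, k1, e1.2, hp0, he0, hX0]) v5
      have h5 : 2 * π * (FlF4.cB p.F.τ₂ 1 * (√CX * (eu x / n))) ≤ A₃ / u ^ 81 := by
        calc _ ≤ 2 * π * (FlF4.cB p.F.τ₂ 1 * (√CX * (1 / u ^ 81))) := by gcongr
          _ = _ := by rw [hA₃]; ring
      have h6 : exp (40 * B) * (20 * (CX * (1 / u ^ 81))) = A₄ / u ^ 81 := by rw [hA₄]; ring
      rw [add_div, add_div]
      exact (abs_sub_le _ _ _).trans (add_le_add ((abs_sub_le _ _ _).trans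
        (add_le_add (h1.trans h5) (neu v v1 v2 v7))) (h3.trans h6.le))
  · obtain ⟨v1, v2⟩ := hX2 _ ρ R n r M1 (by linarith only [b2, hρ1]) (T3.trans T1)
      (by linarith only [b1, hN0, hρ0]) (by linarith only [b3, hR0]) hr0 hr1
    rw [Sn_eq, Sn_eq, sinsin hm c1 c2]
    refine half_num hU0 (A₁ := A₂) (A₂ := A₁) ?_ ?_ (by linarith only [a1, q3, q4])
    · rw [show xi ρ + xi R = ((2 : ℤ) : ℝ) • xi R + (xi ρ - xi R) by funext y; simp; ring]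
      exact chg _ _ (mv0.mono (by linarith only [mv0.nonneg]))
    · rw [xi_sub, ← v1]
      refine neu _ ((sup_Phi hρ0 (by linarith only [b2, b3, hρ0])).sub
        (sup_Phi hR0 (by linarith only [b3, hR0]))) v2 ?_
      have : 0 ≤ log (R / ρ) / (2 * π) := div_nonneg
        (log_nonneg ((one_le_div hρ0).2 (by linarith only [b2, hρ0]))) (by positivity)
      rw [v1]; linarith only [this, e1.2, e2.2, hB, hp0, hX0]

end Crest.Agent.T145.Fl.SX44
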