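import Crest.Agent.T145.FlDef_82

/-!
# Row 145, STEP-y: the interpolated charge and the per-site bound (helper74)
-/

set_option autoImplicit false

namespace Crest.Agent.T145.Fl

open Finset Pot Xi Real

/-- the interpolated charge -/
noncomputable def xt (W R t : ℝ) : Pt → ℝ := xi R + t • A0 (wt R (W * R))

/-- the per-site bound of STEP-y (zones 1 and 2) -/
def SiteYStmt : Prop := ∀ (p : Par) (W : ℕ), 2 ≤ W → 4 ≤ p.w → ∃ κ C : ℝ, 0 < κ ∧ κ ≤ 1 ∧ 0 ≤ C ∧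
  ∀ Λ ω r₁ L N, Env p Λ ω L N → Pur p W Λ r₁ L → ∀ R Y : ℝ, Maj p Λ L R Y → C * Y ≤ 1 → C * R ≤ L →
    (r₁ : ℝ) ^ 2 ≤ R → 1 / 4 ≤ gk ω R → ∀ t ∈ Set.Icc (0 : ℝ) 1, ∀ z : Pt, z ∉ bl 0 ⌊R⌋₊ → eu z ≤ R * Y ^ (-κ) →
      8 * eu z ≤ N →
      |ω (fun s => Jz 0 s * cp (xt W R t) 0 s * Jz z s) +
        2 * π * gk ω R * xt W R t z * ω fun s => Jz 0 s * cp (xt W R t) (-(π / 2)) s| ≤
        C * Y ^ 2 / R ^ 4 * (Y ^ (5 / 2 * κ) + ind (z ∈ bl 0 ⌈4 * (W * R)⌉₊) * Y ^ (κ * cw p.w / 5))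

end Crest.Agent.T145.Fl
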