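import Crest.Agent.T145.FlStepY_74
import Crest.Agent.T145.FlSw_22
import Crest.Agent.T145.FlBare_80

/-!
# Row 145, STEP-y: the per-site bound (helper74)
-/

set_option autoImplicit false

namespace Crest.Agent.T145.Fl

open Finset Pot Xi Real

namespace SY74

variable {p : Par} {Λ : Lat} {ω : (Cfg Pt → ℝ) → ℝ} {r₁ L N : ℕ}

theorem cw_half {w : ℕ} (hw : 4 ≤ w) : cw w ≤ 1 / 2 := by
  have h1 : (4 : ℝ) ≤ w := by exact_mod_cast hw
  have h2 : (2 : ℝ) ^ 2 ≤ 4 * (w : ℝ) ^ 4 := by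
    nlinarith [one_le_pow₀ (show (1 : ℝ) ≤ w by linarith) (n := 4)]
  have h3 := log_le_log (by norm_num) h2
  rw [log_pow] at h3
  rw [cw, div_le_iff₀ (log_pos (by linarith))]
  push_cast at h3; linarith

theorem nu_nonneg (hΛ : Λ.Ok) (w : ℕ) (z : Pt) (r : ℕ) (F : Cfg Pt → ℝ) : 0 ≤ nu Λ w z r F :=
  Ex_nonneg (hΛ.cen_Nr_bl (self_mem_bl z _)).nonneg fun _ _ => abs_nonneg _

theorem sub_bl {z : Pt} {k n : ℕ} (h : eu z + 2 * k ≤ n) : bl z k ⊆ bl 0 n := fun y hy =>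
  mem_bl_of_eu (by rw [sub_zero]; linarith [(eu_near hy).1])

theorem disj_bl {z : Pt} {k k' n : ℕ} (hz : z ∉ bl 0 n) (h : k + k' ≤ n) : Disjoint (bl 0 k) (bl z k') :=
  disjoint_left.2 fun y h1 h2 => hz (by simp only [mem_bl, Prod.fst_zero, Prod.snd_zero] at *; omega)

theorem le_R {R Y C : ℝ} (hw : 4 ≤ p.w) (hM : Maj p Λ L R Y) (hC : 0 ≤ C) (hY : C * Y ≤ 1) : C ≤ R := by
  have R1 := hM.1
  have h1 : R⁻¹ ≤ R ^ (-ew p.w) := by
    rw [← rpow_neg_one]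
    exact rpow_le_rpow_of_exponent_le R1 (by rw [ew]; linarith [(cw_bd hw).2])
  have h2 := (mul_le_mul_of_nonneg_left (h1.trans hM.2.1) hC).trans hY
  rwa [← div_eq_mul_inv, div_le_one (by linarith)] at h2

/-- the three radii -/
noncomputable def ra (κ R Y : ℝ) : ℕ := ⌈R * Y ^ (41 * κ)⌉₊
noncomputable def rh (κ R Y : ℝ) : ℕ := ⌈2 * (R * Y ^ κ)⌉₊
noncomputable def rr (w : ℕ) (R : ℝ) : ℕ := ⌊R / (8 * w)⌋₊

namespace Sc
variable {W κ R Y : ℝ} (h : Sc p (400 * W) κ R Y L N) (hW : 2 ≤ W) (hM : Maj p Λ L R Y)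
include h hM

theorem sq : √R ≤ R * Y ^ (41 * κ) := by
  have R0 := h.R0
  have h1 : R ^ (-(1 / 2 : ℝ)) ≤ Y ^ (41 * κ) :=
    calc R ^ (-(1 / 2 : ℝ)) ≤ R ^ (-ew p.w * 41) := rpow_le_rpow_of_exponent_le hM.1
          (by rw [ew]; linarith [(cw_bd h.w4).2])
      _ = (R ^ (-ew p.w)) ^ (41 : ℝ) := rpow_mul R0.le _ _
      _ ≤ Y ^ (41 : ℝ) := rpow_le_rpow (by positivity) hM.2.1 (by norm_num)
      _ ≤ _ := rpow_le_rpow_of_exponent_ge h.Y0 h.Y1 (by linarith [h.κ1])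
  refine le_trans (le_of_eq ?_) (mul_le_mul_of_nonneg_left h1 R0.le)
  rw [sqrt_eq_rpow, ← rpow_one_add' R0.le (by norm_num)]; norm_num

theorem one41 : 1 ≤ R * Y ^ (41 * κ) := (one_le_sqrt.2 hM.1).trans (h.sq hM)
omit hM in
theorem le41 : R * Y ^ (41 * κ) ≤ R * Y ^ κ := mul_le_mul_of_nonneg_left
  (rpow_le_rpow_of_exponent_ge h.Y0 h.Y1 (by linarith [h.κ0])) h.R0.le
omit h hM in
theorem a1 : R * Y ^ (41 * κ) ≤ ra κ R Y := Nat.le_ceil _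
omit h hM in
theorem h1 : 2 * (R * Y ^ κ) ≤ rh κ R Y := Nat.le_ceil _
theorem h2 : (rh κ R Y : ℝ) + 1 ≤ 4 * (R * Y ^ κ) := by
  have := (h.one41 hM).trans h.le41
  have h1 := Nat.ceil_lt_add_one (show 0 ≤ 2 * (R * Y ^ κ) by linarith)
  rw [rh]; linarith
theorem a2 : (ra κ R Y : ℝ) ≤ rh κ R Y * Y ^ (40 * κ) := by
  have h0 := h.one41 hM
  have h1 := Nat.ceil_lt_add_one (show 0 ≤ R * Y ^ (41 * κ) by linarith)
  have h2 := mul_le_mul_of_nonneg_right (Sc.h1 (κ := κ) (R := R) (Y := Y))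
    (rpow_pos_of_pos h.Y0 (40 * κ)).le
  rw [mul_assoc, mul_assoc, ← rpow_add h.Y0, show κ + 40 * κ = 41 * κ by ring] at h2
  rw [ra]; linarith
theorem a3 : ra κ R Y ≤ rh κ R Y := by
  exact_mod_cast (h.a2 hM).trans (mul_le_of_le_one_right (Nat.cast_nonneg _)
    (rpow_le_one h.Y0.le h.Y1 (by linarith [h.κ0])))
include hW
omit hM in
theorem sm : 38400 * p.w * (R * Y ^ κ) ≤ R := by
  have h1 : 38400 * p.w ≤ Y ^ (-κ) := by nlinarith [h.QY, h.w4']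
  have h2 := mul_le_mul_of_nonneg_right h1 (rpow_pos_of_pos h.Y0 κ).le
  rw [← rpow_add h.Y0, neg_add_cancel, rpow_zero] at h2
  nlinarith [mul_le_mul_of_nonneg_left h2 h.R0.le]
omit hW hM in
theorem r1 : 8 * (p.w * rr p.w R : ℝ) ≤ R := by
  have := Nat.floor_le (show 0 ≤ R / (8 * p.w) by have := h.R0; positivity)
  rw [le_div_iff₀ (by linarith [h.w4'])] at this
  rw [rr]; linarith
theorem r2 : R ≤ 16 * p.w * rr p.w R := by
  have w4 := h.w4'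
  have h0 := (h.one41 hM).trans h.le41
  have h1 : 1 ≤ R / (8 * p.w) := by
    rw [le_div_iff₀ (by linarith)]; nlinarith [h.sm hW]
  have h2 : (1 : ℝ) ≤ rr p.w R := by exact_mod_cast Nat.le_floor (by exact_mod_cast h1)
  have h3 := Nat.lt_floor_add_one (R / (8 * p.w))
  rw [div_lt_iff₀ (by linarith)] at h3
  rw [rr] at *; nlinarith
theorem r3 : 600 * ((rh κ R Y : ℝ) + 1) ≤ rr p.w R := by
  have w4 := h.w4'
  have h1 := mul_le_mul_of_nonneg_left (h.h2 hM) (show (0 : ℝ) ≤ 9600 * p.w by linarith)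
  have h2 : 16 * p.w * (600 * ((rh κ R Y : ℝ) + 1)) ≤ 16 * p.w * rr p.w R := by
    linarith [h.sm hW, h.r2 hW hM]
  exact le_of_mul_le_mul_left h2 (by linarith)
theorem r4 : 600 * (rh κ R Y + 1) ≤ rr p.w R := by exact_mod_cast h.r3 hW hM
omit hW hM in
theorem r5 : 8 * (p.w * rr p.w R) ≤ ⌊R⌋₊ := Nat.le_floor (by push_cast; exact h.r1)
omit hM in
theorem L1 : 16 * (W * R) ≤ L := by
  have := mul_nonneg (show 0 ≤ W by linarith) h.R0.le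
  nlinarith [h.RL, h.w4']
omit hM in
theorem L2 : 8 * ⌊R⌋₊ ≤ L := by
  have := Nat.floor_le h.R0.le
  exact_mod_cast (show (8 : ℝ) * ⌊R⌋₊ ≤ L by nlinarith [h.L1 hW, h.R0])

omit hW in
theorem prof {a : ℕ} {K : ℝ} (h0 : p.r₀ ≤ a) (h1 : p.w * a ≤ L) (ha : 1 ≤ a) (haR : (a : ℝ) ≤ R)
    (hK : R ≤ K * a) : (a : ℝ) ^ 2 * nu Λ p.w 0 a (Jz 0) ≤ Y * K ^ ew p.w := by
  have a0 : (0 : ℝ) < a := by exact_mod_cast ha
  have R0 := h.R0
  refine (hM.2.2 a h0 h1).trans (mul_le_mul_of_nonneg_left (rpow_le_rpow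
    (le_max_of_le_left (by positivity)) (max_le ?_ ?_) (by rw [ew]; linarith [(cw_bd h.w4).1])) h.Y0.le)
  · exact ((div_le_one R0).2 haR).trans (le_of_mul_le_mul_right (by linarith) a0)
  · exact (div_le_iff₀ a0).2 hK

theorem nu_r (h0 : (p.r₀ : ℝ) ≤ √R) : nu Λ p.w 0 (rr p.w R) (Jz 0) ≤ 4096 * p.w ^ 3 * Y / R ^ 2 := by
  have w4 := h.w4'
  have R0 := h.R0
  have Y0 := h.Y0
  have e1 := h.r4 hW hM
  have e2 := h.a3 hM
  have e3 := h.r5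
  have e4 := h.L2 hW
  have e5 : p.r₀ ≤ ra κ R Y := by exact_mod_cast h0.trans ((h.sq hM).trans a1)
  have e6 := h.r2 hW hM
  have r0 : (0 : ℝ) ≤ rr p.w R := Nat.cast_nonneg _
  have h1 := h.prof hM (a := rr p.w R) (by omega) (by omega) (by omega) (by nlinarith [h.r1]) e6
  have h2 : (16 * p.w : ℝ) ^ ew p.w ≤ 16 * p.w := by
    simpa using rpow_le_rpow_of_exponent_le (show (1 : ℝ) ≤ 16 * p.w by linarith)
      (show ew p.w ≤ 1 by rw [ew]; linarith [(cw_bd h.w4).2])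
  have h3 := h1.trans (mul_le_mul_of_nonneg_left h2 Y0.le)
  rw [le_div_iff₀ (by positivity)]
  rcases le_total (nu Λ p.w 0 (rr p.w R) (Jz 0)) 0 with h5 | h5
  · exact (mul_nonpos_of_nonpos_of_nonneg h5 (by positivity)).trans (by positivity)
  calc _ ≤ nu Λ p.w 0 (rr p.w R) (Jz 0) * (16 * p.w * rr p.w R) ^ 2 := by gcongr
    _ = 256 * p.w ^ 2 * ((rr p.w R : ℝ) ^ 2 * nu Λ p.w 0 (rr p.w R) (Jz 0)) := by ring
    _ ≤ 256 * p.w ^ 2 * (Y * (16 * p.w)) := by gcongr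
    _ = _ := by ring

/-- the charged part -/
theorem cc (hΛ : Λ.Ok) (h0 : (p.r₀ : ℝ) ≤ √R) (h1 : (r₁ : ℝ) ≤ √R) {C A : ℝ} (hC : 0 ≤ C)
    (H : ∀ (z : Pt) (ρ a n : ℕ) (φ : ℝ) (ζ : Pt → ℝ) (F G : Cfg Pt → ℝ), p.r₀ ≤ a → r₁ ≤ a →
      R * Y ^ (41 * κ) ≤ a → (a : ℝ) ≤ ρ * Y ^ (40 * κ) → (ρ : ℝ) ≤ R → eu z ≤ R * Y ^ (-κ) →
      Disjoint (bl 0 (p.w * ρ)) (bl z (p.w * ρ)) → bl z (p.w * ρ) ⊆ bl 0 n → n ≤ N → 8 * R ≤ n →
      8 * eu z ≤ n → Ins 0 a F → OddF F → D4 0 F → Ins 0 a G → OddF G → D4 0 G →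
      (∀ y ∈ bl 0 ρ, ζ y = 0) → (∀ y ∈ bl z ρ, ζ y = 0) → Pot.Sup (bl 0 n) ζ →
      F2 (nnL.edI (bl 0 n)) (ζ - xi R) A → |ω fun s => F s * trl z G s * cp ζ φ s| ≤
        C * nu Λ p.w 0 a F * nu Λ p.w 0 a G * ((a : ℝ) / ρ) ^ 4 * Y ^ (7 * κ))
    {z : Pt} (hz : z ∉ bl 0 ⌊R⌋₊) (hz1 : eu z ≤ R * Y ^ (-κ)) (hz2 : 8 * eu z ≤ N) {ζ : Pt → ℝ}
    (z0 : ∀ y ∈ bl 0 (rh κ R Y), ζ y = 0) (z1 : ∀ y ∈ bl z (rh κ R Y), ζ y = 0) (z2 : Pot.Sup (bl 0 N) ζ)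
    (z3 : F2 (nnL.edI (bl 0 N)) (ζ - xi R) A) :
    |ω fun s => Jz 0 s * Jz z s * cp ζ 0 s| ≤ C * Y ^ 2 / R ^ 4 * Y ^ (5 / 2 * κ) := by
  have R0 := h.R0
  have Y0 := h.Y0
  have e1 := h.r4 hW hM
  have e2 := h.a3 hM
  have e3 := h.r5
  have e4 := h.L2 hW
  have e5 : p.r₀ ≤ ra κ R Y := by exact_mod_cast h0.trans ((h.sq hM).trans a1)
  have e6 : 1 ≤ ra κ R Y := by exact_mod_cast (h.one41 hM).trans a1
  have e7 : p.w * rh κ R Y ≤ p.w * rr p.w R := Nat.mul_le_mul_left _ (by omega)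
  have e8 : p.w * ra κ R Y ≤ p.w * rh κ R Y := Nat.mul_le_mul_left _ e2
  have e9 : 4 * rh κ R Y ≤ p.w * rh κ R Y := Nat.mul_le_mul_right _ h.w4
  have f1 : ((p.w * rh κ R Y : ℕ) : ℝ) ≤ R := (Nat.cast_le.2 (by omega)).trans (Nat.floor_le R0.le)
  have f2 : (rh κ R Y : ℝ) ≤ R := (Nat.cast_le.2 (by omega)).trans (Nat.floor_le R0.le)
  have f3 : 8 * R ≤ N := by
    have : (L : ℝ) ≤ N := by exact_mod_cast h.LN
    nlinarith [h.L1 hW]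
  have k := H z _ _ N 0 ζ _ _ e5 (by exact_mod_cast h1.trans ((h.sq hM).trans a1)) a1 (h.a2 hM) f2 hz1
    (disj_bl hz (by omega)) (sub_bl (by linarith [eu_nonneg z])) le_rfl f3 hz2 (Om.ins_Jz 0 e6) (Om.odd_Jz 0)
    (Om.d4_Jz 0) (Om.ins_Jz 0 e6) (Om.odd_Jz 0) (Om.d4_Jz 0) z0 z1 z2 z3
  rw [Om.trl_Jz, zero_add] at k
  refine k.trans ?_
  have g1 := h.prof hM (a := ra κ R Y) (K := Y ^ (-(41 * κ))) e5 (by omega) e6
    ((Nat.cast_le.2 e2).trans f2) (by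
      have := mul_le_mul_of_nonneg_left (a1 (κ := κ) (R := R) (Y := Y)) (rpow_pos_of_pos Y0 (-(41 * κ))).le
      rwa [mul_left_comm, ← rpow_add Y0, neg_add_cancel, rpow_zero, mul_one] at this)
  have g2 : (Y ^ (-(41 * κ))) ^ ew p.w ≤ Y ^ (-(κ / 4)) := by
    rw [← rpow_mul Y0.le]
    refine rpow_le_rpow_of_exponent_ge Y0 h.Y1 ?_
    rw [ew]; nlinarith [cw_half h.w4, h.κ0]
  have g3 := g1.trans (mul_le_mul_of_nonneg_left g2 Y0.le)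
  have g4 : R * Y ^ κ ≤ rh κ R Y := by linarith [Sc.h1 (κ := κ) (R := R) (Y := Y), h.le41, h.one41 hM]
  have g5 := nu_nonneg hΛ p.w 0 (ra κ R Y) (Jz 0)
  have g6 : (Y ^ (-(κ / 4))) ^ 2 * Y ^ (7 * κ) = (Y ^ κ) ^ 4 * Y ^ (5 / 2 * κ) := by
    rw [← rpow_mul_natCast Y0.le, ← rpow_mul_natCast Y0.le, ← rpow_add Y0, ← rpow_add Y0]
    congr 1; push_cast; ring
  calc _ = C * (((ra κ R Y : ℝ) ^ 2 * nu Λ p.w 0 (ra κ R Y) (Jz 0)) ^ 2 / (rh κ R Y : ℝ) ^ 4) *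
        Y ^ (7 * κ) := by ring
    _ ≤ C * ((Y * Y ^ (-(κ / 4))) ^ 2 / (R * Y ^ κ) ^ 4) * Y ^ (7 * κ) := by gcongr
    _ = C * Y ^ 2 / R ^ 4 * ((Y ^ (-(κ / 4))) ^ 2 * Y ^ (7 * κ) / (Y ^ κ) ^ 4) := by field_simp
    _ = _ := by rw [g6]; field_simp

omit hW hM in
theorem m1 : (Y ^ (-κ)) ^ (2 * ew p.w) * Y ≤ Y ^ (κ * cw p.w / 5) := by
  rw [← rpow_mul h.Y0.le, ← rpow_add_one h.Y0.ne']
  refine rpow_le_rpow_of_exponent_ge h.Y0 h.Y1 ?_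
  rw [ew]; nlinarith [mul_le_of_le_one_left (cw_bd h.w4).1.le h.κ1, (cw_bd h.w4).2]

theorem m2 : (Y ^ (-κ)) ^ (2 * ew p.w) * (((rh κ R Y : ℝ) + 1) / rr p.w R) ^ (cw p.w / 4) ≤
    64 * p.w * Y ^ (κ * cw p.w / 5) := by
  have Y0 := h.Y0
  have w4 := h.w4'
  obtain ⟨c0, c1⟩ := cw_bd h.w4
  have r0 : (0 : ℝ) < rr p.w R := by
    linarith [h.r3 hW hM, (Nat.cast_nonneg (rh κ R Y) : (0 : ℝ) ≤ _)]
  have h1 := rpow_le (x := ((rh κ R Y : ℝ) + 1) / rr p.w R) (K := 64 * p.w) (y := Y ^ κ) (c := cw p.w / 4)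
    (by positivity) (by linarith) (by positivity) (rpow_le_one Y0.le h.Y1 h.κ0.le) (by
      rw [div_le_iff₀ r0]
      linarith [h.h2 hM, mul_le_mul_of_nonneg_right (h.r2 hW hM) (rpow_pos_of_pos Y0 κ).le])
    (by positivity) le_rfl (by linarith)
  refine (mul_le_mul_of_nonneg_left h1 (by positivity)).trans ?_
  rw [mul_left_comm, ← rpow_mul Y0.le, ← rpow_mul Y0.le, ← rpow_add Y0]
  refine mul_le_mul_of_nonneg_left (rpow_le_rpow_of_exponent_ge Y0 h.Y1 ?_) (by linarith)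
  rw [ew]; nlinarith [mul_pos h.κ0 c0]

end Sc

end SY74

open SY74 in
theorem siteYStmt74 (hP : ProdStmt) (hL : LjStmt) (hK : KbStmt) (hC : CcStmt) (hX : XfStmt) : SiteYStmt := by
  intro p W hW hw
  have W2 : (2 : ℝ) ≤ W := by exact_mod_cast hW
  have w4 : (4 : ℝ) ≤ p.w := by exact_mod_cast hw
  obtain ⟨CX, hCX, hX, -⟩ := hX
  obtain ⟨σ, hσ, hlr⟩ := lr_wt
  obtain ⟨CS, hCS, hS⟩ := swStmt
  obtain ⟨CL, hCL, hL⟩ := hL p
  obtain ⟨CK, hCK, hK⟩ := hK p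
  have lW : 0 ≤ log (W : ℝ) := log_nonneg (by linarith)
  obtain ⟨κ₀, hκ₀, hC⟩ := hC p W (2 * (CX * (1 + log W) + CS * σ ^ 2)) hW
  obtain ⟨κ, κ0, κ1, κ2⟩ : ∃ κ : ℝ, 0 < κ ∧ κ ≤ 1 ∧ κ ≤ κ₀ :=
    ⟨min 1 κ₀, lt_min one_pos hκ₀, min_le_left _ _, min_le_right _ _⟩
  obtain ⟨Cc, hCc, hC⟩ := hC κ κ0 κ2
  obtain ⟨C₀, hC₀, hsc⟩ := exists_sc p (W := 400 * W) (by linarith) hw κ0 κ1
  obtain ⟨C₁, hC₁⟩ : ∃ C₁ : ℝ, C₁ = CL * (4096 * p.w ^ 3) * (σ * (1 + σ)) * (64 * p.w + 1) * (256 * p.w ^ 2) +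
    2 * π * CK * (4 * σ * (256 * p.w ^ 2)) * (16 * (4096 * p.w ^ 3)) := ⟨_, rfl⟩
  have C₁0 : 0 ≤ C₁ := by rw [hC₁]; positivity
  have q0 : 0 ≤ (CL + p.r₀) ^ 2 := by positivity
  refine ⟨κ, C₀ + Cc + C₁ + (CL + p.r₀) ^ 2, κ0, κ1, by positivity,
    fun Λ ω r₁ L N hE hPu R Y hM hCY hCR hr₁ hg t ht z hz hz1 hz2 => ?_⟩
  have R1 := hM.1
  have R0 : 0 < R := by linarith
  have Y0 : 0 < Y := (rpow_pos_of_pos R0 _).trans_le hM.2.1
  have h := hsc Λ ω L N hE R Y hM ((mul_le_mul_of_nonneg_right (by linarith) Y0.le).trans hCY)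
    ((mul_le_mul_of_nonneg_right (by linarith) R0.le).trans hCR)
  replace hC := hC Λ ω r₁ L N hE hPu R Y hM ((mul_le_mul_of_nonneg_right (by linarith) Y0.le).trans hCY)
    ((mul_le_mul_of_nonneg_right (by linarith) R0.le).trans hCR) hg
  have sR : CL + p.r₀ ≤ √R := le_sqrt_of_sq_le
    (le_R hw hM q0 ((mul_le_mul_of_nonneg_right (by linarith) Y0.le).trans hCY))
  have r00 : (0 : ℝ) ≤ p.r₀ := Nat.cast_nonneg _
  replace hC := fun {ζ} => h.cc W2 hM hE.mem.ok (by linarith) (le_sqrt_of_sq_le hr₁) hCc hC hz hz1 hz2 (ζ := ζ)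
  have LN : (L : ℝ) ≤ N := by exact_mod_cast h.LN
  have L1 := h.L1 W2
  have WR : 2 * R ≤ W * R := mul_le_mul_of_nonneg_right W2 R0.le
  have hq := chq_xt (W := W) (n := N) (by linarith) R0 (by linarith) t
  have hf : F2 (nnL.edI (bl 0 N)) (xt W R t - xi R) (CX * (1 + log W)) := by
    have := (hX W (W * R) (W * R) R 0 N (by linarith) R1 le_rfl (by linarith) (by rw [eu_zero]; linarith)
      (le_mul_of_one_le_left (by linarith) (by linarith)) le_rfl (by linarith)).smul t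
    refine (this.mono (mul_le_of_le_one_left (by positivity) (pow_le_one₀ ht.1 ht.2))).congr ?_
    funext y; simp [xt_apply]
  have e1 := h.r4 W2 hM
  have e2 := h.r3 W2 hM
  have e3 := h.r5
  have e4 := h.L2 W2
  have e5 := h.r1
  have e6 : 4 * rr p.w R ≤ p.w * rr p.w R := Nat.mul_le_mul_right _ hw
  have e7 : 4 * (rr p.w R : ℝ) ≤ p.w * rr p.w R := by exact_mod_cast e6
  have h0 : (0 : ℝ) ≤ rh κ R Y := Nat.cast_nonneg _
  have p1 : 0 ≤ Y ^ (5 / 2 * κ) := by positivity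
  have p2 : 0 ≤ Y ^ (κ * cw p.w / 5) := by positivity
  have hin : ∀ y ∈ bl 0 (rr p.w R), xt W R t y = 0 := xt_in (by linarith) R0 (by linarith [h.R4]) t
  have ec : ∀ ζ, (fun s => Jz 0 s * cp ζ 0 s * Jz z s) = fun s => Jz 0 s * Jz z s * cp ζ 0 s := fun ζ =>
    funext fun s => mul_right_comm _ _ _
  rw [ec]
  by_cases hz3 : z ∈ bl 0 ⌈4 * (W * R)⌉₊
  swap
  · have hq' := chq_xt (W := W) (by linarith) R0 Sc.n1 t
    have n2 : (na W R : ℝ) < 2 * (W * R) + 1 := Nat.ceil_lt_add_one (by linarith)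
    have hd := disj_bl (k := na W R) (k' := rh κ R Y) hz3 (by
      have := Nat.le_ceil (4 * (W * R))
      exact_mod_cast (show (na W R : ℝ) + rh κ R Y ≤ ⌈4 * (W * R)⌉₊ by linarith))
    have z1 : ∀ y ∈ bl z (rh κ R Y), xt W R t y = 0 := fun y hy => hq'.1 y (disjoint_right.1 hd hy)
    rw [z1 z (self_mem_bl _ _), ind_neg hz3]
    simp only [mul_zero, zero_mul, add_zero]
    refine (hC (fun y hy => hin y (bl_mono 0 (by omega) hy)) z1 hq.1 (hf.mono ?_)).trans ?_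
    · have : 0 ≤ CX * (1 + log W) := by positivity
      have : 0 ≤ CS * σ ^ 2 := by positivity
      linarith
    · gcongr; linarith
  rw [ind_pos hz3, one_mul]
  have r1 : 1 ≤ rr p.w R := by omega
  have r0 : (0 : ℝ) < rr p.w R := by linarith
  obtain ⟨u, hlr'⟩ : ∃ u, Lr (xt W R t) u z (rr p.w R) σ := by
    have := hlr R (W * R) 1 t z (rr p.w R) r1 (by linarith) (by linarith)
    rw [one_smul, abs_of_nonneg ht.1, abs_of_nonneg (sub_nonneg.2 ht.2), sub_add_cancel, one_mul] at this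
    exact ⟨_, this.mono (mul_le_of_le_one_right hσ (pow_le_one₀ (by positivity)
      ((div_le_one R0).2 (by linarith))))⟩
  obtain ⟨-, s1, s2⟩ := hS _ _ _ _ _ hlr' r1
  obtain ⟨s2, s3, s4⟩ := s2 (rh κ R Y + 1) (2 * (rh κ R Y + 1)) (by linarith) (by push_cast; linarith)
    (by omega)
  have sub1 : bl z (p.w * rr p.w R) ⊆ bl 0 N := sub_bl (by push_cast; linarith [eu_nonneg z])
  have sub2 : bl z (2 * (rh κ R Y + 1) + 1) ⊆ bl 0 N := (bl_mono z (by omega)).trans sub1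
  have hT' := hC (ζ := xt W R t - A0 (sw u z (rh κ R Y + 1)))
    (fun y hy => by
      rw [Pi.sub_apply, hin y (bl_mono 0 (by omega) hy), sup_A0 s2 y
        (disjoint_left.1 (disj_bl hz (by omega)) hy), sub_zero])
    (s4 _ le_rfl) (fun y hy => by rw [Pi.sub_apply, hq.1 y hy, sup_A0 s2 y fun h => hy (sub2 h), sub_zero])
    ((hf.sub (((B80.f2_A0 s2).subset (Lat.edI_mono sub2)).mono (s3.trans
      (mul_le_of_le_one_right (by positivity) (pow_le_one₀ (by positivity)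
        ((div_le_one r0).2 (by linarith))))))).congr (sub_right_comm _ _ _))
  have r₀a : p.r₀ ≤ ra κ R Y := by
    exact_mod_cast (show (p.r₀ : ℝ) ≤ √R by linarith).trans ((h.sq hM).trans Sc.a1)
  have a3 := h.a3 hM
  have far : Far p L (bl 0 N) (univ : Finset Unit) (fun _ => 0) (fun _ => rr p.w R) fun _ => Jz 0 :=
    ⟨by simp, fun _ _ => Om.ins_Jz 0 r1, fun _ _ => ⟨by omega, by omega⟩,
      fun _ _ => bl_mono 0 (by have := h.LN; omega), fun _ _ _ _ h => absurd rfl h⟩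
  have M1 : 1 ≤ Y ^ (-κ) := one_le_rpow_of_pos_of_le_one_of_nonpos Y0 h.Y1 (by linarith)
  have RM : R / Y ^ (-κ) ≤ rh κ R Y + 1 := by
    rw [rpow_neg Y0.le, div_inv_eq_mul]
    linarith [Sc.h1 (κ := κ) (R := R) (Y := Y), h.le41, h.one41 hM]
  have MR : R ≤ Y ^ (-κ) * R := le_mul_of_one_le_left R0.le M1
  have a3' : (ra κ R Y : ℝ) ≤ rh κ R Y := by exact_mod_cast a3
  have lj := (hL Λ ω L N hE R Y _ hM M1 0 Unit univ _ _ _ z (rr p.w R) σ 0 _ _ 1 far (fun _ _ => hin) hq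
    (by omega) sub1 (fun _ _ => disj_bl hz (by omega)) hlr' (by linarith)).1 (rh κ R Y + 1)
    (by linarith [h.sq hM, Sc.a1 (κ := κ) (R := R) (Y := Y)]) e2 RM
  have kb := (hK Λ ω L N hE R Y hM).2.2 (rh κ R Y + 1) R _ M1 (by linarith) (by linarith) RM MR (by linarith)
  obtain ⟨m, hm, hω⟩ := hE.amb 0
  have hd : ∀ φ, DepG (bl 0 N) fun s => Jz 0 s * cp (xt W R t) φ s := fun φ =>
    ((Om.depG_Jz 0).mono (bl_mono 0 (by have := h.LN; omega))).mul (depG_cp hq φ)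
  have pr := (hP p Λ L hE.toGs m _ Unit univ _ _ _ (cp (xt W R t) (-(π / 2))) hm far
    (fun _ _ => out_cp hq.1 hin _) (abs_cp _ _)).1
  simp only [univ_unique, prod_singleton] at lj pr
  have ng : (ω fun s => Jz 0 s * cp (xt W R t) (0 + π / 2) s) =
      -ω fun s => Jz 0 s * cp (xt W R t) (-(π / 2)) s := by
    rw [hω _ (hd _), hω _ (hd _), ← Ex_neg]
    refine Ex_congr fun s _ => ?_
    rw [cp, cp, zero_add, cos_add_pi_div_two, ← sub_eq_add_neg, cos_sub_pi_div_two, mul_neg]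
  rw [← hω _ (hd _)] at pr
  rw [ng] at lj
  have nr := h.nu_r W2 hM (by linarith)
  have x1 := (s1 z (self_mem_bl _ _)).2
  have ir : 1 / (rr p.w R : ℝ) ^ 2 ≤ 256 * p.w ^ 2 / R ^ 2 := by
    rw [div_le_div_iff₀ (by positivity) (by positivity), one_mul]
    exact (pow_le_pow_left₀ R0.le (h.r2 W2 hM) 2).trans_eq (by ring)
  have m1 := h.m1
  have m2 := h.m2 W2 hM
  have M0 : 0 ≤ (Y ^ (-κ)) ^ (2 * ew p.w) := by positivity
  have Z0 : 0 ≤ (((rh κ R Y : ℝ) + 1) / rr p.w R) ^ (cw p.w / 4) := by positivity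
  generalize (ω fun s => Jz 0 s * cp (xt W R t) (-(π / 2)) s) = f at *
  generalize (ω fun s => Jz 0 s * Jz z s * cp (xt W R t) 0 s) = T at *
  generalize (ω fun s => Jz 0 s * Jz z s * cp (xt W R t - A0 (sw u z (rh κ R Y + 1))) 0 s) = T' at *
  generalize xt W R t z = x at *
  generalize (Y ^ (-κ)) ^ (2 * ew p.w) = M at *
  generalize (((rh κ R Y : ℝ) + 1) / rr p.w R) ^ (cw p.w / 4) = Z at *
  generalize Y ^ (κ * cw p.w / 5) = D at *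
  have b1 := lj.trans (show _ ≤ CL * (4096 * p.w ^ 3) * (σ * (1 + σ)) * (64 * p.w + 1) * (256 * p.w ^ 2) *
      Y ^ 2 / R ^ 4 * D from
    calc _ = CL * nu Λ p.w 0 (rr p.w R) (Jz 0) * (σ * (1 + σ)) * (Y * (M * Z + M * Y)) *
          (1 / (rr p.w R : ℝ) ^ 2) := by ring
      _ ≤ CL * (4096 * p.w ^ 3 * Y / R ^ 2) * (σ * (1 + σ)) * (Y * (64 * p.w * D + D)) *
          (256 * p.w ^ 2 / R ^ 2) := by gcongr
      _ = _ := by ring)
  have b2 : |2 * π * (gk ω R - gk ω (rh κ R Y + 1)) * x * f| ≤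
      2 * π * CK * (4 * σ * (256 * p.w ^ 2)) * (16 * (4096 * p.w ^ 3)) * Y ^ 2 / R ^ 4 * D := by
    rw [abs_mul, abs_mul, abs_mul, abs_of_pos two_pi_pos]
    have x2 : |x| ≤ 4 * σ * (256 * p.w ^ 2 / R ^ 2) := x1.trans (by rw [div_eq_mul_one_div]; gcongr)
    calc _ ≤ 2 * π * (CK * Y ^ 2 * M) * (4 * σ * (256 * p.w ^ 2 / R ^ 2)) *
          (16 * (4096 * p.w ^ 3 * Y / R ^ 2)) := by
          have := pr.trans (mul_le_mul_of_nonneg_left nr (by norm_num))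
          gcongr
      _ = 2 * π * CK * (4 * σ * (256 * p.w ^ 2)) * (16 * (4096 * p.w ^ 3)) * Y ^ 2 / R ^ 4 * (M * Y) := by
          ring
      _ ≤ _ := by gcongr
  have e : T + 2 * π * gk ω R * x * f = (T - T' - 2 * π * gk ω (rh κ R Y + 1) * x * -f) +
      2 * π * (gk ω R - gk ω (rh κ R Y + 1)) * x * f + T' := by ring
  rw [e]
  refine ((abs_add_three _ _ _).trans (add_le_add (add_le_add b1 b2) hT')).trans ?_
  calc _ = C₁ * Y ^ 2 / R ^ 4 * D + Cc * Y ^ 2 / R ^ 4 * Y ^ (5 / 2 * κ) := by rw [hC₁]; ring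
    _ ≤ (C₀ + Cc + C₁ + (CL + p.r₀) ^ 2) * Y ^ 2 / R ^ 4 * D +
        (C₀ + Cc + C₁ + (CL + p.r₀) ^ 2) * Y ^ 2 / R ^ 4 * Y ^ (5 / 2 * κ) := by gcongr <;> linarith
    _ = _ := by ring

/-- STEP-y from the module Props -/
theorem stepY74 (hP : ProdStmt) (hFus : FusStmt) (hFar : FarStmt) (hL : LjStmt) (hK : KbStmt) (hC : CcStmt)
    (hX : XfStmt) : StepYStmt := stepYStmt hFus hFar (siteYStmt74 hP hL hK hC hX)

end Crest.Agent.T145.Fl
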