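import Crest.Agent.T145.FlCone_64
import Crest.Agent.T145.FlBare_80
import Crest.Agent.T145.FlEnv_30
import Crest.Agent.T145.AFac_66

/-!
# Row 145, odd flow: soft smallness of `J` from small charged expectations (helper31)
-/

set_option autoImplicit false

namespace Crest.Agent.T145.Fl

open Finset Pot Xi Real

namespace Sm31

section flow
variable {D S : Finset Pt} {f : Pt → ℝ} {a e : Pt} {k : ℕ}

/-- one step -/
theorem unit (hS : Pot.Sup S f) (he : e ∈ nnL.Jp) (h : ∀ x ∈ S, x + a ∈ D ∧ x + (a + e) ∈ D) :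
    F2 (nnL.edI D) (fun y => f (y - (a + e)) - f (y - a)) (∑ x ∈ S, f x ^ 2) := by
  have inj : Set.InjOn (fun x : Pt => (x + a, x + (a + e))) S := fun x _ y _ h =>
    add_right_cancel (congrArg Prod.fst h)
  have key : ∀ b y : Pt, ∑ x ∈ S, f x * ind (x + b = y) = f (y - b) := fun b y => by
    rw [Finset.sum_eq_single (y - b)]
    · simp [ind]
    · intro x _ hx
      have : x + b ≠ y := fun h => hx (eq_sub_of_add_eq h)
      simp [ind, this]
    · intro hx; simp [hS _ hx]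
  refine F2.subset (E := S.image fun x : Pt => (x + a, x + (a + e))) ⟨fun ε => f (ε.1 - a), ?_, ?_⟩ ?_
  · funext y
    rw [dv, Finset.sum_image inj]
    simp only [add_sub_cancel_right, mul_sub, Finset.sum_sub_distrib, key]
  · rw [Finset.sum_image inj]; simp
  · intro ε hε
    obtain ⟨x, hx, rfl⟩ := Finset.mem_image.1 hε
    exact Lat.mem_edI.2 ⟨by simpa using he, (h x hx).1, (h x hx).2⟩

/-- the flow that moves `f` by `a` costs `c ^ 2 * ∑ f²` -/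
def Q (D S : Finset Pt) (f : Pt → ℝ) (a : Pt) (c : ℝ) : Prop :=
  F2 (nnL.edI D) (fun y => f (y - a) - f y) (c ^ 2 * ∑ x ∈ S, f x ^ 2)

theorem sq_add {c n : ℝ} (hc : 0 ≤ c) (hn : 0 ≤ n) : (√(c ^ 2 * n) + √n) ^ 2 = (c + 1) ^ 2 * n := by
  rw [sqrt_mul (sq_nonneg c), sqrt_sq hc, show c * √n + √n = (c + 1) * √n by ring, mul_pow, sq_sqrt hn]

theorem line (hS : Pot.Sup S f) (he : e ∈ nnL.Jp) {c : ℝ} (hc : 0 ≤ c) (hQ : Q D S f a c)
    (h : ∀ x ∈ S, ∀ i : ℤ, |i| ≤ k → x + (a + i • e) ∈ D) (j : ℤ) (hj : |j| ≤ k) :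
    Q D S f (a + j • e) (c + |(j : ℝ)|) := by
  have hn : 0 ≤ ∑ x ∈ S, f x ^ 2 := Finset.sum_nonneg fun _ _ => sq_nonneg _
  induction j using Int.induction_on with
  | zero => simpa using hQ
  | succ i ih =>
    have h1 : |(i : ℤ)| ≤ k := by rw [abs_le] at hj ⊢; omega
    have u := unit (D := D) (a := a + (i : ℤ) • e) hS he fun x hx =>
      ⟨h x hx _ h1, by rw [add_assoc, ← add_one_zsmul]; exact h x hx _ hj⟩
    have := (ih h1).add_sqrt u
    rw [sq_add (by positivity) hn] at this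
    refine (this.congr ?_).mono (le_of_eq ?_)
    · funext y; simp only [Pi.add_apply, add_one_zsmul, add_assoc]; ring
    · congr 2; push_cast
      rw [abs_of_nonneg (by positivity), abs_of_nonneg (by positivity)]; ring
  | pred i ih =>
    have h1 : |(-i : ℤ)| ≤ k := by rw [abs_le] at hj ⊢; omega
    have e1 : a + (-(i : ℤ) - 1) • e + e = a + (-(i : ℤ)) • e := by
      rw [add_assoc, ← add_one_zsmul, sub_add_cancel]
    have u := unit (D := D) (a := a + (-(i : ℤ) - 1) • e) hS he fun x hx =>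
      ⟨h x hx _ hj, by rw [e1]; exact h x hx _ h1⟩
    have := (ih h1).add_sqrt u.neg
    rw [sq_add (by positivity) hn] at this
    refine (this.congr ?_).mono (le_of_eq ?_)
    · funext y; simp only [Pi.add_apply, Pi.neg_apply, e1]; ring
    · congr 2; push_cast
      rw [abs_of_nonpos (by linarith [Nat.cast_nonneg (α := ℝ) i]),
        abs_of_nonpos (by linarith [Nat.cast_nonneg (α := ℝ) i])]; ring

/-- **moving a density by `z`**: the flow stays in the `k`-neighbourhood of the support -/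
theorem f2_shift (hS : Pot.Sup S f) (h : ∀ x ∈ S, bl x k ⊆ D) {z : Pt} (hz : z ∈ bl 0 k) :
    F2 (nnL.edI D) (fun y => f (y - z) - f y) ((2 * k) ^ 2 * ∑ x ∈ S, f x ^ 2) := by
  have hz' := mem_bl_abs.1 hz
  simp only [Prod.fst_zero, Prod.snd_zero, sub_zero] at hz'
  have q0 : Q D S f 0 0 := by
    unfold Q
    exact ((F2.zero (nnL.edI D)).congr (by funext y; simp)).mono (by simp)
  have q1 := line (k := k) (e := (1, 0)) hS (by decide) le_rfl q0
    (fun x hx i hi => h x hx (mem_bl_abs.2 (by simpa using hi))) z.1 hz'.1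
  have q2 := line (k := k) (e := (0, 1)) hS (by decide) (by positivity) q1
    (fun x hx i hi => h x hx (mem_bl_abs.2 (by simpa using ⟨hz'.1, hi⟩))) z.2 hz'.2
  have e : (0 : Pt) + z.1 • ((1, 0) : Pt) + z.2 • ((0, 1) : Pt) = z := by ext <;> simp
  rw [e] at q2
  refine F2.mono q2 (mul_le_mul_of_nonneg_right ?_ (Finset.sum_nonneg fun _ _ => sq_nonneg _))
  have a1 : |(z.1 : ℝ)| ≤ k := by exact_mod_cast hz'.1
  have a2 : |(z.2 : ℝ)| ≤ k := by exact_mod_cast hz'.2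
  gcongr; linarith

end flow

/-- moving the smeared charge: a flow in the annulus -/
theorem f2_xi : ∃ C : ℝ, 0 ≤ C ∧ ∀ (n k : ℕ) (z : Pt), 1 ≤ n → 2 * k ≤ n → z ∈ bl 0 k →
    F2 (nnL.edI (Nc.an 0 n (5 * n))) (fun y => xi (2 * n) (y - z) - xi (2 * n) y) ((C * k / n) ^ 2) := by
  obtain ⟨C, hC, h⟩ := abs_xi_le
  refine ⟨5 * C, by positivity, fun n k z hn hk hz => ?_⟩
  have n1 : (1 : ℝ) ≤ n := by exact_mod_cast hn
  have hS : Pot.Sup (Nc.an 0 (2 * n - 1) (4 * n)) (xi (2 * n)) := fun x hx => by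
    by_cases h1 : x ∈ bl 0 (2 * n - 1)
    · exact xi_in (by linarith) (by rw [Nat.cast_sub (by omega)]; push_cast; linarith) h1
    · exact sup_xi (n := 4 * n) (by linarith) (by push_cast; linarith) x fun h2 =>
        hx (Finset.mem_sdiff.2 ⟨h2, h1⟩)
  refine (f2_shift hS (fun x hx y hy => ?_) hz).mono ?_
  · obtain ⟨h1, h2⟩ := Finset.mem_sdiff.1 hx
    refine Finset.mem_sdiff.2 ⟨bl_subset_bl h1 (by omega) hy, fun h3 => h2 ?_⟩
    exact bl_subset_bl h3 (by omega) (mem_bl_comm.1 hy)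
  · have h1 : ∑ x ∈ Nc.an 0 (2 * n - 1) (4 * n), xi (2 * n) x ^ 2 ≤
        (9 * (n : ℝ)) ^ 2 * (C / (2 * n) ^ 2) ^ 2 := by
      refine (Finset.sum_le_card_nsmul _ _ ((C / (2 * (n : ℝ)) ^ 2) ^ 2) fun x _ => ?_).trans ?_
      · rw [← sq_abs]; exact pow_le_pow_left₀ (abs_nonneg _) (h _ (by linarith) x) 2
      · rw [nsmul_eq_mul]
        gcongr
        have : (Nc.an 0 (2 * n - 1) (4 * n)).card ≤ (9 * n) ^ 2 :=
          (Finset.card_le_card Finset.sdiff_subset).trans (by rw [card_bl]; gcongr; omega)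
        exact_mod_cast this
    refine (mul_le_mul_of_nonneg_left h1 (by positivity)).trans ?_
    rw [show (2 * (k : ℝ)) ^ 2 * ((9 * (n : ℝ)) ^ 2 * (C / (2 * n) ^ 2) ^ 2) = (9 / 2 * C * k / n) ^ 2 by
      field_simp]
    gcongr; norm_num

/-- averaging weights: support `bl 0 k`, mass `≥ (k + 1)²`, bounded energy -/
theorem wts : ∃ C : ℝ, 0 ≤ C ∧ ∀ k : ℕ, ∃ h : Pt → ℝ, Pot.Sup (bl 0 k) h ∧ (∀ x, 0 ≤ h x) ∧
    ((k : ℝ) + 1) ^ 2 ≤ ∑ x ∈ bl 0 k, h x ∧ E0 (bl 0 k) h ≤ C := by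
  obtain ⟨C, hC, h⟩ := sm_chi 1
  refine ⟨96 * C ^ 2, by positivity, fun k => ⟨Xi.chi ((k + 1) / 2), sup_chi (by positivity) (by linarith),
    chi_nonneg _, ?_, ?_⟩⟩
  · have h1 : ∑ x ∈ bl 0 ((k + 1) / 2), Xi.chi (((k : ℝ) + 1) / 2) x = ((2 * ((k + 1) / 2) + 1 : ℕ) : ℝ) ^ 2 := by
      rw [Finset.sum_congr rfl fun x hx => chi_one (by positivity) (by exact_mod_cast Nat.cast_div_le) hx]
      simp [card_bl]
    refine le_trans ?_ (Finset.sum_le_sum_of_subset_of_nonneg (bl_mono 0 (show (k + 1) / 2 ≤ k + 0 by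
      rcases k with _ | k <;> omega)) fun x _ _ => chi_nonneg _ x)
    rw [h1]
    have : k + 1 ≤ 2 * ((k + 1) / 2) + 1 := by omega
    gcongr; exact_mod_cast this
  · refine (B80.E0_le (k := C / ((k + 1) / 2)) (sup_chi (by positivity) (by linarith)) fun e he x _ =>
      (h _ (by positivity)).one le_rfl he trivial).trans ?_
    rw [card_bl]; push_cast
    calc 6 * (C / (((k : ℝ) + 1) / 2)) ^ 2 * (2 * k + 1) ^ 2 ≤
        6 * (C / (((k : ℝ) + 1) / 2)) ^ 2 * (2 * (k + 1)) ^ 2 := by gcongr; linarith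
      _ = _ := by field_simp; ring

/-- **the left functional of `J` is small when the charged expectation is** -/
theorem ell_small (F : Fa) : ∃ C : ℝ, 0 ≤ C ∧ ∀ (p : Par) Λ ω L N, p.F = F → Env p Λ ω L N →
    ∀ r n K : ℕ, p.r₀ ≤ r → 2 ≤ K → 2 * (p.w * (p.w * r)) ≤ n → p.w * r ≤ L → 5 * n ≤ N →
      (n : ℝ) ^ 2 * |ell ω (2 * n) (Jz 0)| ≤ C * K ^ 2 * √(ω (cp (xi (2 * n)) 0)) +
        C / K * n ^ 2 * nu Λ p.w 0 r (Jz 0) := by
  obtain ⟨C₁, hC₁, hf⟩ := f2_xi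
  obtain ⟨C₂, hC₂, hw⟩ := wts
  refine ⟨√(2 * (|F.τ₂| * C₂)) + 8 * π * FlF4.cB F.τ₂ 1 * C₁,
    by have := FlF4.cB_pos F.τ₂ 1; positivity, ?_⟩
  rintro p Λ ω L N rfl hE r n K h0 hK hn hL hN
  have hG := hE.toGs
  have hΛ := hE.ok
  have hτ : Λ.τ ≤ p.F.τ₂ := hE.mem.2.2.2
  have r2 := Cone.two_le hG h0
  have w4 := A51.four_le hG r
  have w4' := A51.four_le hG (p.w * r)
  have hrg : 2 * Λ.rg ≤ r := hG.gd.2.1.trans h0
  have hcB := FlF4.cB_pos p.F.τ₂ 1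
  obtain ⟨m, hm⟩ := hE.amb 0
  set k := n / K with hk
  have k1 : k * K ≤ n := Nat.div_mul_le_self n K
  have k2 : n < (k + 1) * K := by rw [hk, mul_comm]; exact Nat.lt_mul_div_succ n (by omega)
  have k3 : 2 * k ≤ n := by nlinarith
  have n1 : (1 : ℝ) ≤ n := by exact_mod_cast (show 1 ≤ n by omega)
  have K0 : (0 : ℝ) < K := by exact_mod_cast (show 0 < K by omega)
  obtain ⟨h, hs, h0', hT, hEn⟩ := hw k
  set ν := nu Λ p.w 0 r (Jz 0) with hν
  have ν0 : 0 ≤ ν := A51.nu_nonneg hΛ _ _ _ _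
  have hq : Chq (bl 0 N) (xi (2 * n)) 1 :=
    (chq_xi (r := 4 * n) (by linarith) (by push_cast; linarith)).mono (bl_mono 0 (by omega))
  have iJ : ∀ z ∈ bl (0 : Pt) k, Ins 0 N (Jz z) := fun z hz => (ins_Jz z le_rfl).move hz (by omega)
  -- one site
  have site : ∀ z ∈ bl (0 : Pt) k, |ell ω (2 * n) (Jz 0) - ω fun s => Jz z s * Sn (2 * n) s| ≤
      8 * π * FlF4.cB p.F.τ₂ 1 * C₁ / K * ν := fun z hz => by
    have hq' : Chq (bl 0 N) (fun y => xi (2 * n) (y - z)) 1 :=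
      (chq_xi' (r := 4 * n) (by linarith) (by push_cast; linarith) z).mono (bl_subset_bl hz (by omega))
    have e1 : ell ω (2 * n) (Jz 0) = ω fun s => Jz z s * cp (fun y => xi (2 * n) (y - z)) (-(π / 2)) s := by
      rw [ell, ← hE.trl 0 z _ ((ins_Jz 0 (show 1 ≤ N by omega)).mul
        (ins_Sn (by linarith) (by
          have : ((4 * n : ℕ) : ℝ) ≤ N := by exact_mod_cast (show 4 * n ≤ N by omega)
          push_cast at this; linarith))).1, trl_mul, trl_Jz, trl_Sn]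
    rw [e1, Sn_eq, ← hm.ex_sub ((iJ z hz).mul (ins_cp hq' _)) ((iJ z hz).mul (ins_cp hq _)),
      hm.ex_eq (((iJ z hz).mul (ins_cp hq' _)).sub ((iJ z hz).mul (ins_cp hq _)))]
    have hfl := hf n k z (by omega) k3 hz
    have hsup : ∀ y ∈ bl (0 : Pt) n, xi (2 * n) (y - z) - xi (2 * n) y = 0 := fun y hy =>
      hfl.sup (B := Nc.an 0 n (5 * n)) (fun e he => (Lat.mem_edI.1 he).2) y
        fun h => (Finset.mem_sdiff.1 h).2 hy
    have hbd := (FlF4.bd_one hΛ (by positivity) (hfl.subset (B80.nn_sub hΛ subset_rfl))).smul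
      two_pi_pos.le
    have hin : bl z (p.w * (p.w * r)) ⊆ bl 0 n := bl_subset_bl hz (by omega)
    have hx0 : ∀ y ∈ bl (0 : Pt) n, xi (2 * n) y = 0 := fun y hy => xi_in (by linarith) (by linarith) hy
    have hr : bl z r ⊆ bl 0 n := (bl_mono z (by omega)).trans hin
    have hB : bl z r ⊆ m.A := (hr.trans (bl_mono 0 (by omega))).trans hm.1.sub
    obtain ⟨i1, i2⟩ := FlF4.m1 (Z := fun s => cp (fun y => xi (2 * n) (y - z)) (-(π / 2)) s -
        cp (xi (2 * n)) (-(π / 2)) s) (R := p.w * (p.w * r)) hΛ hbd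
      (FlF4.amb_lat (hm.amb_sub (Finset.sdiff_subset.trans (bl_mono 0 hN)))) hB
      (A51.ir hG h0 (ins_Jz z (by omega))) (by omega) (hm.amb_sub (bl_subset_bl hz (by omega)))
      ((out_pr fun y hy => hsup y (hin hy)).comp fun x => 2 * π * |x|)
      (Finset.disjoint_left.2 fun y hy hy' => (Finset.mem_sdiff.1 hy').2 (hin (bl_mono z (by omega) hy)))
      subset_rfl
      ((out_cp (fun y hy => by have := hsup y (hr hy); rwa [hx0 y (hr hy), sub_zero] at this) _).comp₂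
        (out_cp (fun y hy => hx0 y (hr hy)) _) (· - ·))
      fun s => abs_cp_sub_le _ _ _ s
    have i3 := (FlF4.abs_ex_le_nc hm.1.ctr hm.1.anch hB i1).trans i2
    rw [← A51.nu_eq, ← trl_Jz z,
      ((semiStmt Λ p.w r z hΛ (by omega)).2 _ (ins_Jz 0 (by omega))).2.1, ← hν, trl_Jz] at i3
    refine (le_of_eq (congrArg abs (congrArg _ (funext fun s => by ring)))).trans (i3.trans ?_)
    have g1 := A51.gam_le hG h0 (show r ≤ L by omega)
    have g2 := A51.gam_le hG (show p.r₀ ≤ p.w * r by omega) hL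
    have g3 := FlF4.cB_mono hτ (le_refl 1)
    have g4 : C₁ * k / n ≤ C₁ / K := by
      rw [div_le_div_iff₀ (by linarith) K0, mul_assoc]
      exact mul_le_mul_of_nonneg_left (by exact_mod_cast k1) hC₁
    have g5 := (FlF4.cB_pos Λ.τ 1).le
    calc _ ≤ 2 * 2 * ν * (2 * π * (FlF4.cB p.F.τ₂ 1 * (C₁ / K))) := by
          have := g1.1; have := g2.1
          gcongr
          exacts [g1.2, g2.2]
      _ = _ := by ring
  -- the average
  have avg : |∑ z ∈ bl (0 : Pt) k, h z * ω fun s => Jz z s * Sn (2 * n) s| ≤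
      √(2 * (|p.F.τ₂| * C₂)) * √(ω (cp (xi (2 * n)) 0)) := by
    have iS : Ins 0 N (Sn (2 * n)) := by rw [Sn_eq]; exact ins_cp hq _
    have e1 := hm.ex_prA0 hs (show k + 1 ≤ N by omega) hs (Ins.const 0 N 1) iS
    simp only [one_mul] at e1
    rw [← e1, hm.ex_eq ((ins_A0 hs (show k + 1 ≤ N by omega)).mul iS), hm.ex_cp_Ph hq,
      ← sqrt_mul (by positivity)]
    refine abs_le_sqrt ?_
    have a1 := (aFacStmt.2.1 _ (m.W 0) (pr (A0 h)) ((2 * π) • pr (xi (2 * n))) 0 hm.cen).2.1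
    have a2 := (B80.mo_amb hΛ hm.1 (bl_mono 0 (show k + 1 ≤ N by omega)) (B80.f2_A0 hs)).vr
    have a3 := (hm.ex_cp_pos hq).le
    rw [hm.ex_cp_Ph hq] at a3
    refine (le_of_eq ?_).trans (a1.trans ?_)
    · rfl
    · have := B80.E0_nonneg hs
      have a4 : Λ.τ * E0 (bl 0 k) h ≤ |p.F.τ₂| * C₂ :=
        mul_le_mul (hτ.trans (le_abs_self _)) hEn this (abs_nonneg _)
      gcongr
      exact a2.trans a4
  set T := ∑ x ∈ bl (0 : Pt) k, h x with hT'
  set l := ell ω (2 * n) (Jz 0)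
  set B := 8 * π * FlF4.cB p.F.τ₂ 1 * C₁ with hB
  set A := √(2 * (|p.F.τ₂| * C₂))
  set t := √(ω (cp (xi (2 * n)) 0))
  have B0 : 0 ≤ B := by positivity
  have A0' : 0 ≤ A := sqrt_nonneg _
  have t0 : 0 ≤ t := sqrt_nonneg _
  have T0 : 0 < T := lt_of_lt_of_le (by positivity) hT
  have tot : T * |l| ≤ A * t + T * (B / K * ν) := by
    have e : T * l = (∑ z ∈ bl (0 : Pt) k, h z * ω fun s => Jz z s * Sn (2 * n) s) +
        ∑ z ∈ bl (0 : Pt) k, h z * (l - ω fun s => Jz z s * Sn (2 * n) s) := by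
      rw [← Finset.sum_add_distrib, hT', Finset.sum_mul]
      exact Finset.sum_congr rfl fun z _ => by ring
    rw [← abs_of_pos T0, ← abs_mul, e, abs_of_pos T0]
    refine (abs_add_le _ _).trans (add_le_add avg ((Finset.abs_sum_le_sum_abs _ _).trans ?_))
    rw [hT', Finset.sum_mul]
    refine Finset.sum_le_sum fun z hz => ?_
    rw [abs_mul, abs_of_nonneg (h0' z)]
    exact mul_le_mul_of_nonneg_left (site z hz) (h0' z)
  have hnT : (n : ℝ) ^ 2 ≤ K ^ 2 * T := by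
    have : (n : ℝ) ≤ (k + 1) * K := by exact_mod_cast k2.le
    calc (n : ℝ) ^ 2 ≤ (((k : ℝ) + 1) * K) ^ 2 := by gcongr
      _ = (K : ℝ) ^ 2 * ((k : ℝ) + 1) ^ 2 := by ring
      _ ≤ _ := by gcongr
  have h1 : |l| ≤ A * t / T + B / K * ν := by
    rw [div_add' _ _ _ T0.ne', le_div_iff₀ T0]; linarith
  have h2 : (n : ℝ) ^ 2 * (A * t / T) ≤ A * K ^ 2 * t := by
    calc _ ≤ K ^ 2 * T * (A * t / T) := by gcongr
      _ = _ := by field_simp
  calc _ ≤ (n : ℝ) ^ 2 * (A * t / T + B / K * ν) := by gcongr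
    _ = (n : ℝ) ^ 2 * (A * t / T) + B / K * n ^ 2 * ν := by ring
    _ ≤ (A + B) * K ^ 2 * t + (A + B) / K * n ^ 2 * ν := by
        refine add_le_add (h2.trans ?_) ?_ <;> gcongr <;> linarith

/-- the Lasota–Yorke step from `Ks` and `low₁` -/
theorem ly {p : Par} {W : ℕ} {Λ : Lat} {ω : (Cfg Pt → ℝ) → ℝ} {r₁ L N r : ℕ} (h : Pack p W Λ ω r₁ L N)
    (hW : 144 ≤ W) (h0 : p.r₀ ≤ r) (h1 : r₁ ≤ r) (hL : p.w * (W * r) ≤ L) {F : Cfg Pt → ℝ}
    (hF : Ins 0 r F) (ho : OddF F) (hd : D4 0 F) :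
    (W : ℝ) ^ 2 * nu Λ p.w 0 (W * r) F ≤ W ^ 3 * |ell ω (2 * (W * r)) F| + nu Λ p.w 0 r F / 4 := by
  have hG := h.toEnv.toGs
  have hΛ := h.toEnv.ok
  have r2 := Cone.two_le hG h0
  have hrg : 2 * Λ.rg ≤ r := hG.gd.2.1.trans h0
  have w4 := A51.four_le hG r
  have w4' := A51.four_le hG (W * r)
  have rW : r ≤ W * r := Nat.le_mul_of_pos_left r (by omega)
  have W1 : (144 : ℝ) ≤ W := by exact_mod_cast hW
  have W0 : (0 : ℝ) < W := by linarith
  have e0 := Beta3.ew_nonneg p.w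
  have e1 := Beta3.ew_le p.w
  have iS : Ins 0 r (Sn (r / 4)) := ins_Sn4 (by omega)
  obtain ⟨-, c, hc⟩ := h.ks r h0 h1 hL F hF ho hd
  have hS := (h.ks r h0 h1 hL _ iS (odd_Sn _) (d4_Sn _)).1
  have hl := h.low₁ r h0 h1 hL
  have s1 := (semiStmt Λ p.w r 0 hΛ (by omega)).1
  have s2 := (semiStmt Λ p.w (W * r) 0 hΛ (by omega)).1
  have hS1 := (s1 _ iS).2.2.2.1 1 (abs_Sn_le _)
  have ν0 := (s1 _ hF).1
  set ν := nu Λ p.w 0 r F
  set x := (W : ℝ) ^ (ew p.w / 10) with hx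
  have x1 : 1 ≤ x := one_le_rpow (by linarith) (by linarith)
  have x6 : x ^ 6 ≤ W := by
    rw [hx, ← rpow_natCast, ← rpow_mul W0.le]
    exact (rpow_le_rpow_of_exponent_le (by linarith) (by push_cast; linarith)).trans_eq (rpow_one _)
  have p2 : (W : ℝ) ^ (-2 + ew p.w / 10) = x / W ^ 2 := by
    rw [rpow_add W0, rpow_neg W0.le, rpow_two]; ring
  have p3 : (W : ℝ) ^ (-3 + ew p.w / 10) = x / W ^ 3 := by
    rw [rpow_add W0, rpow_neg W0.le, show (3 : ℝ) = (3 : ℕ) by norm_num, rpow_natCast]; ring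
  have p4 : (W : ℝ) ^ (-2 - ew p.w / 10) = 1 / (W ^ 2 * x) := by
    rw [rpow_sub W0, rpow_neg W0.le, rpow_two]; ring
  rw [p2] at hS; rw [p3] at hc; rw [p4] at hl
  have iF := hF.mono rW
  have iS' := iS.mono rW
  have iD := iF.sub (iS'.smul c)
  have a1 := Cone.abs_ell_le h.toEnv (h0.trans rW) hL iD
  rw [Cone.ell_sub h.toEnv (h0.trans rW) hL iF iS'] at a1
  push_cast at a1
  set l := ell ω (2 * ((W : ℝ) * r)) F
  set lS := ell ω (2 * ((W : ℝ) * r)) (Sn (r / 4))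
  have a2 : nu Λ p.w 0 (W * r) F ≤ x / W ^ 3 * ν + |c| * (x / W ^ 2) := by
    have := ((s2 _ iD).2.2.2.2 _ (iS'.smul c)).1
    simp only [sub_add_cancel] at this
    rw [(s2 _ iS').2.2.1 c] at this
    refine this.trans (add_le_add hc (mul_le_mul_of_nonneg_left (hS.trans ?_) (abs_nonneg _)))
    exact mul_le_of_le_one_right (by positivity) hS1
  have a3 : |c| * (1 / (W ^ 2 * x)) ≤ |l| + 2 * (x / W ^ 3 * ν) := by
    have lS0 : 0 ≤ lS := le_trans (by positivity) hl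
    calc _ ≤ |c| * lS := by gcongr
      _ = |l - (l - c * lS)| := by rw [sub_sub_cancel, abs_mul, abs_of_nonneg lS0]
      _ ≤ |l| + |l - c * lS| := abs_sub _ _
      _ ≤ _ := by linarith
  have a4 : |c| * (x / W ^ 2) ≤ x ^ 2 * (|l| + 2 * (x / W ^ 3 * ν)) := by
    calc _ = x ^ 2 * (|c| * (1 / (W ^ 2 * x))) := by field_simp
      _ ≤ _ := by gcongr
  have x2 : x ^ 2 ≤ W := (pow_le_pow_right₀ x1 (by norm_num)).trans x6
  have x3 : 12 * x ^ 3 ≤ W := by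
    refine (pow_le_pow_iff_left₀ (by positivity) W0.le two_ne_zero).1 ?_
    nlinarith
  have x4 : x ≤ x ^ 3 := le_self_pow₀ x1 (by norm_num)
  calc _ ≤ (W : ℝ) ^ 2 * (x / W ^ 3 * ν + x ^ 2 * (|l| + 2 * (x / W ^ 3 * ν))) := by
        gcongr; linarith
    _ = W ^ 2 * x ^ 2 * |l| + (x + 2 * x ^ 3) / W * ν := by field_simp; ring
    _ ≤ W ^ 2 * W * |l| + 1 / 4 * ν := by
        have : (x + 2 * x ^ 3) / W ≤ 1 / 4 := by rw [div_le_iff₀ W0]; linarith
        gcongr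
    _ = _ := by ring

end Sm31

/-- SMALL: small charged expectations give the soft smallness of `J` -/
def SmallStmt : Prop := ∀ (F : Fa) (W : ℕ) (ε₁ : ℝ), 144 ≤ W → 0 < ε₁ → ∃ ε₂ : ℝ, 0 < ε₂ ∧
  ∀ (p : Par) Λ ω r₁ L N, p.F = F → 2 * p.w ^ 2 ≤ W → Pack p W Λ ω r₁ L N → p.r₀ ≤ r₁ →
    (5 ≤ p.w ∨ 2 * L ≤ N) →
    (∀ r : ℕ, r₁ ≤ r → p.w * (W * r) ≤ L → ω (cp (xi (2 * (W * r))) 0) ≤ ε₂) → Small p W Λ r₁ L ε₁

open Sm31 in
theorem smallStmt : SmallStmt := fun F W ε₁ hW hε => by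
  obtain ⟨C, hC, h⟩ := ell_small F
  obtain ⟨K, hK⟩ := exists_nat_ge (4 * C * W ^ 3 + 2)
  have W0 : (0 : ℝ) < W := by exact_mod_cast (show 0 < W by omega)
  have hp : 0 ≤ 4 * C * (W : ℝ) ^ 3 := by positivity
  have K2 : 2 ≤ K := by exact_mod_cast (show (2 : ℝ) ≤ K by linarith)
  have K0 : (0 : ℝ) < K := by linarith
  refine ⟨(ε₁ / (W * (C * K ^ 2) + 1)) ^ 2, by positivity, ?_⟩
  intro p Λ ω r₁ L N hF hw hP h0 hN hs r hr hL
  have hG := hP.toEnv.toGs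
  have w4 := A51.four_le hG (W * r)
  have hLN := hP.toEnv.le
  have rW : r ≤ W * r := Nat.le_mul_of_pos_left r (by omega)
  have h5 : 5 * (W * r) ≤ N := by
    rcases hN with h | h
    · exact (Nat.mul_le_mul_right _ h).trans (hL.trans hLN)
    · omega
  have a := h p Λ ω L N hF hP.toEnv r (W * r) K (h0.trans hr) K2
    (by calc 2 * (p.w * (p.w * r)) = 2 * p.w ^ 2 * r := by ring
      _ ≤ _ := Nat.mul_le_mul_right _ hw)
    ((Nat.mul_le_mul_left _ rW).trans hL) h5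
  have b := ly hP hW (h0.trans hr) hr hL (ins_Jz 0 (by have := Cone.two_le hG (h0.trans hr); omega))
    (odd_Jz 0) (d4_Jz 0)
  have c : √(ω (cp (xi (2 * (W * r))) 0)) ≤ ε₁ / (W * (C * K ^ 2) + 1) :=
    sqrt_le_iff.2 ⟨by positivity, hs r hr hL⟩
  have ν0 := A51.nu_nonneg hP.toEnv.ok p.w 0 r (Jz 0)
  push_cast at a ⊢
  set ν := nu Λ p.w 0 r (Jz 0)
  set l := |ell ω (2 * ((W : ℝ) * r)) (Jz 0)|
  set t := √(ω (cp (xi (2 * ((W : ℝ) * r))) 0))
  have d1 : W * (C * K ^ 2 * t) ≤ ε₁ := by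
    have t0 : 0 ≤ t := sqrt_nonneg _
    rw [le_div_iff₀ (by positivity)] at c
    nlinarith
  have d2 : W ^ 3 * (C / K) ≤ 1 / 4 := by
    rw [← mul_div_assoc, div_le_iff₀ K0]; linarith
  calc ((W : ℝ) * r) ^ 2 * nu Λ p.w 0 (W * r) (Jz 0) =
        (r : ℝ) ^ 2 * (W ^ 2 * nu Λ p.w 0 (W * r) (Jz 0)) := by ring
    _ ≤ (r : ℝ) ^ 2 * (W ^ 3 * l + ν / 4) := by gcongr
    _ = W * (((W : ℝ) * r) ^ 2 * l) + r ^ 2 * ν / 4 := by ring
    _ ≤ W * (C * K ^ 2 * t + C / K * ((W : ℝ) * r) ^ 2 * ν) + r ^ 2 * ν / 4 := by gcongr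
    _ = W * (C * K ^ 2 * t) + W ^ 3 * (C / K) * (r ^ 2 * ν) + r ^ 2 * ν / 4 := by ring
    _ ≤ ε₁ + 1 / 4 * (r ^ 2 * ν) + r ^ 2 * ν / 4 := by gcongr
    _ = _ := by ring

end Crest.Agent.T145.Fl
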