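import Mathlib

/-!
# Row 145 (helper64): dominated splitting for a chain of seminorms (abstract part of the flow)

`N n` is a seminorm on the class `C n`; `S n` is the slow direction, `L n` its one-step factor.
-/

set_option autoImplicit false

noncomputable section

namespace Crest.Agent.T145.Fl

open Finset

/-- a chain of seminorms with a rank one dominated direction on the steps `a ≤ n < b` -/
structure Split {E : Type*} [AddCommGroup E] [Module ℝ E] (C : ℕ → Submodule ℝ E) (N : ℕ → E → ℝ)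
    (S : ℕ → E) (L ε : ℕ → ℝ) (K θ : ℝ) (a b : ℕ) : Prop where
  mono : ∀ n, C n ≤ C (n + 1)
  add : ∀ n, ∀ F ∈ C n, ∀ G ∈ C n, N n (F + G) ≤ N n F + N n G
  smul : ∀ n (t : ℝ), ∀ F ∈ C n, N n (t • F) = |t| * N n F
  nonneg : ∀ n F, 0 ≤ N n F
  mem : ∀ n, S n ∈ C n
  le_one : ∀ n, N n (S n) ≤ 1
  pos : ∀ n, 0 < L n
  ε_nonneg : ∀ n, 0 ≤ ε n
  K_nonneg : 0 ≤ K
  θ_nonneg : 0 ≤ θ
  θ_le : θ ≤ 1 / 2
  ker : ∀ n, a ≤ n → n < b → ∀ F ∈ C n, ∃ α : ℝ, |α| ≤ K * N n F ∧
    N (n + 1) (F - α • S n) ≤ θ * L n * N n F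
  flow : ∀ n, a ≤ n → n < b → N (n + 1) (S n - L n • S (n + 1)) ≤ ε n * L n

/-- product of the one-step factors -/
def Lp (L : ℕ → ℝ) (j k : ℕ) : ℝ := ∏ i ∈ Ico j k, L i

theorem Lp_self (L : ℕ → ℝ) (j : ℕ) : Lp L j j = 1 := by simp [Lp]

theorem Lp_succ (L : ℕ → ℝ) {j k : ℕ} (h : j ≤ k) : Lp L j (k + 1) = Lp L j k * L k :=
  prod_Ico_succ_top h _

theorem Lp_mul (L : ℕ → ℝ) {i j k : ℕ} (h : i ≤ j) (h' : j ≤ k) : Lp L i j * Lp L j k = Lp L i k :=
  prod_Ico_consecutive _ h h'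

theorem Lp_pos {L : ℕ → ℝ} (h : ∀ n, 0 < L n) (j k : ℕ) : 0 < Lp L j k := prod_pos fun i _ => h i

namespace Split
variable {E : Type*} [AddCommGroup E] [Module ℝ E] {C : ℕ → Submodule ℝ E} {N : ℕ → E → ℝ}
  {S : ℕ → E} {L ε : ℕ → ℝ} {K θ : ℝ} {a b : ℕ} (h : Split C N S L ε K θ a b)
include h

theorem mono' {j k : ℕ} (hjk : j ≤ k) : C j ≤ C k := monotone_nat_of_le_succ h.mono hjk

theorem neg (n : ℕ) {F : E} (hF : F ∈ C n) : N n (-F) = N n F := by
  simpa using h.smul n (-1) F hF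

theorem sub (n : ℕ) {F G : E} (hF : F ∈ C n) (hG : G ∈ C n) : N n (F - G) ≤ N n F + N n G := by
  rw [sub_eq_add_neg, ← h.neg n hG]; exact h.add n F hF _ (neg_mem hG)

/-- one step: a decomposition `F = α S n + (norm ≤ ρ)` at scale `n` gives one at scale `n + 1` -/
theorem step {n : ℕ} (ha : a ≤ n) (hb : n < b) {F : E} (hF : F ∈ C n) {α ρ : ℝ}
    (hρ : N n (F - α • S n) ≤ ρ) : ∃ α' : ℝ, |α' - α * L n| ≤ K * ρ * L n ∧
      N (n + 1) (F - α' • S (n + 1)) ≤ (θ * ρ + (|α| + K * ρ) * ε n) * L n := by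
  have hR : F - α • S n ∈ C n := sub_mem hF ((C n).smul_mem _ (h.mem n))
  obtain ⟨β, h1, h2⟩ := h.ker n ha hb _ hR
  have hL := h.pos n
  have h3 : |β| ≤ K * ρ := h1.trans (mul_le_mul_of_nonneg_left hρ h.K_nonneg)
  refine ⟨(α + β) * L n, ?_, ?_⟩
  · rw [show (α + β) * L n - α * L n = β * L n by ring, abs_mul, abs_of_pos hL]
    exact mul_le_mul_of_nonneg_right h3 hL.le
  · have m1 : F - α • S n - β • S n ∈ C (n + 1) :=
      h.mono n (sub_mem hR ((C n).smul_mem _ (h.mem n)))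
    have m2 : S n - L n • S (n + 1) ∈ C (n + 1) :=
      sub_mem (h.mono n (h.mem n)) ((C _).smul_mem _ (h.mem _))
    have e : F - ((α + β) * L n) • S (n + 1) =
        (F - α • S n - β • S n) + (α + β) • (S n - L n • S (n + 1)) := by
      simp only [smul_sub, add_smul, mul_smul]; abel
    rw [e]
    refine (h.add _ _ m1 _ ((C _).smul_mem _ m2)).trans ?_
    rw [h.smul _ _ _ m2]
    have h4 : θ * L n * N n (F - α • S n) ≤ θ * L n * ρ :=
      mul_le_mul_of_nonneg_left hρ (mul_nonneg h.θ_nonneg hL.le)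
    have h5 : |α + β| * N (n + 1) (S n - L n • S (n + 1)) ≤ (|α| + K * ρ) * (ε n * L n) :=
      mul_le_mul ((abs_add_le _ _).trans (add_le_add le_rfl h3)) (h.flow n ha hb) (h.nonneg _ _)
        ((abs_nonneg _).trans ((abs_add_le _ _).trans (add_le_add le_rfl h3)))
    linarith

/-- many steps, with the Lyapunov function `|α| + (2 K + 1) ρ` -/
theorem steps {n : ℕ} (ha : a ≤ n) {F : E} (hF : F ∈ C n) {α ρ : ℝ} (hρ : N n (F - α • S n) ≤ ρ)
    {k : ℕ} (hnk : n ≤ k) (hb : k ≤ b) : ∃ α' ρ' : ℝ, N k (F - α' • S k) ≤ ρ' ∧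
      |α'| + (2 * K + 1) * ρ' ≤ (|α| + (2 * K + 1) * ρ) * Lp L n k *
        Real.exp ((2 * K + 1) * ∑ i ∈ Ico n k, ε i) := by
  induction k, hnk using Nat.le_induction with
  | base => exact ⟨α, ρ, hρ, by simp [Lp_self]⟩
  | succ k hk ih =>
    obtain ⟨β, r, h1, h2⟩ := ih (by omega)
    obtain ⟨β', h3, h4⟩ := h.step (ha.trans hk) (by omega) (h.mono' hk hF) h1
    refine ⟨β', _, h4, ?_⟩
    have hL := h.pos k
    have hr : 0 ≤ r := (h.nonneg _ _).trans h1
    have hK := h.K_nonneg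
    have hε := h.ε_nonneg k
    have h5 : |β'| ≤ (|β| + K * r) * L k := by
      have := abs_sub_abs_le_abs_sub β' (β * L k)
      rw [abs_mul, abs_of_pos hL] at this
      linarith
    have h6 : |β| + K * r + (2 * K + 1) * (θ * r + (|β| + K * r) * ε k) ≤
        (|β| + (2 * K + 1) * r) * (1 + (2 * K + 1) * ε k) := by
      have t1 : θ * r ≤ 1 / 2 * r := mul_le_mul_of_nonneg_right h.θ_le hr
      have t2 := mul_le_mul_of_nonneg_left t1 (show 0 ≤ 2 * K + 1 by linarith)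
      have t3 : 0 ≤ (2 * K + 1) * ε k * ((K + 1) * r) := by positivity
      nlinarith
    have h7 : 1 + (2 * K + 1) * ε k ≤ Real.exp ((2 * K + 1) * ε k) := by
      linarith [Real.add_one_le_exp ((2 * K + 1) * ε k)]
    rw [Lp_succ L hk, sum_Ico_succ_top hk, mul_add (2 * K + 1) _ (ε k), Real.exp_add]
    calc _ ≤ (|β| + K * r + (2 * K + 1) * (θ * r + (|β| + K * r) * ε k)) * L k := by linarith
      _ ≤ (|β| + (2 * K + 1) * r) * Real.exp ((2 * K + 1) * ε k) * L k :=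
        mul_le_mul_of_nonneg_right (h6.trans (mul_le_mul_of_nonneg_left h7 (by positivity))) hL.le
      _ ≤ _ := by
        have := mul_le_mul_of_nonneg_right h2 (mul_pos (Real.exp_pos ((2 * K + 1) * ε k)) hL).le
        linarith

/-- **sharp product bound** -/
theorem prod_le {n k : ℕ} (ha : a ≤ n) (hnk : n ≤ k) (hb : k ≤ b) {F : E} (hF : F ∈ C n) :
    N k F ≤ (2 * K + 1) * Lp L n k * Real.exp ((2 * K + 1) * ∑ i ∈ Ico n k, ε i) * N n F := by
  obtain ⟨α, ρ, h1, h2⟩ := h.steps ha hF (α := 0) (ρ := N n F) (by simp) hnk hb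
  have m1 : α • S k ∈ C k := (C k).smul_mem _ (h.mem k)
  have h3 := h.add k _ (sub_mem (h.mono' hnk hF) m1) _ m1
  rw [sub_add_cancel, h.smul _ _ _ (h.mem k)] at h3
  have h4 := mul_le_of_le_one_right (abs_nonneg α) (h.le_one k)
  have hρ : 0 ≤ ρ := (h.nonneg _ _).trans h1
  have h5 := mul_nonneg h.K_nonneg hρ
  rw [abs_zero, zero_add] at h2
  linarith

/-- **cone**: the relative size `κ` of the remainder obeys `κ' = 2 (θ κ + 2 ε)` -/
theorem cone {n : ℕ} (ha : a ≤ n) (hb : n < b) {F : E} (hF : F ∈ C n) {c κ : ℝ}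
    (hc : N n (F - c • S n) ≤ κ * |c|) (hκ0 : 0 ≤ κ) (hκ : K * κ ≤ 1 / 2) :
    ∃ c' : ℝ, |c' - c * L n| ≤ K * κ * (|c| * L n) ∧
      N (n + 1) (F - c' • S (n + 1)) ≤ 2 * (θ * κ + 2 * ε n) * |c'| := by
  obtain ⟨c', h1, h2⟩ := h.step ha hb hF hc
  have hL := h.pos n
  have hε := h.ε_nonneg n
  have hθ := h.θ_nonneg
  have p : 0 ≤ |c| * L n := by positivity
  have h3 : |c| * L n ≤ 2 * |c'| := by
    have := abs_sub_abs_le_abs_sub (c * L n) c'
    rw [abs_sub_comm, abs_mul, abs_of_pos hL] at this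
    nlinarith [mul_le_mul_of_nonneg_right hκ p]
  refine ⟨c', by linarith, h2.trans ?_⟩
  have h4 : (θ * (κ * |c|) + (|c| + K * (κ * |c|)) * ε n) * L n ≤ (θ * κ + 2 * ε n) * (|c| * L n) := by
    nlinarith [mul_le_mul_of_nonneg_right hκ (mul_nonneg hε p), mul_nonneg hε p]
  nlinarith [mul_le_mul_of_nonneg_left h3 (show 0 ≤ θ * κ + 2 * ε n by positivity)]

/-- two decompositions at the same scale have the same coefficient up to the remainders -/
theorem coef {n : ℕ} {F : E} (hF : F ∈ C n) {c c' ρ ρ' s : ℝ} (hs : s ≤ N n (S n))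
    (h1 : N n (F - c • S n) ≤ ρ) (h2 : N n (F - c' • S n) ≤ ρ') : |c - c'| * s ≤ ρ + ρ' := by
  have m : ∀ t : ℝ, F - t • S n ∈ C n := fun t => sub_mem hF ((C n).smul_mem _ (h.mem n))
  have h3 := h.sub n (m c') (m c)
  rw [show F - c' • S n - (F - c • S n) = (c - c') • S n by rw [sub_smul]; abel,
    h.smul _ _ _ (h.mem n)] at h3
  nlinarith [mul_le_mul_of_nonneg_left hs (abs_nonneg (c - c'))]

/-- **Duhamel**: the slow direction over a window, given the far norms of the one-step leaks -/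
theorem duhamel {n k : ℕ} (hnk : n ≤ k) {δ : ℕ → ℝ}
    (hδ : ∀ j, n ≤ j → j < k → N k (S j - L j • S (j + 1)) ≤ δ j * Lp L j k) :
    N k (S n - Lp L n k • S k) ≤ (∑ j ∈ Ico n k, δ j) * Lp L n k := by
  have key : ∀ i, n ≤ i → i ≤ k →
      N k (S n - Lp L n i • S i) ≤ (∑ j ∈ Ico n i, δ j) * Lp L n k := by
    intro i hi
    induction i, hi using Nat.le_induction with
    | base =>
      intro _
      have := h.smul k 0 _ (h.mem k)
      simp only [zero_smul, abs_zero, zero_mul] at this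
      simp [Lp_self, this]
    | succ i hi ih =>
      intro hik
      have m0 : ∀ j, j ≤ k → S j ∈ C k := fun j hj => h.mono' hj (h.mem j)
      have m1 : S n - Lp L n i • S i ∈ C k :=
        sub_mem (m0 n hnk) ((C k).smul_mem _ (m0 i (by omega)))
      have m2 : S i - L i • S (i + 1) ∈ C k :=
        sub_mem (m0 i (by omega)) ((C k).smul_mem _ (m0 _ hik))
      have e : S n - Lp L n (i + 1) • S (i + 1) =
          (S n - Lp L n i • S i) + Lp L n i • (S i - L i • S (i + 1)) := by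
        rw [Lp_succ L hi, smul_sub, mul_smul]; abel
      rw [e, sum_Ico_succ_top hi, add_mul]
      refine (h.add _ _ m1 _ ((C k).smul_mem _ m2)).trans (add_le_add (ih (by omega)) ?_)
      have hp := Lp_pos h.pos n i
      rw [h.smul _ _ _ m2, abs_of_pos hp, ← Lp_mul L hi (show i ≤ k by omega), mul_left_comm]
      exact mul_le_mul_of_nonneg_left (hδ i hi (by omega)) hp.le
  exact key k hnk le_rfl

/-- **window**: the coefficient of `F` is multiplied by the product of the one-step factors -/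
theorem window {n k : ℕ} (ha : a ≤ n) (hnk : n ≤ k) (hb : k ≤ b) {F : E} (hF : F ∈ C n)
    {c c' ρ ρ' s δ : ℝ} (hs : s ≤ N k (S k)) (h1 : N n (F - c • S n) ≤ ρ)
    (h2 : N k (F - c' • S k) ≤ ρ') (h3 : N k (S n - Lp L n k • S k) ≤ δ * Lp L n k) :
    |c * Lp L n k - c'| * s ≤ ρ' + (|c| * δ +
      (2 * K + 1) * Real.exp ((2 * K + 1) * ∑ i ∈ Ico n k, ε i) * ρ) * Lp L n k := by
  have m1 : F - c • S n ∈ C n := sub_mem hF ((C n).smul_mem _ (h.mem n))
  have m2 : S n - Lp L n k • S k ∈ C k :=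
    sub_mem (h.mono' hnk (h.mem n)) ((C k).smul_mem _ (h.mem k))
  have h4 := h.prod_le ha hnk hb m1
  have hp := Lp_pos h.pos n k
  have hK := h.K_nonneg
  have h5 := h.add k _ (h.mono' hnk m1) _ ((C k).smul_mem c m2)
  rw [show F - c • S n + c • (S n - Lp L n k • S k) = F - (c * Lp L n k) • S k by
    rw [smul_sub, mul_smul]; abel, h.smul _ _ _ m2] at h5
  have h6 := h.coef (h.mono' hnk hF) hs h5 h2
  have h7 := mul_le_mul_of_nonneg_left h3 (abs_nonneg c)
  have h8 := mul_le_mul_of_nonneg_left h1 (show 0 ≤ (2 * K + 1) * Lp L n k *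
    Real.exp ((2 * K + 1) * ∑ i ∈ Ico n k, ε i) by positivity)
  linarith

end Split

end Crest.Agent.T145.Fl
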