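import Crest.Agent.T145.AllU_21
import Crest.Agent.T145.KrAll_77
import Crest.Agent.T145.MbBad_10
import Crest.Agent.T145.FlBeta_3
import Crest.Agent.T145.FlCc_87
import Crest.Agent.T145.FlCm_62
import Crest.Agent.T145.FlCore_82
import Crest.Agent.T145.FlEnt2_65
import Crest.Agent.T145.FlEntLow_80
import Crest.Agent.T145.FlFar_57
import Crest.Agent.T145.FlKs_11
import Crest.Agent.T145.FlLink_65
import Crest.Agent.T145.FlLj_36
import Crest.Agent.T145.FlLoc_94
import Crest.Agent.T145.FlLow_84
import Crest.Agent.T145.FlOA_98
import Crest.Agent.T145.FlOnu_14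
import Crest.Agent.T145.FlOpe_64
import Crest.Agent.T145.FlSY_60
import Crest.Agent.T145.FlSmW_31
import Crest.Agent.T145.FlSoft_45
import Crest.Agent.T145.FlStepX_44
import Crest.Agent.T145.FlStepY_74
import Crest.Agent.T145.FlStep_58
import Crest.Agent.T145.FlXf_91

/-!
# Row 145: the odd flow without hypotheses (helper64)
-/

set_option autoImplicit false

namespace Crest.Agent.T145.Fl.U

theorem semi : SemiStmt := semiStmt
theorem prod : ProdStmt := prodStmt
theorem fus : FusStmt := fusStmt
theorem rate : RateStmt := rateStmt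
theorem bare : BareStmt := bareStmt
theorem loc : LocStmt := locStmt rate
theorem kb : KbStmt := kbStmt semi prod bare
theorem sw : SwStmt := swStmt
theorem ak : AkStmt := akStmt
theorem xf : XfStmt := xfStmt
theorem beta : BetaStmt := betaStmt kb
theorem lj : LjStmt := ljStmt semi prod bare loc sw beta
theorem far : FarStmt := farStmt semi prod rate
theorem neu : NeuStmt := neuStmt lj kb
theorem cm : CmStmt := cmStmt lj kb far semi
theorem cc : CcStmt := ccStmt semi prod cm xf
theorem siteY : SiteYStmt := siteYStmt prod lj kb cc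
theorem stepY : StepYStmt := stepYStmt fus far siteY
theorem stepX : StepXStmt := stepXStmt semi prod neu cm xf
theorem step : StepStmt := stepStmt kb stepY stepX ak
theorem pur : PurStmt := purStmt
theorem ent : EntStmt := entStmt semi prod fus bare cm ak
theorem ent2 : Ent2Stmt := ent2Stmt semi prod fus bare cm ak
theorem sg : SgStmt := sgStmt Kr.U.gffA All.t1m
theorem sc : ScStmt := scStmt All.t2p All.r1c All.pdec All.t1m
theorem low : LowStmt := lowStmt sg sc
theorem ksW : KsWStmt := ksWStmt Kr.U.kOdd Kr.U.q All.t1m
theorem smallW : SmallWStmt := smallWStmt low sg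
theorem entLow : EntLowStmt := entLowStmt All.step2 All.t2 All.t1m Mb.y0Stmt All.afac
theorem link : LinkStmt := linkStmt neu sg All.t1a
theorem core : CoreStmt := coreStmt All.gd ksW low smallW entLow link pur ent2
theorem opeF : OpeFStmt := opeFStmt cm kb
theorem lOdd : Leaf Mid.Odd :=
  leaf_odd (leaf_step step) leaf_pos leaf_ent leaf_nu leaf_kb leaf_gj leaf_ambx leaf_amby
theorem lOpe : Leaf Mid.Ope := leaf_ope opeF
theorem odd : Mid.OddStmt := oddStmt core lOdd
theorem ope : Mid.OpeStmt := opeStmt core lOdd lOpe

end Crest.Agent.T145.Fl.U
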