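import Crest.Agent.T145.FsDef_70

/-!
# Row 145, item (e): CMP, E1, E2 (helper77)

Comparison of the `J` energy with the nearest-neighbour energy, and the two consequences of the
quantitative roughness criterion.
-/

set_option autoImplicit false

namespace Crest.Agent.T145.FS

open MeasureTheory Crest.ProbabilityR.HeightModel Filter Topology

namespace C77

section Grp

variable {G : Type} [AddCommGroup G]

omit [AddCommGroup G] in
lemma summable_sq {ψ : G → ℝ} (h : (Function.support ψ).Finite) :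
    Summable fun x => ψ x ^ 2 := by
  refine summable_of_hasFiniteSupport (h.subset ?_)
  intro x hx
  simp only [Function.mem_support, ne_eq] at hx ⊢
  intro h0
  exact hx (by simp [h0])

lemma fin_shift {σ : G → ℝ} (h : (Function.support σ).Finite) (a : G) :
    (Function.support fun x => σ (x + a)).Finite := by
  have : (Function.support fun x => σ (x + a)) = (fun x => x + a) ⁻¹' Function.support σ := by
    ext x; simp
  rw [this]
  exact h.preimage (add_left_injective a).injOn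

omit [AddCommGroup G] in
lemma fin_sub {σ φ : G → ℝ} (h : (Function.support σ).Finite)
    (h' : (Function.support φ).Finite) : (Function.support fun x => σ x - φ x).Finite := by
  refine (h.union h').subset ?_
  intro x hx
  simp only [Function.mem_support, ne_eq, Set.mem_union] at hx ⊢
  by_contra hc
  push Not at hc
  exact hx (by rw [hc.1, hc.2, sub_zero])

lemma summable_diff {σ : G → ℝ} (h : (Function.support σ).Finite) (a b : G) :
    Summable fun x => (σ (x + a) - σ (x + b)) ^ 2 :=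
  summable_sq (fin_sub (fin_shift h a) (fin_shift h b))

lemma summable_NG {σ : G → ℝ} (h : (Function.support σ).Finite) (a : G) :
    Summable fun x => (σ (x + a) - σ x) ^ 2 :=
  summable_sq (fin_sub (fin_shift h a) h)

lemma tsum_diff (σ : G → ℝ) (a b : G) :
    ∑' x, (σ (x + a) - σ (x + b)) ^ 2 = NG σ (a - b) := by
  unfold NG
  rw [← (Equiv.addRight b).tsum_eq (fun x => (σ (x + (a - b)) - σ x) ^ 2)]
  refine tsum_congr fun x => ?_
  simp only [Equiv.coe_addRight]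
  have : x + b + (a - b) = x + a := by abel
  rw [this]

lemma tsum_shift (ψ : G → ℝ) (a : G) : ∑' x, ψ (x + a) ^ 2 = ∑' x, ψ x ^ 2 :=
  (Equiv.addRight a).tsum_eq (fun x => ψ x ^ 2)

lemma NG_nonneg (σ : G → ℝ) (a : G) : 0 ≤ NG σ a := tsum_nonneg fun _ => sq_nonneg _

lemma NG_zero (σ : G → ℝ) : NG σ 0 = 0 := by simp [NG]

lemma NG_neg (σ : G → ℝ) (a : G) : NG σ (-a) = NG σ a := by
  have h := tsum_diff σ 0 a
  rw [zero_sub] at h
  rw [← h]
  unfold NG
  refine tsum_congr fun x => ?_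
  rw [add_zero]; ring

lemma NG_quad {σ : G → ℝ} (h : (Function.support σ).Finite) (a b : G) :
    NG σ (a + b) + NG σ (a - b) ≤ 2 * NG σ a + 2 * NG σ b := by
  have e1 : NG σ a = ∑' x, (σ (x + (a + b)) - σ (x + b)) ^ 2 := by
    rw [tsum_diff]; congr 1; abel
  have e2 : NG σ b = ∑' x, (σ (x + (a + b)) - σ (x + a)) ^ 2 := by
    rw [tsum_diff]; congr 1; abel
  have s1 := summable_NG h (a + b)
  have s2 := summable_diff h a b
  have s3 := summable_NG h a
  have s4 := summable_NG h b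
  have s5 := summable_diff h (a + b) b
  have s6 := summable_diff h (a + b) a
  have key : ∑' x, ((σ (x + (a + b)) - σ x) ^ 2 + (σ (x + a) - σ (x + b)) ^ 2) ≤
      ∑' x, (((σ (x + a) - σ x) ^ 2 + (σ (x + (a + b)) - σ (x + b)) ^ 2) +
        ((σ (x + b) - σ x) ^ 2 + (σ (x + (a + b)) - σ (x + a)) ^ 2)) := by
    refine Summable.tsum_le_tsum (fun x => ?_) (s1.add s2) ((s3.add s5).add (s4.add s6))
    nlinarith [sq_nonneg (σ (x + (a + b)) + σ x - σ (x + a) - σ (x + b))]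
  rw [s1.tsum_add s2, (s3.add s5).tsum_add (s4.add s6), s3.tsum_add s5, s4.tsum_add s6,
    ← e1, ← e2, tsum_diff] at key
  have e3 : (∑' x, (σ (x + (a + b)) - σ x) ^ 2) = NG σ (a + b) := rfl
  have e4 : (∑' x, (σ (x + a) - σ x) ^ 2) = NG σ a := rfl
  have e5 : (∑' x, (σ (x + b) - σ x) ^ 2) = NG σ b := rfl
  rw [e3, e4, e5] at key
  linarith

lemma NG_step {σ : G → ℝ} (h : (Function.support σ).Finite) (a : G) (n : ℕ) :
    NG σ ((n + 1) • a) ≤ NG σ (n • a) + (2 * n + 1) * NG σ a := by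
  induction n with
  | zero => simp [NG_zero]
  | succ n ih =>
    have := NG_quad h ((n + 1) • a) a
    have e1 : (n + 1) • a + a = (n + 1 + 1) • a := by rw [succ_nsmul a (n + 1)]
    have e2 : (n + 1) • a - a = n • a := by rw [succ_nsmul a n]; abel
    rw [e1, e2] at this
    push_cast
    linarith

lemma NG_nsmul {σ : G → ℝ} (h : (Function.support σ).Finite) (a : G) (n : ℕ) :
    NG σ (n • a) ≤ (n : ℝ) ^ 2 * NG σ a := by
  induction n with
  | zero => simp [NG_zero]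
  | succ n ih =>
    have := NG_step h a n
    push_cast
    nlinarith

lemma NG_zsmul {σ : G → ℝ} (h : (Function.support σ).Finite) (a : G) (n : ℤ) :
    NG σ (n • a) ≤ (n : ℝ) ^ 2 * NG σ a := by
  obtain ⟨m, rfl | rfl⟩ := Int.eq_nat_or_neg n
  · simpa using NG_nsmul h a m
  · rw [neg_smul, NG_neg]
    simpa using NG_nsmul h a m

lemma NG_le_four {ψ : G → ℝ} (h : (Function.support ψ).Finite) (a : G) :
    NG ψ a ≤ 4 * ∑' x, ψ x ^ 2 := by
  have s1 := summable_sq (fin_shift h a)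
  have s2 := summable_sq h
  have key : NG ψ a ≤ ∑' x, (2 * ψ (x + a) ^ 2 + 2 * ψ x ^ 2) := by
    refine Summable.tsum_le_tsum (fun x => ?_) (summable_NG h a)
      ((s1.mul_left 2).add (s2.mul_left 2))
    nlinarith [sq_nonneg (ψ (x + a) + ψ x)]
  rw [(s1.mul_left 2).tsum_add (s2.mul_left 2), tsum_mul_left, tsum_mul_left, tsum_shift] at key
  linarith

lemma NG_split {σ φ : G → ℝ} (h : (Function.support σ).Finite)
    (h' : (Function.support φ).Finite) {θ : ℝ} (hθ : 0 < θ) (a : G) :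
    NG σ a ≤ (1 + 1 / θ) * NG (fun x => σ x - φ x) a + (1 + θ) * NG φ a := by
  have s1 := summable_NG (fin_sub h h') a
  have s2 := summable_NG h' a
  unfold NG
  rw [← tsum_mul_left, ← tsum_mul_left, ← (s1.mul_left _).tsum_add (s2.mul_left _)]
  refine Summable.tsum_le_tsum (fun x => ?_) (summable_NG h a)
    ((s1.mul_left _).add (s2.mul_left _))
  set A := σ (x + a) - φ (x + a) - (σ x - φ x) with hA
  set B := φ (x + a) - φ x with hB
  have e : σ (x + a) - σ x = A + B := by rw [hA, hB]; ring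
  rw [e]
  have : (1 + 1 / θ) * A ^ 2 + (1 + θ) * B ^ 2 - (A + B) ^ 2 = (A - θ * B) ^ 2 / θ := by
    field_simp; ring
  have h2 : 0 ≤ (A - θ * B) ^ 2 / θ := by positivity
  linarith

end Grp

section Adm

variable {J : Finset P}

lemma refl_mem (hJ : IsAdmissible J) {y : P} (hy : y ∈ J) : (y.1, -y.2) ∈ J :=
  hJ.2.2.2 _ (hJ.2.2.1 y hy)

lemma sum_refl (hJ : IsAdmissible J) (F : P → ℝ) : ∑ y ∈ J, F (y.1, -y.2) = ∑ y ∈ J, F y := by
  refine Finset.sum_nbij' (fun y => (y.1, -y.2)) (fun y => (y.1, -y.2)) ?_ ?_ ?_ ?_ ?_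
  · intro y hy; exact refl_mem hJ hy
  · intro y hy; exact refl_mem hJ hy
  · intro y _; simp
  · intro y _; simp
  · intro y _; rfl

lemma sum_swap (hJ : IsAdmissible J) (F : P → ℝ) : ∑ y ∈ J, F (y.2, y.1) = ∑ y ∈ J, F y := by
  refine Finset.sum_nbij' (fun y => (y.2, y.1)) (fun y => (y.2, y.1)) ?_ ?_ ?_ ?_ ?_
  · intro y hy; exact hJ.2.2.2 y hy
  · intro y hy; exact hJ.2.2.2 y hy
  · intro y _; simp
  · intro y _; simp
  · intro y _; rfl

lemma card_pos (hJ : IsAdmissible J) : (0 : ℝ) < J.card := by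
  exact_mod_cast Finset.card_pos.mpr ⟨_, hJ.2.1⟩

lemma sum_fst (hJ : IsAdmissible J) :
    ∑ y ∈ J, ((y.1 : ℝ)) ^ 2 = 2 * J.card * varianceConst J := by
  have := card_pos hJ
  unfold varianceConst
  field_simp

lemma sum_snd (hJ : IsAdmissible J) :
    ∑ y ∈ J, ((y.2 : ℝ)) ^ 2 = 2 * J.card * varianceConst J := by
  rw [← sum_fst hJ, ← sum_swap hJ (fun y => ((y.1 : ℝ)) ^ 2)]

lemma units_subset (hJ : IsAdmissible J) :
    ({((1 : ℤ), (0 : ℤ)), (0, 1), (-1, 0), (0, -1)} : Finset P) ⊆ J := by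
  have h1 := hJ.2.1
  have h2 : ((0 : ℤ), (1 : ℤ)) ∈ J := hJ.2.2.2 _ h1
  have h3 : ((-1 : ℤ), (0 : ℤ)) ∈ J := hJ.2.2.1 _ h2
  have h4 : ((0 : ℤ), (-1 : ℤ)) ∈ J := hJ.2.2.2 _ h3
  intro y hy
  simp only [Finset.mem_insert, Finset.mem_singleton] at hy
  rcases hy with rfl | rfl | rfl | rfl <;> assumption

lemma upper {G : Type} [AddCommGroup G] (π : P →+ G) (hJ : IsAdmissible J) {σ : G → ℝ}
    (h : (Function.support σ).Finite) :
    ∑ y ∈ J, NG σ (π y) ≤
      2 * J.card * varianceConst J * (NG σ (π (1, 0)) + NG σ (π (0, 1))) := by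
  have hy : ∀ y : P, NG σ (π y) + NG σ (π (y.1, -y.2)) ≤
      2 * (((y.1 : ℝ)) ^ 2 * NG σ (π (1, 0))) + 2 * (((y.2 : ℝ)) ^ 2 * NG σ (π (0, 1))) := by
    intro y
    have e1 : π y = y.1 • π (1, 0) + y.2 • π (0, 1) := by
      rw [← map_zsmul, ← map_zsmul, ← map_add]; congr 1; ext <;> simp
    have e2 : π (y.1, -y.2) = y.1 • π (1, 0) - y.2 • π (0, 1) := by
      rw [← map_zsmul, ← map_zsmul, ← map_sub]; congr 1; ext <;> simp
    rw [e1, e2]
    have := NG_quad h (y.1 • π (1, 0)) (y.2 • π (0, 1))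
    have a1 := NG_zsmul h (π (1, 0)) y.1
    have a2 := NG_zsmul h (π (0, 1)) y.2
    linarith
  have hs := Finset.sum_le_sum (s := J) fun y _ => hy y
  rw [Finset.sum_add_distrib, sum_refl hJ (fun y => NG σ (π y)), Finset.sum_add_distrib,
    ← Finset.mul_sum, ← Finset.mul_sum, ← Finset.sum_mul, ← Finset.sum_mul, sum_fst hJ,
    sum_snd hJ] at hs
  linarith

lemma lower {G : Type} [AddCommGroup G] (π : P →+ G) (hJ : IsAdmissible J) (σ : G → ℝ) :
    2 * (NG σ (π (1, 0)) + NG σ (π (0, 1))) ≤ ∑ y ∈ J, NG σ (π y) := by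
  have hs := Finset.sum_le_sum_of_subset_of_nonneg (f := fun y => NG σ (π y)) (units_subset hJ)
    (fun y _ _ => NG_nonneg σ _)
  have e1 : π (-1, 0) = -π (1, 0) := by rw [← map_neg]; congr 1
  have e2 : π (0, -1) = -π (0, 1) := by rw [← map_neg]; congr 1
  rw [Finset.sum_insert (by decide), Finset.sum_insert (by decide),
    Finset.sum_insert (by decide), Finset.sum_singleton, e1, e2, NG_neg, NG_neg] at hs
  linarith

end Adm

/-- The two asymptotic conditions of the roughness criterion. -/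
lemma ev_cond {θ : ℝ} (hθ : 0 < θ) (C γ₀ : ℝ) : ∀ᶠ β : ℝ in atTop,
    γ₀ ≤ β * θ / (2 * (1 + θ)) ∧
      C * Real.exp (-(β * θ / (2 * (1 + θ))) / 2) * (β * β) ≤ 1 / 2 := by
  set c : ℝ := θ / (4 * (1 + θ)) with hc
  have hc0 : 0 < c := by positivity
  have h1 : Tendsto (fun β : ℝ => β * θ / (2 * (1 + θ))) atTop atTop :=
    (tendsto_id.atTop_mul_const hθ).atTop_div_const (by positivity)
  have h2 : Tendsto (fun β : ℝ => C / c ^ 2 * ((c * β) ^ 2 * Real.exp (-(c * β)))) atTop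
      (𝓝 (C / c ^ 2 * 0)) :=
    ((Real.tendsto_pow_mul_exp_neg_atTop_nhds_zero 2).comp
      (tendsto_id.const_mul_atTop hc0)).const_mul _
  rw [mul_zero] at h2
  filter_upwards [h1.eventually_ge_atTop γ₀,
    h2.eventually (ge_mem_nhds (show (0 : ℝ) < 1 / 2 by norm_num))] with β b1 b2
  refine ⟨b1, ?_⟩
  have e1 : -(β * θ / (2 * (1 + θ))) / 2 = -(c * β) := by rw [hc]; field_simp; ring
  have e2 : C * Real.exp (-(c * β)) * (β * β) =
      C / c ^ 2 * ((c * β) ^ 2 * Real.exp (-(c * β))) := by field_simp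
  rw [e1, e2]
  exact b2

lemma sum_Icc_sq (ρ : ℕ) :
    ∑ a ∈ Finset.Icc (-(ρ : ℤ)) ρ, ((a : ℝ)) ^ 2 = (ρ : ℝ) * (ρ + 1) * (2 * ρ + 1) / 3 := by
  induction ρ with
  | zero => simp
  | succ n ih =>
    have e : Finset.Icc (-((n + 1 : ℕ) : ℤ)) ((n + 1 : ℕ) : ℤ) =
        insert (-((n : ℤ) + 1)) (insert ((n : ℤ) + 1) (Finset.Icc (-(n : ℤ)) n)) := by
      ext a
      simp only [Finset.mem_Icc, Finset.mem_insert]
      push_cast
      omega
    rw [e, Finset.sum_insert, Finset.sum_insert, ih]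
    · push_cast; ring
    · simp only [Finset.mem_Icc]; omega
    · simp only [Finset.mem_Icc, Finset.mem_insert]; omega

lemma card_Icc (ρ : ℕ) : ((Finset.Icc (-(ρ : ℤ)) ρ).card : ℝ) = 2 * ρ + 1 := by
  have : (Finset.Icc (-(ρ : ℤ)) ρ).card = 2 * ρ + 1 := by
    rw [Int.card_Icc]; omega
  rw [this]; push_cast; ring

lemma zero_mem_box (ρ : ℕ) : (0 : P) ∈ box ρ := by
  simp [box]

lemma card_boxI (ρ : ℕ) : ((boxInteraction ρ).card : ℝ) = (2 * ρ + 1) ^ 2 - 1 := by
  have h1 : ((box ρ).card : ℝ) = (2 * ρ + 1) ^ 2 := by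
    unfold box
    rw [Finset.card_product]
    push_cast
    rw [card_Icc]; ring
  have h2 := Finset.card_erase_add_one (zero_mem_box ρ)
  have h3 : (((box ρ).erase 0).card : ℝ) + 1 = (box ρ).card := by exact_mod_cast h2
  unfold boxInteraction
  linarith

lemma var_boxI {ρ : ℕ} (hρ : 1 ≤ ρ) :
    varianceConst (boxInteraction ρ) = (2 * ρ + 1) ^ 2 / 24 := by
  have h1 : ∑ y ∈ boxInteraction ρ, ((y.1 : ℝ)) ^ 2 =
      (ρ : ℝ) * (ρ + 1) * (2 * ρ + 1) / 3 * (2 * ρ + 1) := by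
    unfold boxInteraction
    rw [Finset.sum_erase _ (by simp)]
    unfold box
    rw [Finset.sum_product]
    simp only [Finset.sum_const, nsmul_eq_mul]
    rw [← Finset.mul_sum, sum_Icc_sq, card_Icc]; ring
  have hρ' : (1 : ℝ) ≤ ρ := by exact_mod_cast hρ
  unfold varianceConst
  rw [h1, card_boxI]
  have e : (2 * (ρ : ℝ) + 1) ^ 2 - 1 = 4 * (ρ * (ρ + 1)) := by ring
  rw [e]
  field_simp
  ring

lemma adm_boxI {ρ : ℕ} (hρ : 1 ≤ ρ) : IsAdmissible (boxInteraction ρ) := by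
  have hm : ∀ y : P, y ∈ boxInteraction ρ ↔
      y ≠ 0 ∧ (-(ρ : ℤ) ≤ y.1 ∧ y.1 ≤ ρ) ∧ (-(ρ : ℤ) ≤ y.2 ∧ y.2 ≤ ρ) := by
    intro y
    simp [boxInteraction, box]
  refine ⟨by simp [hm], ?_, ?_, ?_⟩
  · rw [hm]
    refine ⟨by decide, ?_⟩
    simp only
    omega
  · rintro ⟨a, b⟩ hy
    rw [hm] at hy ⊢
    simp only [ne_eq, Prod.mk_eq_zero] at hy ⊢
    omega
  · rintro ⟨a, b⟩ hy
    rw [hm] at hy ⊢
    simp only [ne_eq, Prod.mk_eq_zero] at hy ⊢
    omega

end C77

open C77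

theorem cmpStmt : CmpStmt := by
  intro G _ π J hJ σ hσ
  refine ⟨lower π hJ σ, upper π hJ hσ, ?_⟩
  intro φ hφ θ hθ
  have h1 : ∀ y ∈ J, NG σ (π y) ≤
      (1 + 1 / θ) * (4 * ∑' x : G, (σ x - φ x) ^ 2) + (1 + θ) * NG φ (π y) := by
    intro y _
    have a1 := NG_split hσ hφ hθ (π y)
    have a2 := NG_le_four (fin_sub hσ hφ) (π y)
    have a3 : (0 : ℝ) ≤ 1 + 1 / θ := by positivity
    have := mul_le_mul_of_nonneg_left a2 a3
    linarith
  have h2 := Finset.sum_le_sum h1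
  rw [Finset.sum_add_distrib, Finset.sum_const, nsmul_eq_mul, ← Finset.mul_sum] at h2
  have h3 := mul_le_mul_of_nonneg_left (upper π hJ hφ) (show (0 : ℝ) ≤ 1 + θ by positivity)
  linarith

theorem e1Stmt (h : RoughStmt) : E1Stmt := by
  intro J hJ
  obtain ⟨C, γ₀, hC, -, H⟩ := h (9 * Real.pi) (by linarith [Real.pi_pos])
  have ev := (ev_cond (θ := 1) one_pos C γ₀).and
    ((eventually_ge_atTop (9 * Real.pi * (1 + 1) * varianceConst J)).and
      ((eventually_ge_atTop (J.card : ℝ)).and (eventually_gt_atTop (0 : ℝ))))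
  obtain ⟨β, ⟨b1, b2⟩, b3, b4, b5⟩ := ev.exists
  refine ⟨β, b5, H J hJ β 1 b5 one_pos b3 b1 (le_trans ?_ b2)⟩
  gcongr

theorem e2Stmt (h : RoughStmt) : E2Stmt := by
  intro ε hε
  set θ : ℝ := Real.sqrt (1 + ε) - 1 with hθd
  have hsq : (1 + θ) ^ 2 = 1 + ε := by
    rw [hθd, add_sub_cancel, Real.sq_sqrt (by linarith)]
  have hθ : 0 < θ := by
    have : 1 < Real.sqrt (1 + ε) := by
      rw [Real.lt_sqrt (by norm_num)]; linarith
    linarith
  have hpi := Real.pi_pos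
  obtain ⟨C, γ₀, hC, -, H⟩ := h (8 * Real.pi * (1 + θ)) (by nlinarith)
  have ht : Tendsto (fun ρ : ℕ => (1 + ε) * (8 * Real.pi * ((2 * (ρ : ℝ) + 1) ^ 2 / 24)))
      atTop atTop := by
    refine Tendsto.const_mul_atTop (by linarith) (Tendsto.const_mul_atTop (by positivity)
      (Tendsto.atTop_div_const (by norm_num) ?_))
    refine (tendsto_pow_atTop (by norm_num)).comp ?_
    exact tendsto_atTop_add_const_right _ _
      (Tendsto.const_mul_atTop (by norm_num) tendsto_natCast_atTop_atTop)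
  filter_upwards [ht.eventually (ev_cond hθ C γ₀), eventually_ge_atTop 1] with ρ hρ hρ1
  rw [← var_boxI hρ1] at hρ
  set β := (1 + ε) * (8 * Real.pi * varianceConst (boxInteraction ρ)) with hβ
  have hv := var_boxI hρ1
  have hβ' : β = (1 + ε) * (8 * Real.pi * ((2 * (ρ : ℝ) + 1) ^ 2 / 24)) := by rw [hβ, hv]
  have hpos : (0 : ℝ) < (2 * (ρ : ℝ) + 1) ^ 2 := by positivity
  have hβ0 : 0 < β := by rw [hβ']; positivity
  have hcard : ((boxInteraction ρ).card : ℝ) ≤ β := by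
    rw [card_boxI, hβ']
    have h3 : 3 ≤ (1 + ε) * Real.pi := by nlinarith [Real.pi_gt_three]
    nlinarith
  refine H _ (adm_boxI hρ1) β θ hβ0 hθ (le_of_eq ?_) hρ.1 (le_trans ?_ hρ.2)
  · rw [hβ, ← hsq]; ring
  · gcongr

end Crest.Agent.T145.FS
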