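import Crest.Agent.T145.FsDef_70

/-!
# Row 145, item (e), leaf E0 (helper80): `FS.e0Stmt`
-/

set_option autoImplicit false

namespace Crest.Agent.T145.FS

open MeasureTheory

namespace E80

theorem prod_tsum_fin {A : Type} (n : ℕ) (f : Fin n → A → ℝ)
    (hf : ∀ j, Summable fun x => ‖f j x‖) :
    (Summable fun X : Fin n → A => ‖∏ j, f j (X j)‖) ∧
      ∑' X : Fin n → A, ∏ j, f j (X j) = ∏ j, ∑' x, f j x := by
  induction n with
  | zero => exact ⟨Summable.of_finite, by simp⟩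
  | succ n ih =>
    obtain ⟨h1, h2⟩ := ih (fun j => f j.succ) (fun j => hf _)
    have h0 := hf 0
    set e := (Fin.consEquiv fun _ : Fin (n + 1) => A) with he
    have key : ∀ p : A × (Fin n → A), ∏ j, f j ((e p) j) =
        f 0 p.1 * ∏ j : Fin n, f j.succ (p.2 j) := by
      intro p
      rw [Fin.prod_univ_succ]
      simp [he]
    have hs : Summable fun p : A × (Fin n → A) => ‖f 0 p.1 * ∏ j : Fin n, f j.succ (p.2 j)‖ :=
      Summable.mul_norm (f := f 0) (g := fun Y : Fin n → A => ∏ j : Fin n, f j.succ (Y j)) h0 h1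
    constructor
    · refine (e.summable_iff (f := fun X : Fin (n + 1) → A => ‖∏ j, f j (X j)‖)).1 ?_
      refine hs.congr fun p => ?_
      simp only [Function.comp_apply]
      rw [key]
    · rw [← e.tsum_eq (fun X : Fin (n + 1) → A => ∏ j, f j (X j))]
      simp only [key]
      rw [Fin.prod_univ_succ, ← h2]
      exact (tsum_mul_tsum_of_summable_norm (f := f 0)
        (g := fun Y : Fin n → A => ∏ j : Fin n, f j.succ (Y j)) h0 h1).symm

theorem prod_tsum {κ A : Type} [Fintype κ] (f : κ → A → ℝ)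
    (hf : ∀ j, Summable fun x => ‖f j x‖) :
    ∏ j, ∑' x, f j x = ∑' X : κ → A, ∏ j, f j (X j) := by
  set e := Fintype.equivFin κ
  obtain ⟨-, h2⟩ := prod_tsum_fin (Fintype.card κ) (fun j => f (e.symm j)) (fun j => hf _)
  set g : (κ → A) ≃ (Fin (Fintype.card κ) → A) := Equiv.piCongrLeft' (fun _ => A) e with hg
  have key : ∀ X : κ → A, ∏ j, f (e.symm j) ((g X) j) = ∏ j, f j (X j) := by
    intro X
    rw [← e.symm.prod_comp]
    rfl
  have h3 := g.tsum_eq (fun Y => ∏ j, f (e.symm j) (Y j))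
  simp only [key] at h3
  rw [h3, h2]
  exact (e.symm.prod_comp (fun j => ∑' x, f j x)).symm

theorem summable_th {γ : ℝ} (hγ : 0 < γ) (ψ : ℝ) :
    Summable fun k : ℤ => ‖Real.exp (-(ψ - 2 * Real.pi * k) ^ 2 / (2 * γ))‖ := by
  have h1 : Summable fun k : ℤ => Real.exp (-|(k : ℝ)|) :=
    Summable.of_nat_of_neg (by simpa using Real.summable_exp_neg_nat)
      (by simpa using Real.summable_exp_neg_nat)
  refine Summable.of_nonneg_of_le (fun _ => norm_nonneg _) (fun k => ?_)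
    (h1.mul_left (Real.exp (|ψ| + γ / 2)))
  rw [Real.norm_eq_abs, Real.abs_exp, ← Real.exp_add, Real.exp_le_exp,
    div_le_iff₀ (by positivity), ← sq_abs]
  have h2 : |(k : ℝ)| - |ψ| ≤ |ψ - 2 * Real.pi * k| := by
    have h3 := abs_sub_abs_le_abs_sub (2 * Real.pi * k) ψ
    rw [abs_mul, abs_of_pos (by positivity : 0 < 2 * Real.pi), abs_sub_comm] at h3
    nlinarith [Real.pi_gt_three, abs_nonneg (k : ℝ)]
  nlinarith [sq_nonneg (|ψ - 2 * Real.pi * k| - γ)]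

/-- extension by zero as a linear map -/
def extL (Λ : Finset P) : (Λ → ℝ) →ₗ[ℝ] (P → ℝ) where
  toFun := ext Λ
  map_add' φ ψ := by
    funext x
    by_cases h : x ∈ Λ <;> simp [ext, h]
  map_smul' c φ := by
    funext x
    by_cases h : x ∈ Λ <;> simp [ext, h]

/-- the value of the extension at a point -/
def evL (Λ : Finset P) (x : P) : (Λ → ℝ) →ₗ[ℝ] ℝ :=
  (LinearMap.proj x : (P → ℝ) →ₗ[ℝ] ℝ) ∘ₗ extL Λ

/-- the Dirichlet form -/
noncomputable def Dq (Λ : Finset P) : QuadraticForm ℝ (Λ → ℝ) :=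
  ∑ x ∈ halo Λ, (QuadraticMap.sq.comp (evL Λ (x + (1, 0)) - evL Λ x) +
    QuadraticMap.sq.comp (evL Λ (x + (0, 1)) - evL Λ x))

theorem Dq_apply (Λ : Finset P) (φ : Λ → ℝ) : Dq Λ φ = D Λ (ext Λ φ) := by
  simp [Dq, D, En, w, evL, extL, sq]

theorem w_nonneg (g : P → ℝ) (x : P) : 0 ≤ w g x := add_nonneg (sq_nonneg _) (sq_nonneg _)

theorem D_nonneg (Λ : Finset P) (g : P → ℝ) : 0 ≤ D Λ g :=
  Finset.sum_nonneg fun x _ => w_nonneg g x

theorem D_pos (Λ : Finset P) {φ : Λ → ℝ} (h : φ ≠ 0) : 0 < D Λ (ext Λ φ) := by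
  classical
  obtain ⟨i0, hi0⟩ := Function.ne_iff.1 h
  obtain ⟨i, hi, hm⟩ := Finset.exists_max_image (Finset.univ.filter fun i : Λ => φ i ≠ 0)
    (fun i => i.1.1) ⟨i0, by simpa using hi0⟩
  have h1 : φ i ≠ 0 := by simpa using hi
  have h2 : ext Λ φ (i.1 + (1, 0)) = 0 := by
    unfold ext
    split_ifs with h3
    · by_contra h4
      have := hm ⟨_, h3⟩ (by simpa using h4)
      simp at this
    · rfl
  have h3 : ext Λ φ i.1 = φ i := by simp [ext]
  have h4 : 0 < w (ext Λ φ) i.1 := by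
    rw [w, h2, h3]
    have := sq_pos_of_ne_zero (sub_ne_zero.2 h1.symm)
    positivity
  exact h4.trans_le (Finset.single_le_sum (f := w (ext Λ φ)) (fun x _ => w_nonneg _ x)
    (Finset.mem_union_left _ (Finset.mem_union_left _ i.2)))

theorem cont_D (Λ : Finset P) : Continuous fun φ : Λ → ℝ => D Λ (ext Λ φ) := by
  have h : ∀ x, Continuous fun φ : Λ → ℝ => ext Λ φ x := fun x =>
    (continuous_apply x).comp (extL Λ).continuous_of_finiteDimensional
  unfold D En w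
  fun_prop

/-- the squared norm -/
noncomputable def Nq (ι : Type) [Fintype ι] : QuadraticForm ℝ (ι → ℝ) :=
  ∑ i, QuadraticMap.sq.comp (LinearMap.proj i : (ι → ℝ) →ₗ[ℝ] ℝ)

theorem Nq_apply {ι : Type} [Fintype ι] (φ : ι → ℝ) : Nq ι φ = ∑ i, φ i ^ 2 := by
  simp [Nq, sq]

theorem thA_neg {ι : Type} [Fintype ι] (A : QuadraticForm ℝ (ι → ℝ)) (u : ι → ℝ) :
    thA A (-u) = thA A u := by
  unfold thA
  rw [← (Equiv.neg (ι → ℤ)).tsum_eq]
  refine tsum_congr fun h => ?_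
  have : lat (Equiv.neg (ι → ℤ) h) - -u = -(lat h - u) := by
    funext i
    simp [lat]
    ring
  rw [this, QuadraticMap.map_neg]

/-- elimination of the continuous field -/
theorem elim (hS : SumStmt) (Λ : Finset P) {b γ : ℝ} (hb : 0 < b) (hγ : 0 < γ) :
    ∃ (Pq : QuadraticForm ℝ (Λ → ℝ)) (c : ℝ), 0 < c ∧
      (∀ ψ, ∃ φ, Pq ψ = (∑ i, (ψ i - φ i) ^ 2) / γ + D Λ (ext Λ φ) / b) ∧
      (Pq.PosDef → ∀ u, Zf Λ b γ (ext Λ u) = c * thA Pq u) := by
  classical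
  obtain ⟨Q0, hQ0⟩ : ∃ Q0 : QuadraticForm ℝ (Λ → ℝ),
      ∀ φ, Q0 φ = (∑ i, φ i ^ 2) / γ + D Λ (ext Λ φ) / b :=
    ⟨γ⁻¹ • Nq Λ + b⁻¹ • Dq Λ, fun φ => by
      simp [Nq_apply, Dq_apply, div_eq_inv_mul]⟩
  have hpd : Q0.PosDef := fun φ hφ => by
    rw [hQ0]
    have := D_pos Λ hφ
    positivity
  choose v hv using fun i : Λ => (hS Λ Q0 hpd).2.2.2.1 (Pi.single i γ⁻¹)
  obtain ⟨M, hM⟩ : ∃ M : (Λ → ℝ) →ₗ[ℝ] (Λ → ℝ), ∀ ψ φ,
      QuadraticMap.polar Q0 (M ψ) φ = 2 * (∑ i, ψ i * φ i) / γ := by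
    refine ⟨Fintype.linearCombination ℝ v, fun ψ φ => ?_⟩
    have h1 : ∀ i, QuadraticMap.polar Q0 (v i) φ = 2 * (φ i / γ) := fun i => by
      have := hv i φ
      simp only [Pi.single_apply, ite_mul, zero_mul, Finset.sum_ite_eq', Finset.mem_univ,
        if_true] at this
      rw [div_eq_inv_mul]
      linarith
    rw [Fintype.linearCombination_apply, ← QuadraticMap.polarBilin_apply_apply, map_sum,
      LinearMap.sum_apply, Finset.mul_sum, Finset.sum_div]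
    refine Finset.sum_congr rfl fun i _ => ?_
    rw [map_smul, LinearMap.smul_apply, QuadraticMap.polarBilin_apply_apply, h1, smul_eq_mul]
    ring
  obtain ⟨Pq, hPq⟩ : ∃ Pq : QuadraticForm ℝ (Λ → ℝ), ∀ ψ φ,
      (∑ i, (ψ i - φ i) ^ 2) / γ + D Λ (ext Λ φ) / b = Pq ψ + Q0 (φ - M ψ) := by
    refine ⟨γ⁻¹ • Nq Λ - Q0.comp M, fun ψ φ => ?_⟩
    have h1 : Q0 (φ - M ψ) = Q0 φ + Q0 (M ψ) - QuadraticMap.polar Q0 (M ψ) φ := by
      rw [sub_eq_add_neg, add_comm φ, QuadraticMap.map_add Q0, QuadraticMap.map_neg,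
        QuadraticMap.polar_neg_left]
      ring
    have h2 : ∑ i, (ψ i - φ i) ^ 2 = ∑ i, ψ i ^ 2 + ∑ i, φ i ^ 2 - 2 * ∑ i, ψ i * φ i := by
      rw [Finset.mul_sum, ← Finset.sum_add_distrib, ← Finset.sum_sub_distrib]
      exact Finset.sum_congr rfl fun i _ => by ring
    rw [h1, h2, hM, hQ0 φ]
    simp only [sub_apply, smul_apply, Nq_apply, QuadraticMap.comp_apply,
      smul_eq_mul]
    ring
  have hcont : Continuous fun φ : Λ → ℝ => Real.exp (-(Q0 φ) / 2) := by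
    simp only [hQ0]
    have := cont_D Λ
    fun_prop
  have hint : Integrable fun φ : Λ → ℝ => Real.exp (-(Q0 φ) / 2) := by
    have h1 : Integrable fun φ : Λ → ℝ => ∏ i, Real.exp (-(2 * γ)⁻¹ * φ i ^ 2) :=
      Integrable.fintype_prod (f := fun _ (x : ℝ) => Real.exp (-(2 * γ)⁻¹ * x ^ 2))
        fun _ => integrable_exp_neg_mul_sq (by positivity)
    refine h1.mono' hcont.aestronglyMeasurable (Filter.Eventually.of_forall fun φ => ?_)
    rw [Real.norm_eq_abs, Real.abs_exp, ← Real.exp_sum, Real.exp_le_exp, ← Finset.mul_sum, hQ0]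
    have h2 := div_nonneg (D_nonneg Λ (ext Λ φ)) hb.le
    have h3 : -(2 * γ)⁻¹ * ∑ i, φ i ^ 2 = -((∑ i, φ i ^ 2) / γ) / 2 := by
      field_simp
    rw [h3]
    linarith
  refine ⟨Pq, ∫ φ : Λ → ℝ, Real.exp (-(Q0 φ) / 2), integral_exp_pos hint,
    fun ψ => ⟨M ψ, by rw [hPq, sub_self, QuadraticMap.map_zero, add_zero]⟩, fun hP u => ?_⟩
  have h1 : ∀ φ : Λ → ℝ, (∏ x ∈ Λ, th γ (ext Λ φ x + ext Λ u x)) * gw Λ b φ =
      ∑' h : Λ → ℤ, Real.exp (-(Pq (lat h - u)) / 2) *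
        Real.exp (-(Q0 (φ - M (lat h - u))) / 2) := by
    intro φ
    rw [← Finset.prod_coe_sort Λ]
    simp only [th]
    rw [prod_tsum (fun (i : Λ) (k : ℤ) => Real.exp
      (-(ext Λ φ i + ext Λ u i - 2 * Real.pi * k) ^ 2 / (2 * γ))) fun i => summable_th hγ _,
      ← tsum_mul_right]
    refine tsum_congr fun h => ?_
    rw [← Real.exp_sum, gw, ← Real.exp_add, ← Real.exp_add]
    congr 1
    have h2 := hPq (lat h - u) φ
    have h3 : ∑ i : Λ, -(ext Λ φ i + ext Λ u i - 2 * Real.pi * h i) ^ 2 / (2 * γ) =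
        -((∑ i, ((lat h - u) i - φ i) ^ 2) / γ) / 2 := by
      rw [Finset.sum_div, ← Finset.sum_neg_distrib, Finset.sum_div]
      refine Finset.sum_congr rfl fun i _ => ?_
      simp only [ext, i.2, dif_pos, lat, Pi.sub_apply]
      field_simp
      ring
    have h4 : -D Λ (ext Λ φ) / (2 * b) = -(D Λ (ext Λ φ) / b) / 2 := by
      field_simp
    rw [h3, h4]
    linarith
  have h2 : ∀ y : Λ → ℝ, ∫ φ : Λ → ℝ, Real.exp (-(Q0 (φ - y)) / 2) =
      ∫ φ : Λ → ℝ, Real.exp (-(Q0 φ) / 2) := fun y =>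
    integral_sub_right_eq_self (fun φ : Λ → ℝ => Real.exp (-(Q0 φ) / 2)) y
  rw [Zf, thA]
  simp only [h1]
  rw [← integral_tsum_of_summable_integral_norm
    (fun h => (hint.comp_sub_right _).const_mul _), ← tsum_mul_left]
  · refine tsum_congr fun h => ?_
    rw [integral_const_mul, h2, mul_comm]
  · refine (((hS Λ Pq hP).1 u).mul_right (∫ φ : Λ → ℝ, Real.exp (-(Q0 φ) / 2))).congr fun h => ?_
    simp only [norm_mul, Real.norm_eq_abs, Real.abs_exp]
    rw [integral_const_mul, h2]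

end E80

open E80 in
theorem e0Stmt (hF : FSStmt) (hS : SumStmt) (hR : RsdStmt) : E0Stmt := by
  intro b hb
  have hb0 : 0 < b := lt_trans (by positivity) hb
  obtain ⟨C, γ₀, hC, hγ₀, hF⟩ := hF b hb
  refine ⟨2 * C, γ₀, by positivity, hγ₀, fun γ hγ Λ A κ hκ h1 h2 h3 F g => ?_⟩
  obtain ⟨t₀, ht₀, hF⟩ := hF γ hγ Λ
  obtain ⟨Pq, c, hc, hP1, hP2⟩ := elim hS Λ hb0 (hγ₀.trans_le hγ)
  have hA : A.PosDef := fun σ hσ =>
    (mul_pos_iff_of_pos_left hκ).1 ((D_pos Λ hσ).trans_le (h2 σ))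
  have hAP : ∀ σ, A σ ≤ Pq σ := fun σ => by
    obtain ⟨φ, hφ⟩ := hP1 σ
    rw [hφ]
    exact h1 σ φ
  have hP : Pq.PosDef := fun σ hσ => (hA σ hσ).trans_le (hAP σ)
  obtain ⟨-, ⟨_, hA0⟩, -, hv, hm⟩ := hS Λ A hA
  obtain ⟨-, ⟨_, hP0⟩, -⟩ := hS Λ Pq hP
  have key : ∀ u, thA Pq u * thA A 0 ≤ thA A u * thA Pq 0 := by
    intro u
    have h4 := hR Λ A (Pq - A) hA (fun x => by simpa using hAP x) u u
    rw [add_sub_cancel] at h4
    refine le_trans (le_of_eq ?_) h4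
    congr 1
    refine tsum_congr fun h => ?_
    rw [← Real.exp_add, sub_apply]
    congr 1
    ring
  obtain ⟨v, hv⟩ := hv F
  have hD := D_nonneg Λ (ext Λ v)
  refine ⟨min 1 (t₀ / (D Λ (ext Λ v) + 1)), by positivity, fun t ht => ?_⟩
  have hDt : D Λ (ext Λ (t • v)) = t ^ 2 * D Λ (ext Λ v) := by
    rw [← Dq_apply, ← Dq_apply, QuadraticMap.map_smul, smul_eq_mul, sq]
  have h4 := hF (ext Λ (t • v)) (fun x hx => by simp [ext, hx]) (by
    have h5 := ht.trans (min_le_left _ _)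
    have h6 := ht.trans (min_le_right _ _)
    rw [le_div_iff₀ (by positivity)] at h6
    have h7 := mul_le_mul_of_nonneg_right h5 (mul_nonneg (abs_nonneg t) hD)
    rw [hDt, ← sq_abs]
    nlinarith [abs_nonneg t])
  have h5 : -ext Λ (t • v) = ext Λ (-(t • v)) := (map_neg (extL Λ) _).symm
  have h6 : (0 : P → ℝ) = ext Λ 0 := (map_zero (extL Λ)).symm
  rw [h5, h6, hP2 hP, hP2 hP, hP2 hP, thA_neg, hDt] at h4
  have h7 : Real.exp (-(C * Real.exp (-γ / 2) * (t ^ 2 * D Λ (ext Λ v)))) * thA A 0 ≤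
      thA A (t • v) := by
    have h8 : Real.exp (-(C * Real.exp (-γ / 2) * (t ^ 2 * D Λ (ext Λ v)))) * thA Pq 0 ≤
        thA Pq (t • v) := le_of_mul_le_mul_left (by linarith) hc
    have h9 := mul_le_mul_of_nonneg_right h8 (hA0 0).1.le
    exact le_of_mul_le_mul_right (by linarith [key (t • v)]) (hP0 0).1
  rw [hm (t • F) (t • v) (fun x => by
    rw [QuadraticMap.polar_smul_left, smul_eq_mul, mul_div_assoc, ← hv, Finset.mul_sum]
    exact Finset.sum_congr rfl fun i _ => by simp [mul_assoc]), le_div_iff₀ (hA0 0).1]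
  refine le_trans ?_ (mul_le_mul_of_nonneg_left h7 (Real.exp_pos _).le)
  rw [← mul_assoc, ← Real.exp_add]
  refine mul_le_mul_of_nonneg_right (Real.exp_le_exp.2 ?_) (hA0 0).1.le
  have h8 : 2 * ∑ i, F i * g i - A g ≤ A v := by
    have h9 := hA.nonneg (v - g)
    rw [sub_eq_add_neg, QuadraticMap.map_add A, QuadraticMap.map_neg,
      QuadraticMap.polar_neg_right] at h9
    linarith [hv g]
  have h9 := mul_le_mul_of_nonneg_left h8 (mul_nonneg (sq_nonneg t) (sub_nonneg.2 h3))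
  have h10 := mul_le_mul_of_nonneg_left (h2 v)
    (mul_nonneg (mul_nonneg hC (Real.exp_pos (-γ / 2)).le) (sq_nonneg t))
  rw [QuadraticMap.map_smul, smul_eq_mul]
  nlinarith

end Crest.Agent.T145.FS
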