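import Crest.Agent.T145.FsDef_70

/-!
# Row 145, item (e), leaf E3 (helper83): `β_eff ≥ β - C e^{-cβ}`

Test function `u = sin (2π x₁) sin (2π x₂)`; it vanishes on the two lines `x₁ = 0`, `x₂ = 0`, so
the pinned model on `[1, n-1]²` sees all of it.
-/

set_option autoImplicit false

noncomputable section

namespace Crest.Agent.T145.FS

open Crest.ProbabilityR.HeightModel

namespace E83

open Finset MeasureTheory Real

/-! ### the continuum test function -/

/-- the test function -/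
def uu (x : ℝ × ℝ) : ℝ := sin (2 * π * x.1) * sin (2 * π * x.2)

theorem uu_sp : IsSmoothPeriodic uu := by
  refine ⟨fun x => ⟨?_, ?_⟩, ?_⟩
  · simp only [uu, Prod.fst_add, Prod.snd_add, add_zero, mul_add, mul_one, sin_add_two_pi]
  · simp only [uu, Prod.fst_add, Prod.snd_add, add_zero, mul_add, mul_one, sin_add_two_pi]
  · unfold uu
    fun_prop

theorem dd_sin (a c x : ℝ) :
    iteratedDeriv 2 (fun s => c * sin (a * s)) x = -(a ^ 2) * (c * sin (a * x)) := by
  have h1 : deriv (fun s => c * sin (a * s)) = fun s => c * (cos (a * s) * a) := funext fun s => by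
    have := (((hasDerivAt_id' s).const_mul a).sin).const_mul c
    simpa using this.deriv
  have h2 : deriv (fun s => c * (cos (a * s) * a)) x = c * (-sin (a * x) * a * a) := by
    have := ((((hasDerivAt_id' x).const_mul a).cos).mul_const a).const_mul c
    simpa using this.deriv
  rw [iteratedDeriv_succ, iteratedDeriv_one, h1, h2]
  ring

theorem lap_uu (x : ℝ × ℝ) : -flatLaplacian uu x = 8 * π ^ 2 * uu x := by
  have h1 : (fun s => uu (s, x.2)) = fun s => sin (2 * π * x.2) * sin (2 * π * s) :=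
    funext fun s => by simp only [uu]; ring
  have h2 : (fun s => uu (x.1, s)) = fun s => sin (2 * π * x.1) * sin (2 * π * s) :=
    funext fun s => by simp only [uu]
  rw [flatLaplacian, h1, h2, dd_sin, dd_sin, uu]
  ring

theorem int_sin_sq : ∫ x in Set.Icc (0 : ℝ) 1, sin (2 * π * x) ^ 2 = 1 / 2 := by
  rw [integral_Icc_eq_integral_Ioc, ← intervalIntegral.integral_of_le zero_le_one,
    intervalIntegral.integral_comp_mul_left (fun y => sin y ^ 2) (by positivity : 2 * π ≠ 0),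
    integral_sin_sq]
  simp only [mul_zero, mul_one, sin_zero, cos_zero, sin_two_pi, cos_two_pi, smul_eq_mul]
  field_simp
  ring

theorem pair_uu : unitSquarePairing (fun x => -flatLaplacian uu x) uu = 2 * π ^ 2 := by
  have h : ∀ x : ℝ × ℝ, -flatLaplacian uu x * uu x =
      (8 * π ^ 2 * sin (2 * π * x.1) ^ 2) * sin (2 * π * x.2) ^ 2 := fun x => by
    rw [lap_uu, uu]; ring
  simp only [unitSquarePairing, h]
  rw [Measure.volume_eq_prod, setIntegral_prod_mul (fun x => 8 * π ^ 2 * sin (2 * π * x) ^ 2)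
    (fun x => sin (2 * π * x) ^ 2), integral_const_mul, int_sin_sq]
  ring

/-! ### one-dimensional lattice sums -/

section one

variable {n : ℕ} [NeZero n]

/-- a `2π`-periodic function sampled on `ZMod n` -/
def smp (f : ℝ → ℝ) (k : ZMod n) : ℝ := f (2 * π * ((k.val : ℝ) / n))

theorem smp_cast {f : ℝ → ℝ} (hf : Function.Periodic f (2 * π)) (a : ℤ) :
    smp f (a : ZMod n) = f (2 * π * ((a : ℝ) / n)) := by
  have hn : (n : ℝ) ≠ 0 := by exact_mod_cast NeZero.ne n
  have h1 : (((a : ZMod n).val : ℤ) : ℝ) = (a : ℝ) - n * ((a / n : ℤ) : ℝ) := by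
    rw [ZMod.val_intCast, Int.emod_def]; push_cast; ring
  have h2 : (((a : ZMod n).val : ℕ) : ℝ) = (a : ℝ) - n * ((a / n : ℤ) : ℝ) := by
    rw [← h1]; norm_cast
  rw [smp, h2, ← hf.sub_int_mul_eq (x := 2 * π * ((a : ℝ) / n)) (a / n)]
  congr 1
  field_simp

theorem smp_add {f : ℝ → ℝ} (hf : Function.Periodic f (2 * π)) (k : ZMod n) (a : ℤ) :
    smp f (k + (a : ZMod n)) = f (2 * π * ((k.val : ℝ) / n) + a * (2 * π / n)) := by
  have : k + (a : ZMod n) = (((k.val : ℤ) + a : ℤ) : ZMod n) := by simp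
  rw [this, smp_cast hf]
  congr 1
  push_cast
  ring

theorem sin_eig (k : ZMod n) :
    smp sin (k + 1) + smp sin (k - 1) = 2 * cos (2 * π / n) * smp sin k := by
  have h1 := smp_add (n := n) sin_periodic k 1
  have h2 := smp_add (n := n) sin_periodic k (-1)
  simp only [Int.cast_one, Int.cast_neg, one_mul, neg_mul, ← sub_eq_add_neg] at h1 h2
  rw [h1, h2, sin_add, sin_sub, smp]
  ring

theorem sum_shift (g : ZMod n → ℝ) (a : ZMod n) : ∑ k, g (k + a) = ∑ k, g k :=
  Equiv.sum_comp (Equiv.addRight a) g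

theorem sum_of_eig {g : ZMod n → ℝ} {c : ℝ} (h : ∀ k, g (k + 1) + g (k - 1) = 2 * c * g k)
    (hc : c ≠ 1) : ∑ k, g k = 0 := by
  have h1 := sum_congr (rfl : (univ : Finset (ZMod n)) = univ) fun k _ => h k
  simp only [sub_eq_add_neg] at h1
  rw [sum_add_distrib, sum_shift, sum_shift, ← mul_sum] at h1
  have : (1 - c) * ∑ k, g k = 0 := by linarith
  exact (mul_eq_zero.1 this).resolve_left (sub_ne_zero.2 hc.symm)

omit [NeZero n] in
theorem cos_ne (hn : 3 ≤ n) {m : ℝ} (h0 : 0 < m) (h2 : m ≤ 2) : cos (m * (2 * π / n)) ≠ 1 := by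
  have hn' : (3 : ℝ) ≤ n := by exact_mod_cast hn
  have hp : 0 < m * (2 * π / n) := by positivity
  have hl : m * (2 * π / n) < 2 * π := by
    rw [← mul_div_assoc, div_lt_iff₀ (by linarith)]
    nlinarith [pi_pos]
  intro h
  exact hp.ne' ((cos_eq_one_iff_of_lt_of_lt (by linarith [pi_pos]) hl).1 h)

theorem sum_sin (hn : 3 ≤ n) : ∑ k : ZMod n, smp sin k = 0 :=
  sum_of_eig sin_eig (by simpa using cos_ne hn one_pos one_le_two)

theorem sum_sin_sq (hn : 3 ≤ n) : ∑ k : ZMod n, smp sin k ^ 2 = n / 2 := by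
  have hf : Function.Periodic (fun x => cos (2 * x)) (2 * π) := fun x => by
    beta_reduce
    rw [mul_add, show 2 * (2 * π) = (2 : ℕ) * (2 * π) by norm_num, cos_add_nat_mul_two_pi]
  have h0 : ∑ k : ZMod n, smp (fun x => cos (2 * x)) k = 0 := by
    refine sum_of_eig (c := cos (2 * (2 * π / n))) (fun k => ?_) (cos_ne hn two_pos le_rfl)
    have h1 := smp_add (n := n) hf k 1
    have h2 := smp_add (n := n) hf k (-1)
    simp only [Int.cast_one, Int.cast_neg, one_mul, neg_mul, ← sub_eq_add_neg] at h1 h2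
    rw [h1, h2, mul_add, mul_sub, cos_add, cos_sub, smp]
    ring
  have h1 : ∀ k : ZMod n, smp sin k ^ 2 = 1 / 2 - smp (fun x => cos (2 * x)) k / 2 := fun k => by
    simp only [smp]
    rw [cos_two_mul, cos_sq']
    ring
  simp only [h1]
  rw [sum_sub_distrib, ← sum_div, ← sum_div, h0]
  simp [ZMod.card]

theorem sum_grad_sq (hn : 3 ≤ n) :
    ∑ k : ZMod n, (smp sin (k + 1) - smp sin k) ^ 2 ≤ (2 * π / n) ^ 2 * (n / 2) := by
  have h1 : ∑ k : ZMod n, smp sin (k + 1) ^ 2 = n / 2 := by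
    rw [sum_shift (fun k => smp sin k ^ 2), sum_sin_sq hn]
  have h2 : ∑ k : ZMod n, smp sin (k + 1) * smp sin k = ∑ k : ZMod n, smp sin k * smp sin (k - 1) := by
    rw [← sum_shift (fun k => smp sin k * smp sin (k - 1)) 1]
    simp only [add_sub_cancel_right]
  have h3 : ∑ k : ZMod n, smp sin (k + 1) * smp sin k + ∑ k : ZMod n, smp sin k * smp sin (k - 1) =
      2 * cos (2 * π / n) * (n / 2) := by
    rw [← sum_add_distrib, ← sum_sin_sq hn, mul_sum]
    refine sum_congr rfl fun k _ => ?_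
    linear_combination smp sin k * sin_eig k
  have h4 : ∑ k : ZMod n, (smp sin (k + 1) - smp sin k) ^ 2 = ∑ k : ZMod n, smp sin (k + 1) ^ 2 +
      ∑ k : ZMod n, smp sin k ^ 2 - 2 * ∑ k : ZMod n, smp sin (k + 1) * smp sin k := by
    rw [mul_sum, ← sum_add_distrib, ← sum_sub_distrib]
    exact sum_congr rfl fun k _ => by ring
  have h5 := one_sub_sq_div_two_le_cos (x := 2 * π / n)
  have hn' : (0 : ℝ) ≤ n / 2 := by positivity
  rw [h4, h1, sum_sin_sq hn]
  nlinarith [mul_le_mul_of_nonneg_right h5 hn']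

omit [NeZero n] in
theorem smp_sin_zero : smp sin (0 : ZMod n) = 0 := by simp [smp]

end one

/-! ### the box `[1, n-1]²` inside the torus -/

/-- the box -/
def Lam (n : ℕ) : Finset P := Icc (1 : ℤ) (n - 1) ×ˢ Icc (1 : ℤ) (n - 1)

/-- reduction modulo `n` -/
def prj (n : ℕ) : P →+ ZMod n × ZMod n :=
  AddMonoidHom.prodMap (Int.castAddHom (ZMod n)) (Int.castAddHom (ZMod n))

theorem prj_apply (n : ℕ) (y : P) : prj n y = (((y.1 : ℤ) : ZMod n), ((y.2 : ℤ) : ZMod n)) := rfl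

/-- representatives -/
def rep {n : ℕ} (x : ZMod n × ZMod n) : P := ((x.1.val : ℤ), (x.2.val : ℤ))

theorem mem_Lam {n : ℕ} {y : P} :
    y ∈ Lam n ↔ (1 ≤ y.1 ∧ y.1 ≤ n - 1) ∧ 1 ≤ y.2 ∧ y.2 ≤ n - 1 := by
  simp [Lam, mem_product]

section two

variable {n : ℕ} [NeZero n]

theorem prj_rep (x : ZMod n × ZMod n) : prj n (rep x) = x := by
  simp [prj_apply, rep]

theorem val_cast {a : ℤ} (h0 : 0 ≤ a) (h1 : a < n) : (((a : ZMod n).val : ℕ) : ℤ) = a := by
  rw [ZMod.val_intCast, Int.emod_eq_of_lt h0 h1]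

theorem rep_prj {y : P} (h : (0 ≤ y.1 ∧ y.1 < n) ∧ 0 ≤ y.2 ∧ y.2 < n) : rep (prj n y) = y := by
  simp only [rep, prj_apply, val_cast h.1.1 h.1.2, val_cast h.2.1 h.2.2]

theorem rep_lam {y : P} (h : y ∈ Lam n) : rep (prj n y) = y := by
  rw [mem_Lam] at h
  exact rep_prj ⟨⟨by omega, by omega⟩, by omega, by omega⟩

theorem rep_bd (x : ZMod n × ZMod n) :
    (0 ≤ (rep x).1 ∧ (rep x).1 < n) ∧ 0 ≤ (rep x).2 ∧ (rep x).2 < n := by
  have h1 := ZMod.val_lt x.1
  have h2 := ZMod.val_lt x.2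
  simp only [rep]
  omega

theorem rep_mem {x : ZMod n × ZMod n} : rep x ∈ Lam n ↔ x.1 ≠ 0 ∧ x.2 ≠ 0 := by
  have h := rep_bd x
  rw [mem_Lam, ne_eq, ne_eq, ← ZMod.val_eq_zero, ← ZMod.val_eq_zero]
  simp only [rep] at h ⊢
  omega

theorem sum_rep (G : P → ℝ) :
    ∑ x : ZMod n × ZMod n, G (rep x) = ∑ y ∈ Ico (0 : ℤ) n ×ˢ Ico (0 : ℤ) n, G y := by
  refine sum_nbij' rep (prj n) (fun x _ => ?_) (fun _ _ => mem_univ _) (fun x _ => prj_rep x)
    (fun y hy => rep_prj ?_) fun _ _ => rfl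
  · simpa [mem_product] using rep_bd x
  · simpa [mem_product] using hy

/-- the embedding of the box into the punctured torus -/
def emb (n : ℕ) [NeZero n] (i : Lam n) : {x : ZMod n × ZMod n // x ≠ 0} :=
  ⟨prj n i.1, fun h => (rep_mem.1 (by rw [rep_lam i.2]; exact i.2)).1 (by rw [h]; rfl)⟩

theorem emb_inj : Function.Injective (emb n) := fun i j h => by
  have h1 : prj n i.1 = prj n j.1 := congrArg Subtype.val h
  exact Subtype.ext (by rw [← rep_lam i.2, h1, rep_lam j.2])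

/-- a field on the box, as a field on the torus -/
def TT (φ : Lam n → ℝ) (x : ZMod n × ZMod n) : ℝ := ext (Lam n) φ (rep x)

theorem text_extend (φ : Lam n → ℝ) : text (Function.extend (emb n) φ 0) = TT φ := by
  funext x
  by_cases hx : rep x ∈ Lam n
  · have h0 : x ≠ 0 := fun h => (rep_mem.1 hx).1 (by rw [h]; rfl)
    have h1 : (⟨x, h0⟩ : {x : ZMod n × ZMod n // x ≠ 0}) = emb n ⟨rep x, hx⟩ :=
      Subtype.ext (prj_rep x).symm
    rw [text, dif_neg h0, h1, emb_inj.extend_apply, TT, ext, dif_pos hx]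
  · rw [TT, ext, dif_neg hx, text]
    split_ifs with h0
    · rfl
    · rw [Function.extend_apply']
      · rfl
      · rintro ⟨i, hi⟩
        have : x = prj n i.1 := (congrArg Subtype.val hi).symm
        exact hx (by rw [this, rep_lam i.2]; exact i.2)

theorem TT_prj (φ : Lam n → ℝ) {y : P} (h : (0 ≤ y.1 ∧ y.1 ≤ n) ∧ 0 ≤ y.2 ∧ y.2 ≤ n) :
    TT φ (prj n y) = ext (Lam n) φ y := by
  by_cases h1 : y.1 < n ∧ y.2 < n
  · rw [TT, rep_prj ⟨⟨h.1.1, h1.1⟩, h.2.1, h1.2⟩]
  · have h2 : y ∉ Lam n := by rw [mem_Lam]; omega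
    have h3 : rep (prj n y) ∉ Lam n := by
      rw [rep_mem, prj_apply]
      rcases (by omega : y.1 = n ∨ y.2 = n) with h4 | h4 <;> simp [h4]
    rw [TT, ext, ext, dif_neg h2, dif_neg h3]

theorem sum_lam (G : P → ℝ) (h : ∀ y ∉ Lam n, G y = 0) :
    ∑ x : ZMod n × ZMod n, G (rep x) = ∑ i : Lam n, G i.1 := by
  rw [sum_rep, sum_coe_sort (Lam n) G]
  refine (sum_subset (fun y hy => ?_) fun y _ hy => h y hy).symm
  rw [mem_Lam] at hy
  simp only [mem_product, mem_Ico]
  omega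

theorem tsum_TT (σ φ : Lam n → ℝ) :
    ∑' x : ZMod n × ZMod n, (TT σ x - TT φ x) ^ 2 = ∑ i, (σ i - φ i) ^ 2 := by
  rw [tsum_fintype]
  have := sum_lam (n := n) (fun y => (ext (Lam n) σ y - ext (Lam n) φ y) ^ 2)
    (fun y hy => by simp [ext, hy])
  simpa [TT, ext] using this

theorem NG_TT (φ : Lam n → ℝ) :
    NG (TT φ) (prj n (1, 0)) + NG (TT φ) (prj n (0, 1)) = D (Lam n) (ext (Lam n) φ) := by
  have h1 : ∀ x : ZMod n × ZMod n, (TT φ (x + prj n (1, 0)) - TT φ x) ^ 2 +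
      (TT φ (x + prj n (0, 1)) - TT φ x) ^ 2 = w (ext (Lam n) φ) (rep x) := fun x => by
    have hb := rep_bd x
    have e1 : TT φ (x + prj n (1, 0)) = ext (Lam n) φ (rep x + (1, 0)) := by
      rw [← TT_prj φ (by simp only [Prod.fst_add, Prod.snd_add]; omega), map_add, prj_rep]
    have e2 : TT φ (x + prj n (0, 1)) = ext (Lam n) φ (rep x + (0, 1)) := by
      rw [← TT_prj φ (by simp only [Prod.fst_add, Prod.snd_add]; omega), map_add, prj_rep]
    rw [e1, e2, w, TT]
  rw [NG, NG, tsum_fintype, tsum_fintype, ← sum_add_distrib, sum_congr rfl fun x _ => h1 x,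
    sum_rep, D, En]
  refine (sum_subset (fun y hy => ?_) fun y _ hy => ?_).symm
  · simp only [halo, mem_union, mem_image, mem_Lam] at hy
    simp only [mem_product, mem_Ico]
    rcases hy with (hy | ⟨z, hz, rfl⟩) | ⟨z, hz, rfl⟩
    · omega
    · simp only [Prod.fst_sub, Prod.snd_sub]; omega
    · simp only [Prod.fst_sub, Prod.snd_sub]; omega
  · simp only [halo, mem_union, mem_image, not_or, not_exists, not_and] at hy
    have a1 : y + (1, 0) ∉ Lam n := fun h => hy.1.2 _ h (add_sub_cancel_right _ _)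
    have a2 : y + (0, 1) ∉ Lam n := fun h => hy.2 _ h (add_sub_cancel_right _ _)
    simp [w, ext, hy.1.1, a1, a2]

/-- extension by zero as a linear map -/
def extL (n : ℕ) [NeZero n] : (Lam n → ℝ) →ₗ[ℝ] ({x : ZMod n × ZMod n // x ≠ 0} → ℝ) :=
  Function.ExtendByZero.linearMap ℝ (emb n)

theorem extL_apply (φ : Lam n → ℝ) : extL n φ = Function.extend (emb n) φ 0 := rfl

/-- the lattice test function -/
def UU (x : ZMod n × ZMod n) : ℝ := smp sin x.1 * smp sin x.2

theorem TT_UU (c : ℝ) : TT (fun i : Lam n => c * UU (prj n i.1)) = fun x => c * UU x := by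
  funext x
  rw [TT, ext]
  split_ifs with h
  · simp only [prj_rep]
  · rw [rep_mem, not_and_or, not_not, not_not] at h
    rcases h with h | h <;> simp [UU, h, smp_sin_zero]

theorem sum_UU (hn : 3 ≤ n) : ∑ x : ZMod n × ZMod n, UU x = 0 := by
  simp only [UU]
  rw [Fintype.sum_prod_type' (fun a b : ZMod n => smp sin a * smp sin b), ← sum_mul_sum, sum_sin hn,
    mul_zero]

theorem sum_UU_sq (hn : 3 ≤ n) : ∑ i : Lam n, UU (prj n i.1) ^ 2 = (n / 2) ^ 2 := by
  have h1 := tsum_TT (n := n) (fun i => 1 * UU (prj n i.1)) (fun i => 0 * UU (prj n i.1))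
  rw [TT_UU, TT_UU, tsum_fintype] at h1
  simp only [one_mul, zero_mul, sub_zero] at h1
  rw [← h1]
  simp only [UU, mul_pow]
  rw [Fintype.sum_prod_type' (fun a b : ZMod n => smp sin a ^ 2 * smp sin b ^ 2), ← sum_mul_sum,
    sum_sin_sq hn, sq]

theorem NG_UU (hn : 3 ≤ n) (c : ℝ) :
    NG (fun x => c * UU x) (prj n (1, 0)) + NG (fun x => c * UU x) (prj n (0, 1)) ≤
      c ^ 2 * (2 * π ^ 2) := by
  have hn' : (0 : ℝ) < n := by exact_mod_cast (by omega : 0 < n)
  have h := sum_grad_sq hn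
  have h1 : NG (fun x => c * UU x) (prj n (1, 0)) =
      c ^ 2 * ((∑ k : ZMod n, (smp sin (k + 1) - smp sin k) ^ 2) * (n / 2)) := by
    rw [NG, tsum_fintype, ← sum_sin_sq hn, sum_mul_sum, ← Fintype.sum_prod_type', mul_sum]
    refine sum_congr rfl fun x _ => ?_
    simp only [UU, prj_apply, Prod.fst_add, Prod.snd_add, Int.cast_one, Int.cast_zero, add_zero]
    ring
  have h2 : NG (fun x => c * UU x) (prj n (0, 1)) =
      c ^ 2 * ((n / 2) * ∑ k : ZMod n, (smp sin (k + 1) - smp sin k) ^ 2) := by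
    rw [NG, tsum_fintype, ← sum_sin_sq hn, sum_mul_sum, ← Fintype.sum_prod_type', mul_sum]
    refine sum_congr rfl fun x _ => ?_
    simp only [UU, prj_apply, Prod.fst_add, Prod.snd_add, Int.cast_one, Int.cast_zero, add_zero]
    ring
  have h3 : (2 * π / n) ^ 2 * (n / 2) * n = 2 * π ^ 2 := by field_simp
  rw [h1, h2, ← mul_add]
  refine mul_le_mul_of_nonneg_left ?_ (sq_nonneg c)
  nlinarith [mul_le_mul_of_nonneg_right h hn'.le]

end two

/-! ### the lower bound on every torus -/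

theorem dbl_iter (hD : DblStmt) {ι : Type} [Fintype ι] {A : QuadraticForm ℝ (ι → ℝ)}
    (hA : A.PosDef) (F : ι → ℝ) {X t₀ : ℝ} (ht : 0 < t₀)
    (h : ∀ t : ℝ, |t| ≤ t₀ → exp (t ^ 2 * X) ≤ mgf A (t • F)) : exp X ≤ mgf A F := by
  have key : ∀ (k : ℕ) (t : ℝ), |t| ≤ 2 ^ k * t₀ → exp (t ^ 2 * X) ≤ mgf A (t • F) := by
    intro k
    induction k with
    | zero => simpa using h
    | succ k ih =>
      intro t h1
      have h2 := ih (t / 2) (by rw [abs_div, abs_two, pow_succ] at *; linarith)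
      have h3 := (pow_le_pow_left₀ (exp_pos _).le h2 4).trans ((hD ι A hA).2.2 _)
      rw [← exp_nat_mul, smul_smul, show 2 * (t / 2) = t by ring] at h3
      refine le_trans (le_of_eq ?_) h3
      congr 1
      push_cast
      ring
  obtain ⟨k, hk⟩ := pow_unbounded_of_one_lt (1 / t₀) (one_lt_two (α := ℝ))
  simpa using key k 1 (by rw [abs_one]; exact ((div_lt_iff₀ ht).1 hk).le)

theorem var_pos {J : Finset P} (hJ : IsAdmissible J) : 0 < varianceConst J := by
  have hc : (0 : ℝ) < J.card := by exact_mod_cast card_pos.2 ⟨_, hJ.2.1⟩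
  refine div_pos (sum_pos' (fun y _ => sq_nonneg _) ⟨_, hJ.2.1, by simp⟩) (by positivity)

theorem lower (hC : CmpStmt) (hT : TorStmt) (hP : PinStmt) (hD : DblStmt)
    {J : Finset P} (hJ : IsAdmissible J) {β ε : ℝ} (hβ : 0 < β) (hε : ε ≤ 1)
    (hb : 18 * π * varianceConst J ≤ β)
    (hE : ∀ (Λ : Finset P) (A : QuadraticForm ℝ (Λ → ℝ)),
      (∀ σ φ : Λ → ℝ, A σ ≤ (∑ i, (σ i - φ i) ^ 2) / (β / 4) + D Λ (ext Λ φ) / (9 * π)) →
      (∀ σ : Λ → ℝ, D Λ (ext Λ σ) ≤ β * J.card * A σ) →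
      ∀ F g : Λ → ℝ, ∃ t₀ : ℝ, 0 < t₀ ∧ ∀ t : ℝ, |t| ≤ t₀ →
        exp (t ^ 2 * (1 - ε) * (2 * ∑ i, F i * g i - A g) / 2) ≤ mgf A (t • F))
    {n : ℕ} (hn : 3 ≤ n) :
    (1 - ε) * β / (2 * varianceConst J) * (2 * π ^ 2) ≤
      log (torusLaplace J β n fun x => -flatLaplacian uu x) := by
  have : NeZero n := ⟨by omega⟩
  have hv := var_pos hJ
  have hc : (0 : ℝ) < J.card := by exact_mod_cast card_pos.2 ⟨_, hJ.2.1⟩
  have hn' : (0 : ℝ) < n := by exact_mod_cast (by omega : 0 < n)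
  obtain ⟨A, hA, hA1, hA2⟩ := hT J hJ β hβ n
  set A' : QuadraticForm ℝ (Lam n → ℝ) := A.comp (extL n) with hA'
  have e1 : ∀ x, A' x = A (Function.extend (emb n) x 0) := fun x => rfl
  have hA'p : A'.PosDef := fun x hx => hA _ fun h => hx (funext fun i => by
    have := congrFun h (emb n i)
    rwa [extL_apply, emb_inj.extend_apply] at this)
  have e2 : ∀ σ, A' σ = (∑ y ∈ J, NG (TT σ) (prj n y)) / (2 * β * J.card) := fun σ => by
    rw [e1, hA1, text_extend, sum_comm]
    simp only [NG, tsum_fintype, prj_apply]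
  have hcmp := fun σ : ZMod n × ZMod n → ℝ => hC _ (prj n) J hJ σ (Set.toFinite _)
  have hD0 : ∀ φ : Lam n → ℝ, 0 ≤ D (Lam n) (ext (Lam n) φ) := fun φ =>
    sum_nonneg fun x _ => add_nonneg (sq_nonneg _) (sq_nonneg _)
  -- the test vectors
  set c := β / varianceConst J with hc'
  have hF : ∀ x : ZMod n × ZMod n,
      -flatLaplacian uu ((x.1.val : ℝ) / n, (x.2.val : ℝ) / n) = 8 * π ^ 2 * UU x := fun x => by
    rw [lap_uu]; rfl
  obtain ⟨t₀, ht₀, h0⟩ := hE (Lam n) A' (fun σ φ => by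
      have h1 := (hcmp (TT σ)).2.2 (TT φ) (Set.toFinite _) 1 one_pos
      rw [tsum_TT, NG_TT] at h1
      have h2 : D (Lam n) (ext (Lam n) φ) * (2 * varianceConst J / β) ≤
          D (Lam n) (ext (Lam n) φ) / (9 * π) := by
        rw [div_eq_mul_inv _ (9 * π)]
        refine mul_le_mul_of_nonneg_left ?_ (hD0 φ)
        rw [← one_div, div_le_div_iff₀ hβ (by positivity)]
        linarith
      refine le_trans ?_ (add_le_add le_rfl h2)
      rw [e2, div_le_iff₀ (by positivity)]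
      refine h1.trans (le_of_eq ?_)
      field_simp
      ring)
    (fun σ => by
      have h1 := (hcmp (TT σ)).1
      rw [NG_TT] at h1
      rw [e2, mul_div_assoc', le_div_iff₀ (by positivity)]
      nlinarith [mul_le_mul_of_nonneg_left h1 (mul_pos hβ hc).le])
    (fun i => 8 * π ^ 2 * UU (prj n i.1) / (n : ℝ) ^ 2) (fun i => c * UU (prj n i.1))
  have h1 : ∑ i : Lam n, 8 * π ^ 2 * UU (prj n i.1) / (n : ℝ) ^ 2 * (c * UU (prj n i.1)) =
      c * (2 * π ^ 2) := by
    have : ∀ i : Lam n, 8 * π ^ 2 * UU (prj n i.1) / (n : ℝ) ^ 2 * (c * UU (prj n i.1)) =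
        8 * π ^ 2 * c / (n : ℝ) ^ 2 * UU (prj n i.1) ^ 2 := fun i => by ring
    simp only [this]
    rw [← mul_sum, sum_UU_sq hn]
    field_simp
    ring
  have h2 : A' (fun i => c * UU (prj n i.1)) ≤ c * (2 * π ^ 2) := by
    have a1 := (hcmp (TT fun i : Lam n => c * UU (prj n i.1))).2.1
    rw [e2, div_le_iff₀ (by positivity)]
    refine a1.trans ?_
    rw [TT_UU]
    refine (mul_le_mul_of_nonneg_left (NG_UU hn c) (by positivity)).trans (le_of_eq ?_)
    rw [hc']
    field_simp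
  have h3 := dbl_iter hD hA'p (fun i => 8 * π ^ 2 * UU (prj n i.1) / (n : ℝ) ^ 2)
    (X := (1 - ε) * β / (2 * varianceConst J) * (2 * π ^ 2)) ht₀ fun t ht => by
      refine le_trans (exp_le_exp.2 ?_) (h0 t ht)
      have a1 : (1 - ε) * β / (2 * varianceConst J) * (2 * π ^ 2) =
          (1 - ε) * (c * (2 * π ^ 2)) / 2 := by rw [hc']; field_simp
      have a2 : 0 ≤ t ^ 2 * (1 - ε) := mul_nonneg (sq_nonneg t) (by linarith)
      rw [h1, a1]
      nlinarith [mul_le_mul_of_nonneg_left h2 a2]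
  have h4 := hP _ _ (emb n) A A' emb_inj hA e1
    (fun x => 8 * π ^ 2 * UU x.1 / (n : ℝ) ^ 2)
  rw [hA2]
  simp only [hF]
  rw [← mul_sum, sum_UU hn]
  simp only [mul_zero, zero_div, sub_zero]
  exact (le_log_iff_exp_le ((exp_pos _).trans_le (h3.trans h4))).2 (h3.trans h4)

end E83

open Real E83 in
/-- E3: `β_eff ≥ β - C e^{-β/16}`. -/
theorem e3Stmt (hE : E0Stmt) (hC : CmpStmt) (hT : TorStmt) (hP : PinStmt) (hD : DblStmt)
    (_hS : SumStmt) : E3Stmt := by
  intro J hJ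
  obtain ⟨C, γ₀, hC0, hγ, h⟩ := hE (9 * π) (by linarith [pi_pos])
  have hv := var_pos hJ
  have hc : (0 : ℝ) < J.card := by exact_mod_cast Finset.card_pos.2 ⟨_, hJ.2.1⟩
  refine ⟨1 / 16, by norm_num, 512 * C * J.card,
    4 * γ₀ + 18 * π * varianceConst J + 128 * C * J.card, by positivity, fun β hβ L c hL hlim => ?_⟩
  have p1 : 0 < 18 * π * varianceConst J := by positivity
  have p2 : 0 ≤ 128 * C * J.card := by positivity
  have hβ0 : 0 < β := by linarith
  set ε := C * exp (-(β / 4) / 2) * (β * J.card) with hε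
  have q1 : ∀ x : ℝ, 0 ≤ x → x ^ 2 / 2 * exp (-x) ≤ 1 := fun x hx => by
    have := quadratic_le_exp_of_nonneg hx
    rw [exp_neg, ← div_eq_mul_inv, div_le_one (exp_pos x)]
    linarith
  have hε1 : ε ≤ 1 := by
    have a1 := q1 (β / 8) (by positivity)
    have a2 : ε = 128 * C * J.card / β * ((β / 8) ^ 2 / 2 * exp (-(β / 8))) := by
      rw [hε, show -(β / 4) / 2 = -(β / 8) by ring]; field_simp; ring
    rw [a2]
    exact mul_le_one₀ ((div_le_one hβ0).2 (by linarith)) (by positivity) a1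
  have hε2 : ε * β ≤ 512 * C * J.card * exp (-(1 / 16) * β) := by
    have a1 := q1 (β / 16) (by positivity)
    have a2 : ε * β = 512 * C * J.card * exp (-(1 / 16) * β) *
        ((β / 16) ^ 2 / 2 * exp (-(β / 16))) := by
      rw [hε, show -(β / 4) / 2 = -(1 / 16) * β + -(β / 16) by ring, exp_add]; ring
    rw [a2]
    exact mul_le_of_le_one_right (by positivity) a1
  have key := ge_of_tendsto (hlim uu uu_sp) (Filter.eventually_atTop.2 ⟨2, fun N hN =>
    lower hC hT hP hD hJ hβ0 hε1 (by linarith)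
      (fun Λ A h1 h2 => h (β / 4) (by linarith) Λ A (β * J.card) (by positivity) h1 h2 hε1)
      (n := L ^ N) (le_trans (by norm_num) ((Nat.pow_le_pow_left hL 2).trans
        (Nat.pow_le_pow_right (by omega) hN)))⟩)
  rw [pair_uu] at key
  have k2 := le_of_mul_le_mul_right key (by positivity)
  rw [div_le_div_iff_of_pos_right (by positivity)] at k2
  linarith

end Crest.Agent.T145.FS
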