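import Crest.Agent.T145.FsDef_70

/-!
# Row 145, item (e), leaf INI: Poisson summation and the first convex splitting (helper6)
-/

set_option autoImplicit false

namespace Crest.Agent.T145.FS.Ini6

open MeasureTheory

theorem cont_ext (Λ : Finset P) (x : P) : Continuous fun φ : Λ → ℝ => ext Λ φ x := by
  unfold ext
  by_cases h : x ∈ Λ
  · simp only [h, dif_pos]; exact continuous_apply _
  · simp only [h, dif_neg, not_false_eq_true]; exact continuous_const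

theorem cont_D (Λ : Finset P) : Continuous fun φ : Λ → ℝ => D Λ (ext Λ φ) := by
  unfold D En w
  refine continuous_finsetSum _ fun x _ => ?_
  exact (((cont_ext Λ _).sub (cont_ext Λ _)).pow 2).add (((cont_ext Λ _).sub (cont_ext Λ _)).pow 2)

theorem cont_gw (Λ : Finset P) (b : ℝ) : Continuous (gw Λ b) := by
  unfold gw
  exact Real.continuous_exp.comp ((cont_D Λ).neg.div_const _)

theorem ext_smul (Λ : Finset P) (t : ℝ) (φ : Λ → ℝ) (x : P) :
    ext Λ (t • φ) x = t * ext Λ φ x := by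
  unfold ext
  by_cases h : x ∈ Λ <;> simp [h]

theorem D_smul (Λ : Finset P) (t : ℝ) (φ : Λ → ℝ) :
    D Λ (ext Λ (t • φ)) = t ^ 2 * D Λ (ext Λ φ) := by
  unfold D En w
  rw [Finset.mul_sum]
  refine Finset.sum_congr rfl fun x _ => ?_
  simp only [ext_smul]; ring

theorem w_nonneg (g : P → ℝ) (x : P) : 0 ≤ w g x := by unfold w; positivity

theorem D_pos (Λ : Finset P) (φ : Λ → ℝ) (h : φ ≠ 0) : 0 < D Λ (ext Λ φ) := by
  classical
  obtain ⟨i, hi⟩ := Function.ne_iff.1 h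
  have hne : (Λ.filter fun x => ext Λ φ x ≠ 0).Nonempty :=
    ⟨i.1, Finset.mem_filter.2 ⟨i.2, by simpa [ext, i.2] using hi⟩⟩
  obtain ⟨x, hx, hmax⟩ := Finset.exists_max_image _ (fun x : P => x.1) hne
  obtain ⟨hxΛ, hx0⟩ := Finset.mem_filter.1 hx
  have h1 : ext Λ φ (x + (1, 0)) = 0 := by
    by_contra h1
    have hm : x + (1, 0) ∈ Λ := by
      by_contra hm
      exact h1 (by simp [ext, hm])
    have := hmax _ (Finset.mem_filter.2 ⟨hm, h1⟩)
    simp at this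
  have h2 : 0 < w (ext Λ φ) x := by
    unfold w
    rw [h1]
    have : 0 < (0 - ext Λ φ x) ^ 2 := by
      rw [zero_sub, neg_sq]; positivity
    positivity
  refine lt_of_lt_of_le h2 ?_
  unfold D En
  exact Finset.single_le_sum (f := w (ext Λ φ)) (fun y _ => w_nonneg _ y)
    (by unfold halo; simp [hxΛ])

theorem exists_coercive (Λ : Finset P) :
    ∃ c : ℝ, 0 < c ∧ ∀ φ : Λ → ℝ, c * ‖φ‖ ^ 2 ≤ D Λ (ext Λ φ) := by
  obtain ⟨c, hc, h⟩ := (isCompact_sphere (0 : Λ → ℝ) 1).exists_forall_le' (a := 0)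
    (cont_D Λ).continuousOn (fun φ hφ => D_pos Λ φ (by
      rintro rfl
      simp at hφ))
  refine ⟨c, hc, fun φ => ?_⟩
  by_cases h0 : φ = 0
  · subst h0
    have := D_smul Λ 0 0
    simp only [smul_zero] at this
    rw [this]; simp
  · have hn : 0 < ‖φ‖ := norm_pos_iff.2 h0
    have h1 := h (‖φ‖⁻¹ • φ) (by
      simp [norm_smul, hn.ne'])
    rw [D_smul] at h1
    have h2 : c * ‖φ‖ ^ 2 ≤ ‖φ‖⁻¹ ^ 2 * D Λ (ext Λ φ) * ‖φ‖ ^ 2 :=
      mul_le_mul_of_nonneg_right h1 (by positivity)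
    have h3 : ‖φ‖⁻¹ ^ 2 * D Λ (ext Λ φ) * ‖φ‖ ^ 2 = D Λ (ext Λ φ) := by field_simp
    linarith

theorem integrable_gw (Λ : Finset P) {b : ℝ} (hb : 0 < b) : Integrable (gw Λ b) := by
  obtain ⟨c, hc, h⟩ := exists_coercive Λ
  set k : ℝ := c / (2 * b) / (Λ.card + 1) with hk
  have hk0 : 0 < k := by positivity
  have hI : Integrable (fun φ : Λ → ℝ => ∏ i, Real.exp (-k * φ i ^ 2)) :=
    Integrable.fintype_prod (f := fun _ : Λ => fun t : ℝ => Real.exp (-k * t ^ 2))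
      fun _ => integrable_exp_neg_mul_sq hk0
  refine hI.mono' (cont_gw Λ b).aestronglyMeasurable (ae_of_all _ fun φ => ?_)
  unfold gw
  rw [Real.norm_eq_abs, abs_of_pos (Real.exp_pos _), ← Real.exp_sum]
  refine Real.exp_le_exp.2 ?_
  have h1 : ∑ i : Λ, φ i ^ 2 ≤ (Λ.card + 1) * ‖φ‖ ^ 2 := by
    have : ∑ i : Λ, φ i ^ 2 ≤ ∑ _i : Λ, ‖φ‖ ^ 2 := Finset.sum_le_sum fun i _ => by
      rw [← sq_abs]
      exact pow_le_pow_left₀ (abs_nonneg _) (norm_le_pi_norm φ i) 2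
    simp only [Finset.sum_const, Finset.card_univ, Fintype.card_coe, nsmul_eq_mul] at this
    nlinarith [sq_nonneg ‖φ‖]
  have h2 : ∑ i : Λ, -k * φ i ^ 2 = -(k * ∑ i : Λ, φ i ^ 2) := by
    rw [Finset.mul_sum, ← Finset.sum_neg_distrib]
    exact Finset.sum_congr rfl fun i _ => by ring
  have h3 : k * ∑ i : Λ, φ i ^ 2 ≤ c * ‖φ‖ ^ 2 / (2 * b) := by
    refine (mul_le_mul_of_nonneg_left h1 hk0.le).trans (le_of_eq ?_)
    rw [hk]; field_simp
  have h4 : c * ‖φ‖ ^ 2 / (2 * b) ≤ D Λ (ext Λ φ) / (2 * b) :=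
    div_le_div_of_nonneg_right (h φ) (by positivity)
  rw [h2, neg_div]
  linarith

/-- Integral of a product of one-site factors. -/
noncomputable def Jg (Λ : Finset P) (b : ℝ) (f : P → ℝ → ℝ) (g : P → ℝ) : ℝ :=
  ∫ φ : Λ → ℝ, (∏ x ∈ Λ, f x (ext Λ φ x + g x)) * gw Λ b φ

theorem abs_prod_le (Λ : Finset P) (f : P → ℝ → ℝ) (hf : ∀ x ψ, |f x ψ| ≤ 3) (a : P → ℝ) :
    |∏ x ∈ Λ, f x (a x)| ≤ 3 ^ Λ.card := by
  rw [Finset.abs_prod]
  calc ∏ x ∈ Λ, |f x (a x)| ≤ ∏ _x ∈ Λ, (3 : ℝ) :=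
        Finset.prod_le_prod (fun _ _ => abs_nonneg _) fun x _ => hf x _
    _ = 3 ^ Λ.card := by simp

theorem norm_le_J (Λ : Finset P) (b : ℝ) (f : P → ℝ → ℝ) (hf : ∀ x ψ, |f x ψ| ≤ 3) (g : P → ℝ)
    (φ : Λ → ℝ) :
    ‖(∏ x ∈ Λ, f x (ext Λ φ x + g x)) * gw Λ b φ‖ ≤ 3 ^ Λ.card * gw Λ b φ := by
  have h0 : 0 ≤ gw Λ b φ := (Real.exp_pos _).le
  rw [Real.norm_eq_abs, abs_mul, abs_of_nonneg h0]
  exact mul_le_mul_of_nonneg_right (abs_prod_le Λ f hf fun x => ext Λ φ x + g x) h0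

theorem integrable_J (Λ : Finset P) {b : ℝ} (hb : 0 < b) (f : P → ℝ → ℝ)
    (hc : ∀ x, Continuous (f x)) (hf : ∀ x ψ, |f x ψ| ≤ 3) (g : P → ℝ) :
    Integrable fun φ : Λ → ℝ => (∏ x ∈ Λ, f x (ext Λ φ x + g x)) * gw Λ b φ := by
  refine ((integrable_gw Λ hb).const_mul (3 ^ Λ.card)).mono' ?_
    (ae_of_all _ fun φ => norm_le_J Λ b f hf g φ)
  refine Continuous.aestronglyMeasurable (Continuous.mul ?_ (cont_gw Λ b))
  exact continuous_finsetProd _ fun x _ => (hc x).comp ((cont_ext Λ x).add continuous_const)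

theorem hasSum_half : HasSum (fun q : ℕ => (1 / 2 : ℝ) ^ (q + 1)) 1 := by
  have := hasSum_geometric_two.mul_left (1 / 2 : ℝ)
  simpa [pow_succ, mul_comm] using this

theorem hasSum_J (Λ : Finset P) {b : ℝ} (hb : 0 < b) (f : P → ℝ → ℝ)
    (hc : ∀ x, Continuous (f x)) (hf : ∀ x ψ, |f x ψ| ≤ 3) (r : ℕ → ℝ → ℝ)
    (hrc : ∀ q, Continuous (r q)) (hr : ∀ q ψ, |r q ψ| ≤ 3) {x₀ : P} (hx : x₀ ∈ Λ)
    (hs : ∀ ψ, HasSum (fun q : ℕ => (1 / 2 : ℝ) ^ (q + 1) * r q ψ) (f x₀ ψ)) (g : P → ℝ) :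
    HasSum (fun q : ℕ => (1 / 2 : ℝ) ^ (q + 1) * Jg Λ b (Function.update f x₀ (r q)) g)
      (Jg Λ b f g) := by
  classical
  have huc : ∀ q x, Continuous (Function.update f x₀ (r q) x) := fun q x => by
    by_cases h : x = x₀
    · subst h; simpa using hrc q
    · simpa [h] using hc x
  have hub : ∀ q x ψ, |Function.update f x₀ (r q) x ψ| ≤ 3 := fun q x ψ => by
    by_cases h : x = x₀
    · subst h; simpa using hr q ψ
    · simpa [h] using hf x ψ
  have hint := fun q => (integrable_J Λ hb _ (huc q) (hub q) g).const_mul ((1 / 2 : ℝ) ^ (q + 1))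
  have hsum : Summable fun q : ℕ => ∫ φ : Λ → ℝ, ‖(1 / 2 : ℝ) ^ (q + 1) *
      ((∏ x ∈ Λ, Function.update f x₀ (r q) x (ext Λ φ x + g x)) * gw Λ b φ)‖ := by
    refine Summable.of_nonneg_of_le (fun q => integral_nonneg fun φ => norm_nonneg _) (fun q => ?_)
      (hasSum_half.summable.mul_right (∫ φ : Λ → ℝ, 3 ^ Λ.card * gw Λ b φ))
    rw [← integral_const_mul]
    refine integral_mono (hint q).norm (((integrable_gw Λ hb).const_mul _).const_mul _) fun φ => ?_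
    simp only
    rw [norm_mul, Real.norm_eq_abs, abs_of_pos (by positivity)]
    exact mul_le_mul_of_nonneg_left (norm_le_J Λ b _ (hub q) g φ) (by positivity)
  have H := hasSum_integral_of_summable_integral_norm hint hsum
  simp only [integral_const_mul] at H
  suffices hE : (∫ φ : Λ → ℝ, ∑' q : ℕ, (1 / 2 : ℝ) ^ (q + 1) *
      ((∏ x ∈ Λ, Function.update f x₀ (r q) x (ext Λ φ x + g x)) * gw Λ b φ)) = Jg Λ b f g by
    rw [hE] at H
    exact H
  unfold Jg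
  refine integral_congr_ae (ae_of_all _ fun φ => ?_)
  refine HasSum.tsum_eq ?_
  have e : ∀ q : ℕ, (1 / 2 : ℝ) ^ (q + 1) *
      ((∏ x ∈ Λ, Function.update f x₀ (r q) x (ext Λ φ x + g x)) * gw Λ b φ) =
      (1 / 2 : ℝ) ^ (q + 1) * r q (ext Λ φ x₀ + g x₀) *
        ((∏ x ∈ Λ.erase x₀, f x (ext Λ φ x + g x)) * gw Λ b φ) := fun q => by
    rw [← Finset.mul_prod_erase Λ _ hx]
    have : ∏ x ∈ Λ.erase x₀, Function.update f x₀ (r q) x (ext Λ φ x + g x) =
        ∏ x ∈ Λ.erase x₀, f x (ext Λ φ x + g x) :=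
      Finset.prod_congr rfl fun x hx => by rw [Function.update_of_ne (Finset.ne_of_mem_erase hx)]
    rw [this, Function.update_self]; ring
  simp only [e]
  rw [← Finset.mul_prod_erase Λ _ hx, mul_assoc]
  exact (hs _).mul_right _

/-- The inequality for a product of one-site factors. -/
def Good (Λ : Finset P) (b : ℝ) (u : P → ℝ) (κ : ℝ) (f : P → ℝ → ℝ) : Prop :=
  2 * Real.exp (-κ) * Jg Λ b f 0 ≤ Jg Λ b f u + Jg Λ b f (-u)

theorem good_of_all (Λ : Finset P) {b : ℝ} (hb : 0 < b) (u : P → ℝ) (κ : ℝ) (θ : ℝ → ℝ)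
    (r : ℕ → ℝ → ℝ) (hrc : ∀ q, Continuous (r q)) (hr : ∀ q ψ, |r q ψ| ≤ 3)
    (hs : ∀ ψ, HasSum (fun q : ℕ => (1 / 2 : ℝ) ^ (q + 1) * r q ψ) (θ ψ))
    (h : ∀ a : P → ℕ, Good Λ b u κ fun x => r (a x)) : Good Λ b u κ fun _ => θ := by
  classical
  have hle : ∀ q ψ, ‖(1 / 2 : ℝ) ^ (q + 1) * r q ψ‖ ≤ (1 / 2 : ℝ) ^ (q + 1) * 3 := fun q ψ => by
    rw [norm_mul, Real.norm_eq_abs, abs_of_pos (by positivity)]
    exact mul_le_mul_of_nonneg_left (hr q ψ) (by positivity)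
  have hθc : Continuous θ := by
    have : θ = fun ψ => ∑' q : ℕ, (1 / 2 : ℝ) ^ (q + 1) * r q ψ :=
      funext fun ψ => (hs ψ).tsum_eq.symm
    rw [this]
    exact continuous_tsum (fun q => continuous_const.mul (hrc q))
      (hasSum_half.summable.mul_right 3) hle
  have hθ : ∀ ψ, |θ ψ| ≤ 3 := fun ψ => by
    have := (hs ψ).norm_le_of_bounded (hasSum_half.mul_right 3) fun q => hle q ψ
    simpa using this
  have key : ∀ T : Finset P, T ⊆ Λ → ∀ a : P → ℕ,
      Good Λ b u κ fun x => if x ∈ T then θ else r (a x) := by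
    intro T
    induction T using Finset.induction_on with
    | empty => intro _ a; simpa using h a
    | insert x₀ T hxT ih =>
      intro hT a
      have hx : x₀ ∈ Λ := hT (Finset.mem_insert_self _ _)
      have ih' := ih fun y hy => hT (Finset.mem_insert_of_mem hy)
      set f : P → ℝ → ℝ := fun x => if x ∈ insert x₀ T then θ else r (a x) with hfdef
      have hc : ∀ x, Continuous (f x) := fun x => by
        simp only [hfdef]; split_ifs; exacts [hθc, hrc _]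
      have hf : ∀ x ψ, |f x ψ| ≤ 3 := fun x ψ => by
        simp only [hfdef]; split_ifs; exacts [hθ ψ, hr _ ψ]
      have hs' : ∀ ψ, HasSum (fun q : ℕ => (1 / 2 : ℝ) ^ (q + 1) * r q ψ) (f x₀ ψ) := fun ψ => by
        simpa [hfdef] using hs ψ
      have hu : ∀ q, Function.update f x₀ (r q) =
          fun x => if x ∈ T then θ else r (Function.update a x₀ q x) := fun q => by
        funext x
        by_cases hxx : x = x₀
        · subst hxx; simp [hxT]
        · simp [hfdef, hxx]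
      have H0 := (hasSum_J Λ hb f hc hf r hrc hr hx hs' 0).mul_left (2 * Real.exp (-κ))
      have H1 := (hasSum_J Λ hb f hc hf r hrc hr hx hs' u).add
        (hasSum_J Λ hb f hc hf r hrc hr hx hs' (-u))
      refine hasSum_le (fun q => ?_) H0 H1
      have := ih' (Function.update a x₀ q)
      rw [← hu q] at this
      unfold Good at this
      have hp : (0 : ℝ) ≤ (1 / 2 : ℝ) ^ (q + 1) := by positivity
      nlinarith [mul_le_mul_of_nonneg_left this hp]
  have h1 := key Λ (Finset.Subset.refl _) fun _ => 0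
  have e : ∀ g, Jg Λ b (fun x => if x ∈ Λ then θ else r 0) g = Jg Λ b (fun _ => θ) g := fun g => by
    unfold Jg
    refine integral_congr_ae (ae_of_all _ fun φ => ?_)
    simp only
    rw [Finset.prod_congr rfl fun x hx => by rw [if_pos hx]]
  unfold Good at h1 ⊢
  simpa only [e] using h1

/-- Poisson summation. -/
theorem poisson {γ : ℝ} (hγ : 0 < γ) (ψ : ℝ) :
    HasSum (fun n : ℤ => Real.exp (-γ * (n : ℝ) ^ 2 / 2) * Real.cos (n * ψ))
      (th γ ψ / (γ / (2 * Real.pi)) ^ (1 / 2 : ℝ)) := by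
  have hπ := Real.pi_pos
  have ha : 0 < γ / (2 * Real.pi) := by positivity
  have H := Complex.tsum_exp_neg_quadratic (a := ((γ / (2 * Real.pi) : ℝ) : ℂ))
    (by rwa [Complex.ofReal_re]) (Complex.I * ψ / (2 * Real.pi))
  have hπc : (Real.pi : ℂ) ≠ 0 := by exact_mod_cast hπ.ne'
  have hγc : (γ : ℂ) ≠ 0 := by exact_mod_cast hγ.ne'
  have e1 : ∀ n : ℤ, Complex.exp (-(Real.pi : ℂ) * ((γ / (2 * Real.pi) : ℝ) : ℂ) * (n : ℂ) ^ 2 +
      2 * (Real.pi : ℂ) * (Complex.I * ψ / (2 * Real.pi)) * n) =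
      ((Real.exp (-γ * (n : ℝ) ^ 2 / 2) : ℝ) : ℂ) * Complex.exp (((n * ψ : ℝ) : ℂ) * Complex.I) := by
    intro n
    rw [Complex.ofReal_exp, ← Complex.exp_add]
    congr 1
    push_cast
    field_simp
  have e2 : ∀ n : ℤ, Complex.exp (-(Real.pi : ℂ) / ((γ / (2 * Real.pi) : ℝ) : ℂ) *
      ((n : ℂ) + Complex.I * (Complex.I * ψ / (2 * Real.pi))) ^ 2) =
      ((Real.exp (-(ψ - 2 * Real.pi * n) ^ 2 / (2 * γ)) : ℝ) : ℂ) := by
    intro n
    rw [Complex.ofReal_exp]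
    congr 1
    have : Complex.I * (Complex.I * ψ / (2 * Real.pi)) = -(ψ / (2 * Real.pi) : ℂ) := by
      rw [← mul_div_assoc, ← mul_assoc, Complex.I_mul_I]; ring
    rw [this]
    push_cast
    field_simp
    ring
  simp only [e1, e2] at H
  rw [← Complex.ofReal_tsum] at H
  have e3 : (((γ / (2 * Real.pi) : ℝ) : ℂ)) ^ (1 / 2 : ℂ) =
      (((γ / (2 * Real.pi)) ^ (1 / 2 : ℝ) : ℝ) : ℂ) := by
    rw [Complex.ofReal_cpow ha.le]; norm_num
  rw [e3] at H
  have hsr : Summable fun n : ℤ => Real.exp (-γ * (n : ℝ) ^ 2 / 2) := by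
    have hn : Summable fun n : ℕ => Real.exp (-γ * (n : ℝ) ^ 2 / 2) := by
      refine Summable.of_nonneg_of_le (fun n => (Real.exp_pos _).le) (fun n => ?_)
        (Real.summable_exp_nat_mul_iff.2 (show -γ / 2 < 0 by linarith))
      refine Real.exp_le_exp.2 ?_
      have : (n : ℝ) ≤ (n : ℝ) ^ 2 := by exact_mod_cast Nat.le_self_pow two_ne_zero n
      nlinarith
    refine Summable.of_nat_of_neg ?_ ?_
    · simpa using hn
    · simpa using hn
  have hs : Summable fun n : ℤ => ((Real.exp (-γ * (n : ℝ) ^ 2 / 2) : ℝ) : ℂ) *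
      Complex.exp (((n * ψ : ℝ) : ℂ) * Complex.I) := by
    refine Summable.of_norm_bounded hsr fun n => ?_
    rw [norm_mul, Complex.norm_exp_ofReal_mul_I, mul_one, Complex.norm_real, Real.norm_eq_abs,
      abs_of_pos (Real.exp_pos _)]
  have H2 := Complex.hasSum_re (H ▸ hs.hasSum)
  simp only [Complex.re_ofReal_mul, Complex.exp_ofReal_mul_I_re] at H2
  convert H2 using 1
  rw [← Complex.ofReal_one, ← Complex.ofReal_div, ← Complex.ofReal_mul, Complex.ofReal_re]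
  unfold th
  ring

/-- Amplitude of the charge `q + 1`. -/
noncomputable def cq (γ : ℝ) (q : ℕ) : ℝ := 2 ^ (q + 1) * Real.exp (-γ * ((q : ℝ) + 1) ^ 2 / 2)
/-- The real factor of charge `q + 1`. -/
noncomputable def Rq (γ : ℝ) (q : ℕ) (ψ : ℝ) : ℝ := 1 + 2 * cq γ q * Real.cos (((q : ℝ) + 1) * ψ)

theorem hasSum_Rq {γ : ℝ} (hγ : 0 < γ) (ψ : ℝ) :
    HasSum (fun q : ℕ => (1 / 2 : ℝ) ^ (q + 1) * Rq γ q ψ)
      (th γ ψ / (γ / (2 * Real.pi)) ^ (1 / 2 : ℝ)) := by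
  have H := (hasSum_nat_add_iff' 1).2 (poisson hγ ψ).nat_add_neg
  have H2 := hasSum_half.add H
  convert H2 using 1
  · funext q
    unfold Rq cq
    push_cast
    simp only [neg_mul, Real.cos_neg, even_two, Even.neg_pow]
    have : (1 / 2 : ℝ) ^ (q + 1) * 2 ^ (q + 1) = 1 := by rw [← mul_pow]; norm_num
    linear_combination (2 * Real.exp (-(γ * ((q : ℝ) + 1) ^ 2) / 2) *
      Real.cos (((q : ℝ) + 1) * ψ)) * this
  · simp

theorem cq_pos (γ : ℝ) (q : ℕ) : 0 < cq γ q := by unfold cq; positivity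

theorem cq_le {γ h : ℝ} (hh0 : 0 ≤ h) (hγ : 2 * h + 1 ≤ γ / 2) (q : ℕ) :
    cq γ q * Real.exp (((q : ℝ) + 1) * (2 * h)) ≤ Real.exp (-γ / 2 + 2 * h + 1) := by
  unfold cq
  have h2 : (2 : ℝ) ^ (q + 1) ≤ Real.exp ((q : ℝ) + 1) := by
    have : (2 : ℝ) ≤ Real.exp 1 := by linarith [Real.add_one_le_exp (1 : ℝ)]
    calc (2 : ℝ) ^ (q + 1) ≤ Real.exp 1 ^ (q + 1) := pow_le_pow_left₀ (by norm_num) this _
      _ = Real.exp ((q : ℝ) + 1) := by rw [← Real.exp_nat_mul]; push_cast; ring_nf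
  have hq : (0 : ℝ) ≤ q := Nat.cast_nonneg q
  calc 2 ^ (q + 1) * Real.exp (-γ * ((q : ℝ) + 1) ^ 2 / 2) * Real.exp (((q : ℝ) + 1) * (2 * h))
      ≤ Real.exp ((q : ℝ) + 1) * Real.exp (-γ * ((q : ℝ) + 1) ^ 2 / 2) *
          Real.exp (((q : ℝ) + 1) * (2 * h)) := by gcongr
    _ = Real.exp (((q : ℝ) + 1) + (-γ * ((q : ℝ) + 1) ^ 2 / 2) + ((q : ℝ) + 1) * (2 * h)) := by
        rw [← Real.exp_add, ← Real.exp_add]
    _ ≤ _ := by
        refine Real.exp_le_exp.2 ?_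
        have h3 : 0 ≤ γ / 2 * (q * (q + 1)) := by
          have : 0 ≤ γ / 2 := by linarith
          positivity
        have h4 : 0 ≤ (γ / 2 - (2 * h + 1)) * q := mul_nonneg (by linarith) hq
        nlinarith

/-- The object of charge `q + 1` at the site `m`. -/
noncomputable def Gq (γ : ℝ) (q : ℕ) (m : P) : Fld → ℂ :=
  fun Φ => (cq γ q : ℂ) * Complex.exp (Complex.I * ((q : ℂ) + 1) * (Φ.1 m + Φ.2 m))

theorem self_mem_Q (p : ℕ) (m : P) : m ∈ Q p 0 m := by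
  simp [Q, enl, el]

theorem ob_zero (b : ℝ) (p j : ℕ) (X Y : Finset P) (q : ℤ) {δ : ℝ} (hδ : 0 ≤ δ) :
    Ob b p j X Y q δ fun _ => 0 where
  meas := measurable_const
  lh := fun _ _ _ => differentiableAt_const _
  bd := fun _ _ => by simpa using hδ
  dep := fun _ _ _ => rfl
  cov1 := fun _ _ => by simp
  cov2 := fun _ _ => by simp

theorem ob_Gq {b γ : ℝ} {p : ℕ} (hh0 : 0 ≤ h0 b p) (hγ : 2 * h0 b p + 1 ≤ γ / 2) (q : ℕ) (m : P) :
    Ob b p 0 (Q p 0 m) (Q p 0 m) ((q : ℤ) + 1) (Real.exp (-γ / 2 + 2 * h0 b p + 1)) (Gq γ q m) where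
  meas := by
    unfold Gq
    fun_prop
  lh := fun Φ _ Ψ => by
    unfold Gq
    simp only [Prod.fst_add, Prod.snd_add, Prod.smul_fst, Prod.smul_snd, Pi.add_apply,
      Pi.smul_apply, smul_eq_mul]
    fun_prop
  bd := fun Φ hΦ => by
    obtain ⟨h1, h2, -⟩ := hΦ.1 m (self_mem_Q p m)
    refine le_trans ?_ (cq_le hh0 hγ q)
    unfold Gq
    rw [norm_mul, Complex.norm_real, Real.norm_eq_abs, abs_of_pos (cq_pos γ q), Complex.norm_exp]
    refine mul_le_mul_of_nonneg_left (Real.exp_le_exp.2 ?_) (cq_pos γ q).le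
    have e : (Complex.I * ((q : ℂ) + 1) * (Φ.1 m + Φ.2 m)).re =
        ((q : ℝ) + 1) * (-(Φ.1 m).im - (Φ.2 m).im) := by
      simp; ring
    rw [e]
    refine mul_le_mul_of_nonneg_left ?_ (by positivity)
    linarith [neg_abs_le (Φ.1 m).im, neg_abs_le (Φ.2 m).im]
  dep := fun Φ Φ' h => by
    obtain ⟨h1, h2⟩ := h m (self_mem_Q p m)
    unfold Gq
    rw [h1, h2]
  cov1 := fun Φ c => by
    unfold Gq
    rw [mul_left_comm, ← Complex.exp_add]
    push_cast
    ring_nf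
  cov2 := fun Φ c => by
    unfold Gq
    rw [mul_left_comm, ← Complex.exp_add]
    push_cast
    ring_nf

theorem fac_zero (Φ : Fld) : fac (fun _ => 0) Φ = 1 := by simp [fac, cj]

theorem fac_Gq (γ : ℝ) (q : ℕ) (m : P) (φ g : P → ℝ) :
    fac (Gq γ q m) (rl φ g) = (Rq γ q (φ m + g m) : ℂ) := by
  have hs : star (rl φ g) = rl φ g := by
    unfold rl
    ext x <;> simp
  unfold fac cj
  rw [hs]
  have e : Gq γ q m (rl φ g) =
      (cq γ q : ℂ) * Complex.exp (((((q : ℝ) + 1) * (φ m + g m) : ℝ) : ℂ) * Complex.I) := by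
    unfold Gq rl
    push_cast
    ring_nf
  rw [add_assoc, Complex.star_def, Complex.add_conj, e, Complex.re_ofReal_mul,
    Complex.exp_ofReal_mul_I_re]
  unfold Rq
  push_cast
  ring

end Ini6

open Ini6 in
theorem iniStmt : IniStmt := by
  classical
  intro b γ p Λ S u κ hb hp hγ hΛ hC
  have hh0 : 0 ≤ h0 b p := by
    unfold h0 hh
    have := Real.pi_pos
    positivity
  have hγ0 : 0 < γ := by linarith
  set δ₀ := Real.exp (-γ / 2 + 2 * h0 b p + 1) with hδ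
  have hδ0 : 0 < δ₀ := Real.exp_pos _
  have hdl : dl δ₀ 0 = δ₀ := by simp [dl]
  have hR : ∀ q ψ, |Rq γ q ψ| ≤ 3 := fun q ψ => by
    have h1 : cq γ q ≤ 1 := by
      have h2 := cq_le hh0 hγ q
      have h3 : δ₀ ≤ 1 := Real.exp_le_one_iff.2 (by linarith)
      have h4 : 1 ≤ Real.exp (((q : ℝ) + 1) * (2 * h0 b p)) := Real.one_le_exp (by positivity)
      nlinarith [cq_pos γ q]
    have h5 := cq_pos γ q
    unfold Rq
    rw [abs_le]
    constructor <;> nlinarith [Real.cos_le_one (((q : ℝ) + 1) * ψ),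
      Real.neg_one_le_cos (((q : ℝ) + 1) * ψ)]
  have hRc : ∀ q, Continuous (Rq γ q) := fun q => by
    unfold Rq
    fun_prop
  have hall : ∀ a : P → ℕ, Good Λ b u κ fun x => Rq γ (a x) := fun a => by
    have H := hC (fun _ _ _ => 0) (fun m => if m ∈ Λ then Gq γ (a m) m else fun _ => 0)
      (fun k _ m _ => ⟨0, ob_zero _ _ _ _ _ _ (by
        unfold KK NN dl
        positivity), Or.inl rfl⟩)
      (fun m _ => by
        by_cases hm : m ∈ Λ
        · refine ⟨(a m : ℤ) + 1, by omega, ?_⟩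
          rw [if_pos hm, hdl]
          exact ob_Gq hh0 hγ _ m
        · refine ⟨1, le_rfl, ?_⟩
          rw [if_neg hm, hdl]
          exact ob_zero _ _ _ _ _ _ hδ0.le)
    have e : ∀ g, Ig Λ b (fun Φ => FW S 0 (fun _ _ _ => 0) Φ *
        ∏ m ∈ S, fac (if m ∈ Λ then Gq γ (a m) m else fun _ => 0) Φ) g =
        Jg Λ b (fun x => Rq γ (a x)) g := fun g => by
      unfold Ig Jg
      refine MeasureTheory.integral_congr_ae (MeasureTheory.ae_of_all _ fun φ => ?_)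
      simp only
      congr 1
      have e1 : FW S 0 (fun _ _ _ => 0) (rl (ext Λ φ) g) = 1 := by
        unfold FW
        simp [fac_zero]
      have e2 : ∏ m ∈ S, fac (if m ∈ Λ then Gq γ (a m) m else fun _ => 0) (rl (ext Λ φ) g) =
          ∏ m ∈ Λ, ((Rq γ (a m) (ext Λ φ m + g m) : ℝ) : ℂ) := by
        rw [← Finset.prod_subset hΛ (fun m _ hm => by rw [if_neg hm, fac_zero])]
        exact Finset.prod_congr rfl fun m hm => by rw [if_pos hm, fac_Gq]
      rw [e1, e2, one_mul, ← Complex.ofReal_prod, Complex.ofReal_re]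
    unfold Low at H
    unfold Good
    simpa only [e] using H
  have hG := good_of_all Λ hb u κ _ (Rq γ) hRc hR (hasSum_Rq hγ0) hall
  set c : ℝ := (γ / (2 * Real.pi)) ^ (1 / 2 : ℝ) with hc
  have hc0 : 0 < c := by
    have := Real.pi_pos
    positivity
  have e : ∀ g, Zf Λ b γ g = c ^ Λ.card * Jg Λ b (fun _ ψ => th γ ψ / c) g := fun g => by
    unfold Zf Jg
    rw [← MeasureTheory.integral_const_mul]
    refine MeasureTheory.integral_congr_ae (MeasureTheory.ae_of_all _ fun φ => ?_)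
    simp only
    rw [Finset.prod_div_distrib, Finset.prod_const]
    field_simp
  unfold Good at hG
  rw [e, e, e]
  have hp : 0 ≤ c ^ Λ.card := by positivity
  nlinarith [mul_le_mul_of_nonneg_left hG hp]

end Crest.Agent.T145.FS
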