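import Crest.Agent.T145.FsDef_70

/-!
# Row 145 (helper14): `FS.OneStmt` (second-order Schwarz estimate) and `FS.FinStmt` (last scale)
-/

set_option autoImplicit false

namespace Crest.Agent.T145.FS

open MeasureTheory Finset Filter Topology

namespace O14

theorem schwarz2 {f : ℂ → ℂ} {T δ : ℝ} (hδ : δ ≤ 1 / 8) (hd : DifferentiableOn ℂ f (Metric.ball 0 T))
    (hb : ∀ t ∈ Metric.ball (0 : ℂ) T, ‖f t - 1‖ ≤ 2 * δ) {t : ℂ} (ht : t ∈ Metric.ball (0 : ℂ) T) :
    ‖f t * f (-t) - f 0 ^ 2‖ ≤ 10 * δ * (‖t‖ / T) ^ 2 := by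
  have hT : 0 < T := Metric.nonempty_ball.1 ⟨_, ht⟩
  have h0 : (0 : ℂ) ∈ Metric.ball (0 : ℂ) T := Metric.mem_ball_self hT
  have hn : ∀ s ∈ Metric.ball (0 : ℂ) T, -s ∈ Metric.ball (0 : ℂ) T := fun s hs => by simpa using hs
  have hδ0 : 0 ≤ δ := by linarith [hb 0 h0, norm_nonneg (f 0 - 1)]
  have hf := (hd.differentiableAt (Metric.ball_mem_nhds 0 hT)).hasDerivAt
  have hf' : HasDerivAt (fun s => f (-s)) (-deriv f 0) 0 := by
    simpa [Function.comp_def] using HasDerivAt.comp (0 : ℂ) (h₂ := f) (h := fun s => -s)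
      (by rwa [neg_zero]) (hasDerivAt_neg 0)
  have hE : HasDerivAt (fun s => f s * f (-s)) 0 0 := by
    refine (hf.mul hf').congr_deriv ?_
    rw [neg_zero]
    ring
  have := Complex.dist_le_mul_div_pow_of_mapsTo_ball_of_isLittleO (f := fun s => f s * f (-s))
    (R₂ := 10 * δ) (n := 1) (hd.mul (hd.comp (differentiableOn_neg _) hn)) (fun s hs => ?_)
    (by simpa using hE.isLittleO.norm_right) ht
  · simpa [dist_eq_norm, sq] using this
  · have e : f s * f (-s) - f 0 * f (-0) = (f s - 1) + (f (-s) - 1) + (f s - 1) * (f (-s) - 1) -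
        (2 * (f 0 - 1) + (f 0 - 1) * (f 0 - 1)) := by rw [neg_zero]; ring
    rw [Metric.mem_closedBall, dist_eq_norm, e]
    have a1 := hb s hs
    have a2 := hb _ (hn s hs)
    have a3 := hb 0 h0
    have b1 := (norm_mul_le _ _).trans (mul_le_mul a1 a2 (norm_nonneg _) (by positivity))
    have b2 := (norm_mul_le _ _).trans (mul_le_mul a3 a3 (norm_nonneg _) (by positivity))
    have b3 : ‖2 * (f 0 - 1)‖ ≤ 4 * δ := by rw [norm_mul, Complex.norm_two]; linarith
    have c1 := norm_sub_le ((f s - 1) + (f (-s) - 1) + (f s - 1) * (f (-s) - 1))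
      (2 * (f 0 - 1) + (f 0 - 1) * (f 0 - 1))
    have c2 := norm_add₃_le (a := f s - 1) (b := f (-s) - 1) (c := (f s - 1) * (f (-s) - 1))
    have c3 := norm_add_le (2 * (f 0 - 1)) ((f 0 - 1) * (f 0 - 1))
    nlinarith

theorem star_line (φ g ψ χ : P → ℝ) (t : ℂ) :
    star (rl φ g + t • rl ψ χ) = rl φ g + (star t) • rl ψ χ := by
  ext x <;> simp [rl]

theorem w_mul (c : ℝ) (g : P → ℝ) (y : P) : w (fun y => c * g y) y = c ^ 2 * w g y := by
  simp only [w]; ring

theorem w_nonneg (g : P → ℝ) (y : P) : 0 ≤ w g y := by unfold w; positivity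

theorem En_nonneg (X : Finset P) (g : P → ℝ) : 0 ≤ En X g := sum_nonneg fun y _ => w_nonneg g y

end O14

open O14

/-- **ONE** -/
theorem oneStmt (h : ExtStmt) : OneStmt := by
  intro b p k m q δ n hb hp hn hδ φ g ψ χ x hx0 hx1 h1 h2 h3 t ht
  have key : ∀ y ∈ Set.Ioo x 1, ‖fac n (rl φ g + t • rl ψ χ) * fac n (rl φ g - t • rl ψ χ) -
      fac n (rl φ g) ^ 2‖ ≤ 10 * δ * y := by
    intro y hy
    have hy0 : 0 < y := hx0.trans_lt hy.1
    have hs : 0 < √y := Real.sqrt_pos.2 hy0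
    have hs1 : √y < 1 := Real.sqrt_lt' one_pos |>.2 (by simpa using hy.2)
    have hN : ∀ s ∈ Metric.ball (0 : ℂ) (√y)⁻¹, ‖n (rl φ g + s • rl ψ χ)‖ ≤ δ ∧
        DifferentiableAt ℂ (fun s : ℂ => n (rl φ g + s • rl ψ χ)) s := by
      intro s hs'
      have a1 : s.im ^ 2 * x ≤ 1 := by
        have b1 : |s.im| * √y ≤ 1 := by
          rw [← le_div_iff₀ hs, one_div]
          exact (Complex.abs_im_le_norm s).trans (mem_ball_zero_iff.1 hs').le
        have b2 := pow_le_one₀ (n := 2) (by positivity) b1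
        rw [mul_pow, sq_abs, Real.sq_sqrt hy0.le] at b2
        nlinarith [hy.1, sq_nonneg s.im]
      have e1 : (fun z => ((rl φ g + s • rl ψ χ).1 z).im) = fun z => s.im * ψ z := by
        funext z; simp [rl]
      have e2 : (fun z => ((rl φ g + s • rl ψ χ).2 z).im) = fun z => s.im * χ z := by
        funext z; simp [rl]
      obtain ⟨c1, c2⟩ := h b p k m q δ n hb hp hn (rl φ g + s • rl ψ χ) (fun z hz => by
        rw [e1, w_mul]
        refine (mul_le_mul_of_nonneg_left (h1 z hz) (sq_nonneg _)).trans ?_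
        rw [← mul_assoc]
        exact mul_le_of_le_one_left (sq_nonneg _) a1) (by
        rw [e2, En]
        simp only [w_mul, ← mul_sum]
        refine (mul_le_mul_of_nonneg_left h2 (sq_nonneg _)).trans ?_
        rw [← mul_assoc]
        exact mul_le_of_le_one_left (by positivity) a1) (h3.imp id fun ⟨⟨z, hz, hz'⟩, z', hw, hw'⟩ =>
          ⟨⟨z, hz, by rw [congrFun e1 z, hz', mul_zero]⟩, z', hw,
            by rw [congrFun e2 z', hw', mul_zero]⟩)
      refine ⟨c1, ?_⟩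
      have := DifferentiableAt.comp (g := fun r : ℂ => n (rl φ g + s • rl ψ χ + r • rl ψ χ)) s
        (f := fun r => r - s) (by rw [sub_self]; exact c2 _) (by fun_prop)
      simpa [Function.comp_def, sub_smul] using this
    have hc : ∀ s ∈ Metric.ball (0 : ℂ) (√y)⁻¹, star s ∈ Metric.ball (0 : ℂ) (√y)⁻¹ :=
      fun s hs => by simpa using hs
    have ht' : t ∈ Metric.ball (0 : ℂ) (√y)⁻¹ := by
      simpa using ht.trans_lt ((one_lt_inv₀ hs).2 hs1)
    have := schwarz2 (f := fun s => fac n (rl φ g + s • rl ψ χ)) hδ (fun s hs => ?_)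
      (fun s hs => ?_) ht'
    · simp only [neg_smul, ← sub_eq_add_neg, zero_smul, add_zero] at this
      refine this.trans ?_
      have hδ0 : 0 ≤ δ := (norm_nonneg _).trans (hN t ht').1
      rw [div_inv_eq_mul, mul_pow, Real.sq_sqrt hy0.le]
      exact mul_le_mul_of_nonneg_left
        (mul_le_of_le_one_left hy0.le (pow_le_one₀ (norm_nonneg _) ht)) (by positivity)
    · simp only [fac, cj, star_line]
      have := (hN _ (hc s hs)).2.star_star
      rw [star_star] at this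
      exact (((hN s hs).2.const_add 1).add this).differentiableWithinAt
    · simp only [fac, cj, star_line]
      rw [add_assoc, add_sub_cancel_left, two_mul]
      exact norm_add_le_of_le (hN s hs).1 (by rw [norm_star]; exact (hN _ (hc s hs)).1)
  refine ge_of_tendsto (x := 𝓝[>] x) (f := fun y => 10 * δ * y)
    (((continuous_const.mul continuous_id).tendsto x).mono_left nhdsWithin_le_nhds) ?_
  filter_upwards [Ioo_mem_nhdsGT hx1] using key

namespace O14

variable {Λ : Finset P} {u : P → ℝ}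

/-- pointwise form of the lower bound -/
structure Pw (Λ : Finset P) (u : P → ℝ) (κ : ℝ) (W : Fld → ℂ) : Prop where
  meas : ∀ g, Measurable fun φ : Λ → ℝ => (W (rl (ext Λ φ) g)).re
  im : ∀ φ g, (W (rl φ g)).im = 0
  pos : ∀ φ g, 0 < (W (rl φ g)).re
  rat : ∃ C, ∀ φ g, (W (rl φ g)).re ≤ C * (W (rl φ 0)).re
  low : ∀ φ, (W (rl φ 0)).re ^ 2 * Real.exp (-κ) ≤ (W (rl φ u)).re * (W (rl φ (-u))).re

theorem Pw.mul {κ κ' : ℝ} {W W' : Fld → ℂ} (h : Pw Λ u κ W) (h' : Pw Λ u κ' W') :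
    Pw Λ u (κ + κ') fun Φ => W Φ * W' Φ := by
  have e : ∀ φ g, (W (rl φ g) * W' (rl φ g)).re = (W (rl φ g)).re * (W' (rl φ g)).re :=
    fun φ g => by simp [h.im]
  obtain ⟨C, hC⟩ := h.rat
  obtain ⟨C', hC'⟩ := h'.rat
  refine ⟨fun g => ?_, fun φ g => by simp [h.im, h'.im], fun φ g => ?_, ⟨C * C', fun φ g => ?_⟩,
    fun φ => ?_⟩ <;> simp only [e]
  · exact (h.meas g).mul (h'.meas g)
  · exact mul_pos (h.pos φ g) (h'.pos φ g)
  · exact (mul_le_mul (hC φ g) (hC' φ g) (h'.pos φ g).le ((h.pos φ g).le.trans (hC φ g))).trans_eq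
      (by ring)
  · have := mul_le_mul (h.low φ) (h'.low φ) (by positivity) (mul_pos (h.pos _ _) (h.pos _ _)).le
    rw [neg_add, Real.exp_add]
    linarith

theorem Pw.prod {ι : Type} (s : Finset ι) {κ : ι → ℝ} {W : ι → Fld → ℂ}
    (h : ∀ i ∈ s, Pw Λ u (κ i) (W i)) : Pw Λ u (∑ i ∈ s, κ i) fun Φ => ∏ i ∈ s, W i Φ := by
  classical
  induction s using Finset.induction_on with
  | empty => exact ⟨by simp, by simp, by simp, ⟨1, by simp⟩, by simp⟩
  | insert i s hi ih =>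
    simp only [sum_insert hi, prod_insert hi]
    exact (h i (mem_insert_self _ _)).mul (ih fun j hj => h j (mem_insert_of_mem hj))

theorem meas_ext (x : P) : Measurable fun φ : Λ → ℝ => ext Λ φ x := by
  unfold ext
  split_ifs <;> fun_prop

theorem Pw.toLow {κ κ' b : ℝ} {W : Fld → ℂ} (h : Pw Λ u κ W) (hκ : κ ≤ 2 * κ') :
    Low Λ b u κ' W := by
  have hg : ∀ φ, 0 < gw Λ b φ := fun φ => Real.exp_pos _
  have h0 : ∀ g φ, 0 ≤ (W (rl (ext Λ φ) g)).re * gw Λ b φ := fun g φ =>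
    (mul_pos (h.pos _ _) (hg φ)).le
  by_cases hi : Integrable fun φ : Λ → ℝ => (W (rl (ext Λ φ) 0)).re * gw Λ b φ
  · obtain ⟨C, hC⟩ := h.rat
    have hm : Measurable (gw Λ b) := by
      have := meas_ext (Λ := Λ)
      unfold gw D En w
      fun_prop
    have hI : ∀ g, Integrable fun φ : Λ → ℝ => (W (rl (ext Λ φ) g)).re * gw Λ b φ := fun g =>
      (hi.const_mul C).mono' ((h.meas g).mul hm).aestronglyMeasurable (ae_of_all _ fun φ => by
        rw [Real.norm_of_nonneg (h0 g φ), ← mul_assoc]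
        exact mul_le_mul_of_nonneg_right (hC _ g) (hg φ).le)
    rw [Low, Ig, Ig, Ig, ← integral_add (hI _) (hI _), ← integral_const_mul]
    refine integral_mono ((hI _).const_mul _) ((hI _).add (hI _)) fun φ => ?_
    simp only [← add_mul, ← mul_assoc]
    refine mul_le_mul_of_nonneg_right ?_ (hg φ).le
    have a1 := h.low (ext Λ φ)
    have a2 : Real.exp (-κ') ^ 2 ≤ Real.exp (-κ) := by
      rw [← Real.exp_nat_mul]
      exact Real.exp_le_exp.2 (by push_cast; linarith)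
    refine (le_abs_self _).trans (abs_le_of_sq_le_sq' ?_ (add_pos (h.pos _ _) (h.pos _ _)).le |>
      fun a => abs_le.2 a)
    nlinarith [sq_nonneg ((W (rl (ext Λ φ) u)).re - (W (rl (ext Λ φ) (-u))).re),
      mul_le_mul_of_nonneg_left a2 (sq_nonneg (W (rl (ext Λ φ) 0)).re)]
  · rw [Low, Ig, integral_undef hi, mul_zero]
    exact add_nonneg (integral_nonneg (h0 _)) (integral_nonneg (h0 _))

theorem w_halo (hu : ∀ x ∉ Λ, u x = 0) {x : P} (hx : x ∉ halo Λ) : w u x = 0 := by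
  simp only [halo, mem_union, mem_image, not_or, not_exists, not_and] at hx
  rw [w, hu x hx.1.1, hu _ fun h => hx.1.2 _ h (by simp), hu _ fun h => hx.2 _ h (by simp)]
  simp

theorem En_eq (hu : ∀ x ∉ Λ, u x = 0) (X : Finset P) :
    En X u = ∑ x ∈ halo Λ, if x ∈ X then w u x else 0 := by
  rw [sum_ite_mem, En]
  exact (sum_subset inter_subset_right fun x h1 h2 =>
    w_halo hu fun h => h2 (mem_inter.2 ⟨h, h1⟩)).symm

theorem En_le (hu : ∀ x ∉ Λ, u x = 0) (X : Finset P) : En X u ≤ D Λ u := by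
  rw [En_eq hu]
  exact sum_le_sum fun x _ => by split_ifs; exacts [le_rfl, w_nonneg u x]

theorem overlap (hu : ∀ x ∉ Λ, u x = 0) {p : ℕ} (hp : 1 ≤ p) (k : ℕ) (S : Finset P) :
    ∑ m ∈ S, En (Q p k m) u ≤ 9 * D Λ u := by
  simp only [En_eq hu]
  rw [sum_comm, D, En, mul_sum]
  refine sum_le_sum fun x _ => ?_
  rw [← sum_filter, sum_const, nsmul_eq_mul]
  refine mul_le_mul_of_nonneg_right ?_ (w_nonneg u x)
  have hl : 0 < el p k := by unfold el; positivity
  have key : ∀ a c : ℤ, el p k * c - el p k ≤ a → a < el p k * c + el p k + el p k →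
      c ∈ Icc (a / el p k - 1) (a / el p k + 1) := fun a c h1 h2 => by
    have b1 : c - 1 ≤ a / el p k := Int.le_ediv_of_mul_le hl (by linarith)
    have b2 : a / el p k < c + 2 := Int.ediv_lt_of_lt_mul hl (by linarith)
    rw [mem_Icc]; omega
  have : #{m ∈ S | x ∈ Q p k m} ≤ #(Icc (x.1 / el p k - 1) (x.1 / el p k + 1) ×ˢ
      Icc (x.2 / el p k - 1) (x.2 / el p k + 1)) := card_le_card fun m hm => by
    have := (mem_filter.1 hm).2
    simp only [Q, enl, mem_product, mem_Ico] at this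
    exact mem_product.2 ⟨key _ _ this.1.1 this.1.2, key _ _ this.2.1 this.2.2⟩
  rw [card_product, Int.card_Icc, Int.card_Icc, show ∀ a : ℤ, a + 1 + 1 - (a - 1) = 3 by omega,
    show ∀ a : ℤ, a + 1 + 1 - (a - 1) = 3 by omega] at this
  exact_mod_cast this

theorem fac_rl (n : Fld → ℂ) (φ g : P → ℝ) :
    fac n (rl φ g) = ((1 + 2 * (n (rl φ g)).re : ℝ) : ℂ) := by
  have : star (rl φ g) = rl φ g := by simpa using star_line φ g 0 0 0
  rw [fac, cj, this, add_assoc, Complex.star_def, Complex.add_conj]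
  push_cast
  rfl

/-- one factor -/
theorem pw_fac (h : OneStmt) {b d : ℝ} {p k : ℕ} {m : P} {q : ℤ} {n : Fld → ℂ} (hb : 0 < b)
    (hp : 1 ≤ p) (hn : Ob b p k (Q p k m) (Q p k m) q d n) (hd : d ≤ 1 / 20)
    (hu : ∀ x ∉ Λ, u x = 0) (hx : 4 ^ k * D Λ u ≤ 1 / 2) (hq : q = 0 ∨ ¬ Q p k m ⊆ Λ) :
    Pw Λ u (26 * (d * 4 ^ k * En (Q p k m) u)) (fac n) := by
  have h0 : 0 ≤ h0 b p := by have := Real.pi_pos; unfold h0 hh; positivity
  have a1 : ∀ φ g, |(n (rl φ g)).re| ≤ d := fun φ g => (Complex.abs_re_le_norm _).trans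
    (hn.bd _ ⟨fun x _ => by simp [rl, w, h0]; positivity, by simp [rl, w, En]⟩)
  have hd0 : 0 ≤ d := (abs_nonneg _).trans (a1 0 0)
  refine ⟨fun g => ?_, fun φ g => ?_, fun φ g => ?_, ⟨2, fun φ g => ?_⟩, fun φ => ?_⟩ <;>
    simp only [fac_rl, Complex.ofReal_re, Complex.ofReal_im]
  · refine ((Complex.measurable_re.comp (hn.meas.comp ?_)).const_mul 2).const_add 1
    exact (measurable_pi_lambda _ fun x => Complex.measurable_ofReal.comp (meas_ext x)).prodMk
      measurable_const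
  · linarith [abs_le.1 (a1 φ g)]
  · linarith [abs_le.1 (a1 φ g), abs_le.1 (a1 φ 0)]
  · have b0 : 0 ≤ 4 ^ k * En (Q p k m) u := mul_nonneg (by positivity) (En_nonneg _ _)
    have b1 : 4 ^ k * En (Q p k m) u ≤ 1 / 2 :=
      (mul_le_mul_of_nonneg_left (En_le hu _) (by positivity)).trans hx
    have := h b p k m q d n hb hp hn (by linarith) φ 0 0 u _ b0 (by linarith)
      (fun y _ => by simp only [w]; simp; positivity)
      (by rw [mul_right_comm, ← mul_pow]; simp) (hq.imp id fun hq => by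
        obtain ⟨y, h1, h2⟩ := not_subset.1 hq
        exact ⟨⟨y, h1, rfl⟩, y, h1, hu y h2⟩) 1 (by simp)
    have e1 : rl φ 0 + (1 : ℂ) • rl 0 u = rl φ u := by ext x <;> simp [rl]
    have e2 : rl φ 0 - (1 : ℂ) • rl 0 u = rl φ (-u) := by ext x <;> simp [rl]
    rw [e1, e2, fac_rl, fac_rl, fac_rl, ← Complex.ofReal_mul, ← Complex.ofReal_pow,
      ← Complex.ofReal_sub, Complex.norm_real, Real.norm_eq_abs] at this
    rw [mul_assoc d]
    generalize 4 ^ k * En (Q p k m) u = x at b0 b1 this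
    have c0 : 0 ≤ d * x := by positivity
    have c1 : d * x ≤ 1 / 40 := by nlinarith
    have c2 : Real.exp (-(26 * (d * x))) ≤ 1 - 13 * (d * x) := by
      rw [Real.exp_neg, inv_le_iff_one_le_mul₀ (Real.exp_pos _)]
      have := Real.add_one_le_exp (26 * (d * x))
      nlinarith
    have c3 : 81 / 100 ≤ (1 + 2 * (n (rl φ 0)).re) ^ 2 := by nlinarith [abs_le.1 (a1 φ 0)]
    nlinarith [(abs_le.1 this).1, mul_le_mul_of_nonneg_left c2 (sq_nonneg (1 + 2 * (n (rl φ 0)).re))]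

end O14

/-- **FIN** -/
theorem finStmt (h : OneStmt) : FinStmt := by
  intro b p δ₀ Λ S u j hb hp hδ hK hS hu hD F A hF hA
  have hp1 : 1 ≤ p := by omega
  have hK20 : 20 ≤ KK p := by
    have : (3 : ℝ) ≤ p := by exact_mod_cast hp
    unfold KK NN
    nlinarith
  have hD0 : 0 ≤ D Λ u := En_nonneg _ _
  have hKδ : KK p * δ₀ ≤ 1 / 20 := by nlinarith
  have hdl : ∀ k, 0 ≤ dl δ₀ k ∧ dl δ₀ k ≤ δ₀ ∧ dl δ₀ k * 4 ^ k = δ₀ * (1 / 2) ^ k := fun k =>
    ⟨by unfold dl; positivity, div_le_self hδ (one_le_pow₀ (by norm_num)), by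
      rw [dl, div_mul_eq_mul_div, mul_div_assoc, ← div_pow]; norm_num⟩
  have h1 := O14.Pw.prod (Λ := Λ) (u := u) (range (j + 1)) fun k hk => O14.Pw.prod S fun m hm => by
    have hk' : k ≤ j := Nat.lt_succ_iff.1 (mem_range.1 hk)
    obtain ⟨q, h1, h2⟩ := hF k hk' m hm
    exact pw_fac h hb hp1 h1 ((mul_le_mul_of_nonneg_left (hdl k).2.1 (by linarith)).trans hKδ) hu
      ((mul_le_mul_of_nonneg_right (pow_le_pow_right₀ (by norm_num) hk') hD0).trans hD) h2
  have h2 := O14.Pw.prod (Λ := Λ) (u := u) S fun m hm => by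
    obtain ⟨q, -, h1⟩ := hA m hm
    exact pw_fac h hb hp1 h1 ((hdl j).2.1.trans (by nlinarith)) hu hD (Or.inr (hS m hm))
  refine (h1.mul h2).toLow ?_
  have key : ∀ k, ∑ m ∈ S, 26 * (KK p * dl δ₀ k * 4 ^ k * En (Q p k m) u) ≤
      234 * (KK p * δ₀ * D Λ u) * (1 / 2) ^ k := fun k => by
    rw [← mul_sum, ← mul_sum, mul_assoc (KK p), (hdl k).2.2]
    have := mul_le_mul_of_nonneg_left (overlap hu hp1 k S)
      (show 0 ≤ KK p * (δ₀ * (1 / 2) ^ k) by positivity)
    linarith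
  have a0 : 0 ≤ KK p * δ₀ * D Λ u := by positivity
  have a1 := sum_le_sum fun k (_ : k ∈ range (j + 1)) => key k
  rw [← mul_sum] at a1
  have a2 := mul_le_mul_of_nonneg_left (sum_geometric_two_le (j + 1))
    (show 0 ≤ 234 * (KK p * δ₀ * D Λ u) by positivity)
  have a3 : ∑ m ∈ S, 26 * (dl δ₀ j * 4 ^ j * En (Q p j m) u) ≤
      ∑ m ∈ S, 26 * (KK p * dl δ₀ j * 4 ^ j * En (Q p j m) u) := sum_le_sum fun m _ => by
    have := (hdl j).1
    have := En_nonneg (Q p j m) u
    gcongr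
    exact le_mul_of_one_le_left (hdl j).1 (by linarith)
  have a4 := (key j).trans (mul_le_of_le_one_right (by positivity)
    (pow_le_one₀ (by norm_num) (by norm_num)))
  linarith

end Crest.Agent.T145.FS
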