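import Crest.Agent.T145.FsDef_70

/-!
# Row 145 (e) (helper81): `FS.oscStmt`, `FS.extStmt`
-/

set_option autoImplicit false

namespace Crest.Agent.T145.FS

open Finset

namespace O81

theorem path0 (h : ℤ → ℝ) {i i' : ℤ} (hi : i ≤ i') :
    |h i' - h i| ≤ ∑ j ∈ Ico i i', |h (j + 1) - h j| := by
  induction i', hi using Int.leInduction with
  | base => simp
  | succ n hn ih =>
    have e : Ico i (n + 1) = insert n (Ico i n) := by ext; simp; omega
    rw [e, sum_insert (by simp)]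
    have := abs_sub_le (h (n + 1)) (h n) (h i)
    linarith

theorem path1 (h : ℤ → ℝ) {a b i i' : ℤ} (hi : i ∈ Ico a b) (hi' : i' ∈ Ico a b) :
    |h i - h i'| ≤ ∑ j ∈ Ico a b, |h (j + 1) - h j| := by
  rw [mem_Ico] at hi hi'
  rcases le_total i i' with h1 | h1
  · rw [abs_sub_comm]
    exact (path0 h h1).trans (sum_le_sum_of_subset_of_nonneg
      (Ico_subset_Ico hi.1 hi'.2.le) fun _ _ _ => abs_nonneg _)
  · exact (path0 h h1).trans (sum_le_sum_of_subset_of_nonneg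
      (Ico_subset_Ico hi'.1 hi.2.le) fun _ _ _ => abs_nonneg _)

theorem avg_le (h : ℤ → ℝ) {I I' : Finset ℤ} (hI : I.Nonempty) (hI' : I'.Nonempty) {T : ℝ}
    (H : ∀ i ∈ I, ∀ i' ∈ I', h i - h i' ≤ T) :
    (∑ i ∈ I, h i) / I.card - (∑ i ∈ I', h i) / I'.card ≤ T := by
  have h1 : (0 : ℝ) < I.card := by exact_mod_cast hI.card_pos
  have h2 : (0 : ℝ) < I'.card := by exact_mod_cast hI'.card_pos
  rw [sub_le_iff_le_add, div_le_iff₀ h1, mul_comm, ← nsmul_eq_mul]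
  refine sum_le_card_nsmul _ _ _ fun i hi => ?_
  rw [← sub_le_iff_le_add', le_div_iff₀ h2, mul_comm, ← nsmul_eq_mul]
  exact card_nsmul_le_sum _ _ _ fun i' hi' => by linarith [H i hi i' hi']

theorem avg_abs (h : ℤ → ℝ) {a b : ℤ} {I I' : Finset ℤ} (hI : I.Nonempty) (hI' : I'.Nonempty)
    (s : I ⊆ Ico a b) (s' : I' ⊆ Ico a b) :
    |(∑ i ∈ I, h i) / I.card - (∑ i ∈ I', h i) / I'.card| ≤ ∑ j ∈ Ico a b, |h (j + 1) - h j| :=
  abs_sub_le_iff.2
    ⟨avg_le h hI hI' fun _ hi _ hi' => (le_abs_self _).trans (path1 h (s hi) (s' hi')),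
      avg_le h hI' hI fun _ hi _ hi' => (le_abs_self _).trans (path1 h (s' hi) (s hi'))⟩

theorem w_nonneg (g : P → ℝ) (x : P) : 0 ≤ w g x := by unfold w; positivity

theorem w_eq (g : P → ℝ) (i j : ℤ) :
    w g (i, j) = (g (i + 1, j) - g (i, j)) ^ 2 + (g (i, j + 1) - g (i, j)) ^ 2 := by
  simp [w]

theorem cs {S : Finset P} {N : ℝ} (hN : 0 ≤ N) (hS : (S.card : ℝ) = N ^ 2) (g f : P → ℝ)
    (hf : ∀ z, f z ^ 2 ≤ w g z) : ∑ z ∈ S, |f z| ≤ N * Real.sqrt (En S g) := by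
  rw [← Real.sqrt_sq hN, ← Real.sqrt_mul (sq_nonneg _), ← hS]
  refine Real.le_sqrt_of_sq_le (sq_sum_le_card_mul_sum_sq.trans ?_)
  exact mul_le_mul_of_nonneg_left (sum_le_sum fun z _ => by rw [sq_abs]; exact hf z)
    (Nat.cast_nonneg _)

/-- the average over a square -/
noncomputable def av (a : P) (N : ℕ) (g : P → ℝ) : ℝ :=
  (∑ i ∈ Ico a.1 (a.1 + N), ∑ j ∈ Ico a.2 (a.2 + N), g (i, j)) / (N : ℝ) ^ 2

theorem card_I (a : ℤ) (N : ℕ) : ((Ico a (a + N)).card : ℝ) = N := by simp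

theorem step (a a' : P) {N M : ℕ} (g : P → ℝ) (hM : 0 < M) (hNM : N ≤ 2 * M)
    (s1 : Ico a'.1 (a'.1 + M) ⊆ Ico a.1 (a.1 + N)) (s2 : Ico a'.2 (a'.2 + M) ⊆ Ico a.2 (a.2 + N)) :
    |av a' M g - av a N g| ≤
      3 * Real.sqrt (En (Ico a.1 (a.1 + N) ×ˢ Ico a.2 (a.2 + N)) g) := by
  have n1 : (Ico a'.1 (a'.1 + M)).Nonempty := nonempty_Ico.2 (by omega)
  have n2 : (Ico a'.2 (a'.2 + M)).Nonempty := nonempty_Ico.2 (by omega)
  have hM' : (0 : ℝ) < M := by exact_mod_cast hM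
  have hN' : (0 : ℝ) < N := by rw [← card_I a.1 N]; exact_mod_cast (n1.mono s1).card_pos
  have hNM' : (N : ℝ) ≤ 2 * M := by exact_mod_cast hNM
  have hS : ((Ico a.1 (a.1 + N) ×ˢ Ico a.2 (a.2 + N)).card : ℝ) = (N : ℝ) ^ 2 := by
    rw [card_product, Nat.cast_mul, card_I, card_I, sq]
  set E := Real.sqrt (En (Ico a.1 (a.1 + N) ×ˢ Ico a.2 (a.2 + N)) g) with hE
  have hE0 : 0 ≤ E := Real.sqrt_nonneg _
  have c1 := cs hN'.le hS g (fun z => g (z.1 + 1, z.2) - g (z.1, z.2)) fun z => by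
    rw [show w g z = w g (z.1, z.2) from rfl, w_eq]; exact le_add_of_nonneg_right (sq_nonneg _)
  have c2 := cs hN'.le hS g (fun z => g (z.1, z.2 + 1) - g (z.1, z.2)) fun z => by
    rw [show w g z = w g (z.1, z.2) from rfl, w_eq]; exact le_add_of_nonneg_left (sq_nonneg _)
  rw [sum_product] at c1
  rw [sum_product_right] at c2
  have a1 := avg_abs (fun i => ∑ j ∈ Ico a'.2 (a'.2 + M), g (i, j)) n1 (n1.mono s1) s1 subset_rfl
  have a2 := avg_abs (fun j => ∑ i ∈ Ico a.1 (a.1 + N), g (i, j)) n2 (n2.mono s2) s2 subset_rfl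
  rw [card_I, card_I] at a1 a2
  have b1 := a1.trans ((sum_le_sum fun i _ => by
    rw [← sum_sub_distrib]
    exact (abs_sum_le_sum_abs _ _).trans
      (sum_le_sum_of_subset_of_nonneg s2 fun _ _ _ => abs_nonneg _)).trans c1)
  have b2 := a2.trans ((sum_le_sum fun j _ => by
    rw [← sum_sub_distrib]
    exact abs_sum_le_sum_abs _ _).trans c2)
  rw [sum_comm, sum_comm (s := Ico a.2 (a.2 + N))] at b2
  unfold av
  set X := ∑ i ∈ Ico a'.1 (a'.1 + M), ∑ j ∈ Ico a'.2 (a'.2 + M), g (i, j)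
  set Y := ∑ i ∈ Ico a.1 (a.1 + N), ∑ j ∈ Ico a'.2 (a'.2 + M), g (i, j)
  set Z := ∑ i ∈ Ico a.1 (a.1 + N), ∑ j ∈ Ico a.2 (a.2 + N), g (i, j)
  have e : X / (M : ℝ) ^ 2 - Z / (N : ℝ) ^ 2 = (X / M - Y / N) / M + (Y / M - Z / N) / N := by
    field_simp
    ring
  rw [e]
  refine (abs_add_le _ _).trans ?_
  rw [abs_div, abs_div, abs_of_pos hM', abs_of_pos hN']
  have d1 : |X / M - Y / N| / M ≤ 2 * E := by
    rw [div_le_iff₀ hM']; nlinarith
  have d2 : |Y / M - Z / N| / N ≤ E := by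
    rw [div_le_iff₀ hN']; linarith
  linarith

theorem chain (g : P → ℝ) (x : P) (k : ℕ) : ∀ (a : P) (N : ℕ), N ≤ 2 ^ k →
    x ∈ Ico a.1 (a.1 + N) ×ˢ Ico a.2 (a.2 + N) →
    |g x - av a N g| ≤ 3 * k * Real.sqrt (En (Ico a.1 (a.1 + N) ×ˢ Ico a.2 (a.2 + N)) g) := by
  induction k with
  | zero =>
    intro a N hN hx
    simp only [mem_product, mem_Ico] at hx
    obtain rfl : N = 1 := by omega
    have e : ∀ c : ℤ, Ico c (c + 1) = {c} := fun c => by ext; simp; omega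
    have e1 : x = a := Prod.ext (by omega) (by omega)
    simp [av, e, e1]
  | succ k ih =>
    intro a N hN hx
    simp only [mem_product, mem_Ico] at hx
    have hp : 2 ^ (k + 1) = 2 * 2 ^ k := by ring
    set M := (N + 1) / 2 with hM
    set a' : P := (if x.1 < a.1 + M then a.1 else a.1 + N - M,
      if x.2 < a.2 + M then a.2 else a.2 + N - M) with ha
    have s1 : Ico a'.1 (a'.1 + M) ⊆ Ico a.1 (a.1 + N) :=
      Ico_subset_Ico (by simp only [ha]; split_ifs <;> omega) (by simp only [ha]; split_ifs <;> omega)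
    have s2 : Ico a'.2 (a'.2 + M) ⊆ Ico a.2 (a.2 + N) :=
      Ico_subset_Ico (by simp only [ha]; split_ifs <;> omega) (by simp only [ha]; split_ifs <;> omega)
    have h1 := ih a' M (by omega) (by
      simp only [mem_product, mem_Ico, ha]
      refine ⟨?_, ?_⟩ <;> split_ifs <;> omega)
    have h2 := step a a' g (by omega) (by omega) s1 s2
    have h3 : Real.sqrt (En (Ico a'.1 (a'.1 + M) ×ˢ Ico a'.2 (a'.2 + M)) g) ≤
        Real.sqrt (En (Ico a.1 (a.1 + N) ×ˢ Ico a.2 (a.2 + N)) g) :=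
      Real.sqrt_le_sqrt (sum_le_sum_of_subset_of_nonneg (product_subset_product s1 s2)
        fun _ _ _ => w_nonneg _ _)
    have h4 := mul_le_mul_of_nonneg_left h3 (show (0 : ℝ) ≤ 3 * k by positivity)
    have h5 := abs_sub_le (g x) (av a' M g) (av a N g)
    push_cast
    linarith

end O81

open O81

theorem oscStmt : OscStmt := by
  intro a N g x hx y hy
  refine ⟨fun k hk => ?_, fun c hc h => ?_⟩
  · have h1 := chain g x k a N hk hx
    have h2 := chain g y k a N hk hy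
    have h3 := abs_sub_le (g x) (av a N g) (g y)
    rw [abs_sub_comm] at h2
    linarith
  · rw [mem_product] at hx hy
    have h1 := (path1 (fun i => g (i, x.2)) hx.1 hy.1).trans (sum_le_card_nsmul _ _ c fun i hi => by
      have := h (i, x.2) (mem_product.2 ⟨hi, hx.2⟩)
      rw [w_eq] at this
      exact abs_le_of_sq_le_sq (by linarith [sq_nonneg (g (i, x.2 + 1) - g (i, x.2))]) hc)
    have h2 := (path1 (fun j => g (y.1, j)) hx.2 hy.2).trans (sum_le_card_nsmul _ _ c fun j hj => by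
      have := h (y.1, j) (mem_product.2 ⟨hy.1, hj⟩)
      rw [w_eq] at this
      exact abs_le_of_sq_le_sq (by linarith [sq_nonneg (g (y.1 + 1, j) - g (y.1, j))]) hc)
    rw [nsmul_eq_mul, card_I] at h1 h2
    have h3 := abs_sub_le (g x) (g (y.1, x.2)) (g y)
    have e1 : g (x.1, x.2) = g x := rfl
    have e2 : g (y.1, y.2) = g y := rfl
    simp only [e1, e2] at h1 h2
    linarith

namespace O81

theorem Q_eq (p k : ℕ) (m : P) : Q p k m =
    Ico (el p k * m.1 - el p k) (el p k * m.1 - el p k + (3 * (24 * p) ^ k : ℕ)) ×ˢ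
      Ico (el p k * m.2 - el p k) (el p k * m.2 - el p k + (3 * (24 * p) ^ k : ℕ)) := by
  unfold Q enl el
  push_cast
  congr 2 <;> ring

theorem mem_Om {b : ℝ} {p k : ℕ} {m : P} (hb : 0 < b) (hp : 1 ≤ p) {Φ : Fld}
    (h1 : ∀ y ∈ Q p k m, w (fun y => (Φ.1 y).im) y ≤ (hh b / (el p k : ℝ)) ^ 2)
    (h2 : En (Q p k m) (fun y => (Φ.2 y).im) ≤ (1 / 4 : ℝ) ^ k)
    (z1 : ∃ y ∈ Q p k m, (Φ.1 y).im = 0) (z2 : ∃ y ∈ Q p k m, (Φ.2 y).im = 0) :
    Φ ∈ Om b p k (Q p k m) := by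
  obtain ⟨y1, hy1, e1⟩ := z1
  obtain ⟨y2, hy2, e2⟩ := z2
  have hh0 : 0 < hh b := div_pos hb Real.pi_pos
  have hp' : (1 : ℝ) ≤ p := by exact_mod_cast hp
  have hl : (el p k : ℝ) = (24 * (p : ℝ)) ^ k := by simp [el]
  have hl0 : (0 : ℝ) < (24 * (p : ℝ)) ^ k := by positivity
  refine ⟨fun x hx => ⟨?_, ?_, h1 x hx⟩, h2⟩
  · rw [Q_eq] at hx hy1 h1
    have h := (oscStmt (el p k * m.1 - el p k, el p k * m.2 - el p k) (3 * (24 * p) ^ k)
      (fun y => (Φ.1 y).im) x hx y1 hy1).2 _ (by rw [hl]; positivity) h1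
    simp only [e1, sub_zero] at h
    refine h.trans ?_
    rw [hl, h0]
    push_cast
    have : 2 * (3 * (24 * (p : ℝ)) ^ k) * (hh b / (24 * (p : ℝ)) ^ k) = 6 * hh b := by
      field_simp; ring
    linarith
  · rw [Q_eq] at hx hy2 h2
    have hN : 3 * (24 * p) ^ k ≤ 2 ^ (2 + 24 * p * k) := by
      rw [pow_add, pow_mul]
      exact Nat.mul_le_mul (by norm_num) (Nat.pow_le_pow_left Nat.lt_two_pow_self.le k)
    have h := (oscStmt (el p k * m.1 - el p k, el p k * m.2 - el p k) (3 * (24 * p) ^ k)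
      (fun y => (Φ.2 y).im) x hx y2 hy2).1 _ hN
    simp only [e2, sub_zero] at h
    have h3 := Real.sqrt_le_sqrt h2
    rw [show (1 / 4 : ℝ) ^ k = ((1 / 2) ^ k) ^ 2 by rw [← pow_mul, mul_comm, pow_mul]; norm_num,
      Real.sqrt_sq (by positivity)] at h3
    refine (h.trans (mul_le_mul_of_nonneg_left h3 (by positivity))).trans ?_
    have h4 : (k : ℝ) * (1 / 2) ^ k ≤ 1 := by
      rw [one_div, inv_pow, ← div_eq_mul_inv, div_le_one (by positivity)]
      exact_mod_cast Nat.lt_two_pow_self.le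
    have h5 : (1 / 2 : ℝ) ^ k ≤ 1 := pow_le_one₀ (by norm_num) (by norm_num)
    have h6 := mul_le_mul_of_nonneg_left h4 (show (0 : ℝ) ≤ p by linarith)
    rw [h0]
    push_cast
    nlinarith

end O81

theorem extStmt : ExtStmt := by
  intro b p k m q δ n hb hp hn Φ h1 h2 hq
  rcases hq with rfl | ⟨z1, z2⟩
  · have hl : 0 < el p k := by unfold el; positivity
    have hy : cen p k m ∈ Q p k m := by
      simp only [Q, enl, cen, mem_product, mem_Ico]
      omega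
    set c1 : ℂ := -(Complex.I * ((Φ.1 (cen p k m)).im : ℂ)) with hc1
    set c2 : ℂ := -(Complex.I * ((Φ.2 (cen p k m)).im : ℂ)) with hc2
    have hs : ∀ Θ : Fld, n (fun x => Θ.1 x + c1, fun x => Θ.2 x + c2) = n Θ := fun Θ => by
      have a1 := hn.cov1 (Θ.1, fun x => Θ.2 x + c2) c1
      have a2 := hn.cov2 Θ c2
      simp only [Int.cast_zero, mul_zero, zero_mul, Complex.exp_zero, one_mul] at a1 a2
      rw [a1, a2]
    have hm : ((fun x => Φ.1 x + c1, fun x => Φ.2 x + c2) : Fld) ∈ Om b p k (Q p k m) :=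
      mem_Om hb hp (fun y hy => by simpa [w] using h1 y hy) (by simpa [En, w] using h2)
        ⟨_, hy, by simp [hc1]⟩ ⟨_, hy, by simp [hc2]⟩
    refine ⟨hs Φ ▸ hn.bd _ hm, fun Ψ => ?_⟩
    convert hn.lh _ hm Ψ using 2 with s
    rw [← hs (Φ + s • Ψ)]
    congr 1
    refine Prod.ext (funext fun x => ?_) (funext fun x => ?_) <;> simp <;> ring
  · exact ⟨hn.bd _ (mem_Om hb hp h1 h2 z1 z2), hn.lh _ (mem_Om hb hp h1 h2 z1 z2)⟩

end Crest.Agent.T145.FS
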