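import Crest.Agent.T145.FsDef_70

/-! # Row 145, item (e): `FS.Ph1Stmt` (helper40) -/

set_option autoImplicit false

namespace Crest.Agent.T145.FS

open MeasureTheory Finset

namespace P40

theorem w_nonneg (g : P → ℝ) (x : P) : 0 ≤ w g x := add_nonneg (sq_nonneg _) (sq_nonneg _)

theorem w_le_D {Λ : Finset P} (g : P → ℝ) {x : P} (hx : x ∈ Λ) : w g x ≤ D Λ g :=
  single_le_sum (fun y _ => w_nonneg g y) (mem_union_left _ (mem_union_left _ hx))

theorem D_nonneg (Λ : Finset P) (g : P → ℝ) : 0 ≤ D Λ g := sum_nonneg fun y _ => w_nonneg g y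

theorem sq_le_D (Λ : Finset P) : ∃ C : ℝ, 0 < C ∧ ∀ φ : Λ → ℝ, ∀ x, ext Λ φ x ^ 2 ≤ C * D Λ (ext Λ φ) := by
  obtain ⟨M, hM⟩ : ∃ M : ℤ, ∀ x ∈ Λ, x.1 < M := by
    obtain ⟨M, hM⟩ := (Λ.image Prod.fst).bddAbove
    exact ⟨M + 1, fun x hx => Int.lt_add_one_of_le (hM (mem_coe.2 (mem_image_of_mem _ hx)))⟩
  have key : ∀ k : ℕ, ∀ (φ : Λ → ℝ) (x : P), M ≤ x.1 + k →
      ext Λ φ x ^ 2 ≤ 4 ^ k * D Λ (ext Λ φ) := by
    intro k φ
    have hD := D_nonneg Λ (ext Λ φ)
    induction k with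
    | zero =>
      intro x hx
      have : x ∉ Λ := fun h => by have := hM x h; omega
      rw [ext, dif_neg this]; simpa using hD
    | succ k ih =>
      intro x hx
      by_cases h : x ∈ Λ
      · have h1 := ih (x + (1, 0)) (by simp only [Prod.fst_add]; push_cast at hx; omega)
        have h2 := w_le_D (ext Λ φ) h
        have h3 : (1 : ℝ) ≤ 4 ^ k := one_le_pow₀ (by norm_num)
        have h4 := mul_le_mul_of_nonneg_right h3 hD
        rw [w] at h2
        rw [pow_succ (4 : ℝ)]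
        nlinarith [sq_nonneg (ext Λ φ (x + (0, 1)) - ext Λ φ x),
          sq_nonneg (2 * ext Λ φ (x + (1, 0)) - ext Λ φ x)]
      · rw [ext, dif_neg h]; simp only [ne_eq, OfNat.ofNat_ne_zero, not_false_eq_true, zero_pow]
        positivity
  obtain ⟨K, hK⟩ : ∃ K : ℕ, ∀ x ∈ Λ, M ≤ x.1 + K := by
    obtain ⟨m, hm⟩ := (Λ.image Prod.fst).bddBelow
    refine ⟨(M - m).toNat, fun x hx => ?_⟩
    have := hm (mem_coe.2 (mem_image_of_mem Prod.fst hx))
    omega
  refine ⟨4 ^ K, by positivity, fun φ x => ?_⟩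
  by_cases h : x ∈ Λ
  · exact key K φ x (hK x h)
  · rw [ext, dif_neg h]
    simpa using D_nonneg Λ (ext Λ φ)

theorem meas_ext (Λ : Finset P) : Measurable fun φ : Λ → ℝ => ext Λ φ :=
  measurable_pi_lambda _ fun x => by
    unfold ext
    split_ifs
    exacts [measurable_pi_apply _, measurable_const]

theorem meas_gw (Λ : Finset P) (b : ℝ) : Measurable (gw Λ b) := by
  have h : ∀ x, Measurable fun φ : Λ → ℝ => ext Λ φ x := fun x =>
    (measurable_pi_apply x).comp (meas_ext Λ)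
  unfold gw D En w
  exact Real.measurable_exp.comp ((Finset.measurable_sum _ fun x _ =>
    (((h _).sub (h _)).pow_const 2).add (((h _).sub (h _)).pow_const 2)).neg.div_const _)

theorem integrable_gw (Λ : Finset P) {b : ℝ} (hb : 0 < b) : Integrable (gw Λ b) := by
  obtain ⟨C, hC, h⟩ := sq_le_D Λ
  have hc : 0 < (2 * b * C * (Λ.card + 1))⁻¹ := by positivity
  have h1 : Integrable fun φ : Λ → ℝ => ∏ x, Real.exp (-(2 * b * C * (Λ.card + 1))⁻¹ * φ x ^ 2) :=
    Integrable.fintype_prod (f := fun _ t => Real.exp (-(2 * b * C * (Λ.card + 1))⁻¹ * t ^ 2))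
      fun _ => integrable_exp_neg_mul_sq hc
  refine h1.mono' (meas_gw Λ b).aestronglyMeasurable (Filter.Eventually.of_forall fun φ => ?_)
  rw [gw, Real.norm_of_nonneg (Real.exp_pos _).le, ← Real.exp_sum, Real.exp_le_exp, ← mul_sum]
  have h2 : ∑ x, φ x ^ 2 ≤ (Λ.card + 1) * (C * D Λ (ext Λ φ)) := by
    refine (sum_le_card_nsmul _ _ (C * D Λ (ext Λ φ)) fun x _ => ?_).trans ?_
    · simpa [ext] using h φ x
    · have := mul_nonneg hC.le (D_nonneg Λ (ext Λ φ))
      simp only [card_univ, Fintype.card_coe, nsmul_eq_mul]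
      linarith
  rw [neg_div, neg_mul, neg_le_neg_iff, inv_mul_le_iff₀ (by positivity)]
  refine h2.trans (le_of_eq ?_)
  field_simp

/-- measurable and bounded on real fields -/
def Tm (X : Fld → ℂ) : Prop := Measurable X ∧ ∃ C : ℝ, ∀ φ g, ‖X (rl φ g)‖ ≤ C

theorem Tm.mul {X Y : Fld → ℂ} (h : Tm X) (h' : Tm Y) : Tm fun Φ => X Φ * Y Φ := by
  obtain ⟨h1, C, h2⟩ := h
  obtain ⟨h3, C', h4⟩ := h'
  exact ⟨h1.mul h3, C * C', fun φ g => by
    rw [norm_mul]
    exact mul_le_mul (h2 φ g) (h4 φ g) (norm_nonneg _) ((norm_nonneg _).trans (h2 φ g))⟩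

theorem Tm.prod {ι : Type*} {s : Finset ι} {X : ι → Fld → ℂ} (h : ∀ i ∈ s, Tm (X i)) :
    Tm fun Φ => ∏ i ∈ s, X i Φ := by
  classical
  induction s using Finset.induction_on with
  | empty => exact ⟨by simp, 1, by simp⟩
  | insert a s ha ih =>
    simp only [prod_insert ha]
    exact (h a (mem_insert_self _ _)).mul (ih fun i hi => h i (mem_insert_of_mem hi))

theorem Tm.int {X : Fld → ℂ} (h : Tm X) (Λ : Finset P) {b : ℝ} (hb : 0 < b) (g : P → ℝ) :
    Integrable fun φ : Λ → ℝ => (X (rl (ext Λ φ) g)).re * gw Λ b φ := by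
  obtain ⟨h1, C, h2⟩ := h
  have h3 : Measurable fun φ : Λ → ℝ => rl (ext Λ φ) g :=
    (measurable_pi_lambda _ fun x => Complex.measurable_ofReal.comp
      ((measurable_pi_apply x).comp (meas_ext Λ))).prodMk measurable_const
  exact (integrable_gw Λ hb).bdd_mul (c := C)
    (Complex.measurable_re.comp (h1.comp h3)).aestronglyMeasurable
    (Filter.Eventually.of_forall fun φ => (Complex.abs_re_le_norm _).trans (h2 _ _))

theorem low4 {Λ : Finset P} {b κ : ℝ} {u : P → ℝ} (hb : 0 < b) {W : Fin 4 → Fld → ℂ}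
    {c : Fin 4 → ℝ} (hc : ∀ k, 0 ≤ c k) (hW : ∀ k, Tm (W k)) (h : ∀ k, Low Λ b u κ (W k))
    {V : Fld → ℂ} (hV : ∀ Φ, V Φ = ∑ k, c k * W k Φ) : Low Λ b u κ V := by
  have e : ∀ g, Ig Λ b V g = ∑ k, c k * Ig Λ b (W k) g := fun g => by
    simp only [Ig, ← integral_const_mul]
    rw [← integral_finsetSum _ fun k _ => ((hW k).int Λ hb g).const_mul _]
    refine integral_congr_ae (Filter.Eventually.of_forall fun φ => ?_)
    simp only [hV, Complex.re_sum, Complex.re_ofReal_mul, sum_mul, mul_assoc]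
  rw [Low, e, e, e, mul_sum, ← sum_add_distrib]
  refine sum_le_sum fun k _ => ?_
  rw [← mul_add, mul_left_comm]
  exact mul_le_mul_of_nonneg_left (h k) (hc k)

variable {b : ℝ} {p j : ℕ} {X Y X' Y' : Finset P} {q q' : ℤ} {δ δ' : ℝ} {G G' : Fld → ℂ}

theorem rl_mem (hb : 0 < b) (φ g : P → ℝ) : rl φ g ∈ Om b p j X := by
  have h : 0 ≤ h0 b p := by unfold h0 hh; positivity
  refine ⟨fun x _ => ⟨by simpa [rl] using h, by simpa [rl] using h, ?_⟩, ?_⟩
  · simpa [rl, w] using sq_nonneg _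
  · simp [rl, En, w]

theorem star_mem {Φ : Fld} (h : Φ ∈ Om b p j X) : star Φ ∈ Om b p j X := by
  have e : ∀ (f : P → ℂ) x, w (fun y => ((star f) y).im) x = w (fun y => (f y).im) x := by
    intro f x
    simp only [w, Pi.star_apply, Complex.star_def, Complex.conj_im]
    ring
  refine ⟨fun x hx => ⟨by simpa using (h.1 x hx).1, by simpa using (h.1 x hx).2.1, ?_⟩, ?_⟩
  · rw [Prod.fst_star, e]; exact (h.1 x hx).2.2
  · rw [Prod.snd_star, En, sum_congr rfl fun x _ => e _ x]; exact h.2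

theorem ob_cj (h : Ob b p j X Y q δ G) : Ob b p j X Y (-q) δ (cj G) where
  meas := continuous_star.measurable.comp (h.meas.comp continuous_star.measurable)
  lh Φ hΦ Ψ := by
    have h1 := (h.lh _ (star_mem hΦ) (star Ψ)).star_conj
    rw [map_zero] at h1
    refine h1.congr_of_eventuallyEq (Filter.Eventually.of_forall fun s => ?_)
    simp [cj]
  bd Φ hΦ := by rw [cj, norm_star]; exact h.bd _ (star_mem hΦ)
  dep Φ Φ' hd := by
    rw [cj, cj, h.dep (star Φ) (star Φ') fun x hx => by simp [hd x hx]]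
  cov1 Φ c := by
    have e : star ((fun x => Φ.1 x + c, Φ.2) : Fld) =
        (fun x => (star Φ).1 x + star c, (star Φ).2) := by
      ext x <;> simp
    rw [cj, e, h.cov1, star_mul', cj]
    congr 1
    rw [Complex.star_def, ← Complex.exp_conj]
    simp
  cov2 Φ c := by
    have e : star ((Φ.1, fun x => Φ.2 x + c) : Fld) =
        ((star Φ).1, fun x => (star Φ).2 x + star c) := by
      ext x <;> simp
    rw [cj, e, h.cov2, star_mul', cj]
    congr 1
    rw [Complex.star_def, ← Complex.exp_conj]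
    simp

theorem ob_mul (h : Ob b p j X Y q δ G) (h' : Ob b p j X Y q' δ' G') :
    Ob b p j X Y (q + q') (δ * δ') fun Φ => G Φ * G' Φ where
  meas := h.meas.mul h'.meas
  lh Φ hΦ Ψ := (h.lh Φ hΦ Ψ).mul (h'.lh Φ hΦ Ψ)
  bd Φ hΦ := by
    rw [norm_mul]
    exact mul_le_mul (h.bd Φ hΦ) (h'.bd Φ hΦ) (norm_nonneg _) ((norm_nonneg _).trans (h.bd Φ hΦ))
  dep Φ Φ' hd := by rw [h.dep Φ Φ' hd, h'.dep Φ Φ' hd]
  cov1 Φ c := by
    rw [h.cov1, h'.cov1]; push_cast
    rw [mul_add, add_mul, Complex.exp_add]; ring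
  cov2 Φ c := by
    rw [h.cov2, h'.cov2]; push_cast
    rw [mul_add, add_mul, Complex.exp_add]; ring

theorem ob_smul (h : Ob b p j X Y q δ G) {r : ℝ} (hr : 0 ≤ r) (hδ : r * δ ≤ δ') :
    Ob b p j X Y q δ' fun Φ => r * G Φ where
  meas := h.meas.const_mul _
  lh Φ hΦ Ψ := (h.lh Φ hΦ Ψ).const_mul _
  bd Φ hΦ := by
    rw [norm_mul, Complex.norm_real, Real.norm_of_nonneg hr]
    exact (mul_le_mul_of_nonneg_left (h.bd Φ hΦ) hr).trans hδ
  dep Φ Φ' hd := by rw [h.dep Φ Φ' hd]
  cov1 Φ c := by rw [h.cov1]; ring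
  cov2 Φ c := by rw [h.cov2]; ring

theorem ob_zero (hδ : 0 ≤ δ) : Ob b p j X Y q δ fun _ => 0 :=
  ⟨measurable_const, fun _ _ _ => differentiableAt_const _, fun _ _ => by simpa using hδ,
    fun _ _ _ => rfl, fun _ _ => by simp, fun _ _ => by simp⟩

theorem ob_le (h : Ob b p j X Y q δ G) (hδ : δ ≤ δ') : Ob b p j X Y q δ' G :=
  ⟨h.meas, h.lh, fun Φ hΦ => (h.bd Φ hΦ).trans hδ, h.dep, h.cov1, h.cov2⟩

theorem el_pos (hp : 1 ≤ p) (j : ℕ) : 0 < el p j := by unfold el; positivity

theorem ob_up (hp : 1 ≤ p) (h : Ob b p j X Y q δ G) (hX : X ⊆ X') (hY : Y ⊆ Y') :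
    Ob b p (j + 1) X' Y' q δ G := by
  have hm : Om b p (j + 1) X' ⊆ Om b p j X := fun Φ hΦ => by
    have h1 : (0 : ℝ) < el p j := by exact_mod_cast el_pos hp j
    have h2 : (el p j : ℝ) ≤ el p (j + 1) := by
      have h3 := el_pos hp j
      have : el p j ≤ el p (j + 1) := by
        rw [el, el, pow_succ, ← el]; nlinarith
      exact_mod_cast this
    refine ⟨fun x hx => ⟨(hΦ.1 x (hX hx)).1, (hΦ.1 x (hX hx)).2.1,
      (hΦ.1 x (hX hx)).2.2.trans ?_⟩, ?_⟩
    · rw [div_pow, div_pow]; gcongr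
    · refine (sum_le_sum_of_subset_of_nonneg hX fun x _ _ => w_nonneg _ x).trans (hΦ.2.trans ?_)
      exact pow_le_pow_of_le_one (by norm_num) (by norm_num) (by omega)
  exact ⟨h.meas, fun Φ hΦ => h.lh Φ (hm hΦ), fun Φ hΦ => h.bd Φ (hm hΦ),
    fun Φ Φ' hd => h.dep Φ Φ' fun x hx => hd x (hY hx), h.cov1, h.cov2⟩

theorem ob_fac (hb : 0 < b) (h : Ob b p j X Y q δ G) : Tm (fac G) :=
  ⟨(measurable_const.add h.meas).add (ob_cj h).meas, 1 + δ + δ, fun φ g =>
    (norm_add₃_le).trans (by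
      rw [norm_one]
      gcongr
      exacts [h.bd _ (rl_mem hb φ g), (ob_cj h).bd _ (rl_mem hb φ g)])⟩

theorem Q_sub (hp : 1 ≤ p) (m : P) : Q p j m ⊆ enl (el p (j + 1)) (up p m) (el p j) := by
  have h0 := el_pos hp j
  have hL : (0 : ℤ) < 24 * p := by omega
  have key : ∀ a : ℤ, el p (j + 1) * (a / (24 * p)) ≤ el p j * a ∧
      el p j * a + el p j ≤ el p (j + 1) * (a / (24 * p)) + el p (j + 1) := fun a => by
    have h1 := Int.mul_ediv_add_emod a (24 * p)
    have h2 := Int.emod_nonneg a hL.ne'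
    have h3 := Int.emod_lt_of_pos a hL
    rw [show el p (j + 1) = el p j * (24 * p) from pow_succ _ _]
    constructor <;> nlinarith
  intro x hx
  simp only [Q, enl, mem_product, mem_Ico, up] at hx ⊢
  have := key m.1
  have := key m.2
  omega

theorem enl_sub (hp : 1 ≤ p) (i : P) : enl (el p (j + 1)) i (el p j) ⊆ Q p (j + 1) i := by
  have h0 := el_pos hp j
  have : el p j ≤ el p (j + 1) := by
    rw [el, el, pow_succ, ← el]; nlinarith
  intro x hx
  simp only [Q, enl, mem_product, mem_Ico] at hx ⊢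
  omega

theorem Sing.big (hp : 1 ≤ p) {i : P} (h : Sing b p j i δ G) : Big b p j i (el p j) δ G := by
  obtain ⟨m, q, rfl, -, h⟩ := h
  exact ⟨q, ob_up hp h ((Q_sub hp m).trans (enl_sub hp _)) (Q_sub hp m)⟩

theorem split4 (G₁ G₂ : Fld → ℂ) {c : Fin 4 → ℝ} (hc : ∀ k, c k ≠ 0) (h1 : ∑ k, c k = 1)
    (Φ : Fld) : fac G₁ Φ * fac G₂ Φ = ∑ k, c k * fac (![fun Φ => ((c 0)⁻¹ : ℝ) * G₁ Φ,
      fun Φ => ((c 1)⁻¹ : ℝ) * G₂ Φ, fun Φ => ((c 2)⁻¹ : ℝ) * (G₁ Φ * G₂ Φ),
      fun Φ => ((c 3)⁻¹ : ℝ) * (G₁ Φ * cj G₂ Φ)] k) Φ := by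
  have h2 : (c 0 : ℂ) + c 1 + c 2 + c 3 = 1 := by
    rw [Fin.sum_univ_four] at h1; exact_mod_cast h1
  have h3 : ∀ k, (c k : ℂ) ≠ 0 := fun k => by exact_mod_cast hc k
  have := h3 0; have := h3 1; have := h3 2; have := h3 3
  simp only [Fin.sum_univ_four, fac, cj, Matrix.cons_val_zero, Matrix.cons_val_one, Matrix.cons_val,
    map_mul, star_star, Complex.star_def, Complex.conj_ofReal, Complex.conj_conj]
  push_cast
  field_simp
  linear_combination (-1 : ℂ) * h2

end P40

open P40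

theorem ph1Stmt : Ph1Stmt := by
  classical
  intro b p δ₀ Λ S u κ j hb hp hδ hK hS hM F A hF hA
  have hp1 : 1 ≤ p := by omega
  have hp' : (3 : ℝ) ≤ p := by exact_mod_cast hp
  have hN : 4 ≤ NN p := by unfold NN; nlinarith
  have hd0 : 0 ≤ dl δ₀ j := by unfold dl; positivity
  have hd1 : 4 * NN p * dl δ₀ j ≤ 1 := by
    have h1 : dl δ₀ j ≤ δ₀ := div_le_self hδ (one_le_pow₀ (by norm_num))
    have h2 : 4 * NN p ≤ KK p ^ 2 := by unfold KK; nlinarith
    exact (mul_le_mul h2 h1 hd0 (by positivity)).trans hK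
  obtain ⟨η, hη⟩ : ∃ η : ℝ, η = (4 * NN p)⁻¹ := ⟨_, rfl⟩
  have hη0 : 0 < η := by rw [hη]; positivity
  have hη1 : η * (4 * NN p) = 1 := by rw [hη]; field_simp
  have hη2 : η ≤ 1 / 16 := by nlinarith
  obtain ⟨t, ht⟩ : ∃ t : ℝ, t = (1 - 2 * η)⁻¹ := ⟨_, rfl⟩
  have ht1 : 1 ≤ t := by rw [ht]; exact one_le_inv₀ (by linarith) |>.2 (by linarith)
  let a : ℕ → ℝ := fun n => (n + 1) * t ^ n
  have ha0 : ∀ n, 0 ≤ a n := fun n => by positivity
  have ha1 : ∀ n, a n ≤ a (n + 1) := fun n => by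
    simp only [a, pow_succ]
    push_cast
    have : 0 < t ^ n := by positivity
    exact mul_le_mul (by linarith) (le_mul_of_one_le_right this.le ht1) this.le (by positivity)
  have hFW : Tm (FW S j F) := Tm.prod fun k hk => Tm.prod fun m hm => by
    obtain ⟨q, h, -⟩ := hF k (by have := mem_range.1 hk; omega) m hm
    exact ob_fac hb h
  have hAt : ∀ m ∈ S, Tm (fac (A m)) := fun m hm => by
    obtain ⟨q, -, h⟩ := hA m hm
    exact ob_fac hb h
  let n : Finset P → P → ℕ := fun R i => #((S \ R).filter fun m => up p m = i)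
  have key : ∀ R ⊆ S, ∀ O : P → Fld → ℂ, (∀ i ∈ S, Sing b p j i (a (n R i) * dl δ₀ j) (O i) ∨
      Big b p j i (el p j) (4 * NN p * a (n R i) * dl δ₀ j ^ 2) (O i)) →
      Low Λ b u κ fun Φ => FW S j F Φ * (∏ i ∈ S, fac (O i) Φ) * ∏ m ∈ R, fac (A m) Φ := by
    intro R
    induction R using Finset.induction_on with
    | empty =>
      intro _ O hO
      simp only [prod_empty, mul_one]
      have h1 : ∀ i, a (n ∅ i) ≤ 4 * NN p := fun i => by
        have h2 : (n ∅ i : ℝ) ≤ NN p := by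
          have h3 : n ∅ i ≤ #(enl (24 * p) i 0) := card_le_card fun m hm => by
            have h4 := Q_sub (j := 0) hp1 m
            rw [(mem_filter.1 hm).2] at h4
            have h5 := @h4 (m.1 - 1, m.2 - 1) (by simp [Q, enl, el]; omega)
            have h6 := @h4 (m.1 + 1, m.2 + 1) (by simp [Q, enl, el]; omega)
            simp only [enl, el, mem_product, mem_Ico, zero_add, pow_one, pow_zero] at h5 h6 ⊢
            omega
          have h4 : #(enl (24 * p) i 0) = (24 * p) ^ 2 := by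
            simp only [enl, card_product, Int.card_Ico, sq]
            congr 1 <;> omega
          rw [h4] at h3
          unfold NN
          exact_mod_cast h3
        have h3 : 1 / 2 ≤ (1 - 2 * η) ^ n ∅ i := by
          have := one_add_mul_le_pow (a := -(2 * η)) (by linarith) (n ∅ i)
          rw [← sub_eq_add_neg] at this
          nlinarith
        have h4 : t ^ n ∅ i ≤ 2 := by
          rw [ht, inv_pow]
          exact (inv_le_comm₀ (by positivity) (by norm_num)).2 (by linarith)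
        have h5 : (0 : ℝ) ≤ n ∅ i := Nat.cast_nonneg _
        exact (mul_le_mul_of_nonneg_left h4 (by positivity)).trans (by linarith)
      refine hM F O hF fun i hi => (hO i hi).imp ?_ ?_
      · rintro ⟨m, q, h2, h3, h4⟩
        exact ⟨m, q, h2, h3, ob_le h4 (mul_le_mul_of_nonneg_right (h1 i) hd0)⟩
      · rintro ⟨q, h2⟩
        refine ⟨q, ob_le h2 ?_⟩
        rw [al, mul_pow, sq (4 * NN p)]
        gcongr
        exact h1 i
    | insert m R hm ih =>
      intro hR O hO
      have hmS : m ∈ S := hR (mem_insert_self _ _)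
      have hi := hS m hmS
      set i := up p m with hi'
      have hn1 : n R i = n (insert m R) i + 1 := by
        have : (S \ R).filter (fun m => up p m = i) =
            insert m ((S \ insert m R).filter fun m => up p m = i) := by
          ext x
          simp only [mem_filter, mem_sdiff, mem_insert]
          by_cases hx : x = m
          · subst hx; simp [hmS, hm, hi']
          · simp [hx]
        simp only [n]
        rw [this, card_insert_of_notMem (by simp)]
      have hn2 : ∀ i', i' ≠ i → n R i' = n (insert m R) i' := fun i' h => by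
        simp only [n]
        congr 1
        ext x
        simp only [mem_filter, mem_sdiff, mem_insert]
        by_cases hx : x = m
        · subst hx; simp [← hi', h.symm]
        · simp [hx]
      set k := n (insert m R) i with hk
      let c : Fin 4 → ℝ := ![(1 - 2 * η) * ((k + 1) / (k + 2)), (1 - 2 * η) * (1 / (k + 2)), η, η]
      have hk0 : (0 : ℝ) ≤ k := Nat.cast_nonneg _
      have h12 : 0 < 1 - 2 * η := by linarith
      have hc : ∀ l, 0 < c l := fun l => by
        fin_cases l <;> simp only [c] <;> simp <;> positivity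
      have hc1 : ∑ l, c l = 1 := by
        simp only [Fin.sum_univ_four, c, Matrix.cons_val_zero, Matrix.cons_val_one, Matrix.cons_val]
        field_simp
        ring
      have e0 : (c 0)⁻¹ * a k = a (k + 1) := by
        simp only [c, a, Matrix.cons_val_zero, pow_succ, mul_inv, ← ht]
        push_cast
        field_simp
        ring
      have e1 : (c 1)⁻¹ ≤ a (k + 1) := by
        simp only [c, a, Matrix.cons_val_zero, Matrix.cons_val_one, pow_succ, mul_inv, ← ht, one_div,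
          inv_inv]
        push_cast
        have : 1 ≤ t ^ k := one_le_pow₀ ht1
        have h2 : 0 ≤ t * (k + 2) := by positivity
        nlinarith
      have e2 : (c 2)⁻¹ = 4 * NN p := by simp [c, hη]
      have e3 : (c 3)⁻¹ = 4 * NN p := by simp [c, hη]
      obtain ⟨q, hq, hG⟩ := hA m hmS
      have hs2 : Sing b p j i (dl δ₀ j) (A m) := ⟨m, q, rfl, hq, hG⟩
      obtain ⟨q2, hG2⟩ := Sing.big hp1 hs2
      obtain ⟨q1, hG1⟩ : Big b p j i (el p j) (a (k + 1) * dl δ₀ j) (O i) := by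
        rcases hO i hi with h | ⟨q1, h⟩
        · obtain ⟨q1, h⟩ := Sing.big hp1 h
          exact ⟨q1, ob_le h (mul_le_mul_of_nonneg_right (ha1 k) hd0)⟩
        · refine ⟨q1, ob_le h ?_⟩
          calc _ = (4 * NN p * dl δ₀ j) * (a k * dl δ₀ j) := by ring
            _ ≤ 1 * (a (k + 1) * dl δ₀ j) := by
                have := ha0 k
                gcongr
                exact ha1 k
            _ = _ := one_mul _
      let H : Fin 4 → Fld → ℂ := ![fun Φ => ((c 0)⁻¹ : ℝ) * O i Φ,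
        fun Φ => ((c 1)⁻¹ : ℝ) * A m Φ, fun Φ => ((c 2)⁻¹ : ℝ) * (O i Φ * A m Φ),
        fun Φ => ((c 3)⁻¹ : ℝ) * (O i Φ * cj (A m) Φ)]
      have hH : ∀ l, Sing b p j i (a (k + 1) * dl δ₀ j) (H l) ∨
          Big b p j i (el p j) (4 * NN p * a (k + 1) * dl δ₀ j ^ 2) (H l) := fun l => by
        have h0 : ∀ l, 0 ≤ (c l)⁻¹ := fun l => (inv_pos.2 (hc l)).le
        fin_cases l
        · refine (hO i hi).imp ?_ ?_
          · rintro ⟨m', q', h2, h3, h4⟩
            exact ⟨m', q', h2, h3, ob_smul h4 (h0 0) (le_of_eq (by rw [← e0]; ring))⟩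
          · rintro ⟨q', h2⟩
            exact ⟨q', ob_smul h2 (h0 0) (le_of_eq (by rw [← e0]; ring))⟩
        · exact Or.inl ⟨m, q, rfl, hq, ob_smul hG (h0 1) (mul_le_mul_of_nonneg_right e1 hd0)⟩
        · exact Or.inr ⟨_, ob_smul (ob_mul hG1 hG2) (h0 2) (le_of_eq (by rw [e2]; ring))⟩
        · exact Or.inr ⟨_, ob_smul (ob_mul hG1 (ob_cj hG2)) (h0 3) (le_of_eq (by rw [e3]; ring))⟩
      have hO' : ∀ l, ∀ i' ∈ S, Sing b p j i' (a (n R i') * dl δ₀ j) (Function.update O i (H l) i') ∨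
          Big b p j i' (el p j) (4 * NN p * a (n R i') * dl δ₀ j ^ 2)
            (Function.update O i (H l) i') := fun l i' h => by
        by_cases h1 : i' = i
        · rw [h1, Function.update_self, hn1]; exact hH l
        · rw [Function.update_of_ne h1, hn2 i' h1]; exact hO i' h
      have hR' : R ⊆ S := (subset_insert _ _).trans hR
      refine low4 hb (fun l => (hc l).le) (fun l => (hFW.mul (Tm.prod fun i' h => ?_)).mul
        (Tm.prod fun m' h => hAt m' (hR' h))) (fun l => ih hR' _ (hO' l)) fun Φ => ?_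
      · rcases hO' l i' h with ⟨_, _, -, -, h1⟩ | ⟨_, h1⟩
        exacts [ob_fac hb h1, ob_fac hb h1]
      · have e : ∀ l, ∏ i' ∈ S, fac (Function.update O i (H l) i') Φ =
            fac (H l) Φ * ∏ i' ∈ S.erase i, fac (O i') Φ := fun l => by
          rw [← mul_prod_erase S _ hi, Function.update_self]
          congr 1
          exact prod_congr rfl fun i' h => by rw [Function.update_of_ne (ne_of_mem_erase h)]
        have e' := split4 (O i) (A m) (fun l => (hc l).ne') hc1 Φ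
        simp only [e]
        rw [prod_insert hm, ← mul_prod_erase S _ hi]
        calc _ = (fac (O i) Φ * fac (A m) Φ) * (FW S j F Φ * (∏ i' ∈ S.erase i, fac (O i') Φ) *
              ∏ m ∈ R, fac (A m) Φ) := by ring
          _ = _ := by
            rw [e', sum_mul]
            exact sum_congr rfl fun l _ => by ring
  have h := key S Subset.rfl (fun _ _ => 0) fun i _ => Or.inr ⟨0, ob_zero (by
    have := ha0 (n S i)
    positivity)⟩
  simpa [fac, cj] using h

end Crest.Agent.T145.FS
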