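import Crest.Agent.T145.FsBas_70

/-! # Row 145 (e): conflict resolution and translation (`Ph2Stmt`) (helper70) -/

set_option autoImplicit false

namespace Crest.Agent.T145.FS

namespace Ph2

/-- Number of absent neighbours. -/
noncomputable def cnt (Pr : Finset P) (i : P) : ℕ := (sqb i 1 \ Pr).card

theorem card_sqb_one (i : P) : (sqb i 1).card = 9 := by
  unfold sqb
  rw [Finset.card_product, Int.card_Icc, Int.card_Icc]
  have e : ∀ a : ℤ, (a + 1 + 1 - (a - 1)).toNat = 3 := fun a => by omega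
  simp only [e]

theorem cnt_le (Pr : Finset P) (i : P) : cnt Pr i ≤ 9 := by
  rw [← card_sqb_one i]; exact Finset.card_le_card Finset.sdiff_subset

theorem cnt_mono {Pr Pr' : Finset P} (h : Pr' ⊆ Pr) (i : P) : cnt Pr i ≤ cnt Pr' i :=
  Finset.card_le_card (Finset.sdiff_subset_sdiff (Finset.Subset.refl _) h)

theorem cnt_erase {Pr : Finset P} {i k : P} (hk : k ∈ Pr) (hi : k ∈ sqb i 1) :
    cnt Pr i + 1 ≤ cnt (Pr.erase k) i := by
  unfold cnt
  have h1 : k ∉ sqb i 1 \ Pr := fun h => (Finset.mem_sdiff.1 h).2 hk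
  rw [← Finset.card_insert_of_notMem h1]
  refine Finset.card_le_card fun x hx => ?_
  rw [Finset.mem_insert, Finset.mem_sdiff] at hx
  rw [Finset.mem_sdiff, Finset.mem_erase]
  rcases hx with rfl | hx
  · exact ⟨hi, fun h => h.1 rfl⟩
  · exact ⟨hx.1, fun h => hx.2 h.2⟩

/-- Radius of the dependence set after `c` merges. -/
def rho (p j c : ℕ) : ℤ := (p + 3) * el p j + 2 * (p * el p j) * c

open Classical in
/-- Norm unit of the big objects. -/
noncomputable def bb (p : ℕ) (δ₀ : ℝ) (Λ : Finset P) (j : ℕ) (i : P) : ℝ :=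
  if Q p (j + 1) i ⊆ Λ then dl δ₀ (j + 1) / 4 ^ 9 else al p δ₀ j

/-- The state of the block `i`. -/
def St (b : ℝ) (p : ℕ) (δ₀ : ℝ) (Λ : Finset P) (j : ℕ) (i : P) (s : Prop) (c : ℕ)
    (G : Fld → ℂ) : Prop :=
  (s → Q p (j + 1) i ⊆ Λ ∧ Sing b p j i (4 ^ c * al p δ₀ j) G) ∧
    (¬ s → Big b p j i (rho p j c) (4 ^ c * bb p δ₀ Λ j i) G)

variable {b : ℝ} {p : ℕ} {δ₀ : ℝ} {Λ : Finset P} {j : ℕ}

theorem pel_nonneg (hp : 1 ≤ p) (j : ℕ) : 0 ≤ (p : ℤ) * el p j :=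
  mul_nonneg (by omega) (el_pos hp j).le

theorem rho_mono (hp : 1 ≤ p) {c c' : ℕ} (h : c ≤ c') : rho p j c ≤ rho p j c' := by
  unfold rho
  have h1 := pel_nonneg hp j
  have h2 : (c : ℤ) ≤ c' := by exact_mod_cast h
  nlinarith

theorem rho_succ (p j c : ℕ) : rho p j (c + 1) = rho p j c + 2 * (p * el p j) := by
  unfold rho; push_cast; ring

theorem el_le_rho (hp : 1 ≤ p) (c : ℕ) : el p j ≤ rho p j c := by
  have h1 := pel_nonneg hp j
  have h2 := el_pos hp j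
  have h3 : (0 : ℤ) ≤ 2 * (p * el p j) * c := by positivity
  unfold rho; nlinarith

theorem rho_add_le (hp : 1 ≤ p) {c : ℕ} (h : c ≤ 9) :
    rho p j c + p * el p j ≤ el p (j + 1) := by
  have h1 := rho_mono (j := j) hp h
  have h2 := el_pos hp j
  have h3 : el p j ≤ p * el p j := by nlinarith [show (1 : ℤ) ≤ p by exact_mod_cast hp]
  rw [el_succ]
  unfold rho at h1 ⊢
  push_cast at h1
  nlinarith

theorem rho_le (hp : 1 ≤ p) {c : ℕ} (h : c ≤ 9) : rho p j c ≤ el p (j + 1) := by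
  have := rho_add_le (j := j) hp h
  have := pel_nonneg hp j
  omega

theorem al_nonneg (hp : 1 ≤ p) (h0 : 0 ≤ δ₀) : 0 ≤ al p δ₀ j := by
  have := NN_ge hp; have := dl_nonneg h0 j; unfold al; positivity

theorem bb_nonneg (hp : 1 ≤ p) (h0 : 0 ≤ δ₀) (i : P) : 0 ≤ bb p δ₀ Λ j i := by
  unfold bb; split_ifs
  · have := dl_nonneg h0 (j + 1); positivity
  · exact al_nonneg hp h0

theorem al_eq : 4 ^ 9 * al p δ₀ j = KK p * dl δ₀ (j + 1) := by
  rw [dl_succ]; unfold al KK; ring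

theorem al_small (hp : 1 ≤ p) (h0 : 0 ≤ δ₀) (hs : KK p ^ 2 * δ₀ ≤ 1) : 4 ^ 9 * al p δ₀ j ≤ 1 := by
  rw [al_eq]; linarith [KK_dl_le' hp h0 hs (j + 1)]

theorem al_sq (_hp : 1 ≤ p) (h0 : 0 ≤ δ₀) (hs : KK p ^ 2 * δ₀ ≤ 1) :
    4 ^ 9 * al p δ₀ j * al p δ₀ j ≤ dl δ₀ (j + 1) / 4 ^ 9 := by
  rw [le_div_iff₀ (by positivity)]
  have e : 4 ^ 9 * al p δ₀ j * al p δ₀ j * 4 ^ 9 = (KK p ^ 2 * dl δ₀ (j + 1)) * dl δ₀ (j + 1) := by
    have := al_eq (p := p) (δ₀ := δ₀) (j := j)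
    calc 4 ^ 9 * al p δ₀ j * al p δ₀ j * 4 ^ 9 = (4 ^ 9 * al p δ₀ j) ^ 2 := by ring
      _ = _ := by rw [this]; ring
  rw [e]
  have h1 := dl_nonneg h0 (j + 1)
  have h2 : KK p ^ 2 * dl δ₀ (j + 1) ≤ 1 :=
    (mul_le_mul_of_nonneg_left (dl_le h0 _) (sq_nonneg _)).trans hs
  nlinarith

theorem pow_le_nine {c : ℕ} (h : c ≤ 9) : (4 : ℝ) ^ c ≤ 4 ^ 9 :=
  pow_le_pow_right₀ (by norm_num) h

theorem St.mono (hb : 0 < b) (hp : 1 ≤ p) (h0 : 0 ≤ δ₀) {i : P} {s : Prop} {c c' : ℕ}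
    {G : Fld → ℂ} (h : St b p δ₀ Λ j i s c G) (hc : c ≤ c') : St b p δ₀ Λ j i s c' G := by
  have h4 : (4 : ℝ) ^ c ≤ 4 ^ c' := pow_le_pow_right₀ (by norm_num) hc
  refine ⟨fun hs => ?_, fun hs => ?_⟩
  · obtain ⟨h1, m, q, e, hq, hG⟩ := h.1 hs
    exact ⟨h1, m, q, e, hq, hG.le (mul_le_mul_of_nonneg_right h4 (al_nonneg hp h0))⟩
  · obtain ⟨q, hG⟩ := h.2 hs
    exact ⟨q, hG.mono hb hp le_rfl (Finset.Subset.refl _) (enl_mono _ _ (rho_mono hp hc))
      (mul_le_mul_of_nonneg_right h4 (bb_nonneg hp h0 i))⟩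

theorem St.congr {i : P} {s s' : Prop} {c : ℕ} {G : Fld → ℂ} (h : St b p δ₀ Λ j i s c G)
    (e : s ↔ s') : St b p δ₀ Λ j i s' c G := by
  rwa [← propext e]

theorem St.four (hb : 0 < b) (hp : 1 ≤ p) {i : P} {s : Prop} {c : ℕ}
    {G : Fld → ℂ} (h : St b p δ₀ Λ j i s c G) :
    St b p δ₀ Λ j i s (c + 1) (fun Φ => (((1 / 4 : ℝ)⁻¹ : ℝ) : ℂ) * G Φ) := by
  refine ⟨fun hs => ?_, fun hs => ?_⟩
  · obtain ⟨h1, m, q, e, hq, hG⟩ := h.1 hs
    exact ⟨h1, m, q, e, hq, (hG.smul (by norm_num)).le (le_of_eq (by rw [pow_succ]; ring))⟩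
  · obtain ⟨q, hG⟩ := h.2 hs
    exact ⟨q, (hG.smul (by norm_num)).mono hb hp le_rfl (Finset.Subset.refl _)
      (enl_mono _ _ (rho_mono hp (Nat.le_succ c))) (le_of_eq (by rw [pow_succ]; ring))⟩

/-- Every state is an object of the next scale. -/
theorem St.big (hb : 0 < b) (hp : 1 ≤ p) {i : P} {s : Prop} {c : ℕ} {G : Fld → ℂ}
    (h : St b p δ₀ Λ j i s c G) : ∃ (q : ℤ) (δ : ℝ),
      Ob b p (j + 1) (Q p (j + 1) i) (enl (el p (j + 1)) i (rho p j c)) q δ G ∧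
      ((Q p (j + 1) i ⊆ Λ ∧ δ = 4 ^ c * al p δ₀ j) ∨ δ = 4 ^ c * bb p δ₀ Λ j i) := by
  by_cases hs : s
  · obtain ⟨h1, m, q, rfl, -, hG⟩ := h.1 hs
    exact ⟨q, _, hG.mono hb hp (Nat.le_succ j) (Q_subset_Q hp j m)
      ((Q_subset_enl hp j m).trans (enl_mono _ _ (el_le_rho hp c))) le_rfl, Or.inl ⟨h1, rfl⟩⟩
  · obtain ⟨q, hG⟩ := h.2 hs
    exact ⟨q, _, hG, Or.inr rfl⟩

theorem St.tame (hb : 0 < b) (hp : 1 ≤ p) {i : P} {s : Prop} {c : ℕ} {G : Fld → ℂ}
    (h : St b p δ₀ Λ j i s c G) : Tame (fac G) := by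
  obtain ⟨q, δ, hG, -⟩ := h.big hb hp
  exact Tame.fac hb hG

/-- Merging a single into a neighbouring block. -/
theorem merge (hb : 0 < b) (hp : 1 ≤ p) (h0 : 0 ≤ δ₀) (hs : KK p ^ 2 * δ₀ ≤ 1) {i : P}
    {c c₀ : ℕ} (hc : c + 1 ≤ 9) (hc₀ : c₀ ≤ 9) {m : P} {q q' : ℤ} {δ : ℝ} {G H : Fld → ℂ}
    (hG : Ob b p j (Q p j m) (Q p j m) q (4 ^ c₀ * al p δ₀ j) G)
    (hm : Q p j m ⊆ enl (el p (j + 1)) i (rho p j (c + 1)))
    (hH : Ob b p (j + 1) (Q p (j + 1) i) (enl (el p (j + 1)) i (rho p j c)) q' δ H)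
    (hδ : (Q p (j + 1) i ⊆ Λ ∧ δ = 4 ^ c * al p δ₀ j) ∨ δ = 4 ^ c * bb p δ₀ Λ j i) :
    St b p δ₀ Λ j i False (c + 1) (fun Φ => (((1 / 4 : ℝ)⁻¹ : ℝ) : ℂ) * (G Φ * H Φ)) := by
  refine ⟨False.elim, fun _ => ⟨q + q', ?_⟩⟩
  have ha := al_nonneg (j := j) hp h0
  have h1 := hG.mono hb hp (Nat.le_succ j) (hm.trans (enl_subset_Q _ _ (rho_le hp hc))) hm
    (mul_le_mul_of_nonneg_right (pow_le_nine hc₀) ha)
  have h2 := hH.mono hb hp le_rfl (Finset.Subset.refl _)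
    (enl_mono _ _ (rho_mono hp (Nat.le_succ c))) le_rfl
  refine ((h1.mul h2).smul (by norm_num)).le ?_
  have h4 : (0 : ℝ) < 4 ^ c := by positivity
  rcases hδ with ⟨hΛ, rfl⟩ | rfl
  · have h3 := al_sq (j := j) hp h0 hs
    unfold bb; rw [if_pos hΛ, pow_succ (4 : ℝ) c]
    nlinarith
  · have h3 := al_small (j := j) hp h0 hs
    have h5 := mul_nonneg h4.le (bb_nonneg (Λ := Λ) (j := j) hp h0 i)
    rw [pow_succ (4 : ℝ) c]
    nlinarith

theorem prod_update (Pr : Finset P) {i : P} (hi : i ∈ Pr) (O : P → Fld → ℂ) (G : Fld → ℂ)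
    (Φ : Fld) : ∏ k ∈ Pr, fac (Function.update O i G k) Φ =
      (∏ k ∈ Pr.erase i, fac (O k) Φ) * fac G Φ := by
  rw [← Finset.prod_erase_mul _ _ hi, Function.update_self]
  congr 1
  exact Finset.prod_congr rfl fun k hk => by
    rw [Function.update_of_ne (Finset.ne_of_mem_erase hk)]

/-- No single is left: pass to the next scale. -/
theorem finish (hb : 0 < b) (hp : 1 ≤ p) (h0 : 0 ≤ δ₀) {S : Finset P} {u : P → ℝ} {κ : ℝ}
    (hC : Claim b p δ₀ Λ S u κ (j + 1)) {F : ℕ → P → Fld → ℂ}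
    (hF : ∀ k ≤ j, ∀ m ∈ S, Frz b p δ₀ Λ k m (F k m)) {Pr : Finset P} (hPr : Pr ⊆ S)
    {O : P → Fld → ℂ} (hO : ∀ i ∈ Pr, St b p δ₀ Λ j i False (cnt Pr i) (O i)) :
    Low Λ b u κ (fun Φ => FW S j F Φ * ∏ i ∈ Pr, fac (O i) Φ) := by
  have hd := dl_nonneg h0 (j + 1)
  have hK := KK_ge hp
  have zF : ∀ i, Frz b p δ₀ Λ (j + 1) i (fun _ => 0) := fun i =>
    ⟨0, Ob.zero (by positivity), Or.inl rfl⟩
  have zA : ∀ i, Act b p δ₀ (j + 1) i (fun _ => 0) := fun i => ⟨1, le_rfl, Ob.zero hd⟩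
  have key : ∀ i : P, ∃ n a : Fld → ℂ, Frz b p δ₀ Λ (j + 1) i n ∧ Act b p δ₀ (j + 1) i a ∧
      ∀ Φ, fac n Φ * fac a Φ = if i ∈ Pr then fac (O i) Φ else 1 := by
    intro i
    by_cases hi : i ∈ Pr
    · obtain ⟨q, hG⟩ := (hO i hi).2 not_false
      have h9 := pow_le_nine (cnt_le Pr i)
      have hG' := hG.mono hb hp le_rfl (Finset.Subset.refl _)
        (enl_subset_Q _ _ (rho_le hp (cnt_le Pr i)))
        (mul_le_mul_of_nonneg_right h9 (bb_nonneg hp h0 i))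
      by_cases hΛ : Q p (j + 1) i ⊆ Λ
      · have e : 4 ^ 9 * bb p δ₀ Λ j i = dl δ₀ (j + 1) := by
          unfold bb; rw [if_pos hΛ]; field_simp
        rw [e] at hG'
        rcases lt_trichotomy q 0 with hq | hq | hq
        · exact ⟨_, cj (O i), zF i, ⟨-q, by omega, hG'.cj⟩, fun Φ => by
            rw [fac_zero, fac_cj, if_pos hi, one_mul]⟩
        · exact ⟨O i, _, ⟨q, hG'.le (by nlinarith), Or.inl hq⟩, zA i, fun Φ => by
            rw [fac_zero, if_pos hi, mul_one]⟩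
        · exact ⟨_, O i, zF i, ⟨q, by omega, hG'⟩, fun Φ => by
            rw [fac_zero, if_pos hi, one_mul]⟩
      · have e : 4 ^ 9 * bb p δ₀ Λ j i = KK p * dl δ₀ (j + 1) := by
          unfold bb; rw [if_neg hΛ, al_eq]
        rw [e] at hG'
        exact ⟨O i, _, ⟨q, hG', Or.inr hΛ⟩, zA i, fun Φ => by rw [fac_zero, if_pos hi, mul_one]⟩
    · exact ⟨_, _, zF i, zA i, fun Φ => by rw [fac_zero, if_neg hi, one_mul]⟩
  choose n a hn ha e using key
  refine Low.congr' (fun Φ => ?_) (hC (Function.update F (j + 1) n) a (fun k hk m hm => ?_)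
    fun m _ => ha m)
  · unfold FW
    rw [Finset.prod_range_succ _ (j + 1), Function.update_self, mul_assoc,
      ← Finset.prod_mul_distrib]
    congr 1
    · exact Finset.prod_congr rfl fun k hk => by
        rw [Function.update_of_ne (Finset.mem_range.1 hk).ne]
    · simp only [e]
      rw [Finset.prod_ite_mem, Finset.inter_eq_right.2 hPr]
  · rcases hk.lt_or_eq with hk | rfl
    · rw [Function.update_of_ne hk.ne]; exact hF k (Nat.lt_succ_iff.1 hk) m hm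
    · rw [Function.update_self]; exact hn m

theorem main (hb : 0 < b) (hp3 : 3 ≤ p) (h0 : 0 ≤ δ₀) (hs : KK p ^ 2 * δ₀ ≤ 1) (hT : TrProp b p)
    {S : Finset P} {u : P → ℝ} {κ : ℝ} (hC : Claim b p δ₀ Λ S u κ (j + 1))
    {F : ℕ → P → Fld → ℂ} (hF : ∀ k ≤ j, ∀ m ∈ S, Frz b p δ₀ Λ k m (F k m)) (n : ℕ) :
    ∀ (Pr T : Finset P) (O : P → Fld → ℂ), Pr.card + T.card = n → Pr ⊆ S → T ⊆ Pr →
      (∀ i ∈ Pr, St b p δ₀ Λ j i (i ∈ T) (cnt Pr i) (O i)) →
      Low Λ b u κ (fun Φ => FW S j F Φ * ∏ i ∈ Pr, fac (O i) Φ) := by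
  have hp : 1 ≤ p := by omega
  induction n using Nat.strong_induction_on with
  | _ n ih =>
  intro Pr T O hn hPr hTP hO
  -- a convenient form of the induction hypothesis
  have IH : ∀ (Pr' T' : Finset P) (i : P) (G : Fld → ℂ), Pr'.card + T'.card < n → Pr' ⊆ Pr →
      T' ⊆ Pr' → i ∈ Pr' → (∀ k ∈ Pr', k ≠ i → (k ∈ T ↔ k ∈ T')) →
      St b p δ₀ Λ j i (i ∈ T') (cnt Pr' i) G →
      Low Λ b u κ (fun Φ => (FW S j F Φ * ∏ k ∈ Pr'.erase i, fac (O k) Φ) * fac G Φ) := by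
    intro Pr' T' i G h1 h2 h3 h4 h5 h6
    refine Low.congr' (fun Φ => ?_) (ih _ h1 Pr' T' (Function.update O i G) rfl (h2.trans hPr) h3
      fun k hk => ?_)
    · rw [prod_update Pr' h4, mul_assoc]
    · by_cases e : k = i
      · subst e; rwa [Function.update_self]
      · rw [Function.update_of_ne e]
        exact ((hO k (h2 hk)).mono hb hp h0 (cnt_mono h2 k)).congr (h5 k hk e)
  rcases T.eq_empty_or_nonempty with rfl | ⟨i, hiT⟩
  · exact finish hb hp h0 hC hF hPr fun i hi => (hO i hi).congr (by simp)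
  have hi := hTP hiT
  obtain ⟨hΛ, m, q, hm, hq, hG⟩ := (hO i hi).1 hiT
  have tR : ∀ U : Finset P, U ⊆ Pr → Tame fun Φ => ∏ k ∈ U, fac (O k) Φ := fun U hU =>
    Tame.prod _ _ fun k hk => (hO k (hU hk)).tame hb hp
  have hl := el_pos hp j
  have hpl : 3 * el p j ≤ p * el p j := by
    have : (3 : ℤ) ≤ p := by exact_mod_cast hp3
    nlinarith
  by_cases hc : ∃ i' ∈ Pr.erase i, ∃ x ∈ sqb (cen p j m) (p * el p j),
      x ∈ enl (el p (j + 1)) i' (rho p j (cnt Pr i'))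
  · -- a conflict
    obtain ⟨i', hi'e, x, hx1, hx2⟩ := hc
    have hne : i' ≠ i := Finset.ne_of_mem_erase hi'e
    have hi' : i' ∈ Pr := Finset.mem_of_mem_erase hi'e
    have hcen := cen_mem hp j m
    rw [hm] at hcen
    have hr := rho_add_le (j := j) hp (cnt_le Pr i')
    have hl' := el_pos hp (j + 1)
    rw [mem_sqb] at hx1
    rw [mem_enl] at hx2
    have near : ∀ a a' : ℤ, el p (j + 1) * a < el p (j + 1) * a' + 2 * el p (j + 1) →
        a ≤ a' + 1 := by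
      intro a a' h
      by_contra h'
      have : a' + 2 ≤ a := by omega
      nlinarith
    have n1 := near i.1 i'.1 (by omega)
    have n2 := near i'.1 i.1 (by omega)
    have n3 := near i.2 i'.2 (by omega)
    have n4 := near i'.2 i.2 (by omega)
    have c1 : cnt Pr i + 1 ≤ cnt (Pr.erase i') i := cnt_erase hi' (by rw [mem_sqb]; omega)
    have c2 : cnt Pr i' + 1 ≤ cnt (Pr.erase i) i' := cnt_erase hi (by rw [mem_sqb]; omega)
    have c3 : cnt Pr i' + 1 ≤ 9 := c2.trans (cnt_le _ _)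
    have hsub : Q p j m ⊆ enl (el p (j + 1)) i' (rho p j (cnt Pr i' + 1)) := by
      intro y hy
      have hy' := Q_subset_sqb j m hy
      rw [mem_sqb] at hy'
      rw [mem_enl, rho_succ]
      omega
    obtain ⟨q', δ', hH, hδ'⟩ := (hO i' hi').big hb hp
    have s1 := ((hO i hi).four hb hp).mono hb hp h0 c1
    have s2 := ((hO i' hi').four hb hp).mono hb hp h0 c2
    have s3 := (merge hb hp h0 hs c3 (cnt_le Pr i) hG hsub hH hδ').mono hb hp h0 c2
    have s4 := (merge hb hp h0 hs c3 (cnt_le Pr i) hG hsub hH.cj hδ').mono hb hp h0 c2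
    have k1 := Finset.card_erase_lt_of_mem hi
    have k2 := Finset.card_erase_lt_of_mem hi'
    have k3 : ((T.erase i).erase i').card ≤ T.card :=
      Finset.card_le_card ((Finset.erase_subset _ _).trans (Finset.erase_subset _ _))
    have k4 : (T.erase i).card ≤ T.card := Finset.card_le_card (Finset.erase_subset _ _)
    have k5 : (T.erase i').card ≤ T.card := Finset.card_le_card (Finset.erase_subset _ _)
    have hsub' : (Pr.erase i).erase i' ⊆ Pr :=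
      (Finset.erase_subset _ _).trans (Finset.erase_subset _ _)
    have m3 : ∀ k ∈ Pr.erase i, k ≠ i' → (k ∈ T ↔ k ∈ (T.erase i).erase i') := fun k hk hk' => by
      simp [Finset.mem_erase, hk', Finset.ne_of_mem_erase hk]
    have t3 : (T.erase i).erase i' ⊆ Pr.erase i :=
      (Finset.erase_subset _ _).trans (Finset.erase_subset_erase _ hTP)
    refine Low.congr' (W' := fun Φ => (FW S j F Φ * ∏ k ∈ (Pr.erase i).erase i', fac (O k) Φ) *
      (fac (O i) Φ * fac (O i') Φ)) (fun Φ => ?_) ?_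
    · rw [← Finset.prod_erase_mul _ _ hi, ← Finset.prod_erase_mul _ _ hi'e]; ring
    refine Low.split4 hb ((Tame.FW hb hF).mul (tR _ hsub')) (w₁ := 1 / 4) (w₂ := 1 / 4)
      (w₃ := 1 / 4) (w₄ := 1 / 4) (by norm_num) (by norm_num) (by norm_num) (by norm_num)
      (by norm_num) (s1.tame hb hp) (s2.tame hb hp) (s3.tame hb hp) (s4.tame hb hp) ?_ ?_ ?_ ?_
    · rw [Finset.erase_right_comm]
      refine IH (Pr.erase i') (T.erase i') i _ (by omega) (Finset.erase_subset _ _)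
        (Finset.erase_subset_erase _ hTP) (Finset.mem_erase.2 ⟨hne.symm, hi⟩)
        (fun k hk _ => by simp [Finset.mem_erase, Finset.ne_of_mem_erase hk])
        (s1.congr (by simp [Finset.mem_erase, hne.symm]))
    · exact IH (Pr.erase i) (T.erase i) i' _ (by omega) (Finset.erase_subset _ _)
        (Finset.erase_subset_erase _ hTP) hi'e
        (fun k hk _ => by simp [Finset.mem_erase, Finset.ne_of_mem_erase hk])
        (s2.congr (by simp [Finset.mem_erase, hne]))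
    · exact IH (Pr.erase i) ((T.erase i).erase i') i' _ (by omega) (Finset.erase_subset _ _)
        t3 hi'e m3 (s3.congr (by simp))
    · exact IH (Pr.erase i) ((T.erase i).erase i') i' _ (by omega) (Finset.erase_subset _ _)
        t3 hi'e m3 (s4.congr (by simp))
  · -- no conflict: translate
    push Not at hc
    obtain ⟨G', hG', hI⟩ := hT δ₀ h0 hs Λ S j F hF m q _ (O i) hq hG (by rwa [hm])
    have hK := KK_ge hp
    have s1 : St b p δ₀ Λ j i (i ∈ T.erase i) (cnt Pr i) G' := by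
      refine ⟨fun h => absurd h (by simp), fun _ => ⟨q, ?_⟩⟩
      rw [← hm]
      refine hG'.mono hb hp le_rfl (Finset.Subset.refl _)
        ((sqb_subset_enl hp j m _).trans (enl_mono _ _ ?_)) (le_of_eq ?_)
      · have := rho_mono (j := j) hp (Nat.zero_le (cnt Pr (up p m)))
        unfold rho at this ⊢; push_cast at this; linarith
      · unfold bb; rw [hm, if_pos hΛ]
        have := al_eq (p := p) (δ₀ := δ₀) (j := j)
        field_simp
        linear_combination this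
    have l1 := IH Pr (T.erase i) i G' (by have := Finset.card_erase_lt_of_mem hiT; omega)
      (Finset.Subset.refl _) ((Finset.erase_subset _ _).trans hTP) hi
      (fun k _ hk => by simp [Finset.mem_erase, hk]) s1
    refine Low.congr' (W' := fun Φ => (FW S j F Φ * ∏ k ∈ Pr.erase i, fac (O k) Φ) * fac (O i) Φ)
      (fun Φ => by rw [← Finset.prod_erase_mul _ _ hi]; ring) (Low.congr ?_ l1)
    refine hI _ (tR _ (Finset.erase_subset _ _)) fun Φ ψ hψ => ?_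
    refine Finset.prod_congr rfl fun k hk => ?_
    obtain ⟨q', δ', hH, -⟩ := (hO k (Finset.mem_of_mem_erase hk)).big hb hp
    refine hH.fac_dep _ _ fun x hx => ⟨?_, rfl⟩
    have : ψ x = 0 := hψ x fun h => hc k hk x h hx
    simp [this]

end Ph2

theorem ph2Stmt : Ph2Stmt := by
  classical
  intro b p δ₀ Λ S u κ j hb hp3 h0 hs hT hC F O hF hO
  have hp : 1 ≤ p := by omega
  have ha := Ph2.al_nonneg (j := j) hp h0
  refine Ph2.main hb hp3 h0 hs hT hC hF _ S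
    (S.filter fun i => Q p (j + 1) i ⊆ Λ ∧ Sing b p j i (al p δ₀ j) (O i)) O rfl
    (Finset.Subset.refl _) (Finset.filter_subset _ _) fun i hi => ?_
  refine Ph2.St.mono (c := 0) hb hp h0 ⟨fun h => ?_, fun h => ?_⟩ (Nat.zero_le _)
  · rw [pow_zero, one_mul]; exact (Finset.mem_filter.1 h).2
  · rw [pow_zero, one_mul]
    rw [Finset.mem_filter, not_and, not_and] at h
    rcases hO i hi with ⟨m, q, hm, hq, hG⟩ | ⟨q, hG⟩
    · have hΛ : ¬ Q p (j + 1) i ⊆ Λ := fun hΛ => h hi hΛ ⟨m, q, hm, hq, hG⟩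
      refine ⟨q, ?_⟩
      subst hm
      refine hG.mono hb hp (Nat.le_succ j) (Q_subset_Q hp j m)
        ((Q_subset_enl hp j m).trans (enl_mono _ _ (Ph2.el_le_rho hp 0))) ?_
      unfold Ph2.bb; rw [if_neg hΛ]
    · refine ⟨q, hG.mono hb hp le_rfl (Finset.Subset.refl _)
        (enl_mono _ _ (Ph2.el_le_rho hp 0)) ?_⟩
      have h1 := Ph2.al_sq (j := j) hp h0 hs
      have h2 := Ph2.al_small (j := j) hp h0 hs
      unfold Ph2.bb; split_ifs <;> nlinarith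

end Crest.Agent.T145.FS
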