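import Crest.Agent.T145.FsDef_70

/-!
# Row 145, item (e) (helper66): `FS.ratStmt`, `FS.gainStmt`
-/

set_option autoImplicit false

namespace Crest.Agent.T145.FS

open Finset

namespace Rat66

theorem w_nonneg (g : P → ℝ) (x : P) : 0 ≤ w g x := add_nonneg (sq_nonneg _) (sq_nonneg _)

theorem w_add_le (f g : P → ℝ) (x : P) : w (fun y => f y + g y) x ≤ 2 * w f x + 2 * w g x := by
  unfold w
  nlinarith [sq_nonneg (f (x + (1, 0)) - f x - (g (x + (1, 0)) - g x)),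
    sq_nonneg (f (x + (0, 1)) - f x - (g (x + (0, 1)) - g x))]

theorem div_near {l m x : ℤ} (hl : 0 < l) (h1 : l * m - l ≤ x) (h2 : x < l * m + l + l) :
    x / l - 1 ≤ m ∧ m ≤ x / l + 1 := by
  have a1 : m - 1 ≤ x / l := Int.le_ediv_of_mul_le hl (by linarith)
  have a2 : x / l < m + 2 := Int.ediv_lt_of_lt_mul hl (by linarith)
  omega

/-- every point lies in at most nine squares -/
theorem overlap {l : ℤ} (hl : 0 < l) (M : Finset P) {X : Finset P} (h : ∀ m ∈ M, enl l m l ⊆ X)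
    {f : P → ℝ} (hf : ∀ x, 0 ≤ f x) : ∑ m ∈ M, ∑ x ∈ enl l m l, f x ≤ 9 * ∑ x ∈ X, f x := by
  classical
  have e : ∀ m ∈ M, ∑ x ∈ enl l m l, f x = ∑ x ∈ X, if x ∈ enl l m l then f x else 0 := fun m hm => by
    rw [← sum_filter, filter_mem_eq_inter, inter_eq_right.2 (h m hm)]
  rw [sum_congr rfl e, sum_comm, mul_sum]
  refine sum_le_sum fun x _ => ?_
  rw [← sum_filter, sum_const, nsmul_eq_mul]
  refine mul_le_mul_of_nonneg_right ?_ (hf x)
  have h1 : M.filter (fun m => x ∈ enl l m l) ⊆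
      Icc (x.1 / l - 1) (x.1 / l + 1) ×ˢ Icc (x.2 / l - 1) (x.2 / l + 1) := fun m hm => by
    have h2 := (mem_filter.1 hm).2
    simp only [enl, mem_product, mem_Ico, mem_Icc] at h2 ⊢
    exact ⟨div_near hl h2.1.1 h2.1.2, div_near hl h2.2.1 h2.2.2⟩
  have h2 := card_le_card h1
  rw [card_product, Int.card_Icc, Int.card_Icc, show x.1 / l + 1 + 1 - (x.1 / l - 1) = 3 by ring,
    show x.2 / l + 1 + 1 - (x.2 / l - 1) = 3 by ring] at h2
  exact_mod_cast h2

theorem card_enl {l : ℤ} (hl : 0 < l) (m : P) : ((enl l m l).card : ℝ) = 9 * (l : ℝ) ^ 2 := by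
  rw [enl, card_product, Int.card_Ico, Int.card_Ico, show l * m.1 + l + l - (l * m.1 - l) = 3 * l by ring,
    show l * m.2 + l + l - (l * m.2 - l) = 3 * l by ring]
  have : ((3 * l).toNat : ℝ) = 3 * l := by
    exact_mod_cast congrArg (Int.cast : ℤ → ℝ) (Int.toNat_of_nonneg (by omega : 0 ≤ 3 * l))
  push_cast
  rw [this]; ring

theorem el_pos {p : ℕ} (hp : 1 ≤ p) (j : ℕ) : 0 < el p j := pow_pos (by omega) j

theorem el_cast (p j : ℕ) : (el p j : ℝ) = (24 * (p : ℝ)) ^ j := by simp [el]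

theorem fac_star (G : Fld → ℂ) (Φ : Fld) : fac G (star Φ) = star (fac G Φ) := by
  simp only [fac, cj, star_star, star_add, star_one]; ring

theorem star_rl (φ g : P → ℝ) : star (rl φ g) = rl φ g := by
  ext x <;> simp [rl]

theorem star_add_I (φ g ψ χ : P → ℝ) :
    star (rl φ g + Complex.I • rl ψ χ) = rl φ g - Complex.I • rl ψ χ := by
  rw [star_add, star_smul, star_rl, star_rl, sub_eq_add_neg, ← neg_smul]
  simp

theorem rl_mem {b : ℝ} (hb : 0 < b) (p k : ℕ) (X : Finset P) (φ g : P → ℝ) :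
    rl φ g ∈ Om b p k X := by
  have h : 0 ≤ h0 b p := by unfold h0 hh; positivity
  simp only [Om, rl, Set.mem_ofPred_eq, Complex.ofReal_im, abs_zero, En, w, sub_self]
  exact ⟨fun x _ => ⟨h, h, by simpa using sq_nonneg _⟩, by simp⟩

/-- one ratio -/
theorem ratio {u v f : ℂ} {e : ℝ} (hf : f.im = 0) (hf' : 9 / 10 ≤ f.re) (he0 : 0 ≤ e)
    (he : e ≤ 1 / 4) (hu : ‖u * star u - f ^ 2‖ ≤ e) (hv : ‖v * star v - f ^ 2‖ ≤ e) :
    ‖u / v‖ ≤ Real.exp (3 * e) := by
  have k : ∀ {z : ℂ}, ‖z * star z - f ^ 2‖ ≤ e → |‖z‖ ^ 2 - f.re ^ 2| ≤ e := fun {z} h => by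
    refine le_trans (le_of_eq ?_) ((Complex.abs_re_le_norm _).trans h)
    rw [Complex.star_def, Complex.mul_conj, Complex.sub_re, Complex.ofReal_re,
      Complex.normSq_eq_norm_sq, sq f, Complex.mul_re, hf, mul_zero, sub_zero, sq f.re]
  have h1 := (abs_le.1 (k hu)).2
  have h2 := (abs_le.1 (k hv)).1
  have h3 : 4 / 5 ≤ f.re ^ 2 := by nlinarith
  have hv0 : 0 < ‖v‖ ^ 2 := by linarith
  have h4 : 1 + 6 * e ≤ Real.exp (3 * e) ^ 2 := by
    rw [← Real.exp_nat_mul]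
    have := Real.add_one_le_exp (((2 : ℕ) : ℝ) * (3 * e))
    push_cast at this ⊢
    linarith
  refine (pow_le_pow_iff_left₀ (norm_nonneg _) (Real.exp_nonneg _) two_ne_zero).1 (le_trans ?_ h4)
  rw [norm_div, div_pow, div_le_iff₀ hv0]
  nlinarith

theorem geom (n : ℕ) : ∑ k ∈ range n, (1 / 8 : ℝ) ^ k ≤ 2 - 2 * (1 / 8) ^ n := by
  induction n with
  | zero => simp
  | succ n ih =>
    rw [sum_range_succ, pow_succ]
    have : (0 : ℝ) ≤ (1 / 8) ^ n := by positivity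
    linarith

end Rat66

open Rat66

/-- **RAT** -/
theorem ratStmt (h1 : OneStmt) : RatStmt := by
  intro b p j δ₀ i M F a hb hp hδ hK hF ha Φ hΦ
  obtain ⟨hΦ1, hΦ2⟩ := hΦ
  have hp' : (1 : ℝ) ≤ p := by exact_mod_cast hp
  have hN : 576 ≤ NN p := by unfold NN; nlinarith
  have hK0 : 20 ≤ KK p := by unfold KK; nlinarith
  have hKδ : KK p * δ₀ * KK p ≤ 1 := by linarith
  have hd0 : 0 ≤ KK p * δ₀ := by positivity
  have hd1 : KK p * δ₀ ≤ 1 / 20 := by nlinarith
  have ed : ∀ k, KK p * dl δ₀ k = KK p * δ₀ * (1 / 8) ^ k := fun k => by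
    rw [dl, one_div, inv_pow]; ring
  have hl : ∀ k, (0 : ℝ) < el p k := fun k => by exact_mod_cast el_pos hp k
  obtain ⟨χ, hχ⟩ : ∃ χ : P → ℝ, χ = fun y => (Φ.2 y).im := ⟨_, rfl⟩
  obtain ⟨ψ, hψ⟩ : ∃ ψ : P → ℝ, ψ = fun y => (Φ.1 y).im := ⟨_, rfl⟩
  rw [← hχ] at hΦ2
  obtain ⟨x, hx⟩ : ∃ x : ℕ → P → ℝ, x = fun k m =>
    ((el p k : ℝ) / el p j) ^ 2 / 8 + 4 ^ k * En (Q p k m) χ := ⟨_, rfl⟩
  have e1 : Φ = rl (fun y => (Φ.1 y).re) (fun y => (Φ.2 y).re) + Complex.I • rl ψ χ := by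
    ext y <;> simp [rl, hψ, hχ, mul_comm Complex.I]
  have e2 : sh a Complex.I Φ = rl (fun y => (Φ.1 y).re) (fun y => (Φ.2 y).re) +
      Complex.I • rl (fun y => a y + ψ y) χ := by
    ext y
    · simp only [sh, rl, hψ, Prod.fst_add, Prod.smul_fst, Pi.add_apply, Pi.smul_apply, smul_eq_mul]
      conv_lhs => rw [← Complex.re_add_im (Φ.1 y)]
      push_cast; ring
    · simp [sh, rl, hχ, mul_comm Complex.I]
  have hw : ∀ y ∈ Q p (j + 1) i, w ψ y ≤ (hh b / el p j) ^ 2 / 576 := fun y hy => by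
    rw [hψ]
    refine (hΦ1 y hy).2.2.trans ?_
    have : (el p (j + 1) : ℝ) ^ 2 = el p j ^ 2 * NN p := by rw [el_cast, el_cast, NN]; ring
    rw [div_pow, div_pow, this, div_div]
    have := hl j
    gcongr
  have h4 : ∀ k ≤ j, (4 : ℝ) ^ k * (1 / 4) ^ (j + 1) ≤ 1 / 4 := fun k hk => by
    have : (4 : ℝ) ^ k ≤ 4 ^ j := pow_le_pow_right₀ (by norm_num) hk
    calc _ ≤ (4 : ℝ) ^ j * (1 / 4) ^ (j + 1) := by gcongr
      _ = _ := by rw [pow_succ, ← mul_assoc, ← mul_pow]; norm_num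
  have key : ∀ k ∈ range (j + 1), ∀ m ∈ M k, ‖fac (F k m) (sh a Complex.I Φ) / fac (F k m) Φ‖ ≤
      Real.exp (30 * (KK p * dl δ₀ k) * x k m) := by
    intro k hk m hm
    have hk : k ≤ j := Nat.lt_succ_iff.1 (mem_range.1 hk)
    obtain ⟨hO, hQ⟩ := hF k hk m hm
    have hd : KK p * dl δ₀ k ≤ 1 / 20 := by
      rw [ed]; exact (mul_le_of_le_one_right hd0 (pow_le_one₀ (by norm_num) (by norm_num))).trans hd1
    have hd' : 0 ≤ KK p * dl δ₀ k := by rw [ed]; positivity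
    have hE0 : 0 ≤ 4 ^ k * En (Q p k m) χ :=
      mul_nonneg (by positivity) (sum_nonneg fun y _ => w_nonneg _ _)
    have hE : 4 ^ k * En (Q p k m) χ ≤ 1 / 4 := le_trans (mul_le_mul_of_nonneg_left
      ((sum_le_sum_of_subset_of_nonneg hQ fun y _ _ => w_nonneg χ y).trans hΦ2) (by positivity)) (h4 k hk)
    have hr : ((el p k : ℝ) / el p j) ^ 2 ≤ 1 := pow_le_one₀ (div_pos (hl k) (hl j)).le
      ((div_le_one (hl j)).2 (by rw [el_cast, el_cast]; exact pow_le_pow_right₀ (by linarith) hk))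
    have hr0 := sq_nonneg ((el p k : ℝ) / el p j)
    have x0 : 0 ≤ x k m := by rw [hx]; positivity
    have x1 : x k m ≤ 3 / 8 := by rw [hx]; linarith
    have hb1 : (hh b / el p j) ^ 2 / 8 ≤ x k m * (hh b / el p k) ^ 2 := by
      have : (hh b / el p j) ^ 2 / 8 = ((el p k : ℝ) / el p j) ^ 2 / 8 * (hh b / el p k) ^ 2 := by
        have := hl k; have := hl j; field_simp
      rw [this, hx]
      exact mul_le_mul_of_nonneg_right (by linarith) (sq_nonneg _)
    have hb2 : En (Q p k m) χ ≤ x k m * (1 / 4) ^ k := by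
      have : En (Q p k m) χ = 4 ^ k * En (Q p k m) χ * (1 / 4) ^ k := by
        rw [mul_right_comm, ← mul_pow]; norm_num
      rw [this, hx]
      exact mul_le_mul_of_nonneg_right (by linarith) (by positivity)
    have hs := sq_nonneg (hh b / el p j)
    have o := fun ψ' hψ' => h1 b p k m 0 _ _ hb hp hO (by linarith) (fun y => (Φ.1 y).re)
      (fun y => (Φ.2 y).re) ψ' χ (x k m) x0 (by linarith) hψ' hb2 (Or.inl rfl) Complex.I (by simp)
    have o1 := o ψ fun y hy => by linarith [hw y (hQ hy)]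
    have o2 := o (fun y => a y + ψ y) fun y hy => by linarith [hw y (hQ hy), ha y, w_add_le a ψ y]
    rw [← star_add_I, fac_star, ← e1] at o1
    rw [← star_add_I, fac_star, ← e2] at o2
    have hn := (abs_le.1 ((Complex.abs_re_le_norm _).trans
      (hO.bd _ (rl_mem hb p k _ (fun y => (Φ.1 y).re) fun y => (Φ.2 y).re)))).1
    have := ratio (by simp [fac, cj, star_rl]) (by simp only [fac, cj, star_rl]; simp; linarith)
      (by positivity) (by nlinarith) o2 o1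
    rwa [show 3 * (10 * (KK p * dl δ₀ k) * x k m) = 30 * (KK p * dl δ₀ k) * x k m by ring] at this
  have hsum : ∀ k ≤ j, ∑ m ∈ M k, x k m ≤ 2 * NN p := fun k hk => by
    have o1 := overlap (el_pos hp k) (M k) (fun m hm => (hF k hk m hm).2) (f := fun _ => 1)
      fun _ => zero_le_one
    have o2 := overlap (el_pos hp k) (M k) (fun m hm => (hF k hk m hm).2) (w_nonneg χ)
    simp only [sum_const, nsmul_eq_mul, mul_one, card_enl (el_pos hp k), Q,
      card_enl (el_pos hp (j + 1))] at o1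
    have e : (el p (j + 1) : ℝ) ^ 2 = NN p * el p j ^ 2 := by rw [el_cast, el_cast, NN]; ring
    have o3 : (M k).card * (((el p k : ℝ) / el p j) ^ 2 / 8) ≤ 9 / 8 * NN p := by
      rw [div_pow, div_div, ← mul_div_assoc, div_le_iff₀ (by have := hl j; positivity)]
      rw [e] at o1
      linarith
    have o4 : 4 ^ k * ∑ m ∈ M k, En (Q p k m) χ ≤ 9 / 4 :=
      calc _ ≤ (4 : ℝ) ^ k * (9 * (1 / 4) ^ (j + 1)) := mul_le_mul_of_nonneg_left
            (o2.trans (mul_le_mul_of_nonneg_left hΦ2 (by norm_num))) (by positivity)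
        _ ≤ _ := by linarith [h4 k hk]
    simp only [hx, sum_add_distrib, sum_const, nsmul_eq_mul, ← mul_sum]
    linarith
  rw [norm_prod]
  calc _ ≤ ∏ k ∈ range (j + 1), Real.exp (60 * NN p * (KK p * δ₀) * (1 / 8) ^ k) := by
        refine prod_le_prod (fun _ _ => norm_nonneg _) fun k hk => ?_
        rw [norm_prod]
        refine (prod_le_prod (fun _ _ => norm_nonneg _) (key k hk)).trans ?_
        rw [← Real.exp_sum, ← mul_sum, Real.exp_le_exp, ed]
        calc _ ≤ 30 * (KK p * δ₀ * (1 / 8) ^ k) * (2 * NN p) := mul_le_mul_of_nonneg_left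
              (hsum k (Nat.lt_succ_iff.1 (mem_range.1 hk))) (by positivity)
          _ = _ := by ring
    _ ≤ Real.exp (1 / 2) := by
        rw [← Real.exp_sum, ← mul_sum, Real.exp_le_exp]
        have g := geom (j + 1)
        have g0 : (0 : ℝ) ≤ (1 / 8) ^ (j + 1) := by positivity
        have g1 : 240 * NN p ≤ KK p := by unfold KK; nlinarith
        have g2 := mul_le_mul_of_nonneg_left g1 hd0
        calc _ ≤ 60 * NN p * (KK p * δ₀) * 2 := mul_le_mul_of_nonneg_left (by linarith) (by positivity)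
          _ ≤ _ := by linarith
    _ ≤ 2 := by
        have h := Real.add_one_le_exp (-(1 / 2))
        rw [Real.exp_neg, le_inv_comm₀ (by norm_num) (Real.exp_pos _)] at h
        exact h.trans (by norm_num)

/-- **GAIN** -/
theorem gainStmt : GainStmt := by
  intro b C₁ hb
  have hπ := Real.pi_pos
  have hb0 : 0 < b := by linarith
  obtain ⟨θ, hθ⟩ : ∃ θ, θ = (1 - 8 * Real.pi / b) / 2 := ⟨_, rfl⟩
  have hθ0 : 0 < θ := by
    have := (div_lt_one hb0).2 hb
    linarith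
  obtain ⟨ε, hε⟩ : ∃ ε, ε = b / (8 * Real.pi) - 1 := ⟨_, rfl⟩
  have hε0 : 0 < ε := by
    have := (one_lt_div (by positivity)).2 hb
    linarith
  obtain ⟨C, hC⟩ : ∃ C, C = (1 + θ) * (hh b / 2) ^ 2 * C₁ / (2 * b) + hh b ^ 2 / (2 * θ * b) :=
    ⟨_, rfl⟩
  obtain ⟨c, hc⟩ : ∃ c : ℝ, c = 2 * (32 * 4 ^ 9 * 72 ^ 2) := ⟨_, rfl⟩
  have ht : Filter.Tendsto (fun p : ℕ => Real.log ((p : ℝ) / 3)) Filter.atTop Filter.atTop :=
    Real.tendsto_log_atTop.comp (tendsto_natCast_atTop_atTop.atTop_div_const (by norm_num))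
  obtain ⟨p, hp1, hp3⟩ := ((ht.eventually_ge_atTop ((C + c) / ε)).and
    (Filter.eventually_ge_atTop 3)).exists
  refine ⟨p, θ, hp3, hθ0, ?_⟩
  have hp0 : (0 : ℝ) < (p : ℝ) / 3 := by
    have : (3 : ℝ) ≤ p := by exact_mod_cast hp3
    linarith
  obtain ⟨L, hL⟩ : ∃ L, L = Real.log ((p : ℝ) / 3) := ⟨_, rfl⟩
  rw [← hL] at hp1 ⊢
  have e1 : -(hh b / 2) * L + (1 + θ) * (hh b / 2) ^ 2 * (2 * Real.pi * L + C₁) / (2 * b) +
      hh b ^ 2 / (2 * θ * b) = C - ε * L - 2 * L := by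
    have : (1 + θ) * (hh b / 2) ^ 2 * (2 * Real.pi * L) / (2 * b) = (hh b / 2 - ε - 2) * L := by
      rw [hθ, hε, hh]; field_simp; ring
    rw [mul_add _ (2 * Real.pi * L), add_div, this, hC]; ring
  have e2 : 2 * KK p = c * Real.exp (2 * L) := by
    rw [two_mul L, Real.exp_add, hL, Real.exp_log hp0, hc, KK, NN]; ring
  rw [e1, mul_right_comm, e2, mul_assoc, ← Real.exp_add]
  have h1 : c ≤ Real.exp c := by linarith [Real.add_one_le_exp c]
  refine (mul_le_mul_of_nonneg_right h1 (Real.exp_nonneg _)).trans ?_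
  rw [← Real.exp_add, Real.exp_le_one_iff]
  have := (div_le_iff₀ hε0).1 hp1
  linarith

end Crest.Agent.T145.FS
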