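import Crest.Agent.T145.FsDef_70

/-!
# Row 145, item (e) (helper57): `RoughStmt`
-/

set_option autoImplicit false

namespace Crest.Agent.T145.FS

open Finset hiding box
open Crest.ProbabilityR.HeightModel

namespace R57

theorem cosh_le (t x : ℝ) (ht : |t| ≤ 1) :
    Real.cosh (t * x) ≤ 1 + t ^ 2 * x ^ 2 / 2 + t ^ 4 * Real.cosh x := by
  have h1 := (hasSum_nat_add_iff' 2).2 (Real.hasSum_cosh (t * x))
  have h2 := ((hasSum_nat_add_iff' 2).2 (Real.hasSum_cosh x)).mul_left (t ^ 4)
  have h3 := hasSum_le (fun n => ?_) h1 h2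
  · simp only [sum_range_succ, sum_range_zero] at h3
    norm_num [Nat.factorial] at h3
    have h4 : 0 ≤ t ^ 4 := by positivity
    nlinarith [mul_nonneg h4 (sq_nonneg x)]
  · rw [← mul_div_assoc]
    refine div_le_div_of_nonneg_right ?_ (by positivity)
    have ht2 : t ^ 2 ≤ 1 := by rw [← sq_abs]; exact pow_le_one₀ (abs_nonneg t) ht
    have hx : 0 ≤ x ^ (2 * (n + 2)) := by rw [pow_mul]; positivity
    rw [mul_pow]
    refine mul_le_mul_of_nonneg_right ?_ hx
    rw [show t ^ (2 * (n + 2)) = t ^ 4 * (t ^ 2) ^ n by ring]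
    exact mul_le_of_le_one_right (by positivity) (pow_le_one₀ (sq_nonneg t) ht2)

theorem sq_le_cosh (x : ℝ) : x ^ 2 ≤ 2 * Real.cosh x := by
  have h1 := sum_le_hasSum (range 2) (fun n _ => by rw [pow_mul]; positivity) (Real.hasSum_cosh x)
  simp only [sum_range_succ, sum_range_zero] at h1
  norm_num [Nat.factorial] at h1
  linarith

/-- a Gaussian lower bound on the moment generating function near `0` bounds the second moment -/
theorem var_ge {H : Type*} (W X : H → ℝ) (hW : ∀ h, 0 < W h) (h₀ : H)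
    (hs : ∀ t : ℝ, Summable fun h => Real.exp (t * X h) * W h) {c t₀ : ℝ} (ht₀ : 0 < t₀)
    (h : ∀ t : ℝ, |t| ≤ t₀ →
      Real.exp (t ^ 2 * c / 2) ≤ (∑' h, Real.exp (t * X h) * W h) / ∑' h, W h) :
    Summable W ∧ (Summable fun h => X h ^ 2 * W h) ∧ 0 < ∑' h, W h ∧
      c ≤ (∑' h, X h ^ 2 * W h) / ∑' h, W h := by
  have s0 : Summable W := by simpa using hs 0
  have sc : ∀ t : ℝ, Summable fun h => 2 * Real.cosh (t * X h) * W h := fun t => by
    refine ((hs t).add (hs (-t))).congr fun h => ?_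
    rw [Real.cosh_eq, neg_mul]; ring
  have s1 : Summable fun h => 2 * Real.cosh (X h) * W h := by simpa using sc 1
  have s2 : Summable fun h => X h ^ 2 * W h :=
    Summable.of_nonneg_of_le (fun h => mul_nonneg (sq_nonneg _) (hW h).le)
      (fun h => mul_le_mul_of_nonneg_right (sq_le_cosh _) (hW h).le) s1
  have hZ : 0 < ∑' h, W h := s0.tsum_pos (fun h => (hW h).le) h₀ (hW h₀)
  refine ⟨s0, s2, hZ, ?_⟩
  rw [le_div_iff₀ hZ]
  set Z := ∑' h, W h with hZd
  set V := ∑' h, X h ^ 2 * W h with hV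
  set K := ∑' h, 2 * Real.cosh (X h) * W h with hK
  have key : ∀ t : ℝ, 0 < t → t ≤ t₀ → t ≤ 1 → c * Z ≤ V + t ^ 2 * K := by
    intro t ht h1 h2
    have a1 := (le_div_iff₀ hZ).1 (h t (by rwa [abs_of_pos ht]))
    have a2 := (le_div_iff₀ hZ).1 (h (-t) (by rwa [abs_neg, abs_of_pos ht]))
    rw [neg_sq] at a2
    have a3 : (∑' h, Real.exp (t * X h) * W h) + ∑' h, Real.exp (-t * X h) * W h =
        ∑' h, 2 * Real.cosh (t * X h) * W h := by
      rw [← (hs t).tsum_add (hs (-t))]
      refine tsum_congr fun h => ?_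
      rw [Real.cosh_eq, neg_mul]; ring
    have a4 : ∑' h, 2 * Real.cosh (t * X h) * W h ≤ 2 * Z + t ^ 2 * V + t ^ 4 * K := by
      refine hasSum_le (fun h => ?_) (sc t).hasSum
        (((s0.hasSum.mul_left 2).add (s2.hasSum.mul_left (t ^ 2))).add (s1.hasSum.mul_left (t ^ 4)))
      have := mul_le_mul_of_nonneg_right (cosh_le t (X h) (by rwa [abs_of_pos ht])) (hW h).le
      nlinarith
    have a5 := mul_le_mul_of_nonneg_right (Real.add_one_le_exp (t ^ 2 * c / 2)) hZ.le
    have a6 : t ^ 2 * (c * Z) ≤ t ^ 2 * (V + t ^ 2 * K) := by nlinarith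
    exact le_of_mul_le_mul_left a6 (by positivity)
  have hc : Filter.Tendsto (fun t : ℝ => V + t ^ 2 * K) (nhdsWithin 0 (Set.Ioi 0)) (nhds V) := by
    have : Continuous fun t : ℝ => V + t ^ 2 * K := by fun_prop
    simpa using (this.tendsto 0).mono_left nhdsWithin_le_nhds
  refine ge_of_tendsto hc ?_
  filter_upwards [Ioo_mem_nhdsGT (lt_min ht₀ one_pos)] with t ht
  exact key t ht.1 (ht.2.le.trans (min_le_left _ _)) (ht.2.le.trans (min_le_right _ _))

theorem mem_box {R : ℕ} {x : P} : x ∈ box R ↔ x.1.natAbs ≤ R ∧ x.2.natAbs ≤ R := by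
  simp only [box, mem_product, mem_Icc]; omega

theorem le_range {J : Finset P} {y : P} (hy : y ∈ J) :
    y.1.natAbs ≤ interactionRange J ∧ y.2.natAbs ≤ interactionRange J :=
  max_le_iff.1 (le_sup (f := fun y : P => max y.1.natAbs y.2.natAbs) hy)

theorem ext_off {Λ : Finset P} (σ : Λ → ℝ) {x : P} (hx : x ∉ Λ) : ext Λ σ x = 0 := dif_neg hx

theorem ext_on {Λ : Finset P} (σ : Λ → ℝ) {x : P} (hx : x ∈ Λ) : ext Λ σ x = σ ⟨x, hx⟩ := dif_pos hx

theorem ext_fin {Λ : Finset P} (σ : Λ → ℝ) : (Function.support (ext Λ σ)).Finite :=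
  Λ.finite_toSet.subset fun x hx => by
    by_contra hc
    exact hx (ext_off σ hc)

/-- evaluation of the extension by zero as a linear map -/
def extL (Λ : Finset P) (x : P) : (Λ → ℝ) →ₗ[ℝ] ℝ where
  toFun σ := ext Λ σ x
  map_add' σ τ := by by_cases hx : x ∈ Λ <;> simp [ext, hx]
  map_smul' c σ := by by_cases hx : x ∈ Λ <;> simp [ext, hx]

/-- the energy of the zero-boundary box as a quadratic form -/
noncomputable def bq (J : Finset P) (β : ℝ) (R : ℕ) : QuadraticForm ℝ (box R → ℝ) :=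
  (1 / (2 * β * J.card)) • ∑ x ∈ box (R + interactionRange J), ∑ y ∈ J,
    QuadraticMap.sq.comp (extL (box R) (x + y) - extL (box R) x)

theorem bq_apply (J : Finset P) (β : ℝ) (R : ℕ) (σ : box R → ℝ) :
    bq J β R σ = (∑ x ∈ box (R + interactionRange J), ∑ y ∈ J,
      (ext (box R) σ (x + y) - ext (box R) σ x) ^ 2) / (2 * β * J.card) := by
  simp only [bq, smul_apply, _root_.sum_apply, QuadraticMap.comp_apply,
    QuadraticMap.sq_apply, LinearMap.sub_apply, smul_eq_mul, ← sq]
  rw [one_div, ← div_eq_inv_mul]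
  rfl

theorem bq_NG (J : Finset P) (β : ℝ) (R : ℕ) (σ : box R → ℝ) :
    bq J β R σ = (∑ y ∈ J, NG (ext (box R) σ) y) / (2 * β * J.card) := by
  rw [bq_apply, sum_comm]
  congr 1
  refine sum_congr rfl fun y hy => (tsum_eq_sum fun x hx => ?_).symm
  have := le_range hy
  have h1 : x ∉ box R := fun h => hx (by rw [mem_box] at h ⊢; omega)
  have h2 : x + y ∉ box R := fun h => hx (by
    rw [mem_box] at h ⊢
    simp only [Prod.fst_add, Prod.snd_add] at h
    omega)
  simp [ext_off σ h1, ext_off σ h2]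

theorem NG_D (Λ : Finset P) (σ : Λ → ℝ) :
    NG (ext Λ σ) (1, 0) + NG (ext Λ σ) (0, 1) = D Λ (ext Λ σ) := by
  have h0 : ∀ x, x ∉ halo Λ → x ∉ Λ ∧ x + (1, 0) ∉ Λ ∧ x + (0, 1) ∉ Λ := fun x hx => by
    simp only [halo, mem_union, mem_image, not_or, not_exists, not_and] at hx
    exact ⟨hx.1.1, fun h => hx.1.2 _ h (by simp), fun h => hx.2 _ h (by simp)⟩
  simp only [D, En, w, sum_add_distrib, NG]
  congr 1
  · exact tsum_eq_sum fun x hx => by simp [ext_off σ (h0 x hx).1, ext_off σ (h0 x hx).2.1]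
  · exact tsum_eq_sum fun x hx => by simp [ext_off σ (h0 x hx).1, ext_off σ (h0 x hx).2.2]

theorem tsum_ext_sub (Λ : Finset P) (σ φ : Λ → ℝ) :
    ∑' x : P, (ext Λ σ x - ext Λ φ x) ^ 2 = ∑ i, (σ i - φ i) ^ 2 := by
  rw [tsum_eq_sum (s := Λ) fun x hx => by simp [ext_off σ hx, ext_off φ hx], ← sum_coe_sort]
  exact sum_congr rfl fun i _ => by rw [ext_on σ i.2, ext_on φ i.2]

theorem D_nonneg (Λ : Finset P) (g : P → ℝ) : 0 ≤ D Λ g :=
  sum_nonneg fun _ _ => add_nonneg (sq_nonneg _) (sq_nonneg _)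

theorem D_pos (Λ : Finset P) {σ : Λ → ℝ} (hσ : σ ≠ 0) : 0 < D Λ (ext Λ σ) := by
  obtain ⟨i, hi⟩ := Function.ne_iff.1 hσ
  obtain ⟨j, hj, hm⟩ := exists_max_image (univ.filter fun k : Λ => σ k ≠ 0) (fun k => k.1.1)
    ⟨i, by simpa using hi⟩
  have hj0 : σ j ≠ 0 := by simpa using hj
  have h1 : ext Λ σ (j.1 + (1, 0)) = 0 := by
    by_cases h : j.1 + (1, 0) ∈ Λ
    · rw [ext_on σ h]
      by_contra hc
      have := hm ⟨_, h⟩ (by simpa using hc)
      simp at this
    · exact ext_off σ h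
  refine sum_pos' (fun _ _ => add_nonneg (sq_nonneg _) (sq_nonneg _)) ⟨j.1, ?_, ?_⟩
  · simp [halo, j.2]
  · rw [w, h1, ext_on σ j.2]
    have : 0 < (0 - σ j) ^ 2 := by positivity
    exact add_pos_of_pos_of_nonneg this (sq_nonneg _)

theorem ext_lat {R : ℕ} (h : BoxConfig R) (x : P) :
    ext (box R) (lat h) x = 2 * Real.pi * (zeroExtend h x : ℝ) := by
  by_cases hx : x ∈ box R <;> simp [ext, zeroExtend, hx, lat]

theorem weight_eq (J : Finset P) (β : ℝ) {R : ℕ} (h : BoxConfig R) :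
    boxWeight J β h = Real.exp (-(bq J β R (lat h)) / 2) := by
  rw [boxWeight, bq_apply, boxEnergy]
  simp only [ext_lat, mul_sub]
  congr 1
  rw [neg_div, neg_div, div_div]
  congr 2
  ring

end R57

open R57

theorem roughStmt (hE : E0Stmt) (hC : CmpStmt) (hL : LogStmt) (hS : SumStmt) : RoughStmt := by
  intro b hb
  obtain ⟨C, γ₀, hC0, hγ₀, hE⟩ := hE b hb
  obtain ⟨C₁, hC₁, hL⟩ := hL
  refine ⟨C, γ₀, hC0, hγ₀, fun J hJ β θ hβ hθ h1 h2 h3 => ?_⟩
  have hπ := Real.pi_pos
  have hb0 : 0 < b := lt_trans (by positivity) hb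
  have hc : (0 : ℝ) < J.card := by exact_mod_cast card_pos.2 ⟨_, hJ.2.1⟩
  have key : ∀ R : ℕ, 3 ≤ R → C₁ / b ≤ Real.log (R / 3) →
      ENNReal.ofReal (Real.log (R / 3) / 4) ≤ boxVariance J β R := by
    intro R hR hR'
    have cmp := fun σ : box R → ℝ => hC P (AddMonoidHom.id P) J hJ _ (ext_fin σ)
    simp only [AddMonoidHom.id_apply, NG_D] at cmp
    have e1 : ∀ σ φ : box R → ℝ, bq J β R σ ≤
        (∑ i, (σ i - φ i) ^ 2) / (β * θ / (2 * (1 + θ))) + D (box R) (ext (box R) φ) / b := by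
      intro σ φ
      have a1 := (cmp σ).2.2 _ (ext_fin φ) θ hθ
      rw [NG_D, tsum_ext_sub] at a1
      rw [bq_NG, div_le_iff₀ (by positivity)]
      refine a1.trans ?_
      have a2 := D_nonneg (box R) (ext (box R) φ)
      generalize ∑ i, (σ i - φ i) ^ 2 = T
      generalize D (box R) (ext (box R) φ) = E at a2
      have a3 : T / (β * θ / (2 * (1 + θ))) * (2 * β * J.card) = (1 + 1 / θ) * (4 * J.card) * T := by
        field_simp
        ring
      have a4 : (1 + θ) * (2 * J.card * varianceConst J) * E ≤ E / b * (2 * β * J.card) := by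
        rw [div_mul_eq_mul_div, le_div_iff₀ hb0]
        have := mul_le_mul_of_nonneg_right h1 (mul_nonneg hc.le a2)
        nlinarith
      rw [add_mul (T / _), a3]
      linarith
    have e2 : ∀ σ : box R → ℝ, D (box R) (ext (box R) σ) ≤ β * J.card * bq J β R σ := by
      intro σ
      have a1 := (cmp σ).1
      rw [bq_NG, mul_div_assoc', le_div_iff₀ (by positivity)]
      have := mul_le_mul_of_nonneg_left a1 (mul_pos hβ hc).le
      nlinarith
    have hP : (bq J β R).PosDef := fun σ hσ =>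
      pos_of_mul_pos_left ((D_pos _ hσ).trans_le (by rw [mul_comm]; exact e2 σ)) (mul_pos hβ hc).le
    obtain ⟨a, a1, a2, -, a4⟩ := hL 0 3 R le_rfl (by exact_mod_cast hR)
    have z0 : (0 : P) ∈ box R := by simp [mem_box]
    have ea : ext (box R) (fun i => a i.1) = a := funext fun x => by
      by_cases hx : x ∈ box R
      · exact ext_on _ hx
      · rw [ext_off _ hx, a2 x]
        simp only [Prod.fst_zero, Prod.snd_zero, sub_zero]
        have : (R : ℤ) ^ 2 ≤ x.1 ^ 2 + x.2 ^ 2 := by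
          rw [mem_box, not_and_or, not_le, not_le] at hx
          rcases hx with hx | hx
          · have : (R : ℤ) ≤ |x.1| := by rw [← Int.natCast_natAbs]; exact_mod_cast hx.le
            have := pow_le_pow_left₀ (Nat.cast_nonneg R) this 2
            rw [sq_abs] at this
            linarith [sq_nonneg x.2]
          · have : (R : ℤ) ≤ |x.2| := by rw [← Int.natCast_natAbs]; exact_mod_cast hx.le
            have := pow_le_pow_left₀ (Nat.cast_nonneg R) this 2
            rw [sq_abs] at this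
            linarith [sq_nonneg x.1]
        exact_mod_cast this
    obtain ⟨t₀, ht₀, hm⟩ := hE _ h2 (box R) (bq J β R) (β * J.card) (mul_pos hβ hc) e1 e2
      (h3.trans (by norm_num)) (Pi.single ⟨0, z0⟩ 1) (fun i => a i.1)
    have hF : ∀ g : box R → ℝ, ∑ i, (Pi.single ⟨0, z0⟩ 1 : box R → ℝ) i * g i = g ⟨0, z0⟩ :=
      fun g => by simp [Pi.single_apply]
    have hF' : ∀ (t : ℝ) (g : box R → ℝ),
        ∑ i, (t • (Pi.single ⟨0, z0⟩ 1 : box R → ℝ)) i * g i = t * g ⟨0, z0⟩ := fun t g => by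
      simp only [Pi.smul_apply, smul_eq_mul, mul_assoc, ← mul_sum, hF]
    have ga : bq J β R (fun i => a i.1) ≤ (2 * Real.pi * Real.log (R / 3) + C₁) / b := by
      have := e1 (fun i => a i.1) (fun i => a i.1)
      simp only [sub_self, ne_eq, OfNat.ofNat_ne_zero, not_false_eq_true, zero_pow, sum_const_zero,
        zero_div, zero_add, ea] at this
      exact this.trans (div_le_div_of_nonneg_right (a4 _) hb0.le)
    have a0 : a 0 = Real.log (R / 3) := a1 0 (by norm_num)
    have hl : 0 ≤ Real.log (R / 3) := le_trans (by positivity) hR'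
    have gb : Real.log (R / 3) / 2 ≤ 2 * Real.log (R / 3) - bq J β R (fun i => a i.1) := by
      have : 2 * Real.pi * Real.log (R / 3) / b ≤ Real.log (R / 3) / 4 := by
        rw [div_le_iff₀ hb0]; nlinarith
      rw [add_div] at ga
      linarith
    obtain ⟨s0, s2, hZ, hv⟩ := var_ge (fun h : BoxConfig R => boxWeight J β h)
      (fun h => 2 * Real.pi * (zeroExtend h 0 : ℝ)) (fun h => Real.exp_pos _) 0
      (fun t => by
        have := (hS _ _ hP).2.2.1 (t • Pi.single ⟨0, z0⟩ 1)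
        simp only [hF', ← weight_eq] at this
        simpa only [← ext_lat, ext_on _ z0] using this)
      (c := Real.log (R / 3) / 4) ht₀ (fun t ht => by
        have := hm t ht
        simp only [mgf, hF, hF', ← weight_eq, a0] at this
        simp only [← ext_lat, ext_on _ z0]
        refine le_trans (Real.exp_le_exp.2 ?_) this
        rw [mul_assoc]
        refine div_le_div_of_nonneg_right (mul_le_mul_of_nonneg_left ?_ (sq_nonneg t)) two_pos.le
        nlinarith)
    have hw : ∀ h : BoxConfig R, 0 ≤ boxWeight J β h := fun h => (Real.exp_pos _).le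
    rw [boxVariance, ← ENNReal.ofReal_tsum_of_nonneg (fun h => mul_nonneg (sq_nonneg _) (hw h)) s2,
      ← ENNReal.ofReal_tsum_of_nonneg hw s0, ← ENNReal.ofReal_div_of_pos hZ]
    exact ENNReal.ofReal_le_ofReal hv
  refine ENNReal.eq_top_of_forall_nnreal_le fun r => ?_
  have t1 : Filter.Tendsto (fun R : ℕ => Real.log (((R + 1 : ℕ) : ℝ) / 3)) Filter.atTop
      Filter.atTop :=
    Real.tendsto_log_atTop.comp ((tendsto_natCast_atTop_atTop.comp
      (Filter.tendsto_add_atTop_nat 1)).atTop_div_const (by norm_num))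
  obtain ⟨R, r1, r2, r3⟩ := ((Filter.eventually_ge_atTop 2).and ((t1.eventually_ge_atTop (C₁ / b)).and
    (t1.eventually_ge_atTop (4 * r)))).exists
  refine le_trans ?_ ((key (R + 1) (by omega) r2).trans
    (le_iSup (fun R : ℕ => boxVariance J β (R + 1)) R))
  rw [← ENNReal.ofReal_coe_nnreal]
  exact ENNReal.ofReal_le_ofReal (by linarith)

end Crest.Agent.T145.FS
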