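import Crest.Agent.T145.FsDef_70
import Crest.Agent.T145.Pd_77

/-!
# Row 145, item (e) (helper32): rotation inequality and pinning for lattice Gaussians
-/

set_option autoImplicit false

namespace Crest.Agent.T145.FS

namespace R32

variable {ι : Type} [Fintype ι]

omit [Fintype ι] in
theorem lat_add (a b : ι → ℤ) : lat (a + b) = lat a + lat b := by
  funext i; simp [lat, mul_add]

omit [Fintype ι] in
theorem lat_sub (a b : ι → ℤ) : lat (a - b) = lat a - lat b := by
  funext i; simp [lat, mul_sub]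

theorem q_sub {E : Type} [AddCommGroup E] [Module ℝ E] (A : QuadraticForm ℝ E) (a b : E) :
    A (a - b) = A a + A b - QuadraticMap.polar A a b := by
  rw [sub_eq_add_neg a b, QuadraticMap.map_add A, QuadraticMap.polar_neg_right,
    QuadraticMap.map_neg, sub_eq_add_neg]

theorem para {E : Type} [AddCommGroup E] [Module ℝ E] (A : QuadraticForm ℝ E) (a b : E) :
    A (a + b) + A (a - b) = 2 * A a + 2 * A b := by
  rw [q_sub, QuadraticMap.map_add A]; ring

/-- Gaussians are positive definite -/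
theorem pd_gauss {E : Type} [AddCommGroup E] [Module ℝ E] (B : QuadraticForm ℝ E)
    (hB : ∀ x, 0 ≤ B x) : PD fun x => Real.exp (-(B x) / 2) := by
  have h1 : PSD fun a b : E => QuadraticMap.polar B a b / 2 := by
    refine psd_iff.2 ⟨fun a b => by rw [QuadraticMap.polar_comm], fun T x => ?_⟩
    have : ∑ a ∈ T, ∑ b ∈ T, x a * x b * (QuadraticMap.polar B a b / 2) = B (∑ a ∈ T, x a • a) := by
      have h := QuadraticMap.polar_self B (∑ a ∈ T, x a • a)
      rw [← QuadraticMap.polarBilin_apply_apply] at h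
      simp only [map_sum, LinearMap.sum_apply, map_smul, LinearMap.smul_apply, smul_eq_mul,
        QuadraticMap.polarBilin_apply_apply, nsmul_eq_mul, Nat.cast_ofNat] at h
      rw [← mul_right_inj' (two_ne_zero' ℝ), ← h, Finset.mul_sum]
      refine Finset.sum_congr rfl fun a _ => ?_
      rw [Finset.mul_sum, Finset.mul_sum]
      exact Finset.sum_congr rfl fun b _ => by rw [QuadraticMap.polar_comm]; ring
    rw [this]; exact hB _
  refine (h1.exp.conj fun x => Real.exp (-(B x) / 2)).congr fun a b => ?_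
  simp only [← Real.exp_add, q_sub]
  congr 1; ring

/-- the rotation inequality against any positive definite function -/
theorem rot (A : QuadraticForm ℝ (ι → ℝ))
    (hs : ∀ u : ι → ℝ, Summable fun h : ι → ℤ => Real.exp (-(A (lat h - u)) / 2))
    {G : (ι → ℝ) → ℝ} (hG : PD G) (u v : ι → ℝ) :
    (∑' h : ι → ℤ, Real.exp (-(A (lat h - u)) / 2) * G (lat h - v)) * thA A 0 ≤
      thA A u * ∑' h : ι → ℤ, Real.exp (-(A (lat h - 0)) / 2) * G (lat h) := by
  let φ : (ι → ℤ) → ℝ := fun x => Real.exp (-(A (lat x - u)) / 4)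
  let md : (ι → ℤ) → ι → ZMod 2 := fun x i => (x i : ZMod 2)
  let K : (ι → ℤ) × (ι → ℝ) → (ι → ℤ) × (ι → ℝ) → ℝ := fun a b =>
    φ a.1 * φ b.1 * (ind (md a.1 = md b.1) * G (a.2 - b.2))
  have hK : PSD K := (((psd_ind md).comp Prod.fst).mul (PSD.comp hG Prod.snd)).conj fun a => φ a.1
  let p : (ι → ℤ) → ι → ℝ := fun x => (1 / 2 : ℝ) • (lat x - v)
  let j : (ι → ℤ) × (ι → ℤ) → (ι → ℤ) × (ι → ℤ) := fun s => (s.1 + s.2, s.1 - s.2)
  have hj : Function.Injective j := fun s t h => by
    obtain ⟨h1, h2⟩ := Prod.ext_iff.1 h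
    refine Prod.ext (funext fun i => ?_) (funext fun i => ?_) <;>
    · have a1 := congrFun h1 i
      have a2 := congrFun h2 i
      simp only [j, Pi.add_apply, Pi.sub_apply] at a1 a2
      omega
  have hr : ∀ x : (ι → ℤ) × (ι → ℤ), x ∉ Set.range j → ind (md x.1 = md x.2) = 0 := fun x hx => by
    refine if_neg fun h => hx ?_
    have h2 : ∀ i, (2 : ℤ) ∣ x.2 i - x.1 i := fun i =>
      (ZMod.intCast_eq_intCast_iff_dvd_sub _ _ 2).1 (congrFun h i)
    refine ⟨(fun i => (x.1 i + x.2 i) / 2, fun i => (x.1 i - x.2 i) / 2),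
      Prod.ext (funext fun i => ?_) (funext fun i => ?_)⟩ <;>
    · have := h2 i
      simp only [j, Pi.add_apply, Pi.sub_apply]
      omega
  have hm : ∀ s, ind (md (j s).1 = md (j s).2) = 1 := fun s => by
    refine if_pos (funext fun i => (ZMod.intCast_eq_intCast_iff_dvd_sub _ _ 2).2 ?_)
    simp only [j, Pi.add_apply, Pi.sub_apply]
    omega
  have hφ : ∀ s, φ (j s).1 * φ (j s).2 =
      Real.exp (-(A (lat s.1 - u)) / 2) * Real.exp (-(A (lat s.2 - 0)) / 2) := fun s => by
    have h := para A (lat s.1 - u) (lat s.2)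
    simp only [φ, j, ← Real.exp_add, lat_add, lat_sub, sub_zero]
    rw [show lat s.1 + lat s.2 - u = lat s.1 - u + lat s.2 by abel,
      show lat s.1 - lat s.2 - u = lat s.1 - u - lat s.2 by abel]
    congr 1; linarith
  have hb : ∀ (w : ι → ℝ) (r : (ι → ℤ) → ι → ℝ),
      Summable fun h => ‖Real.exp (-(A (lat h - w)) / 2) * G (r h)‖ := fun w r =>
    Summable.of_nonneg_of_le (fun _ => norm_nonneg _) (fun h => by
      rw [norm_mul, Real.norm_of_nonneg (Real.exp_pos _).le]
      exact mul_le_mul_of_nonneg_left (hG.abs_le _) (Real.exp_pos _).le) ((hs w).mul_right (G 0))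
  have key : ∀ (a b : (ι → ℤ) → ι → ℝ) (f g : (ι → ℤ) → ℝ), Summable (fun h => ‖f h‖) →
      Summable (fun h => ‖g h‖) → (∀ s : (ι → ℤ) × (ι → ℤ), Real.exp (-(A (lat s.1 - u)) / 2) *
        Real.exp (-(A (lat s.2 - 0)) / 2) * G (a (j s).1 - b (j s).2) = f s.1 * g s.2) →
      Summable (fun x : (ι → ℤ) × (ι → ℤ) => K (x.1, a x.1) (x.2, b x.2)) ∧
        ∑' x : (ι → ℤ) × (ι → ℤ), K (x.1, a x.1) (x.2, b x.2) = (∑' h, f h) * ∑' h, g h := by
    intro a b f g hf hg h
    have e : ∀ s, K ((j s).1, a (j s).1) ((j s).2, b (j s).2) = f s.1 * g s.2 := fun s => by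
      simp only [K]; rw [hφ, hm, one_mul, h]
    have z : ∀ x ∉ Set.range j, K (x.1, a x.1) (x.2, b x.2) = 0 := fun x hx => by
      simp only [K]; rw [hr x hx, zero_mul, mul_zero]
    refine ⟨(hj.summable_iff z).1 ((summable_mul_of_summable_norm hf hg).congr fun s => (e s).symm),
      ?_⟩
    rw [tsum_mul_tsum_of_summable_norm hf hg, ← hj.tsum_eq fun x hx => by_contra fun h => hx (z x h)]
    exact tsum_congr e
  obtain ⟨s1, e1⟩ := key p (fun x => -p x) _ _ (hb u fun h => lat h - v) (hs 0).norm fun s => by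
    rw [mul_right_comm]
    congr 3
    simp only [p, j, lat_add, lat_sub]
    module
  obtain ⟨s2, e2⟩ := key p p _ _ (hs u).norm (hb 0 lat) fun s => by
    rw [mul_assoc]
    congr 3
    simp only [p, j, lat_add, lat_sub]
    module
  obtain ⟨s3, e3⟩ := key (fun x => -p x) (fun x => -p x) _ _ (hs u).norm (hb 0 lat) fun s => by
    rw [mul_assoc, ← hG.even]
    congr 3
    simp only [p, j, lat_add, lat_sub]
    module
  have h1 := hK.block_sq_le (fun x => (x, p x)) (fun x => (x, -p x)) s1 s2 s3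
  have h2 := (hK.comp fun x => (x, p x)).tsum_nonneg' s2
  rw [e1, e2, e3, ← sq] at h1
  rw [e2] at h2
  exact (abs_le_of_sq_le_sq' h1 h2).2

end R32

open R32

/-- **RSD** -/
theorem rsdStmt (h : SumStmt) : RsdStmt := by
  intro ι _ A B hA hB u v
  refine (rot A (h ι A hA).1 (pd_gauss B hB) u v).trans_eq ?_
  congr 1
  refine tsum_congr fun s => ?_
  rw [← Real.exp_add, sub_zero, add_apply]
  congr 1; ring

/-- **PIN** -/
theorem pinStmt (h : SumStmt) : PinStmt := by
  classical
  intro ι κ _ _ e A A' he hA hA' F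
  obtain ⟨h1, ⟨C, hC⟩, -, h4, h5⟩ := h ι A hA
  obtain ⟨u, hu⟩ := h4 F
  let ρ : (ι → ℝ) →+ ({i // i ∉ Set.range e} → ℝ) :=
    { toFun := fun x i => x i.1, map_zero' := rfl, map_add' := fun _ _ => rfl }
  have h6 := rot A h1 (pd_ind ρ) u 0
  have hl : ∀ k : κ → ℤ, lat (Function.extend e k 0) = Function.extend e (lat k) 0 := fun k => by
    funext i
    by_cases hi : ∃ a, e a = i
    · obtain ⟨a, rfl⟩ := hi
      simp only [lat, he.extend_apply]
    · simp [lat, Function.extend_apply' _ _ _ hi]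
  have key : ∀ f : (ι → ℤ) → ℝ, ∑' s, f s * ind (ρ (lat s) = 0) =
      ∑' k : κ → ℤ, f (Function.extend e k 0) := fun f => by
    rw [← (Function.extend_injective he (0 : ι → ℤ)).tsum_eq fun s hs => ?_]
    · refine tsum_congr fun k => ?_
      rw [ind, if_pos, mul_one]
      funext i
      change lat _ i.1 = 0
      rw [hl, Function.extend_apply' _ _ _ i.2]; rfl
    · have h7 : ρ (lat s) = 0 := by
        by_contra h0
        exact hs (by simp only [ind, if_neg h0, mul_zero])
      refine ⟨s ∘ e, funext fun i => ?_⟩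
      by_cases hi : ∃ a, e a = i
      · obtain ⟨a, rfl⟩ := hi
        exact he.extend_apply _ _ _
      · have h8 : 2 * Real.pi * (s i : ℝ) = 0 := congrFun h7 ⟨i, hi⟩
        change Function.extend e (s ∘ e) 0 i = s i
        rw [Function.extend_apply' _ _ _ hi]
        exact_mod_cast ((mul_eq_zero.1 h8).resolve_left (by positivity)).symm
  simp only [sub_zero] at h6
  rw [key, key] at h6
  have e1 : ∀ k : κ → ℤ, Real.exp (-(A (lat (Function.extend e k 0) - u)) / 2) =
      Real.exp (-(A u) / 2) * (Real.exp (∑ a, F (e a) * lat k a) * Real.exp (-(A' (lat k)) / 2)) := by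
    intro k
    have h7 : ∑ a, F (e a) * lat k a = ∑ i, F i * Function.extend e (lat k) 0 i :=
      Fintype.sum_of_injective e he _ _ (fun i hi => by
        rw [Function.extend_apply' _ _ _ hi]; exact mul_zero _) fun a => by rw [he.extend_apply]
    rw [← Real.exp_add, ← Real.exp_add, q_sub, h7, hu, hA', hl, QuadraticMap.polar_comm]
    congr 1; ring
  simp only [e1] at h6
  simp only [hl, ← hA'] at h6
  rw [tsum_mul_left] at h6
  have hA'' : A'.PosDef := fun x hx => by
    rw [hA']
    exact hA _ fun h0 => hx (funext fun a => (he.extend_apply x 0 a).symm.trans (congrFun h0 _))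
  obtain ⟨-, ⟨C', hC'⟩, -⟩ := h κ A' hA''
  have h8 := (hC' 0).1
  simp only [thA, sub_zero] at h8
  rw [h5 F u hu, mgf, div_le_div_iff₀ h8 (hC 0).1, mul_assoc]
  refine le_of_eq_of_le ?_ (mul_le_mul_of_nonneg_left h6 (Real.exp_pos _).le)
  rw [← mul_assoc, ← mul_assoc, ← Real.exp_add, neg_div, add_neg_cancel, Real.exp_zero, one_mul]

end Crest.Agent.T145.FS
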