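import Crest.Agent.T145.FsDef_70

/-!
# Row 145, item (e): SHIFT, the complex Cameron–Martin translation (helper15)

`K s = ∫ H(φ + s a) exp(-s⟨∇a,∇φ⟩/b - s² D(a)/2b) gw` is invariant under real translations of `s`
(translation invariance of Lebesgue measure); Cauchy's theorem on the unit square and Fubini give
`K 0 = K I`.
-/

set_option autoImplicit false

namespace Crest.Agent.T145.FS

open MeasureTheory

namespace Sh15

theorem w_nonneg (g : P → ℝ) (x : P) : 0 ≤ w g x := by unfold w; positivity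

theorem D_nonneg (Λ : Finset P) (g : P → ℝ) : 0 ≤ D Λ g :=
  Finset.sum_nonneg fun x _ => w_nonneg g x

theorem ext_of_notMem (Λ : Finset P) (φ : Λ → ℝ) {x : P} (h : x ∉ Λ) : ext Λ φ x = 0 := by
  simp [ext, h]

theorem ext_of_mem (Λ : Finset P) (φ : Λ → ℝ) (x : Λ) : ext Λ φ x = φ x := by
  simp [ext, x.2]

theorem continuous_ext (Λ : Finset P) (x : P) : Continuous fun φ : Λ → ℝ => ext Λ φ x := by
  unfold ext
  by_cases h : x ∈ Λ
  · simp only [h, dif_pos]; exact continuous_apply _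
  · simp only [h, dif_neg, not_false_eq_true]; exact continuous_const

theorem continuous_D (Λ : Finset P) : Continuous fun φ : Λ → ℝ => D Λ (ext Λ φ) := by
  unfold D En w
  refine continuous_finsetSum _ fun x _ => ?_
  have h1 := continuous_ext Λ (x + (1, 0))
  have h2 := continuous_ext Λ (x + (0, 1))
  have h3 := continuous_ext Λ x
  fun_prop

theorem continuous_gw (Λ : Finset P) (b : ℝ) : Continuous (gw Λ b) := by
  unfold gw
  have := continuous_D Λ
  fun_prop

theorem abs_le_path (Λ : Finset P) (g : P → ℝ) (hg : ∀ x ∉ Λ, g x = 0) (k : ℕ) :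
    ∀ x : P, x + ((k : ℤ), 0) ∉ Λ → |g x| ≤ k * Real.sqrt (D Λ g) := by
  induction k with
  | zero =>
    intro x hx
    have : x + (((0 : ℕ) : ℤ), 0) = x := by ext <;> simp
    rw [this] at hx
    simp [hg x hx]
  | succ k ih =>
    intro x hx
    by_cases hxΛ : x ∈ Λ
    · have h1 : x + (1, 0) + ((k : ℤ), 0) = x + (((k + 1 : ℕ) : ℤ), 0) := by
        ext <;> simp; ring
      have h2 := ih (x + (1, 0)) (by rw [h1]; exact hx)
      have h3 : w g x ≤ D Λ g :=
        Finset.single_le_sum (f := w g) (fun y _ => w_nonneg g y)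
          (by unfold halo; simp [hxΛ])
      have h4 : (g (x + (1, 0)) - g x) ^ 2 ≤ D Λ g := by
        have : 0 ≤ (g (x + (0, 1)) - g x) ^ 2 := sq_nonneg _
        unfold w at h3; linarith
      have h5 : |g (x + (1, 0)) - g x| ≤ Real.sqrt (D Λ g) := Real.abs_le_sqrt h4
      have h6 : |g x| ≤ |g (x + (1, 0))| + |g (x + (1, 0)) - g x| := by
        have := abs_sub (g (x + (1, 0))) (g (x + (1, 0)) - g x)
        simpa using this
      push_cast
      linarith
    · rw [hg x hxΛ, abs_zero]; positivity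

/-- The Dirichlet energy is positive definite. -/
theorem exists_coer (Λ : Finset P) :
    ∃ c : ℝ, 0 < c ∧ ∀ φ : Λ → ℝ, c * ∑ x, φ x ^ 2 ≤ D Λ (ext Λ φ) := by
  classical
  obtain ⟨K, hK⟩ : ∃ K : ℕ, ∀ x ∈ Λ, x + ((K : ℤ), 0) ∉ Λ := by
    refine ⟨(Λ ×ˢ Λ).sup (fun p => (p.1.1 - p.2.1).natAbs) + 1, fun x hx hy => ?_⟩
    have := Finset.le_sup (f := fun p : P × P => (p.1.1 - p.2.1).natAbs)
      (Finset.mk_mem_product hy hx)
    simp only [Prod.fst_add, add_sub_cancel_left, Int.natAbs_natCast] at this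
    omega
  refine ⟨1 / ((Λ.card : ℝ) * K ^ 2 + 1), by positivity, fun φ => ?_⟩
  have hD := D_nonneg Λ (ext Λ φ)
  have h1 : ∀ x : Λ, φ x ^ 2 ≤ (K : ℝ) ^ 2 * D Λ (ext Λ φ) := fun x => by
    have h := abs_le_path Λ (ext Λ φ) (fun y hy => ext_of_notMem Λ φ hy) K x (hK x x.2)
    rw [ext_of_mem] at h
    have h2 : φ x ^ 2 ≤ (K * Real.sqrt (D Λ (ext Λ φ))) ^ 2 := by
      rw [← sq_abs]; exact pow_le_pow_left₀ (abs_nonneg _) h 2
    rwa [mul_pow, Real.sq_sqrt hD] at h2
  have h2 : ∑ x, φ x ^ 2 ≤ (Λ.card : ℝ) * ((K : ℝ) ^ 2 * D Λ (ext Λ φ)) := by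
    have := Finset.sum_le_card_nsmul Finset.univ (fun x : Λ => φ x ^ 2) _ (fun x _ => h1 x)
    simpa using this
  rw [div_mul_eq_mul_div, one_mul, div_le_iff₀ (by positivity)]
  nlinarith

theorem integrable_gw (Λ : Finset P) {b : ℝ} (hb : 0 < b) : Integrable (gw Λ b) := by
  obtain ⟨c, hc, h⟩ := exists_coer Λ
  have h1 : Integrable (fun φ : Λ → ℝ => ∏ x, Real.exp (-(c / (2 * b)) * φ x ^ 2)) :=
    Integrable.fintype_prod (f := fun (_ : Λ) (t : ℝ) => Real.exp (-(c / (2 * b)) * t ^ 2))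
      fun _ => integrable_exp_neg_mul_sq (by positivity)
  refine h1.mono' (continuous_gw Λ b).aestronglyMeasurable (ae_of_all _ fun φ => ?_)
  rw [← Real.exp_sum, ← Finset.mul_sum, Real.norm_eq_abs, abs_of_pos (by unfold gw; positivity)]
  unfold gw
  refine Real.exp_le_exp.2 ?_
  have h2 := h φ
  have : -(c / (2 * b)) * ∑ x, φ x ^ 2 = -(c * ∑ x, φ x ^ 2) / (2 * b) := by ring
  rw [this]
  exact div_le_div_of_nonneg_right (by linarith) (by positivity)

/-- The real bilinear form. -/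
def bR (Q : Finset P) (a g : P → ℝ) : ℝ :=
  ∑ x ∈ Q, ((a (x + (1, 0)) - a x) * (g (x + (1, 0)) - g x) +
    (a (x + (0, 1)) - a x) * (g (x + (0, 1)) - g x))

theorem bil_eq (Q : Finset P) (a g : P → ℝ) :
    bil Q a (fun x => (g x : ℂ)) = (bR Q a g : ℂ) := by
  unfold bil bR; push_cast; rfl

theorem bR_add (Q : Finset P) (a g : P → ℝ) (h : ℝ) :
    bR Q a (fun x => g x + h * a x) = bR Q a g + h * En Q a := by
  unfold bR En w
  rw [Finset.mul_sum, ← Finset.sum_add_distrib]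
  exact Finset.sum_congr rfl fun x _ => by ring

theorem En_add (Q : Finset P) (a g : P → ℝ) (h : ℝ) :
    En Q (fun x => g x + h * a x) = En Q g + 2 * h * bR Q a g + h ^ 2 * En Q a := by
  unfold bR En w
  rw [Finset.mul_sum, Finset.mul_sum, ← Finset.sum_add_distrib, ← Finset.sum_add_distrib]
  exact Finset.sum_congr rfl fun x _ => by ring

theorem abs_bR_le (Q : Finset P) (a g : P → ℝ) :
    2 * |bR Q a g| ≤ 4 * En Q a + En Q g / 4 := by
  unfold bR En w
  refine le_trans (mul_le_mul_of_nonneg_left (Finset.abs_sum_le_sum_abs _ _) (by norm_num)) ?_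
  rw [Finset.mul_sum, Finset.mul_sum, Finset.sum_div, ← Finset.sum_add_distrib]
  refine Finset.sum_le_sum fun x _ => ?_
  set u := a (x + (1, 0)) - a x
  set v := g (x + (1, 0)) - g x
  set u' := a (x + (0, 1)) - a x
  set v' := g (x + (0, 1)) - g x
  rcases abs_cases (u * v + u' * v') with h | h <;> rw [h.1]
  · nlinarith [sq_nonneg (2 * u - v / 2), sq_nonneg (2 * u' - v' / 2)]
  · nlinarith [sq_nonneg (2 * u + v / 2), sq_nonneg (2 * u' + v' / 2)]

theorem continuous_bR (Λ Q : Finset P) (a : P → ℝ) :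
    Continuous fun φ : Λ → ℝ => bR Q a (ext Λ φ) := by
  unfold bR
  refine continuous_finsetSum _ fun x _ => ?_
  have h1 := continuous_ext Λ (x + (1, 0))
  have h2 := continuous_ext Λ (x + (0, 1))
  have h3 := continuous_ext Λ x
  fun_prop

/-- The integrand. -/
noncomputable def F (Λ : Finset P) (b : ℝ) (a : P → ℝ) (H : (P → ℂ) → ℂ) (s : ℂ) (φ : Λ → ℝ) : ℂ :=
  H (fun x => (ext Λ φ x : ℂ) + s * (a x : ℂ)) *
    Complex.exp (-s * (bR (halo Λ) a (ext Λ φ) : ℂ) / b - s ^ 2 * (D Λ a : ℂ) / (2 * b)) *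
      (gw Λ b φ : ℂ)

theorem F_shift (Λ : Finset P) {b : ℝ} (hb : 0 < b) (a : P → ℝ) (ha : ∀ x ∉ Λ, a x = 0)
    (H : (P → ℂ) → ℂ) (s : ℂ) (h : ℝ) (φ : Λ → ℝ) :
    F Λ b a H s (φ + fun x : Λ => h * a x) = F Λ b a H (s + h) φ := by
  have he : ext Λ (φ + fun x : Λ => h * a x) = fun x => ext Λ φ x + h * a x := by
    funext x
    by_cases hx : x ∈ Λ
    · simp [ext, hx]
    · simp [ext, hx, ha x hx]
  unfold F gw
  rw [he]
  have h1 : (fun x => (((ext Λ φ x + h * a x : ℝ)) : ℂ) + s * (a x : ℂ)) =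
      fun x => (ext Λ φ x : ℂ) + (s + h) * (a x : ℂ) := by
    funext x; push_cast; ring
  rw [h1, mul_assoc, mul_assoc]
  congr 1
  unfold D
  rw [bR_add, En_add]
  push_cast
  rw [← Complex.exp_add, ← Complex.exp_add]
  congr 1
  have : (b : ℂ) ≠ 0 := by exact_mod_cast hb.ne'
  field_simp
  ring

theorem K_shift (Λ : Finset P) {b : ℝ} (hb : 0 < b) (a : P → ℝ) (ha : ∀ x ∉ Λ, a x = 0)
    (H : (P → ℂ) → ℂ) (s : ℂ) (h : ℝ) :
    ∫ φ, F Λ b a H (s + h) φ = ∫ φ, F Λ b a H s φ := by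
  rw [← integral_add_right_eq_self (μ := (volume : Measure (Λ → ℝ))) (F Λ b a H s)
    (fun x : Λ => h * a x)]
  exact integral_congr_ae (ae_of_all _ fun φ => (F_shift Λ hb a ha H s h φ).symm)

theorem norm_F_le (Λ : Finset P) {b : ℝ} (hb : 0 < b) (a : P → ℝ) (H : (P → ℂ) → ℂ) {C : ℝ}
    {s : ℂ} (hs : ‖s‖ ≤ 2) (φ : Λ → ℝ)
    (hH : ‖H (fun x => (ext Λ φ x : ℂ) + s * (a x : ℂ))‖ ≤ C) :
    ‖F Λ b a H s φ‖ ≤ C * Real.exp (6 * D Λ a / b) * gw Λ (2 * b) φ := by
  have hC : 0 ≤ C := le_trans (norm_nonneg _) hH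
  unfold F
  rw [norm_mul, norm_mul, mul_assoc, mul_assoc]
  refine mul_le_mul hH ?_ (by positivity) hC
  have hDa := D_nonneg Λ a
  have h1 : ‖-s * (bR (halo Λ) a (ext Λ φ) : ℂ) / b - s ^ 2 * (D Λ a : ℂ) / (2 * b)‖ ≤
      2 * |bR (halo Λ) a (ext Λ φ)| / b + 4 * D Λ a / (2 * b) := by
    refine le_trans (norm_sub_le _ _) (add_le_add ?_ ?_)
    · rw [norm_div, norm_mul, norm_neg, Complex.norm_real, Complex.norm_real, Real.norm_eq_abs,
        Real.norm_eq_abs, abs_of_pos hb]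
      gcongr
    · rw [norm_div, norm_mul, norm_pow, norm_mul, Complex.norm_real, Complex.norm_real,
        Real.norm_eq_abs, Real.norm_eq_abs, abs_of_pos hb, abs_of_nonneg hDa]
      have : ‖s‖ ^ 2 ≤ 4 := by nlinarith [norm_nonneg s]
      simp only [Complex.norm_ofNat]
      gcongr
  have h2 := abs_bR_le (halo Λ) a (ext Λ φ)
  rw [Complex.norm_exp, Complex.norm_real, Real.norm_eq_abs,
    abs_of_pos (by unfold gw; positivity)]
  unfold gw
  rw [← Real.exp_add, ← Real.exp_add]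
  refine Real.exp_le_exp.2 ?_
  have h3 := le_trans (Complex.re_le_norm _) h1
  have h4 : 2 * |bR (halo Λ) a (ext Λ φ)| / b ≤ (4 * D Λ a + D Λ (ext Λ φ) / 4) / b :=
    div_le_div_of_nonneg_right h2 hb.le
  have h5 : (4 * D Λ a + D Λ (ext Λ φ) / 4) / b + 4 * D Λ a / (2 * b) +
      -D Λ (ext Λ φ) / (2 * b) = 6 * D Λ a / b + -D Λ (ext Λ φ) / (2 * (2 * b)) := by
    field_simp; ring
  linarith

theorem measurable_F (Λ : Finset P) (b : ℝ) (a : P → ℝ) {H : (P → ℂ) → ℂ} (hH : Measurable H)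
    {p : ℝ → ℂ} (hp : Continuous p) :
    Measurable (Function.uncurry fun (t : ℝ) (φ : Λ → ℝ) => F Λ b a H (p t) φ) := by
  have h1 : Measurable fun z : ℝ × (Λ → ℝ) =>
      H (fun x => (ext Λ z.2 x : ℂ) + p z.1 * (a x : ℂ)) := by
    refine hH.comp (measurable_pi_lambda _ fun x => Continuous.measurable ?_)
    have := continuous_ext Λ x
    fun_prop
  have h2 : Continuous fun z : ℝ × (Λ → ℝ) =>
      Complex.exp (-p z.1 * (bR (halo Λ) a (ext Λ z.2) : ℂ) / b -
        p z.1 ^ 2 * (D Λ a : ℂ) / (2 * b)) := by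
    have h3 : Continuous fun z : ℝ × (Λ → ℝ) => (bR (halo Λ) a (ext Λ z.2) : ℂ) :=
      Complex.continuous_ofReal.comp ((continuous_bR Λ (halo Λ) a).comp continuous_snd)
    have h4 : Continuous fun z : ℝ × (Λ → ℝ) => p z.1 := hp.comp continuous_fst
    exact Complex.continuous_exp.comp (((h4.neg.mul h3).div_const _).sub
      (((h4.pow 2).mul continuous_const).div_const _))
  have h3 : Continuous fun z : ℝ × (Λ → ℝ) => (gw Λ b z.2 : ℂ) := by
    have := continuous_gw Λ b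
    fun_prop
  exact (h1.mul h2.measurable).mul h3.measurable

end Sh15

open Sh15 in
theorem shiftStmt : ShiftStmt := by
  intro Λ b a H C hb ha hH hd hC
  have hint : ∀ p : ℝ → ℂ, Continuous p → (∀ t ∈ Set.uIoc (0 : ℝ) 1, ‖p t‖ ≤ 2 ∧ |(p t).im| ≤ 1) →
      Integrable (Function.uncurry fun (t : ℝ) (φ : Λ → ℝ) => F Λ b a H (p t) φ)
        ((volume.restrict (Set.uIoc (0 : ℝ) 1)).prod volume) := by
    intro p hp hb2
    have hfin : IsFiniteMeasure (volume.restrict (Set.uIoc (0 : ℝ) 1)) := by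
      rw [Set.uIoc_of_le zero_le_one]; infer_instance
    have h1 : Integrable (fun z : ℝ × (Λ → ℝ) =>
        (1 : ℝ) * (C * Real.exp (6 * D Λ a / b) * gw Λ (2 * b) z.2))
        ((volume.restrict (Set.uIoc (0 : ℝ) 1)).prod volume) :=
      Integrable.mul_prod (f := fun _ : ℝ => (1 : ℝ)) (integrable_const _)
        ((integrable_gw Λ (by positivity)).const_mul _)
    refine h1.mono' (measurable_F Λ b a hH hp).aestronglyMeasurable ?_
    have h2 : ∀ᵐ z ∂((volume.restrict (Set.uIoc (0 : ℝ) 1)).prod (volume : Measure (Λ → ℝ))),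
        z.1 ∈ Set.uIoc (0 : ℝ) 1 :=
      (Measure.quasiMeasurePreserving_fst).ae (ae_restrict_mem measurableSet_uIoc)
    filter_upwards [h2] with z hz
    rw [one_mul]
    exact norm_F_le Λ hb a H (hb2 _ hz).1 z.2 (hC _ _ (by linarith [(hb2 _ hz).2]))
  have hnorm : ∀ x y : ℝ, |x| ≤ 1 → |y| ≤ 1 →
      ‖(x : ℂ) + y * Complex.I‖ ≤ 2 ∧ |((x : ℂ) + y * Complex.I).im| ≤ 1 := by
    intro x y hx hy
    refine ⟨le_trans (norm_add_le _ _) ?_, by simpa using hy⟩
    rw [norm_mul, Complex.norm_I, mul_one, Complex.norm_real, Complex.norm_real, Real.norm_eq_abs,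
      Real.norm_eq_abs]
    linarith
  have habs : ∀ t ∈ Set.uIoc (0 : ℝ) 1, |t| ≤ 1 := by
    intro t ht
    rw [Set.uIoc_of_le zero_le_one] at ht
    rw [abs_of_pos ht.1]; exact ht.2
  have i1 := hint (fun t => (t : ℂ) + (0 : ℝ) * Complex.I) (by fun_prop)
    fun t ht => hnorm t 0 (habs t ht) (by simp)
  have i2 := hint (fun t => (t : ℂ) + (1 : ℝ) * Complex.I) (by fun_prop)
    fun t ht => hnorm t 1 (habs t ht) (by simp)
  have i3 := hint (fun t => ((1 : ℝ) : ℂ) + t * Complex.I) (by fun_prop)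
    fun t ht => hnorm 1 t (by simp) (habs t ht)
  have i4 := hint (fun t => ((0 : ℝ) : ℂ) + t * Complex.I) (by fun_prop)
    fun t ht => hnorm 0 t (by simp) (habs t ht)
  have hrect : ∀ φ : Λ → ℝ,
      (∫ t in (0 : ℝ)..1, F Λ b a H ((t : ℂ) + (0 : ℝ) * Complex.I) φ) -
        (∫ t in (0 : ℝ)..1, F Λ b a H ((t : ℂ) + (1 : ℝ) * Complex.I) φ) +
        Complex.I * (∫ t in (0 : ℝ)..1, F Λ b a H (((1 : ℝ) : ℂ) + t * Complex.I) φ) -
        Complex.I * (∫ t in (0 : ℝ)..1, F Λ b a H (((0 : ℝ) : ℂ) + t * Complex.I) φ) = 0 := by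
    intro φ
    have hdF : DifferentiableOn ℂ (fun s => F Λ b a H s φ) {s : ℂ | |s.im| < 3 / 2} := by
      unfold F
      refine ((hd (ext Λ φ)).mul ?_).mul (differentiableOn_const _)
      refine Differentiable.differentiableOn ?_
      fun_prop
    have := Complex.integral_boundary_rect_eq_zero_of_differentiableOn (fun s => F Λ b a H s φ)
      0 (1 + Complex.I) (hdF.mono fun s hs => by
        have h2 := (Complex.mem_reProdIm.1 hs).2
        simp only [Complex.zero_im, Complex.add_im, Complex.one_im, Complex.I_im, zero_add,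
          Set.uIcc_of_le (zero_le_one' ℝ), Set.mem_Icc] at h2
        simp only [Set.mem_ofPred_eq]
        rw [abs_of_nonneg h2.1]; linarith [h2.2])
    simpa using this
  have j1 := i1.integral_prod_right
  have j2 := i2.integral_prod_right
  have j3 := i3.integral_prod_right
  have j4 := i4.integral_prod_right
  have conv : ∀ f : ℝ → (Λ → ℝ) → ℂ, (fun φ => ∫ t in Set.uIoc (0 : ℝ) 1,
      Function.uncurry f (t, φ)) = fun φ => ∫ t in (0 : ℝ)..1, f t φ := by
    intro f; funext φ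
    rw [intervalIntegral.integral_of_le zero_le_one, Set.uIoc_of_le zero_le_one]; rfl
  rw [conv] at j1 j2 j3 j4
  have hsum := integral_congr_ae (μ := (volume : Measure (Λ → ℝ))) (ae_of_all _ hrect)
  have lin : ∀ f1 f2 f3 f4 : (Λ → ℝ) → ℂ, Integrable f1 → Integrable f2 → Integrable f3 →
      Integrable f4 → ∫ φ, (f1 φ - f2 φ + f3 φ - f4 φ) =
        (∫ φ, f1 φ) - (∫ φ, f2 φ) + (∫ φ, f3 φ) - ∫ φ, f4 φ := by
    intro f1 f2 f3 f4 h1 h2 h3 h4
    have h12 : Integrable fun φ => f1 φ - f2 φ := h1.sub h2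
    have h123 : Integrable fun φ => f1 φ - f2 φ + f3 φ := h12.add h3
    rw [integral_sub h123 h4, integral_add h12 h3, integral_sub h1 h2]
  rw [integral_zero, lin _ _ _ _ j1 j2 (j3.const_mul _) (j4.const_mul _), integral_const_mul,
    integral_const_mul, ← intervalIntegral_integral_swap i1, ← intervalIntegral_integral_swap i2,
    ← intervalIntegral_integral_swap i3, ← intervalIntegral_integral_swap i4] at hsum
  have k1 : ∀ t : ℝ, ∫ φ, F Λ b a H ((t : ℂ) + (0 : ℝ) * Complex.I) φ = ∫ φ, F Λ b a H 0 φ := by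
    intro t
    rw [← K_shift Λ hb a ha H 0 t]; simp
  have k2 : ∀ t : ℝ, ∫ φ, F Λ b a H ((t : ℂ) + (1 : ℝ) * Complex.I) φ =
      ∫ φ, F Λ b a H Complex.I φ := by
    intro t
    rw [← K_shift Λ hb a ha H Complex.I t]; simp [add_comm]
  have k3 : ∀ t : ℝ, ∫ φ, F Λ b a H (((1 : ℝ) : ℂ) + t * Complex.I) φ =
      ∫ φ, F Λ b a H (((0 : ℝ) : ℂ) + t * Complex.I) φ := by
    intro t
    rw [← K_shift Λ hb a ha H (((0 : ℝ) : ℂ) + t * Complex.I) 1]; simp [add_comm]
  simp only [k1, k2, k3, intervalIntegral.integral_const, sub_zero, one_smul,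
    add_sub_cancel_right] at hsum
  have hK := sub_eq_zero.1 hsum
  have e0 : ∀ φ, F Λ b a H 0 φ = H (fun x => (ext Λ φ x : ℂ)) * (gw Λ b φ : ℂ) := by
    intro φ; simp [F]
  have e1 : ∀ φ, F Λ b a H Complex.I φ =
      H (fun x => (ext Λ φ x : ℂ) + Complex.I * (a x : ℂ)) *
        Complex.exp (-Complex.I * bil (halo Λ) a (fun x => (ext Λ φ x : ℂ)) / b +
          (D Λ a / (2 * b) : ℝ)) * (gw Λ b φ : ℂ) := by
    intro φ
    unfold F
    rw [bil_eq, Complex.I_sq]
    push_cast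
    congr 3
    ring
  simp only [e0, e1] at hK
  exact hK

end Crest.Agent.T145.FS
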