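import Crest.Agent.T145.FsDef_70
import Crest.Agent.T145.Bes_66

/-!
# Row 145, item (e): lattice theta functions (helper61): `sumStmt`, `dblStmt`
-/

set_option autoImplicit false

namespace Crest.Agent.T145.FS

open Finset

namespace S61

variable {ι : Type} [Fintype ι]

theorem cont (A : QuadraticForm ℝ (ι → ℝ)) : Continuous A := by
  classical
  have h : ∀ x, A x = ∑ i, ∑ j, x i * x j *
      QuadraticMap.associated A (Pi.single i 1) (Pi.single j 1) := by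
    intro x
    conv_lhs => rw [← QuadraticMap.associated_eq_self_apply ℝ A x, pi_eq_sum_univ' x]
    simp only [map_sum, map_smul, LinearMap.sum_apply, LinearMap.smul_apply, smul_eq_mul,
      Finset.mul_sum]
    rw [Finset.sum_comm]
    refine Finset.sum_congr rfl fun i _ => Finset.sum_congr rfl fun j _ => ?_
    rw [← mul_assoc, mul_comm (x j)]
  rw [show (A : (ι → ℝ) → ℝ) = _ from funext h]
  fun_prop

/-- coercivity -/
theorem coer {A : QuadraticForm ℝ (ι → ℝ)} (hA : A.PosDef) :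
    ∃ c : ℝ, 0 < c ∧ ∀ x, c * ∑ i, x i ^ 2 ≤ A x := by
  have h1 : ∃ c : ℝ, 0 < c ∧ ∀ x, c * ‖x‖ ^ 2 ≤ A x := by
    by_cases hs : (Metric.sphere (0 : ι → ℝ) 1).Nonempty
    · obtain ⟨y, hy, hm⟩ := (isCompact_sphere (0 : ι → ℝ) 1).exists_isMinOn hs (cont A).continuousOn
      have hy1 : ‖y‖ = 1 := by simpa using hy
      refine ⟨A y, hA y (by rintro rfl; simp at hy1), fun x => ?_⟩
      by_cases hx : x = 0
      · simp [hx]
      have hn : 0 < ‖x‖ := norm_pos_iff.2 hx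
      have h2 : A y ≤ A (‖x‖⁻¹ • x) := hm (by simp [norm_smul, hn.ne'])
      rw [QuadraticMap.map_smul, smul_eq_mul] at h2
      calc A y * ‖x‖ ^ 2 ≤ ‖x‖⁻¹ * ‖x‖⁻¹ * A x * ‖x‖ ^ 2 := by gcongr
        _ = A x := by field_simp
    · refine ⟨1, one_pos, fun x => ?_⟩
      by_cases hx : x = 0
      · simp [hx]
      exact (hs ⟨‖x‖⁻¹ • x, by simp [norm_smul, (norm_pos_iff.2 hx).ne']⟩).elim
  obtain ⟨c, hc, h⟩ := h1
  refine ⟨c / (Fintype.card ι + 1), by positivity, fun x => le_trans ?_ (h x)⟩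
  have h2 : ∑ i, x i ^ 2 ≤ (Fintype.card ι + 1) * ‖x‖ ^ 2 := by
    calc ∑ i, x i ^ 2 ≤ ∑ _i : ι, ‖x‖ ^ 2 := Finset.sum_le_sum fun i _ => by
          rw [← sq_abs]; exact pow_le_pow_left₀ (abs_nonneg _) (norm_le_pi_norm x i) 2
      _ = Fintype.card ι * ‖x‖ ^ 2 := by simp
      _ ≤ _ := by nlinarith [sq_nonneg ‖x‖]
  calc c / (Fintype.card ι + 1) * ∑ i, x i ^ 2
      ≤ c / (Fintype.card ι + 1) * ((Fintype.card ι + 1) * ‖x‖ ^ 2) := by gcongr
    _ = c * ‖x‖ ^ 2 := by field_simp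

/-- one-dimensional uniform bound -/
theorem one_dim {c : ℝ} (hc : 0 < c) : ∃ C : ℝ, ∀ t : ℝ,
    Summable (fun k : ℤ => Real.exp (-(c * (2 * Real.pi * k - t) ^ 2) / 2)) ∧
      ∑' k : ℤ, Real.exp (-(c * (2 * Real.pi * k - t) ^ 2) / 2) ≤ C := by
  have hpi := Real.pi_pos
  have hs := (Bes66.summable_gau (τ := 1 / (2 * c * Real.pi ^ 2)) (by positivity) 0).mul_left
    (Real.exp (2 * c * Real.pi ^ 2))
  refine ⟨∑' k : ℤ, Real.exp (2 * c * Real.pi ^ 2) *
    (gau (1 / (2 * c * Real.pi ^ 2)) k * Real.exp (0 * k)), fun t => ?_⟩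
  · set m : ℤ := ⌊t / (2 * Real.pi)⌋ with hm
    have h0 : 0 ≤ t - 2 * Real.pi * m := by
      have := Int.floor_le (t / (2 * Real.pi))
      rw [le_div_iff₀ (by positivity)] at this; linarith
    have h1 : t - 2 * Real.pi * m ≤ 2 * Real.pi := by
      have := (Int.lt_floor_add_one (t / (2 * Real.pi))).le
      rw [div_le_iff₀ (by positivity)] at this; linarith
    have hle : ∀ k : ℤ, Real.exp (-(c * (2 * Real.pi * ((k + m : ℤ) : ℝ) - t) ^ 2) / 2) ≤
        Real.exp (2 * c * Real.pi ^ 2) * (gau (1 / (2 * c * Real.pi ^ 2)) k * Real.exp (0 * k)) := by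
      intro k
      rw [gau, ← Real.exp_add, ← Real.exp_add, Real.exp_le_exp]
      have e : -(k : ℝ) ^ 2 / (2 * (1 / (2 * c * Real.pi ^ 2))) = -(c * (Real.pi * k) ^ 2) := by
        field_simp
      rw [e]; push_cast
      obtain ⟨r, hr⟩ : ∃ r, r = t - 2 * Real.pi * m := ⟨_, rfl⟩
      rw [← hr] at h0 h1
      have e2 : 2 * Real.pi * ((k : ℝ) + m) - t = 2 * (Real.pi * k) - r := by rw [hr]; ring
      rw [e2]
      have h3 : r ^ 2 ≤ (2 * Real.pi) ^ 2 := pow_le_pow_left₀ h0 h1 2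
      have h4 : 2 * (Real.pi * k) ^ 2 - (2 * Real.pi) ^ 2 ≤ (2 * (Real.pi * k) - r) ^ 2 := by
        nlinarith [sq_nonneg (Real.pi * k - r)]
      nlinarith [mul_le_mul_of_nonneg_left h4 hc.le]
    have hs2 := Summable.of_nonneg_of_le (fun _ => (Real.exp_pos _).le) hle hs
    have e := (Equiv.addRight m).summable_iff
      (f := fun k : ℤ => Real.exp (-(c * (2 * Real.pi * k - t) ^ 2) / 2))
    refine ⟨e.1 hs2, ?_⟩
    rw [← (Equiv.addRight m).tsum_eq]
    exact hs2.tsum_le_tsum hle hs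

theorem sum_bd {A : QuadraticForm ℝ (ι → ℝ)} (hA : A.PosDef) : ∃ C : ℝ, ∀ u : ι → ℝ,
    (Summable fun h : ι → ℤ => Real.exp (-(A (lat h - u)) / 2)) ∧ thA A u ≤ C := by
  obtain ⟨c, hc, h⟩ := coer hA
  obtain ⟨C, hC⟩ := one_dim hc
  refine ⟨C ^ Fintype.card ι, fun u => ?_⟩
  have h1 := Xy48.hasSum_piR (fun (i : ι) (k : ℤ) =>
    Real.exp (-(c * (2 * Real.pi * k - u i) ^ 2) / 2)) _ fun i => (hC (u i)).1.hasSum
  have hle : ∀ k : ι → ℤ, Real.exp (-(A (lat k - u)) / 2) ≤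
      ∏ i, Real.exp (-(c * (2 * Real.pi * k i - u i) ^ 2) / 2) := by
    intro k
    rw [← Real.exp_sum, Real.exp_le_exp, ← Finset.sum_div, Finset.sum_neg_distrib, ← Finset.mul_sum]
    have := h (lat k - u)
    simp only [Pi.sub_apply, lat] at this ⊢
    linarith
  have hs := Summable.of_nonneg_of_le (fun _ => (Real.exp_pos _).le) hle h1.summable
  refine ⟨hs, (hs.tsum_le_tsum hle h1.summable).trans ?_⟩
  rw [h1.tsum_eq, ← Finset.card_univ, ← Finset.prod_const]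
  exact Finset.prod_le_prod (fun i _ => tsum_nonneg fun _ => (Real.exp_pos _).le)
    fun i _ => (hC (u i)).2

theorem summ {A : QuadraticForm ℝ (ι → ℝ)} (hA : A.PosDef) (u : ι → ℝ) :
    Summable fun h : ι → ℤ => Real.exp (-(A (lat h - u)) / 2) :=
  ((sum_bd hA).choose_spec u).1

theorem thA_pos {A : QuadraticForm ℝ (ι → ℝ)} (hA : A.PosDef) (u : ι → ℝ) : 0 < thA A u :=
  (summ hA u).tsum_pos (fun _ => (Real.exp_pos _).le) 0 (Real.exp_pos _)

theorem riesz {A : QuadraticForm ℝ (ι → ℝ)} (hA : A.PosDef) (F : ι → ℝ) :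
    ∃ v : ι → ℝ, ∀ x, ∑ i, F i * x i = QuadraticMap.polar A v x / 2 := by
  classical
  let L : (ι → ℝ) →ₗ[ℝ] (ι → ℝ) :=
    LinearMap.pi fun i => (QuadraticMap.polarBilin A).flip (Pi.single i 1)
  have hL : ∀ v x, ∑ i, L v i * x i = QuadraticMap.polar A v x := by
    intro v x
    conv_rhs => rw [← QuadraticMap.polarBilin_apply_apply, pi_eq_sum_univ' x]
    simp only [map_sum, map_smul, smul_eq_mul, L, LinearMap.pi_apply, LinearMap.flip_apply]
    exact Finset.sum_congr rfl fun i _ => mul_comm _ _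
  have hi : Function.Injective L := by
    rw [injective_iff_map_eq_zero]
    intro v hv
    by_contra h0
    have h1 := hL v v
    rw [hv, QuadraticMap.polar_self] at h1
    have := hA v h0
    simp at h1
    linarith
  obtain ⟨v, hv⟩ := LinearMap.injective_iff_surjective.1 hi ((2 : ℝ) • F)
  refine ⟨v, fun x => ?_⟩
  rw [← hL, hv, Finset.sum_div]
  exact Finset.sum_congr rfl fun i _ => by simp only [Pi.smul_apply, smul_eq_mul]; ring

theorem sq_eq (A : QuadraticForm ℝ (ι → ℝ)) {F v : ι → ℝ}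
    (h : ∀ x, ∑ i, F i * x i = QuadraticMap.polar A v x / 2) (x : ι → ℝ) :
    Real.exp (∑ i, F i * x i) * Real.exp (-(A x) / 2) =
      Real.exp (A v / 2) * Real.exp (-(A (x - v)) / 2) := by
  rw [← Real.exp_add, ← Real.exp_add, h]
  congr 1
  have h1 : A (x - v) = A x + A v - QuadraticMap.polar A v x := by
    have h2 := QuadraticMap.map_add A x (-v)
    rw [QuadraticMap.map_neg, QuadraticMap.polar_neg_right, QuadraticMap.polar_comm] at h2
    rw [sub_eq_add_neg, h2]; ring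
  rw [h1]; ring

theorem mgf_eq (A : QuadraticForm ℝ (ι → ℝ)) {F v : ι → ℝ}
    (h : ∀ x, ∑ i, F i * x i = QuadraticMap.polar A v x / 2) :
    mgf A F = Real.exp (A v / 2) * thA A v / thA A 0 := by
  simp only [mgf, thA, sq_eq A h, tsum_mul_left, sub_zero]

/-- the rotation of `ℤ^ι × ℤ^ι` -/
def rot (ι : Type) : (ι → Fin 2) × ((ι → ℤ) × (ι → ℤ)) ≃ (ι → ℤ) × (ι → ℤ) where
  toFun p := (fun i => p.2.1 i + p.2.2 i + (p.1 i : ℕ), fun i => p.2.1 i - p.2.2 i)
  invFun q := (fun i => ⟨((q.1 i + q.2 i) % 2).toNat, by omega⟩,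
    fun i => (q.1 i + q.2 i) / 2, fun i => (q.1 i - q.2 i) / 2)
  left_inv p := by
    ext i
    · have := (p.1 i).2; simp only; omega
    · have := (p.1 i).2; simp only; omega
    · have := (p.1 i).2; simp only; omega
  right_inv q := by
    ext i
    · simp only; omega
    · simp only; omega

/-- the coset theta functions -/
noncomputable def Tc (A : QuadraticForm ℝ (ι → ℝ)) (c : ι → Fin 2) (z : ι → ℝ) : ℝ :=
  thA ((2 : ℝ) • A) ((1 / 2 : ℝ) • (z - lat fun i => ((c i : ℕ) : ℤ)))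

omit [Fintype ι] in
theorem para (A : QuadraticForm ℝ (ι → ℝ)) (a b : ι → ℝ) :
    A (a + b) + A (a - b) = 2 * A a + 2 * A b := by
  have h1 := QuadraticMap.map_add A a b
  have h2 := QuadraticMap.map_add A a (-b)
  rw [QuadraticMap.map_neg, QuadraticMap.polar_neg_right] at h2
  rw [sub_eq_add_neg, h1, h2]; ring

theorem rot_id [DecidableEq ι] {A : QuadraticForm ℝ (ι → ℝ)} (hA : A.PosDef) (x y : ι → ℝ) :
    thA A x * thA A y = ∑ c : ι → Fin 2, Tc A c (x + y) * Tc A c (x - y) := by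
  have h2 : QuadraticMap.PosDef ((2 : ℝ) • A) := hA.smul two_pos
  have hm := (summ hA x).hasSum.mul (summ hA y).hasSum
    ((summ hA x).mul_of_nonneg (summ hA y) (fun _ => (Real.exp_pos _).le)
      fun _ => (Real.exp_pos _).le)
  rw [← (rot ι).hasSum_iff] at hm
  refine (hm.prod_fiberwise fun c => ?_).unique (hasSum_fintype _)
  have s1 := summ h2 ((1 / 2 : ℝ) • (x + y - lat fun i => ((c i : ℕ) : ℤ)))
  have s2 := summ h2 ((1 / 2 : ℝ) • (x - y - lat fun i => ((c i : ℕ) : ℤ)))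
  have h3 := s1.hasSum.mul s2.hasSum
    (s1.mul_of_nonneg s2 (fun _ => (Real.exp_pos _).le) fun _ => (Real.exp_pos _).le)
  convert h3 using 1
  swap
  · rfl
  funext p
  simp only [Function.comp, ← Real.exp_add, smul_apply, smul_eq_mul]
  congr 1
  have := para A (lat p.1 - (1 / 2 : ℝ) • (x + y - lat fun i => ((c i : ℕ) : ℤ)))
    (lat p.2 - (1 / 2 : ℝ) • (x - y - lat fun i => ((c i : ℕ) : ℤ)))
  have e1 : lat p.1 - (1 / 2 : ℝ) • (x + y - lat fun i => ((c i : ℕ) : ℤ)) +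
      (lat p.2 - (1 / 2 : ℝ) • (x - y - lat fun i => ((c i : ℕ) : ℤ))) =
      lat (rot ι (c, p)).1 - x := by
    funext i; simp [lat, rot]; ring
  have e2 : lat p.1 - (1 / 2 : ℝ) • (x + y - lat fun i => ((c i : ℕ) : ℤ)) -
      (lat p.2 - (1 / 2 : ℝ) • (x - y - lat fun i => ((c i : ℕ) : ℤ))) =
      lat (rot ι (c, p)).2 - y := by
    funext i; simp [lat, rot]; ring
  rw [e1, e2] at this
  linarith

theorem dbl {A : QuadraticForm ℝ (ι → ℝ)} (hA : A.PosDef) (u : ι → ℝ) :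
    thA A u ^ 4 ≤ thA A ((2 : ℝ) • u) * thA A 0 ^ 3 := by
  classical
  have h1 := rot_id hA u u
  have h2 := rot_id hA ((2 : ℝ) • u) 0
  have h3 := rot_id hA 0 0
  rw [← two_smul ℝ u, sub_self] at h1
  rw [add_zero, sub_zero] at h2 h3
  have h4 := Finset.sum_mul_sq_le_sq_mul_sq Finset.univ (fun c => Tc A c ((2 : ℝ) • u))
    fun c => Tc A c 0
  simp only [sq] at h4
  rw [← h1, ← h2, ← h3] at h4
  calc _ = thA A u * thA A u * (thA A u * thA A u) := by ring
    _ ≤ _ := h4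
    _ = _ := by ring

theorem thA_le {A : QuadraticForm ℝ (ι → ℝ)} (hA : A.PosDef) (u : ι → ℝ) :
    thA A u ≤ thA A 0 := by
  obtain ⟨C, hC⟩ := sum_bd hA
  have hb : BddAbove (Set.range (thA A)) := ⟨C, by rintro _ ⟨v, rfl⟩; exact (hC v).2⟩
  obtain ⟨S, hS⟩ : ∃ S, S = ⨆ v, thA A v := ⟨_, rfl⟩
  have hle : ∀ v, thA A v ≤ S := fun v => hS ▸ le_ciSup hb v
  have h0 := thA_pos hA 0
  have hS0 : 0 < S := h0.trans_le (hle 0)
  have hm : 0 ≤ S * thA A 0 ^ 3 := by positivity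
  have h1 : S ≤ √(√(S * thA A 0 ^ 3)) := by
    rw [hS]
    refine ciSup_le fun v => Real.le_sqrt_of_sq_le (Real.le_sqrt_of_sq_le ?_)
    rw [← hS]
    calc _ = thA A v ^ 4 := by ring
      _ ≤ _ := dbl hA v
      _ ≤ _ := by gcongr; exact hle _
  have h2 : S ^ 4 ≤ S * thA A 0 ^ 3 := by
    calc S ^ 4 ≤ (√(√(S * thA A 0 ^ 3))) ^ 4 := by gcongr
      _ = ((√(√(S * thA A 0 ^ 3))) ^ 2) ^ 2 := by ring
      _ = _ := by rw [Real.sq_sqrt (Real.sqrt_nonneg _), Real.sq_sqrt hm]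
  have h3 : S ^ 3 ≤ thA A 0 ^ 3 := by
    refine le_of_mul_le_mul_left ?_ hS0
    calc _ = S ^ 4 := by ring
      _ ≤ _ := h2
  exact (hle u).trans (le_of_pow_le_pow_left₀ three_ne_zero h0.le h3)

end S61

theorem sumStmt : SumStmt := by
  intro ι _ A hA
  refine ⟨S61.summ hA, ?_, fun F => ?_, S61.riesz hA, fun F v h => S61.mgf_eq A h⟩
  · obtain ⟨C, hC⟩ := S61.sum_bd hA
    exact ⟨C, fun u => ⟨S61.thA_pos hA u, (hC u).2⟩⟩
  · obtain ⟨v, hv⟩ := S61.riesz hA F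
    simp only [S61.sq_eq A hv]
    exact (S61.summ hA v).mul_left _

theorem dblStmt : DblStmt := by
  intro ι _ A hA
  refine ⟨S61.dbl hA, S61.thA_le hA, fun F => ?_⟩
  obtain ⟨v, hv⟩ := S61.riesz hA F
  have hv2 : ∀ x, ∑ i, ((2 : ℝ) • F) i * x i = QuadraticMap.polar A ((2 : ℝ) • v) x / 2 := by
    intro x
    rw [QuadraticMap.polar_smul_left, smul_eq_mul, mul_div_assoc, ← hv, Finset.mul_sum]
    exact Finset.sum_congr rfl fun i _ => by simp only [Pi.smul_apply, smul_eq_mul]; ring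
  rw [S61.mgf_eq A hv, S61.mgf_eq A hv2, QuadraticMap.map_smul, smul_eq_mul]
  have h0 := S61.thA_pos hA 0
  have e : Real.exp (2 * 2 * A v / 2) = Real.exp (A v / 2) ^ 4 := by
    rw [← Real.exp_nat_mul]; congr 1; push_cast; ring
  rw [e, div_pow, div_le_div_iff₀ (by positivity) h0, mul_pow]
  calc _ ≤ Real.exp (A v / 2) ^ 4 * (thA A ((2 : ℝ) • v) * thA A 0 ^ 3) * thA A 0 := by
        gcongr; exact S61.dbl hA v
    _ = _ := by ring

end Crest.Agent.T145.FS
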