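import Crest.Agent.T145.FsDef_70

/-!
# Row 145, item (e) (helper44): `FS.torStmt`, `FS.e4Stmt`
-/

set_option autoImplicit false

open Finset Filter Topology Real

namespace Crest.Agent.T145.FS

open MeasureTheory Crest.ProbabilityR.HeightModel

namespace T44

noncomputable section

variable {n : ℕ}

abbrev TT (n : ℕ) : Type := ZMod n × ZMod n
abbrev II (n : ℕ) : Type := {x : ZMod n × ZMod n // x ≠ 0}

/-- a step on the torus -/
abbrev st (n : ℕ) (y : P) : TT n := (((y.1 : ℤ) : ZMod n), ((y.2 : ℤ) : ZMod n))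

theorem text_zero (σ : II n → ℝ) : text σ 0 = 0 := by simp [text]

theorem text_coe (σ : II n → ℝ) (i : II n) : text σ i.1 = σ i := by simp [text, i.2]

/-- evaluation of the extension -/
def tL (x : TT n) : (II n → ℝ) →ₗ[ℝ] ℝ where
  toFun σ := text σ x
  map_add' σ τ := by unfold text; split_ifs <;> simp
  map_smul' c σ := by unfold text; split_ifs <;> simp

theorem card_pos {J : Finset P} (hJ : IsAdmissible J) : (0 : ℝ) < J.card := by
  exact_mod_cast Finset.card_pos.2 ⟨_, hJ.2.1⟩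

theorem var_pos {J : Finset P} (hJ : IsAdmissible J) : 0 < varianceConst J :=
  div_pos (sum_pos' (fun _ _ => sq_nonneg _) ⟨_, hJ.2.1, by simp⟩) (by linarith [card_pos hJ])

variable [NeZero n]

theorem sum_text (σ : II n → ℝ) (g : TT n → ℝ) : ∑ x, text σ x * g x = ∑ i, g i.1 * σ i := by
  rw [Fintype.sum_eq_add_sum_subtype_ne (fun x => text σ x * g x) 0, text_zero, zero_mul, zero_add]
  exact sum_congr rfl fun i _ => by rw [text_coe σ i, mul_comm]

/-- the energy -/
def EE (J : Finset P) (s : TT n → ℝ) : ℝ := ∑ x, ∑ y ∈ J, (s (x + st n y) - s x) ^ 2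

/-- the quadratic form -/
def QA (J : Finset P) (β : ℝ) (n : ℕ) [NeZero n] : QuadraticForm ℝ (II n → ℝ) :=
  (2 * β * J.card)⁻¹ • ∑ x : TT n, ∑ y ∈ J, QuadraticMap.sq.comp (tL (x + st n y) - tL x)

theorem QA_apply (J : Finset P) (β : ℝ) (σ : II n → ℝ) :
    QA J β n σ = EE J (text σ) / (2 * β * J.card) := by
  simp only [QA, EE, _root_.smul_apply, _root_.sum_apply, QuadraticMap.comp_apply,
    QuadraticMap.sq_apply, LinearMap.sub_apply, smul_eq_mul, sq, div_eq_inv_mul]
  rfl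

theorem EE_nonneg (J : Finset P) (s : TT n → ℝ) : 0 ≤ EE J s :=
  sum_nonneg fun _ _ => sum_nonneg fun _ _ => sq_nonneg _

theorem const_of_EE {J : Finset P} (hJ : IsAdmissible J) {s : TT n → ℝ} (h : EE J s = 0)
    (x : TT n) : s x = s 0 := by
  have h1 : ∀ x, ∀ y ∈ J, s (x + st n y) = s x := fun x y hy => by
    have h2 := (sum_eq_zero_iff_of_nonneg fun _ _ => sum_nonneg fun _ _ => sq_nonneg _).1 h x
      (mem_univ _)
    exact sub_eq_zero.1 (pow_eq_zero_iff two_ne_zero |>.1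
      ((sum_eq_zero_iff_of_nonneg fun _ _ => sq_nonneg _).1 h2 y hy))
  have h2 : ∀ (a : ℕ) (b : ZMod n), s ((a : ZMod n), b) = s (0, b) := fun a b => by
    induction a with
    | zero => simp
    | succ a ih => rw [← ih, ← h1 ((a : ZMod n), b) _ hJ.2.1]; simp [st]
  have h3 : ∀ b : ℕ, s (0, (b : ZMod n)) = s 0 := fun b => by
    induction b with
    | zero => simp [Prod.mk_zero_zero]
    | succ b ih => rw [← ih, ← h1 (0, (b : ZMod n)) _ (hJ.2.2.2 _ hJ.2.1)]; simp [st]
  have := (h2 x.1.val x.2).trans (by simpa using h3 x.2.val)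
  simpa using this

theorem QA_pos {J : Finset P} (hJ : IsAdmissible J) {β : ℝ} (hβ : 0 < β) : (QA J β n).PosDef := by
  intro σ hσ
  rw [QA_apply]
  refine div_pos ((EE_nonneg _ _).lt_of_ne fun h => hσ ?_) (by have := card_pos hJ; positivity)
  funext i
  rw [← text_coe σ i, const_of_EE hJ h.symm, text_zero]; rfl

/-- pinned configurations -/
def eqv (n : ℕ) : (II n → ℤ) ≃ TorusConfig n where
  toFun g := ⟨fun x => if h : x = 0 then 0 else g ⟨x, h⟩, by simp⟩
  invFun h i := h.1 i.1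
  left_inv g := funext fun i => by simp [i.2]
  right_inv h := Subtype.ext (funext fun x => by
    by_cases hx : x = 0
    · simp [hx, h.2]
    · simp [hx])

omit [NeZero n] in
theorem text_lat (g : II n → ℤ) (x : TT n) : text (lat g) x = 2 * π * ((eqv n g).1 x : ℝ) := by
  by_cases hx : x = 0 <;> simp [text, eqv, lat, hx]

theorem weight_eq (J : Finset P) (β : ℝ) (g : II n → ℤ) :
    torusWeight J β (eqv n g) = Real.exp (-(QA J β n (lat g)) / 2) := by
  rw [torusWeight, QA_apply, torusEnergy, EE]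
  simp only [text_lat, mul_sub]
  congr 1
  ring

theorem pairing_eq (f : ℝ × ℝ → ℝ) (g : II n → ℤ) : fieldPairing (eqv n g) f =
    ∑ i : II n, (f ((i.1.1.val : ℝ) / n, (i.1.2.val : ℝ) / n) -
      (∑ y : TT n, f ((y.1.val : ℝ) / n, (y.2.val : ℝ) / n)) / (n : ℝ) ^ 2) / (n : ℝ) ^ 2 *
        lat g i := by
  rw [← sum_text (lat g) fun x => (f ((x.1.val : ℝ) / n, (x.2.val : ℝ) / n) -
      (∑ y : TT n, f ((y.1.val : ℝ) / n, (y.2.val : ℝ) / n)) / (n : ℝ) ^ 2) / (n : ℝ) ^ 2]
  simp only [fieldPairing, meanHeight, ← text_lat, sub_mul, mul_sub, sub_div, sum_sub_distrib,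
    ← mul_div_assoc, ← sum_div, ← mul_sum, ← sum_mul]
  ring

end

end T44

open T44

theorem torStmt (hS : SumStmt) : TorStmt := by
  intro J hJ β hβ n _
  refine ⟨QA J β n, QA_pos hJ hβ, fun σ => QA_apply J β σ, fun f => ?_⟩
  obtain ⟨h1, -, h3, -⟩ := hS _ _ (QA_pos (n := n) hJ hβ)
  have h0 := h1 0
  simp only [sub_zero] at h0
  rw [torusLaplace, dif_pos (NeZero.ne n), torusLaplaceENN, ← (eqv n).tsum_eq, ← (eqv n).tsum_eq]
  simp only [weight_eq, pairing_eq]
  rw [← ENNReal.ofReal_tsum_of_nonneg (fun _ => by positivity) (h3 _),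
    ← ENNReal.ofReal_tsum_of_nonneg (fun _ => by positivity) h0, ENNReal.toReal_div,
    ENNReal.toReal_ofReal (tsum_nonneg fun _ => by positivity),
    ENNReal.toReal_ofReal (tsum_nonneg fun _ => by positivity), mgf]

namespace T44

noncomputable section

variable {n : ℕ} [NeZero n]

/-- the test mode -/
def cm (x : TT n) : ℝ := (ZMod.stdAddChar x.1).re

theorem char_eq (k : ℤ) :
    ZMod.stdAddChar (k : ZMod n) = Complex.exp ((2 * π * k / n : ℝ) * Complex.I) := by
  rw [ZMod.stdAddChar_coe]; congr 1; push_cast; ring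

theorem cm_eq (x : TT n) : cm x = cos (2 * π * ((x.1.val : ℝ) / n)) := by
  have := char_eq (n := n) (x.1.val : ℤ)
  rw [Int.cast_natCast, ZMod.natCast_zmod_val] at this
  rw [cm, this, Complex.exp_ofReal_mul_I_re]
  congr 1; push_cast; ring

theorem cm_add (x : TT n) (y : P) :
    cm (x + st n y) + cm (x - st n y) = 2 * cos (2 * π * y.1 / n) * cm x := by
  have h1 := char_eq (n := n) y.1
  have h2 := char_eq (n := n) (-y.1)
  rw [Int.cast_neg] at h2
  simp only [cm, Prod.fst_add, sub_eq_add_neg, Prod.fst_neg, AddChar.map_add_eq_mul, h1, h2,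
    Complex.mul_re, Complex.exp_ofReal_mul_I_re, Complex.exp_ofReal_mul_I_im, Int.cast_neg,
    mul_neg, neg_div, cos_neg, sin_neg]
  ring

theorem sum_char {b : ZMod n} (hb : b ≠ 0) : ∑ x : TT n, (ZMod.stdAddChar (x.1 * b)).re = 0 := by
  have h := AddChar.sum_mulShift b (ZMod.isPrimitive_stdAddChar n)
  rw [if_neg hb] at h
  rw [Fintype.sum_prod_type_right]
  simp only [← Complex.re_sum, h]
  simp

omit [NeZero n] in
theorem cast_ne (hn : 3 ≤ n) {k : ℕ} (h0 : 0 < k) (h2 : k ≤ 2) : (k : ZMod n) ≠ 0 := fun h =>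
  absurd (Nat.le_of_dvd h0 ((ZMod.natCast_eq_zero_iff _ _).1 h)) (by omega)

theorem sum_cm (hn : 3 ≤ n) : ∑ x : TT n, cm x = 0 := by
  simpa [cm] using sum_char (n := n) (b := 1) (by simpa using cast_ne hn one_pos one_le_two)

theorem sum_cm_sq (hn : 3 ≤ n) : ∑ x : TT n, cm x * cm x = (n : ℝ) ^ 2 / 2 := by
  have h := sum_char (n := n) (b := 2) (by simpa using cast_ne hn two_pos le_rfl)
  have h1 : ∀ x : TT n, cm x * cm x = 1 / 2 + (ZMod.stdAddChar (x.1 * 2)).re / 2 := fun x => by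
    have h2 : ‖ZMod.stdAddChar x.1‖ = 1 := Circle.norm_coe _
    have h3 := Complex.sq_norm (ZMod.stdAddChar x.1)
    rw [h2, Complex.normSq_apply] at h3
    rw [mul_two, AddChar.map_add_eq_mul, Complex.mul_re, cm]
    linarith
  simp only [h1, sum_add_distrib, ← sum_div, h]
  simp [sq]

theorem sbp (s : TT n → ℝ) (y : P) : ∑ x, (s (x + st n y) - s x) * (cm (x + st n y) - cm x) =
    2 * (1 - cos (2 * π * y.1 / n)) * ∑ x, s x * cm x := by
  have h1 : ∑ x, s (x + st n y) * cm (x + st n y) = ∑ x, s x * cm x :=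
    Equiv.sum_comp (Equiv.addRight (st n y)) fun x => s x * cm x
  have h2 : ∑ x, s (x + st n y) * cm x = ∑ x, s x * cm (x - st n y) := by
    rw [← Equiv.sum_comp (Equiv.addRight (st n y)) fun x => s x * cm (x - st n y)]
    simp
  have h3 : ∑ x, s x * cm (x + st n y) + ∑ x, s x * cm (x - st n y) =
      2 * cos (2 * π * y.1 / n) * ∑ x, s x * cm x := by
    rw [← sum_add_distrib, mul_sum]
    exact sum_congr rfl fun x _ => by rw [← mul_add, cm_add]; ring
  simp only [sub_mul, mul_sub, sum_sub_distrib]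
  linarith

/-- the eigenvalue -/
def Lam (J : Finset P) (n : ℕ) : ℝ := ∑ y ∈ J, 2 * (1 - cos (2 * π * y.1 / n))

theorem cs (hn : 3 ≤ n) (J : Finset P) (hL : 0 < Lam J n) (s : TT n → ℝ) :
    Lam J n * (∑ x, s x * cm x) ^ 2 ≤ EE J s * ((n : ℝ) ^ 2 / 2) := by
  have h1 : ∀ s : TT n → ℝ, ∑ p ∈ univ ×ˢ J, (s (p.1 + st n p.2) - s p.1) *
      (cm (p.1 + st n p.2) - cm p.1) = Lam J n * ∑ x, s x * cm x := fun s => by
    rw [sum_product_right, Lam, sum_mul]
    exact sum_congr rfl fun y _ => sbp s y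
  have h2 := sum_mul_sq_le_sq_mul_sq (univ ×ˢ J) (fun p : TT n × P => s (p.1 + st n p.2) - s p.1)
    fun p => cm (p.1 + st n p.2) - cm p.1
  have h3 := h1 cm
  simp only [← sq (cm _ - cm _)] at h3
  rw [h1, h3, sum_cm_sq hn, sum_product] at h2
  change _ ≤ EE J s * _ at h2
  refine le_of_mul_le_mul_left ?_ hL
  nlinarith

theorem lam_lim (J : Finset P) : Tendsto (fun n : ℕ => (n : ℝ) ^ 2 * Lam J n) atTop
    (𝓝 (∑ y ∈ J, 4 * π ^ 2 * (y.1 : ℝ) ^ 2)) := by
  simp only [Lam, mul_sum]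
  refine tendsto_finsetSum _ fun y _ => ?_
  have h1 : Tendsto (fun n : ℕ => 4 * π ^ 2 * (y.1 : ℝ) ^ 2 * sinc (π * y.1 / n) ^ 2) atTop
      (𝓝 (4 * π ^ 2 * (y.1 : ℝ) ^ 2 * sinc 0 ^ 2)) :=
    (((continuous_sinc.tendsto 0).comp (tendsto_const_div_atTop_nhds_zero_nat _)).pow 2).const_mul _
  rw [sinc_zero, one_pow, mul_one] at h1
  refine h1.congr' ?_
  filter_upwards [eventually_gt_atTop 0] with n hn
  have h2 : ∀ t : ℝ, sin t = t * sinc t := fun t => by
    by_cases h : t = 0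
    · simp [h]
    · rw [sinc_of_ne_zero h]; field_simp
  have h3 : cos (2 * π * y.1 / n) = 1 - 2 * sin (π * y.1 / n) ^ 2 := by
    rw [show 2 * π * y.1 / n = 2 * (π * y.1 / n) by ring, cos_two_mul, cos_sq']; ring
  have h4 : (n : ℝ) ≠ 0 := by exact_mod_cast hn.ne'
  rw [h3, h2]
  field_simp
  ring

/-- the test function -/
def uu (x : ℝ × ℝ) : ℝ := cos (2 * π * x.1)

theorem uu_sp : IsSmoothPeriodic uu :=
  ⟨fun x => ⟨by simp [uu, mul_add], by simp [uu]⟩, by unfold uu; fun_prop⟩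

theorem lap_uu (x : ℝ × ℝ) : -flatLaplacian uu x = 4 * π ^ 2 * cos (2 * π * x.1) := by
  have h1 : deriv (fun s : ℝ => cos (2 * π * s)) = fun s => -sin (2 * π * s) * (2 * π) :=
    funext fun s => by simpa using (((hasDerivAt_id s).const_mul (2 * π)).cos).deriv
  have h2 : deriv (fun s : ℝ => -sin (2 * π * s) * (2 * π)) x.1 =
      -(cos (2 * π * x.1) * (2 * π)) * (2 * π) := by
    simpa using ((((hasDerivAt_id x.1).const_mul (2 * π)).sin).neg.mul_const (2 * π)).deriv
  simp only [flatLaplacian, uu, iteratedDeriv_succ, iteratedDeriv_zero, h1, h2]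
  simp
  ring

theorem pair_uu : unitSquarePairing (fun x => -flatLaplacian uu x) uu = 2 * π ^ 2 := by
  have h1 := setIntegral_prod_mul (μ := (volume : Measure ℝ)) (ν := (volume : Measure ℝ))
    (fun s : ℝ => 4 * π ^ 2 * cos (2 * π * s) ^ 2) (fun _ : ℝ => (1 : ℝ)) (Set.Icc 0 1) (Set.Icc 0 1)
  have h2 : ∫ s in (0 : ℝ)..1, cos (2 * π * s) ^ 2 = 1 / 2 := by
    rw [intervalIntegral.integral_comp_mul_left (fun t => cos t ^ 2) (by positivity),
      integral_cos_sq]
    simp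
    field_simp
  rw [integral_const_mul, integral_Icc_eq_integral_Ioc, ← intervalIntegral.integral_of_le zero_le_one,
    h2] at h1
  simp only [unitSquarePairing, lap_uu, uu, Measure.volume_eq_prod]
  rw [show 2 * π ^ 2 = 4 * π ^ 2 * (1 / 2) * ∫ _ in Set.Icc (0 : ℝ) 1, (1 : ℝ) by simp; ring, ← h1]
  congr 1
  funext z
  ring

theorem pos_of_mul_pos_of_nonneg_left' {a b : ℝ} (h : 0 < a * b) (ha : 0 ≤ a) : 0 < b := by
  by_contra hb
  exact absurd h (not_lt.2 (mul_nonpos_of_nonneg_of_nonpos ha (not_lt.1 hb)))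

theorem log_le (hT : TorStmt) (hS : SumStmt) (hD : DblStmt) {J : Finset P} (hJ : IsAdmissible J)
    {β : ℝ} (hβ : 0 < β) (hn : 3 ≤ n) (hL : 0 < Lam J n) :
    Real.log (torusLaplace J β n fun x => -flatLaplacian uu x) ≤
      8 * π ^ 4 * β * J.card / ((n : ℝ) ^ 2 * Lam J n) := by
  obtain ⟨A, hA, h1, h2⟩ := hT J hJ β hβ n
  obtain ⟨-, ⟨C, h3⟩, -, h4, h5⟩ := hS _ A hA
  rw [h2]
  simp only [lap_uu, ← cm_eq, ← mul_sum, sum_cm hn, mul_zero, zero_div, sub_zero]
  obtain ⟨v, hv⟩ := h4 fun x : II n => 4 * π ^ 2 * cm x.1 / (n : ℝ) ^ 2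
  have hn0 : (0 : ℝ) < n := by exact_mod_cast NeZero.pos n
  have hc := card_pos hJ
  have h6 : A v = 4 * π ^ 2 / (n : ℝ) ^ 2 * ∑ x, text v x * cm x := by
    have := hv v
    rw [QuadraticMap.polar_self, two_nsmul, add_self_div_two] at this
    rw [← this, sum_text, mul_sum]
    exact sum_congr rfl fun i _ => by ring
  have h7 := cs hn J hL (text v)
  have h8 : EE J (text v) = 2 * β * J.card * A v := by rw [h1]; unfold EE; field_simp
  have h9 : A v ≤ 16 * π ^ 4 * β * J.card / ((n : ℝ) ^ 2 * Lam J n) := by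
    rcases (hA.nonneg v).eq_or_lt with h | h
    · rw [← h]; positivity
    rw [le_div_iff₀ (by positivity)]
    refine le_of_mul_le_mul_left ?_ h
    have h10 : (∑ x, text v x * cm x) = (n : ℝ) ^ 2 * A v / (4 * π ^ 2) := by
      rw [h6]; field_simp
    rw [h8, h10, div_pow, ← mul_div_assoc, div_le_iff₀ (by positivity)] at h7
    refine le_of_mul_le_mul_left ?_ (pow_pos hn0 2)
    nlinarith
  rw [h5 _ v hv]
  have h11 : Real.exp (A v / 2) * thA A v / thA A 0 ≤ Real.exp (A v / 2) := by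
    rw [div_le_iff₀ (h3 0).1]
    exact mul_le_mul_of_nonneg_left ((hD _ A hA).2.1 v) (exp_pos _).le
  refine (Real.log_le_log (div_pos (mul_pos (exp_pos _) (h3 v).1) (h3 0).1) h11).trans ?_
  rw [log_exp]
  calc A v / 2 ≤ 16 * π ^ 4 * β * J.card / ((n : ℝ) ^ 2 * Lam J n) / 2 := by linarith
    _ = _ := by ring

end

end T44

theorem e4Stmt (hT : TorStmt) (hS : SumStmt) (hD : DblStmt) : E4Stmt := by
  intro J hJ β L c hβ hL h
  have h1 := h uu uu_sp
  rw [pair_uu] at h1
  have hc := card_pos hJ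
  have hv := var_pos hJ
  have h2 : ∑ y ∈ J, 4 * π ^ 2 * (y.1 : ℝ) ^ 2 = 8 * π ^ 2 * J.card * varianceConst J := by
    rw [← mul_sum, varianceConst]; field_simp; ring
  have hp : Tendsto (fun N : ℕ => L ^ N) atTop atTop := tendsto_pow_atTop_atTop_of_one_lt hL
  have h3 := (lam_lim J).comp hp
  rw [h2] at h3
  have h4 := (tendsto_const_nhds (x := 8 * π ^ 4 * β * J.card)).div h3 (by positivity)
  have h5 := le_of_tendsto_of_tendsto h1 h4 (by
    filter_upwards [hp.eventually_ge_atTop 3, h3.eventually (lt_mem_nhds (by positivity :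
      (0 : ℝ) < 8 * π ^ 2 * J.card * varianceConst J))] with N h6 h7
    have : NeZero (L ^ N) := ⟨by omega⟩
    exact log_le hT hS hD hJ hβ h6 
      (pos_of_mul_pos_of_nonneg_left' h7 (sq_nonneg ((L ^ N : ℕ) : ℝ))))
  have h6 : 8 * π ^ 4 * β * J.card / (8 * π ^ 2 * J.card * varianceConst J) =
      β / (2 * varianceConst J) * (2 * π ^ 2) := by field_simp
  rw [h6] at h5
  exact (div_le_div_iff_of_pos_right (by positivity)).1 (le_of_mul_le_mul_right h5 (by positivity))

end Crest.Agent.T145.FS
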