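import Crest.Agent.T145.FsAsm_70
import Crest.Agent.T145.FsPh2_70
import Crest.Agent.T145.FsCmp_77
import Crest.Agent.T145.FsE0_80
import Crest.Agent.T145.FsE3_83
import Crest.Agent.T145.FsIni_6
import Crest.Agent.T145.FsOne_14
import Crest.Agent.T145.FsOsc_81
import Crest.Agent.T145.FsPh1_40
import Crest.Agent.T145.FsRat_66
import Crest.Agent.T145.FsRough_57
import Crest.Agent.T145.FsRsd_32
import Crest.Agent.T145.FsShift_15
import Crest.Agent.T145.FsSum_61
import Crest.Agent.T145.FsTor_44
import Crest.Agent.T145.FsTr_16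

/-! # Row 145 (e): everything assembled (helper70) -/

set_option autoImplicit false

namespace Crest.Agent.T145.FS

theorem fs_of (hL : LogStmt) : FSStmt :=
  fsStmt_of (trStmt hL shiftStmt extStmt (ratStmt (oneStmt extStmt)) gainStmt) ph1Stmt ph2Stmt
    (finStmt (oneStmt extStmt)) iniStmt

theorem e0_of (hL : LogStmt) : E0Stmt := e0Stmt (fs_of hL) sumStmt (rsdStmt sumStmt)

theorem rough_of (hL : LogStmt) : RoughStmt := roughStmt (e0_of hL) cmpStmt hL sumStmt

theorem e1_of (hL : LogStmt) : E1Stmt := e1Stmt (rough_of hL)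

theorem e2_of (hL : LogStmt) : E2Stmt := e2Stmt (rough_of hL)

theorem e3_of (hL : LogStmt) : E3Stmt :=
  e3Stmt (e0_of hL) cmpStmt (torStmt sumStmt) (pinStmt sumStmt) dblStmt sumStmt

theorem e4 : E4Stmt := e4Stmt (torStmt sumStmt) sumStmt dblStmt

end Crest.Agent.T145.FS
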