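import Crest.Agent.T145.FsBas_70

/-!
# Row 145, item (e): the translation step `TrStmt` (helper16)
-/

set_option autoImplicit false
set_option linter.unusedVariables false

namespace Crest.Agent.T145.FS

open MeasureTheory

namespace Tr16

variable {b : ℝ} {p j k : ℕ} {X Y : Finset P} {q : ℤ} {δ : ℝ} {G : Fld → ℂ}

theorem el_pos (hp : 1 ≤ p) (j : ℕ) : 1 ≤ el p j := one_le_pow₀ (by omega)

theorem el_mono (hp : 1 ≤ p) (h : k ≤ j) : el p k ≤ el p j := pow_le_pow_right₀ (by omega) h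

theorem el_succ (p j : ℕ) : el p (j + 1) = 24 * p * el p j := by rw [el, pow_succ, mul_comm]; rfl

theorem mem_sqb {z x : P} {R : ℤ} :
    x ∈ sqb z R ↔ (z.1 - R ≤ x.1 ∧ x.1 ≤ z.1 + R) ∧ z.2 - R ≤ x.2 ∧ x.2 ≤ z.2 + R := by
  simp only [sqb, Finset.mem_product, Finset.mem_Icc]

theorem mem_Q {m x : P} : x ∈ Q p j m ↔
    (el p j * m.1 - el p j ≤ x.1 ∧ x.1 < el p j * m.1 + el p j + el p j) ∧
      el p j * m.2 - el p j ≤ x.2 ∧ x.2 < el p j * m.2 + el p j + el p j := by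
  simp only [Q, enl, Finset.mem_product, Finset.mem_Ico]

theorem card_sqb (z : P) {R : ℤ} (hR : 0 ≤ R) : ((sqb z R).card : ℝ) = (2 * R + 1) ^ 2 := by
  rw [sqb, Finset.card_product, Int.card_Icc, Int.card_Icc,
    show z.1 + R + 1 - (z.1 - R) = 2 * R + 1 by ring, show z.2 + R + 1 - (z.2 - R) = 2 * R + 1 by ring]
  have h : ((2 * R + 1).toNat : ℝ) = 2 * R + 1 := by
    rw [← Int.cast_natCast, Int.toNat_of_nonneg (by omega)]; push_cast; ring
  rw [Nat.cast_mul, h, sq]

theorem sqb_sub (hp : 1 ≤ p) (j : ℕ) (m : P) :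
    sqb (cen p j m) ((p + 3) * el p j) ⊆ Q p (j + 1) (up p m) := by
  intro x hx
  have hl := el_pos hp j
  rw [mem_sqb] at hx
  rw [mem_Q, el_succ]
  simp only [cen, up] at *
  have hp' : (1 : ℤ) ≤ p := by exact_mod_cast hp
  generalize el p j = l at *
  have key : ∀ c y : ℤ, l * c - (p + 3) * l ≤ y → y ≤ l * c + (p + 3) * l →
      24 * p * l * (c / (24 * p)) - 24 * p * l ≤ y ∧
        y < 24 * p * l * (c / (24 * p)) + 24 * p * l + 24 * p * l := fun c y h1 h2 => by
    have e := Int.emod_add_mul_ediv c (24 * p)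
    have e1 := Int.emod_nonneg c (show (24 * (p : ℤ)) ≠ 0 by omega)
    have e2 := Int.emod_lt_of_pos c (show (0 : ℤ) < 24 * p by omega)
    generalize c / (24 * p) = d at *
    generalize c % (24 * p) = r at *
    subst e
    constructor <;> nlinarith [mul_nonneg e1 (zero_le_one.trans hl), mul_pos (sub_pos.2 e2) (zero_lt_one.trans_le hl),
      mul_nonneg (sub_nonneg.2 hp') (zero_le_one.trans hl)]
  exact ⟨key _ _ hx.1.1 hx.1.2, key _ _ hx.2.1 hx.2.2⟩

theorem w_nonneg (g : P → ℝ) (x : P) : 0 ≤ w g x := by unfold w; positivity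

theorem En_mono {X X' : Finset P} (h : X ⊆ X') (g : P → ℝ) : En X g ≤ En X' g :=
  Finset.sum_le_sum_of_subset_of_nonneg h fun x _ _ => w_nonneg g x

theorem hl_mono (hp : 1 ≤ p) (h : k ≤ j) : (hh b / (el p j : ℝ)) ^ 2 ≤ (hh b / (el p k : ℝ)) ^ 2 := by
  have h1 : (1 : ℝ) ≤ el p k := by exact_mod_cast el_pos hp k
  have h2 : (el p k : ℝ) ≤ el p j := by exact_mod_cast el_mono hp h
  rw [div_pow, div_pow]
  exact div_le_div_of_nonneg_left (sq_nonneg _) (by positivity) (by gcongr)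

theorem om_mono (hp : 1 ≤ p) (h : k ≤ j) {X X' : Finset P} (hX : X ⊆ X') {Φ : Fld}
    (hΦ : Φ ∈ Om b p j X') : Φ ∈ Om b p k X :=
  ⟨fun x hx => ⟨(hΦ.1 x (hX hx)).1, (hΦ.1 x (hX hx)).2.1,
    (hΦ.1 x (hX hx)).2.2.trans (hl_mono hp h)⟩,
    (En_mono hX _).trans (hΦ.2.trans (pow_le_pow_of_le_one (by norm_num) (by norm_num) h))⟩

theorem rl_mem (hb : 0 < b) (φ g : P → ℝ) : rl φ g ∈ Om b p j X := by
  have h0 : 0 ≤ h0 b p := by unfold h0 hh; positivity
  refine ⟨fun x _ => ?_, ?_⟩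
  · simp only [rl, Complex.ofReal_im, abs_zero, w, sub_self]
    exact ⟨h0, h0, by norm_num; positivity⟩
  · simp [rl, En, w]

theorem star_rl (φ g : P → ℝ) : star (rl φ g) = rl φ g := by
  ext x <;> simp [rl]

theorem star_mem {Φ : Fld} (h : Φ ∈ Om b p j X) : star Φ ∈ Om b p j X := by
  have e : ∀ (f : P → ℂ) x, w (fun y => (star f y).im) x = w (fun y => (f y).im) x := fun f x => by
    simp only [w, Pi.star_apply, Complex.star_def, Complex.conj_im]; ring
  refine ⟨fun x hx => ?_, ?_⟩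
  · simp only [Prod.fst_star, Prod.snd_star, e]
    simpa using h.1 x hx
  · simp only [Prod.snd_star, En, e]; exact h.2

theorem meas_star : Measurable (star : Fld → Fld) := continuous_star.measurable

theorem ob_cj (h : Ob b p j X Y q δ G) : Ob b p j X Y (-q) δ (cj G) where
  meas := continuous_star.measurable.comp (h.meas.comp meas_star)
  lh Φ hΦ Ψ := by
    have h1 := (h.lh _ (star_mem hΦ) (star Ψ))
    have h2 := h1.star_conj
    simp only [map_zero] at h2
    refine h2.congr_of_eventuallyEq (Filter.Eventually.of_forall fun s => ?_)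
    simp [cj, star_smul]
  bd Φ hΦ := by rw [cj, norm_star]; exact h.bd _ (star_mem hΦ)
  dep Φ Φ' hd := by
    rw [cj, cj, h.dep (star Φ) (star Φ') fun x hx => by simp [hd x hx]]
  cov1 Φ c := by
    have e : star ((fun x => Φ.1 x + c, Φ.2) : Fld) =
        (fun x => (star Φ).1 x + star c, (star Φ).2) := by ext x <;> simp
    rw [cj, cj, e, h.cov1, star_mul', Complex.star_def, ← Complex.exp_conj]
    simp
  cov2 Φ c := by
    have e : star ((Φ.1, fun x => Φ.2 x + c) : Fld) =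
        ((star Φ).1, fun x => (star Φ).2 x + star c) := by ext x <;> simp
    rw [cj, cj, e, h.cov2, star_mul', Complex.star_def, ← Complex.exp_conj]
    simp

theorem ob_cj0 (h : Ob b p j X Y 0 δ G) : Ob b p j X Y 0 δ (cj G) := by
  simpa using ob_cj h

theorem meas_fac (h : Ob b p j X Y q δ G) : Measurable (fac G) :=
  (measurable_const.add h.meas).add (ob_cj h).meas

theorem fac_dep (h : Ob b p j X Y q δ G) {Φ Φ' : Fld}
    (hd : ∀ x ∈ Y, Φ.1 x = Φ'.1 x ∧ Φ.2 x = Φ'.2 x) : fac G Φ = fac G Φ' := by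
  rw [fac, fac, h.dep _ _ hd, (ob_cj h).dep _ _ hd]

theorem fac_rl (G : Fld → ℂ) (φ g : P → ℝ) :
    fac G (rl φ g) = ((1 + 2 * (G (rl φ g)).re : ℝ) : ℂ) := by
  rw [fac, cj, star_rl, add_assoc, Complex.star_def, Complex.add_conj]; push_cast; ring

theorem fac_le {Φ : Fld} (h1 : ‖G Φ‖ ≤ δ) (h2 : ‖cj G Φ‖ ≤ δ) : ‖fac G Φ‖ ≤ 1 + 2 * δ := by
  refine (norm_add₃_le).trans ?_
  rw [norm_one]; linarith

theorem fac_ne {Φ : Fld} (h1 : ‖G Φ‖ ≤ δ) (h2 : ‖cj G Φ‖ ≤ δ) (hδ : δ < 1 / 2) : fac G Φ ≠ 0 := by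
  intro h
  have e : (1 : ℂ) = -(G Φ + cj G Φ) := by rw [fac] at h; linear_combination h
  have h3 := congrArg norm e
  rw [norm_one, norm_neg] at h3
  linarith [norm_add_le (G Φ) (cj G Φ)]

theorem fac_cov1 (h : Ob b p j X Y 0 δ G) (Φ : Fld) (c : ℂ) :
    fac G (fun x => Φ.1 x + c, Φ.2) = fac G Φ := by
  rw [fac, fac, h.cov1, (ob_cj0 h).cov1]; simp

theorem fac_cov2 (h : Ob b p j X Y 0 δ G) (Φ : Fld) (c : ℂ) :
    fac G (Φ.1, fun x => Φ.2 x + c) = fac G Φ := by
  rw [fac, fac, h.cov2, (ob_cj0 h).cov2]; simp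

/-- a neutral factor in the extended domain -/
theorem fac_ext (hE : ExtStmt) (hb : 0 < b) (hp : 1 ≤ p) {m : P}
    (h : Ob b p k (Q p k m) (Q p k m) 0 δ G) {Φ : Fld}
    (h1 : ∀ y ∈ Q p k m, w (fun y => (Φ.1 y).im) y ≤ (hh b / (el p k : ℝ)) ^ 2)
    (h2 : En (Q p k m) (fun y => (Φ.2 y).im) ≤ (1 / 4 : ℝ) ^ k) :
    ‖fac G Φ‖ ≤ 1 + 2 * δ ∧ ∀ Ψ : Fld, DifferentiableAt ℂ (fun s : ℂ => fac G (Φ + s • Ψ)) 0 := by
  have e1 := hE b p k m 0 δ G hb hp h Φ h1 h2 (Or.inl rfl)
  have e2 := hE b p k m 0 δ _ hb hp (ob_cj0 h) Φ h1 h2 (Or.inl rfl)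
  exact ⟨fac_le e1.1 e2.1, fun Ψ => ((differentiableAt_const _).add (e1.2 Ψ)).add (e2.2 Ψ)⟩

theorem meas_sh (a : P → ℝ) (s : ℂ) : Measurable (sh a s) := by
  unfold sh; fun_prop

theorem meas_bil (Z : Finset P) (a : P → ℝ) : Measurable fun Φ : Fld => bil Z a Φ.1 := by
  unfold bil; fun_prop

theorem meas_rl (Λ : Finset P) (g : P → ℝ) : Measurable fun φ : Λ → ℝ => rl (ext Λ φ) g := by
  refine Measurable.prodMk (measurable_pi_lambda _ fun x => ?_) measurable_const
  by_cases hx : x ∈ Λ <;> simp only [ext, hx, dite_true, dite_false] <;> fun_prop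

theorem KK_ge (hp : 1 ≤ p) : 4 ≤ KK p := by
  have h : (1 : ℝ) ≤ p := by exact_mod_cast hp
  unfold KK NN; nlinarith

theorem dl_small (hp : 1 ≤ p) {δ₀ : ℝ} (h0 : 0 ≤ δ₀) (h : KK p ^ 2 * δ₀ ≤ 1) (k : ℕ) :
    KK p * dl δ₀ k ≤ 1 / 4 := by
  have h1 := KK_ge hp
  have h2 : dl δ₀ k ≤ δ₀ := div_le_self h0 (one_le_pow₀ (by norm_num))
  have h3 : KK p * δ₀ ≤ 1 / 4 := by nlinarith [mul_nonneg (sub_nonneg.2 h1) (mul_nonneg (by linarith : 0 ≤ KK p) h0)]
  nlinarith

/-- the imaginary part of `bil` -/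
theorem bil_im_le {a : P → ℝ} {z : P} {R : ℤ} (ha : ∀ x ∉ sqb z R, a x = 0) (Z : Finset P)
    (f : P → ℂ) {θ c : ℝ} (hθ : 0 < θ) (hc : 0 ≤ c)
    (hf : ∀ x ∈ sqb z (R + 1), w (fun y => (f y).im) x ≤ c) :
    (bil Z a f).im ≤ θ * En Z a / 2 + (sqb z (R + 1)).card * c / (2 * θ) := by
  classical
  have h1 : (bil Z a f).im ≤ ∑ x ∈ Z, (θ * w a x / 2 + if x ∈ sqb z (R + 1) then c / (2 * θ) else 0) := by
    rw [bil, Complex.im_sum]
    refine Finset.sum_le_sum fun x _ => ?_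
    simp only [Complex.add_im, Complex.im_ofReal_mul, Complex.sub_im]
    split_ifs with hx
    · have h2 := hf x hx
      simp only [w] at h2 ⊢
      have key : ∀ u v : ℝ, u * v ≤ θ * u ^ 2 / 2 + v ^ 2 / (2 * θ) := fun u v => by
        have : θ * u ^ 2 / 2 + v ^ 2 / (2 * θ) - u * v = (θ * u - v) ^ 2 / (2 * θ) := by
          field_simp; ring
        have h3 : 0 ≤ (θ * u - v) ^ 2 / (2 * θ) := by positivity
        linarith
      have h4 := div_le_div_of_nonneg_right h2 (by positivity : (0 : ℝ) ≤ 2 * θ)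
      rw [add_div] at h4
      linarith [key (a (x + (1, 0)) - a x) ((f (x + (1, 0))).im - (f x).im),
        key (a (x + (0, 1)) - a x) ((f (x + (0, 1))).im - (f x).im)]
    · rw [mem_sqb] at hx
      rw [ha x (by rw [mem_sqb]; omega), ha _ (by rw [mem_sqb]; simp; omega),
        ha _ (by rw [mem_sqb]; simp; omega)]
      have := w_nonneg a x
      simp only [sub_self, zero_mul, add_zero]
      positivity
  refine h1.trans ?_
  rw [Finset.sum_add_distrib, ← Finset.sum_div, ← Finset.mul_sum, ← Finset.sum_filter,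
    Finset.sum_const, nsmul_eq_mul, mul_div_assoc ((sqb z (R + 1)).card : ℝ)]
  refine add_le_add le_rfl (mul_le_mul_of_nonneg_right ?_ (by positivity))
  exact_mod_cast Finset.card_le_card fun x hx => (Finset.mem_filter.1 hx).2

theorem bil_dep {a : P → ℝ} {z : P} {R : ℤ} (ha : ∀ x ∉ sqb z R, a x = 0) (Z : Finset P)
    {f f' : P → ℂ} (h : ∀ x ∈ sqb z (R + 2), f x = f' x) : bil Z a f = bil Z a f' := by
  refine Finset.sum_congr rfl fun x _ => ?_
  by_cases hx : x ∈ sqb z (R + 1)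
  · rw [mem_sqb] at hx
    rw [h x (by rw [mem_sqb]; omega), h _ (by rw [mem_sqb]; simp; omega),
      h _ (by rw [mem_sqb]; simp; omega)]
  · rw [mem_sqb] at hx
    rw [ha x (by rw [mem_sqb]; omega), ha _ (by rw [mem_sqb]; simp; omega),
      ha _ (by rw [mem_sqb]; simp; omega)]
    simp

/-- `Ig` of a real factor times `fac G` -/
theorem ig_fac {Λ : Finset P} (hI : Integrable (gw Λ b)) {W : Fld → ℂ} (hW : Tame W)
    (hG : Measurable G) (hδ : ∀ φ g, ‖G (rl φ g)‖ ≤ δ) (g : P → ℝ) :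
    Ig Λ b (fun Φ => W Φ * fac G Φ) g = Ig Λ b W g +
      2 * (∫ φ : Λ → ℝ, W (rl (ext Λ φ) g) * G (rl (ext Λ φ) g) * (gw Λ b φ : ℂ)).re := by
  obtain ⟨hm, ⟨C, hC⟩, hr⟩ := hW
  have i1 : Integrable fun φ : Λ → ℝ => (W (rl (ext Λ φ) g)).re * gw Λ b φ :=
    hI.bdd_mul (c := C) (Complex.measurable_re.comp (hm.comp (meas_rl Λ g))).aestronglyMeasurable
      (Filter.Eventually.of_forall fun φ => (Complex.abs_re_le_norm _).trans (hC _ _))
  have i2 : Integrable fun φ : Λ → ℝ =>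
      W (rl (ext Λ φ) g) * G (rl (ext Λ φ) g) * (gw Λ b φ : ℂ) :=
    hI.ofReal.bdd_mul (c := C * δ) ((hm.mul hG).comp (meas_rl Λ g)).aestronglyMeasurable
      (Filter.Eventually.of_forall fun φ => (norm_mul_le _ _).trans
        (mul_le_mul (hC _ _) (hδ _ _) (norm_nonneg _) ((norm_nonneg _).trans (hC (fun _ => 0) g))))
  have e := integral_re i2
  have i3 := i2.re.const_mul 2
  simp only [RCLike.re_to_complex] at e i3
  rw [← e, Ig, Ig, ← integral_const_mul, ← integral_add i1 i3]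
  refine integral_congr_ae (Filter.Eventually.of_forall fun φ => ?_)
  simp only [fac_rl, Complex.mul_re, hr,
    Complex.ofReal_re, Complex.ofReal_im]
  ring

set_option maxHeartbeats 1600000 in
theorem main (hL : LogStmt) (hS : ShiftStmt) (hE : ExtStmt) (hR : RatStmt) (hG : GainStmt) : TrStmt := by
  classical
  intro b hb8
  have hb : 0 < b := lt_trans (by positivity) hb8
  obtain ⟨C₁, hC₁, hL⟩ := hL
  obtain ⟨p, θ, hp3, hθ, hgain⟩ := hG b C₁ hb8
  have hp : 1 ≤ p := by omega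
  refine ⟨p, hp3, fun δ₀ hδ₀ hK Λ S j F hF m q δ G hq hG hΛ => ?_⟩
  have hl := el_pos hp j
  have hlR : (1 : ℝ) ≤ el p j := by exact_mod_cast hl
  have hpR : (3 : ℝ) ≤ p := by exact_mod_cast hp3
  have hpZ : (3 : ℤ) ≤ p := by exact_mod_cast hp3
  have hh0 : 0 < hh b := div_pos hb Real.pi_pos
  obtain ⟨a1, A1, A2, A3, A4⟩ := hL (cen p j m) (3 * el p j) (p * el p j) (by linarith)
    (by nlinarith)
  rw [mul_div_mul_right _ _ (by positivity)] at A1 A4
  set z := cen p j m with hz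
  set l := el p j with hldef
  set a : P → ℝ := fun x => hh b / 2 * a1 x with ha
  set a0 : ℝ := hh b / 2 * Real.log ((p : ℝ) / 3) with ha0
  have ha0p : 0 ≤ a0 := mul_nonneg (by positivity) (Real.log_nonneg (by linarith))
  have hwa : ∀ x, w a x = (hh b / 2) ^ 2 * w a1 x := fun x => by simp only [w, ha]; ring
  have F1 : ∀ x ∈ Q p j m, a x = a0 := fun x hx => by
    rw [mem_Q] at hx
    have h : (x.1 - z.1) ^ 2 + (x.2 - z.2) ^ 2 ≤ (3 * l) ^ 2 := by
      simp only [hz, cen, ← hldef] at hx ⊢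
      nlinarith [hx.1.1, hx.1.2, hx.2.1, hx.2.2]
    simp only [ha, ha0]
    rw [A1 x (by exact_mod_cast h)]
  have F2 : ∀ x ∉ sqb z (p * l), a x = 0 := fun x hx => by
    rw [mem_sqb] at hx
    have h : (p * l) ^ 2 ≤ (x.1 - z.1) ^ 2 + (x.2 - z.2) ^ 2 := by
      have h0 : 0 ≤ (p : ℤ) * l := by positivity
      generalize (p : ℤ) * l = R at *
      by_contra hc
      exact hx ⟨⟨by nlinarith [sq_nonneg (x.2 - z.2)], by nlinarith [sq_nonneg (x.2 - z.2)]⟩,
        by nlinarith [sq_nonneg (x.1 - z.1)], by nlinarith [sq_nonneg (x.1 - z.1)]⟩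
    simp only [ha]
    rw [A2 x (by exact_mod_cast h), mul_zero]
  have F3 : ∀ x, w a x ≤ (hh b / (l : ℝ)) ^ 2 / 18 := fun x => by
    rw [hwa]
    refine (mul_le_mul_of_nonneg_left (A3 x) (sq_nonneg _)).trans_eq ?_
    field_simp; ring
  have F4 : D Λ a ≤ (hh b / 2) ^ 2 * (2 * Real.pi * Real.log ((p : ℝ) / 3) + C₁) := by
    simp only [D, En, hwa, ← Finset.mul_sum]
    exact mul_le_mul_of_nonneg_left (A4 _) (sq_nonneg _)
  have F5 : sqb z ((p + 3) * l) ⊆ Q p (j + 1) (up p m) := sqb_sub hp j m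
  have sq_mono : ∀ {R R' : ℤ}, R ≤ R' → sqb z R ⊆ sqb z R' := fun h x hx => by
    rw [mem_sqb] at *; omega
  have F6 : Q p j m ⊆ sqb z ((p + 3) * l) := fun x hx => by
    rw [mem_Q] at hx
    rw [mem_sqb]
    simp only [hz, cen, ← hldef] at hx ⊢
    refine ⟨⟨?_, ?_⟩, ?_, ?_⟩ <;> nlinarith [hx.1.1, hx.1.2, hx.2.1, hx.2.2]
  set M : ℕ → Finset P := fun k => S.filter fun m' => ∃ y ∈ Q p k m', y ∈ sqb z (p * l) with hM
  have M1 : ∀ k ≤ j, ∀ m' ∈ M k, Q p k m' ⊆ sqb z ((p + 3) * l) := fun k hk m' hm' x hx => by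
    obtain ⟨y, hy, hy'⟩ := (Finset.mem_filter.1 hm').2
    have h1 := el_mono hp hk
    rw [mem_Q] at hx hy
    rw [mem_sqb] at *
    rw [add_mul]
    omega
  have M2 : ∀ k ≤ j, ∀ m' ∈ M k,
      Ob b p k (Q p k m') (Q p k m') 0 (KK p * dl δ₀ k) (F k m') := fun k hk m' hm' => by
    obtain ⟨q', h1, h2⟩ := hF k hk m' (Finset.mem_filter.1 hm').1
    rcases h2 with rfl | h2
    · exact h1
    · exact absurd (((M1 k hk m' hm').trans F5).trans hΛ) h2
  have M3 : ∀ k ≤ j, ∀ m' ∈ S, m' ∉ M k → ∀ s Φ, fac (F k m') (sh a s Φ) = fac (F k m') Φ :=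
    fun k hk m' hm' hn s Φ => by
      obtain ⟨q', h1, -⟩ := hF k hk m' hm'
      refine fac_dep h1 fun x hx => ⟨?_, rfl⟩
      have : a x = 0 := F2 x fun h => hn (Finset.mem_filter.2 ⟨hm', x, hx, h⟩)
      simp [sh, this]
  have rg : ∀ {k}, k ∈ Finset.range (j + 1) → k ≤ j := fun h =>
    Nat.lt_succ_iff.1 (Finset.mem_range.1 h)
  have hne : ∀ k ≤ j, ∀ m' ∈ M k, ∀ Φ ∈ Om b p k (Q p k m'), fac (F k m') Φ ≠ 0 :=
    fun k hk m' hm' Φ hΦ => fac_ne ((M2 k hk m' hm').bd Φ hΦ) ((ob_cj (M2 k hk m' hm')).bd Φ hΦ)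
      ((dl_small hp hδ₀ hK k).trans_lt (by norm_num))
  have hGs : ∀ s Φ, G (sh a s Φ) = Complex.exp (Complex.I * q * (s * a0)) * G Φ := fun s Φ => by
    rw [← hG.cov1]
    exact hG.dep _ _ fun x hx => ⟨by simp only [sh, F1 x hx], rfl⟩
  have hδ : 0 ≤ δ := (norm_nonneg _).trans (hG.bd _ (rl_mem hb 0 0))
  set Rt : Fld → ℂ := fun Φ => ∏ k ∈ Finset.range (j + 1), ∏ m' ∈ M k,
    fac (F k m') (sh a Complex.I Φ) / fac (F k m') Φ with hRt
  set G' : Fld → ℂ := fun Φ => Complex.exp (Complex.I * q * (Complex.I * a0)) *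
    Complex.exp (-Complex.I * bil (halo Λ) a Φ.1 / b + (D Λ a / (2 * b) : ℝ)) * G Φ * Rt Φ with hG'
  have hOb : Ob b p (j + 1) (Q p (j + 1) (up p m)) (sqb z ((p + 3) * l)) q (δ / KK p) G' := by
    refine ⟨?_, fun Φ hΦ Ψ => ?_, fun Φ hΦ => ?_, fun Φ Φ' hd => ?_, fun Φ c => ?_, fun Φ c => ?_⟩
    · refine ((measurable_const.mul (Complex.measurable_exp.comp
        ((((meas_bil _ a).const_mul _).div_const _).add_const _))).mul hG.meas).mul ?_
      exact Finset.measurable_prod _ fun k hk => Finset.measurable_prod _ fun m' hm' =>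
        ((meas_fac (M2 k (rg hk) m' hm')).comp (meas_sh a _)).div (meas_fac (M2 k (rg hk) m' hm'))
    · refine (((differentiableAt_const _).mul ?_).mul
        (hG.lh Φ (om_mono hp (Nat.le_succ j) (F6.trans F5) hΦ) Ψ)).mul ?_
      · simp only [bil, Prod.fst_add, Prod.smul_fst, Pi.add_apply, Pi.smul_apply, smul_eq_mul]
        fun_prop
      refine DifferentiableAt.fun_finsetProd fun k hk =>
        DifferentiableAt.fun_finsetProd fun m' hm' => ?_
      have hQ := (M1 k (rg hk) m' hm').trans F5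
      have hΦ' := om_mono hp ((rg hk).trans (Nat.le_succ j)) hQ hΦ
      refine DifferentiableAt.div ?_ ((fac_ext hE hb hp (M2 k (rg hk) m' hm')
        (fun y hy => (hΦ'.1 y hy).2.2) hΦ'.2).2 Ψ) (by simpa using hne k (rg hk) m' hm' Φ hΦ')
      have e : ∀ s : ℂ, sh a Complex.I (Φ + s • Ψ) = sh a Complex.I Φ + s • Ψ := fun s => by
        ext x <;> simp [sh, add_right_comm]
      simp only [e]
      refine (fac_ext hE hb hp (M2 k (rg hk) m' hm') (Φ := sh a Complex.I Φ) (fun y hy => ?_)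
        hΦ'.2).2 Ψ
      refine le_trans ?_ (hl_mono hp (rg hk))
      have h1 := (hΦ.1 y (hQ hy)).2.2
      have h2 := F3 y
      have h3 : (hh b / (el p (j + 1) : ℝ)) ^ 2 ≤ (hh b / (l : ℝ)) ^ 2 / 4 := by
        rw [el_succ, ← hldef, div_pow, div_pow, div_div]
        push_cast
        have h4 := mul_le_mul_of_nonneg_right (show (4 : ℝ) ≤ (24 * p) ^ 2 by nlinarith)
          (sq_nonneg (l : ℝ))
        exact div_le_div_of_nonneg_left (sq_nonneg _) (by positivity) (by nlinarith)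
      simp only [w, sh, Complex.add_im, Complex.I_mul_im, Complex.ofReal_re] at h1 h2 ⊢
      nlinarith [sq_nonneg ((Φ.1 (y + (1, 0))).im - (Φ.1 y).im - (a (y + (1, 0)) - a y)),
        sq_nonneg ((Φ.1 (y + (0, 1))).im - (Φ.1 y).im - (a (y + (0, 1)) - a y)),
        sq_nonneg (hh b / (l : ℝ))]
    · have b1 := hR b p j δ₀ (up p m) M F a hb hp hδ₀ hK
        (fun k hk m' hm' => ⟨M2 k hk m' hm', (M1 k hk m' hm').trans F5⟩) F3 Φ hΦ
      have b2 := hG.bd Φ (om_mono hp (Nat.le_succ j) (F6.trans F5) hΦ)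
      have b3 := bil_im_le F2 (halo Λ) Φ.1 hθ (sq_nonneg (hh b / (el p (j + 1) : ℝ)))
        fun x hx => (hΦ.1 x (F5 (sq_mono (by nlinarith) hx))).2.2
      have b4 : ((sqb z (p * l + 1)).card : ℝ) * (hh b / (el p (j + 1) : ℝ)) ^ 2 ≤ hh b ^ 2 := by
        rw [card_sqb z (by positivity), el_succ, ← hldef, div_pow, ← mul_div_assoc,
          div_le_iff₀ (by positivity), mul_comm]
        push_cast
        gcongr
        nlinarith
      have b5 : (bil (halo Λ) a Φ.1).im ≤ θ * D Λ a / 2 + hh b ^ 2 / (2 * θ) :=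
        b3.trans (add_le_add le_rfl (div_le_div_of_nonneg_right b4 (by positivity)))
      have hqR : (1 : ℝ) ≤ q := by exact_mod_cast hq
      have b6 : ‖Complex.exp (Complex.I * q * (Complex.I * a0)) *
          Complex.exp (-Complex.I * bil (halo Λ) a Φ.1 / b + (D Λ a / (2 * b) : ℝ))‖ ≤
          Real.exp (-(hh b / 2) * Real.log ((p : ℝ) / 3) +
            (1 + θ) * (hh b / 2) ^ 2 * (2 * Real.pi * Real.log ((p : ℝ) / 3) + C₁) / (2 * b) +
            hh b ^ 2 / (2 * θ * b)) := by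
        rw [← Complex.exp_add, Complex.norm_exp, Real.exp_le_exp]
        have e : (Complex.I * q * (Complex.I * a0) +
            (-Complex.I * bil (halo Λ) a Φ.1 / b + (D Λ a / (2 * b) : ℝ))).re =
            -(q * a0) + ((bil (halo Λ) a Φ.1).im / b + D Λ a / (2 * b)) := by
          simp only [Complex.add_re, Complex.div_ofReal_re, Complex.ofReal_re]
          simp
        rw [e, neg_mul, ← ha0]
        have c1 := div_le_div_of_nonneg_right b5 hb.le
        have c2 : (θ * D Λ a / 2 + hh b ^ 2 / (2 * θ)) / b + D Λ a / (2 * b) =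
            (1 + θ) * D Λ a / (2 * b) + hh b ^ 2 / (2 * θ * b) := by field_simp; ring
        have c3 := div_le_div_of_nonneg_right (mul_le_mul_of_nonneg_left F4
          (by linarith : 0 ≤ 1 + θ)) (by positivity : (0 : ℝ) ≤ 2 * b)
        rw [← mul_assoc] at c3
        nlinarith
      have hKp : 0 < KK p := by linarith [KK_ge hp]
      simp only [hG']
      rw [norm_mul, norm_mul, le_div_iff₀ hKp]
      refine (mul_le_mul_of_nonneg_right (mul_le_mul (mul_le_mul b6 b2 (norm_nonneg _)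
        (Real.exp_pos _).le) b1 (norm_nonneg _) (by positivity)) hKp.le).trans ?_
      nlinarith [mul_le_mul_of_nonneg_left hgain hδ]
    · simp only [hG', hRt]
      rw [bil_dep F2 (halo Λ) fun x hx => (hd x (sq_mono (by nlinarith) hx)).1,
        hG.dep _ _ fun x hx => hd x (F6 hx)]
      congr 1
      refine Finset.prod_congr rfl fun k hk => Finset.prod_congr rfl fun m' hm' => ?_
      have hQ := M1 k (rg hk) m' hm'
      rw [fac_dep (M2 k (rg hk) m' hm') fun x hx => hd x (hQ hx),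
        fac_dep (Φ := sh a Complex.I Φ) (Φ' := sh a Complex.I Φ') (M2 k (rg hk) m' hm')
          fun x hx => by simp only [sh, hd x (hQ hx), and_self]]
    · have e1 : bil (halo Λ) a (fun x => Φ.1 x + c) = bil (halo Λ) a Φ.1 := by simp [bil]
      have e2 : Rt (fun x => Φ.1 x + c, Φ.2) = Rt Φ := by
        refine Finset.prod_congr rfl fun k hk => Finset.prod_congr rfl fun m' hm' => ?_
        rw [fac_cov1 (M2 k (rg hk) m' hm'), ← fac_cov1 (M2 k (rg hk) m' hm') (sh a _ Φ) c]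
        simp only [sh, add_right_comm]
      simp only [hG', e1, e2, hG.cov1]
      ring
    · have e2 : Rt (Φ.1, fun x => Φ.2 x + c) = Rt Φ := by
        refine Finset.prod_congr rfl fun k hk => Finset.prod_congr rfl fun m' hm' => ?_
        rw [fac_cov2 (M2 k (rg hk) m' hm'), ← fac_cov2 (M2 k (rg hk) m' hm') (sh a _ Φ) c]
        simp only [sh]
      simp only [hG', e2, hG.cov2]
      ring
  refine ⟨G', hOb, fun X hX hXa g => ?_⟩
  -- the frozen factors along the line `φ + s a`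
  have hfac : ∀ k ≤ j, ∀ m' ∈ S, ∀ (φ : P → ℝ) (s : ℂ), |s.im| < 3 / 2 →
      ‖fac (F k m') (sh a s (rl φ g))‖ ≤ 2 ∧
      DifferentiableAt ℂ (fun s => fac (F k m') (sh a s (rl φ g))) s := fun k hk m' hm' φ s hs => by
    have hd := dl_small hp hδ₀ hK k
    by_cases hn : m' ∈ M k
    · have h := fac_ext hE hb hp (M2 k hk m' hn) (Φ := sh a s (rl φ g)) (fun y hy => ?_)
        (by simp [sh, rl, En, w])
      · refine ⟨h.1.trans (by linarith), ?_⟩
        have h3 := h.2 ((fun x => (a x : ℂ)), 0)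
        rw [← sub_self s] at h3
        have h2 := DifferentiableAt.comp (f := fun t : ℂ => t - s) s h3 (by fun_prop)
        refine h2.congr_of_eventuallyEq (Filter.Eventually.of_forall fun t => ?_)
        simp only [Function.comp_apply]
        congr 1
        ext x <;> simp [sh]
        ring
      refine le_trans ?_ (hl_mono hp hk)
      have h2 := F3 y
      have h3 : w (fun y => ((sh a s (rl φ g)).1 y).im) y = s.im ^ 2 * w a y := by
        simp only [w, sh, rl, Complex.add_im, Complex.ofReal_im, Complex.im_mul_ofReal]; ring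
      have h4 : s.im ^ 2 ≤ (3 / 2) ^ 2 := sq_le_sq' (abs_lt.1 hs).1.le (abs_lt.1 hs).2.le
      rw [h3]
      nlinarith [w_nonneg a y, sq_nonneg (hh b / (l : ℝ))]
    · simp only [M3 k hk m' hm' hn]
      obtain ⟨q', h1, -⟩ := hF k hk m' hm'
      exact ⟨(fac_le (h1.bd _ (rl_mem hb _ _)) ((ob_cj h1).bd _ (rl_mem hb _ _))).trans
        (by linarith), differentiableAt_const _⟩
  have hFb : ∀ (φ : P → ℝ) (s : ℂ), |s.im| < 3 / 2 →
      ‖FW S j F (sh a s (rl φ g))‖ ≤ ∏ k ∈ Finset.range (j + 1), ∏ m' ∈ S, (2 : ℝ) :=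
    fun φ s hs => by
      simp only [FW, norm_prod]
      exact Finset.prod_le_prod (fun _ _ => Finset.prod_nonneg fun _ _ => norm_nonneg _)
        fun k hk => Finset.prod_le_prod (fun _ _ => norm_nonneg _)
          fun m' hm' => (hfac k (rg hk) m' hm' φ s hs).1
  have hFm : Measurable (FW S j F) :=
    Finset.measurable_prod _ fun k hk => Finset.measurable_prod _ fun m' hm' =>
      meas_fac (hF k (rg hk) m' hm').choose_spec.1
  have hXs : ∀ s Φ, X (sh a s Φ) = X Φ := fun s Φ =>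
    hXa Φ (fun x => s * (a x : ℂ)) fun x hx => by simp [F2 x hx]
  obtain ⟨hXm, ⟨C, hC⟩, hXr⟩ := hX
  have hC0 : 0 ≤ C := (norm_nonneg _).trans (hC 0 0)
  have hT : Tame fun Φ => FW S j F Φ * X Φ := by
    refine ⟨hFm.mul hXm, ⟨(∏ k ∈ Finset.range (j + 1), ∏ m' ∈ S, (2 : ℝ)) * C, fun φ g' => ?_⟩,
      fun φ g' => ?_⟩
    · refine (norm_mul_le _ _).trans (mul_le_mul ?_ (hC _ _) (norm_nonneg _) (by positivity))
      simp only [FW, norm_prod]
      refine Finset.prod_le_prod (fun _ _ => Finset.prod_nonneg fun _ _ => norm_nonneg _)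
        fun k hk => Finset.prod_le_prod (fun _ _ => norm_nonneg _) fun m' hm' => ?_
      obtain ⟨q', h1, -⟩ := hF k (rg hk) m' hm'
      exact (fac_le (h1.bd _ (rl_mem hb _ _)) ((ob_cj h1).bd _ (rl_mem hb _ _))).trans
        (by linarith [dl_small hp hδ₀ hK k])
    · simp only [FW, fac_rl, ← Complex.ofReal_prod, Complex.im_ofReal_mul, hXr, mul_zero]
  rw [ig_fac (integrable_gw Λ hb) hT hG.meas (fun _ _ => hG.bd _ (rl_mem hb _ _)),
    ig_fac (integrable_gw Λ hb) hT hOb.meas fun _ _ => hOb.bd _ (rl_mem hb _ _)]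
  congr 3
  have key := hS Λ b a (fun φ => FW S j F (φ, fun x => (g x : ℂ)) * X (φ, fun x => (g x : ℂ)) *
      G (φ, fun x => (g x : ℂ)))
    ((∏ k ∈ Finset.range (j + 1), ∏ m' ∈ S, (2 : ℝ)) * C * (Real.exp (q * (3 / 2) * a0) * δ)) hb
    (fun x hx => F2 x fun h => hx (hΛ (F5 (sq_mono (by nlinarith) h))))
    (((hFm.mul hXm).mul hG.meas).comp measurable_prodMk_right) (fun φ s hs => ?_)
    fun φ s hs => ?_
  · refine key.trans (integral_congr_ae (Filter.Eventually.of_forall fun φ => ?_))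
    change FW S j F (sh a Complex.I (rl (ext Λ φ) g)) * X (sh a Complex.I (rl (ext Λ φ) g)) *
      G (sh a Complex.I (rl (ext Λ φ) g)) * _ * _ = _
    have e : FW S j F (sh a Complex.I (rl (ext Λ φ) g)) =
        FW S j F (rl (ext Λ φ) g) * Rt (rl (ext Λ φ) g) := by
      simp only [FW, hRt, ← Finset.prod_mul_distrib]
      refine Finset.prod_congr rfl fun k hk => ?_
      rw [hM, Finset.prod_filter, ← Finset.prod_mul_distrib]
      refine Finset.prod_congr rfl fun m' hm' => ?_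
      split_ifs with h
      · rw [mul_div_cancel₀ _ (hne k (rg hk) m' (Finset.mem_filter.2 ⟨hm', h⟩) _ (rl_mem hb _ _))]
      · rw [mul_one, M3 k (rg hk) m' hm' fun h' => h (Finset.mem_filter.1 h').2]
    rw [e, hXs, hGs]
    simp only [hG', rl]
    ring
  · refine DifferentiableAt.differentiableWithinAt ?_
    change DifferentiableAt ℂ (fun s => FW S j F (sh a s (rl φ g)) * X (sh a s (rl φ g)) *
      G (sh a s (rl φ g))) s
    simp only [hXs, hGs]
    refine (DifferentiableAt.mul_const ?_ _).mul (by fun_prop)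
    exact DifferentiableAt.fun_finsetProd fun k hk =>
      DifferentiableAt.fun_finsetProd fun m' hm' => (hfac k (rg hk) m' hm' φ s hs).2
  · change ‖FW S j F (sh a s (rl φ g)) * X (sh a s (rl φ g)) * G (sh a s (rl φ g))‖ ≤ _
    rw [hXs, hGs, norm_mul, norm_mul, norm_mul, Complex.norm_exp]
    have hqR : (1 : ℝ) ≤ q := by exact_mod_cast hq
    have e : (Complex.I * q * (s * a0)).re ≤ q * (3 / 2) * a0 := by
      have : (Complex.I * q * (s * a0)).re = q * (-s.im) * a0 := by simp; ring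
      rw [this]
      gcongr
      linarith [(abs_lt.1 hs).1]
    gcongr
    · exact hFb φ s hs
    · exact hC _ _
    · exact hG.bd _ (rl_mem hb _ _)

end Tr16

theorem trStmt (hL : LogStmt) (hS : ShiftStmt) (hE : ExtStmt) (hR : RatStmt) (hG : GainStmt) :
    TrStmt := Tr16.main hL hS hE hR hG

end Crest.Agent.T145.FS
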