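import Crest.Agent.T145.GsA_85
import Crest.Agent.T145.ApiT_98

/-!
# Row 145 (helper19): the two-replica bound for Gaussian shifts (abstract part of `HiStmt`)
-/

set_option autoImplicit false
set_option linter.unusedVariables false

namespace Crest.Agent.T145.Hi19

open MeasureTheory Matrix Finset Crest.Agent.T145.Gs

variable {ι : Type*} [Fintype ι] [DecidableEq ι]

/-- Cameron-Martin density of the standard Gaussian -/
noncomputable def ed (h x : ι → ℝ) : ℝ := Real.exp (h ⬝ᵥ x - h ⬝ᵥ h / 2)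

theorem shift (h : ι → ℝ) (F : (ι → ℝ) → ℝ) :
    ∫ x, F (x + h) ∂(sg ι) = ∫ x, ed h x * F x ∂(sg ι) := by
  have := integral_shift (C := (1 : Matrix ι ι ℝ)) PosSemidef.one h F
  simpa [gm_one, cmd, ed] using this

theorem int_shift' (h : ι → ℝ) (F : (ι → ℝ) → ℝ) :
    Integrable (fun x => F (x + h)) (sg ι) ↔ Integrable (fun x => ed h x * F x) (sg ι) := by
  have := int_shift (C := (1 : Matrix ι ι ℝ)) PosSemidef.one h F
  simpa [gm_one, cmd, ed] using this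

omit [DecidableEq ι] in
theorem ed_mul (v v' x : ι → ℝ) : ed v x * ed v' x = Real.exp (v ⬝ᵥ v') * ed (v + v') x := by
  simp only [ed, ← Real.exp_add, add_dotProduct, dotProduct_add]
  congr 1
  rw [dotProduct_comm v' v]; ring

/-- the dominating function -/
noncomputable def ch (n x : ι → ℝ) : ℝ := Real.exp (n ⬝ᵥ x) + Real.exp ((-n) ⬝ᵥ x)

omit [DecidableEq ι] in
theorem int_ch (n : ι → ℝ) : Integrable (ch n) (sg ι) := (int_exp_sg n).add (int_exp_sg (-n))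

theorem integral_ch (n : ι → ℝ) : ∫ x, ch n x ∂(sg ι) = 2 * Real.exp (n ⬝ᵥ n / 2) := by
  have h1 := mgf (C := (1 : Matrix ι ι ℝ)) PosSemidef.one n
  have h2 := mgf (C := (1 : Matrix ι ι ℝ)) PosSemidef.one (-n)
  rw [gm_one] at h1 h2
  unfold ch
  rw [integral_add (int_exp_sg n) (int_exp_sg (-n)), h1, h2]
  simp
  ring

theorem abs_le_exp (y : ℝ) : |y| ≤ Real.exp y + Real.exp (-y) := by
  have h1 := Real.add_one_le_exp y
  have h2 := Real.add_one_le_exp (-y)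
  have h3 := Real.exp_pos y
  have h4 := Real.exp_pos (-y)
  rw [abs_le]; constructor <;> linarith

theorem sq_le_exp (y : ℝ) : y ^ 2 ≤ 2 * (Real.exp y + Real.exp (-y)) := by
  have h3 := Real.exp_pos y
  have h4 := Real.exp_pos (-y)
  rcases le_total 0 y with h | h
  · have := Real.quadratic_le_exp_of_nonneg h
    linarith
  · have := Real.quadratic_le_exp_of_nonneg (neg_nonneg.2 h)
    nlinarith

omit [DecidableEq ι] in
theorem abs_le_ch (n x : ι → ℝ) : |n ⬝ᵥ x| ≤ ch n x := by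
  simpa [ch] using abs_le_exp (n ⬝ᵥ x)

omit [DecidableEq ι] in
theorem sq_le_ch (n x : ι → ℝ) : (n ⬝ᵥ x) ^ 2 ≤ 2 * ch n x := by
  simpa [ch] using sq_le_exp (n ⬝ᵥ x)

omit [DecidableEq ι] in
theorem quad_le (n x : ι → ℝ) {p q P : ℝ} (hp : |p| ≤ P) (hq : |q| ≤ P) :
    |(n ⬝ᵥ x + p) * (n ⬝ᵥ x + q)| ≤ 4 * ch n x + 2 * P ^ 2 := by
  have h := sq_le_ch n x
  have hP : 0 ≤ P := (abs_nonneg _).trans hp
  have h1 : |n ⬝ᵥ x + p| ≤ |n ⬝ᵥ x| + P := (abs_add_le _ _).trans (by linarith)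
  have h2 : |n ⬝ᵥ x + q| ≤ |n ⬝ᵥ x| + P := (abs_add_le _ _).trans (by linarith)
  rw [abs_mul]
  have h3 := mul_le_mul h1 h2 (abs_nonneg _) (by positivity)
  have h4 : |n ⬝ᵥ x| ^ 2 = (n ⬝ᵥ x) ^ 2 := sq_abs _
  nlinarith [sq_nonneg (|n ⬝ᵥ x| - P)]

omit [DecidableEq ι] in
theorem int_quad (n : ι → ℝ) (p q : ℝ) :
    Integrable (fun x => (n ⬝ᵥ x + p) * (n ⬝ᵥ x + q)) (sg ι) := by
  refine Integrable.mono' (((int_ch n).const_mul 4).add (integrable_const (2 * (max |p| |q|) ^ 2)))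
    (Continuous.aestronglyMeasurable ?_) (Filter.Eventually.of_forall fun x => ?_)
  · have := cont_dot n
    fun_prop
  · exact quad_le n x (le_max_left _ _) (le_max_right _ _)

/-- the common bracket -/
noncomputable def br (n : ι → ℝ) (p q : ℝ) : ℝ := ∫ x, (n ⬝ᵥ x + p) * (n ⬝ᵥ x + q) ∂(sg ι)

theorem abs_br_le (n : ι → ℝ) {p q P : ℝ} (hp : |p| ≤ P) (hq : |q| ≤ P) :
    |br n p q| ≤ 8 * Real.exp (n ⬝ᵥ n / 2) + 2 * P ^ 2 := by
  have h := norm_integral_le_of_norm_le (μ := sg ι)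
    (f := fun x => (n ⬝ᵥ x + p) * (n ⬝ᵥ x + q))
    (((int_ch n).const_mul 4).add (integrable_const (2 * P ^ 2)))
    (Filter.Eventually.of_forall fun x => quad_le n x hp hq)
  rw [Real.norm_eq_abs] at h
  refine h.trans (le_of_eq ?_)
  simp only [Pi.add_apply]
  rw [integral_add ((int_ch n).const_mul 4) (integrable_const _), integral_const_mul, integral_ch]
  simp
  ring

theorem pair_int (n v v' : ι → ℝ) (c c' : ℝ) :
    Integrable (fun x => ((n ⬝ᵥ x - c) * ed v x) * ((n ⬝ᵥ x - c') * ed v' x)) (sg ι) ∧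
      ∫ x, ((n ⬝ᵥ x - c) * ed v x) * ((n ⬝ᵥ x - c') * ed v' x) ∂(sg ι) =
        Real.exp (v ⬝ᵥ v') * br n (n ⬝ᵥ v + n ⬝ᵥ v' - c) (n ⬝ᵥ v + n ⬝ᵥ v' - c') := by
  have e : ∀ x, ((n ⬝ᵥ x - c) * ed v x) * ((n ⬝ᵥ x - c') * ed v' x) =
      Real.exp (v ⬝ᵥ v') * (ed (v + v') x * ((n ⬝ᵥ x - c) * (n ⬝ᵥ x - c'))) := fun x => by
    rw [← mul_assoc (Real.exp _), ← ed_mul]; ring
  have e2 : ∀ x : ι → ℝ, (n ⬝ᵥ (x + (v + v')) - c) * (n ⬝ᵥ (x + (v + v')) - c') =
      (n ⬝ᵥ x + (n ⬝ᵥ v + n ⬝ᵥ v' - c)) * (n ⬝ᵥ x + (n ⬝ᵥ v + n ⬝ᵥ v' - c')) := fun x => by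
    simp only [dotProduct_add]; ring
  simp only [e]
  constructor
  · refine Integrable.const_mul ?_ _
    rw [← int_shift' (v + v') fun x => (n ⬝ᵥ x - c) * (n ⬝ᵥ x - c')]
    simp only [e2]
    exact int_quad n _ _
  · rw [integral_const_mul, ← shift (v + v') fun x => (n ⬝ᵥ x - c) * (n ⬝ᵥ x - c')]
    simp only [e2, br]

omit [DecidableEq ι] in
theorem lin_le (n : ι → ℝ) (t : ℝ) {G : (ι → ℝ) → ℝ} (h1 : ∀ x, |G x| ≤ 1) (v x : ι → ℝ) :
    |(n ⬝ᵥ x - t) * G (x + v)| ≤ ch n x + |t| := by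
  rw [abs_mul]
  have := abs_le_ch n x
  have h2 : |n ⬝ᵥ x - t| ≤ ch n x + |t| := (abs_sub _ _).trans (by linarith)
  exact (mul_le_mul h2 (h1 _) (abs_nonneg _) ((abs_nonneg _).trans h2)).trans_eq (mul_one _)

omit [DecidableEq ι] in
theorem lin_int (n : ι → ℝ) (t : ℝ) {G : (ι → ℝ) → ℝ} (hG : Measurable G) (h1 : ∀ x, |G x| ≤ 1)
    (v : ι → ℝ) : Integrable (fun x => (n ⬝ᵥ x - t) * G (x + v)) (sg ι) := by
  refine Integrable.mono' ((int_ch n).add (integrable_const |t|)) (Measurable.aestronglyMeasurable ?_)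
    (Filter.Eventually.of_forall fun x => lin_le n t h1 v x)
  exact ((cont_dot n).measurable.sub measurable_const).mul (hG.comp (measurable_add_const v))

/-- the noisy observation of `v`, tested against `G` -/
noncomputable def ob (n : ι → ℝ) (G : (ι → ℝ) → ℝ) (t : ℝ) (v : ι → ℝ) : ℝ :=
  ∫ x, (n ⬝ᵥ x - t) * G (x + v) ∂(sg ι)

theorem abs_ob_le (n : ι → ℝ) (t : ℝ) {G : (ι → ℝ) → ℝ} (h1 : ∀ x, |G x| ≤ 1) (v : ι → ℝ) :
    |ob n G t v| ≤ 2 * Real.exp (n ⬝ᵥ n / 2) + |t| := by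
  have h := norm_integral_le_of_norm_le (μ := sg ι) (f := fun x => (n ⬝ᵥ x - t) * G (x + v))
    ((int_ch n).add (integrable_const |t|))
    (Filter.Eventually.of_forall fun x => lin_le n t h1 v x)
  rw [Real.norm_eq_abs] at h
  refine h.trans (le_of_eq ?_)
  simp only [Pi.add_apply]
  rw [integral_add (int_ch n) (integrable_const _), integral_ch]
  simp

theorem ob_eq (n : ι → ℝ) (t : ℝ) {G : (ι → ℝ) → ℝ} (hG : Measurable G) (h1 : ∀ x, |G x| ≤ 1)
    (v : ι → ℝ) {c : ℝ} (hc : c = n ⬝ᵥ v + t) :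
    Integrable (fun x => G x * ((n ⬝ᵥ x - c) * ed v x)) (sg ι) ∧
      ob n G t v = ∫ x, G x * ((n ⬝ᵥ x - c) * ed v x) ∂(sg ι) := by
  have e : ∀ x : ι → ℝ, (n ⬝ᵥ x - t) * G (x + v) = (n ⬝ᵥ (x + v) - c) * G (x + v) := fun x => by
    rw [hc, dotProduct_add]; ring
  have e2 : ∀ x : ι → ℝ, G x * ((n ⬝ᵥ x - c) * ed v x) = ed v x * ((n ⬝ᵥ x - c) * G x) :=
    fun x => by ring
  simp only [e2]
  constructor
  · rw [← int_shift' v fun x => (n ⬝ᵥ x - c) * G x]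
    simp only [← e]
    exact lin_int n t hG h1 v
  · rw [← shift v fun x => (n ⬝ᵥ x - c) * G x]
    simp only [ob, e]

/-- two replicas, finite sums -/
theorem two_rep {α : Type*} (S : Finset α) (p : α → ℝ) (n : ι → ℝ) (v w : α → ι → ℝ) (t : α → ℝ)
    {G : (ι → ℝ) → ℝ} (hG : Measurable G) (h1 : ∀ x, |G x| ≤ 1)
    (hn : ∀ s, n ⬝ᵥ w s = n ⬝ᵥ v s) (hvw : ∀ s s', v s ⬝ᵥ w s' = w s ⬝ᵥ w s') {P : ℝ}
    (hP : ∀ s ∈ S, ∀ s' ∈ S, |n ⬝ᵥ v s' - t s| ≤ P) (hp : ∀ s, 0 ≤ p s) {lam : ℝ} (hl : 0 < lam) :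
    |∑ s ∈ S, p s * (ob n G (t s) (v s) - ob n G (t s) (w s))| ≤
      (lam + (8 * Real.exp (n ⬝ᵥ n / 2) + 2 * P ^ 2) *
        (∑ s' ∈ S, ∑ s ∈ S, p s' * p s * (Real.exp (w s ⬝ᵥ w s') *
          |Real.exp ((v s - w s) ⬝ᵥ (v s' - w s')) - 1|)) / lam) / 2 := by
  set c : α → ℝ := fun s => n ⬝ᵥ v s + t s with hc
  set D : α → (ι → ℝ) → ℝ := fun s x =>
    (n ⬝ᵥ x - c s) * ed (v s) x - (n ⬝ᵥ x - c s) * ed (w s) x with hD
  have hI : ∀ s, Integrable (fun x => G x * D s x) (sg ι) ∧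
      ob n G (t s) (v s) - ob n G (t s) (w s) = ∫ x, G x * D s x ∂(sg ι) := fun s => by
    obtain ⟨a1, a2⟩ := ob_eq n (t s) hG h1 (v s) (c := c s) rfl
    obtain ⟨b1, b2⟩ := ob_eq n (t s) hG h1 (w s) (c := c s) (by rw [hn])
    simp only [hD, mul_sub]
    exact ⟨a1.sub b1, by rw [a2, b2, integral_sub a1 b1]⟩
  have hDD : ∀ s s', Integrable (fun x => D s x * D s' x) (sg ι) ∧
      ∫ x, D s x * D s' x ∂(sg ι) = br n (n ⬝ᵥ v s' - t s) (n ⬝ᵥ v s - t s') *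
        (Real.exp (w s ⬝ᵥ w s') * (Real.exp ((v s - w s) ⬝ᵥ (v s' - w s')) - 1)) := fun s s' => by
    obtain ⟨a1, a2⟩ := pair_int n (v s) (v s') (c s) (c s')
    obtain ⟨b1, b2⟩ := pair_int n (v s) (w s') (c s) (c s')
    obtain ⟨c1, c2⟩ := pair_int n (w s) (v s') (c s) (c s')
    obtain ⟨d1, d2⟩ := pair_int n (w s) (w s') (c s) (c s')
    have e : ∀ x, D s x * D s' x =
        (n ⬝ᵥ x - c s) * ed (v s) x * ((n ⬝ᵥ x - c s') * ed (v s') x) -
        (n ⬝ᵥ x - c s) * ed (v s) x * ((n ⬝ᵥ x - c s') * ed (w s') x) -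
        ((n ⬝ᵥ x - c s) * ed (w s) x * ((n ⬝ᵥ x - c s') * ed (v s') x) -
        (n ⬝ᵥ x - c s) * ed (w s) x * ((n ⬝ᵥ x - c s') * ed (w s') x)) := fun x => by
      simp only [hD]; ring
    simp only [e]
    refine ⟨(a1.sub b1).sub (c1.sub d1), ?_⟩
    rw [integral_sub (a1.sub' b1) (c1.sub' d1), integral_sub a1 b1, integral_sub c1 d1, a2, b2, c2, d2]
    have k1 : n ⬝ᵥ v s + n ⬝ᵥ v s' - c s = n ⬝ᵥ v s' - t s := by simp only [hc]; ring
    have k2 : n ⬝ᵥ v s + n ⬝ᵥ v s' - c s' = n ⬝ᵥ v s - t s' := by simp only [hc]; ring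
    have k3 : w s ⬝ᵥ v s' = w s ⬝ᵥ w s' := by
      rw [dotProduct_comm, hvw, dotProduct_comm]
    have k4 : v s ⬝ᵥ v s' = w s ⬝ᵥ w s' + (v s - w s) ⬝ᵥ (v s' - w s') := by
      simp only [sub_dotProduct, dotProduct_sub, hvw, k3]; ring
    rw [hn, hn, k1, k2, hvw, k3, k4, Real.exp_add]
    ring
  set H : (ι → ℝ) → ℝ := fun x => ∑ s ∈ S, p s * D s x with hH
  have e1 : ∑ s ∈ S, p s * (ob n G (t s) (v s) - ob n G (t s) (w s)) = ∫ x, G x * H x ∂(sg ι) := by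
    simp only [hH, mul_sum]
    rw [integral_finsetSum _ fun s _ => ((hI s).1.const_mul (p s)).congr
      (Filter.Eventually.of_forall fun x => by ring)]
    refine sum_congr rfl fun s _ => ?_
    rw [(hI s).2, ← integral_const_mul]
    exact integral_congr_ae (Filter.Eventually.of_forall fun x => by ring)
  have e2 : ∀ x, H x ^ 2 = ∑ s' ∈ S, ∑ s ∈ S, p s' * p s * (D s x * D s' x) := fun x => by
    simp only [hH]
    rw [sq, sum_mul_sum]
    exact sum_congr rfl fun s' _ => sum_congr rfl fun s _ => by ring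
  have i2 : Integrable (fun x => H x ^ 2) (sg ι) := by
    simp only [e2]
    exact integrable_finsetSum _ fun s' _ => integrable_finsetSum _ fun s _ =>
      (hDD s s').1.const_mul _
  have e3 : ∫ x, H x ^ 2 ∂(sg ι) ≤ (8 * Real.exp (n ⬝ᵥ n / 2) + 2 * P ^ 2) *
      (∑ s' ∈ S, ∑ s ∈ S, p s' * p s * (Real.exp (w s ⬝ᵥ w s') *
        |Real.exp ((v s - w s) ⬝ᵥ (v s' - w s')) - 1|)) := by
    simp only [e2]
    rw [integral_finsetSum _ fun s' _ => integrable_finsetSum _ fun s _ =>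
      (hDD s s').1.const_mul _, mul_sum]
    refine sum_le_sum fun s' hs' => ?_
    rw [integral_finsetSum _ fun s _ => (hDD s s').1.const_mul _, mul_sum]
    refine sum_le_sum fun s hs => ?_
    rw [integral_const_mul, (hDD s s').2, mul_left_comm _ (p s' * p s)]
    refine mul_le_mul_of_nonneg_left ((le_abs_self _).trans ?_) (mul_nonneg (hp _) (hp _))
    rw [abs_mul, abs_mul, abs_of_pos (Real.exp_pos _)]
    exact mul_le_mul_of_nonneg_right (abs_br_le n (hP s hs s' hs') (hP s' hs' s hs)) (by positivity)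
  have h := norm_integral_le_of_norm_le (μ := sg ι) (f := fun x => G x * H x)
    (g := fun x => (lam + H x ^ 2 / lam) / 2)
    (((integrable_const lam).add (i2.div_const lam)).div_const 2)
    (Filter.Eventually.of_forall fun x => by
      rw [Real.norm_eq_abs, abs_mul]
      have a1 : |G x| * |H x| ≤ |H x| := mul_le_of_le_one_left (abs_nonneg _) (h1 x)
      have a2 : |H x| ≤ (lam + H x ^ 2 / lam) / 2 := by
        rw [← sq_abs (H x), le_div_iff₀ two_pos, ← sub_nonneg]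
        have : lam + |H x| ^ 2 / lam - |H x| * 2 = (|H x| - lam) ^ 2 / lam := by
          field_simp; ring
        rw [this]; positivity
      exact a1.trans a2)
  rw [Real.norm_eq_abs] at h
  rw [e1]
  refine h.trans ?_
  rw [integral_div, integral_add (integrable_const lam) (i2.div_const lam), integral_div]
  simp only [integral_const, probReal_univ, one_smul]
  gcongr

/-- two replicas under a centred weight -/
theorem two_rep_ex {L : Type} [AddCommGroup L] {W : L → ℝ} (hW : Cen W) (A : L → Prop)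
    (n : ι → ℝ) (v w : L → ι → ℝ) (t : L → ℝ)
    {G : (ι → ℝ) → ℝ} (hG : Measurable G) (h1 : ∀ x, |G x| ≤ 1)
    (hn : ∀ s, n ⬝ᵥ w s = n ⬝ᵥ v s) (hvw : ∀ s s', v s ⬝ᵥ w s' = w s ⬝ᵥ w s') {P c₀ m₁ m₂ : ℝ}
    (hP : ∀ s s', A s → A s' → |n ⬝ᵥ v s' - t s| ≤ P)
    (hXY : ∀ s', A s' → ∃ X Y : L →+ ℝ, (∀ s, w s ⬝ᵥ w s' ≤ Y s + c₀) ∧
      (∀ s, (v s - w s) ⬝ᵥ (v s' - w s') = X s) ∧ M W ((2 : ℝ) • Y) ≤ m₁ ∧ M W ((2 : ℝ) • X) ≤ m₂)
    (hI : Ig W fun s => ind (A s) * (ob n G (t s) (v s) - ob n G (t s) (w s)))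
    {lam ρ : ℝ} (hl : 0 < lam) (hρ : 0 < ρ) (hm : 0 ≤ m₂) :
    |Ex W fun s => ind (A s) * (ob n G (t s) (v s) - ob n G (t s) (w s))| ≤
      (lam + (8 * Real.exp (n ⬝ᵥ n / 2) + 2 * P ^ 2) *
        (Real.exp c₀ * (ρ * Real.exp m₁ + (Real.exp m₂ - 1) / ρ) / 2) / lam) / 2 := by
  classical
  have hZ := hW.wt.pos
  set κ := Real.exp c₀ * (ρ * Real.exp m₁ + (Real.exp m₂ - 1) / ρ) / 2 with hκ
  have hκ0 : 0 ≤ κ := by
    have : 0 ≤ Real.exp m₂ - 1 := by linarith [Real.add_one_le_exp m₂]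
    positivity
  have hs : HasSum (fun s => W s / Zs W * (ind (A s) * (ob n G (t s) (v s) - ob n G (t s) (w s))))
      (Ex W fun s => ind (A s) * (ob n G (t s) (v s) - ob n G (t s) (w s))) := by
    have := (Summable.hasSum hI).div_const (Zs W)
    rw [Ex_def]
    simpa only [div_mul_eq_mul_div] using this
  refine le_of_tendsto' (Filter.Tendsto.abs hs) fun S => ?_
  have e : ∑ s ∈ S, W s / Zs W * (ind (A s) * (ob n G (t s) (v s) - ob n G (t s) (w s))) =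
      ∑ s ∈ S.filter A, W s / Zs W * (ob n G (t s) (v s) - ob n G (t s) (w s)) := by
    rw [sum_filter]
    refine sum_congr rfl fun s _ => ?_
    by_cases h : A s <;> simp [ind, h]
  rw [e]
  have hp : ∀ s, 0 ≤ W s / Zs W := fun s => div_nonneg (hW.nonneg s) hZ.le
  refine (two_rep (S.filter A) (fun s => W s / Zs W) n v w t hG h1 hn hvw (P := P)
    (fun s hs s' hs' => hP s s' (mem_filter.1 hs).2 (mem_filter.1 hs').2) hp hl).trans ?_
  have fin_le : ∀ (T : Finset L) (F : L → ℝ), (∀ s, 0 ≤ F s) → Ig W F →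
      ∑ s ∈ T, W s / Zs W * F s ≤ Ex W F := fun T F h0 hF => by
    rw [Ex_def, le_div_iff₀ hZ, sum_mul]
    refine le_trans (le_of_eq (sum_congr rfl fun s _ => ?_))
      (Summable.sum_le_tsum T (fun s _ => mul_nonneg (hW.nonneg s) (h0 s)) hF)
    field_simp
  have key : ∑ s' ∈ S.filter A, ∑ s ∈ S.filter A, W s' / Zs W * (W s / Zs W) *
      (Real.exp (w s ⬝ᵥ w s') * |Real.exp ((v s - w s) ⬝ᵥ (v s' - w s')) - 1|) ≤ κ := by
    refine le_trans (sum_le_sum (g := fun s' => W s' / Zs W * κ) fun s' hs' => ?_)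
      ((fin_le _ (fun _ => κ) (fun _ => hκ0) (hW.wt.ig_const κ)).trans_eq (hW.wt.ex_const κ))
    obtain ⟨X, Y, a1, a2, a3, a4⟩ := hXY s' (mem_filter.1 hs').2
    simp only [mul_assoc, ← mul_sum]
    refine mul_le_mul_of_nonneg_left ?_ (hp s')
    set Φ : L → ℝ := fun s => Real.exp c₀ * (ρ * Real.exp (((2 : ℝ) • Y) s) +
      (Real.exp (((2 : ℝ) • X) s) - 2 * Real.exp (X s) + 1) / ρ) / 2 with hΦ
    have hle : ∀ s, Real.exp (w s ⬝ᵥ w s') * |Real.exp ((v s - w s) ⬝ᵥ (v s' - w s')) - 1| ≤ Φ s :=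
      fun s => by
        rw [a2]
        have b1 : Real.exp (w s ⬝ᵥ w s') ≤ Real.exp c₀ * Real.exp (Y s) := by
          rw [← Real.exp_add]; exact Real.exp_le_exp.2 (by linarith [a1 s])
        have b2 : Real.exp (((2 : ℝ) • Y) s) = Real.exp (Y s) ^ 2 := by
          rw [sq, ← Real.exp_add]; congr 1; simp; ring
        have b3 : Real.exp (((2 : ℝ) • X) s) = Real.exp (X s) ^ 2 := by
          rw [sq, ← Real.exp_add]; congr 1; simp; ring
        have b4 : Real.exp (X s) ^ 2 - 2 * Real.exp (X s) + 1 = |Real.exp (X s) - 1| ^ 2 := by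
          rw [sq_abs]; ring
        simp only [hΦ]
        rw [b2, b3, b4]
        refine (mul_le_mul_of_nonneg_right b1 (abs_nonneg _)).trans ?_
        rw [mul_assoc, mul_div_assoc]
        refine mul_le_mul_of_nonneg_left ?_ (Real.exp_pos _).le
        rw [le_div_iff₀ two_pos, ← sub_nonneg]
        have : ρ * Real.exp (Y s) ^ 2 + |Real.exp (X s) - 1| ^ 2 / ρ -
            Real.exp (Y s) * |Real.exp (X s) - 1| * 2 =
            (ρ * Real.exp (Y s) - |Real.exp (X s) - 1|) ^ 2 / ρ := by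
          field_simp; ring
        rw [this]; positivity
    have i1 := hW.ig (Tame.exp ((2 : ℝ) • Y))
    have i2 := hW.ig (Tame.exp ((2 : ℝ) • X))
    have i3 := hW.ig (Tame.exp X)
    have i4 : Ig W fun s => Real.exp (((2 : ℝ) • X) s) - 2 * Real.exp (X s) + 1 :=
      (i2.sub (i3.const_mul 2)).add (hW.wt.ig_const 1)
    have hΦI : Ig W Φ := (((i1.const_mul ρ).add (i4.div_const ρ)).const_mul _).div_const 2
    refine le_trans (sum_le_sum fun s _ => mul_le_mul_of_nonneg_left (hle s) (hp s))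
      ((fin_le _ Φ (fun s => le_trans (by positivity) (hle s)) hΦI).trans ?_)
    simp only [hΦ]
    rw [Ex_div_const, Ex_const_mul, Ex_add (i1.const_mul ρ) (i4.div_const ρ), Ex_const_mul,
      Ex_div_const, hW.wt.ex_add_const (i2.sub (i3.const_mul 2)), Ex_sub i2 (i3.const_mul 2),
      Ex_const_mul, ← hW.wt.exp_M hW.se, ← hW.wt.exp_M hW.se, ← hW.wt.exp_M hW.se]
    have c1 := Real.exp_le_exp.2 a3
    have c2 := Real.exp_le_exp.2 a4
    have c3 : 1 ≤ Real.exp (M W X) := Real.one_le_exp (hW.M_nonneg X)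
    rw [hκ]
    gcongr
    linarith
  gcongr

/-- the bare bound as a function of the flow norm -/
noncomputable def bb (τ n : ℝ) : ℝ := τ * n * Real.cosh (Real.sqrt n) / 2

/-- choice of the constants -/
theorem assemble (cn c₀ E P₀ τ ε : ℝ) (hε : 0 < ε) (hτ : 0 ≤ τ) : ∃ ζ : ℝ, 0 < ζ ∧
    ∀ (ι L : Type) [Fintype ι] [DecidableEq ι] [AddCommGroup L] (W : L → ℝ) (n : ι → ℝ)
      (v w : L → ι → ℝ) (t Φ H : L → ℝ) (G : (ι → ℝ) → ℝ), Cen W → Measurable G → (∀ x, |G x| ≤ 1) →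
      (∀ s, n ⬝ᵥ w s = n ⬝ᵥ v s) → (∀ s s', v s ⬝ᵥ w s' = w s ⬝ᵥ w s') →
      Real.exp (n ⬝ᵥ n / 2) ≤ cn → Ig W Φ → Ig W H → (∀ s, t s ^ 2 ≤ Φ s) → (∀ s, 0 ≤ H s) →
      Ex W Φ ≤ E → Ex W H ≤ ζ → (∀ s, ∃ U, U ^ 2 ≤ Φ s ∧ |n ⬝ᵥ v s| ≤ |U| + P₀) →
      (∀ s' (K η : ℝ), Φ s' ≤ K → H s' ≤ η → ∃ X Y : L →+ ℝ, (∀ s, w s ⬝ᵥ w s' ≤ Y s + c₀) ∧
        (∀ s, (v s - w s) ⬝ᵥ (v s' - w s') = X s) ∧ M W ((2 : ℝ) • Y) ≤ bb τ (4 * K) ∧
          M W ((2 : ℝ) • X) ≤ bb τ (4 * η)) →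
      |(Ex W fun s => ob n G (t s) (v s)) - Ex W fun s => ob n G (t s) (w s)| ≤ ε := by
  set δ := ε / (4 * (|E| + 1)) with hδ
  have hδ0 : 0 < δ := by positivity
  set C := 4 * |cn| + 1 / δ with hC
  have hC0 : 0 < C := by positivity
  set K := 1 + 8 * C * |E| / ε with hK
  have hK1 : 1 ≤ K := by
    have : 0 ≤ 8 * C * |E| / ε := by positivity
    linarith
  set Cb := 8 * |cn| + 2 * (2 * K + P₀) ^ 2 + 1 with hCb
  have hCb0 : 0 < Cb := by positivity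
  set ρ := ε ^ 2 / (4 * Cb * Real.exp c₀ * Real.exp (bb τ (4 * K))) with hρ
  have hρ0 : 0 < ρ := by positivity
  obtain ⟨η, hη0, hη⟩ : ∃ η : ℝ, 0 < η ∧
      Cb * Real.exp c₀ * ((Real.exp (bb τ (4 * η)) - 1) / ρ) < ε ^ 2 / 4 := by
    have hc : Continuous fun η : ℝ => Cb * Real.exp c₀ * ((Real.exp (bb τ (4 * η)) - 1) / ρ) := by
      unfold bb; fun_prop
    have := (hc.continuousAt (x := 0)).eventually_lt (continuousAt_const (y := ε ^ 2 / 4))
      (by simp [bb]; positivity)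
    exact ((this.filter_mono nhdsWithin_le_nhds).and (self_mem_nhdsWithin (s := Set.Ioi (0 : ℝ)))
      |>.exists).imp fun η h => ⟨h.2, h.1⟩
  refine ⟨ε * η / (8 * C), by positivity, ?_⟩
  intro ι L _ _ _ W n v w t Φ H G hW hG h1 hn hvw hcn iΦ iH htΦ hH0 hE hζ hU hXY
  have hΦ0 : ∀ s, 0 ≤ Φ s := fun s => (sq_nonneg _).trans (htΦ s)
  have hcn' : Real.exp (n ⬝ᵥ n / 2) ≤ |cn| := hcn.trans (le_abs_self _)
  have hab : ∀ (y : ℝ) s, y ^ 2 ≤ Φ s → Φ s ≤ K → |y| ≤ K := fun y s a b =>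
    abs_le_of_sq_le_sq' (by nlinarith) (by linarith) |> abs_le.2
  have it2 : Ig W fun s => t s ^ 2 := Ig.of_le hW.nonneg iΦ (fun s => sq_nonneg _) htΦ
  have it : Ig W fun s => 2 * Real.exp (n ⬝ᵥ n / 2) + |t s| :=
    (hW.wt.ig_const _).add ((hW.wt.ig_of_sq it2).abs hW.nonneg)
  have iv : Ig W fun s => ob n G (t s) (v s) :=
    Ig.of_abs_le hW.nonneg it fun s _ => abs_ob_le n _ h1 _
  have iw : Ig W fun s => ob n G (t s) (w s) :=
    Ig.of_abs_le hW.nonneg it fun s _ => abs_ob_le n _ h1 _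
  set A : L → Prop := fun s => Φ s ≤ K ∧ H s ≤ η with hA
  have hm : 0 ≤ bb τ (4 * η) := by
    unfold bb
    have := Real.cosh_pos (Real.sqrt (4 * η))
    positivity
  have on := two_rep_ex hW A n v w t hG h1 hn hvw (P := 2 * K + P₀) (c₀ := c₀)
    (m₁ := bb τ (4 * K)) (m₂ := bb τ (4 * η))
    (fun s s' a a' => by
      obtain ⟨U, u1, u2⟩ := hU s'
      have := hab U s' u1 a'.1
      have := hab (t s) s (htΦ s) a.1
      exact (abs_sub _ _).trans (by linarith))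
    (fun s' a => hXY s' K η a.1 a.2) ((iv.sub iw).ind_mul hW.nonneg A) (half_pos hε) hρ0 hm
  have on2 : (ε / 2 + (8 * Real.exp (n ⬝ᵥ n / 2) + 2 * (2 * K + P₀) ^ 2) *
      (Real.exp c₀ * (ρ * Real.exp (bb τ (4 * K)) + (Real.exp (bb τ (4 * η)) - 1) / ρ) / 2) /
        (ε / 2)) / 2 ≤ ε / 2 := by
    have a0 : 0 ≤ Real.exp (bb τ (4 * η)) - 1 := by linarith [Real.add_one_le_exp (bb τ (4 * η))]
    have a1 : 8 * Real.exp (n ⬝ᵥ n / 2) + 2 * (2 * K + P₀) ^ 2 ≤ Cb := by rw [hCb]; linarith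
    have a2 : Cb * Real.exp c₀ * (ρ * Real.exp (bb τ (4 * K))) = ε ^ 2 / 4 := by
      rw [hρ]; field_simp
    have a3 : (8 * Real.exp (n ⬝ᵥ n / 2) + 2 * (2 * K + P₀) ^ 2) *
        (Real.exp c₀ * (ρ * Real.exp (bb τ (4 * K)) + (Real.exp (bb τ (4 * η)) - 1) / ρ) / 2) ≤
        ε ^ 2 / 4 := by
      refine (mul_le_mul_of_nonneg_right a1 (by positivity)).trans ?_
      nlinarith
    have a4 := div_le_div_of_nonneg_right a3 (half_pos hε).le
    have a5 : ε ^ 2 / 4 / (ε / 2) = ε / 2 := by field_simp; ring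
    linarith
  have hPr : Pr W (fun s => ¬ A s) ≤ |E| / K + ε / (8 * C) := by
    have b1 := hW.wt.pr_le_div iΦ hΦ0 (t := K) (by linarith)
    have b2 := hW.wt.pr_le_div iH hH0 hη0
    have b3 : Pr W (fun s => ¬ A s) ≤ Pr W fun s => K ≤ Φ s ∨ η ≤ H s :=
      hW.wt.pr_mono fun s _ h => by
        by_contra h'
        push Not at h'
        exact h ⟨h'.1.le, h'.2.le⟩
    have b4 := hW.wt.pr_or_le (fun s => K ≤ Φ s) fun s => η ≤ H s
    have b5 : Ex W Φ / K ≤ |E| / K :=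
      div_le_div_of_nonneg_right (hE.trans (le_abs_self _)) (by linarith)
    have b6 : Ex W H / η ≤ ε / (8 * C) := by
      rw [div_le_iff₀ hη0]; refine hζ.trans (le_of_eq ?_); ring
    linarith
  have off : |Ex W fun s => ind (¬ A s) * (ob n G (t s) (v s) - ob n G (t s) (w s))| ≤ ε / 2 := by
    have i1 := (iv.sub iw).ind_mul hW.nonneg fun s => ¬ A s
    have i2 : Ig W fun s => C * ind (¬ A s) + δ * Φ s :=
      ((hW.wt.ig_ind _).const_mul C).add (iΦ.const_mul δ)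
    refine (abs_Ex_le hW.nonneg i1).trans ((Ex_mono hW.nonneg (i1.abs hW.nonneg) i2 fun s => ?_).trans ?_)
    · have c1 := abs_ob_le n (t s) h1 (v s)
      have c2 := abs_ob_le n (t s) h1 (w s)
      have c3 := abs_sub (ob n G (t s) (v s)) (ob n G (t s) (w s))
      have c4 : 2 * |t s| ≤ δ * t s ^ 2 + 1 / δ := by
        rw [← sq_abs (t s), ← sub_nonneg]
        have : δ * |t s| ^ 2 + 1 / δ - 2 * |t s| = (δ * |t s| - 1) ^ 2 / δ := by field_simp; ring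
        rw [this]; positivity
      have c5 := mul_le_mul_of_nonneg_left (htΦ s) hδ0.le
      have c6 := mul_nonneg hδ0.le (hΦ0 s)
      by_cases h : A s
      · rw [ind_neg (not_not.2 h)]; simpa using c6
      · rw [ind_pos h, one_mul, mul_one, hC]; linarith
    · rw [Ex_add ((hW.wt.ig_ind _).const_mul C) (iΦ.const_mul δ), Ex_const_mul, Ex_const_mul]
      have d1 : δ * Ex W Φ ≤ ε / 4 := by
        refine (mul_le_mul_of_nonneg_left (hE.trans (le_abs_self _)) hδ0.le).trans ?_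
        rw [hδ, div_mul_eq_mul_div, div_le_div_iff₀ (by positivity) (by norm_num)]
        nlinarith [abs_nonneg E]
      have d2 : C * (|E| / K) ≤ ε / 8 := by
        rw [← mul_div_assoc, div_le_div_iff₀ (by linarith) (by norm_num), hK]
        have : ε * (1 + 8 * C * |E| / ε) = ε + 8 * C * |E| := by field_simp
        rw [this]; linarith
      have d3 : C * (ε / (8 * C)) = ε / 8 := by field_simp
      have d4 := mul_le_mul_of_nonneg_left hPr hC0.le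
      rw [mul_add] at d4
      unfold Pr at d4
      linarith
  rw [← Ex_sub iv iw, Ex_split hW.nonneg (iv.sub iw) A]
  simp only [mul_comm _ (ind _)]
  exact (abs_add_le _ _).trans (by linarith)

end Crest.Agent.T145.Hi19
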