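import Crest.Agent.T145.Fkg_86

/-!
# Row 145: Griffiths–Ginibre algebra on a finite abelian group (helper60)

`Pos` = cone of the `±1` characters, `Maj A B` = `B ± A ∈ Pos`, `Four X₁ X₂ X₃ X₄` = duplicated
majorisation, which gives `(∑ X₁)(∑ X₂) ≤ (∑ X₃)(∑ X₄)`.
-/

set_option autoImplicit false

namespace Crest.Agent.T145.Gk60

open Finset

section grp
variable {G : Type*} [CommGroup G]

/-- real value of a `±1` character -/
def cv (χ : G →* ℤˣ) (g : G) : ℝ := ((χ g : ℤ) : ℝ)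

theorem cv_mul (χ : G →* ℤˣ) (g h : G) : cv χ (g * h) = cv χ g * cv χ h := by simp [cv]
theorem cv_mul' (χ ψ : G →* ℤˣ) (g : G) : cv (χ * ψ) g = cv χ g * cv ψ g := by simp [cv]
theorem cv_one (g : G) : cv (1 : G →* ℤˣ) g = 1 := by simp [cv]
theorem cv_cases (χ : G →* ℤˣ) (g : G) : (χ g = 1 ∧ cv χ g = 1) ∨ (χ g = -1 ∧ cv χ g = -1) := by
  rcases Int.units_eq_one_or (χ g) with h | h <;> simp [cv, h]

theorem sum_cv_nonneg [Fintype G] (χ : G →* ℤˣ) : 0 ≤ ∑ g, cv χ g := by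
  classical
  have h := sum_hom_units (((Int.castRingHom ℝ).toMonoidHom.comp (Units.coeHom ℤ)).comp χ)
  have e : ∑ g, cv χ g =
      ∑ g, (((Int.castRingHom ℝ).toMonoidHom.comp (Units.coeHom ℤ)).comp χ) g := rfl
  rw [e, h]
  split_ifs <;> positivity

/-- nonnegative combinations of characters -/
inductive Pos : (G → ℝ) → Prop
  | ch (χ : G →* ℤˣ) (c : ℝ) (hc : 0 ≤ c) : Pos fun g => c * cv χ g
  | add {f f' : G → ℝ} : Pos f → Pos f' → Pos fun g => f g + f' g

variable {f f' : G → ℝ}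

theorem Pos.congr (h : Pos f) (e : ∀ g, f' g = f g) : Pos f' := by
  rw [show f' = f from funext e]; exact h

theorem Pos.const {c : ℝ} (hc : 0 ≤ c) : Pos fun _ : G => c :=
  (Pos.ch 1 c hc).congr fun g => by rw [cv_one, mul_one]

theorem Pos.mul (h : Pos f) (h' : Pos f') : Pos fun g => f g * f' g := by
  induction h with
  | ch χ c hc =>
    induction h' with
    | ch ψ d hd => exact (Pos.ch (χ * ψ) (c * d) (mul_nonneg hc hd)).congr fun g => by
                     rw [cv_mul']; ring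
    | add _ _ i j => exact (i.add j).congr fun g => by ring
  | add _ _ i j => exact (i.add j).congr fun g => by ring

theorem Pos.smul (h : Pos f) {c : ℝ} (hc : 0 ≤ c) : Pos fun g => c * f g := (Pos.const hc).mul h

theorem Pos.sum {ι : Type*} (s : Finset ι) {F : ι → G → ℝ} (h : ∀ i ∈ s, Pos (F i)) :
    Pos fun g => ∑ i ∈ s, F i g := by
  classical
  induction s using Finset.induction_on with
  | empty => exact (Pos.const le_rfl).congr fun g => sum_empty
  | insert k s hk ih =>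
    exact ((h k (mem_insert_self k s)).add (ih fun j hj => h j (mem_insert_of_mem hj))).congr
      fun g => sum_insert hk

theorem Pos.prod {ι : Type*} (s : Finset ι) {F : ι → G → ℝ} (h : ∀ i ∈ s, Pos (F i)) :
    Pos fun g => ∏ i ∈ s, F i g := by
  classical
  induction s using Finset.induction_on with
  | empty => exact (Pos.const zero_le_one).congr fun g => prod_empty
  | insert k s hk ih =>
    exact ((h k (mem_insert_self k s)).mul (ih fun j hj => h j (mem_insert_of_mem hj))).congr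
      fun g => prod_insert hk

/-- Griffiths I -/
theorem Pos.sum_nonneg [Fintype G] (h : Pos f) : 0 ≤ ∑ g, f g := by
  induction h with
  | ch χ c hc => rw [← mul_sum]; exact mul_nonneg hc (sum_cv_nonneg χ)
  | add _ _ i j => rw [sum_add_distrib]; exact add_nonneg i j

/-- coefficientwise majorisation -/
def Maj (A B : G → ℝ) : Prop := Pos (fun g => B g - A g) ∧ Pos fun g => B g + A g

variable {A B A' B' : G → ℝ}

theorem Maj.congr (h : Maj A B) (e : ∀ g, A' g = A g) (e' : ∀ g, B' g = B g) : Maj A' B' := by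
  rw [show A' = A from funext e, show B' = B from funext e']; exact h

theorem Maj.mul (h : Maj A B) (h' : Maj A' B') :
    Maj (fun g => A g * A' g) fun g => B g * B' g :=
  ⟨(((h.1.mul h'.2).add (h.2.mul h'.1)).smul (c := 1 / 2) (by norm_num)).congr fun g => by ring,
    (((h.1.mul h'.1).add (h.2.mul h'.2)).smul (c := 1 / 2) (by norm_num)).congr fun g => by ring⟩

theorem Maj.add (h : Maj A B) (h' : Maj A' B') :
    Maj (fun g => A g + A' g) fun g => B g + B' g :=
  ⟨(h.1.add h'.1).congr fun g => by ring, (h.2.add h'.2).congr fun g => by ring⟩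

theorem Maj.ch (χ : G →* ℤˣ) {c d : ℝ} (h : |c| ≤ d) :
    Maj (fun g => c * cv χ g) fun g => d * cv χ g :=
  ⟨(Pos.ch χ (d - c) (by linarith [le_abs_self c])).congr fun g => by ring,
    (Pos.ch χ (d + c) (by linarith [neg_abs_le c])).congr fun g => by ring⟩

theorem Maj.const {c d : ℝ} (h : |c| ≤ d) : Maj (fun _ : G => c) fun _ => d :=
  (Maj.ch 1 h).congr (fun g => by rw [cv_one, mul_one]) fun g => by rw [cv_one, mul_one]

theorem Maj.sum {ι : Type*} (s : Finset ι) {F F' : ι → G → ℝ} (h : ∀ i ∈ s, Maj (F i) (F' i)) :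
    Maj (fun g => ∑ i ∈ s, F i g) fun g => ∑ i ∈ s, F' i g :=
  ⟨(Pos.sum s fun i hi => (h i hi).1).congr fun g => by rw [sum_sub_distrib],
    (Pos.sum s fun i hi => (h i hi).2).congr fun g => by rw [sum_add_distrib]⟩

theorem Maj.pos (h : Maj A B) : Pos B :=
  ((h.1.add h.2).smul (c := 1 / 2) (by norm_num)).congr fun g => by ring

theorem Maj.sum_le [Fintype G] (h : Maj A B) : ∑ g, A g ≤ ∑ g, B g := by
  have := h.1.sum_nonneg
  rw [sum_sub_distrib] at this
  linarith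

/-- value `p` where `χ = 1`, `q` where `χ = -1` -/
def aff (χ : G →* ℤˣ) (p q : ℝ) (g : G) : ℝ := if χ g = 1 then p else q

theorem aff_eq (χ : G →* ℤˣ) (p q : ℝ) (g : G) :
    aff χ p q g = (p + q) / 2 + (p - q) / 2 * cv χ g := by
  rcases cv_cases χ g with ⟨h, e⟩ | ⟨h, e⟩ <;> rw [e] <;> simp [aff, h] <;> ring

theorem aff_nonneg (χ : G →* ℤˣ) {p q : ℝ} (hp : 0 ≤ p) (hq : 0 ≤ q) (g : G) : 0 ≤ aff χ p q g := by
  unfold aff; split_ifs <;> assumption

/-- the two Fourier coefficients of `(x, y)` are dominated by those of `(x', y')` -/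
def Mj (x y x' y' : ℝ) : Prop := |x + y| ≤ x' + y' ∧ |x - y| ≤ x' - y'

theorem Mj.maj {x y x' y' : ℝ} (h : Mj x y x' y') (χ : G →* ℤˣ) : Maj (aff χ x y) (aff χ x' y') := by
  refine ((Maj.const (c := (x + y) / 2) (d := (x' + y') / 2) ?_).add
    (Maj.ch χ (c := (x - y) / 2) (d := (x' - y') / 2) ?_)).congr (aff_eq χ x y) (aff_eq χ x' y')
  · rw [abs_div, abs_two]; linarith [h.1]
  · rw [abs_div, abs_two]; linarith [h.2]

theorem Mj.refl {x y : ℝ} (hy : 0 ≤ y) (h : y ≤ x) : Mj x y x y :=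
  ⟨(abs_of_nonneg (by linarith)).le, (abs_of_nonneg (by linarith)).le⟩

theorem Mj.swap {x y x' y' : ℝ} (h : Mj x y x' y') : Mj y x x' y' :=
  ⟨by rw [add_comm y]; exact h.1, by rw [abs_sub_comm]; exact h.2⟩

theorem Mj.scale {x y x' y' c d : ℝ} (h : Mj x y x' y') (hc : 0 ≤ c) (hcd : c ≤ d) :
    Mj (c * x) (c * y) (d * x') (d * y') := by
  constructor
  · rw [← mul_add, ← mul_add, abs_mul, abs_of_nonneg hc]
    exact mul_le_mul hcd h.1 (abs_nonneg _) (hc.trans hcd)
  · rw [← mul_sub, ← mul_sub, abs_mul, abs_of_nonneg hc]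
    exact mul_le_mul hcd h.2 (abs_nonneg _) (hc.trans hcd)

theorem Mj.zero {x' y' : ℝ} (hy : 0 ≤ y') (h : y' ≤ x') : Mj 0 0 x' y' :=
  ⟨by simp; linarith, by simp; linarith⟩

/-- criterion: largest value, product and ratio increase -/
theorem Mj.of {M m M' m' : ℝ} (hm : 0 ≤ m) (hM : m ≤ M) (hm' : 0 ≤ m') (hM' : m' ≤ M')
    (h1 : M ≤ M') (h2 : M * m ≤ M' * m') (h3 : M * m' ≤ M' * m) : Mj M m M' m' := by
  constructor
  · rw [abs_of_nonneg (by linarith)]
    rcases le_total m m' with h | h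
    · linarith
    · rcases hm'.eq_or_lt with e | e
      · subst e
        have : m = 0 := by nlinarith
        linarith
      · have : m' * (M + m) ≤ m' * (M' + m') := by nlinarith [mul_nonneg (sub_nonneg.2 h) (sub_nonneg.2 (h.trans hM))]
        exact le_of_mul_le_mul_left this e
  · rw [abs_of_nonneg (by linarith)]
    rcases le_or_gt m' m with h | h
    · linarith
    · have : M' * (M - m) ≤ M' * (M' - m') := by nlinarith [mul_nonneg (sub_nonneg.2 h1) (sub_nonneg.2 hM')]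
      exact le_of_mul_le_mul_left this (by linarith)

theorem Pos.aff (χ : G →* ℤˣ) {p q : ℝ} (hq : 0 ≤ q) (h : q ≤ p) : Pos (aff χ p q) :=
  ((Mj.refl hq h).maj χ).pos

/-- duplicated majorisation -/
def Four (X₁ X₂ X₃ X₄ : G → ℝ) : Prop :=
  ∀ τ, Maj (fun g => X₁ (g * τ) * X₂ g) fun g => X₃ (g * τ) * X₄ g

variable {X₁ X₂ X₃ X₄ Y₁ Y₂ Y₃ Y₄ : G → ℝ}

theorem Four.mul (h : Four X₁ X₂ X₃ X₄) (k : Four Y₁ Y₂ Y₃ Y₄) :
    Four (fun g => X₁ g * Y₁ g) (fun g => X₂ g * Y₂ g) (fun g => X₃ g * Y₃ g)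
      fun g => X₄ g * Y₄ g :=
  fun τ => ((h τ).mul (k τ)).congr (fun g => by ring) fun g => by ring

theorem Four.const {c₁ c₂ c₃ c₄ : ℝ} (h : |c₁ * c₂| ≤ c₃ * c₄) :
    Four (fun _ : G => c₁) (fun _ => c₂) (fun _ => c₃) fun _ => c₄ := fun _ => Maj.const h

theorem Four.congr (h : Four X₁ X₂ X₃ X₄) (e₁ : ∀ g, Y₁ g = X₁ g) (e₂ : ∀ g, Y₂ g = X₂ g)
    (e₃ : ∀ g, Y₃ g = X₃ g) (e₄ : ∀ g, Y₄ g = X₄ g) : Four Y₁ Y₂ Y₃ Y₄ := by
  rw [show Y₁ = X₁ from funext e₁, show Y₂ = X₂ from funext e₂, show Y₃ = X₃ from funext e₃,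
    show Y₄ = X₄ from funext e₄]
  exact h

theorem Four.prod {ι : Type*} (s : Finset ι) {F₁ F₂ F₃ F₄ : ι → G → ℝ}
    (h : ∀ i ∈ s, Four (F₁ i) (F₂ i) (F₃ i) (F₄ i)) :
    Four (fun g => ∏ i ∈ s, F₁ i g) (fun g => ∏ i ∈ s, F₂ i g) (fun g => ∏ i ∈ s, F₃ i g)
      fun g => ∏ i ∈ s, F₄ i g := by
  classical
  induction s using Finset.induction_on with
  | empty =>
    exact (Four.const (c₁ := 1) (c₂ := 1) (c₃ := 1) (c₄ := 1) (by norm_num)).congr
      (fun _ => prod_empty) (fun _ => prod_empty) (fun _ => prod_empty) fun _ => prod_empty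
  | insert k s hk ih =>
    exact ((h k (mem_insert_self k s)).mul (ih fun j hj => h j (mem_insert_of_mem hj))).congr
      (fun _ => prod_insert hk) (fun _ => prod_insert hk) (fun _ => prod_insert hk)
      fun _ => prod_insert hk

theorem Four.sum_le [Fintype G] (h : Four X₁ X₂ X₃ X₄) :
    (∑ g, X₁ g) * ∑ g, X₂ g ≤ (∑ g, X₃ g) * ∑ g, X₄ g := by
  have e : ∀ X Y : G → ℝ, (∑ g, X g) * ∑ g, Y g = ∑ τ, ∑ g, X (g * τ) * Y g := fun X Y => by
    rw [sum_comm, mul_sum]
    refine sum_congr rfl fun g _ => ?_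
    rw [← sum_mul, Fintype.sum_equiv (Equiv.mulLeft g) (fun τ => X (g * τ)) X fun _ => rfl]
  rw [e, e]
  exact sum_le_sum fun τ _ => (h τ).sum_le

theorem Four.aff (χ : G →* ℤˣ) {p₁ q₁ p₂ q₂ p₃ q₃ p₄ q₄ : ℝ}
    (h : Mj (p₁ * p₂) (q₁ * q₂) (p₃ * p₄) (q₃ * q₄))
    (k : Mj (q₁ * p₂) (p₁ * q₂) (q₃ * p₄) (p₃ * q₄)) :
    Four (aff χ p₁ q₁) (aff χ p₂ q₂) (aff χ p₃ q₃) (aff χ p₄ q₄) := fun τ => by
  rcases Int.units_eq_one_or (χ τ) with e | e
  · refine (h.maj χ).congr (fun g => ?_) fun g => ?_ <;>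
      rcases Int.units_eq_one_or (χ g) with e' | e' <;> simp [Gk60.aff, e, e']
  · refine (k.maj χ).congr (fun g => ?_) fun g => ?_ <;>
      rcases Int.units_eq_one_or (χ g) with e' | e' <;> simp [Gk60.aff, e, e']

/-- translates of `X` are majorised by `Y` -/
def Lo (X Y : G → ℝ) : Prop := ∀ τ, Maj (fun g => X (g * τ)) Y

theorem Lo.pos (h : Lo X₁ Y₁) : Pos Y₁ := (h 1).pos

theorem Lo.four (h : Lo X₁ Y₁) (k : Lo X₂ Y₂) :
    Four X₁ X₂ (fun _ => 1) fun g => Y₁ g * Y₂ g :=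
  fun τ => ((h τ).mul (k 1)).congr (fun g => by rw [mul_one]) fun g => by rw [one_mul]

theorem Lo.sum_ch {ι : Type*} (s : Finset ι) (χ : ι → G →* ℤˣ) {c d : ι → ℝ}
    (h : ∀ i ∈ s, |c i| ≤ d i) :
    Lo (fun g => ∑ i ∈ s, c i * cv (χ i) g) fun g => ∑ i ∈ s, d i * cv (χ i) g := fun τ =>
  (Maj.sum s fun i hi => Maj.ch (χ i) (c := c i * cv (χ i) τ) (d := d i) (by
    rw [abs_mul]
    rcases cv_cases (χ i) τ with ⟨_, e⟩ | ⟨_, e⟩ <;> rw [e] <;> simpa using h i hi)).congr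
    (fun g => sum_congr rfl fun i _ => by rw [cv_mul]; ring) fun _ => rfl

end grp

/-! ## edge kernels -/
section ker
variable {w : ℤ → ℝ}

theorem tp2_full (h : IsKer w) {a a' b b' : ℤ} (ha : 0 ≤ a) (hb : 0 ≤ b) (haa : a ≤ a')
    (hbb : b ≤ b') : (w (a' - b) * w (a' + b)) * (w (a - b') * w (a + b')) ≤
      (w (a - b) * w (a + b)) * (w (a' - b') * w (a' + b')) := by
  set R : ℤ → ℤ → ℝ := fun x y => w (x - y) * w (x + y) with hR
  have Rp : ∀ x y, 0 < R x y := fun x y => mul_pos (h.lc.1 _) (h.lc.1 _)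
  have st : ∀ x y, 0 ≤ x → 0 ≤ y → R (x + 1) y / R x y ≤ R (x + 1) (y + 1) / R x (y + 1) := by
    intro x y hx hy
    rw [div_le_div_iff₀ (Rp _ _) (Rp _ _)]
    have := h.tp2 x y hx hy
    simp only [hR]
    rw [show x + 1 - (y + 1) = x - y by ring, show x + 1 + (y + 1) = x + y + 2 by ring]
    linarith
  have s1 : ∀ x, 0 ≤ x → R (x + 1) b / R x b ≤ R (x + 1) b' / R x b' := by
    intro x hx
    induction b', hbb using Int.leInduction with
    | base => exact le_rfl
    | succ n hn ih => exact ih.trans (st x n hx (hb.trans hn))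
  have s2 : R a b' / R a b ≤ R a' b' / R a' b := by
    induction a', haa using Int.leInduction with
    | base => exact le_rfl
    | succ n hn ih =>
      refine ih.trans ?_
      have := s1 n (ha.trans hn)
      rw [div_le_div_iff₀ (Rp _ _) (Rp _ _)] at this ⊢
      linarith
  rw [div_le_div_iff₀ (Rp _ _) (Rp _ _)] at s2
  simp only [hR] at s2
  linarith

/-- the Ising coupling increases with the heights -/
theorem coup_mono (h : Fam w) {x y x' y' : ℤ} (hx : 0 ≤ x) (hy : 0 ≤ y) (hxx : x ≤ x')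
    (hyy : y ≤ y') : w (y - x) * w (x' + y') ≤ w (x + y) * w (y' - x') := by
  have p := h.pos'
  have e1 : w (x - y) * w (x' + y) ≤ w (x + y) * w (x' - y) :=
    h.lc'.four (by omega) (by omega) (by ring)
  have e2 : w (y - x') * w (x' + y') ≤ w (x' + y) * w (y' - x') :=
    h.lc'.four (by omega) (by omega) (by ring)
  rw [← h.even (x - y), ← h.even (x' - y), neg_sub, neg_sub] at e1
  have := mul_le_mul e1 e2 (mul_pos (p _) (p _)).le (mul_pos (p _) (p _)).le
  refine le_of_mul_le_mul_left ?_ (mul_pos (p (x' + y)) (p (y - x')))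
  linarith

theorem q_le_p (h : Fam w) {x y : ℤ} (hx : 0 ≤ x) (hy : 0 ≤ y) : w (x + y) ≤ w (y - x) :=
  h.anti (by rw [abs_of_nonneg (add_nonneg hx hy), abs_le]; omega)

theorem four_pos {G : Type*} [CommGroup G] (χ : G →* ℤˣ) {p₁ q₁ p₂ q₂ p₃ q₃ p₄ q₄ : ℝ}
    (z₁ : 0 < q₁) (z₂ : 0 < q₂) (z₃ : 0 < q₃) (z₄ : 0 < q₄) (l₁ : q₁ ≤ p₁) (l₂ : q₂ ≤ p₂)
    (l₃ : q₃ ≤ p₃) (l₄ : q₄ ≤ p₄) (hp : p₁ * p₂ ≤ p₃ * p₄) (hq : q₃ * q₄ ≤ q₁ * q₂)
    (hu : (p₁ * q₁) * (p₂ * q₂) ≤ (p₃ * q₃) * (p₄ * q₄)) (r₁ : p₃ * q₁ ≤ q₃ * p₁)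
    (r₂ : p₃ * q₂ ≤ q₃ * p₂) (r₃ : p₁ * q₄ ≤ q₁ * p₄) (r₄ : p₂ * q₄ ≤ q₂ * p₄) :
    Four (aff χ p₁ q₁) (aff χ p₂ q₂) (aff χ p₃ q₃) (aff χ p₄ q₄) := by
  have y₁ := z₁.trans_le l₁
  have y₂ := z₂.trans_le l₂
  have y₃ := z₃.trans_le l₃
  have y₄ := z₄.trans_le l₄
  have key : ∀ X Y X' Y' : ℝ, 0 < X → 0 < Y → 0 < X' → 0 < Y' → Y ≤ X → X * Y ≤ X' * Y' →
      X * Y' ≤ X' * Y → Mj X Y X' Y' := fun X Y X' Y' a b c d e f g => by
    have h1 : X ≤ X' := by
      have := mul_le_mul f g (by positivity) (by positivity)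
      have h2 : X ^ 2 ≤ X' ^ 2 := le_of_mul_le_mul_right (by nlinarith) (mul_pos b d)
      exact (pow_le_pow_iff_left₀ a.le c.le two_ne_zero).1 h2
    have h3 : Y' ≤ X' := le_of_mul_le_mul_left (g.trans (by nlinarith)) a
    exact Mj.of b.le e d.le h3 h1 f g
  refine Four.aff χ (key _ _ _ _ (by positivity) (by positivity) (by positivity) (by positivity)
    (mul_le_mul l₁ l₂ z₂.le y₁.le) (by linarith)
    (mul_le_mul hp hq (by positivity) (by positivity))) ?_
  rcases le_total (p₁ * q₂) (q₁ * p₂) with c | c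
  · refine key _ _ _ _ (by positivity) (by positivity) (by positivity) (by positivity) c
      (by linarith) ?_
    have := mul_le_mul r₁ r₄ (by positivity) (by positivity)
    linarith
  · refine Mj.swap (key _ _ _ _ (by positivity) (by positivity) (by positivity) (by positivity) c
      (by linarith) ?_)
    have := mul_le_mul r₂ r₃ (by positivity) (by positivity)
    linarith

/-- lattice condition of one edge (bonds summed out) -/
theorem four_edge {G : Type*} [CommGroup G] (χ : G →* ℤˣ) (h : Fam w) {x y x' y' : ℤ}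
    (hx : 0 ≤ x) (hy : 0 ≤ y) (hx' : 0 ≤ x') (hy' : 0 ≤ y') :
    Four (aff χ (w (y - x)) (w (x + y))) (aff χ (w (y' - x')) (w (x' + y')))
      (aff χ (w (min y y' - min x x')) (w (min x x' + min y y')))
      (aff χ (w (max y y' - max x x')) (w (max x x' + max y y'))) := by
  have p := h.pos'
  have m1 : 0 ≤ min x x' := le_min hx hx'
  have m2 : 0 ≤ min y y' := le_min hy hy'
  refine four_pos χ (p _) (p _) (p _) (p _) (q_le_p h hx hy) (q_le_p h hx' hy') (q_le_p h m1 m2)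
    (q_le_p h (le_max_of_le_left hx) (le_max_of_le_left hy)) (h.lc'.edge x y x' y')
    (h.lc'.four (by omega) (by omega) (by omega)) ?_
    (coup_mono h m1 m2 (min_le_left _ _) (min_le_left _ _))
    (coup_mono h m1 m2 (min_le_right _ _) (min_le_right _ _))
    (coup_mono h hx hy (le_max_left _ _) (le_max_left _ _))
    (coup_mono h hx' hy' (le_max_right _ _) (le_max_right _ _))
  rcases le_total x x' with a | a <;> rcases le_total y y' with b | b
  · rw [min_eq_left a, min_eq_left b, max_eq_right a, max_eq_right b]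
  · rw [min_eq_left a, min_eq_right b, max_eq_right a, max_eq_left b]
    have := tp2_full h.ker hy' hx b a
    simp only [add_comm y, add_comm y'] at this
    exact this
  · rw [min_eq_right a, min_eq_left b, max_eq_left a, max_eq_right b]
    have := tp2_full h.ker hy hx' b a
    simp only [add_comm y, add_comm y'] at this
    linarith
  · rw [min_eq_right a, min_eq_right b, max_eq_left a, max_eq_left b, mul_comm]

/-- the bond weight in spin form -/
noncomputable def bA {G : Type*} [CommGroup G] (χ : G →* ℤˣ) (p q : ℝ) (o : Prop) [Decidable o] :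
    G → ℝ := if o then aff χ (p - q) 0 else aff χ q q

theorem Pos.bA {G : Type*} [CommGroup G] (χ : G →* ℤˣ) {p q : ℝ} (hq : 0 ≤ q) (h : q ≤ p)
    (o : Prop) [Decidable o] : Pos (bA χ p q o) := by
  unfold Gk60.bA
  split_ifs
  · exact Pos.aff χ le_rfl (sub_nonneg.2 h)
  · exact Pos.aff χ hq le_rfl

/-- lattice condition of one bond between ordered heights -/
theorem four_bond {G : Type*} [CommGroup G] (χ : G →* ℤˣ) {p q p' q' : ℝ} (hq : 0 ≤ q) (h : q ≤ p)
    (hq' : 0 ≤ q') (h' : q' ≤ p') (r : p * q' ≤ q * p') (o o' o₁ o₂ : Prop) [Decidable o]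
    [Decidable o'] [Decidable o₁] [Decidable o₂] (e₁ : o₁ ↔ o ∧ o') (e₂ : o₂ ↔ o ∨ o') :
    Four (bA χ p q o) (bA χ p' q' o') (bA χ p q o₁) (bA χ p' q' o₂) := by
  have d := sub_nonneg.2 h
  have d' := sub_nonneg.2 h'
  have k : (p - q) * q' ≤ q * (p' - q') := by linarith
  have k0 : 0 ≤ (p - q) * q' := mul_nonneg d hq'
  unfold bA
  by_cases a : o <;> by_cases b : o' <;> simp only [e₁, e₂, a, b, and_self, or_self, and_false,
    false_and, or_false, false_or, if_true, if_false] <;> refine Four.aff χ ?_ ?_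
  · exact Mj.refl (by simp) (by simpa using mul_nonneg d d')
  · exact Mj.refl (by simp) (by simp)
  · simp only [zero_mul, mul_zero]
    exact ⟨by rw [add_zero, add_zero, abs_of_nonneg k0]; exact k,
      by rw [sub_zero, sub_zero, abs_of_nonneg k0]; exact k⟩
  · simp only [zero_mul, mul_zero]
    exact Mj.swap ⟨by rw [add_zero, add_zero, abs_of_nonneg k0]; exact k,
      by rw [sub_zero, sub_zero, abs_of_nonneg k0]; exact k⟩
  · exact Mj.refl (by simp) (by simpa using mul_nonneg hq d')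
  · exact Mj.refl (by simp) (by simpa using mul_nonneg hq d')
  · exact Mj.refl (mul_nonneg hq hq') le_rfl
  · exact Mj.refl (mul_nonneg hq hq') le_rfl

end ker

end Crest.Agent.T145.Gk60
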