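import Crest.Agent.T145.GksA_60

/-!
# Row 145: GKS-II + absolute-value FKG with bonds, two-model form (helper60)

`Gk60.two`: for two models with the same edges whose site weights (pins included) are in the order `SLe`,
`(∑ J' F)(∑ J G) ≤ (∑ J')(∑ J F G)` for `F`, `G` in the class `Gks`.
-/

set_option autoImplicit false

namespace Crest.Agent.T145.Gk60

open Finset

/-- order between site weights -/
structure SLe (u' u : ℤ → ℝ) : Prop where
  n' : ∀ k, 0 ≤ u' k
  n : ∀ k, 0 ≤ u k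
  p' : ∀ k, 0 ≤ k → u' (-k) ≤ u' k
  p : ∀ k, 0 ≤ k → u (-k) ≤ u k
  r : ∀ j k, 0 ≤ j → j ≤ k → u' j * u (-k) ≤ u' (-j) * u k
  s : ∀ j k, 0 ≤ k → k ≤ j →
    Mj (u' j * u k) (u' (-j) * u (-k)) (u' k * u j) (u' (-k) * u (-j)) ∧
      Mj (u' (-j) * u k) (u' j * u (-k)) (u' (-k) * u j) (u' k * u (-j))

section site
variable {G : Type*} [CommGroup G] {u' u : ℤ → ℝ}

theorem SLe.four_le (h : SLe u' u) (χ : G →* ℤˣ) {j k : ℤ} (hj : 0 ≤ j) (hjk : j ≤ k) :
    Four (aff χ (u' j) (u' (-j))) (aff χ (u k) (u (-k))) (aff χ (u' j) (u' (-j)))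
      (aff χ (u k) (u (-k))) :=
  Four.aff χ (Mj.refl (mul_nonneg (h.n' _) (h.n _))
    (mul_le_mul (h.p' j hj) (h.p k (hj.trans hjk)) (h.n _) (h.n' _)))
    (Mj.refl (mul_nonneg (h.n' _) (h.n _)) (h.r j k hj hjk))

theorem SLe.four (h : SLe u' u) (χ : G →* ℤˣ) {j k : ℤ} (hj : 0 ≤ j) (hk : 0 ≤ k) :
    Four (aff χ (u' j) (u' (-j))) (aff χ (u k) (u (-k))) (aff χ (u' (min j k)) (u' (-min j k)))
      (aff χ (u (max j k)) (u (-max j k))) := by
  rcases le_total j k with c | c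
  · rw [min_eq_left c, max_eq_right c]; exact h.four_le χ hj c
  · rw [min_eq_right c, max_eq_left c]; exact Four.aff χ (h.s j k hk c).1 (h.s j k hk c).2

end site

variable {V : Type*} [DecidableEq V]

/-- the spin at `x` (`+1` off `B`) -/
def sg (B : Finset V) (x : V) : (B → ℤˣ) →* ℤˣ :=
  if h : x ∈ B then Pi.evalMonoidHom (fun _ : B => ℤˣ) ⟨x, h⟩ else 1

/-- action of the spins on the heights -/
noncomputable def act {B : Finset V} (σ : B → ℤˣ) (a : Cfg V) : Cfg V :=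
  Finsupp.onFinset a.support (fun x => (sg B x σ : ℤ) * a x) fun _ hx =>
    Finsupp.mem_support_iff.2 (right_ne_zero_of_mul hx)

variable {B : Finset V}

theorem act_apply (σ : B → ℤˣ) (a : Cfg V) (x : V) : act σ a x = (sg B x σ : ℤ) * a x := rfl

theorem act_act (σ : B → ℤˣ) (a : Cfg V) : act σ (act σ a) = a := by
  ext x
  rw [act_apply, act_apply]
  rcases Int.units_eq_one_or (sg B x σ) with h | h <;> simp [h]

theorem abs_act (σ : B → ℤˣ) {a : Cfg V} (ha : 0 ≤ a) (x : V) : |act σ a x| = a x := by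
  rw [act_apply]
  have : 0 ≤ a x := ha x
  rcases Int.units_eq_one_or (sg B x σ) with h | h <;> simp [h, this]

theorem ab_act (σ : B → ℤˣ) {a : Cfg V} (ha : 0 ≤ a) : ab (act σ a) = a := by
  ext x; rw [ab_apply, abs_act σ ha]

theorem gks_lo {F : Cfg V × Finset (V × V) → ℝ} (hF : Gks F) {a c : Cfg V} (ha : 0 ≤ a)
    (hac : a ≤ c) {ω ω' : Finset (V × V)} (hω : ω ⊆ ω') :
    Lo (fun σ : B → ℤˣ => F (act σ a, ω)) fun σ => F (act σ c, ω') := by
  obtain ⟨𝒯, g, g0, gm, hF⟩ := hF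
  have e : ∀ (b : Cfg V) (ν : Finset (V × V)) (σ : B → ℤˣ), 0 ≤ b → F (act σ b, ν) =
      ∑ T ∈ 𝒯, (g T (b, ν) * ∏ x ∈ T, ((b x).sign : ℝ)) * cv (∏ x ∈ T, sg B x) σ := by
    intro b ν σ hb
    rw [hF]
    refine sum_congr rfl fun T _ => ?_
    simp only [ab_act σ hb, act_apply, Int.sign_mul, Int.cast_mul, prod_mul_distrib, cv,
      MonoidHom.finsetProd_apply, Units.coe_prod, Int.cast_prod]
    have : ∏ x ∈ T, (((sg B x σ : ℤ).sign : ℤ) : ℝ) = ∏ x ∈ T, ((sg B x σ : ℤ) : ℝ) :=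
      prod_congr rfl fun x _ => by
        rcases Int.units_eq_one_or (sg B x σ) with h | h <;> simp [h]
    rw [this]; ring
  have sn : ∀ b : Cfg V, 0 ≤ b → ∀ x, (0 : ℝ) ≤ ((b x).sign : ℝ) := fun b hb x => by
    exact_mod_cast Int.sign_nonneg_iff.2 (hb x)
  have key := Lo.sum_ch 𝒯 (fun T => ∏ x ∈ T, sg B x)
    (c := fun T => g T (a, ω) * ∏ x ∈ T, ((a x).sign : ℝ))
    (d := fun T => g T (c, ω') * ∏ x ∈ T, ((c x).sign : ℝ)) fun T _ => by
      rw [abs_of_nonneg (mul_nonneg (g0 T _ ha) (prod_nonneg fun x _ => sn a ha x))]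
      refine mul_le_mul (gm T _ _ ha ⟨hac, hω⟩) (prod_le_prod (fun x _ => sn a ha x) fun x _ => ?_)
        (prod_nonneg fun x _ => sn a ha x) (g0 T _ (ha.trans hac))
      have h1 : 0 ≤ a x := ha x
      have h2 : a x ≤ c x := hac x
      rcases h1.eq_or_lt with h | h
      · rw [← h]; simpa using sn c (ha.trans hac) x
      · rw [Int.sign_eq_one_of_pos h, Int.sign_eq_one_of_pos (h.trans_le h2)]
  intro τ
  exact (key τ).congr (fun σ => e a ω _ ha) fun σ => e c ω' σ (ha.trans hac)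

variable (B) (ed : Finset (V × V)) (w : V × V → ℤ → ℝ)

/-- the weight of bonds and spins given the absolute heights -/
noncomputable def Q (u : V → ℤ → ℝ) (a : Cfg V) (ω : Finset (V × V)) (σ : B → ℤˣ) : ℝ :=
  ind (ω ⊆ ed) * (∏ e ∈ ed, bA (sg B e.1 * sg B e.2) (w e (a e.2 - a e.1)) (w e (a e.1 + a e.2))
    (e ∈ ω) σ) * ∏ x ∈ B, aff (sg B x) (u x (a x)) (u x (-a x)) σ

/-- unnormalised conditional mean given the absolute heights -/
noncomputable def Fi (u : V → ℤ → ℝ) (F : Cfg V × Finset (V × V) → ℝ) (a : Cfg V) : ℝ :=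
  ∑ ω ∈ ed.powerset, ∑ σ : B → ℤˣ, Q B ed w u a ω σ * F (act σ a, ω)

variable {B ed w} {u' u : V → ℤ → ℝ} {F G : Cfg V × Finset (V × V) → ℝ}

theorem J_act (hw : ∀ e ∈ ed, Fam (w e)) (u : V → ℤ → ℝ) {a : Cfg V} (ha : 0 ≤ a)
    (h0 : ∀ x, x ∉ B → a x = 0) (ω : Finset (V × V)) (σ : B → ℤˣ) :
    (Mdl.mk B ed w u).J 0 0 (act σ a, ω) = Q B ed w u a ω σ := by
  unfold Mdl.J Q
  rw [ind_pos (fun x hx => by rw [act_apply, h0 x hx]; simp), one_mul]
  congr 1
  · congr 1
    refine prod_congr rfl fun e he => ?_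
    have ev := (hw e he).even
    simp only [Mdl.bw, bA, sub_zero, abs_act σ ha, dE]
    split_ifs with o
    · simp only [act_apply, aff, MonoidHom.mul_apply]
      rcases Int.units_eq_one_or (sg B e.1 σ) with h | h <;>
        rcases Int.units_eq_one_or (sg B e.2 σ) with k | k <;> simp [h, k]
      · rw [← ev, sub_eq_zero]; congr 1; ring
      · rw [add_comm, sub_self]
      · rw [← ev]; congr 1; ring
    · simp [aff]
  · refine prod_congr rfl fun x _ => ?_
    simp only [act_apply, aff]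
    rcases Int.units_eq_one_or (sg B x σ) with h | h <;> simp [h]

theorem Q_pos (hw : ∀ e ∈ ed, Fam (w e)) (n : ∀ x ∈ B, ∀ k, 0 ≤ u x k)
    (p : ∀ x ∈ B, ∀ k, 0 ≤ k → u x (-k) ≤ u x k) {a : Cfg V} (ha : 0 ≤ a) (ω : Finset (V × V)) :
    Pos (Q B ed w u a ω) :=
  ((Pos.const (ind_nonneg _)).mul (Pos.prod ed fun e he => Pos.bA _ ((hw e he).pos' _).le
    (q_le_p (hw e he) (ha _) (ha _)) _)).mul
    (Pos.prod B fun x hx => Pos.aff _ (n x hx _) (p x hx _ (ha x)))

theorem Q_nonneg (hw : ∀ e ∈ ed, Fam (w e)) (n : ∀ x ∈ B, ∀ k, 0 ≤ u x k) {a : Cfg V} (ha : 0 ≤ a)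
    (ω : Finset (V × V)) (σ : B → ℤˣ) : 0 ≤ Q B ed w u a ω σ := by
  refine mul_nonneg (mul_nonneg (ind_nonneg _) (prod_nonneg fun e he => ?_))
    (prod_nonneg fun x hx => aff_nonneg _ (n x hx _) (n x hx _) _)
  unfold bA
  split_ifs
  · exact aff_nonneg _ (sub_nonneg.2 (q_le_p (hw e he) (ha _) (ha _))) le_rfl _
  · exact aff_nonneg _ ((hw e he).pos' _).le ((hw e he).pos' _).le _

omit [DecidableEq V] in
theorem gks_one : Gks fun _ : Cfg V × Finset (V × V) => (1 : ℝ) :=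
  ⟨{∅}, fun _ _ => 1, fun _ _ _ => zero_le_one, fun _ _ _ _ _ => le_rfl, fun _ => by simp⟩

theorem Fi_nonneg (hw : ∀ e ∈ ed, Fam (w e)) (n : ∀ x ∈ B, ∀ k, 0 ≤ u x k)
    (p : ∀ x ∈ B, ∀ k, 0 ≤ k → u x (-k) ≤ u x k) (hF : Gks F) (hG : Gks G) {a : Cfg V}
    (ha : 0 ≤ a) : 0 ≤ Fi B ed w u (fun q => F q * G q) a :=
  sum_nonneg fun ω _ => ((Q_pos hw n p ha ω).mul ((gks_lo hF ha le_rfl (Subset.refl ω)).pos.mul
    (gks_lo hG ha le_rfl (Subset.refl ω)).pos)).sum_nonneg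

theorem Fi_nonneg' (hw : ∀ e ∈ ed, Fam (w e)) (n : ∀ x ∈ B, ∀ k, 0 ≤ u x k)
    (p : ∀ x ∈ B, ∀ k, 0 ≤ k → u x (-k) ≤ u x k) (hF : Gks F) {a : Cfg V}
    (ha : 0 ≤ a) : 0 ≤ Fi B ed w u F a := by
  simpa using Fi_nonneg hw n p hF gks_one ha

theorem Fi_zero (hw : ∀ e ∈ ed, Fam (w e)) (n : ∀ x ∈ B, ∀ k, 0 ≤ u x k) {a : Cfg V} (ha : 0 ≤ a)
    (h : Fi B ed w u (fun _ => 1) a = 0) (F : Cfg V × Finset (V × V) → ℝ) :
    Fi B ed w u F a = 0 := by
  simp only [Fi, mul_one] at h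
  refine sum_eq_zero fun ω hω => sum_eq_zero fun σ hσ => ?_
  have h1 := (sum_eq_zero_iff_of_nonneg fun ω _ =>
    sum_nonneg fun σ _ => Q_nonneg hw n ha ω σ).1 h ω hω
  rw [(sum_eq_zero_iff_of_nonneg fun σ _ => Q_nonneg hw n ha ω σ).1 h1 σ hσ, zero_mul]

/-- conditional GKS-II and monotonicity in the absolute heights -/
theorem Fi_le (hw : ∀ e ∈ ed, Fam (w e)) (h : ∀ x ∈ B, SLe (u' x) (u x)) (hF : Gks F) (hG : Gks G)
    {a c : Cfg V} (ha : 0 ≤ a) (hac : a ≤ c) :
    Fi B ed w u' F a * Fi B ed w u G c ≤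
      Fi B ed w u' (fun _ => 1) a * Fi B ed w u (fun q => F q * G q) c := by
  have hc := ha.trans hac
  have P' := Q_pos hw (fun x hx => (h x hx).n') (fun x hx => (h x hx).p') ha
  have P := Q_pos hw (fun x hx => (h x hx).n) (fun x hx => (h x hx).p) hc
  have key := four_functions_theorem
    (fun ω => ∑ σ : B → ℤˣ, Q B ed w u' a ω σ * F (act σ a, ω))
    (fun ω => ∑ σ : B → ℤˣ, Q B ed w u c ω σ * G (act σ c, ω))
    (fun ω => ∑ σ : B → ℤˣ, Q B ed w u' a ω σ * 1)
    (fun ω => ∑ σ : B → ℤˣ, Q B ed w u c ω σ * (F (act σ c, ω) * G (act σ c, ω)))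
    (fun ω => ((P' ω).mul (gks_lo hF ha le_rfl (Subset.refl ω)).pos).sum_nonneg)
    (fun ω => ((P ω).mul (gks_lo hG hc le_rfl (Subset.refl ω)).pos).sum_nonneg)
    (fun ω => ((P' ω).mul (Pos.const zero_le_one)).sum_nonneg)
    (fun ω => ((P ω).mul ((gks_lo hF hc le_rfl (Subset.refl ω)).pos.mul
      (gks_lo hG hc le_rfl (Subset.refl ω)).pos)).sum_nonneg)
    (fun ω ω' => Four.sum_le (Four.mul (Four.mul (Four.mul (Four.const ?_)
      (Four.prod ed fun e he => ?_)) (Four.prod B fun x hx => (h x hx).four_le _ (ha x) (hac x)))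
      ((gks_lo hF ha hac subset_union_left).four (gks_lo hG hc le_rfl subset_union_right))))
    ed.powerset ed.powerset
  · rw [powerset_infs_powerset_self, powerset_sups_powerset_self] at key
    exact key
  · rw [← ind_and, ← ind_and, abs_of_nonneg (ind_nonneg _)]
    exact ind_mono fun k => ⟨inter_subset_left.trans k.1, union_subset k.1 k.2⟩
  · exact four_bond _ ((hw e he).pos' _).le (q_le_p (hw e he) (ha _) (ha _)) ((hw e he).pos' _).le
      (q_le_p (hw e he) (hc _) (hc _)) (coup_mono (hw e he) (ha _) (ha _) (hac _) (hac _)) _ _ _ _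
      mem_inter mem_union

theorem Fi_one (u : V → ℤ → ℝ) (a : Cfg V) : Fi B ed w u (fun _ => 1) a =
    ∑ σ : B → ℤˣ, (∏ e ∈ ed, aff (sg B e.1 * sg B e.2) (w e (a e.2 - a e.1))
      (w e (a e.1 + a e.2)) σ) * ∏ x ∈ B, aff (sg B x) (u x (a x)) (u x (-a x)) σ := by
  unfold Fi Q
  rw [sum_comm]
  refine sum_congr rfl fun σ _ => ?_
  simp only [mul_one]
  rw [← sum_mul]
  congr 1
  rw [sum_congr rfl fun ω hω => by rw [ind_pos (mem_powerset.1 hω), one_mul]]
  simp only [bA, ite_apply]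
  rw [Sw9.sum_ite_prod]
  refine prod_congr rfl fun e _ => ?_
  unfold aff
  split_ifs <;> ring

/-- lattice condition for the law of the absolute heights -/
theorem Fi_lsm (hw : ∀ e ∈ ed, Fam (w e)) (h : ∀ x ∈ B, SLe (u' x) (u x)) {a b : Cfg V}
    (ha : 0 ≤ a) (hb : 0 ≤ b) :
    Fi B ed w u' (fun _ => 1) a * Fi B ed w u (fun _ => 1) b ≤
      Fi B ed w u' (fun _ => 1) (a ⊓ b) * Fi B ed w u (fun _ => 1) (a ⊔ b) := by
  simp only [Fi_one, cfg_inf_apply, cfg_sup_apply]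
  exact Four.sum_le (Four.mul (Four.prod ed fun e he =>
    four_edge _ (hw e he) (ha _) (ha _) (hb _) (hb _))
    (Four.prod B fun x hx => (h x hx).four _ (ha x) (hb x)))

theorem Fi_four (hw : ∀ e ∈ ed, Fam (w e)) (h : ∀ x ∈ B, SLe (u' x) (u x))
    (k : ∀ x ∈ B, SLe (u x) (u x)) (hF : Gks F) (hG : Gks G) {a b : Cfg V} (ha : 0 ≤ a)
    (hb : 0 ≤ b) : Fi B ed w u' F a * Fi B ed w u G b ≤
      Fi B ed w u' (fun _ => 1) (a ⊓ b) * Fi B ed w u (fun q => F q * G q) (a ⊔ b) := by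
  have n' := fun x hx => (h x hx).n'
  have p' := fun x hx => (h x hx).p'
  have n := fun x hx => (h x hx).n
  have p := fun x hx => (h x hx).p
  have hc : 0 ≤ a ⊔ b := ha.trans le_sup_left
  have hl : 0 ≤ a ⊓ b := le_inf ha hb
  have i1 := Fi_le hw h hF gks_one ha (le_sup_left (b := b))
  have i2 := Fi_le hw k hG gks_one hb (le_sup_right (a := a))
  have i3 := Fi_le hw k hF hG hc le_rfl
  have i4 := Fi_lsm hw h ha hb
  simp only [mul_one] at i1 i2
  have z1 := Fi_nonneg' hw n' p' hF ha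
  have z2 := Fi_nonneg' hw n p hG hb
  have z3 := Fi_nonneg' hw n' p' gks_one hl
  have z4 := Fi_nonneg hw n p hF hG hc
  have z5 := Fi_nonneg' hw n' p' gks_one ha
  have z6 := Fi_nonneg' hw n p gks_one hb
  have z7 := Fi_nonneg' hw n p hF hc
  have z8 := Fi_nonneg' hw n p hG hc
  rcases (Fi_nonneg' hw n p gks_one hc).eq_or_lt with z | z
  · rw [← z, mul_zero] at i4
    rcases mul_eq_zero.1 (le_antisymm i4 (mul_nonneg z5 z6)) with y | y
    · rw [Fi_zero hw n' ha y, zero_mul]; exact mul_nonneg z3 z4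
    · rw [Fi_zero hw n hb y, mul_zero]; exact mul_nonneg z3 z4
  · have j1 := mul_le_mul i1 i2 (mul_nonneg z2 z.le) (mul_nonneg z5 z7)
    have j2 := mul_le_mul i4 i3 (mul_nonneg z7 z8) (mul_nonneg z3 z.le)
    refine le_of_mul_le_mul_right ?_ (mul_pos z z)
    linarith

/-- weight of the absolute value `k` (half at `0`, none for `k < 0`) -/
noncomputable def kp (k : ℤ) : ℝ := if k = 0 then 1 / 2 else if 0 < k then 1 else 0

theorem kp_nonneg (k : ℤ) : 0 ≤ kp k := by unfold kp; split_ifs <;> norm_num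
theorem kp_le (k : ℤ) : kp k ≤ 1 := by unfold kp; split_ifs <;> norm_num
theorem kp_ne {k : ℤ} (h : kp k ≠ 0) : 0 ≤ k := by
  unfold kp at h; split_ifs at h with a b <;> first | omega | exact absurd rfl h

theorem sum_kp (s : Cfg V) : ∑ σ : B → ℤˣ, ∏ x ∈ B, kp (act σ s x) = 1 := by
  have e : ∀ σ : B → ℤˣ, ∏ x ∈ B, kp (act σ s x) = ∏ x : B, kp ((σ x : ℤ) * s x) := fun σ => by
    rw [← prod_coe_sort B]
    exact prod_congr rfl fun x _ => by simp [act_apply, sg]
  simp only [e]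
  rw [← Fintype.piFinset_univ, ← prod_univ_sum (fun _ => univ) fun (x : B) (v : ℤˣ) =>
    kp ((v : ℤ) * s x)]
  refine prod_eq_one fun x _ => ?_
  rw [show (univ : Finset ℤˣ) = {1, -1} by decide, sum_pair (by decide)]
  simp only [kp, Units.val_one, one_mul, Units.val_neg, neg_mul, neg_eq_zero, neg_pos]
  split_ifs <;> first | omega | norm_num

variable (B ed w) in
/-- the sum over signs and bonds at given absolute heights -/
noncomputable def Ps (u : V → ℤ → ℝ) (F : Cfg V × Finset (V × V) → ℝ) (a : Cfg V) : ℝ :=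
  (∏ x ∈ B, kp (a x)) * ind (∀ x, x ∉ B → a x = 0) * Fi B ed w u F a

theorem Ps_cases (a : Cfg V) : (∏ x ∈ B, kp (a x)) * ind (∀ x, x ∉ B → a x = 0) = 0 ∨
    (0 ≤ a ∧ ∀ x, x ∉ B → a x = 0) := by
  by_cases h : (∏ x ∈ B, kp (a x)) * ind (∀ x, x ∉ B → a x = 0) = 0
  · exact Or.inl h
  · have h2 := ind_ne_zero.1 (right_ne_zero_of_mul h)
    refine Or.inr ⟨fun x => ?_, h2⟩
    by_cases hx : x ∈ B
    · exact kp_ne (prod_ne_zero_iff.1 (left_ne_zero_of_mul h) x hx)
    · exact (h2 x hx).ge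

theorem hasSum_Ps (hw : ∀ e ∈ ed, Fam (w e)) (hF : Ig ((Mdl.mk B ed w u).J 0 0) F) :
    HasSum (Ps B ed w u F) (∑' p, (Mdl.mk B ed w u).J 0 0 p * F p) := by
  set m := Mdl.mk B ed w u with hm
  set h : Cfg V → ℝ := fun s => ∑ ω ∈ ed.powerset, m.J 0 0 (s, ω) * F (s, ω) with hh
  have h1 : HasSum h (∑' p, m.J 0 0 p * F p) :=
    (Summable.hasSum hF).prod_fiberwise fun s => m.hasSum_J_fib 0 0 s F
  have h2 : ∀ σ : B → ℤˣ, Summable fun s => (∏ x ∈ B, kp (act σ s x)) * h s := fun σ =>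
    Summable.of_norm_bounded h1.summable.abs fun s => by
      rw [Real.norm_eq_abs, abs_mul, abs_of_nonneg (prod_nonneg fun x _ => kp_nonneg _)]
      exact mul_le_of_le_one_left (abs_nonneg _)
        (prod_le_one (fun x _ => kp_nonneg _) fun x _ => kp_le _)
  have h3 := hasSum_sum (s := univ) fun σ _ => (h2 σ).hasSum
  simp only [← sum_mul, sum_kp, one_mul] at h3
  rw [h1.unique h3]
  have h4 : ∀ σ : B → ℤˣ, HasSum (fun a => (∏ x ∈ B, kp (a x)) * h (act σ a))
      (∑' s, (∏ x ∈ B, kp (act σ s x)) * h s) := fun σ => by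
    have := (Function.Involutive.toPerm (act σ) (act_act σ)).hasSum_iff.2 (h2 σ).hasSum
    refine this.congr_fun fun a => ?_
    show _ = (∏ x ∈ B, kp (act σ (act σ a) x)) * h (act σ a)
    rw [act_act]
  refine (hasSum_sum (s := univ) fun σ _ => h4 σ).congr_fun fun a => ?_
  rw [← mul_sum, Ps, mul_assoc]
  by_cases z : ∏ x ∈ B, kp (a x) = 0
  · rw [z, zero_mul, zero_mul]
  congr 1
  by_cases o : ∀ x, x ∉ B → a x = 0
  · have ha : 0 ≤ a := ((Ps_cases (B := B) a).resolve_left (by rw [ind_pos o, mul_one]; exact z)).1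
    rw [ind_pos o, one_mul, Fi, sum_comm]
    exact sum_congr rfl fun σ _ => sum_congr rfl fun ω _ => by rw [hm, J_act hw u ha o]
  · rw [ind_neg o, zero_mul]
    refine (sum_eq_zero fun σ _ => sum_eq_zero fun ω _ => ?_).symm
    rw [Mdl.J, ind_neg fun k => o fun x hx => ?_]
    · simp
    · have := k x hx
      simp only [act_apply, Finsupp.coe_zero, Pi.zero_apply, mul_eq_zero, Units.ne_zero,
        false_or] at this
      exact this

theorem Ps_nonneg {a : Cfg V} (h : 0 ≤ a → 0 ≤ Fi B ed w u F a) : 0 ≤ Ps B ed w u F a := by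
  unfold Ps
  rcases Ps_cases (B := B) a with z | z
  · rw [z, zero_mul]
  · exact mul_nonneg (mul_nonneg (prod_nonneg fun x _ => kp_nonneg _) (ind_nonneg _)) (h z.1)

/-- the two-model inequality, zero boundary condition -/
theorem core (hw : ∀ e ∈ ed, Fam (w e)) (h : ∀ x ∈ B, SLe (u' x) (u x))
    (k : ∀ x ∈ B, SLe (u x) (u x)) (hF : Gks F) (hG : Gks G)
    (s' : Summable ((Mdl.mk B ed w u').J 0 0)) (iF : Ig ((Mdl.mk B ed w u').J 0 0) F)
    (iG : Ig ((Mdl.mk B ed w u).J 0 0) G) (iFG : Ig ((Mdl.mk B ed w u).J 0 0) fun p => F p * G p) :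
    (∑' p, (Mdl.mk B ed w u').J 0 0 p * F p) * (∑' p, (Mdl.mk B ed w u).J 0 0 p * G p) ≤
      Zs ((Mdl.mk B ed w u').J 0 0) * ∑' p, (Mdl.mk B ed w u).J 0 0 p * (F p * G p) := by
  have n' := fun x hx => (h x hx).n'
  have p' := fun x hx => (h x hx).p'
  have n := fun x hx => (h x hx).n
  have p := fun x hx => (h x hx).p
  have a1 := hasSum_Ps hw iF
  have a2 := hasSum_Ps hw iG
  have a3 := hasSum_Ps hw (Ig.const s' 1)
  have a4 := hasSum_Ps hw iFG
  have z3 : ∀ a, 0 ≤ Ps B ed w u' (fun _ => 1) a := fun a =>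
    Ps_nonneg fun ha => Fi_nonneg' hw n' p' gks_one ha
  have z4 : ∀ a, 0 ≤ Ps B ed w u (fun p => F p * G p) a := fun a =>
    Ps_nonneg fun ha => Fi_nonneg hw n p hF hG ha
  have key := Fk86.four (fun a => Ps_nonneg fun ha => Fi_nonneg' hw n' p' hF ha)
    (fun a => Ps_nonneg fun ha => Fi_nonneg' hw n p hG ha) z3 z4 a1.summable a2.summable
    a3.summable a4.summable fun a b => ?_
  · simp only [Zs, a1.tsum_eq, a2.tsum_eq, a3.tsum_eq, a4.tsum_eq, mul_one] at key
    exact key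
  rcases Ps_cases (B := B) a with z | ⟨ha, oa⟩
  · rw [Ps, z, zero_mul, zero_mul]; exact mul_nonneg (z3 _) (z4 _)
  rcases Ps_cases (B := B) b with z | ⟨hb, ob⟩
  · rw [Ps.eq_def B ed w u G, z, zero_mul, mul_zero]; exact mul_nonneg (z3 _) (z4 _)
  have e : (∏ x ∈ B, kp (a x)) * ∏ x ∈ B, kp (b x) =
      (∏ x ∈ B, kp ((a ⊓ b) x)) * ∏ x ∈ B, kp ((a ⊔ b) x) := by
    rw [← prod_mul_distrib, ← prod_mul_distrib]
    refine prod_congr rfl fun x _ => ?_
    rw [cfg_inf_apply, cfg_sup_apply]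
    rcases le_total (a x) (b x) with c | c
    · rw [min_eq_left c, max_eq_right c]
    · rw [min_eq_right c, max_eq_left c, mul_comm]
  have o1 : ∀ x, x ∉ B → (a ⊓ b) x = 0 := fun x hx => by rw [cfg_inf_apply, oa x hx, ob x hx]; rfl
  have o2 : ∀ x, x ∉ B → (a ⊔ b) x = 0 := fun x hx => by rw [cfg_sup_apply, oa x hx, ob x hx]; rfl
  simp only [Ps, ind_pos oa, ind_pos ob, ind_pos o1, ind_pos o2, mul_one]
  rw [mul_mul_mul_comm, mul_mul_mul_comm (∏ x ∈ B, kp ((a ⊓ b) x)), e]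
  exact mul_le_mul_of_nonneg_left (Fi_four hw h k hF hG ha hb)
    (mul_nonneg (prod_nonneg fun x _ => kp_nonneg _) (prod_nonneg fun x _ => kp_nonneg _))

/-- the weight of the site `x`, pins included -/
noncomputable def us (m : Mdl V) (η : Cfg V) (x : V) (k : ℤ) : ℝ :=
  if x ∈ m.A then m.site x k else ind (k = η x)

theorem J_norm (m : Mdl V) (η : Cfg V) (hA : m.A ⊆ B) (hη : η.support ⊆ B) :
    m.J 0 η = (Mdl.mk B m.ed m.w (us m η)).J 0 0 := by
  funext p
  unfold Mdl.J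
  have e : ind (∀ x, x ∉ m.A → p.1 x = η x) * ∏ x ∈ m.A, m.site x (p.1 x) =
      ind (∀ x, x ∉ B → p.1 x = (0 : Cfg V) x) * ∏ x ∈ B, us m η x (p.1 x) := by
    rw [← prod_sdiff hA, ← mul_assoc]
    congr 1
    · rw [prod_congr rfl fun x hx => show us m η x (p.1 x) = ind (p.1 x = η x) from
        if_neg (mem_sdiff.1 hx).2, ← ind_forall, ← ind_and]
      have z : ∀ x, x ∉ B → η x = 0 := fun x hx => Finsupp.notMem_support_iff.1 fun k => hx (hη k)
      refine ind_congr ⟨fun k => ⟨fun x hx => (k x fun c => hx (hA c)).trans (z x hx),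
        fun x hx => k x (mem_sdiff.1 hx).2⟩, fun k x hx => ?_⟩
      by_cases c : x ∈ B
      · exact k.2 x (mem_sdiff.2 ⟨c, hx⟩)
      · exact (k.1 x c).trans (z x c).symm
    · exact prod_congr rfl fun x hx => (if_pos hx).symm
  have r : ∀ a b c d : ℝ, a * b * c * d = a * d * (b * c) := fun a b c d => by ring
  rw [r, r, e]
  rfl

/-- **GKS-II + absolute-value FKG, two-model form** -/
theorem two {m' m : Mdl V} {η' η : Cfg V} (hE : m'.ed = m.ed) (hw : m'.w = m.w) (hm : m.Fm)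
    (h : ∀ x, SLe (us m' η' x) (us m η x)) (k : ∀ x, SLe (us m η x) (us m η x)) (hF : Gks F)
    (hG : Gks G) (s' : Summable (m'.J 0 η')) (iF : Ig (m'.J 0 η') F) (iG : Ig (m.J 0 η) G)
    (iFG : Ig (m.J 0 η) fun p => F p * G p) :
    (∑' p, m'.J 0 η' p * F p) * (∑' p, m.J 0 η p * G p) ≤
      Zs (m'.J 0 η') * ∑' p, m.J 0 η p * (F p * G p) := by
  have e' := J_norm (B := m'.A ∪ η'.support ∪ (m.A ∪ η.support)) m' η'
    (subset_union_left.trans subset_union_left) (subset_union_right.trans subset_union_left)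
  have e := J_norm (B := m'.A ∪ η'.support ∪ (m.A ∪ η.support)) m η
    (subset_union_left.trans subset_union_right) (subset_union_right.trans subset_union_right)
  rw [hE, hw] at e'
  rw [e'] at s' iF ⊢
  rw [e] at iG iFG ⊢
  exact core hm (fun x _ => h x) (fun x _ => k x) hF hG s' iF iG iFG

/-! ### site weights in the order `SLe` -/

theorem mj_exp {x y : ℝ} (h : |x| ≤ y) :
    Mj (Real.exp x) (Real.exp (-x)) (Real.exp y) (Real.exp (-y)) := by
  have hy : 0 ≤ y := (abs_nonneg x).trans h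
  have key : ∀ x : ℝ, 0 ≤ x → x ≤ y →
      Mj (Real.exp x) (Real.exp (-x)) (Real.exp y) (Real.exp (-y)) := fun x hx hxy =>
    Mj.of (Real.exp_pos _).le (Real.exp_le_exp.2 (by linarith)) (Real.exp_pos _).le
      (Real.exp_le_exp.2 (by linarith)) (Real.exp_le_exp.2 hxy)
      (by rw [← Real.exp_add, ← Real.exp_add]; simp)
      (by rw [← Real.exp_add, ← Real.exp_add]; exact Real.exp_le_exp.2 (by linarith))
  rcases le_total 0 x with c | c
  · exact key x c ((le_abs_self x).trans h)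
  · have := (key (-x) (by linarith) ((neg_le_abs x).trans h)).swap
    rwa [neg_neg] at this

/-- even weights in Holley order of `|k|`, ordered nonnegative forces -/
theorem sle_force {v' v : ℤ → ℝ} {f' f : ℝ} (n' : ∀ k, 0 ≤ v' k) (n : ∀ k, 0 ≤ v k)
    (e' : ∀ k, v' (-k) = v' k) (e : ∀ k, v (-k) = v k)
    (hv : ∀ j k, 0 ≤ k → k ≤ j → v' j * v k ≤ v' k * v j) (hf' : 0 ≤ f') (hf : f' ≤ f) :
    SLe (fun k => v' k * Real.exp (f' * k)) fun k => v k * Real.exp (f * k) := by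
  have hf0 := hf'.trans hf
  refine ⟨fun k => mul_nonneg (n' k) (Real.exp_pos _).le, fun k => mul_nonneg (n k)
    (Real.exp_pos _).le, fun k hk => ?_, fun k hk => ?_, fun j k hj hjk => ?_,
    fun j k hk hkj => ?_⟩
  · have : (0 : ℝ) ≤ k := by exact_mod_cast hk
    rw [e']
    exact mul_le_mul_of_nonneg_left (Real.exp_le_exp.2 (by push_cast; nlinarith)) (n' k)
  · have : (0 : ℝ) ≤ k := by exact_mod_cast hk
    rw [e]
    exact mul_le_mul_of_nonneg_left (Real.exp_le_exp.2 (by push_cast; nlinarith)) (n k)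
  · have h1 : (0 : ℝ) ≤ j := by exact_mod_cast hj
    have h2 : (j : ℝ) ≤ k := by exact_mod_cast hjk
    simp only [e', e, mul_mul_mul_comm (v' _) _ (v _), ← Real.exp_add]
    refine mul_le_mul_of_nonneg_left (Real.exp_le_exp.2 ?_) (mul_nonneg (n' j) (n k))
    push_cast
    nlinarith [mul_le_mul hf h2 h1 hf0]
  · have h1 : (0 : ℝ) ≤ k := by exact_mod_cast hk
    have h2 : (k : ℝ) ≤ j := by exact_mod_cast hkj
    have c := mul_nonneg (n' j) (n k)
    have d := hv j k hk hkj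
    have a1 : |f' * j + f * k| ≤ f' * k + f * j := by
      rw [abs_of_nonneg (by nlinarith)]; nlinarith
    have a2 : |-(f' * j) + f * k| ≤ -(f' * k) + f * j := by
      rw [abs_le]; constructor <;> nlinarith
    have b1 := (mj_exp a1).scale c d
    have b2 := (mj_exp a2).scale c d
    simp only [e', e, Int.cast_neg, mul_neg, mul_mul_mul_comm (v' _) _ (v _), ← Real.exp_add]
    simp only [neg_add, neg_neg] at b1 b2
    exact ⟨b1, b2⟩

/-- a weight carried by `k ≥ 0` above a weight carried by `k ≥ 0` (pins, one-sided conditioning) -/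
theorem sle_nn {v' v : ℤ → ℝ} (n' : ∀ k, 0 ≤ v' k) (n : ∀ k, 0 ≤ v k)
    (z' : ∀ k, k < 0 → v' k = 0) (z : ∀ k, k < 0 → v k = 0)
    (hv : ∀ j k, 0 ≤ k → k ≤ j → v' j * v k ≤ v' k * v j) : SLe v' v := by
  have p : ∀ v : ℤ → ℝ, (∀ k, 0 ≤ v k) → (∀ k, k < 0 → v k = 0) → ∀ k, 0 ≤ k → v (-k) ≤ v k :=
    fun v n z k hk => by
      rcases hk.eq_or_lt with c | c
      · rw [← c, neg_zero]
      · rw [z _ (by omega)]; exact n k
  refine ⟨n', n, p v' n' z', p v n z, fun j k hj hjk => ?_, fun j k hk hkj => ?_⟩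
  · rcases (hj.trans hjk).eq_or_lt with c | c
    · obtain rfl : j = 0 := by omega
      rw [← c, neg_zero]
    · rw [z _ (by omega), mul_zero]; exact mul_nonneg (n' _) (n _)
  · rcases hkj.eq_or_lt with c | c
    · subst c
      refine ⟨Mj.refl (mul_nonneg (n' _) (n _))
        (mul_le_mul (p v' n' z' k hk) (p v n z k hk) (n _) (n' _)), ?_⟩
      rcases hk.eq_or_lt with c | c
      · rw [← c, neg_zero]; exact Mj.refl (mul_nonneg (n' _) (n _)) le_rfl
      · rw [z' _ (show -k < 0 by omega), z _ (show -k < 0 by omega)]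
        simpa using Mj.zero le_rfl le_rfl
    · have d := hv j k hk hkj
      have c0 := mul_nonneg (n' j) (n k)
      rw [z' _ (show -j < 0 by omega), z _ (show -j < 0 by omega)]
      simp only [zero_mul, mul_zero]
      refine ⟨⟨by simpa [abs_of_nonneg c0] using d, by simpa [abs_of_nonneg c0] using d⟩, ?_⟩
      rcases hk.eq_or_lt with c1 | c1
      · subst c1
        rw [neg_zero]
        exact ⟨by simpa [abs_of_nonneg c0] using d, by simpa [abs_of_nonneg c0] using d⟩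
      · rw [z' _ (show -k < 0 by omega), z _ (show -k < 0 by omega)]
        simpa using Mj.zero le_rfl le_rfl

theorem sle_pin {i' i : ℤ} (h' : 0 ≤ i') (h : i' ≤ i) :
    SLe (fun k => ind (k = i')) fun k => ind (k = i) :=
  sle_nn (fun _ => ind_nonneg _) (fun _ => ind_nonneg _) (fun k hk => ind_neg (by omega))
    (fun k hk => ind_neg (by omega)) fun j k _ hkj => by
      rw [← ind_and, ← ind_and]; exact ind_mono fun c => by omega

/-- a pin at `0` lies below every even weight with a nonnegative force -/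
theorem sle_pin0 {v : ℤ → ℝ} {f : ℝ} (n : ∀ k, 0 ≤ v k) (e : ∀ k, v (-k) = v k) (hf : 0 ≤ f) :
    SLe (fun k => ind (k = 0)) fun k => v k * Real.exp (f * k) := by
  have := sle_force (v' := fun k => ind (k = 0)) (f' := 0) (fun _ => ind_nonneg _) n
    (fun k => ind_congr neg_eq_zero) e (fun j k hk hkj => by
      by_cases c : j = 0
      · obtain rfl : k = j := by omega
        exact le_rfl
      · rw [ind_neg c, zero_mul]; exact mul_nonneg (ind_nonneg _) (n _)) le_rfl hf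
  simpa using this

theorem sle_self {m : Mdl V} {η : Cfg V} {f : V → ℝ} (hm : m.Ev) (hη : 0 ≤ η) (hf : ∀ x, 0 ≤ f x)
    (x : V) : SLe (us (m.force f) η x) (us (m.force f) η x) := by
  unfold us
  by_cases c : x ∈ (m.force f).A
  · simp only [if_pos c]
    exact sle_force (fun k => (hm x c k).1) (fun k => (hm x c k).1) (fun k => (hm x c k).2)
      (fun k => (hm x c k).2) (fun j k _ _ => (mul_comm _ _).le) (hf x) le_rfl
  · simp only [if_neg c]
    exact sle_pin (hη x) le_rfl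

end Crest.Agent.T145.Gk60

namespace Crest.Agent.T145

/-- GKS-II + absolute-value FKG with bonds -/
theorem gksStmt : GksStmt := fun V _ m η f F G hm ev hη hf hW hF hG iF iG iFG => by
  have := Gk60.two (m' := m.force f) (m := m.force f) rfl rfl hm (Gk60.sle_self ev hη hf)
    (Gk60.sle_self ev hη hf) hF hG hW.summ iF iG iFG
  rw [hW.tsum_eq, hW.tsum_eq, hW.tsum_eq, mul_mul_mul_comm] at this
  exact sub_nonneg.2 (le_of_mul_le_mul_left (this.trans_eq (mul_assoc _ _ _).symm)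
    (mul_pos hW.pos hW.pos))

end Crest.Agent.T145
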