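import Mathlib

/-!
# Row 145 (helper85): centred Gaussian measures on `ι → ℝ`, part A

`sg κ` standard Gaussian, `gm C` centred Gaussian of covariance `C`; Laplace/Fourier transform,
linear images, convolution, Cameron-Martin shift, integrability of functions of exponential growth.
-/

set_option autoImplicit false
set_option linter.unusedSectionVars false
set_option linter.style.haveILetI false

namespace Crest.Agent.T145.Gs

open MeasureTheory ProbabilityTheory Matrix
open scoped MatrixOrder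

variable {ι κ : Type*} [Fintype ι] [Fintype κ]

/-- the standard Gaussian measure on `κ → ℝ` -/
noncomputable def sg (κ : Type*) [Fintype κ] : Measure (κ → ℝ) :=
  Measure.pi fun _ => gaussianReal 0 1

instance isProb_sg : IsProbabilityMeasure (sg κ) := by unfold sg; infer_instance

theorem cont_mulVec (B : Matrix ι κ ℝ) : Continuous fun y : κ → ℝ => B *ᵥ y :=
  Continuous.matrix_mulVec continuous_const continuous_id

theorem meas_mulVec (B : Matrix ι κ ℝ) : Measurable fun y : κ → ℝ => B *ᵥ y :=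
  (cont_mulVec B).measurable

theorem cont_dot (t : ι → ℝ) : Continuous fun x : ι → ℝ => t ⬝ᵥ x :=
  Continuous.dotProduct continuous_const continuous_id

theorem cmgf_sg (w : κ → ℂ) :
    ∫ y, Complex.exp (∑ k, w k * (y k : ℂ)) ∂(sg κ) = Complex.exp ((∑ k, w k ^ 2) / 2) := by
  simp_rw [Complex.exp_sum]
  unfold sg
  rw [integral_fintype_prod_eq_prod (fun k (x : ℝ) => Complex.exp (w k * (x : ℂ))),
    Finset.sum_div, Complex.exp_sum]
  refine Finset.prod_congr rfl fun k _ => ?_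
  have := complexMGF_id_gaussianReal (μ := 0) (v := 1) (w k)
  simpa [complexMGF] using this

theorem int_exp_sg (w : κ → ℝ) : Integrable (fun y => Real.exp (w ⬝ᵥ y)) (sg κ) := by
  simp_rw [dotProduct, Real.exp_sum]
  unfold sg
  exact Integrable.fintype_prod (f := fun k (x : ℝ) => Real.exp (w k * x))
    fun k => integrable_exp_mul_gaussianReal (w k)

theorem cmgf_map (B : Matrix ι κ ℝ) (z : ι → ℂ) :
    ∫ x, Complex.exp (∑ i, z i * (x i : ℂ)) ∂((sg κ).map fun y => B *ᵥ y) =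
      Complex.exp ((∑ i, ∑ j, z i * ((B * Bᵀ) i j : ℂ) * z j) / 2) := by
  rw [integral_map (meas_mulVec B).aemeasurable (Continuous.aestronglyMeasurable (by fun_prop))]
  have h : ∀ y : κ → ℝ, ∑ i, z i * ((B *ᵥ y) i : ℂ) = ∑ k, (∑ i, z i * B i k) * (y k : ℂ) := by
    intro y
    simp only [mulVec, dotProduct, Finset.sum_mul]
    push_cast
    simp only [Finset.mul_sum]
    rw [Finset.sum_comm]
    exact Finset.sum_congr rfl fun k _ => Finset.sum_congr rfl fun i _ => by ring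
  simp_rw [h]
  rw [cmgf_sg]
  congr 2
  simp only [Matrix.mul_apply, transpose_apply, sq, Finset.sum_mul_sum]
  push_cast
  simp only [Finset.mul_sum, Finset.sum_mul]
  rw [Finset.sum_comm]
  refine Finset.sum_congr rfl fun i _ => ?_
  rw [Finset.sum_comm]
  exact Finset.sum_congr rfl fun j _ => Finset.sum_congr rfl fun k _ => by ring

/-- two finite measures on `ι → ℝ` with the same Fourier transform are equal -/
theorem ext_char {μ ν : Measure (ι → ℝ)} [IsFiniteMeasure μ] [IsFiniteMeasure ν]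
    (h : ∀ t : ι → ℝ, ∫ x, Complex.exp (((t ⬝ᵥ x : ℝ) : ℂ) * Complex.I) ∂μ =
      ∫ x, Complex.exp (((t ⬝ᵥ x : ℝ) : ℂ) * Complex.I) ∂ν) : μ = ν := by
  classical
  apply Measure.ext_of_charFunDual
  funext L
  have hL : ∀ x : ι → ℝ, L x = (fun i => L (Pi.single i 1)) ⬝ᵥ x := by
    intro x
    conv_lhs => rw [← Finset.univ_sum_single x]
    rw [map_sum]
    refine Finset.sum_congr rfl fun i _ => ?_
    have : (Pi.single i (x i) : ι → ℝ) = x i • (Pi.single i 1 : ι → ℝ) := by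
      rw [← Pi.single_smul, smul_eq_mul, mul_one]
    rw [this, map_smul, smul_eq_mul, mul_comm]
  rw [charFunDual_apply, charFunDual_apply, funext hL]
  exact h _

theorem sum_ofReal_dot (a b x : ι → ℝ) :
    ∑ i, ((a i : ℂ) + b i * Complex.I) * (x i : ℂ) =
      ((a ⬝ᵥ x : ℝ) : ℂ) + ((b ⬝ᵥ x : ℝ) : ℂ) * Complex.I := by
  simp only [dotProduct]
  push_cast
  rw [Finset.sum_mul, ← Finset.sum_add_distrib]
  exact Finset.sum_congr rfl fun i _ => by ring

theorem sum_ofReal_quad (C : Matrix ι ι ℝ) (hC : Cᵀ = C) (a b : ι → ℝ) :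
    (∑ i, ∑ j, ((a i : ℂ) + b i * Complex.I) * (C i j : ℂ) * ((a j : ℂ) + b j * Complex.I)) / 2 =
      (((a ⬝ᵥ C *ᵥ a - b ⬝ᵥ C *ᵥ b) / 2 : ℝ) : ℂ) + ((a ⬝ᵥ C *ᵥ b : ℝ) : ℂ) * Complex.I := by
  have hs : b ⬝ᵥ C *ᵥ a = a ⬝ᵥ C *ᵥ b := by
    rw [dotProduct_mulVec, ← mulVec_transpose, hC, dotProduct_comm]
  have h : ∑ i, ∑ j, ((a i : ℂ) + b i * Complex.I) * (C i j : ℂ) * ((a j : ℂ) + b j * Complex.I) =
      ((a ⬝ᵥ C *ᵥ a : ℝ) : ℂ) - ((b ⬝ᵥ C *ᵥ b : ℝ) : ℂ) +
        (((a ⬝ᵥ C *ᵥ b : ℝ) : ℂ) + ((b ⬝ᵥ C *ᵥ a : ℝ) : ℂ)) * Complex.I := by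
    simp only [dotProduct, mulVec]
    push_cast
    simp only [Finset.mul_sum, Finset.sum_mul, add_mul, ← Finset.sum_add_distrib,
      ← Finset.sum_sub_distrib]
    refine Finset.sum_congr rfl fun i _ => Finset.sum_congr rfl fun j _ => ?_
    linear_combination (b i * C i j * b j : ℂ) * Complex.I_mul_I
  rw [h, hs]
  push_cast
  ring

variable [DecidableEq ι]

/-- the centred Gaussian measure with covariance `C` (for `C` positive semidefinite) -/
noncomputable def gm (C : Matrix ι ι ℝ) : Measure (ι → ℝ) :=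
  (sg ι).map fun y => CFC.sqrt C *ᵥ y

instance isProb_gm (C : Matrix ι ι ℝ) : IsProbabilityMeasure (gm C) :=
  Measure.isProbabilityMeasure_map (meas_mulVec _).aemeasurable

theorem sqrt_transpose (C : Matrix ι ι ℝ) : (CFC.sqrt C)ᵀ = CFC.sqrt C := by
  have := (CFC.sqrt_nonneg C).isSelfAdjoint
  rwa [IsSelfAdjoint, star_eq_conjTranspose, conjTranspose_eq_transpose_of_trivial] at this

theorem sqrt_mul {C : Matrix ι ι ℝ} (hC : C.PosSemidef) : CFC.sqrt C * CFC.sqrt C = C :=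
  CFC.sqrt_mul_sqrt_self _ hC.nonneg

theorem sqrt_psd (C : Matrix ι ι ℝ) : (CFC.sqrt C).PosSemidef :=
  nonneg_iff_posSemidef.1 (CFC.sqrt_nonneg C)

omit [Fintype ι] [DecidableEq ι] in
theorem psd_transpose {C : Matrix ι ι ℝ} (hC : C.PosSemidef) : Cᵀ = C := by
  have := hC.isHermitian
  rwa [IsHermitian, conjTranspose_eq_transpose_of_trivial] at this

omit [DecidableEq ι] in
theorem psd_quad {C : Matrix ι ι ℝ} (hC : C.PosSemidef) (x : ι → ℝ) : 0 ≤ x ⬝ᵥ C *ᵥ x := by
  simpa using hC.dotProduct_mulVec_nonneg x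

omit [DecidableEq ι] in
theorem dot_symm {C : Matrix ι ι ℝ} (hC : Cᵀ = C) (a b : ι → ℝ) :
    a ⬝ᵥ C *ᵥ b = b ⬝ᵥ C *ᵥ a := by
  rw [dotProduct_mulVec, ← mulVec_transpose, hC, dotProduct_comm]

omit [DecidableEq ι] in
theorem psd_mul_transpose (B : Matrix ι κ ℝ) : (B * Bᵀ).PosSemidef := by
  have := posSemidef_self_mul_conjTranspose B
  rwa [conjTranspose_eq_transpose_of_trivial] at this

omit [DecidableEq ι] in
theorem psd_conj {C : Matrix ι ι ℝ} (hC : C.PosSemidef) (K : Matrix κ ι ℝ) :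
    (K * C * Kᵀ).PosSemidef := by
  have := hC.mul_mul_conjTranspose_same K
  rwa [conjTranspose_eq_transpose_of_trivial] at this

variable {C : Matrix ι ι ℝ}

/-- complex Laplace transform of `gm C` -/
theorem cmgf (hC : C.PosSemidef) (z : ι → ℂ) :
    ∫ x, Complex.exp (∑ i, z i * (x i : ℂ)) ∂(gm C) =
      Complex.exp ((∑ i, ∑ j, z i * (C i j : ℂ) * z j) / 2) := by
  unfold gm
  rw [cmgf_map, sqrt_transpose, sqrt_mul hC]

theorem cmgf' (hC : C.PosSemidef) (a b : ι → ℝ) :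
    ∫ x, Complex.exp (((a ⬝ᵥ x : ℝ) : ℂ) + ((b ⬝ᵥ x : ℝ) : ℂ) * Complex.I) ∂(gm C) =
      Complex.exp ((((a ⬝ᵥ C *ᵥ a - b ⬝ᵥ C *ᵥ b) / 2 : ℝ) : ℂ) +
        ((a ⬝ᵥ C *ᵥ b : ℝ) : ℂ) * Complex.I) := by
  rw [← sum_ofReal_quad C (psd_transpose hC), ← cmgf hC]
  simp_rw [sum_ofReal_dot]

/-- Fourier transform of `gm C` -/
theorem char (hC : C.PosSemidef) (t : ι → ℝ) :
    ∫ x, Complex.exp (((t ⬝ᵥ x : ℝ) : ℂ) * Complex.I) ∂(gm C) =
      ((Real.exp (-(t ⬝ᵥ C *ᵥ t) / 2) : ℝ) : ℂ) := by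
  have := cmgf' hC 0 t
  simp only [zero_dotProduct, Complex.ofReal_zero, zero_add, zero_mul, add_zero, zero_sub] at this
  rw [this, Complex.ofReal_exp]

/-- Laplace transform of `gm C` -/
theorem mgf (hC : C.PosSemidef) (a : ι → ℝ) :
    ∫ x, Real.exp (a ⬝ᵥ x) ∂(gm C) = Real.exp (a ⬝ᵥ C *ᵥ a / 2) := by
  have := cmgf' hC a 0
  simp only [zero_dotProduct, Complex.ofReal_zero, zero_mul, add_zero, mulVec_zero,
    dotProduct_zero, sub_zero] at this
  simp_rw [← Complex.ofReal_exp] at this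
  rw [integral_complex_ofReal] at this
  exact_mod_cast this

theorem int_exp (C : Matrix ι ι ℝ) (a : ι → ℝ) :
    Integrable (fun x => Real.exp (a ⬝ᵥ x)) (gm C) := by
  unfold gm
  have hc : Continuous fun x : ι → ℝ => Real.exp (a ⬝ᵥ x) := Real.continuous_exp.comp (cont_dot a)
  rw [integrable_map_measure hc.aestronglyMeasurable (meas_mulVec _).aemeasurable]
  have := int_exp_sg (a ᵥ* CFC.sqrt C)
  simpa [Function.comp_def, dotProduct_mulVec] using this

theorem integral_cos (hC : C.PosSemidef) (t : ι → ℝ) (θ : ℝ) :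
    ∫ x, Real.cos (t ⬝ᵥ x + θ) ∂(gm C) = Real.exp (-(t ⬝ᵥ C *ᵥ t) / 2) * Real.cos θ := by
  have hi : Integrable (fun x : ι → ℝ => Complex.exp (((t ⬝ᵥ x : ℝ) : ℂ) * Complex.I) *
      Complex.exp (θ * Complex.I)) (gm C) := by
    refine Integrable.mul_const ?_ _
    refine (integrable_const (1 : ℝ)).mono' (Continuous.aestronglyMeasurable ?_)
      (Filter.Eventually.of_forall fun x => (Complex.norm_exp_ofReal_mul_I _).le)
    have := cont_dot t
    fun_prop
  have h := integral_re hi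
  rw [integral_mul_const, char hC] at h
  simp only [RCLike.re_to_complex, Complex.re_ofReal_mul, Complex.exp_ofReal_mul_I_re] at h
  rw [← h]
  congr 1
  funext x
  rw [← Complex.exp_add, ← add_mul, ← Complex.ofReal_add, Complex.exp_ofReal_mul_I_re]

/-- a finite measure with the Fourier transform of `gm C` is `gm C` -/
theorem eq_gm (hC : C.PosSemidef) {μ : Measure (ι → ℝ)} [IsFiniteMeasure μ]
    (h : ∀ t : ι → ℝ, ∫ x, Complex.exp (((t ⬝ᵥ x : ℝ) : ℂ) * Complex.I) ∂μ =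
      ((Real.exp (-(t ⬝ᵥ C *ᵥ t) / 2) : ℝ) : ℂ)) : μ = gm C :=
  ext_char fun t => by rw [h, char hC]

omit [DecidableEq ι] in
theorem cont_char (t : ι → ℝ) :
    Continuous fun x : ι → ℝ => Complex.exp (((t ⬝ᵥ x : ℝ) : ℂ) * Complex.I) := by
  have := cont_dot t
  fun_prop

/-- linear image of a Gaussian -/
theorem map_mulVec [DecidableEq κ] (hC : C.PosSemidef) (K : Matrix κ ι ℝ) :
    (gm C).map (fun x => K *ᵥ x) = gm (K * C * Kᵀ) := by
  haveI := Measure.isProbabilityMeasure_map (μ := gm C) (meas_mulVec K).aemeasurable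
  refine eq_gm (psd_conj hC K) fun t => ?_
  rw [integral_map (meas_mulVec K).aemeasurable (cont_char t).aestronglyMeasurable]
  simp_rw [dotProduct_mulVec t K]
  rw [char hC]
  congr 4
  rw [← mulVec_mulVec, ← mulVec_mulVec, dotProduct_mulVec t K, mulVec_transpose]

theorem gm_one : gm (1 : Matrix ι ι ℝ) = sg ι := by
  unfold gm
  simp

theorem gm_zero : gm (0 : Matrix ι ι ℝ) = Measure.dirac 0 := by
  unfold gm
  simp

theorem map_sg [DecidableEq κ] (B : Matrix ι κ ℝ) :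
    (sg κ).map (fun y => B *ᵥ y) = gm (B * Bᵀ) := by
  rw [← gm_one, map_mulVec PosSemidef.one, Matrix.mul_one]

section
variable {E : Type*} [NormedAddCommGroup E] [NormedSpace ℝ E]

theorem integral_mulVec [DecidableEq κ] (hC : C.PosSemidef) (K : Matrix κ ι ℝ)
    {F : (κ → ℝ) → E} (hF : AEStronglyMeasurable F (gm (K * C * Kᵀ))) :
    ∫ x, F (K *ᵥ x) ∂(gm C) = ∫ y, F y ∂(gm (K * C * Kᵀ)) := by
  rw [← map_mulVec hC K] at hF ⊢
  rw [integral_map (meas_mulVec K).aemeasurable hF]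

theorem integral_sg [DecidableEq κ] (B : Matrix ι κ ℝ)
    {F : (ι → ℝ) → E} (hF : AEStronglyMeasurable F (gm (B * Bᵀ))) :
    ∫ y, F (B *ᵥ y) ∂(sg κ) = ∫ x, F x ∂(gm (B * Bᵀ)) := by
  rw [← map_sg B] at hF ⊢
  rw [integral_map (meas_mulVec B).aemeasurable hF]

end

theorem map_neg (hC : C.PosSemidef) : (gm C).map (fun x => -x) = gm C := by
  have := map_mulVec hC (-1 : Matrix ι ι ℝ)
  simpa [neg_mulVec] using this

theorem map_smul (hC : C.PosSemidef) (c : ℝ) : (gm C).map (fun x => c • x) = gm (c ^ 2 • C) := by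
  have := map_mulVec hC (c • 1 : Matrix ι ι ℝ)
  simpa [smul_mulVec, smul_smul, sq] using this

/-- convolution of Gaussians -/
theorem conv {C₁ C₂ : Matrix ι ι ℝ} (h₁ : C₁.PosSemidef) (h₂ : C₂.PosSemidef) :
    ((gm C₁).prod (gm C₂)).map (fun p => p.1 + p.2) = gm (C₁ + C₂) := by
  have hm : Measurable fun p : (ι → ℝ) × (ι → ℝ) => p.1 + p.2 := measurable_add
  haveI := Measure.isProbabilityMeasure_map (μ := (gm C₁).prod (gm C₂)) hm.aemeasurable
  refine eq_gm (h₁.add h₂) fun t => ?_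
  rw [integral_map hm.aemeasurable (cont_char t).aestronglyMeasurable]
  simp_rw [dotProduct_add, Complex.ofReal_add, add_mul, Complex.exp_add]
  rw [integral_prod_mul (fun x : ι → ℝ => Complex.exp (((t ⬝ᵥ x : ℝ) : ℂ) * Complex.I))
    (fun x : ι → ℝ => Complex.exp (((t ⬝ᵥ x : ℝ) : ℂ) * Complex.I)), char h₁, char h₂,
    ← Complex.ofReal_mul, ← Real.exp_add, add_mulVec, dotProduct_add]
  congr 2
  ring

section
variable {E : Type*} [NormedAddCommGroup E] [NormedSpace ℝ E]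

theorem int_conv {C₁ C₂ : Matrix ι ι ℝ} (h₁ : C₁.PosSemidef) (h₂ : C₂.PosSemidef)
    {F : (ι → ℝ) → E} (hF : Integrable F (gm (C₁ + C₂))) :
    Integrable (fun p : (ι → ℝ) × (ι → ℝ) => F (p.1 + p.2)) ((gm C₁).prod (gm C₂)) := by
  rw [← conv h₁ h₂] at hF
  exact (integrable_map_measure hF.1 measurable_add.aemeasurable).1 hF

/-- the semigroup property -/
theorem integral_conv {C₁ C₂ : Matrix ι ι ℝ} (h₁ : C₁.PosSemidef) (h₂ : C₂.PosSemidef)
    {F : (ι → ℝ) → E} (hF : Integrable F (gm (C₁ + C₂))) :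
    ∫ z, F z ∂(gm (C₁ + C₂)) = ∫ x, ∫ y, F (x + y) ∂(gm C₂) ∂(gm C₁) := by
  rw [← integral_prod _ (int_conv h₁ h₂ hF)]
  have hm := hF.1
  rw [← conv h₁ h₂] at hm ⊢
  rw [integral_map measurable_add.aemeasurable hm]

end

/-- the Cameron-Martin density -/
noncomputable def cmd (C : Matrix ι ι ℝ) (h x : ι → ℝ) : ℝ :=
  Real.exp (h ⬝ᵥ x - h ⬝ᵥ C *ᵥ h / 2)

omit [DecidableEq ι] in
theorem cmd_pos (C : Matrix ι ι ℝ) (h x : ι → ℝ) : 0 < cmd C h x := Real.exp_pos _

omit [DecidableEq ι] in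
theorem cont_cmd (C : Matrix ι ι ℝ) (h : ι → ℝ) : Continuous (cmd C h) := by
  have := cont_dot h
  unfold cmd
  fun_prop

theorem int_cmd (C D : Matrix ι ι ℝ) (h : ι → ℝ) : Integrable (cmd C h) (gm D) := by
  have := (int_exp D h).mul_const (Real.exp (-(h ⬝ᵥ C *ᵥ h / 2)))
  refine this.congr (Filter.Eventually.of_forall fun x => ?_)
  simp only [cmd, ← Real.exp_add, sub_eq_add_neg]

/-- Cameron-Martin, as measures -/
theorem map_shift (hC : C.PosSemidef) (h : ι → ℝ) :
    (gm C).map (fun x => x + C *ᵥ h) = (gm C).withDensity fun x => ENNReal.ofReal (cmd C h x) := by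
  have hm : Measurable fun x : ι → ℝ => x + C *ᵥ h := measurable_add_const _
  haveI := Measure.isProbabilityMeasure_map (μ := gm C) hm.aemeasurable
  haveI : IsFiniteMeasure ((gm C).withDensity fun x => ENNReal.ofReal (cmd C h x)) :=
    isFiniteMeasure_withDensity_ofReal (int_cmd C C h).2
  refine ext_char fun t => ?_
  rw [integral_map hm.aemeasurable (cont_char t).aestronglyMeasurable,
    integral_withDensity_eq_integral_toReal_smul (cont_cmd C h).measurable.ennreal_ofReal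
      (Filter.Eventually.of_forall fun x => ENNReal.ofReal_lt_top)]
  simp_rw [dotProduct_add, Complex.ofReal_add, add_mul, Complex.exp_add,
    ENNReal.toReal_ofReal (cmd_pos C h _).le]
  rw [integral_mul_const, char hC]
  have h2 : ∀ x : ι → ℝ, cmd C h x • Complex.exp (((t ⬝ᵥ x : ℝ) : ℂ) * Complex.I) =
      Complex.exp (((h ⬝ᵥ x : ℝ) : ℂ) + ((t ⬝ᵥ x : ℝ) : ℂ) * Complex.I) *
        Complex.exp (-((h ⬝ᵥ C *ᵥ h / 2 : ℝ) : ℂ)) := by
    intro x
    rw [cmd, Complex.real_smul, Complex.ofReal_exp, ← Complex.exp_add, ← Complex.exp_add]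
    congr 1
    push_cast
    ring
  simp_rw [h2]
  rw [integral_mul_const, cmgf' hC, Complex.ofReal_exp, ← Complex.exp_add, ← Complex.exp_add,
    dot_symm (psd_transpose hC) h t]
  congr 1
  push_cast
  ring

section
variable {E : Type*} [NormedAddCommGroup E] [NormedSpace ℝ E]

/-- Cameron-Martin shift -/
theorem integral_shift (hC : C.PosSemidef) (h : ι → ℝ) (F : (ι → ℝ) → E) :
    ∫ x, F (x + C *ᵥ h) ∂(gm C) = ∫ x, cmd C h x • F x ∂(gm C) := by
  have := integral_map_equiv (μ := gm C) (MeasurableEquiv.addRight (C *ᵥ h)) F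
  simp only [MeasurableEquiv.coe_addRight] at this
  rw [← this, map_shift hC,
    integral_withDensity_eq_integral_toReal_smul (cont_cmd C h).measurable.ennreal_ofReal
      (Filter.Eventually.of_forall fun x => ENNReal.ofReal_lt_top)]
  simp_rw [ENNReal.toReal_ofReal (cmd_pos C h _).le]

theorem int_shift (hC : C.PosSemidef) (h : ι → ℝ) (F : (ι → ℝ) → E) :
    Integrable (fun x => F (x + C *ᵥ h)) (gm C) ↔
      Integrable (fun x => cmd C h x • F x) (gm C) := by
  have := integrable_map_equiv (μ := gm C) (MeasurableEquiv.addRight (C *ᵥ h)) F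
  simp only [MeasurableEquiv.coe_addRight, Function.comp_def] at this
  rw [← this, map_shift hC, integrable_withDensity_iff_integrable_smul'
    (cont_cmd C h).measurable.ennreal_ofReal
      (Filter.Eventually.of_forall fun x => ENNReal.ofReal_lt_top)]
  simp_rw [ENNReal.toReal_ofReal (cmd_pos C h _).le]

/-- tilting form: `∫ e^{h·x} F = e^{hCh/2} ∫ F(x + Ch)` -/
theorem integral_tilt (hC : C.PosSemidef) (h : ι → ℝ) (F : (ι → ℝ) → E) :
    ∫ x, Real.exp (h ⬝ᵥ x) • F x ∂(gm C) =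
      Real.exp (h ⬝ᵥ C *ᵥ h / 2) • ∫ x, F (x + C *ᵥ h) ∂(gm C) := by
  rw [integral_shift hC, ← integral_smul]
  congr 1
  funext x
  rw [smul_smul, cmd, ← Real.exp_add]
  congr 2
  ring

theorem integral_neg (hC : C.PosSemidef) (F : (ι → ℝ) → E) :
    ∫ x, F (-x) ∂(gm C) = ∫ x, F x ∂(gm C) := by
  have := integral_map_equiv (μ := gm C) (MeasurableEquiv.neg (ι → ℝ)) F
  simp only [MeasurableEquiv.neg_apply] at this
  rw [← this]
  congr 1
  exact map_neg hC

end

omit [DecidableEq ι] in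
theorem exp_norm_le (B : ℝ) (x : ι → ℝ) :
    Real.exp (B * ‖x‖) ≤ 1 + ∑ i, (Real.exp (B * x i) + Real.exp (-(B * x i))) := by
  have hs : 0 ≤ ∑ i, (Real.exp (B * x i) + Real.exp (-(B * x i))) :=
    Finset.sum_nonneg fun i _ => by positivity
  rcases le_or_gt B 0 with hB | hB
  · have : Real.exp (B * ‖x‖) ≤ 1 :=
      Real.exp_le_one_iff.2 (mul_nonpos_of_nonpos_of_nonneg hB (norm_nonneg _))
    linarith
  rcases isEmpty_or_nonempty ι with hι | hι
  · simp [Subsingleton.elim x 0]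
  obtain ⟨i, hi⟩ : ∃ i, ‖x i‖ = ‖x‖ := by
    obtain ⟨i, hi⟩ := Finite.exists_max fun i => ‖x i‖
    exact ⟨i, le_antisymm (norm_le_pi_norm x i) ((pi_norm_le_iff_of_nonneg (norm_nonneg _)).2 hi)⟩
  have h1 : Real.exp (B * ‖x‖) ≤ Real.exp (B * x i) + Real.exp (-(B * x i)) := by
    rw [← hi, Real.norm_eq_abs]
    rcases abs_cases (x i) with h | h
    · rw [h.1]; linarith [Real.exp_pos (-(B * x i))]
    · rw [h.1, mul_neg]; linarith [Real.exp_pos (B * x i)]
  have h2 := Finset.single_le_sum (f := fun i => Real.exp (B * x i) + Real.exp (-(B * x i)))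
    (fun i _ => by positivity) (Finset.mem_univ i)
  linarith

theorem int_exp_coord (C : Matrix ι ι ℝ) (B : ℝ) (i : ι) :
    Integrable (fun x : ι → ℝ => Real.exp (B * x i)) (gm C) := by
  simpa using int_exp C (Pi.single i B)

theorem int_exp_norm (C : Matrix ι ι ℝ) (B : ℝ) :
    Integrable (fun x : ι → ℝ => Real.exp (B * ‖x‖)) (gm C) := by
  have h : Integrable (fun x : ι → ℝ => 1 + ∑ i, (Real.exp (B * x i) + Real.exp (-(B * x i))))
      (gm C) := by
    refine (integrable_const _).add (integrable_finsetSum _ fun i _ => (int_exp_coord C B i).add ?_)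
    simpa using int_exp_coord C (-B) i
  refine h.mono' (Continuous.aestronglyMeasurable (by fun_prop))
    (Filter.Eventually.of_forall fun x => ?_)
  rw [Real.norm_eq_abs, abs_of_pos (Real.exp_pos _)]
  exact exp_norm_le B x

/-- functions of exponential growth are integrable -/
theorem int_of_le {E : Type*} [NormedAddCommGroup E] (C : Matrix ι ι ℝ) {F : (ι → ℝ) → E}
    (hF : AEStronglyMeasurable F (gm C)) (A B : ℝ) (h : ∀ x, ‖F x‖ ≤ A * Real.exp (B * ‖x‖)) :
    Integrable F (gm C) :=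
  ((int_exp_norm C B).const_mul A).mono' hF (Filter.Eventually.of_forall h)

end Crest.Agent.T145.Gs
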