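import Crest.Agent.T145.GsM_85

/-!
# Row 145 (helper85): Gaussian calculus, part B: densities and quadratic tilts
-/

set_option autoImplicit false
set_option linter.unusedSectionVars false

namespace Crest.Agent.T145.Gs

open MeasureTheory ProbabilityTheory Matrix
open scoped MatrixOrder ENNReal

variable {ι κ : Type*} [Fintype ι] [Fintype κ]

theorem map_wd {α β : Type*} [MeasurableSpace α] [MeasurableSpace β] (μ : Measure α) {T : α → β}
    (hT : Measurable T) {f : β → ℝ≥0∞} (hf : Measurable f) :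
    (μ.withDensity fun a => f (T a)).map T = (μ.map T).withDensity f := by
  ext s hs
  rw [Measure.map_apply hT hs, withDensity_apply _ (hT hs), withDensity_apply _ hs,
    setLIntegral_map hs hf hT]

section
variable {α E : Type*} [MeasurableSpace α] [NormedAddCommGroup E] [NormedSpace ℝ E]

theorem integral_wd (μ : Measure α) {f : α → ℝ} (hf : Measurable f) (h0 : ∀ x, 0 ≤ f x)
    (F : α → E) : ∫ x, F x ∂(μ.withDensity fun x => ENNReal.ofReal (f x)) = ∫ x, f x • F x ∂μ := by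
  rw [integral_withDensity_eq_integral_toReal_smul hf.ennreal_ofReal
      (Filter.Eventually.of_forall fun x => ENNReal.ofReal_lt_top)]
  simp_rw [ENNReal.toReal_ofReal (h0 _)]

theorem int_wd (μ : Measure α) {f : α → ℝ} (hf : Measurable f) (h0 : ∀ x, 0 ≤ f x)
    (F : α → E) : Integrable F (μ.withDensity fun x => ENNReal.ofReal (f x)) ↔
      Integrable (fun x => f x • F x) μ := by
  rw [integrable_withDensity_iff_integrable_smul' hf.ennreal_ofReal
      (Filter.Eventually.of_forall fun x => ENNReal.ofReal_lt_top)]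
  simp_rw [ENNReal.toReal_ofReal (h0 _)]

end

/-- the normalisation `(2π)^{n/2}` -/
noncomputable def zc (ι : Type*) [Fintype ι] : ℝ := Real.sqrt (2 * Real.pi) ^ Fintype.card ι

theorem zc_pos : 0 < zc ι := by unfold zc; positivity

/-- the Gaussian weight `exp (-x B x / 2)` -/
noncomputable def gw (B : Matrix ι ι ℝ) (x : ι → ℝ) : ℝ := Real.exp (-(x ⬝ᵥ B *ᵥ x) / 2)

theorem gw_pos (B : Matrix ι ι ℝ) (x : ι → ℝ) : 0 < gw B x := Real.exp_pos _

theorem cont_quad (B : Matrix ι ι ℝ) : Continuous fun x : ι → ℝ => x ⬝ᵥ B *ᵥ x :=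
  Continuous.dotProduct continuous_id (cont_mulVec B)

theorem cont_gw (B : Matrix ι ι ℝ) : Continuous (gw B) := by
  have := cont_quad B
  unfold gw
  fun_prop

theorem gw_add (A B : Matrix ι ι ℝ) (x : ι → ℝ) : gw (A + B) x = gw A x * gw B x := by
  rw [gw, gw, gw, ← Real.exp_add, add_mulVec, dotProduct_add]
  congr 1; ring

theorem gw_conj (S : Matrix ι κ ℝ) (B : Matrix ι ι ℝ) (y : κ → ℝ) :
    gw (Sᵀ * B * S) y = gw B (S *ᵥ y) := by rw [gw, gw, quad_conj]

theorem gw_le_one {B : Matrix ι ι ℝ} (hB : B.PosSemidef) (x : ι → ℝ) : gw B x ≤ 1 :=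
  Real.exp_le_one_iff.2 (by linarith [psd_quad hB x])

theorem prod_pdf (y : κ → ℝ) :
    ∏ k, gaussianPDFReal 0 1 (y k) = Real.exp (-(y ⬝ᵥ y) / 2) / zc κ := by
  simp only [gaussianPDFReal, NNReal.coe_one, mul_one, sub_zero]
  rw [Finset.prod_mul_distrib, Finset.prod_const, Finset.card_univ, ← Real.exp_sum, zc, inv_pow,
    div_eq_inv_mul]
  congr 2
  simp only [dotProduct, neg_div, Finset.sum_div, Finset.sum_neg_distrib, sq]

theorem sg_eq : sg κ =
    volume.withDensity fun y => ENNReal.ofReal (Real.exp (-(y ⬝ᵥ y) / 2) / zc κ) := by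
  simp_rw [← prod_pdf]
  have hi : Integrable (fun y : κ → ℝ => ∏ k, gaussianPDFReal 0 1 (y k)) :=
    Integrable.fintype_prod (f := fun _ x => gaussianPDFReal 0 1 x)
      fun _ => integrable_gaussianPDFReal 0 1
  have : IsFiniteMeasure (volume.withDensity
      fun y : κ → ℝ => ENNReal.ofReal (∏ k, gaussianPDFReal 0 1 (y k))) :=
    isFiniteMeasure_withDensity_ofReal hi.2
  refine ext_char fun t => ?_
  have hm : Measurable fun y : κ → ℝ => ∏ k, gaussianPDFReal 0 1 (y k) :=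
    Finset.measurable_prod _ fun k _ =>
      (measurable_gaussianPDFReal 0 1).comp (measurable_pi_apply k)
  rw [integral_wd _ hm fun y => Finset.prod_nonneg fun k _ => gaussianPDFReal_nonneg _ _ _]
  have h : ∀ y : κ → ℝ, Complex.exp (((t ⬝ᵥ y : ℝ) : ℂ) * Complex.I) =
      ∏ k, Complex.exp (((t k * y k : ℝ) : ℂ) * Complex.I) := by
    intro y
    rw [← Complex.exp_sum, ← Finset.sum_mul, dotProduct, Complex.ofReal_sum]
  simp_rw [h, Complex.real_smul, Complex.ofReal_prod, ← Finset.prod_mul_distrib]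
  rw [integral_fintype_prod_volume_eq_prod (fun k (x : ℝ) => (gaussianPDFReal 0 1 x : ℂ) *
    Complex.exp (((t k * x : ℝ) : ℂ) * Complex.I)), sg,
    integral_fintype_prod_eq_prod (fun k (x : ℝ) => Complex.exp (((t k * x : ℝ) : ℂ) * Complex.I))]
  refine Finset.prod_congr rfl fun k _ => ?_
  rw [integral_gaussianReal_eq_integral_smul one_ne_zero]
  simp_rw [Complex.real_smul]

variable [DecidableEq ι] [DecidableEq κ]

theorem det_sqrt_sq {A : Matrix ι ι ℝ} (hA : A.PosSemidef) : (CFC.sqrt A).det ^ 2 = A.det := by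
  rw [sq, ← det_mul, sqrt_mul hA]

theorem det_sqrt_eq {A : Matrix ι ι ℝ} (hA : A.PosSemidef) :
    (CFC.sqrt A).det = Real.sqrt A.det := by
  rw [← det_sqrt_sq hA, Real.sqrt_sq (sqrt_psd A).det_nonneg]

theorem sqrt_unit {A : Matrix ι ι ℝ} (hA : A.PosDef) : IsUnit (CFC.sqrt A).det := by
  rw [det_sqrt_eq hA.posSemidef]
  exact (Real.sqrt_pos.2 hA.det_pos).ne'.isUnit

/-- the density of the Gaussian with precision matrix `A` -/
theorem gm_inv_eq {A : Matrix ι ι ℝ} (hA : A.PosDef) : gm A⁻¹ =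
    volume.withDensity fun x => ENNReal.ofReal (Real.sqrt A.det / zc ι * gw A x) := by
  set T := CFC.sqrt A with hT
  have hu := sqrt_unit hA
  have hTT : Tᵀ = T := sqrt_transpose A
  have h1 : A⁻¹ = T⁻¹ * (T⁻¹)ᵀ := by
    rw [transpose_nonsing_inv, hTT, ← Matrix.mul_inv_rev, sqrt_mul hA.posSemidef]
  have hf : Measurable fun x : ι → ℝ => ENNReal.ofReal (gw A x / zc ι) :=
    ((cont_gw A).measurable.div_const _).ennreal_ofReal
  have h2 : ∀ y : ι → ℝ, Real.exp (-(y ⬝ᵥ y) / 2) = gw A (T⁻¹ *ᵥ y) := by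
    intro y
    rw [← gw_conj, ← sqrt_mul hA.posSemidef, ← hT, transpose_nonsing_inv, hTT, ← Matrix.mul_assoc,
      nonsing_inv_mul _ hu, Matrix.one_mul, mul_nonsing_inv _ hu, gw, one_mulVec]
  have hd : (T⁻¹).det ≠ 0 := (isUnit_nonsing_inv_det _ hu).ne_zero
  have h3 := Real.map_matrix_volume_pi_eq_smul_volume_pi hd
  rw [h1, ← map_sg, sg_eq]
  simp_rw [h2]
  rw [map_wd volume (meas_mulVec T⁻¹) hf]
  have h4 : Measure.map (fun y : ι → ℝ => T⁻¹ *ᵥ y) volume =
      ENNReal.ofReal (Real.sqrt A.det) • volume := by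
    have : (fun y : ι → ℝ => T⁻¹ *ᵥ y) = toLin' T⁻¹ := by funext y; simp
    rw [this, h3, det_nonsing_inv, Ring.inverse_eq_inv', inv_inv, hT, det_sqrt_eq hA.posSemidef,
      abs_of_nonneg (Real.sqrt_nonneg _)]
  rw [h4, withDensity_smul_measure, ← withDensity_smul _ hf]
  congr 1
  funext x
  rw [Pi.smul_apply, smul_eq_mul, ← ENNReal.ofReal_mul (Real.sqrt_nonneg _)]
  congr 1
  ring

theorem gm_eq {C : Matrix ι ι ℝ} (hC : C.PosDef) : gm C =
    volume.withDensity fun x => ENNReal.ofReal ((Real.sqrt C.det * zc ι)⁻¹ * gw C⁻¹ x) := by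
  have := gm_inv_eq hC.inv
  rw [nonsing_inv_nonsing_inv _ (pd_unit hC)] at this
  rw [this, det_nonsing_inv, Ring.inverse_eq_inv', Real.sqrt_inv]
  simp only [mul_inv, div_eq_mul_inv]

section
variable {E : Type*} [NormedAddCommGroup E] [NormedSpace ℝ E]

theorem meas_dens (c : ℝ) (A : Matrix ι ι ℝ) : Measurable fun x => c * gw A x :=
  (cont_gw A).measurable.const_mul c

/-- Lebesgue integrals against a Gaussian weight -/
theorem integral_gw {A : Matrix ι ι ℝ} (hA : A.PosDef) (F : (ι → ℝ) → E) :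
    ∫ x, gw A x • F x = (zc ι / Real.sqrt A.det) • ∫ x, F x ∂(gm A⁻¹) := by
  have hs := Real.sqrt_pos.2 hA.det_pos
  have hz := zc_pos (ι := ι)
  rw [gm_inv_eq hA, integral_wd _ (meas_dens _ A) fun x => by have := gw_pos A x; positivity]
  simp_rw [mul_smul]
  rw [integral_smul, smul_smul]
  have : zc ι / Real.sqrt A.det * (Real.sqrt A.det / zc ι) = 1 := by field_simp
  rw [this, one_smul]

theorem int_gw {A : Matrix ι ι ℝ} (hA : A.PosDef) (F : (ι → ℝ) → E) :
    Integrable (fun x => gw A x • F x) ↔ Integrable F (gm A⁻¹) := by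
  have hs := Real.sqrt_pos.2 hA.det_pos
  have hz := zc_pos (ι := ι)
  rw [gm_inv_eq hA, int_wd _ (meas_dens _ A) fun x => by have := gw_pos A x; positivity]
  simp_rw [mul_smul]
  exact (integrable_smul_iff (c := Real.sqrt A.det / zc ι) (by positivity)
    (fun x => gw A x • F x)).symm

end

theorem integral_gw_one {A : Matrix ι ι ℝ} (hA : A.PosDef) :
    ∫ x, gw A x = zc ι / Real.sqrt A.det := by
  simpa using integral_gw hA fun _ => (1 : ℝ)

theorem int_gw_one {A : Matrix ι ι ℝ} (hA : A.PosDef) : Integrable (gw A) := by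
  simpa using (int_gw hA fun _ => (1 : ℝ)).2 (integrable_const _)

/-- quadratic tilt, factorised form -/
theorem tilt_fac (S : Matrix ι κ ℝ) (B : Matrix ι ι ℝ) (h : (1 + Sᵀ * B * S).PosDef) :
    ((gm (S * Sᵀ)).withDensity fun x => ENNReal.ofReal (gw B x)) =
      ENNReal.ofReal (Real.sqrt (1 + B * (S * Sᵀ)).det)⁻¹ • gm (tl (S * Sᵀ) B) := by
  set M := 1 + Sᵀ * B * S with hM
  have hs := Real.sqrt_pos.2 h.det_pos
  have hz := zc_pos (ι := κ)
  have hf : Measurable fun x : ι → ℝ => ENNReal.ofReal (gw B x) :=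
    (cont_gw B).measurable.ennreal_ofReal
  rw [← map_sg, ← map_wd _ (meas_mulVec S) hf, ← tl_fac S B (pd_unit h), ← map_mulVec h.inv.posSemidef,
    ← Measure.map_smul, ← det_fac, gm_inv_eq h, sg_eq]
  congr 1
  have h1 : Measurable fun y : κ → ℝ => ENNReal.ofReal (Real.exp (-(y ⬝ᵥ y) / 2) / zc κ) := by
    have := (cont_gw (1 : Matrix κ κ ℝ)).measurable.div_const (zc κ)
    simpa [gw] using this.ennreal_ofReal
  have h2 : Measurable fun y : κ → ℝ => ENNReal.ofReal (gw B (S *ᵥ y)) := hf.comp (meas_mulVec S)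
  rw [← withDensity_mul _ h1 h2,
    ← withDensity_smul _ (meas_dens _ M).ennreal_ofReal]
  congr 1
  funext y
  simp only [Pi.mul_apply, Pi.smul_apply, smul_eq_mul]
  rw [← ENNReal.ofReal_mul (by positivity), ← ENNReal.ofReal_mul (by positivity), hM, gw_add,
    gw_conj]
  congr 1
  simp only [gw, one_mulVec]
  rw [← hM]
  field_simp

/-- the tilt of `gm C` by `exp (-x B x / 2)` is integrable -/
def TOk (C B : Matrix ι ι ℝ) : Prop := (1 + CFC.sqrt C * B * CFC.sqrt C).PosDef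

variable {C B : Matrix ι ι ℝ}

theorem TOk.fac (h : TOk C B) : (1 + (CFC.sqrt C)ᵀ * B * CFC.sqrt C).PosDef := by
  rwa [sqrt_transpose]

theorem sqrt_mul' (hC : C.PosSemidef) : CFC.sqrt C * (CFC.sqrt C)ᵀ = C := by
  rw [sqrt_transpose, sqrt_mul hC]

theorem TOk.det_eq (hC : C.PosSemidef) (B : Matrix ι ι ℝ) :
    (1 + CFC.sqrt C * B * CFC.sqrt C).det = (1 + B * C).det := by
  have := det_fac (CFC.sqrt C) B
  rwa [sqrt_mul' hC, sqrt_transpose] at this

theorem TOk.det_pos (hC : C.PosSemidef) (h : TOk C B) : 0 < (1 + B * C).det := by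
  rw [← TOk.det_eq hC]; exact PosDef.det_pos h

theorem TOk.unit (hC : C.PosSemidef) (h : TOk C B) : IsUnit (1 + B * C).det :=
  (h.det_pos hC).ne'.isUnit

theorem TOk.psd (hC : C.PosSemidef) (h : TOk C B) : (tl C B).PosSemidef := by
  have := tl_fac (CFC.sqrt C) B (pd_unit h.fac)
  rw [sqrt_mul' hC] at this
  rw [← this]
  exact psd_conj h.fac.inv.posSemidef _

theorem tOk_iff (hB : Bᵀ = B) : TOk C B ↔ ∀ y, y ≠ 0 →
    0 < y ⬝ᵥ y + (CFC.sqrt C *ᵥ y) ⬝ᵥ B *ᵥ (CFC.sqrt C *ᵥ y) := by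
  have e : ∀ y, y ⬝ᵥ (1 + CFC.sqrt C * B * CFC.sqrt C) *ᵥ y =
      y ⬝ᵥ y + (CFC.sqrt C *ᵥ y) ⬝ᵥ B *ᵥ (CFC.sqrt C *ᵥ y) := by
    intro y
    rw [add_mulVec, dotProduct_add, one_mulVec, ← quad_conj, sqrt_transpose]
  refine ⟨fun h y hy => e y ▸ pd_quad h hy, fun h => pd_of ?_ fun y hy => (e y).symm ▸ h y hy⟩
  simp only [transpose_add, transpose_one, transpose_mul, sqrt_transpose, hB, Matrix.mul_assoc]

theorem tOk_of_psd (C : Matrix ι ι ℝ) (hB : B.PosSemidef) : TOk C B :=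
  (tOk_iff (psd_transpose hB)).2 fun _ hy => add_pos_of_pos_of_nonneg (dot_self_pos hy)
    (psd_quad hB _)

theorem TOk.mono {B' : Matrix ι ι ℝ} (h : TOk C B) (h' : (B' - B).PosSemidef) : TOk C B' := by
  have := PosDef.add_posSemidef h (psd_conj h' (CFC.sqrt C))
  rw [sqrt_transpose, add_assoc, ← Matrix.add_mul, ← Matrix.mul_add, add_sub_cancel] at this
  exact this

/-- `C ≤ D`, `D⁻¹ + B > 0` -/
theorem tOk_of_le (hC : C.PosSemidef) {D : Matrix ι ι ℝ} (hD : D.PosDef)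
    (hCD : (D - C).PosSemidef) (h : (D⁻¹ + B).PosDef) : TOk C B := by
  have hB : Bᵀ = B := by
    have := pd_transpose h
    rw [transpose_add, pd_transpose hD.inv] at this
    exact add_left_cancel this
  refine (tOk_iff hB).2 fun y hy => ?_
  by_cases h0 : CFC.sqrt C *ᵥ y = 0
  · rw [h0]; simpa using dot_self_pos hy
  have h1 := dual_le (S := CFC.sqrt C) hD (by rwa [sqrt_mul' hC]) y
  have h2 := pd_quad h h0
  rw [add_mulVec, dotProduct_add] at h2
  linarith

theorem tOk_of_pd (hC : C.PosDef) (h : (C⁻¹ + B).PosDef) : TOk C B :=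
  tOk_of_le hC.posSemidef hC (by simpa using PosSemidef.zero) h

/-- `K C Kᵀ < 1` allows the weight `exp (|K x|² / 2)` -/
theorem tOk_neg_sq (hC : C.PosSemidef) (K : Matrix κ ι ℝ) (h : (1 - K * C * Kᵀ).PosDef) :
    TOk C (-(Kᵀ * K)) := by
  have h1 : (1 - (K * CFC.sqrt C) * (K * CFC.sqrt C)ᵀ).PosDef := by
    rwa [transpose_mul, Matrix.mul_assoc, ← Matrix.mul_assoc (CFC.sqrt C), sqrt_mul' hC,
      ← Matrix.mul_assoc]
  have h2 := dual_lt h1
  rw [transpose_mul, sqrt_transpose] at h2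
  unfold TOk
  simpa only [Matrix.mul_neg, Matrix.neg_mul, sub_eq_add_neg, Matrix.mul_assoc] using h2

/-- quadratic tilt, as measures -/
theorem tilt (hC : C.PosSemidef) (h : TOk C B) :
    ((gm C).withDensity fun x => ENNReal.ofReal (gw B x)) =
      ENNReal.ofReal (Real.sqrt (1 + B * C).det)⁻¹ • gm (tl C B) := by
  have := tilt_fac (CFC.sqrt C) B h.fac
  rwa [sqrt_mul' hC] at this

section
variable {E : Type*} [NormedAddCommGroup E] [NormedSpace ℝ E]

/-- quadratic tilt -/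
theorem integral_qtilt (hC : C.PosSemidef) (h : TOk C B) (F : (ι → ℝ) → E) :
    ∫ x, gw B x • F x ∂(gm C) = (Real.sqrt (1 + B * C).det)⁻¹ • ∫ x, F x ∂(gm (tl C B)) := by
  rw [← integral_wd _ (cont_gw B).measurable (fun x => (gw_pos B x).le), tilt hC h,
    integral_smul_measure, ENNReal.toReal_ofReal (by positivity)]

theorem int_qtilt (hC : C.PosSemidef) (h : TOk C B) (F : (ι → ℝ) → E) :
    Integrable (fun x => gw B x • F x) (gm C) ↔ Integrable F (gm (tl C B)) := by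
  have := Real.sqrt_pos.2 (h.det_pos hC)
  rw [← int_wd _ (cont_gw B).measurable (fun x => (gw_pos B x).le), tilt hC h,
    integrable_smul_measure (by simpa using h.det_pos hC) ENNReal.ofReal_ne_top]

end

theorem integral_gw_gm (hC : C.PosSemidef) (h : TOk C B) :
    ∫ x, gw B x ∂(gm C) = (Real.sqrt (1 + B * C).det)⁻¹ := by
  simpa using integral_qtilt hC h fun _ => (1 : ℝ)

theorem int_gw_gm (hC : C.PosSemidef) (h : TOk C B) : Integrable (gw B) (gm C) := by
  simpa using (int_qtilt hC h fun _ => (1 : ℝ)).2 (integrable_const _)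

/-- Gaussian convolution of a Gaussian weight: completing the square -/
theorem integral_gw_add (hC : C.PosSemidef) (hB : Bᵀ = B) (h : TOk C B) (φ : ι → ℝ) :
    ∫ x, gw B (φ + x) ∂(gm C) =
      (Real.sqrt (1 + B * C).det)⁻¹ * gw (B - B * tl C B * B) φ := by
  have e : ∀ x, gw B (φ + x) = gw B φ * (gw B x • Real.exp ((-(B *ᵥ φ)) ⬝ᵥ x)) := by
    intro x
    simp only [gw, smul_eq_mul, ← Real.exp_add, mulVec_add, dotProduct_add, add_dotProduct,
      neg_dotProduct, dot_symm hB φ x, dotProduct_comm x (B *ᵥ φ)]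
    congr 1; ring
  simp_rw [e]
  rw [integral_const_mul, integral_qtilt hC h, mgf (h.psd hC), smul_eq_mul, mul_left_comm]
  congr 1
  have := quad_conj B (tl C B) φ
  rw [hB] at this
  simp only [gw, ← Real.exp_add, sub_mulVec, dotProduct_sub, this, mulVec_neg, neg_dotProduct,
    dotProduct_neg, neg_neg]
  congr 1; ring

theorem inv_sqrt_le_exp {d a : ℝ} (h : Real.exp (-a) ≤ d) : (Real.sqrt d)⁻¹ ≤ Real.exp (a / 2) := by
  have h1 : Real.exp (-(a / 2)) ≤ Real.sqrt d := by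
    apply Real.le_sqrt_of_sq_le
    rw [sq, ← Real.exp_add, show -(a / 2) + -(a / 2) = -a by ring]
    exact h
  rw [inv_le_comm₀ ((Real.exp_pos _).trans_le h1) (Real.exp_pos _), ← Real.exp_neg]
  exact h1

/-- large-field regulator: `E exp (|K x|²/2) ≤ exp (tr (K C Kᵀ) / (2 (1 - θ)))` if `K C Kᵀ ≤ θ < 1` -/
theorem regulator (hC : C.PosSemidef) (K : Matrix κ ι ℝ) {θ : ℝ} (hθ : θ < 1)
    (h : ∀ t, t ⬝ᵥ (K * C * Kᵀ) *ᵥ t ≤ θ * (t ⬝ᵥ t)) :
    Integrable (fun x => Real.exp ((K *ᵥ x) ⬝ᵥ (K *ᵥ x) / 2)) (gm C) ∧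
      ∫ x, Real.exp ((K *ᵥ x) ⬝ᵥ (K *ᵥ x) / 2) ∂(gm C) ≤
        Real.exp ((K * C * Kᵀ).trace / (1 - θ) / 2) := by
  have hM := psd_conj hC K
  have hp : (1 - K * C * Kᵀ).PosDef := by
    refine pd_of (by rw [transpose_sub, transpose_one, psd_transpose hM]) fun t ht => ?_
    rw [sub_mulVec, dotProduct_sub, one_mulVec]
    nlinarith [h t, dot_self_pos ht]
  have hk := tOk_neg_sq hC K hp
  have e : (fun x => Real.exp ((K *ᵥ x) ⬝ᵥ (K *ᵥ x) / 2)) = gw (-(Kᵀ * K)) := by
    funext x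
    have := quad_mul_tr Kᵀ x
    rw [transpose_transpose] at this
    rw [gw, neg_mulVec, dotProduct_neg, neg_neg, this]
  rw [e]
  refine ⟨int_gw_gm hC hk, ?_⟩
  rw [integral_gw_gm hC hk]
  apply inv_sqrt_le_exp
  have h2 := det_compress C K (-1)
  simp only [Matrix.mul_neg, Matrix.mul_one, Matrix.neg_mul, Matrix.one_mul] at h2
  rw [Matrix.neg_mul, h2, ← sub_eq_add_neg, ← neg_div]
  exact exp_le_det hM hθ h

end Crest.Agent.T145.Gs
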