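import Crest.Agent.T145.GsA_85

/-!
# Row 145 (helper85): matrix identities and inequalities for the Gaussian calculus
-/

set_option autoImplicit false
set_option linter.unusedSectionVars false

namespace Crest.Agent.T145.Gs

open Matrix
open scoped MatrixOrder

variable {ι κ : Type*} [Fintype ι] [Fintype κ]

theorem herm_of {A : Matrix ι ι ℝ} (h : Aᵀ = A) : A.IsHermitian := by
  rwa [IsHermitian, conjTranspose_eq_transpose_of_trivial]

theorem psd_of {A : Matrix ι ι ℝ} (h : Aᵀ = A) (h2 : ∀ x, 0 ≤ x ⬝ᵥ A *ᵥ x) : A.PosSemidef :=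
  PosSemidef.of_dotProduct_mulVec_nonneg (herm_of h) fun x => by simpa using h2 x

theorem pd_of {A : Matrix ι ι ℝ} (h : Aᵀ = A) (h2 : ∀ x, x ≠ 0 → 0 < x ⬝ᵥ A *ᵥ x) : A.PosDef :=
  PosDef.of_dotProduct_mulVec_pos (herm_of h) fun x hx => by simpa using h2 x hx

theorem pd_quad {A : Matrix ι ι ℝ} (hA : A.PosDef) {x : ι → ℝ} (hx : x ≠ 0) :
    0 < x ⬝ᵥ A *ᵥ x := by simpa using hA.dotProduct_mulVec_pos hx

theorem pd_transpose {A : Matrix ι ι ℝ} (hA : A.PosDef) : Aᵀ = A := psd_transpose hA.posSemidef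

theorem quad_le {A B : Matrix ι ι ℝ} (h : (B - A).PosSemidef) (x : ι → ℝ) :
    x ⬝ᵥ A *ᵥ x ≤ x ⬝ᵥ B *ᵥ x := by
  have := psd_quad h x
  rw [sub_mulVec, dotProduct_sub] at this
  linarith

theorem dot_self_nonneg (x : ι → ℝ) : 0 ≤ x ⬝ᵥ x :=
  Finset.sum_nonneg fun i _ => mul_self_nonneg (x i)

theorem dot_self_pos {x : ι → ℝ} (hx : x ≠ 0) : 0 < x ⬝ᵥ x :=
  lt_of_le_of_ne (dot_self_nonneg x) fun h => hx (dotProduct_self_eq_zero.1 h.symm)

theorem dot_mulVec_tr (S : Matrix ι κ ℝ) (x : ι → ℝ) (y : κ → ℝ) :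
    x ⬝ᵥ S *ᵥ y = (Sᵀ *ᵥ x) ⬝ᵥ y := by rw [dotProduct_mulVec, mulVec_transpose]

theorem quad_conj (S : Matrix ι κ ℝ) (B : Matrix ι ι ℝ) (y : κ → ℝ) :
    y ⬝ᵥ (Sᵀ * B * S) *ᵥ y = (S *ᵥ y) ⬝ᵥ B *ᵥ (S *ᵥ y) := by
  rw [← mulVec_mulVec, ← mulVec_mulVec, dot_mulVec_tr Sᵀ, transpose_transpose]

theorem quad_conj' (K : Matrix κ ι ℝ) (C : Matrix ι ι ℝ) (t : κ → ℝ) :
    t ⬝ᵥ (K * C * Kᵀ) *ᵥ t = (Kᵀ *ᵥ t) ⬝ᵥ C *ᵥ (Kᵀ *ᵥ t) := by
  simpa using quad_conj Kᵀ C t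

theorem quad_mul_tr (S : Matrix ι κ ℝ) (u : ι → ℝ) :
    u ⬝ᵥ (S * Sᵀ) *ᵥ u = (Sᵀ *ᵥ u) ⬝ᵥ (Sᵀ *ᵥ u) := by
  rw [← mulVec_mulVec, dot_mulVec_tr]

/-- Cauchy-Schwarz for a psd form -/
theorem psd_cs {C : Matrix ι ι ℝ} (hC : C.PosSemidef) (a b : ι → ℝ) :
    (a ⬝ᵥ C *ᵥ b) ^ 2 ≤ (a ⬝ᵥ C *ᵥ a) * (b ⬝ᵥ C *ᵥ b) := by
  have h : ∀ t : ℝ, 0 ≤ (b ⬝ᵥ C *ᵥ b) * (t * t) + (2 * (a ⬝ᵥ C *ᵥ b)) * t + a ⬝ᵥ C *ᵥ a := by
    intro t
    have := psd_quad hC (a + t • b)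
    simp only [mulVec_add, mulVec_smul, dotProduct_add, add_dotProduct, dotProduct_smul,
      smul_dotProduct, smul_eq_mul, dot_symm (psd_transpose hC) b a] at this
    linarith
  have := discrim_le_zero h
  rw [discrim] at this
  nlinarith

theorem psd_two_le {C : Matrix ι ι ℝ} (hC : C.PosSemidef) (a b : ι → ℝ) :
    2 * (a ⬝ᵥ C *ᵥ b) ≤ a ⬝ᵥ C *ᵥ a + b ⬝ᵥ C *ᵥ b := by
  have := psd_quad hC (a - b)
  simp only [mulVec_sub, dotProduct_sub, sub_dotProduct, dot_symm (psd_transpose hC) b a] at this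
  linarith

variable [DecidableEq ι] [DecidableEq κ]

theorem pd_unit {A : Matrix ι ι ℝ} (hA : A.PosDef) : IsUnit A.det := hA.det_pos.ne'.isUnit

theorem pd_mulVec_inv {A : Matrix ι ι ℝ} (hA : A.PosDef) (x : ι → ℝ) : A *ᵥ (A⁻¹ *ᵥ x) = x := by
  rw [mulVec_mulVec, mul_nonsing_inv _ (pd_unit hA), one_mulVec]

theorem pd_inv_mulVec {A : Matrix ι ι ℝ} (hA : A.PosDef) (x : ι → ℝ) : A⁻¹ *ᵥ (A *ᵥ x) = x := by
  rw [mulVec_mulVec, nonsing_inv_mul _ (pd_unit hA), one_mulVec]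

/-- variational (Legendre) lower bound of the inverse form -/
theorem var_inv {A : Matrix ι ι ℝ} (hA : A.PosDef) (x u : ι → ℝ) :
    2 * (x ⬝ᵥ u) - u ⬝ᵥ A *ᵥ u ≤ x ⬝ᵥ A⁻¹ *ᵥ x := by
  have := psd_two_le hA.posSemidef u (A⁻¹ *ᵥ x)
  rw [pd_mulVec_inv hA, dotProduct_comm (A⁻¹ *ᵥ x) x, dotProduct_comm u x] at this
  linarith

/-- the inverse is antitone on positive definite matrices -/
theorem inv_anti {A B : Matrix ι ι ℝ} (hA : A.PosDef) (h : (B - A).PosSemidef) :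
    (A⁻¹ - B⁻¹).PosSemidef := by
  have hB : B.PosDef := by simpa using hA.add_posSemidef h
  refine psd_of (by rw [transpose_sub, pd_transpose hA.inv, pd_transpose hB.inv]) fun x => ?_
  have h1 := var_inv hA x (B⁻¹ *ᵥ x)
  have h2 := quad_le h (B⁻¹ *ᵥ x)
  rw [pd_mulVec_inv hB, dotProduct_comm (B⁻¹ *ᵥ x) x] at h2
  rw [sub_mulVec, dotProduct_sub]
  linarith

theorem inv_anti_iff {A B : Matrix ι ι ℝ} (hA : A.PosDef) (hB : B.PosDef) :
    (A⁻¹ - B⁻¹).PosSemidef ↔ (B - A).PosSemidef := by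
  refine ⟨fun h => ?_, inv_anti hA⟩
  have := inv_anti hB.inv h
  rwa [nonsing_inv_nonsing_inv _ (pd_unit hA), nonsing_inv_nonsing_inv _ (pd_unit hB)] at this

/-- push-through identity -/
theorem push (S : Matrix ι κ ℝ) (T : Matrix κ ι ℝ) (h : IsUnit (1 + T * S).det) :
    S * (1 + T * S)⁻¹ = (1 + S * T)⁻¹ * S := by
  have h' : IsUnit (1 + S * T).det := by rwa [det_one_add_mul_comm]
  have e : (1 + S * T) * S = S * (1 + T * S) := by
    rw [Matrix.add_mul, Matrix.mul_add, Matrix.one_mul, Matrix.mul_one, Matrix.mul_assoc]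
  calc S * (1 + T * S)⁻¹ = (1 + S * T)⁻¹ * ((1 + S * T) * S) * (1 + T * S)⁻¹ := by
        rw [← Matrix.mul_assoc, nonsing_inv_mul _ h', Matrix.one_mul]
    _ = (1 + S * T)⁻¹ * S := by
        rw [e, Matrix.mul_assoc, Matrix.mul_assoc, mul_nonsing_inv _ h, Matrix.mul_one]

/-- the covariance of `gm C` tilted by `exp (-x B x / 2)`; equal to `(C⁻¹ + B)⁻¹` -/
noncomputable def tl (C B : Matrix ι ι ℝ) : Matrix ι ι ℝ := C * (1 + B * C)⁻¹

theorem tl_zero (C : Matrix ι ι ℝ) : tl C 0 = C := by simp [tl]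

theorem tl_eq' {C B : Matrix ι ι ℝ} (h : IsUnit (1 + B * C).det) : tl C B = (1 + C * B)⁻¹ * C :=
  push C B h

theorem tl_eq_inv {C : Matrix ι ι ℝ} (hC : IsUnit C.det) (B : Matrix ι ι ℝ) :
    tl C B = (C⁻¹ + B)⁻¹ := by
  have : 1 + B * C = (C⁻¹ + B) * C := by rw [Matrix.add_mul, nonsing_inv_mul _ hC]
  rw [tl, this, Matrix.mul_inv_rev, ← Matrix.mul_assoc, mul_nonsing_inv _ hC, Matrix.one_mul]

theorem det_fac (S : Matrix ι κ ℝ) (B : Matrix ι ι ℝ) :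
    (1 + Sᵀ * B * S).det = (1 + B * (S * Sᵀ)).det := by
  rw [Matrix.mul_assoc, det_one_add_mul_comm, Matrix.mul_assoc]

theorem tl_fac (S : Matrix ι κ ℝ) (B : Matrix ι ι ℝ) (h : IsUnit (1 + Sᵀ * B * S).det) :
    S * (1 + Sᵀ * B * S)⁻¹ * Sᵀ = tl (S * Sᵀ) B := by
  have h' : IsUnit (1 + B * S * Sᵀ).det := by rwa [Matrix.mul_assoc, ← det_fac]
  have := push Sᵀ (B * S) h'
  rw [tl, Matrix.mul_assoc S Sᵀ, ← Matrix.mul_assoc B, this, Matrix.mul_assoc S, Matrix.mul_assoc Sᵀ]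

/-- resolvent identity `tl = C - C B tl` -/
theorem tl_res {C B : Matrix ι ι ℝ} (h : IsUnit (1 + B * C).det) : tl C B = C - tl C B * B * C := by
  have : tl C B * (1 + B * C) = C := by
    rw [tl, Matrix.mul_assoc, nonsing_inv_mul _ h, Matrix.mul_one]
  rw [Matrix.mul_add, Matrix.mul_one, ← Matrix.mul_assoc] at this
  rw [eq_sub_iff_add_eq]; exact this

theorem tl_res' {C B : Matrix ι ι ℝ} (h : IsUnit (1 + B * C).det) :
    tl C B = C - C * B * tl C B := by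
  have h' : IsUnit (1 + C * B).det := by rwa [det_one_add_mul_comm]
  have : (1 + C * B) * tl C B = C := by
    rw [tl_eq' h, ← Matrix.mul_assoc, mul_nonsing_inv _ h', Matrix.one_mul]
  rw [Matrix.add_mul, Matrix.one_mul] at this
  rw [eq_sub_iff_add_eq]; exact this

/-- tilting twice -/
theorem tl_tl {C B : Matrix ι ι ℝ} (h : IsUnit (1 + B * C).det) (B' : Matrix ι ι ℝ) :
    tl (tl C B) B' = tl C (B + B') := by
  have e : 1 + B' * tl C B = (1 + (B + B') * C) * (1 + B * C)⁻¹ := by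
    rw [tl, Matrix.add_mul B, ← add_assoc, Matrix.add_mul (1 + B * C), mul_nonsing_inv _ h,
      Matrix.mul_assoc]
  rw [tl, e, Matrix.mul_inv_rev, nonsing_inv_nonsing_inv _ h, tl, tl, Matrix.mul_assoc,
    ← Matrix.mul_assoc (1 + B * C)⁻¹, nonsing_inv_mul _ h, Matrix.one_mul]

theorem det_tl_tl {C B : Matrix ι ι ℝ} (h : IsUnit (1 + B * C).det) (B' : Matrix ι ι ℝ) :
    (1 + B * C).det * (1 + B' * tl C B).det = (1 + (B + B') * C).det := by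
  have e : (1 + B' * tl C B) * (1 + B * C) = 1 + (B + B') * C := by
    rw [tl, Matrix.add_mul, Matrix.one_mul, Matrix.mul_assoc, Matrix.mul_assoc,
      nonsing_inv_mul _ h, Matrix.mul_one, Matrix.add_mul, add_assoc]
  rw [← e, det_mul, mul_comm]

/-- the compression formula, without inverses of `C` -/
theorem tl_compress (C : Matrix ι ι ℝ) (K : Matrix κ ι ℝ) (B : Matrix κ κ ℝ)
    (h : IsUnit (1 + B * (K * C * Kᵀ)).det) :
    K * tl C (Kᵀ * B * K) * Kᵀ = tl (K * C * Kᵀ) B := by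
  have h' : IsUnit (1 + B * K * C * Kᵀ).det := by simpa only [Matrix.mul_assoc] using h
  have := push Kᵀ (B * K * C) h'
  simp only [tl, Matrix.mul_assoc] at this ⊢
  rw [this]

theorem det_compress (C : Matrix ι ι ℝ) (K : Matrix κ ι ℝ) (B : Matrix κ κ ℝ) :
    (1 + Kᵀ * B * K * C).det = (1 + B * (K * C * Kᵀ)).det := by
  rw [Matrix.mul_assoc, Matrix.mul_assoc, det_one_add_mul_comm]
  simp only [Matrix.mul_assoc]

/-- the compression formula `K (V⁻¹ - Kᵀ B K)⁻¹ Kᵀ = ((K V Kᵀ)⁻¹ - B)⁻¹` -/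
theorem compress {V : Matrix ι ι ℝ} (K : Matrix κ ι ℝ) (B : Matrix κ κ ℝ) (hV : IsUnit V.det)
    (hW : IsUnit (K * V * Kᵀ).det) (h : IsUnit ((K * V * Kᵀ)⁻¹ - B).det) :
    K * (V⁻¹ - Kᵀ * B * K)⁻¹ * Kᵀ = ((K * V * Kᵀ)⁻¹ - B)⁻¹ := by
  have e : 1 + -B * (K * V * Kᵀ) = ((K * V * Kᵀ)⁻¹ - B) * (K * V * Kᵀ) := by
    rw [Matrix.sub_mul, nonsing_inv_mul _ hW, Matrix.neg_mul, sub_eq_add_neg]
  have := tl_compress V K (-B) (by rw [e, det_mul]; exact h.mul hW)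
  rw [tl_eq_inv hV, tl_eq_inv hW] at this
  simpa [sub_eq_add_neg] using this

/-- `S Sᵀ ≤ D` gives `Sᵀ D⁻¹ S ≤ 1` -/
theorem dual_le {S : Matrix ι κ ℝ} {D : Matrix ι ι ℝ} (hD : D.PosDef)
    (h : (D - S * Sᵀ).PosSemidef) (y : κ → ℝ) : (S *ᵥ y) ⬝ᵥ D⁻¹ *ᵥ (S *ᵥ y) ≤ y ⬝ᵥ y := by
  set u := D⁻¹ *ᵥ (S *ᵥ y) with hu
  have h1 := dot_self_nonneg (y - Sᵀ *ᵥ u)
  have h2 := quad_le h u
  have h3 : D *ᵥ u = S *ᵥ y := pd_mulVec_inv hD _
  rw [quad_mul_tr, h3] at h2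
  have h4 := dot_mulVec_tr S u y
  simp only [dotProduct_sub, sub_dotProduct, dotProduct_comm y (Sᵀ *ᵥ u)] at h1
  rw [dotProduct_comm (S *ᵥ y) u]
  linarith

/-- `T Tᵀ < 1` gives `Tᵀ T < 1` -/
theorem dual_lt {T : Matrix ι κ ℝ} (h : (1 - T * Tᵀ).PosDef) : (1 - Tᵀ * T).PosDef := by
  refine pd_of (by simp [transpose_sub, transpose_mul]) fun y hy => ?_
  have h0 : y ⬝ᵥ (Tᵀ * T) *ᵥ y = (T *ᵥ y) ⬝ᵥ (T *ᵥ y) := by simpa using quad_mul_tr Tᵀ y
  rw [sub_mulVec, dotProduct_sub, one_mulVec, h0]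
  by_cases hw : T *ᵥ y = 0
  · rw [hw]; simpa using dot_self_pos hy
  have h1 := dot_self_nonneg (y - Tᵀ *ᵥ (T *ᵥ y))
  have h2 := pd_quad h hw
  rw [sub_mulVec, dotProduct_sub, one_mulVec, quad_mul_tr] at h2
  have h4 := dot_mulVec_tr T (T *ᵥ y) y
  simp only [dotProduct_sub, sub_dotProduct, dotProduct_comm y (Tᵀ *ᵥ (T *ᵥ y))] at h1
  linarith

/-! ### eigenvalue bounds on determinants -/

theorem eig_vec {P : Matrix ι ι ℝ} (hP : P.IsHermitian) (i : ι) :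
    ∃ v : ι → ℝ, v ⬝ᵥ v = 1 ∧ P *ᵥ v = hP.eigenvalues i • v := by
  refine ⟨⇑(hP.eigenvectorBasis i), ?_, hP.mulVec_eigenvectorBasis i⟩
  have h := hP.eigenvectorBasis.orthonormal.1 i
  have h2 := EuclideanSpace.real_norm_sq_eq (hP.eigenvectorBasis i)
  rw [h] at h2
  simpa [dotProduct, sq] using h2.symm

theorem eig_le {P : Matrix ι ι ℝ} (hP : P.IsHermitian) {b : ℝ}
    (h : ∀ x, x ⬝ᵥ P *ᵥ x ≤ b * (x ⬝ᵥ x)) (i : ι) : hP.eigenvalues i ≤ b := by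
  obtain ⟨v, h1, h2⟩ := eig_vec hP i
  have := h v
  rwa [h2, dotProduct_smul, h1, smul_eq_mul, mul_one, mul_one] at this

theorem le_eig {P : Matrix ι ι ℝ} (hP : P.IsHermitian) {a : ℝ}
    (h : ∀ x, a * (x ⬝ᵥ x) ≤ x ⬝ᵥ P *ᵥ x) (i : ι) : a ≤ hP.eigenvalues i := by
  obtain ⟨v, h1, h2⟩ := eig_vec hP i
  have := h v
  rwa [h2, dotProduct_smul, h1, smul_eq_mul, mul_one, mul_one] at this

theorem spec {P : Matrix ι ι ℝ} (hP : P.IsHermitian) :
    ∃ U : Matrix ι ι ℝ, Uᵀ * U = 1 ∧ U * Uᵀ = 1 ∧ P = U * diagonal hP.eigenvalues * Uᵀ := by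
  refine ⟨hP.eigenvectorUnitary, ?_, ?_, ?_⟩
  · have := Unitary.coe_star_mul_self hP.eigenvectorUnitary
    simpa [star_eq_conjTranspose] using this
  · have := Unitary.coe_mul_star_self hP.eigenvectorUnitary
    simpa [star_eq_conjTranspose] using this
  · have := hP.spectral_theorem
    rw [Unitary.conjStarAlgAut_apply] at this
    simpa [star_eq_conjTranspose] using this

theorem trace_eq {P : Matrix ι ι ℝ} (hP : P.IsHermitian) : P.trace = ∑ i, hP.eigenvalues i := by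
  simpa using hP.trace_eq_sum_eigenvalues

theorem trace_sq_eq {P : Matrix ι ι ℝ} (hP : P.IsHermitian) :
    (P * P).trace = ∑ i, hP.eigenvalues i ^ 2 := by
  obtain ⟨U, h1, -, h3⟩ := spec hP
  set d := hP.eigenvalues
  have : P * P = U * (diagonal d * diagonal d) * Uᵀ := by
    conv_lhs => rw [h3]
    simp only [Matrix.mul_assoc]
    rw [← Matrix.mul_assoc Uᵀ U, h1, Matrix.one_mul]
  rw [this, trace_mul_cycle, h1, Matrix.one_mul, diagonal_mul_diagonal, trace_diagonal]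
  simp [sq]

theorem det_one_add_eq {M : Matrix ι ι ℝ} (hM : M.IsHermitian) :
    (1 + M).det = ∏ i, (1 + hM.eigenvalues i) := by
  obtain ⟨U, h1, h2, h3⟩ := spec hM
  set d := hM.eigenvalues
  have : 1 + M = U * (diagonal fun i => 1 + d i) * Uᵀ := by
    conv_lhs => rw [h3, ← h2]
    rw [← diagonal_add, diagonal_one, Matrix.mul_add, Matrix.add_mul, Matrix.mul_one]
  rw [this, det_mul, det_mul, mul_comm U.det, mul_assoc, ← det_mul, h2, det_one, mul_one,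
    det_diagonal]

theorem log_det_eq {M : Matrix ι ι ℝ} (hM : M.IsHermitian) (h : ∀ i, -1 < hM.eigenvalues i) :
    Real.log (1 + M).det = ∑ i, Real.log (1 + hM.eigenvalues i) := by
  rw [det_one_add_eq hM, Real.log_prod fun i _ => by linarith [h i]]

/-- `det (1 + M) ≤ exp (tr M)` when `1 + M ≥ 0` -/
theorem det_le_exp {M : Matrix ι ι ℝ} (hM : Mᵀ = M) (h : ∀ x, -(x ⬝ᵥ x) ≤ x ⬝ᵥ M *ᵥ x) :
    (1 + M).det ≤ Real.exp M.trace := by
  have hH := herm_of hM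
  rw [det_one_add_eq hH, trace_eq hH, Real.exp_sum]
  have := le_eig hH (a := -1) (fun x => by simpa using h x)
  exact Finset.prod_le_prod (fun i _ => by linarith [this i])
    fun i _ => by linarith [Real.add_one_le_exp (hH.eigenvalues i)]

theorem one_le_det {M : Matrix ι ι ℝ} (hM : M.PosSemidef) : 1 ≤ (1 + M).det := by
  rw [det_one_add_eq hM.1]
  calc (1 : ℝ) = ∏ _i : ι, (1 : ℝ) := by simp
    _ ≤ _ := Finset.prod_le_prod (fun _ _ => zero_le_one) fun i _ => by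
      linarith [hM.eigenvalues_nonneg i]

/-- `det (1 - M) ≥ exp (-tr M / (1 - θ))` when `0 ≤ M ≤ θ < 1` -/
theorem exp_le_det {M : Matrix ι ι ℝ} (hM : M.PosSemidef) {θ : ℝ} (hθ : θ < 1)
    (h : ∀ x, x ⬝ᵥ M *ᵥ x ≤ θ * (x ⬝ᵥ x)) : Real.exp (-M.trace / (1 - θ)) ≤ (1 - M).det := by
  have hH : (-M).IsHermitian := hM.1.neg
  have h1 := le_eig hH (a := -θ) fun x => by
    rw [neg_mulVec, dotProduct_neg]; linarith [h x]
  have h2 := eig_le hH (b := 0) fun x => by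
    rw [neg_mulVec, dotProduct_neg]; linarith [psd_quad hM x]
  rw [sub_eq_add_neg 1 M, det_one_add_eq hH, ← trace_neg, trace_eq hH, Finset.sum_div, Real.exp_sum]
  refine Finset.prod_le_prod (fun i _ => (Real.exp_pos _).le) fun i _ => ?_
  set l := hH.eigenvalues i
  have hp : 0 < 1 + l := by linarith [h1 i]
  have hq : 0 < 1 - θ := by linarith
  rw [← Real.le_log_iff_exp_le hp]
  have h3 := Real.one_sub_inv_le_log_of_pos hp
  have h4 : 1 - (1 + l)⁻¹ = l / (1 + l) := by field_simp; ring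
  have h5 : l / (1 - θ) ≤ l / (1 + l) := by
    rw [div_le_div_iff₀ hq hp]
    nlinarith [h1 i, h2 i]
  linarith

theorem log_one_add_ge {x : ℝ} (hx : -1 / 2 ≤ x) : x - x ^ 2 ≤ Real.log (1 + x) := by
  have hp : 0 < 1 + x := by linarith
  rcases le_or_gt 0 x with h | h
  · have h3 := Real.one_sub_inv_le_log_of_pos hp
    have h4 : x - x ^ 2 ≤ 1 - (1 + x)⁻¹ := by
      have : 1 - (1 + x)⁻¹ = x / (1 + x) := by field_simp; ring
      rw [this, le_div_iff₀ hp]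
      nlinarith [mul_nonneg h (mul_self_nonneg x)]
    linarith
  · rw [Real.le_log_iff_exp_le hp]
    have hy : 0 ≤ x ^ 2 - x := by nlinarith
    have h1 := Real.quadratic_le_exp_of_nonneg hy
    have h2 : Real.exp (x - x ^ 2) * Real.exp (x ^ 2 - x) = 1 := by
      rw [← Real.exp_add]; simp
    have h3 : 1 ≤ (1 + x) * (1 + (x ^ 2 - x) + (x ^ 2 - x) ^ 2 / 2) := by
      have h5 : 0 ≤ (1 + x) * (1 - x) ^ 2 / 2 + x := by nlinarith [sq_nonneg x]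
      nlinarith [mul_nonneg (sq_nonneg x) h5]
    have h4 : 1 ≤ (1 + x) * Real.exp (x ^ 2 - x) := h3.trans (by gcongr)
    have h6 := Real.exp_pos (x ^ 2 - x)
    by_contra hc
    push Not at hc
    nlinarith

/-- second order: `tr M - tr M² ≤ log det (1 + M) ≤ tr M` when `M ≥ -1/2` -/
theorem log_det_ge {M : Matrix ι ι ℝ} (hM : Mᵀ = M) (h : ∀ x, -(x ⬝ᵥ x) / 2 ≤ x ⬝ᵥ M *ᵥ x) :
    M.trace - (M * M).trace ≤ Real.log (1 + M).det := by
  have hH := herm_of hM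
  have h1 := le_eig hH (a := -1 / 2) (fun x => by linarith [h x])
  rw [log_det_eq hH fun i => by linarith [h1 i], trace_eq hH, trace_sq_eq hH,
    ← Finset.sum_sub_distrib]
  exact Finset.sum_le_sum fun i _ => log_one_add_ge (h1 i)

theorem log_det_le {M : Matrix ι ι ℝ} (hM : Mᵀ = M) (h : (1 + M).PosDef) :
    Real.log (1 + M).det ≤ M.trace := by
  rw [Real.log_le_iff_le_exp h.det_pos]
  refine det_le_exp hM fun x => ?_
  have := psd_quad h.posSemidef x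
  rw [add_mulVec, dotProduct_add, one_mulVec] at this
  linarith

end Crest.Agent.T145.Gs
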