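import Crest.Agent.T145.GsB_85

/-!
# Row 145 (helper85): soft Gaussianity (two-constants lemma, MGF to characteristic function,
Hubbard-Stratonovich transfer, AM-GM step)
-/

set_option autoImplicit false
set_option linter.unusedSectionVars false

namespace Crest.Agent.T145.Gs

open MeasureTheory ProbabilityTheory Matrix Metric

universe u

theorem twoc_aux {R : ℝ} (hR : 1 ≤ R) (n : ℕ) : ∀ M δ : ℝ, 0 ≤ M → 0 < δ → ∃ ε > 0, ∀ h : ℂ → ℂ,
    DifferentiableOn ℂ h (ball 0 (4 * R)) → (∀ z ∈ ball (0 : ℂ) (4 * R), ‖h z‖ ≤ M) →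
    (∀ x : ℝ, |x| ≤ 1 → ‖h x‖ ≤ ε) → ∀ z : ℂ, ‖z‖ ≤ R → ‖h z‖ ≤ δ + M / 2 ^ n := by
  have hR0 : 0 < R := by linarith
  have hin : ∀ z : ℂ, ‖z‖ ≤ R → z ∈ ball (0 : ℂ) (4 * R) := fun z hz => by
    rw [mem_ball_zero_iff]; linarith
  have h0 : (0 : ℂ) ∈ ball (0 : ℂ) (4 * R) := hin 0 (by simpa using hR0.le)
  have hmaps : ∀ (h : ℂ → ℂ) (M : ℝ), (∀ z ∈ ball (0 : ℂ) (4 * R), ‖h z‖ ≤ M) →
      Set.MapsTo h (ball 0 (4 * R)) (closedBall (h 0) (2 * M)) := by
    intro h M hb z hz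
    rw [mem_closedBall, dist_eq_norm]
    linarith [norm_sub_le (h z) (h 0), hb z hz, hb 0 h0]
  induction n with
  | zero =>
    intro M δ _ hδ
    exact ⟨1, one_pos, fun h _ hb _ z hz => by simpa using (hb z (hin z hz)).trans (by linarith)⟩
  | succ n ih =>
    intro M δ hM hδ
    obtain ⟨ε', hε', H⟩ := ih (2 * M / (4 * R)) (δ / (2 * R)) (by positivity) (by positivity)
    set L := 2 * (2 * M / (4 * R)) / (4 * R) with hL
    have hL0 : 0 ≤ L := by positivity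
    set ρ := min 1 (ε' / (4 * (L + 1))) with hρ
    have hρ0 : 0 < ρ := lt_min one_pos (by positivity)
    have hρ1 : ρ ≤ 1 := min_le_left _ _
    have hρ2 : 4 * (L + 1) * ρ ≤ ε' := by
      have := min_le_right 1 (ε' / (4 * (L + 1)))
      rwa [← hρ, le_div_iff₀ (by positivity), mul_comm] at this
    refine ⟨min (δ / 2) (ε' * ρ / 4), lt_min (by positivity) (by positivity),
      fun h hd hb hs z hz => ?_⟩
    set g := dslope h 0 with hg
    have hgd : DifferentiableOn ℂ g (ball 0 (4 * R)) :=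
      (Complex.differentiableOn_dslope (isOpen_ball.mem_nhds h0)).2 hd
    have hgb : ∀ z ∈ ball (0 : ℂ) (4 * R), ‖g z‖ ≤ 2 * M / (4 * R) := fun z hz =>
      Complex.norm_dslope_le_div_of_mapsTo_ball hd (hmaps h M hb) hz
    have hlip : ∀ x : ℝ, |x| ≤ 1 → ‖g x - g 0‖ ≤ L * |x| := fun x hx => by
      have := Complex.dist_le_div_mul_dist_of_mapsTo_ball hgd (hmaps g _ hgb)
        (hin x (by simpa using hx.trans hR))
      simpa [dist_eq_norm] using this
    have hid : ∀ z : ℂ, h z = h 0 + z * g z := fun z => by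
      have := sub_smul_dslope h 0 z
      rw [sub_zero, smul_eq_mul] at this
      rw [hg, this]; ring
    have hh0 : ‖h 0‖ ≤ min (δ / 2) (ε' * ρ / 4) := by simpa using hs 0 (by simp)
    have hbig : ∀ x : ℝ, |x| ≤ 1 → ρ ≤ |x| → ‖g x‖ ≤ ε' / 2 := fun x hx hx' => by
      have h1 : ‖(x : ℂ) * g x‖ ≤ ε' * ρ / 2 := by
        have : (x : ℂ) * g x = h x - h 0 := by rw [hid x]; ring
        rw [this]
        linarith [norm_sub_le (h x) (h 0), hs x hx, min_le_right (δ / 2) (ε' * ρ / 4)]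
      rw [norm_mul, Complex.norm_real, Real.norm_eq_abs] at h1
      nlinarith [norm_nonneg (g x)]
    have hsm : ∀ x : ℝ, |x| ≤ 1 → ‖g x‖ ≤ ε' := fun x hx => by
      rcases le_or_gt ρ |x| with hx' | hx'
      · linarith [hbig x hx hx']
      have hρa : |ρ| = ρ := abs_of_pos hρ0
      have h1 := hbig ρ (by rwa [hρa]) hρa.ge
      have h2 := hlip ρ (by rwa [hρa])
      have h3 := hlip x hx
      rw [hρa] at h2
      have h4 : ‖g x‖ ≤ ‖g x - g 0‖ + ‖g ρ - g 0‖ + ‖g ρ‖ := by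
        have : g x = (g x - g 0) - (g ρ - g 0) + g ρ := by ring
        conv_lhs => rw [this]
        exact (norm_add_le _ _).trans (by gcongr; exact norm_sub_le _ _)
      nlinarith [mul_le_mul_of_nonneg_left hx'.le hL0]
    have h5 := H g hgd hgb hsm z hz
    rw [hid z]
    have h6 : ‖z * g z‖ ≤ R * (δ / (2 * R) + 2 * M / (4 * R) / 2 ^ n) := by
      rw [norm_mul]; gcongr
    have h7 : R * (δ / (2 * R) + 2 * M / (4 * R) / 2 ^ n) = δ / 2 + M / 2 ^ (n + 1) := by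
      field_simp; ring
    linarith [norm_add_le (h 0) (z * g z), min_le_left (δ / 2) (ε' * ρ / 4)]

/-- soft two-constants lemma -/
theorem twoc {R : ℝ} (hR : 1 ≤ R) (M : ℝ) {δ : ℝ} (hδ : 0 < δ) : ∃ ε > 0, ∀ h : ℂ → ℂ,
    DifferentiableOn ℂ h (ball 0 (4 * R)) → (∀ z ∈ ball (0 : ℂ) (4 * R), ‖h z‖ ≤ M) →
    (∀ x : ℝ, |x| ≤ 1 → ‖h x‖ ≤ ε) → ∀ z : ℂ, ‖z‖ ≤ R → ‖h z‖ ≤ δ := by
  obtain ⟨n, hn⟩ := pow_unbounded_of_one_lt (|M| / (δ / 2)) (one_lt_two (α := ℝ))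
  obtain ⟨ε, hε, H⟩ := twoc_aux hR n |M| (δ / 2) (abs_nonneg _) (by positivity)
  refine ⟨ε, hε, fun h hd hb hs z hz => ?_⟩
  have h1 := H h hd (fun z hz => (hb z hz).trans (le_abs_self _)) hs z hz
  rw [div_lt_iff₀ (by positivity)] at hn
  have h2 : |M| / 2 ^ n ≤ δ / 2 := by rw [div_le_iff₀ (by positivity)]; linarith
  linarith

theorem exp_mul_le {c x : ℝ} (y : ℝ) (h : |x| ≤ c) :
    Real.exp (x * y) ≤ Real.exp (c * y) + Real.exp (-c * y) := by
  rcases le_total 0 y with hy | hy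
  · have : Real.exp (x * y) ≤ Real.exp (c * y) :=
      Real.exp_le_exp.2 (mul_le_mul_of_nonneg_right (abs_le.1 h).2 hy)
    linarith [Real.exp_pos (-c * y)]
  · have : Real.exp (x * y) ≤ Real.exp (-c * y) :=
      Real.exp_le_exp.2 (mul_le_mul_of_nonpos_right (abs_le.1 h).1 hy)
    linarith [Real.exp_pos (c * y)]

section
variable {Ω : Type u} [MeasurableSpace Ω] {P : Measure Ω}

theorem norm_vexp {v X : ℝ} (hv : |v| ≤ 1) (z : ℂ) :
    ‖(v : ℂ) * Complex.exp (z * X)‖ ≤ Real.exp (z.re * X) := by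
  rw [norm_mul, Complex.norm_real, Complex.norm_exp, Real.norm_eq_abs]
  simpa using mul_le_of_le_one_left (Real.exp_pos _).le hv

theorem int_vexp {X v : Ω → ℝ} (hX : Measurable X) (hv : Measurable v) (h1 : ∀ ω, |v ω| ≤ 1)
    (hi : ∀ c : ℝ, Integrable (fun ω => Real.exp (c * X ω)) P) (z : ℂ) :
    Integrable (fun ω => (v ω : ℂ) * Complex.exp (z * X ω)) P :=
  (hi z.re).mono' (Measurable.aestronglyMeasurable (by fun_prop))
    (Filter.Eventually.of_forall fun ω => norm_vexp (h1 ω) z)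

theorem diff_lap {X v : Ω → ℝ} (hX : Measurable X) (hv : Measurable v) (h1 : ∀ ω, |v ω| ≤ 1)
    (hi : ∀ c : ℝ, Integrable (fun ω => Real.exp (c * X ω)) P) :
    Differentiable ℂ fun z : ℂ => ∫ ω, (v ω : ℂ) * Complex.exp (z * X ω) ∂P := by
  intro z₀
  set c := ‖z₀‖ + 2
  refine (hasDerivAt_integral_of_dominated_loc_of_deriv_le (μ := P) (s := ball z₀ 1)
    (F := fun z ω => (v ω : ℂ) * Complex.exp (z * X ω))
    (F' := fun z ω => (v ω : ℂ) * (Complex.exp (z * X ω) * X ω))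
    (bound := fun ω => 2 * (Real.exp (c * X ω) + Real.exp (-c * X ω))) (ball_mem_nhds _ one_pos)
    (Filter.Eventually.of_forall fun z => Measurable.aestronglyMeasurable (by fun_prop))
    (int_vexp hX hv h1 hi z₀) (Measurable.aestronglyMeasurable (by fun_prop))
    (Filter.Eventually.of_forall fun ω z hz => ?_) (((hi c).add (hi (-c))).const_mul 2)
    (Filter.Eventually.of_forall fun ω z _ => ?_)).2.differentiableAt
  · rw [← mul_assoc, norm_mul, Complex.norm_real, Real.norm_eq_abs]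
    have h2 := norm_vexp (X := X ω) (h1 ω) z
    have h3 : |z.re| ≤ ‖z₀‖ + 1 := by
      rw [mem_ball, dist_eq_norm] at hz
      linarith [Complex.abs_re_le_norm z, norm_le_norm_add_norm_sub' z z₀]
    have h4 : |X ω| ≤ Real.exp (1 * X ω) + Real.exp (-1 * X ω) := by
      simp only [one_mul, neg_mul]
      rcases abs_cases (X ω) with h | h <;>
        linarith [Real.add_one_le_exp (X ω), Real.add_one_le_exp (-X ω), Real.exp_pos (X ω),
          Real.exp_pos (-X ω)]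
    have h5 := exp_mul_le (c := c) (x := z.re + 1) (X ω)
      (by rw [abs_le] at h3 ⊢; constructor <;> simp only [c] <;> linarith [h3.1, h3.2])
    have h6 := exp_mul_le (c := c) (x := z.re + -1) (X ω)
      (by rw [abs_le] at h3 ⊢; constructor <;> simp only [c] <;> linarith [h3.1, h3.2])
    rw [add_mul, Real.exp_add] at h5 h6
    calc _ ≤ Real.exp (z.re * X ω) * (Real.exp (1 * X ω) + Real.exp (-1 * X ω)) := by gcongr
      _ ≤ _ := by linarith
  · exact (((hasDerivAt_id z).mul_const (X ω : ℂ)).cexp.const_mul (v ω : ℂ)).congr_deriv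
      (by simp)

end

/-- Gaussian moment generating function near `0` gives the Gaussian characteristic function -/
theorem soft_char {R : ℝ} (hR : 1 ≤ R) (M V : ℝ) {δ : ℝ} (hδ : 0 < δ) : ∃ ε > 0,
    ∀ (Ω : Type u) [MeasurableSpace Ω] (P : Measure Ω) [IsProbabilityMeasure P] (X v : Ω → ℝ)
      (w : ℝ), Measurable X → Measurable v → (∀ ω, |v ω| ≤ 1) →
      (∀ c : ℝ, Integrable (fun ω => Real.exp (c * X ω)) P) →
      ∫ ω, Real.exp (4 * R * X ω) ∂P + ∫ ω, Real.exp (-(4 * R) * X ω) ∂P ≤ M → |w| ≤ V →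
      (∀ s : ℝ, |s| ≤ 1 →
        |∫ ω, v ω * Real.exp (s * X ω) ∂P - (∫ ω, v ω ∂P) * Real.exp (s ^ 2 * w / 2)| ≤ ε) →
      ∀ θ : ℝ, |θ| ≤ R →
        |∫ ω, v ω * Real.cos (θ * X ω) ∂P - (∫ ω, v ω ∂P) * Real.exp (-(θ ^ 2 * w) / 2)| ≤ δ ∧
          |∫ ω, v ω * Real.sin (θ * X ω) ∂P| ≤ δ := by
  obtain ⟨ε, hε, H⟩ := twoc hR (M + Real.exp ((4 * R) ^ 2 * V / 2)) hδ
  refine ⟨ε, hε, fun Ω _ P _ X v w hX hv h1 hi hM hw hs θ hθ => ?_⟩
  have hEv : |∫ ω, v ω ∂P| ≤ 1 := by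
    simpa using norm_integral_le_of_norm_le_const (μ := P) (f := v) (C := 1)
      (Filter.Eventually.of_forall h1)
  have h2 := H (fun z => ∫ ω, (v ω : ℂ) * Complex.exp (z * X ω) ∂P -
      ((∫ ω, v ω ∂P : ℝ) : ℂ) * Complex.exp (z ^ 2 * w / 2))
    (((diff_lap hX hv h1 hi).sub (by fun_prop)).differentiableOn) (fun z hz => ?_) (fun x hx => ?_)
    (θ * Complex.I) (by simpa using hθ)
  · have hI := int_vexp hX hv h1 hi (θ * Complex.I)
    have e1 : ∀ ω, (v ω : ℂ) * Complex.exp (θ * Complex.I * X ω) =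
        (v ω : ℂ) * Complex.exp ((θ * X ω : ℝ) * Complex.I) := fun ω => by
      congr 2; push_cast; ring
    have e2 : Complex.exp ((θ * Complex.I) ^ 2 * w / 2) = (Real.exp (-(θ ^ 2 * w) / 2) : ℝ) := by
      rw [Complex.ofReal_exp, mul_pow, Complex.I_sq]; congr 1; push_cast; ring
    simp only [e1, e2] at h2 hI
    have hre := (Complex.abs_re_le_norm _).trans h2
    have him := (Complex.abs_im_le_norm _).trans h2
    have r1 := integral_re hI
    have r2 := integral_im hI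
    simp only [RCLike.re_to_complex, RCLike.im_to_complex, Complex.re_ofReal_mul,
      Complex.im_ofReal_mul, Complex.exp_ofReal_mul_I_re, Complex.exp_ofReal_mul_I_im] at r1 r2
    rw [Complex.sub_re, ← r1, ← Complex.ofReal_mul, Complex.ofReal_re] at hre
    rw [Complex.sub_im, ← r2, ← Complex.ofReal_mul, Complex.ofReal_im, sub_zero] at him
    exact ⟨hre, him⟩
  · rw [mem_ball_zero_iff] at hz
    refine (norm_sub_le _ _).trans (add_le_add ?_ ?_)
    · refine (norm_integral_le_of_norm_le ((hi (4 * R)).add (hi (-(4 * R))))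
        (Filter.Eventually.of_forall fun ω => (norm_vexp (h1 ω) z).trans
          (exp_mul_le _ ((Complex.abs_re_le_norm z).trans hz.le)))).trans ?_
      rw [integral_add' (hi _) (hi _)]
      exact hM
    · rw [norm_mul, Complex.norm_real, Real.norm_eq_abs]
      refine (mul_le_of_le_one_left (norm_nonneg _) hEv).trans
        ((Complex.norm_exp_le_exp_norm _).trans (Real.exp_le_exp.2 ?_))
      rw [norm_div, norm_mul, norm_pow, Complex.norm_real, Real.norm_eq_abs]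
      simp only [Complex.norm_ofNat]
      gcongr
  · have e : ∫ ω, (v ω : ℂ) * Complex.exp (x * X ω) ∂P -
        ((∫ ω, v ω ∂P : ℝ) : ℂ) * Complex.exp ((x : ℂ) ^ 2 * w / 2) =
        ((∫ ω, v ω * Real.exp (x * X ω) ∂P - (∫ ω, v ω ∂P) * Real.exp (x ^ 2 * w / 2) : ℝ) : ℂ) := by
      rw [Complex.ofReal_sub, ← integral_complex_ofReal (f := fun ω => v ω * Real.exp (x * X ω))]
      push_cast
      rfl
    simp only [e, Complex.norm_real, Real.norm_eq_abs]
    exact hs x hx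

theorem abs_quad_le {ι : Type*} [Fintype ι] {C : Matrix ι ι ℝ} {K : ℝ} (hC : ∀ i j, |C i j| ≤ K)
    (l : ι → ℝ) : |l ⬝ᵥ C *ᵥ l| ≤ (Fintype.card ι : ℝ) ^ 2 * |K| * ‖l‖ ^ 2 := by
  simp only [dotProduct, mulVec, Finset.mul_sum]
  refine (Finset.abs_sum_le_sum_abs _ _).trans ?_
  have h : ∀ i, |∑ j, l i * (C i j * l j)| ≤ (Fintype.card ι : ℝ) * (|K| * ‖l‖ ^ 2) := fun i => by
    refine (Finset.abs_sum_le_sum_abs _ _).trans ?_
    rw [← Finset.card_univ, ← nsmul_eq_mul]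
    refine Finset.sum_le_card_nsmul _ _ _ fun j _ => ?_
    rw [abs_mul, abs_mul]
    have h1 : |l i| ≤ ‖l‖ := norm_le_pi_norm l i
    have h2 : |l j| ≤ ‖l‖ := norm_le_pi_norm l j
    have h3 := (hC i j).trans (le_abs_self K)
    calc _ ≤ ‖l‖ * (|K| * ‖l‖) := by gcongr
      _ = _ := by ring
  refine (Finset.sum_le_card_nsmul _ _ _ fun i _ => h i).trans_eq ?_
  rw [Finset.card_univ, nsmul_eq_mul]; ring

/-- vector form of `soft_char` -/
theorem soft_vec (N : ℕ) (K R : ℝ) (Kf : ℝ → ℝ) {δ : ℝ} (hδ : 0 < δ) : ∃ ε > 0,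
    ∀ (ι : Type) [Fintype ι] (Ω : Type u) [MeasurableSpace Ω] (P : Measure Ω)
      [IsProbabilityMeasure P] (Z : Ω → ι → ℝ) (v : Ω → ℝ) (C : Matrix ι ι ℝ),
      Fintype.card ι ≤ N → (∀ i j, |C i j| ≤ K) → Measurable Z → Measurable v → (∀ ω, |v ω| ≤ 1) →
      (∀ l : ι → ℝ, Integrable (fun ω => Real.exp (l ⬝ᵥ Z ω)) P) →
      (∀ (r : ℝ) (l : ι → ℝ), ‖l‖ ≤ r → ∫ ω, Real.exp (l ⬝ᵥ Z ω) ∂P ≤ Kf r) →
      (∀ l : ι → ℝ, ‖l‖ ≤ 1 →
        |∫ ω, v ω * Real.exp (l ⬝ᵥ Z ω) ∂P - (∫ ω, v ω ∂P) * Real.exp (l ⬝ᵥ C *ᵥ l / 2)| ≤ ε) →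
      ∀ t : ι → ℝ, ‖t‖ ≤ R →
        |∫ ω, v ω * Real.cos (t ⬝ᵥ Z ω) ∂P - (∫ ω, v ω ∂P) * Real.exp (-(t ⬝ᵥ C *ᵥ t) / 2)| ≤ δ ∧
          |∫ ω, v ω * Real.sin (t ⬝ᵥ Z ω) ∂P| ≤ δ := by
  set R' := max R 1 with hR'
  have h1 : 1 ≤ R' := le_max_right _ _
  have h0 : 0 < R' := by linarith
  obtain ⟨ε, hε, H⟩ := soft_char.{u} h1 (Kf (4 * R') + Kf (4 * R')) ((N : ℝ) ^ 2 * |K|) hδ
  refine ⟨ε, hε, fun ι _ Ω _ P _ Z v C hN hC hZ hv hv1 hi hK hs t ht => ?_⟩
  set τ := R'⁻¹ • t with hτ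
  have hτ1 : ‖τ‖ ≤ 1 := by
    rw [hτ, norm_smul, norm_inv, Real.norm_eq_abs, abs_of_pos h0, inv_mul_le_iff₀ h0, mul_one]
    exact ht.trans (le_max_left _ _)
  have e : ∀ (c : ℝ) ω, c * (τ ⬝ᵥ Z ω) = (c • τ) ⬝ᵥ Z ω := fun c ω => by simp
  have hn : ∀ c : ℝ, ‖c • τ‖ ≤ |c| := fun c => by
    rw [norm_smul, Real.norm_eq_abs]; exact mul_le_of_le_one_right (abs_nonneg _) hτ1
  have et : R' • τ = t := by rw [hτ, smul_smul, mul_inv_cancel₀ h0.ne', one_smul]
  have eq : ∀ c : ℝ, (c • τ) ⬝ᵥ C *ᵥ (c • τ) = c ^ 2 * (τ ⬝ᵥ C *ᵥ τ) := fun c => by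
    simp [mulVec_smul]; ring
  have := H Ω P (fun ω => τ ⬝ᵥ Z ω) v (τ ⬝ᵥ C *ᵥ τ) ((cont_dot τ).measurable.comp hZ) hv hv1
    (fun c => by simp only [e]; exact hi _) ?_ ?_ (fun s hs1 => ?_) R' (by rw [abs_of_pos h0])
  · simpa only [e, ← eq, et] using this
  · simp only [e]
    exact add_le_add (hK _ _ ((hn _).trans_eq (abs_of_pos (by linarith))))
      (hK _ _ ((hn _).trans_eq (by rw [abs_neg, abs_of_pos (by linarith)])))
  · refine (abs_quad_le hC τ).trans ?_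
    have : (Fintype.card ι : ℝ) ≤ N := by exact_mod_cast hN
    calc _ ≤ (N : ℝ) ^ 2 * |K| * 1 ^ 2 := by gcongr
      _ = _ := by ring
  · simpa only [e, ← eq] using hs (s • τ) ((hn s).trans hs1)

section
variable {ι : Type*} [Fintype ι] [DecidableEq ι]

/-- Hubbard-Stratonovich -/
theorem gw_eq_cos {B : Matrix ι ι ℝ} (hB : B.PosSemidef) (y : ι → ℝ) :
    gw B y = ∫ t, Real.cos (t ⬝ᵥ y) ∂(gm B) := by
  have := integral_cos hB y 0
  simp only [add_zero, Real.cos_zero, mul_one] at this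
  simp_rw [dotProduct_comm _ y]
  rw [this, gw]

theorem integral_exp_norm_le {B : Matrix ι ι ℝ} (hB : B.PosSemidef) {K : ℝ} (hK : ∀ i, B i i ≤ K)
    (c : ℝ) : ∫ t, Real.exp (c * ‖t‖) ∂(gm B) ≤
      1 + 2 * Fintype.card ι * Real.exp (c ^ 2 * K / 2) := by
  have hi : ∀ i, Integrable (fun x : ι → ℝ => Real.exp (c * x i) + Real.exp (-(c * x i))) (gm B) :=
    fun i => (int_exp_coord B c i).add (by simpa using int_exp_coord B (-c) i)
  have hm : ∀ (b : ℝ) i, b ^ 2 = c ^ 2 →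
      ∫ x, Real.exp (b * x i) ∂(gm B) ≤ Real.exp (c ^ 2 * K / 2) := fun b i hb => by
    have := mgf hB (Pi.single i b)
    simp only [single_dotProduct, mulVec_single, MulOpposite.smul_eq_mul_unop, MulOpposite.unop_op,
      Pi.smul_apply, col_apply] at this
    rw [this, Real.exp_le_exp, ← hb]
    nlinarith [hK i, sq_nonneg b]
  refine (integral_mono (int_exp_norm B c) ((integrable_const _).add
    (integrable_finsetSum _ fun i _ => hi i)) fun x => exp_norm_le c x).trans ?_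
  rw [integral_add' (integrable_const _) (integrable_finsetSum _ fun i _ => hi i),
    integral_finsetSum _ fun i _ => hi i]
  simp only [integral_const, probReal_univ, smul_eq_mul, mul_one, add_le_add_iff_left]
  refine (Finset.sum_le_card_nsmul _ _ (2 * Real.exp (c ^ 2 * K / 2)) fun i _ => ?_).trans_eq ?_
  · rw [integral_add (int_exp_coord B c i) (by simpa using int_exp_coord B (-c) i)]
    have h1 := hm c i rfl
    have h2 := hm (-c) i (by ring)
    simp only [neg_mul] at h2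
    linarith
  · rw [Finset.card_univ, nsmul_eq_mul]; ring

theorem int_bdd {α : Type*} [MeasurableSpace α] {μ : Measure α} [IsFiniteMeasure μ] {f : α → ℝ}
    (hf : Measurable f) {c : ℝ} (h : ∀ a, |f a| ≤ c) : Integrable f μ :=
  (integrable_const c).mono' hf.aestronglyMeasurable (Filter.Eventually.of_forall h)

theorem meas_dot {α : Type*} [MeasurableSpace α] {f g : α → ι → ℝ} (hf : Measurable f)
    (hg : Measurable g) : Measurable fun a => f a ⬝ᵥ g a :=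
  Finset.measurable_sum _ fun i _ =>
    ((measurable_pi_apply i).comp hf).mul ((measurable_pi_apply i).comp hg)

theorem integral_gw_cos {B C : Matrix ι ι ℝ} (hB : B.PosSemidef) (hC : C.PosSemidef) (a : ι → ℝ) :
    ∫ x, gw B (a + x) ∂(gm C) = ∫ t, Real.exp (-(t ⬝ᵥ C *ᵥ t) / 2) * Real.cos (t ⬝ᵥ a) ∂(gm B) := by
  simp_rw [gw_eq_cos hB]
  have hm : Measurable fun p : (ι → ℝ) × (ι → ℝ) => Real.cos (p.2 ⬝ᵥ (a + p.1)) :=
    Real.measurable_cos.comp (meas_dot measurable_snd (measurable_fst.const_add a))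
  rw [integral_integral_swap (f := fun x t => Real.cos (t ⬝ᵥ (a + x)))
    (int_bdd (c := 1) hm fun p => Real.abs_cos_le_one _)]
  congr 1
  funext t
  rw [← integral_cos hC]
  simp_rw [dotProduct_add, add_comm]

end

theorem abs_mul_le_one {a b : ℝ} (ha : |a| ≤ 1) (hb : |b| ≤ 1) : |a * b| ≤ 1 := by
  rw [abs_mul]; exact mul_le_one₀ ha (abs_nonneg _) hb

/-- Hubbard-Stratonovich transfer: Gaussian factors of an almost Gaussian vector -/
theorem soft_gw (N : ℕ) (K : ℝ) (Kf : ℝ → ℝ) {δ : ℝ} (hδ : 0 < δ) : ∃ ε > 0,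
    ∀ (ι : Type) [Fintype ι] [DecidableEq ι] (Ω : Type u) [MeasurableSpace Ω] (P : Measure Ω)
      [IsProbabilityMeasure P] (Z a : Ω → ι → ℝ) (u : Ω → ℝ) (B C : Matrix ι ι ℝ),
      Fintype.card ι ≤ N → B.PosSemidef → (∀ i, B i i ≤ K) → C.PosSemidef → (∀ i j, |C i j| ≤ K) →
      Measurable Z → Measurable a → Measurable u → (∀ ω, |u ω| ≤ 1) →
      (∀ l : ι → ℝ, Integrable (fun ω => Real.exp (l ⬝ᵥ Z ω)) P) →
      (∀ (r : ℝ) (l : ι → ℝ), ‖l‖ ≤ r → ∫ ω, Real.exp (l ⬝ᵥ Z ω) ∂P ≤ Kf r) →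
      (∀ φ : (ι → ℝ) → ℝ, Measurable φ → (∀ y, |φ y| ≤ 1) → ∀ l : ι → ℝ, ‖l‖ ≤ 1 →
        |∫ ω, u ω * φ (a ω) * Real.exp (l ⬝ᵥ Z ω) ∂P -
          (∫ ω, u ω * φ (a ω) ∂P) * Real.exp (l ⬝ᵥ C *ᵥ l / 2)| ≤ ε) →
      |∫ ω, u ω * gw B (a ω + Z ω) ∂P - ∫ ω, u ω * ∫ x, gw B (a ω + x) ∂(gm C) ∂P| ≤ δ := by
  set T := 1 + 2 * N * Real.exp (1 ^ 2 * K / 2) with hT
  have hT0 : 0 < T := by positivity
  set R := 4 * T / δ with hR
  obtain ⟨ε, hε, H⟩ := soft_vec.{u} N K R Kf (δ := δ / 4) (by positivity)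
  refine ⟨ε, hε, fun ι _ _ Ω _ P _ Z a u B C hN hB hBK hC hCK hZ ha hu hu1 hi hK hs => ?_⟩
  have hE : ∀ t : ι → ℝ, |Real.exp (-(t ⬝ᵥ C *ᵥ t) / 2)| ≤ 1 := fun t => by
    rw [abs_of_pos (Real.exp_pos _)]; exact gw_le_one hC t
  have m1 : Measurable fun p : Ω × (ι → ℝ) => u p.1 * Real.cos (p.2 ⬝ᵥ (a p.1 + Z p.1)) :=
    (hu.comp measurable_fst).mul (Real.measurable_cos.comp
      (meas_dot measurable_snd ((ha.add hZ).comp measurable_fst)))
  have m2 : Measurable fun p : Ω × (ι → ℝ) =>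
      u p.1 * (Real.exp (-(p.2 ⬝ᵥ C *ᵥ p.2) / 2) * Real.cos (p.2 ⬝ᵥ a p.1)) :=
    (hu.comp measurable_fst).mul (((cont_gw C).measurable.comp measurable_snd).mul
      (Real.measurable_cos.comp (meas_dot measurable_snd (ha.comp measurable_fst))))
  have i1 := int_bdd (μ := P.prod (gm B)) m1 (c := 1)
    fun p => abs_mul_le_one (hu1 _) (Real.abs_cos_le_one _)
  have i2 := int_bdd (μ := P.prod (gm B)) m2 (c := 1)
    fun p => abs_mul_le_one (hu1 _) (abs_mul_le_one (hE _) (Real.abs_cos_le_one _))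
  simp_rw [integral_gw_cos hB hC, gw_eq_cos hB, ← integral_const_mul]
  have s1 := integral_integral_swap (f := fun ω t => u ω * Real.cos (t ⬝ᵥ (a ω + Z ω))) i1
  have s2 := integral_integral_swap
    (f := fun ω t => u ω * (Real.exp (-(t ⬝ᵥ C *ᵥ t) / 2) * Real.cos (t ⬝ᵥ a ω))) i2
  rw [s1, s2, ← integral_sub i1.integral_prod_right i2.integral_prod_right]
  have hb : ∀ t : ι → ℝ, ‖∫ ω, u ω * Real.cos (t ⬝ᵥ (a ω + Z ω)) ∂P -
      ∫ ω, u ω * (Real.exp (-(t ⬝ᵥ C *ᵥ t) / 2) * Real.cos (t ⬝ᵥ a ω)) ∂P‖ ≤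
      δ / 2 + 2 * Real.exp (-R) * Real.exp (1 * ‖t‖) := by
    intro t
    rw [Real.norm_eq_abs]
    rcases le_or_gt ‖t‖ R with ht | ht
    · have mc : Measurable fun y : ι → ℝ => Real.cos (t ⬝ᵥ y) :=
        Real.measurable_cos.comp (cont_dot t).measurable
      have ms : Measurable fun y : ι → ℝ => Real.sin (t ⬝ᵥ y) :=
        Real.measurable_sin.comp (cont_dot t).measurable
      have b1 := fun ω => abs_mul_le_one (hu1 ω) (Real.abs_cos_le_one (t ⬝ᵥ a ω))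
      have b2 := fun ω => abs_mul_le_one (hu1 ω) (Real.abs_sin_le_one (t ⬝ᵥ a ω))
      have n1 : Measurable fun ω => u ω * Real.cos (t ⬝ᵥ a ω) := hu.mul (mc.comp ha)
      have n2 : Measurable fun ω => u ω * Real.sin (t ⬝ᵥ a ω) := hu.mul (ms.comp ha)
      have n3 : Measurable fun ω => u ω * Real.cos (t ⬝ᵥ a ω) * Real.cos (t ⬝ᵥ Z ω) :=
        n1.mul (mc.comp hZ)
      have n4 : Measurable fun ω => u ω * Real.sin (t ⬝ᵥ a ω) * Real.sin (t ⬝ᵥ Z ω) :=
        n2.mul (ms.comp hZ)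
      have h1 := (H ι Ω P Z _ C hN hCK hZ n1 b1 hi hK
        (hs _ mc fun y => Real.abs_cos_le_one _) t ht).1
      have h2 := (H ι Ω P Z _ C hN hCK hZ n2 b2 hi hK
        (hs _ ms fun y => Real.abs_sin_le_one _) t ht).2
      have e1 : ∫ ω, u ω * Real.cos (t ⬝ᵥ (a ω + Z ω)) ∂P =
          ∫ ω, u ω * Real.cos (t ⬝ᵥ a ω) * Real.cos (t ⬝ᵥ Z ω) ∂P -
            ∫ ω, u ω * Real.sin (t ⬝ᵥ a ω) * Real.sin (t ⬝ᵥ Z ω) ∂P := by
        rw [← integral_sub (int_bdd n3 fun ω => abs_mul_le_one (b1 ω) (Real.abs_cos_le_one _))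
          (int_bdd n4 fun ω => abs_mul_le_one (b2 ω) (Real.abs_sin_le_one _))]
        congr 1
        funext ω
        simp only [dotProduct_add, Real.cos_add]
        ring
      have e2 : ∫ ω, u ω * (Real.exp (-(t ⬝ᵥ C *ᵥ t) / 2) * Real.cos (t ⬝ᵥ a ω)) ∂P =
          (∫ ω, u ω * Real.cos (t ⬝ᵥ a ω) ∂P) * Real.exp (-(t ⬝ᵥ C *ᵥ t) / 2) := by
        rw [← integral_mul_const]
        congr 1
        funext ω
        ring
      rw [e1, e2]
      have h3 : 0 ≤ 2 * Real.exp (-R) * Real.exp (1 * ‖t‖) := by positivity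
      rw [abs_le] at h1 h2 ⊢
      constructor <;> linarith [h1.1, h1.2, h2.1, h2.2]
    · have h1 : |∫ ω, u ω * Real.cos (t ⬝ᵥ (a ω + Z ω)) ∂P| ≤ 1 := by
        simpa using norm_integral_le_of_norm_le_const (μ := P) (C := 1)
          (f := fun ω => u ω * Real.cos (t ⬝ᵥ (a ω + Z ω)))
          (Filter.Eventually.of_forall fun ω => abs_mul_le_one (hu1 _) (Real.abs_cos_le_one _))
      have h2 : |∫ ω, u ω * (Real.exp (-(t ⬝ᵥ C *ᵥ t) / 2) * Real.cos (t ⬝ᵥ a ω)) ∂P| ≤ 1 := by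
        simpa using norm_integral_le_of_norm_le_const (μ := P) (C := 1)
          (f := fun ω => u ω * (Real.exp (-(t ⬝ᵥ C *ᵥ t) / 2) * Real.cos (t ⬝ᵥ a ω)))
          (Filter.Eventually.of_forall fun ω => abs_mul_le_one (hu1 _)
            (abs_mul_le_one (hE _) (Real.abs_cos_le_one _)))
      have h3 : 1 ≤ Real.exp (-R) * Real.exp (1 * ‖t‖) := by
        rw [← Real.exp_add]; exact Real.one_le_exp (by linarith)
      rw [abs_le] at h1 h2 ⊢
      constructor <;> linarith [h1.1, h1.2, h2.1, h2.2]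
  have i3 := (int_exp_norm B 1).const_mul (2 * Real.exp (-R))
  have h4 := norm_integral_le_of_norm_le ((integrable_const (δ / 2)).add i3)
    (Filter.Eventually.of_forall hb)
  rw [integral_add' (integrable_const _) i3, integral_const_mul] at h4
  simp only [integral_const, probReal_univ, smul_eq_mul, one_mul, Real.norm_eq_abs] at h4
  have h5 := integral_exp_norm_le hB hBK 1
  have h6 : (Fintype.card ι : ℝ) ≤ N := by exact_mod_cast hN
  have h7 : ∫ t, Real.exp ‖t‖ ∂(gm B) ≤ T := by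
    simp only [one_mul] at h5
    refine h5.trans ?_
    rw [hT]; gcongr
  have h8 : Real.exp (-R) * R ≤ 1 := by
    rw [Real.exp_neg, inv_mul_le_iff₀ (Real.exp_pos _)]; linarith [Real.add_one_le_exp R]
  have h9 : 2 * Real.exp (-R) * T ≤ δ / 2 := by
    have : 2 * Real.exp (-R) * T = δ / 2 * (Real.exp (-R) * R) := by rw [hR]; field_simp; ring
    rw [this]; nlinarith
  refine h4.trans ?_
  have : 2 * Real.exp (-R) * ∫ t, Real.exp ‖t‖ ∂(gm B) ≤ 2 * Real.exp (-R) * T := by gcongr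
  linarith

theorem amgm_pt {p q g η : ℝ} (hp : 0 ≤ p) (hq : 0 ≤ q) (hg : 0 ≤ g) (hη : 0 < η)
    (h : g ^ 2 ≤ p * q) : |p - g| ≤ (2 + 1 / (2 * η)) * ((p + q) / 2 - g) + g * η := by
  set s := (p + q) / 2 - g with hs
  have hs0 : 0 ≤ s := by
    have : g ≤ (p + q) / 2 := by
      apply le_of_sq_le_sq _ (by positivity) |>.trans_eq rfl
      nlinarith [sq_nonneg (p - q)]
    linarith
  set A := g * η + s / (2 * η) with hA
  have hA0 : 0 ≤ A := by positivity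
  have h1 : 2 * g * s ≤ A ^ 2 := by
    have : g * η * (s / (2 * η)) = g * s / 2 := by field_simp
    nlinarith [sq_nonneg (g * η - s / (2 * η))]
  have h2 : |p - g - s| ≤ s + A := by
    apply abs_le_of_sq_le_sq' _ (by positivity) |> fun h => abs_le.2 h
    have : q = 2 * s + 2 * g - p := by rw [hs]; ring
    rw [this] at h
    nlinarith [mul_nonneg hs0 hA0]
  have h3 : (2 + 1 / (2 * η)) * s + g * η = s + (s + A) := by rw [hA]; ring
  rw [h3]
  calc |p - g| = |(p - g - s) + s| := by ring_nf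
    _ ≤ |p - g - s| + |s| := abs_add_le _ _
    _ ≤ _ := by rw [abs_of_nonneg hs0]; linarith

/-- the AM-GM step: quenched lower bound and annealed upper bound pin the conditional MGF -/
theorem amgm {Ω : Type*} [MeasurableSpace Ω] {P : Measure Ω} [IsProbabilityMeasure P]
    {p q : Ω → ℝ} {g η : ℝ} (hg : 0 ≤ g) (hη : 0 < η) (hη1 : η ≤ 1) (hp : Integrable p P)
    (hq : Integrable q P)
    (h : ∀ᵐ ω ∂P, 0 ≤ p ω ∧ 0 ≤ q ω ∧ g ^ 2 * Real.exp (-η ^ 2) ≤ p ω * q ω)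
    (hs : ∫ ω, p ω ∂P + ∫ ω, q ω ∂P ≤ 2 * g * Real.exp (η ^ 2)) : ∫ ω, |p ω - g| ∂P ≤ 8 * η * g := by
  set g' := g * Real.exp (-η ^ 2 / 2) with hg'
  have e1 : 1 - η ^ 2 / 2 ≤ Real.exp (-η ^ 2 / 2) := by
    linarith [Real.add_one_le_exp (-η ^ 2 / 2)]
  have e2 : Real.exp (-η ^ 2 / 2) ≤ 1 := Real.exp_le_one_iff.2 (by nlinarith)
  have e3 : Real.exp (η ^ 2) ≤ 1 + 2 * η ^ 2 := by
    have := Real.abs_exp_sub_one_le (x := η ^ 2) (by rw [abs_of_nonneg (sq_nonneg _)]; nlinarith)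
    rw [abs_of_nonneg (sq_nonneg η)] at this
    linarith [le_abs_self (Real.exp (η ^ 2) - 1)]
  have hg1 : g' ≤ g := mul_le_of_le_one_right hg e2
  have hg2 : g - g' ≤ g * η ^ 2 / 2 := by rw [hg']; nlinarith
  have hg0 : 0 ≤ g' := by positivity
  have i1 : Integrable (fun ω => (p ω + q ω) / 2 - g') P :=
    ((hp.add hq).div_const 2).sub (integrable_const _)
  have h1 : ∫ ω, |p ω - g| ∂P ≤
      ∫ ω, ((2 + 1 / (2 * η)) * ((p ω + q ω) / 2 - g') + (g' * η + (g - g'))) ∂P := by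
    refine integral_mono_ae (hp.sub (integrable_const _)).abs
      ((i1.const_mul _).add (integrable_const _)) (h.mono fun ω ⟨h1, h2, h3⟩ => ?_)
    have h4 := amgm_pt h1 h2 hg0 hη (by
      rw [hg', mul_pow, ← Real.exp_nat_mul]
      refine le_of_eq_of_le ?_ h3
      congr 2; push_cast; ring)
    have h5 : |p ω - g| ≤ |p ω - g'| + (g - g') := by
      rw [abs_le]; constructor <;> linarith [le_abs_self (p ω - g'), neg_abs_le (p ω - g')]
    simp only
    linarith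
  have i2 : Integrable (fun ω => (p ω + q ω) / 2) P := (hp.add hq).div_const 2
  rw [integral_add (i1.const_mul _) (integrable_const _), integral_const_mul,
    integral_sub i2 (integrable_const _), integral_div, integral_add hp hq] at h1
  simp only [integral_const, probReal_univ, smul_eq_mul, one_mul] at h1
  have h2 : (∫ ω, p ω ∂P + ∫ ω, q ω ∂P) / 2 - g' ≤ 5 / 2 * η ^ 2 * g := by nlinarith
  have h3 : (2 + 1 / (2 * η)) * (5 / 2 * η ^ 2 * g) = 5 * η ^ 2 * g + 5 / 4 * η * g := by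
    field_simp; ring
  have h4 : (2 + 1 / (2 * η)) * ((∫ ω, p ω ∂P + ∫ ω, q ω ∂P) / 2 - g') ≤
      (2 + 1 / (2 * η)) * (5 / 2 * η ^ 2 * g) := by gcongr
  have h5 : η ^ 2 * g ≤ η * g := by nlinarith [mul_nonneg hη.le hg]
  nlinarith [mul_nonneg hη.le hg, mul_le_mul_of_nonneg_right hg1 hη.le]

end Crest.Agent.T145.Gs
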