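import Crest.Agent.T145.Def2_97
import Crest.Agent.T145.ApiT_98
import Crest.Agent.T145.Pd_77

/-!
# Row 145 (helper54): the Harnack lemma `HarnStmt`
-/

set_option autoImplicit false

namespace Crest.Agent.T145

open Finset Filter Topology Metric

namespace Harn54

/-- real iterated derivatives of the real part of a holomorphic function -/
theorem iteratedDeriv_re {U : Set ℂ} (hU : IsOpen U) {h : ℂ → ℂ} (hh : DifferentiableOn ℂ h U)
    {φ : ℝ → ℝ} (hφ : ∀ a : ℝ, (a : ℂ) ∈ U → φ a = (h a).re) (n : ℕ) :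
    ∀ t : ℝ, (t : ℂ) ∈ U → iteratedDeriv n φ t = (iteratedDeriv n h t).re := by
  induction n with
  | zero => simpa using hφ
  | succ n ih =>
    intro t ht
    have hA : AnalyticOnNhd ℂ (iteratedDeriv n h) U := by
      rw [iteratedDeriv_eq_iterate]
      exact (hh.analyticOnNhd hU).iterated_deriv n
    have hev : ∀ᶠ a : ℝ in 𝓝 t, (a : ℂ) ∈ U :=
      Complex.continuous_ofReal.continuousAt.eventually_mem (hU.mem_nhds ht)
    have h1 : iteratedDeriv n φ =ᶠ[𝓝 t] fun a : ℝ => (iteratedDeriv n h a).re :=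
      hev.mono fun a ha => ih a ha
    rw [iteratedDeriv_succ, iteratedDeriv_succ, h1.deriv_eq]
    exact ((hA _ ht).differentiableAt.hasDerivAt.real_of_complex).deriv

/-- the analytic core: `|G| ≤ e^{2d}` on the disc and `G 0 = 1` control the derivatives of `log G` -/
theorem core {G : ℂ → ℂ} {R d : ℝ} (hR : 0 < R) (hd : 0 < d) (hd' : d ≤ 1 / 64)
    (hG : DifferentiableOn ℂ G (ball 0 R)) (h0 : G 0 = 1)
    (hb : ∀ z ∈ ball (0 : ℂ) R, ‖G z‖ ≤ Real.exp (2 * d))
    {φ : ℝ → ℝ} (hφ : ∀ a : ℝ, |a| < R → G a = (Real.exp (φ a) : ℝ)) (n : ℕ) (t : ℝ)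
    (ht : |t| ≤ R / 4) : |iteratedDeriv n φ t| ≤ 12 * n.factorial * 4 ^ n * d / R ^ n := by
  have hε : Real.exp (2 * d) - 1 ≤ 4 * d := by
    have := Real.abs_exp_sub_one_le (x := 2 * d) (by rw [abs_of_pos (by linarith)]; linarith)
    rw [abs_of_pos (show 0 < 2 * d by linarith)] at this
    linarith [le_abs_self (Real.exp (2 * d) - 1)]
  have hBC : ∀ z ∈ ball (0 : ℂ) R, ‖G z - 1‖ ≤ 2 * (4 * d) * ‖z‖ / (R - ‖z‖) := fun z hz =>
    Complex.borelCaratheodory_zero (f := fun z => G z - 1) (by linarith) (hG.sub_const 1)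
      (fun w hw => by
        have h1 := hb w hw
        have h2 := Complex.re_le_norm (G w)
        simp only [Set.mem_ofPred_eq, Complex.sub_re, Complex.one_re]
        linarith) hR hz (by simp [h0])
  have hsub : ball (0 : ℂ) (3 * R / 4) ⊆ ball 0 R := ball_subset_ball (by linarith)
  have h34 : ∀ z ∈ ball (0 : ℂ) (3 * R / 4), ‖G z - 1‖ ≤ 24 * d := fun z hz => by
    have hz' : ‖z‖ < 3 * R / 4 := mem_ball_zero_iff.1 hz
    refine (hBC z (hsub hz)).trans ?_
    rw [div_le_iff₀ (by linarith)]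
    nlinarith [norm_nonneg z]
  have h12 : ∀ z : ℂ, ‖z‖ ≤ R / 2 → ‖G z - 1‖ ≤ 8 * d := fun z hz => by
    refine (hBC z (mem_ball_zero_iff.2 (by linarith))).trans ?_
    rw [div_le_iff₀ (by linarith)]
    nlinarith [norm_nonneg z]
  have hslit : ∀ z ∈ ball (0 : ℂ) (3 * R / 4), G z ∈ Complex.slitPlane := fun z hz => by
    have h1 := h34 z hz
    have : G z = 1 + (G z - 1) := by ring
    rw [this]
    exact Complex.mem_slitPlane_of_norm_lt_one (by linarith)
  have hL : DifferentiableOn ℂ (fun z => Complex.log (G z)) (ball 0 (3 * R / 4)) :=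
    (hG.mono hsub).clog hslit
  have hre : ∀ a : ℝ, (a : ℂ) ∈ ball (0 : ℂ) (3 * R / 4) → φ a = (Complex.log (G a)).re := by
    intro a ha
    have ha' : |a| < R := by
      have := mem_ball_zero_iff.1 ha
      rw [Complex.norm_real, Real.norm_eq_abs] at this
      linarith
    rw [hφ a ha', Complex.log_re, Complex.norm_real, Real.norm_eq_abs, abs_of_pos (Real.exp_pos _),
      Real.log_exp]
  have htn : ‖(t : ℂ)‖ ≤ R / 4 := by rwa [Complex.norm_real, Real.norm_eq_abs]
  rw [iteratedDeriv_re isOpen_ball hL hre n t (mem_ball_zero_iff.2 (by linarith))]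
  refine (Complex.abs_re_le_norm _).trans ?_
  have hcl : closedBall (t : ℂ) (R / 4) ⊆ ball (0 : ℂ) (3 * R / 4) := fun z hz => by
    have h1 : ‖z - t‖ ≤ R / 4 := by rwa [mem_closedBall, dist_eq_norm] at hz
    have h2 : ‖z‖ ≤ ‖z - t‖ + ‖(t : ℂ)‖ := by simpa using norm_add_le (z - t) (t : ℂ)
    exact mem_ball_zero_iff.2 (by linarith)
  have hC := Complex.norm_iteratedDeriv_le_of_forall_mem_sphere_norm_le (c := (t : ℂ)) (R := R / 4)
    (C := 12 * d) (f := fun z => Complex.log (G z)) n (by linarith)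
    (DifferentiableOn.diffContOnCl_ball hL hcl) (fun z hz => by
      have h1 : ‖z - t‖ = R / 4 := by rwa [mem_sphere, dist_eq_norm] at hz
      have h2 : ‖z‖ ≤ ‖z - t‖ + ‖(t : ℂ)‖ := by simpa using norm_add_le (z - t) (t : ℂ)
      have h3 := h12 z (by linarith)
      have h4 := Complex.norm_log_one_add_half_le_self (z := G z - 1) (by linarith)
      have h5 : (1 : ℂ) + (G z - 1) = G z := by ring
      rw [h5] at h4
      linarith)
  refine hC.trans (le_of_eq ?_)
  rw [div_pow]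
  field_simp

variable {L : Type} [AddCommGroup L]

theorem norm_term (ρ : L → ℝ) (hρ : ∀ s, 0 ≤ ρ s) (f g : L →+ ℝ) (z : ℂ) (s : L) :
    ‖(ρ s : ℂ) * Complex.exp ((f s : ℂ) + z * (g s : ℂ))‖ = ρ s * Real.exp ((f + z.re • g) s) := by
  rw [norm_mul, Complex.norm_real, Real.norm_eq_abs, abs_of_nonneg (hρ s), Complex.norm_exp]
  simp

/-- the complex Laplace transform along a line is entire -/
theorem differentiable_lap {ρ : L → ℝ} (hρ : ∀ s, 0 ≤ ρ s) (hse : SE ρ) (f g : L →+ ℝ) (R : ℝ) :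
    DifferentiableOn ℂ (fun z : ℂ => ∑' s, (ρ s : ℂ) * Complex.exp ((f s : ℂ) + z * (g s : ℂ)))
      (ball 0 R) := by
  refine Complex.differentiableOn_tsum_of_summable_norm
    (u := fun s => ρ s * Real.exp ((f + R • g) s) + ρ s * Real.exp ((f + (-R) • g) s))
    ((hse _).add (hse _)) (fun s => by fun_prop) isOpen_ball fun s w hw => ?_
  rw [norm_term ρ hρ]
  have hw' : |w.re| ≤ R := (Complex.abs_re_le_norm w).trans (mem_ball_zero_iff.1 hw).le
  obtain ⟨h1, h2⟩ := abs_le.1 hw'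
  have e1 := mul_nonneg (hρ s) (Real.exp_pos ((f + R • g) s)).le
  have e2 := mul_nonneg (hρ s) (Real.exp_pos ((f + (-R) • g) s)).le
  rcases le_total 0 (g s) with hg | hg
  · have : ρ s * Real.exp ((f + w.re • g) s) ≤ ρ s * Real.exp ((f + R • g) s) := by
      refine mul_le_mul_of_nonneg_left (Real.exp_le_exp.2 ?_) (hρ s)
      simp only [AddMonoidHom.add_apply, AddMonoidHom.smul_apply, smul_eq_mul]
      nlinarith
    linarith
  · have : ρ s * Real.exp ((f + w.re • g) s) ≤ ρ s * Real.exp ((f + (-R) • g) s) := by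
      refine mul_le_mul_of_nonneg_left (Real.exp_le_exp.2 ?_) (hρ s)
      simp only [AddMonoidHom.add_apply, AddMonoidHom.smul_apply, smul_eq_mul]
      nlinarith
    linarith

/-- inequality (1) for the complex Laplace transform -/
theorem norm_lap_le (hB : RsdBStmt) [IsAddTorsionFree L] {ρ : L → ℝ} (hρ : Cen ρ) (f g : L →+ ℝ)
    (z : ℂ) :
    ‖∑' s, (ρ s : ℂ) * Complex.exp ((f s : ℂ) + z * (g s : ℂ))‖ ≤
      Zs (tilt ρ (f + z.re • g)) * Ph ρ (z.im • g) := by
  set Θ := ∑' s, (ρ s : ℂ) * Complex.exp ((f s : ℂ) + z * (g s : ℂ)) with hΘ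
  have hsum : Summable fun s => (ρ s : ℂ) * Complex.exp ((f s : ℂ) + z * (g s : ℂ)) :=
    Summable.of_norm (by simpa only [norm_term ρ hρ.nonneg] using hρ.se _)
  have hR : RSD fun p : L × ℝ => ρ p.1 :=
    ⟨fun p => hρ.nonneg _, fun p => hρ.even _, fun c => (hρ.psd c.1).comp Prod.fst⟩
  have hG : PD fun p : L × ℝ => Real.cos (((z.im • g).coprod (AddMonoidHom.id ℝ)) p) := pd_cos _
  have h := hB L ℝ (fun p => ρ p.1) _ hR hG (-Complex.arg Θ) (f + z.re • g) hρ.se.summable
    (hρ.se.tilt _).summable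
  have h1 : ‖Θ‖ = ∑' s, tilt ρ (f + z.re • g) s * Real.cos (z.im * g s + -Complex.arg Θ) := by
    have e : ((‖Θ‖ : ℝ) : ℂ) = Θ * Complex.exp (((-Complex.arg Θ : ℝ) : ℂ) * Complex.I) := by
      conv_rhs => enter [1]; rw [← Complex.norm_mul_exp_arg_mul_I Θ]
      rw [mul_assoc, ← Complex.exp_add]
      simp
    have e2 : ‖Θ‖ = (Θ * Complex.exp (((-Complex.arg Θ : ℝ) : ℂ) * Complex.I)).re := by
      rw [← e, Complex.ofReal_re]
    rw [e2]
    conv_lhs => enter [1, 1]; rw [hΘ]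
    rw [← tsum_mul_right, Complex.re_tsum (hsum.mul_right _)]
    refine tsum_congr fun s => ?_
    rw [mul_assoc, ← Complex.exp_add, Complex.re_ofReal_mul, Complex.exp_re, tilt]
    simp [mul_assoc]
  have hZ := hρ.wt.pos
  simp only [AddMonoidHom.coprod_apply, AddMonoidHom.smul_apply, smul_eq_mul, AddMonoidHom.id_apply,
    add_zero] at h
  have h2 : ‖Θ‖ * Zs ρ ≤ Zs (tilt ρ (f + z.re • g)) * ∑' s, ρ s * Real.cos (z.im * g s) := by
    rw [h1]
    exact (mul_le_mul_of_nonneg_right (le_abs_self _) hZ.le).trans h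
  have h3 : Ph ρ (z.im • g) = (∑' s, ρ s * Real.cos (z.im * g s)) / Zs ρ := rfl
  rw [h3, ← mul_div_assoc, le_div_iff₀ hZ]
  exact h2

end Harn54

open Harn54 in
theorem harnStmt (hB : RsdBStmt) : HarnStmt := by
  refine ⟨1 / 64, by norm_num, fun n => ⟨12 * n.factorial * 4 ^ n, ?_⟩⟩
  intro L _ _ ρ f g α v d R hρ hR hd0 hd1 hM hP t ht
  have hZ := (hρ.wt_tilt f).pos
  have key : ∀ d : ℝ, 0 < d → d ≤ 1 / 64 →
      (∀ a : ℝ, |a| ≤ R → M ρ (f + a • g) - M ρ f ≤ α * a + v * a ^ 2 / 2 + d) →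
      (∀ b : ℝ, |b| ≤ R → Ph ρ (b • g) ≤ Real.exp (-v * b ^ 2 / 2 + d)) →
      |iteratedDeriv n (fun a : ℝ => M ρ (f + a • g) - M ρ f - (α * a + v * a ^ 2 / 2)) t| ≤
        12 * n.factorial * 4 ^ n * d / R ^ n := by
    intro d hd0 hd1 hM hP
    refine core (G := fun z : ℂ => (∑' s, (ρ s : ℂ) * Complex.exp ((f s : ℂ) + z * (g s : ℂ))) *
      Complex.exp (-(α * z + v * z ^ 2 / 2)) / (Zs (tilt ρ f) : ℝ)) hR hd0 hd1
      (((differentiable_lap hρ.nonneg hρ.se f g R).mul (by fun_prop)).div_const _) ?_ ?_ ?_ n t ht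
    · have : (∑' s, (ρ s : ℂ) * Complex.exp ((f s : ℂ) + 0 * (g s : ℂ))) = (Zs (tilt ρ f) : ℝ) := by
        rw [Zs, Complex.ofReal_tsum]
        exact tsum_congr fun s => by simp [tilt]
      rw [this]
      have : ((Zs (tilt ρ f) : ℝ) : ℂ) ≠ 0 := by exact_mod_cast hZ.ne'
      simp [this]
    · intro z hz
      have hz' := (mem_ball_zero_iff.1 hz).le
      have h1 := hM z.re ((Complex.abs_re_le_norm z).trans hz')
      have h2 := hP z.im ((Complex.abs_im_le_norm z).trans hz')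
      have h3 := norm_lap_le hB hρ f g z
      rw [norm_div, norm_mul, Complex.norm_real, Real.norm_eq_abs, abs_of_pos hZ, div_le_iff₀ hZ,
        Complex.norm_exp]
      have h4 : (-((α : ℂ) * z + v * z ^ 2 / 2)).re = -(α * z.re + v * (z.re ^ 2 - z.im ^ 2) / 2) := by
        simp [pow_two]
      rw [h4]
      have h5 := (hρ.wt_tilt (f + z.re • g)).pos
      refine (mul_le_mul_of_nonneg_right (h3.trans (mul_le_mul_of_nonneg_left h2 h5.le))
        (Real.exp_pos _).le).trans ?_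
      rw [hρ.wt.Zs_tilt hρ.se, hρ.wt.Zs_tilt hρ.se, mul_assoc, mul_assoc, ← Real.exp_add,
        ← Real.exp_add, mul_left_comm, ← Real.exp_add]
      exact mul_le_mul_of_nonneg_left (Real.exp_le_exp.2 (by linarith)) hρ.wt.pos.le
    · intro a _
      have : (∑' s, (ρ s : ℂ) * Complex.exp ((f s : ℂ) + a * (g s : ℂ))) =
          (Zs (tilt ρ (f + a • g)) : ℝ) := by
        rw [Zs, Complex.ofReal_tsum]
        exact tsum_congr fun s => by simp [tilt]
      rw [this, hρ.wt.Zs_tilt hρ.se, hρ.wt.Zs_tilt hρ.se]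
      have h0 : ((Zs ρ : ℝ) : ℂ) ≠ 0 := by exact_mod_cast hρ.wt.pos.ne'
      have h1 : Complex.exp (-((α : ℂ) * a + v * a ^ 2 / 2)) =
          (Real.exp (-(α * a + v * a ^ 2 / 2)) : ℝ) := by push_cast; rfl
      rw [h1, ← Complex.ofReal_mul, ← Complex.ofReal_div]
      congr 1
      rw [div_eq_iff (mul_pos hρ.wt.pos (Real.exp_pos _)).ne', mul_assoc, ← Real.exp_add,
        mul_left_comm, ← Real.exp_add]
      congr 2
      ring
  rcases hd0.lt_or_eq with h | h
  · exact key d h hd1 hM hP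
  · subst h
    rw [mul_zero, zero_div]
    refine le_of_forall_pos_le_add fun ε hε => ?_
    have hc : (0 : ℝ) < 12 * n.factorial * 4 ^ n / R ^ n := by positivity
    have := key (min (1 / 64) (ε / (12 * n.factorial * 4 ^ n / R ^ n))) (by positivity)
      (min_le_left _ _) (fun a ha => (hM a ha).trans (by gcongr; positivity))
      (fun b hb => (hP b hb).trans (by gcongr; positivity))
    refine this.trans ?_
    rw [zero_add, mul_div_right_comm, ← le_div_iff₀' hc]
    exact min_le_right _ _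

end Crest.Agent.T145
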