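import Crest.Agent.T145.GffDef_8
import Crest.Agent.T145.GsB_85
import Crest.Agent.T145.ApiL_98
import Crest.Agent.T145.MdlD_73
import Crest.Agent.T145.GeoA_51

/-!
# Row 145, (b) T3: heights observed through Gaussian noise; the unfolding identity (helper88)

`PP W B` is the joint law of heights and noise, `E2` is the integral against it.
`unfold`: the conditional expectation given the observation modulo the zero mode is `Ex (post ..)`.
-/

set_option autoImplicit false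
set_option linter.unusedVariables false
set_option linter.unusedSectionVars false
set_option linter.style.haveILetI false

namespace Crest.Agent.T145.J88

open MeasureTheory Finset
open scoped ENNReal

/-! ## two partitions of unity along the orbits of a measure preserving action -/
section orbit
variable {Ω : Type*} [MeasurableSpace Ω] {ν : Measure Ω} {T : ℤ → Ω → Ω}

theorem orb_l (hT : ∀ h, MeasurePreserving (T h) ν ν) (hi : ∀ h ω, T (-h) (T h ω) = ω)
    {U₁ U₂ F : Ω → ℝ≥0∞} (m₁ : Measurable U₁) (m₂ : Measurable U₂) (mF : Measurable F)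
    (s₁ : ∀ ω, ∑' h, U₁ (T h ω) = 1) (s₂ : ∀ ω, ∑' h, U₂ (T h ω) = 1)
    (hF : ∀ h ω, F (T h ω) = F ω) :
    ∫⁻ ω, U₁ ω * F ω ∂ν = ∫⁻ ω, U₂ ω * F ω ∂ν := by
  have e1 : ∀ ω, U₁ ω * F ω = ∑' h, U₁ ω * F ω * U₂ (T h ω) := fun ω => by
    rw [ENNReal.tsum_mul_left, s₂, mul_one]
  have e2 : ∀ ω, U₂ ω * F ω = ∑' h, U₁ (T (-h) ω) * F ω * U₂ ω := fun ω => by
    have e : ∑' h, U₁ (T (-h) ω) = 1 := ((Equiv.neg ℤ).tsum_eq fun h => U₁ (T h ω)).trans (s₁ ω)
    rw [ENNReal.tsum_mul_right, ENNReal.tsum_mul_right, e, one_mul, mul_comm]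
  have mm : ∀ h, Measurable fun ω => U₁ (T (-h) ω) * F ω * U₂ ω := fun h =>
    ((m₁.comp (hT _).measurable).mul mF).mul m₂
  have mm' : ∀ h, Measurable fun ω => U₁ ω * F ω * U₂ (T h ω) := fun h =>
    (m₁.mul mF).mul (m₂.comp (hT h).measurable)
  rw [lintegral_congr e1, lintegral_congr e2, lintegral_tsum fun h => (mm' h).aemeasurable,
    lintegral_tsum fun h => (mm h).aemeasurable]
  refine tsum_congr fun h => ?_
  rw [← (hT h).lintegral_comp (mm h)]
  simp only [hi, hF]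

theorem orb (hT : ∀ h, MeasurePreserving (T h) ν ν) (hi : ∀ h ω, T (-h) (T h ω) = ω)
    {U₁ U₂ H : Ω → ℝ} (m₁ : Measurable U₁) (m₂ : Measurable U₂) (mH : Measurable H)
    (n₁ : ∀ ω, 0 ≤ U₁ ω) (n₂ : ∀ ω, 0 ≤ U₂ ω)
    (s₁ : ∀ ω, HasSum (fun h => U₁ (T h ω)) 1) (s₂ : ∀ ω, HasSum (fun h => U₂ (T h ω)) 1)
    (hH : ∀ h ω, H (T h ω) = H ω) (I : Integrable (fun ω => U₁ ω * H ω) ν) :
    Integrable (fun ω => U₂ ω * H ω) ν ∧ ∫ ω, U₁ ω * H ω ∂ν = ∫ ω, U₂ ω * H ω ∂ν := by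
  have key : ∀ F : Ω → ℝ, Measurable F → (∀ h ω, F (T h ω) = F ω) →
      ∫⁻ ω, ENNReal.ofReal (U₁ ω * F ω) ∂ν = ∫⁻ ω, ENNReal.ofReal (U₂ ω * F ω) ∂ν := by
    intro F mF hF
    simp_rw [ENNReal.ofReal_mul (n₁ _), ENNReal.ofReal_mul (n₂ _)]
    refine orb_l hT hi m₁.ennreal_ofReal m₂.ennreal_ofReal mF.ennreal_ofReal (fun ω => ?_)
      (fun ω => ?_) fun h ω => by rw [hF]
    · rw [← ENNReal.ofReal_tsum_of_nonneg (fun h => n₁ _) (s₁ ω).summable, (s₁ ω).tsum_eq,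
        ENNReal.ofReal_one]
    · rw [← ENNReal.ofReal_tsum_of_nonneg (fun h => n₂ _) (s₂ ω).summable, (s₂ ω).tsum_eq,
        ENNReal.ofReal_one]
  have I2 : Integrable (fun ω => U₂ ω * H ω) ν := by
    refine ⟨(m₂.mul mH).aestronglyMeasurable, ?_⟩
    have h1 := I.2
    rw [hasFiniteIntegral_iff_norm] at h1 ⊢
    simp_rw [norm_mul, Real.norm_of_nonneg (n₁ _)] at h1
    simp_rw [norm_mul, Real.norm_of_nonneg (n₂ _)]
    rwa [← key _ mH.norm fun h ω => by rw [hH]]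
  refine ⟨I2, ?_⟩
  rw [integral_eq_lintegral_pos_part_sub_lintegral_neg_part I,
    integral_eq_lintegral_pos_part_sub_lintegral_neg_part I2, key H mH hH]
  simp_rw [← mul_neg]
  rw [key (fun ω => -H ω) mH.neg fun h ω => by rw [hH]]

end orbit

/-! ## the noise -/
section noise
variable {B : Finset Pt} {μ : ℝ}

instance gs_prob (B : Finset Pt) : IsProbabilityMeasure (gs B) := by unfold gs; infer_instance

theorem gs_eq (B : Finset Pt) : gs B = Gs.gm (1 : Matrix B B ℝ) := Gs.gm_one.symm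

/-- the likelihood -/
noncomputable def kk (μ : ℝ) (v : Pt → ℝ) (ψ : B → ℝ) : ℝ :=
  Real.exp (-μ * (∑ x : B, (v x - ψ x) ^ 2) / 2)

theorem kk_pos (μ : ℝ) (v : Pt → ℝ) (ψ : B → ℝ) : 0 < kk μ v ψ := Real.exp_pos _

theorem cont_kk (μ : ℝ) (v : Pt → ℝ) : Continuous fun ψ : B → ℝ => kk μ v ψ := by
  unfold kk; fun_prop

theorem cont_obs (μ : ℝ) (v : Pt → ℝ) : Continuous fun ξ : B → ℝ => obs μ v ξ := by
  unfold obs; fun_prop

theorem gs_obs (B : Finset Pt) (hμ : 0 < μ) : ∃ c : ℝ, 0 < c ∧ ∀ v : Pt → ℝ,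
    (gs B).map (obs μ v) = volume.withDensity fun ψ : B → ℝ => ENNReal.ofReal (c * kk μ v ψ) := by
  have hA : (μ • (1 : Matrix B B ℝ)).PosDef := Matrix.PosDef.one.smul hμ
  refine ⟨Real.sqrt (μ • (1 : Matrix B B ℝ)).det / Gs.zc B,
    div_pos (Real.sqrt_pos.2 hA.det_pos) Gs.zc_pos, fun v => ?_⟩
  have h1 : (gs B).map (fun ξ => (Real.sqrt μ)⁻¹ • ξ) = Gs.gm (μ • (1 : Matrix B B ℝ))⁻¹ := by
    rw [gs_eq, Gs.map_smul Matrix.PosSemidef.one, inv_pow, Real.sq_sqrt hμ.le]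
    congr 1
    refine (Matrix.inv_eq_left_inv ?_).symm
    rw [Matrix.smul_mul, Matrix.mul_smul, smul_smul, inv_mul_cancel₀ hμ.ne', Matrix.one_mul, one_smul]
  have hT : Measurable fun y : B → ℝ => y + fun x : B => v x := measurable_add_const _
  have h2 : (obs μ v : (B → ℝ) → B → ℝ) =
      (fun y : B → ℝ => y + fun x : B => v x) ∘ fun ξ => (Real.sqrt μ)⁻¹ • ξ := by
    funext ξ x
    simp only [obs, Function.comp, Pi.add_apply, Pi.smul_apply, smul_eq_mul]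
    ring
  rw [h2, ← Measure.map_map hT (measurable_const_smul _), h1, Gs.gm_inv_eq hA]
  have h3 := Gs.map_wd (volume : Measure (B → ℝ)) hT
    (f := fun ψ => ENNReal.ofReal (Real.sqrt (μ • (1 : Matrix B B ℝ)).det / Gs.zc B * kk μ v ψ))
    ((cont_kk μ v).measurable.const_mul _).ennreal_ofReal
  rw [map_add_right_eq_self (volume : Measure (B → ℝ))] at h3
  rw [← h3]
  congr 3
  funext y
  congr 2
  simp only [Gs.gw, kk, Matrix.smul_mulVec, Matrix.one_mulVec, dotProduct, Pi.add_apply,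
    Pi.smul_apply, smul_eq_mul]
  rw [neg_mul, Finset.mul_sum]
  congr 3
  exact Finset.sum_congr rfl fun x _ => by ring

theorem cont_dot (a : B → ℝ) : Continuous fun ξ : B → ℝ => a ⬝ᵥ ξ := Gs.cont_dot a

theorem dot_law (a : B → ℝ) : (gs B).map (fun ξ => a ⬝ᵥ ξ) =
    ProbabilityTheory.gaussianReal 0 (a ⬝ᵥ a).toNNReal := by
  haveI := Measure.isProbabilityMeasure_map (μ := gs B) (cont_dot a).measurable.aemeasurable
  refine Measure.ext_of_charFun (funext fun t => ?_)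
  rw [ProbabilityTheory.charFun_gaussianReal, charFun_apply_real,
    integral_map (cont_dot a).measurable.aemeasurable (Continuous.aestronglyMeasurable (by fun_prop))]
  have := Gs.char (C := (1 : Matrix B B ℝ)) Matrix.PosSemidef.one (t • a)
  simp only [smul_dotProduct, Matrix.one_mulVec, dotProduct_smul, smul_eq_mul] at this
  rw [gs_eq]
  push_cast at this ⊢
  rw [this]
  congr 1
  rw [Real.coe_toNNReal _ (Gs.dot_self_nonneg a)]
  ring

theorem dot_memLp (a : B → ℝ) (n : ℕ) : MemLp (fun ξ => a ⬝ᵥ ξ) n (gs B) := by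
  have := ProbabilityTheory.memLp_id_gaussianReal' (μ := 0) (v := (a ⬝ᵥ a).toNNReal)
    n (by simp)
  rw [← dot_law] at this
  exact this.comp_of_map (cont_dot a).measurable.aemeasurable

theorem dot_memLp2 (a : B → ℝ) : MemLp (fun ξ => a ⬝ᵥ ξ) 2 (gs B) := by
  simpa using dot_memLp a 2

theorem dot_int (a : B → ℝ) : Integrable (fun ξ => a ⬝ᵥ ξ) (gs B) :=
  (dot_memLp2 a).integrable one_le_two

theorem dot_int_pow (a : B → ℝ) (n : ℕ) : Integrable (fun ξ => (a ⬝ᵥ ξ) ^ n) (gs B) := by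
  rcases Nat.eq_zero_or_pos n with rfl | hn
  · simp
  · have := (dot_memLp a n).integrable_norm_pow hn.ne'
    refine this.mono' ((cont_dot a).pow n).aestronglyMeasurable
      (Filter.Eventually.of_forall fun ξ => (norm_pow _ _).le)

theorem dot_mean (a : B → ℝ) : ∫ ξ, a ⬝ᵥ ξ ∂gs B = 0 := by
  have := ProbabilityTheory.integral_id_gaussianReal (μ := 0) (v := (a ⬝ᵥ a).toNNReal)
  rwa [← dot_law, integral_map (cont_dot a).measurable.aemeasurable (by fun_prop)] at this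

theorem dot_sq (a : B → ℝ) : ∫ ξ, (a ⬝ᵥ ξ) ^ 2 ∂gs B = a ⬝ᵥ a := by
  have := ProbabilityTheory.variance_fun_id_gaussianReal (μ := 0)
    (v := (a ⬝ᵥ a).toNNReal)
  rw [ProbabilityTheory.variance_eq_integral (by fun_prop),
    ProbabilityTheory.integral_id_gaussianReal, ← dot_law,
    integral_map (cont_dot a).measurable.aemeasurable (by fun_prop),
    Real.coe_toNNReal _ (Gs.dot_self_nonneg a)] at this
  simpa using this

theorem dot_cov (a b : B → ℝ) : ∫ ξ, (a ⬝ᵥ ξ) * (b ⬝ᵥ ξ) ∂gs B = a ⬝ᵥ b := by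
  have e : ∀ ξ : B → ℝ, (a ⬝ᵥ ξ) * (b ⬝ᵥ ξ) =
      (((a + b) ⬝ᵥ ξ) ^ 2 - ((a - b) ⬝ᵥ ξ) ^ 2) / 4 := fun ξ => by
    rw [add_dotProduct, sub_dotProduct]; ring
  simp_rw [e]
  rw [integral_div, integral_sub (dot_int_pow _ 2) (dot_int_pow _ 2), dot_sq, dot_sq]
  simp only [add_dotProduct, sub_dotProduct, dotProduct_add, dotProduct_sub, dotProduct_comm b a]
  ring

theorem dot_four (a : B → ℝ) {v : ℝ} (hv : 0 < v) (h : a ⬝ᵥ a ≤ v) :
    ∫ ξ, (a ⬝ᵥ ξ) ^ 4 ∂gs B ≤ 144 * v ^ 2 := by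
  set b := (Real.sqrt v)⁻¹ • a with hb
  have hs := Real.sqrt_pos.2 hv
  have hbb : b ⬝ᵥ b ≤ 1 := by
    rw [hb, smul_dotProduct, dotProduct_smul, smul_eq_mul, smul_eq_mul, ← mul_assoc, ← mul_inv,
      Real.mul_self_sqrt hv.le]
    exact (inv_mul_le_iff₀ hv).2 (by simpa using h)
  have mg : ∀ c : B → ℝ, c ⬝ᵥ c ≤ 1 → ∫ ξ, Real.exp (c ⬝ᵥ ξ) ∂gs B ≤ 3 := fun c hc => by
    rw [gs_eq, Gs.mgf Matrix.PosSemidef.one, Matrix.one_mulVec]
    have := Gs.dot_self_nonneg c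
    exact (Real.exp_le_exp.2 (by linarith : c ⬝ᵥ c / 2 ≤ 1)).trans
      (Real.exp_one_lt_d9.le.trans (by norm_num))
  have ie : ∀ c : B → ℝ, Integrable (fun ξ => Real.exp (c ⬝ᵥ ξ)) (gs B) := fun c => by
    rw [gs_eq]; exact Gs.int_exp _ c
  have pt : ∀ ξ : B → ℝ, (a ⬝ᵥ ξ) ^ 4 ≤
      24 * v ^ 2 * (Real.exp (b ⬝ᵥ ξ) + Real.exp ((-b) ⬝ᵥ ξ)) := fun ξ => by
    have e : a ⬝ᵥ ξ = Real.sqrt v * (b ⬝ᵥ ξ) := by
      rw [hb, smul_dotProduct, smul_eq_mul, ← mul_assoc, mul_inv_cancel₀ hs.ne', one_mul]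
    have h1 := Real.pow_div_factorial_le_exp _ (abs_nonneg (b ⬝ᵥ ξ)) 4
    have h2 := exp_abs_le (b ⬝ᵥ ξ)
    have h3 : Real.sqrt v ^ 4 = v ^ 2 := by
      rw [show (4 : ℕ) = 2 * 2 from rfl, pow_mul, Real.sq_sqrt hv.le]
    rw [Even.pow_abs (by decide)] at h1
    norm_num [Nat.factorial] at h1
    rw [e, mul_pow, h3, neg_dotProduct]
    nlinarith [sq_nonneg v]
  refine (integral_mono (dot_int_pow a 4) (((ie b).add (ie (-b))).const_mul _) pt).trans ?_
  rw [integral_const_mul]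
  simp only [Pi.add_apply]
  rw [integral_add (ie b) (ie (-b))]
  have h1 := mg b hbb
  have h2 := mg (-b) (by simpa using hbb)
  nlinarith [sq_nonneg v]

/-- the observation -/
noncomputable def ob (μ : ℝ) (p : Cfg Pt × (B → ℝ)) : B → ℝ := obs μ (fun z => (p.1 z : ℝ)) p.2

theorem meas_of {β : Type*} [MeasurableSpace β] {G : Cfg Pt → (B → ℝ) → β}
    (h : ∀ s, Measurable (G s)) : Measurable fun p : Cfg Pt × (B → ℝ) => G p.1 p.2 :=
  measurable_from_prod_countable_right h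

theorem meas_ob (μ : ℝ) : Measurable (ob μ : Cfg Pt × (B → ℝ) → B → ℝ) :=
  meas_of (G := fun s ξ => obs μ (fun z => (s z : ℝ)) ξ) fun s => (cont_obs μ _).measurable

/-- joint law of heights and noise -/
noncomputable def PP (W : Cfg Pt → ℝ) (B : Finset Pt) : Measure (Cfg Pt × (B → ℝ)) :=
  (law W).prod (gs B)

variable {W : Cfg Pt → ℝ}

theorem PP_prob (hW : Wt W) (B : Finset Pt) : IsProbabilityMeasure (PP W B) := by
  haveI := law_prob hW
  unfold PP; infer_instance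

/-- `E2` is the integral against `PP` -/
theorem E2_eq (hW : Wt W) {G : Cfg Pt → (B → ℝ) → ℝ}
    (hG : Integrable (fun p => G p.1 p.2) (PP W B)) : E2 W B G = ∫ p, G p.1 p.2 ∂PP W B := by
  haveI := law_prob hW
  rw [PP, integral_prod _ hG, law_integral hW]
  rfl

theorem int_fst (hW : Wt W) {F : Cfg Pt → ℝ} (hF : Ig W F) :
    Integrable (fun p => F p.1) (PP W B) := by
  haveI := law_prob hW
  exact ((law_integrable hW).2 hF).comp_fst _

theorem int_snd (hW : Wt W) {F : (B → ℝ) → ℝ} (hF : Integrable F (gs B)) :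
    Integrable (fun p => F p.2) (PP W B) := by
  haveI := law_prob hW
  exact hF.comp_snd _

theorem int_mul (hW : Wt W) {F : Cfg Pt → ℝ} {Φ : (B → ℝ) → ℝ} (hF : Ig W F)
    (hΦ : Integrable Φ (gs B)) : Integrable (fun p => F p.1 * Φ p.2) (PP W B) := by
  haveI := law_prob hW
  exact ((law_integrable hW).2 hF).mul_prod hΦ

theorem integral_mul (hW : Wt W) (F : Cfg Pt → ℝ) (Φ : (B → ℝ) → ℝ) :
    ∫ p, F p.1 * Φ p.2 ∂PP W B = Ex W F * ∫ ξ, Φ ξ ∂gs B := by
  haveI := law_prob hW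
  rw [PP, integral_prod_mul, law_integral hW]

theorem integral_fst (hW : Wt W) (F : Cfg Pt → ℝ) : ∫ p, F p.1 ∂PP W B = Ex W F := by
  simpa using integral_mul (B := B) hW F fun _ => 1

theorem integral_snd (hW : Wt W) (Φ : (B → ℝ) → ℝ) :
    ∫ p, Φ p.2 ∂PP W B = ∫ ξ, Φ ξ ∂gs B := by
  simpa [hW.ex_const] using integral_mul (B := B) hW (fun _ => 1) Φ

/-- the reference measure -/
noncomputable def LL (B : Finset Pt) : Measure (Cfg Pt × (B → ℝ)) := Measure.count.prod volume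

theorem PP_map (hW : Wt W) (B : Finset Pt) (hμ : 0 < μ) : ∃ c : ℝ, 0 < c ∧
    (PP W B).map (fun p => (p.1, ob μ p)) = (LL B).withDensity fun p =>
      ENNReal.ofReal (c * (W p.1 * kk μ (fun z => (p.1 z : ℝ)) p.2)) := by
  obtain ⟨c, hc, h⟩ := gs_obs B hμ
  haveI := law_prob hW
  refine ⟨c / Zs W, div_pos hc hW.pos, Measure.ext_of_lintegral _ fun f hf => ?_⟩
  have m1 : Measurable fun p : Cfg Pt × (B → ℝ) => (p.1, ob μ p) := measurable_fst.prodMk (meas_ob μ)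
  have m2 : Measurable fun p : Cfg Pt × (B → ℝ) =>
      ENNReal.ofReal (c / Zs W * (W p.1 * kk μ (fun z => (p.1 z : ℝ)) p.2)) :=
    meas_of (G := fun s ψ => ENNReal.ofReal (c / Zs W * (W s * kk μ (fun z => (s z : ℝ)) ψ)))
      fun s => (((cont_kk μ _).measurable.const_mul _).const_mul _).ennreal_ofReal
  rw [lintegral_map hf m1, lintegral_withDensity_eq_lintegral_mul _ m2 hf, PP, LL,
    lintegral_prod (fun a => f (a.1, ob μ a)) (hf.comp m1).aemeasurable, lintegral_prod _ (m2.mul hf).aemeasurable, law,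
    lintegral_smul_measure,
    lintegral_withDensity_eq_lintegral_mul _ Measurable.of_discrete Measurable.of_discrete,
    smul_eq_mul, ← lintegral_const_mul _ Measurable.of_discrete]
  refine lintegral_congr fun s => ?_
  have mf : Measurable fun ψ : B → ℝ => f (s, ψ) := hf.comp measurable_prodMk_left
  have mk : Measurable fun ψ : B → ℝ => ENNReal.ofReal (c * kk μ (fun z => (s z : ℝ)) ψ) :=
    ((cont_kk μ _).measurable.const_mul _).ennreal_ofReal
  have e := lintegral_map (μ := gs B) mf (cont_obs μ fun z => (s z : ℝ)).measurable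
  simp only [Pi.mul_apply, ob]
  rw [← e, h, lintegral_withDensity_eq_lintegral_mul _ mk mf, ← mul_assoc,
    ← lintegral_const_mul _ (mk.mul mf)]
  refine lintegral_congr fun ψ => ?_
  simp only [Pi.mul_apply]
  rw [← mul_assoc, ← ENNReal.ofReal_inv_of_pos hW.pos, ← ENNReal.ofReal_mul (inv_pos.2 hW.pos).le,
    ← ENNReal.ofReal_mul (mul_nonneg (inv_pos.2 hW.pos).le (hW.nonneg s))]
  congr 2
  ring

end noise

/-! ## the posterior -/
section post
variable {Λ : Lat} {B : Finset Pt} {μ : ℝ}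

theorem post_eq (Λ : Lat) (μ : ℝ) (ψ : B → ℝ) (s : Cfg Pt) :
    Λ.post B μ ψ s = (Λ.N B).W 0 s * kk μ (fun z => (s z : ℝ)) ψ := rfl

/-- the posterior as a model -/
noncomputable def pm (Λ : Lat) (μ : ℝ) (ψ : B → ℝ) : Mdl Pt :=
  (Λ.N B).mulSite fun x k => if h : x ∈ B then Real.exp (-μ * ((k : ℝ) - ψ ⟨x, h⟩) ^ 2 / 2) else 1

theorem pm_W (Λ : Lat) (μ : ℝ) (ψ : B → ℝ) : (pm Λ μ ψ).W 0 = Λ.post B μ ψ := by
  funext s
  rw [pm, Mdl.W_mulSite, Lat.post]
  congr 1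
  rw [show (Λ.N B).A = B from rfl, ← Finset.prod_coe_sort B, Finset.mul_sum, Finset.sum_div,
    Real.exp_sum]
  exact Finset.prod_congr rfl fun x _ => by rw [dif_pos x.2]

theorem pm_site (Λ : Lat) (μ : ℝ) (ψ : B → ℝ) {x : Pt} (hx : x ∈ B) (k : ℤ) :
    (pm Λ μ ψ).site x k = Real.exp (-μ * ((k : ℝ) - ψ ⟨x, hx⟩) ^ 2 / 2) := by
  simp only [pm, Mdl.mulSite, Lat.N, dif_pos hx, one_mul]

theorem se_gau (hμ : 0 < μ) (c : ℝ) : SE fun k : ℤ => Real.exp (-μ * ((k : ℝ) - c) ^ 2 / 2) := by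
  refine Md.se_of_bound fun a => ⟨Real.exp (|a| * |c| + a ^ 2 / (2 * μ)), fun k => ?_⟩
  rw [abs_of_pos (Real.exp_pos _), ← Real.exp_add, Real.exp_le_exp]
  have h1 : a * |(k : ℝ)| ≤ |a| * (|c| + |(k : ℝ) - c|) :=
    (mul_le_mul_of_nonneg_right (le_abs_self a) (abs_nonneg _)).trans
      (mul_le_mul_of_nonneg_left (by simpa using abs_add_le c ((k : ℝ) - c)) (abs_nonneg a))
  have h2 : |a| * |(k : ℝ) - c| ≤ μ * ((k : ℝ) - c) ^ 2 / 2 + a ^ 2 / (2 * μ) := by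
    rw [← sq_abs ((k : ℝ) - c), ← sq_abs a]
    have : a ^ 2 / (2 * μ) = μ * (|a| / μ) ^ 2 / 2 := by rw [← sq_abs a]; field_simp
    have e : |a| = μ * (|a| / μ) := by field_simp
    rw [sq_abs a, this]
    generalize |a| / μ = t at e ⊢
    rw [e]
    nlinarith [mul_nonneg hμ.le (sq_nonneg (|(k : ℝ) - c| - t))]
  linarith

theorem pm_fm (h : Λ.Ok) (μ : ℝ) (ψ : B → ℝ) : (pm Λ μ ψ).Fm := fun _ _ => h.fam

theorem pm_nn (Λ : Lat) (μ : ℝ) (ψ : B → ℝ) : (pm Λ μ ψ).Nn := fun x hx k => by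
  rw [pm_site Λ μ ψ hx]; exact (Real.exp_pos _).le

theorem pm_anch (Λ : Lat) (hμ : 0 < μ) (ψ : B → ℝ) : (pm Λ μ ψ).Anch :=
  Md.anch_of_se fun x hx => by rw [funext (pm_site Λ μ ψ hx)]; exact se_gau hμ _

theorem pm_tm (Λ : Lat) (hμ : 0 < μ) (ψ : B → ℝ) : Md.Tm (pm Λ μ ψ) := fun x hx =>
  ⟨1, 0, fun k => by
    rw [pm_site Λ μ ψ hx, abs_of_pos (Real.exp_pos _), one_mul, Real.exp_le_exp]
    nlinarith [mul_nonneg hμ.le (sq_nonneg ((k : ℝ) - ψ ⟨x, hx⟩))]⟩

theorem post_se (h : Λ.Ok) (hμ : 0 < μ) (ψ : B → ℝ) : SE (Λ.post B μ ψ) :=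
  pm_W Λ μ ψ ▸ Md.se_W (pm_fm h μ ψ) (pm_anch Λ hμ ψ) (pm_tm Λ hμ ψ) 0

theorem post_wt (h : Λ.Ok) (hμ : 0 < μ) (ψ : B → ℝ) : Wt (Λ.post B μ ψ) :=
  pm_W Λ μ ψ ▸ Md.wt_W (pm_fm h μ ψ) (pm_anch Λ hμ ψ) (pm_tm Λ hμ ψ) (pm_nn Λ μ ψ)
    (fun x hx => ⟨0, by rw [pm_site Λ μ ψ hx]; exact Real.exp_pos _⟩) 0

theorem meas_post (Λ : Lat) (μ : ℝ) (s : Cfg Pt) : Measurable fun ψ : B → ℝ => Λ.post B μ ψ s := by
  simp only [post_eq]
  exact (cont_kk μ _).measurable.const_mul _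

theorem meas_ex (Λ : Lat) (μ : ℝ) {G : Cfg Pt → (B → ℝ) → ℝ} (hG : ∀ s, Measurable (G s)) :
    Measurable fun ψ => Ex (Λ.post B μ ψ) fun s => G s ψ :=
  (Measurable.tsum fun s => (meas_post Λ μ s).mul (hG s)).div
    (Measurable.tsum fun s => meas_post Λ μ s)

/-- shift of the observation -/
def sh (h : ℤ) (ψ : B → ℝ) : B → ℝ := ψ + fun _ => (h : ℝ)

theorem sh_apply (h : ℤ) (ψ : B → ℝ) (x : B) : sh h ψ x = ψ x + h := rfl

theorem N_shift (Λ : Lat) (s : Cfg Pt) (h : ℤ) : (Λ.N B).W 0 (s + cst B h) = (Λ.N B).W 0 s := by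
  simp only [Mdl.W, Lat.N]
  congr 2
  · refine ind_congr (forall_congr' fun x => forall_congr' fun hx => ?_)
    rw [Finsupp.add_apply, cst_of_notMem h hx, add_zero]
  · refine Finset.prod_congr rfl fun e he => ?_
    have := Lat.mem_edI.1 he
    rw [dE_add, dE_cst h (by tauto), add_zero]

theorem post_shift (Λ : Lat) (μ : ℝ) (ψ : B → ℝ) (s : Cfg Pt) (h : ℤ) :
    Λ.post B μ (sh h ψ) (s + cst B h) = Λ.post B μ ψ s := by
  rw [Lat.post, Lat.post, N_shift]
  congr 4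
  refine Finset.sum_congr rfl fun x _ => ?_
  rw [Finsupp.add_apply, cst_of_mem h x.2, sh_apply]
  push_cast; ring

/-- joint invariance under the zero mode -/
def Inv (G : Cfg Pt → (B → ℝ) → ℝ) : Prop := ∀ s ψ (h : ℤ), G (s + cst B h) (sh h ψ) = G s ψ

theorem ex_shift (Λ : Lat) (μ : ℝ) {G : Cfg Pt → (B → ℝ) → ℝ} (hG : Inv G) (ψ : B → ℝ) (h : ℤ) :
    (Ex (Λ.post B μ (sh h ψ)) fun s => G s (sh h ψ)) = Ex (Λ.post B μ ψ) fun s => G s ψ := by
  rw [← Ex_equiv (Equiv.addRight (cst B h))]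
  simp only [Equiv.coe_addRight, post_shift, hG _ _ h]

theorem Nr_W (Λ : Lat) {r : Pt} (hr : r ∈ B) (s : Cfg Pt) :
    (Λ.Nr B r).W 0 s = ind (s r = 0) * (Λ.N B).W 0 s := by
  simp only [Mdl.W, Lat.Nr, Lat.N, Mdl.free, Finset.prod_const_one, mul_one, ← mul_assoc,
    ← ind_and]
  congr 1
  refine ind_congr ⟨fun h => ⟨h r (Finset.notMem_erase r B), fun x hx =>
    h x fun h' => hx (Finset.mem_of_mem_erase h')⟩, fun h x hx => ?_⟩
  by_cases e : x = r
  · rw [e]; exact h.1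
  · exact h.2 x fun h' => hx (Finset.mem_erase.2 ⟨e, h'⟩)

theorem integral_count' {α : Type*} [MeasurableSpace α] [DiscreteMeasurableSpace α] [Countable α]
    (f : α → ℝ) : ∫ a, f a ∂Measure.count = ∑' a, f a := by
  by_cases h : Summable f
  · rw [integral_countable (integrable_count_iff.2 h.norm)]
    simp
  · have : ¬ Integrable f Measure.count := fun h' =>
      h (Summable.of_norm (integrable_count_iff.1 h'))
    rw [integral_undef this, tsum_eq_zero_of_not_summable h]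

/-- **unfolding** -/
theorem unfold (h : Λ.Ok) (hμ : 0 < μ) {r : Pt} (hr : r ∈ B) (hW : Wt ((Λ.Nr B r).W 0))
    {G : Cfg Pt → (B → ℝ) → ℝ} (hm : ∀ s, Measurable (G s)) (hG : Inv G)
    (I : Integrable (fun p => G p.1 (ob μ p)) (PP ((Λ.Nr B r).W 0) B)) :
    Integrable (fun p => Ex (Λ.post B μ (ob μ p)) fun s => G s (ob μ p))
        (PP ((Λ.Nr B r).W 0) B) ∧
      ∫ p, G p.1 (ob μ p) ∂PP ((Λ.Nr B r).W 0) B =
        ∫ p, Ex (Λ.post B μ (ob μ p)) (fun s => G s (ob μ p)) ∂PP ((Λ.Nr B r).W 0) B := by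
  obtain ⟨c, hc, hmap⟩ := PP_map hW B hμ
  have hw := post_wt (B := B) h hμ
  have m1 : Measurable fun p : Cfg Pt × (B → ℝ) => (p.1, ob μ p) := measurable_fst.prodMk (meas_ob μ)
  have mD : Measurable fun p : Cfg Pt × (B → ℝ) => Λ.post B μ p.2 p.1 :=
    meas_of (G := fun s ψ => Λ.post B μ ψ s) (meas_post Λ μ)
  have mU : Measurable fun p : Cfg Pt × (B → ℝ) => ind (p.1 r = 0) :=
    meas_of (G := fun s _ => ind (s r = 0)) fun s => measurable_const
  have eρ : ∀ p : Cfg Pt × (B → ℝ), c * ((Λ.Nr B r).W 0 p.1 * kk μ (fun z => (p.1 z : ℝ)) p.2) =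
      c * (ind (p.1 r = 0) * Λ.post B μ p.2 p.1) := fun p => by
    rw [Nr_W Λ hr, post_eq, mul_assoc (ind _)]
  simp_rw [eρ] at hmap
  have mρ : Measurable fun p : Cfg Pt × (B → ℝ) => c * (ind (p.1 r = 0) * Λ.post B μ p.2 p.1) :=
    (mU.mul mD).const_mul c
  have nρ : ∀ p : Cfg Pt × (B → ℝ), 0 ≤ c * (ind (p.1 r = 0) * Λ.post B μ p.2 p.1) := fun p =>
    mul_nonneg hc.le (mul_nonneg (ind_nonneg _) ((hw _).nonneg _))
  -- transfer to the reference measure
  have tr : ∀ F : Cfg Pt × (B → ℝ) → ℝ, Measurable F →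
      (Integrable (fun p => F (p.1, ob μ p)) (PP ((Λ.Nr B r).W 0) B) ↔
        Integrable (fun p => ind (p.1 r = 0) * (c * Λ.post B μ p.2 p.1 * F p)) (LL B)) ∧
      ∫ p, F (p.1, ob μ p) ∂PP ((Λ.Nr B r).W 0) B =
        ∫ p, ind (p.1 r = 0) * (c * Λ.post B μ p.2 p.1 * F p) ∂LL B := by
    intro F mF
    have e : ∀ p : Cfg Pt × (B → ℝ), ind (p.1 r = 0) * (c * Λ.post B μ p.2 p.1 * F p) =
        (c * (ind (p.1 r = 0) * Λ.post B μ p.2 p.1)) • F p := fun p => by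
      rw [smul_eq_mul]; ring
    simp_rw [e]
    rw [← Gs.int_wd _ mρ nρ, ← Gs.integral_wd _ mρ nρ, ← hmap,
      integral_map m1.aemeasurable mF.aestronglyMeasurable,
      integrable_map_measure mF.aestronglyMeasurable m1.aemeasurable]
    exact ⟨Iff.rfl, rfl⟩
  set q : (B → ℝ) → ℝ := fun ψ => ∑' s : Cfg Pt, ind (s r = 0) * Λ.post B μ ψ s with hq
  set g : (B → ℝ) → ℝ := fun ψ => Ex (Λ.post B μ ψ) fun s => G s ψ with hg
  have mg : Measurable g := meas_ex Λ μ hm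
  have mq : Measurable q := Measurable.tsum fun s => (meas_post Λ μ s).const_mul _
  have mp : Measurable fun ψ : B → ℝ => Zs (Λ.post B μ ψ) :=
    Measurable.tsum fun s => meas_post Λ μ s
  have nq : ∀ ψ, 0 ≤ q ψ := fun ψ =>
    tsum_nonneg fun s => mul_nonneg (ind_nonneg _) ((hw _).nonneg _)
  have mG : Measurable fun p : Cfg Pt × (B → ℝ) => G p.1 p.2 := meas_of hm
  let T : ℤ → Cfg Pt × (B → ℝ) → Cfg Pt × (B → ℝ) := fun k p => (p.1 + cst B k, sh k p.2)
  have hT : ∀ k, MeasurePreserving (T k) (LL B) (LL B) := fun k =>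
    (measurePreserving_add_right Measure.count (cst B k)).prod
      (measurePreserving_add_right volume fun _ : B => (k : ℝ))
  have hi : ∀ k p, T (-k) (T k p) = p := fun k p => by
    refine Prod.ext ?_ (funext fun x => ?_)
    · simp only [T, cst_neg, add_neg_cancel_right]
    · simp only [T, sh_apply]; push_cast; ring
  have hZ : ∀ ψ (k : ℤ), Zs (Λ.post B μ (sh k ψ)) = Zs (Λ.post B μ ψ) := fun ψ k => by
    rw [← Zs_equiv (Equiv.addRight (cst B k))]
    simp only [Equiv.coe_addRight, post_shift]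
  have hqs : ∀ ψ (k : ℤ), q (sh k ψ) = push (Λ.post B μ ψ) (fun s => -s r) k := fun ψ k => by
    simp only [hq, push]
    rw [← (Equiv.addRight (cst B k)).tsum_eq]
    refine tsum_congr fun s => ?_
    simp only [Equiv.coe_addRight, post_shift]
    rw [Finsupp.add_apply, cst_of_mem k hr]
    congr 1
    exact ind_congr (by omega)
  obtain ⟨I2, E2'⟩ := orb (U₂ := fun p => q p.2 / Zs (Λ.post B μ p.2)) hT hi mU
    ((mq.div mp).comp measurable_snd) ((mD.const_mul c).mul mG) (fun _ => ind_nonneg _)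
    (fun p => div_nonneg (nq _) (hw _).pos.le)
    (fun p => by
      have := hasSum_single (f := fun k : ℤ => ind ((T k p).1 r = 0)) (-p.1 r) fun k hk => by
        refine ind_neg ?_
        simp only [T]
        rw [Finsupp.add_apply, cst_of_mem k hr]
        omega
      rwa [ind_pos (by simp only [T]; rw [Finsupp.add_apply, cst_of_mem _ hr]; omega)] at this)
    (fun p => by
      simp only [T, hZ, hqs]
      have := (hasSum_push (hw p.2).summ fun s : Cfg Pt => -s r).div_const (Zs (Λ.post B μ p.2))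
      rwa [show ∑' a, Λ.post B μ p.2 a = Zs (Λ.post B μ p.2) from rfl, div_self (hw _).ne] at this)
    (fun k p => by simp only [T, Pi.mul_apply, post_shift, hG _ _ k]) ((tr _ mG).1.1 I)
  have f2 : ∀ ψ : B → ℝ, ∫ s : Cfg Pt, q ψ / Zs (Λ.post B μ ψ) * (c * Λ.post B μ ψ s * G s ψ)
      ∂Measure.count = c * (q ψ * g ψ) := fun ψ => by
    rw [integral_count', tsum_mul_left]
    simp_rw [mul_assoc]
    rw [tsum_mul_left, (hw ψ).tsum_eq]
    have := (hw ψ).ne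
    field_simp
    rfl
  have f1 : ∀ (ψ : B → ℝ) (t : ℝ), ∫ s : Cfg Pt, ind (s r = 0) * (c * Λ.post B μ ψ s * t)
      ∂Measure.count = c * (q ψ * t) := fun ψ t => by
    rw [integral_count', hq, ← tsum_mul_right, ← tsum_mul_left]
    exact tsum_congr fun s => by ring
  have J2 : Integrable (fun ψ => c * (q ψ * g ψ)) := by
    have := Integrable.integral_prod_right I2
    simpa only [Pi.mul_apply, f2] using this
  have m3 : Measurable fun p : Cfg Pt × (B → ℝ) =>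
      ind (p.1 r = 0) * (c * Λ.post B μ p.2 p.1 * g p.2) :=
    mU.mul ((mD.const_mul c).mul (mg.comp measurable_snd))
  have I3 : Integrable (fun p : Cfg Pt × (B → ℝ) =>
      ind (p.1 r = 0) * (c * Λ.post B μ p.2 p.1 * g p.2)) (LL B) := by
    refine (integrable_prod_iff' m3.aestronglyMeasurable).2
      ⟨Filter.Eventually.of_forall fun ψ => integrable_count_iff.2 ?_, ?_⟩
    · exact (summable_ind_mul (((hw ψ).summ.mul_left c).mul_right (g ψ)) _).norm
    · have e : ∀ (ψ : B → ℝ) (s : Cfg Pt), ‖ind (s r = 0) * (c * Λ.post B μ ψ s * g ψ)‖ =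
          ind (s r = 0) * (c * Λ.post B μ ψ s * |g ψ|) := fun ψ s => by
        rw [Real.norm_eq_abs, abs_mul, abs_mul, abs_of_nonneg (ind_nonneg _),
          abs_of_nonneg (mul_nonneg hc.le ((hw _).nonneg _))]
      simp only [e, f1]
      refine J2.norm.congr (Filter.Eventually.of_forall fun ψ => ?_)
      simp only [Real.norm_eq_abs, abs_mul, abs_of_pos hc, abs_of_nonneg (nq ψ)]
  have t3 := tr (fun p => g p.2) (mg.comp measurable_snd)
  refine ⟨t3.1.2 I3, ?_⟩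
  rw [(tr _ mG).2, t3.2]
  refine E2'.trans ?_
  rw [LL, integral_prod_symm _ I2, integral_prod_symm _ I3]
  simp only [Pi.mul_apply, f1, f2]

end post

end Crest.Agent.T145.J88
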