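import Mathlib

/-!
# Row 145, design N: the abstract sector lemma K5 (helper90)

`μ` is a probability weight on `X × Y` that is `η`-close in `ℓ¹` to `π a * π' b * κ a b`.
-/

set_option autoImplicit false

namespace Crest.Agent.T145.KrA

open Finset

variable {X Y : Type*}

/-- `∑ μ Φ` -/
noncomputable def br (μ : X × Y → ℝ) (Φ : X → Y → ℝ) : ℝ := ∑' p, μ p * Φ p.1 p.2

/-- `∑ π u` -/
noncomputable def sm (π u : X → ℝ) : ℝ := ∑' a, π a * u a

/-- the approximate product structure -/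
structure Fac (μ : X × Y → ℝ) (π : X → ℝ) (π' : Y → ℝ) (κ : X → Y → ℝ) (η ω : ℝ) : Prop where
  μ0 : ∀ p, 0 ≤ μ p
  μ1 : HasSum μ 1
  π0 : ∀ a, 0 ≤ π a
  πs : Summable π
  π'0 : ∀ b, 0 ≤ π' b
  π's : Summable π'
  close : ∑' p : X × Y, |μ p - π p.1 * π' p.2 * κ p.1 p.2| ≤ η
  κ1 : ∀ a b, π a ≠ 0 → π' b ≠ 0 → |κ a b - 1| ≤ ω
  η1 : η ≤ 1 / 2
  ω0 : 0 ≤ ω
  ω1 : ω ≤ 1 / 2

theorem summ_bdd {α : Type*} {π u : α → ℝ} (h0 : ∀ a, 0 ≤ π a) (hs : Summable π) {U : ℝ}
    (hu : ∀ a, π a ≠ 0 → |u a| ≤ U) : Summable fun a => π a * u a := by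
  refine Summable.of_norm_bounded (hs.mul_right U) fun a => ?_
  rw [Real.norm_eq_abs, abs_mul, abs_of_nonneg (h0 a)]
  by_cases h : π a = 0
  · simp [h]
  · exact mul_le_mul_of_nonneg_left (hu a h) (h0 a)

theorem abs_tsum_bdd {α : Type*} {π u : α → ℝ} (h0 : ∀ a, 0 ≤ π a) (hs : Summable π) {U : ℝ}
    (hu : ∀ a, π a ≠ 0 → |u a| ≤ U) : |∑' a, π a * u a| ≤ (∑' a, π a) * U := by
  rw [← tsum_mul_right, ← Real.norm_eq_abs]
  refine tsum_of_norm_bounded (hs.mul_right U).hasSum fun a => ?_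
  rw [Real.norm_eq_abs, abs_mul, abs_of_nonneg (h0 a)]
  by_cases h : π a = 0
  · simp [h]
  · exact mul_le_mul_of_nonneg_left (hu a h) (h0 a)

theorem sm_one (π : X → ℝ) : sm π (fun _ => 1) = ∑' a, π a := by simp [sm]

theorem summ_prod {π : X → ℝ} {π' : Y → ℝ} (h0 : ∀ a, 0 ≤ π a) (hs : Summable π)
    (h0' : ∀ b, 0 ≤ π' b) (hs' : Summable π') : Summable fun p : X × Y => π p.1 * π' p.2 :=
  hs.mul_of_nonneg hs' h0 h0'

theorem tsum_prod_mul {u : X → ℝ} {v : Y → ℝ} (hu : Summable u) (hv : Summable v) :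
    ∑' p : X × Y, u p.1 * v p.2 = (∑' a, u a) * ∑' b, v b :=
  (tsum_mul_tsum_of_summable_norm (by simpa using hu.abs) (by simpa using hv.abs)).symm

namespace Fac
variable {μ : X × Y → ℝ} {π : X → ℝ} {π' : Y → ℝ} {κ : X → Y → ℝ} {η ω : ℝ}

theorem ne {p : X × Y} (h : π p.1 * π' p.2 ≠ 0) : π p.1 ≠ 0 ∧ π' p.2 ≠ 0 := mul_ne_zero_iff.1 h

theorem pp0 (h : Fac μ π π' κ η ω) (p : X × Y) : 0 ≤ π p.1 * π' p.2 := mul_nonneg (h.π0 _) (h.π'0 _)
theorem pps (h : Fac μ π π' κ η ω) : Summable fun p : X × Y => π p.1 * π' p.2 :=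
  summ_prod h.π0 h.πs h.π'0 h.π's

theorem κ_le (h : Fac μ π π' κ η ω) {a : X} {b : Y} (ha : π a ≠ 0) (hb : π' b ≠ 0) : |κ a b| ≤ 2 := by
  have := h.κ1 a b ha hb; have := h.ω1
  rw [abs_le] at *; constructor <;> linarith

theorem summ_k (h : Fac μ π π' κ η ω) {Φ : X → Y → ℝ} {B : ℝ} (hΦ : ∀ a b, |Φ a b| ≤ B) :
    Summable fun p : X × Y => π p.1 * π' p.2 * (κ p.1 p.2 * Φ p.1 p.2) :=
  summ_bdd h.pp0 h.pps (U := 2 * B) fun p hp => by
    rw [abs_mul]
    exact mul_le_mul (h.κ_le (ne hp).1 (ne hp).2) (hΦ _ _) (abs_nonneg _) (by norm_num)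

theorem summ_μ (h : Fac μ π π' κ η ω) {Φ : X → Y → ℝ} {B : ℝ} (hΦ : ∀ a b, |Φ a b| ≤ B) :
    Summable fun p : X × Y => μ p * Φ p.1 p.2 :=
  summ_bdd h.μ0 h.μ1.summable fun _ _ => hΦ _ _

theorem abs_br (h : Fac μ π π' κ η ω) {Φ : X → Y → ℝ} {B : ℝ} (hΦ : ∀ a b, |Φ a b| ≤ B) :
    |br μ Φ| ≤ B := by
  have := abs_tsum_bdd h.μ0 h.μ1.summable (u := fun p => Φ p.1 p.2) fun p _ => hΦ _ _
  rwa [h.μ1.tsum_eq, one_mul] at this

theorem η0 (h : Fac μ π π' κ η ω) : 0 ≤ η := (tsum_nonneg fun _ => abs_nonneg _).trans h.close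

/-- transfer to the product structure -/
theorem transfer (h : Fac μ π π' κ η ω) {Φ : X → Y → ℝ} {B : ℝ} (hB : 0 ≤ B)
    (hΦ : ∀ a b, |Φ a b| ≤ B) :
    |br μ Φ - ∑' p : X × Y, π p.1 * π' p.2 * (κ p.1 p.2 * Φ p.1 p.2)| ≤ η * B := by
  have hs : Summable fun p : X × Y => μ p - π p.1 * π' p.2 * κ p.1 p.2 :=
    h.μ1.summable.sub (by simpa using h.summ_k (Φ := fun _ _ => 1) (B := 1) (by simp))
  rw [br, ← (h.summ_μ hΦ).tsum_sub (h.summ_k hΦ), ← Real.norm_eq_abs]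
  refine (tsum_of_norm_bounded (hs.abs.mul_right B).hasSum fun p => ?_).trans ?_
  · have : μ p * Φ p.1 p.2 - π p.1 * π' p.2 * (κ p.1 p.2 * Φ p.1 p.2) =
        (μ p - π p.1 * π' p.2 * κ p.1 p.2) * Φ p.1 p.2 := by ring
    rw [this, Real.norm_eq_abs, abs_mul]
    exact mul_le_mul_of_nonneg_left (hΦ _ _) (abs_nonneg _)
  · rw [tsum_mul_right]; exact mul_le_mul_of_nonneg_right h.close hB

/-- product of the masses -/
theorem prod_near (h : Fac μ π π' κ η ω) {u : X → ℝ} {v : Y → ℝ} {U V : ℝ} (hU : 0 ≤ U) (hV : 0 ≤ V)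
    (hu : ∀ a, |u a| ≤ U) (hv : ∀ b, |v b| ≤ V) :
    |br μ (fun a b => u a * v b) - sm π u * sm π' v| ≤
      (η + (∑' a, π a) * (∑' b, π' b) * ω) * (U * V) := by
  have hΦ : ∀ a b, |u a * v b| ≤ U * V := fun a b => by
    rw [abs_mul]; exact mul_le_mul (hu a) (hv b) (abs_nonneg _) hU
  have h1 := h.transfer (mul_nonneg hU hV) hΦ
  have h2 : sm π u * sm π' v = ∑' p : X × Y, π p.1 * π' p.2 * (u p.1 * v p.2) := by
    rw [sm, sm, ← tsum_prod_mul (summ_bdd h.π0 h.πs fun a _ => hu a)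
      (summ_bdd h.π'0 h.π's fun b _ => hv b)]
    exact tsum_congr fun p => by ring
  have h3 : |(∑' p : X × Y, π p.1 * π' p.2 * (κ p.1 p.2 * (u p.1 * v p.2))) - sm π u * sm π' v| ≤
      (∑' a, π a) * (∑' b, π' b) * (ω * (U * V)) := by
    rw [h2, ← (h.summ_k hΦ).tsum_sub (summ_bdd h.pp0 h.pps fun p _ => hΦ _ _),
      ← tsum_prod_mul h.πs h.π's]
    have := abs_tsum_bdd h.pp0 h.pps (u := fun p => (κ p.1 p.2 - 1) * (u p.1 * v p.2))
      (U := ω * (U * V)) fun p hp => by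
        rw [abs_mul]
        exact mul_le_mul (h.κ1 _ _ (ne hp).1 (ne hp).2) (hΦ _ _) (abs_nonneg _) h.ω0
    refine le_of_eq_of_le ?_ this
    congr 1; exact tsum_congr fun p => by ring
  rw [abs_le] at *
  constructor <;> nlinarith [h1.1, h1.2, h3.1, h3.2]

theorem br_one (h : Fac μ π π' κ η ω) : br μ (fun _ _ => 1) = 1 := by
  simp [br, h.μ1.tsum_eq]

theorem mass (h : Fac μ π π' κ η ω) :
    (∑' a, π a) * (∑' b, π' b) ≤ 3 ∧ |1 - (∑' a, π a) * ∑' b, π' b| ≤ η + 3 * ω := by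
  have h1 := h.prod_near (u := fun _ => 1) (v := fun _ => 1) zero_le_one zero_le_one (by simp) (by simp)
  simp only [mul_one, sm_one] at h1
  rw [h.br_one] at h1
  have hm : 0 ≤ (∑' a, π a) * ∑' b, π' b := mul_nonneg (tsum_nonneg h.π0) (tsum_nonneg h.π'0)
  have := h.η1; have := h.ω1; have := h.ω0
  have h3 : (∑' a, π a) * (∑' b, π' b) ≤ 3 := by
    rw [abs_le] at h1; nlinarith [h1.1]
  exact ⟨h3, h1.trans (by nlinarith)⟩

theorem prod_near' (h : Fac μ π π' κ η ω) {u : X → ℝ} {v : Y → ℝ} {U V : ℝ} (hU : 0 ≤ U) (hV : 0 ≤ V)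
    (hu : ∀ a, |u a| ≤ U) (hv : ∀ b, |v b| ≤ V) :
    |br μ (fun a b => u a * v b) - sm π u * sm π' v| ≤ (η + 3 * ω) * (U * V) :=
  (h.prod_near hU hV hu hv).trans (mul_le_mul_of_nonneg_right
    (by nlinarith [h.mass.1, h.ω0]) (mul_nonneg hU hV))

/-- products of `π`-sums against products of `μ`-sums -/
theorem prod_rule (h : Fac μ π π' κ η ω) {u : X → ℝ} {v : Y → ℝ} {U V : ℝ} (hU : 0 ≤ U) (hV : 0 ≤ V)
    (hu : ∀ a, |u a| ≤ U) (hv : ∀ b, |v b| ≤ V) :
    |sm π u * sm π' v - br μ (fun a _ => u a) * br μ (fun _ b => v b)| ≤ 7 * (η + 3 * ω) * (U * V) := by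
  set e := η + 3 * ω with he
  have e0 : 0 ≤ e := by have := h.η0; have := h.ω0; positivity
  have h1 := h.prod_near' (u := u) (v := fun _ => 1) hU zero_le_one hu (by simp)
  have h2 := h.prod_near' (u := fun _ => 1) (v := v) zero_le_one hV (by simp) hv
  simp only [mul_one, one_mul, sm_one] at h1 h2
  have h3 := h.mass
  have hA : |br μ (fun a _ => u a)| ≤ U := h.abs_br fun a _ => hu a
  have hP : |sm π u| ≤ (∑' a, π a) * U := abs_tsum_bdd h.π0 h.πs fun a _ => hu a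
  have hQ : |sm π' v| ≤ (∑' b, π' b) * V := abs_tsum_bdd h.π'0 h.π's fun b _ => hv b
  have p0 : 0 ≤ ∑' a, π a := tsum_nonneg h.π0
  have q0 : 0 ≤ ∑' b, π' b := tsum_nonneg h.π'0
  set P1 := ∑' a, π a
  set Q1 := ∑' b, π' b
  set Pu := sm π u
  set Qv := sm π' v
  set A := br μ (fun a _ => u a)
  set B := br μ (fun _ b => v b)
  have e1 : Pu * Qv - A * B =
      (1 - P1 * Q1) * (Pu * Qv) - (A - Pu * Q1) * (P1 * Qv) - A * (B - P1 * Qv) := by ring
  have b1 : |(1 - P1 * Q1) * (Pu * Qv)| ≤ e * (3 * (U * V)) := by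
    rw [abs_mul]
    refine mul_le_mul h3.2 ?_ (abs_nonneg _) e0
    rw [abs_mul]
    calc |Pu| * |Qv| ≤ (P1 * U) * (Q1 * V) := mul_le_mul hP hQ (abs_nonneg _) (by positivity)
      _ = (P1 * Q1) * (U * V) := by ring
      _ ≤ 3 * (U * V) := mul_le_mul_of_nonneg_right h3.1 (by positivity)
  have b2 : |(A - Pu * Q1) * (P1 * Qv)| ≤ (e * U) * (3 * V) := by
    rw [abs_mul]
    refine mul_le_mul h1 ?_ (abs_nonneg _) (by positivity)
    rw [abs_mul, abs_of_nonneg p0]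
    calc P1 * |Qv| ≤ P1 * (Q1 * V) := mul_le_mul_of_nonneg_left hQ p0
      _ = (P1 * Q1) * V := by ring
      _ ≤ 3 * V := mul_le_mul_of_nonneg_right h3.1 hV
  have b3 : |A * (B - P1 * Qv)| ≤ U * (e * V) := by
    rw [abs_mul]; exact mul_le_mul hA h2 (abs_nonneg _) hU
  rw [e1]
  refine (abs_sub _ _).trans ?_
  have := abs_sub ((1 - P1 * Q1) * (Pu * Qv)) ((A - Pu * Q1) * (P1 * Qv))
  nlinarith

/-- master lemma -/
theorem master (h : Fac μ π π' κ η ω) {ι : Type*} (T : Finset ι) {u : ι → X → ℝ} {v : ι → Y → ℝ}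
    {U V : ι → ℝ} (hU : ∀ i ∈ T, 0 ≤ U i) (hV : ∀ i ∈ T, 0 ≤ V i) (hu : ∀ i ∈ T, ∀ a, |u i a| ≤ U i)
    (hv : ∀ i ∈ T, ∀ b, |v i b| ≤ V i) {F : X → ℝ} {N β c₀ : ℝ} (hN : 0 ≤ N) (hβ : 0 ≤ β)
    (hF : ∀ a, |F a| ≤ N)
    (hΨ : ∀ b, π' b ≠ 0 → |sm π (fun a => F a * κ a b) - c₀ -
      ∑ i ∈ T, sm π (fun a => F a * u i a) * v i b| ≤ (∑' a, π a) * (N * β))
    {φ : Y → ℝ} {B : ℝ} (hB : 0 ≤ B) (hφ : ∀ b, |φ b| ≤ B) :
    |br μ (fun a b => F a * φ b) - c₀ * sm π' φ -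
      ∑ i ∈ T, br μ (fun a _ => F a * u i a) * br μ (fun _ b => v i b * φ b)| ≤
      N * B * (η + 3 * β + 7 * (η + 3 * ω) * ∑ i ∈ T, U i * V i) := by
  have hΦ : ∀ a b, |F a * φ b| ≤ N * B := fun a b => by
    rw [abs_mul]; exact mul_le_mul (hF a) (hφ b) (abs_nonneg _) hN
  have h1 := h.transfer (mul_nonneg hN hB) hΦ
  have hvφ : ∀ i ∈ T, ∀ b, |v i b * φ b| ≤ V i * B := fun i hi b => by
    rw [abs_mul]; exact mul_le_mul (hv i hi b) (hφ b) (abs_nonneg _) (hV i hi)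
  have hFu : ∀ i ∈ T, ∀ a, |F a * u i a| ≤ N * U i := fun i hi a => by
    rw [abs_mul]; exact mul_le_mul (hF a) (hu i hi a) (abs_nonneg _) hN
  have h2 : ∑' p : X × Y, π p.1 * π' p.2 * (κ p.1 p.2 * (F p.1 * φ p.2)) =
      ∑' b, π' b * (φ b * sm π fun a => F a * κ a b) := by
    have hs : Summable fun q : Y × X => π q.2 * π' q.1 * (κ q.2 q.1 * (F q.2 * φ q.1)) :=
      (Equiv.prodComm Y X).summable_iff.2 (h.summ_k hΦ)
    rw [← (Equiv.prodComm Y X).tsum_eq]
    refine hs.tsum_prod.trans (tsum_congr fun b => ?_)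
    simp only [sm, ← tsum_mul_left]
    exact tsum_congr fun a => by ring
  have sφ : Summable fun b => π' b * φ b := summ_bdd h.π'0 h.π's fun b _ => hφ b
  have sv : ∀ i ∈ T, Summable fun b => π' b * (v i b * φ b) := fun i hi =>
    summ_bdd h.π'0 h.π's fun b _ => hvφ i hi b
  have hE : ∀ b, π' b ≠ 0 → |φ b * (sm π (fun a => F a * κ a b) - c₀ -
      ∑ i ∈ T, sm π (fun a => F a * u i a) * v i b)| ≤ B * ((∑' a, π a) * (N * β)) := fun b hb => by
    rw [abs_mul]; exact mul_le_mul (hφ b) (hΨ b hb) (abs_nonneg _) hB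
  have sE := summ_bdd h.π'0 h.π's hE
  have h3 : ∑' b, π' b * (φ b * sm π fun a => F a * κ a b) =
      (∑' b, π' b * (φ b * (sm π (fun a => F a * κ a b) - c₀ -
        ∑ i ∈ T, sm π (fun a => F a * u i a) * v i b))) + c₀ * sm π' φ +
      ∑ i ∈ T, sm π (fun a => F a * u i a) * sm π' (fun b => v i b * φ b) := by
    have s2 : HasSum (fun b => ∑ i ∈ T, sm π (fun a => F a * u i a) * (π' b * (v i b * φ b)))
        (∑ i ∈ T, sm π (fun a => F a * u i a) * sm π' (fun b => v i b * φ b)) :=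
      hasSum_sum fun i hi => (sv i hi).hasSum.mul_left _
    refine HasSum.tsum_eq ?_
    convert (sE.hasSum.add (sφ.hasSum.mul_left c₀)).add s2 using 1
    · funext b
      have : ∑ i ∈ T, sm π (fun a => F a * u i a) * (π' b * (v i b * φ b)) =
          π' b * (φ b * ∑ i ∈ T, sm π (fun a => F a * u i a) * v i b) := by
        rw [mul_sum, mul_sum]; exact sum_congr rfl fun i _ => by ring
      rw [this]; ring
    · rfl
  have h4 := abs_tsum_bdd h.π'0 h.π's hE
  have h5 : |∑ i ∈ T, sm π (fun a => F a * u i a) * sm π' (fun b => v i b * φ b) -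
      ∑ i ∈ T, br μ (fun a _ => F a * u i a) * br μ (fun _ b => v i b * φ b)| ≤
      N * B * (7 * (η + 3 * ω) * ∑ i ∈ T, U i * V i) := by
    rw [← sum_sub_distrib]
    refine (abs_sum_le_sum_abs _ _).trans ?_
    rw [mul_sum, mul_sum]
    refine sum_le_sum fun i hi => (h.prod_rule (mul_nonneg hN (hU i hi)) (mul_nonneg (hV i hi) hB)
      (hFu i hi) (hvφ i hi)).trans (le_of_eq (by ring))
  have h6 : (∑' b, π' b) * (B * ((∑' a, π a) * (N * β))) ≤ N * B * (3 * β) := by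
    have := mul_le_mul_of_nonneg_right h.mass.1 (mul_nonneg (mul_nonneg hN hB) hβ)
    nlinarith
  rw [h2, h3] at h1
  rw [abs_le] at *
  constructor <;> nlinarith [h1.1, h1.2, h4.1, h4.2, h5.1, h5.2]

/-- master lemma for `μ`-centred `F`: the constant term is eliminated -/
theorem master0 (h : Fac μ π π' κ η ω) {ι : Type*} (T : Finset ι) {u : ι → X → ℝ} {v : ι → Y → ℝ}
    {U V : ι → ℝ} (hU : ∀ i ∈ T, 0 ≤ U i) (hV : ∀ i ∈ T, 0 ≤ V i) (hu : ∀ i ∈ T, ∀ a, |u i a| ≤ U i)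
    (hv : ∀ i ∈ T, ∀ b, |v i b| ≤ V i) {F : X → ℝ} {N β c₀ : ℝ} (hN : 0 ≤ N) (hβ : 0 ≤ β)
    (hF : ∀ a, |F a| ≤ N) (hF0 : br μ (fun a _ => F a) = 0)
    (hΨ : ∀ b, π' b ≠ 0 → |sm π (fun a => F a * κ a b) - c₀ -
      ∑ i ∈ T, sm π (fun a => F a * u i a) * v i b| ≤ (∑' a, π a) * (N * β))
    {φ : Y → ℝ} {B : ℝ} (hB : 0 ≤ B) (hφ : ∀ b, |φ b| ≤ B) :
    |br μ (fun a b => F a * φ b) - ∑ i ∈ T, br μ (fun a _ => F a * u i a) *
      (br μ (fun _ b => v i b * φ b) - br μ (fun _ b => v i b) * br μ (fun _ b => φ b))| ≤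
      N * B * (2 * η + 6 * β + 30 * (η + 3 * ω) * ∑ i ∈ T, U i * V i) := by
  set e := η + 3 * ω with he
  have e0 : 0 ≤ e := by have := h.η0; have := h.ω0; positivity
  have q0 : 0 ≤ ∑' b, π' b := tsum_nonneg h.π'0
  have p0 : 0 ≤ ∑' a, π a := tsum_nonneg h.π0
  set c := sm π' φ / ∑' b, π' b with hc
  have hQ : |sm π' φ| ≤ (∑' b, π' b) * B := abs_tsum_bdd h.π'0 h.π's fun b _ => hφ b
  have hcB : |c| ≤ B := by
    rw [hc, abs_div, abs_of_nonneg q0]
    exact div_le_of_le_mul₀ q0 hB (by linarith)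
  have hcq : c * ∑' b, π' b = sm π' φ := by
    rcases q0.eq_or_lt with h0 | h0
    · rw [← h0, zero_mul] at hQ
      rw [← h0, mul_zero]; exact (abs_nonpos_iff.1 hQ).symm
    · rw [hc, div_mul_cancel₀ _ h0.ne']
  have hφ' : ∀ b, |φ b - c| ≤ 2 * B := fun b => (abs_sub _ _).trans (by linarith [hφ b])
  have h1 := h.master T hU hV hu hv hN hβ hF hΨ (φ := fun b => φ b - c) (by linarith) hφ'
  have h2 : sm π' (fun b => φ b - c) = 0 := by
    have : sm π' (fun b => φ b - c) = sm π' φ - c * ∑' b, π' b := by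
      rw [sm, sm, ← tsum_mul_left, ← (summ_bdd h.π'0 h.π's fun b _ => hφ b).tsum_sub (h.π's.mul_left c)]
      exact tsum_congr fun b => by ring
    rw [this, hcq, sub_self]
  have lin : ∀ {Φ : X → Y → ℝ} {C : ℝ}, 0 ≤ C → (∀ a b, |Φ a b| ≤ C) →
      br μ (fun a b => Φ a b * (φ b - c)) = br μ (fun a b => Φ a b * φ b) - c * br μ Φ := by
    intro Φ C hC hΦ
    have s1 : Summable fun p : X × Y => μ p * (Φ p.1 p.2 * φ p.2) :=
      h.summ_μ (Φ := fun a b => Φ a b * φ b) (B := C * B) fun a b => by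
        rw [abs_mul]; exact mul_le_mul (hΦ a b) (hφ b) (abs_nonneg _) hC
    rw [br, br, br, ← tsum_mul_left, ← s1.tsum_sub ((h.summ_μ hΦ).mul_left c)]
    exact tsum_congr fun p => by ring
  rw [h2, mul_zero, sub_zero, lin (Φ := fun a _ => F a) hN (fun a _ => hF a), hF0, mul_zero,
    sub_zero] at h1
  have hcφ : |c - br μ (fun _ b => φ b)| ≤ 2 * e * B := by
    have h3 := h.prod_near' (u := fun _ => 1) (v := φ) zero_le_one hB (by simp) hφ
    simp only [one_mul, sm_one] at h3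
    have h4 : |c * (1 - (∑' a, π a) * ∑' b, π' b)| ≤ B * e := by
      rw [abs_mul]; exact mul_le_mul hcB h.mass.2 (abs_nonneg _) hB
    have : c - br μ (fun _ b => φ b) = c * (1 - (∑' a, π a) * ∑' b, π' b) -
        (br μ (fun _ b => φ b) - (∑' a, π a) * sm π' φ) := by rw [← hcq]; ring
    rw [this]; refine (abs_sub _ _).trans ?_; nlinarith
  have h5 : |∑ i ∈ T, br μ (fun a _ => F a * u i a) * br μ (fun _ b => v i b * (φ b - c)) -
      ∑ i ∈ T, br μ (fun a _ => F a * u i a) *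
      (br μ (fun _ b => v i b * φ b) - br μ (fun _ b => v i b) * br μ (fun _ b => φ b))| ≤
      N * B * (2 * e * ∑ i ∈ T, U i * V i) := by
    rw [← sum_sub_distrib]
    refine (abs_sum_le_sum_abs _ _).trans ?_
    rw [mul_sum, mul_sum]
    refine sum_le_sum fun i hi => ?_
    rw [lin (Φ := fun _ b => v i b) (hV i hi) (fun _ b => hv i hi b), ← mul_sub]
    have a1 : |br μ (fun a _ => F a * u i a)| ≤ N * U i := h.abs_br fun a _ => by
      rw [abs_mul]; exact mul_le_mul (hF a) (hu i hi a) (abs_nonneg _) hN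
    have a2 : |br μ (fun _ b => v i b)| ≤ V i := h.abs_br fun _ b => hv i hi b
    have : br μ (fun _ b => v i b * φ b) - c * br μ (fun _ b => v i b) -
        (br μ (fun _ b => v i b * φ b) - br μ (fun _ b => v i b) * br μ (fun _ b => φ b)) =
        -(br μ (fun _ b => v i b) * (c - br μ (fun _ b => φ b))) := by ring
    rw [this, abs_mul, abs_neg, abs_mul]
    calc _ ≤ (N * U i) * (V i * (2 * e * B)) :=
          mul_le_mul a1 (mul_le_mul a2 hcφ (abs_nonneg _) (hV i hi)) (by positivity)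
            (mul_nonneg hN (hU i hi))
      _ = _ := by ring
  have hS : 0 ≤ ∑ i ∈ T, U i * V i := sum_nonneg fun i hi => mul_nonneg (hU i hi) (hV i hi)
  have hNB : 0 ≤ N * B * (e * ∑ i ∈ T, U i * V i) := by positivity
  rw [abs_le] at *
  constructor <;> nlinarith [h1.1, h1.2, h5.1, h5.2]

end Fac

open Real in
/-- the second order kernel -/
noncomputable def k2 (lam H t y : ℝ) : ℝ :=
  1 + y + y ^ 2 / 2 + 2 * lam * (cos (2 * π * H) * cos (2 * π * t) + sin (2 * π * H) * sin (2 * π * t))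

open Real in
/-- expansion of `θ(H - t) e^y` -/
theorem k2_near {lam H t y th η₁ β₁ : ℝ} (hl : 0 ≤ lam) (hy : |y| ≤ β₁) (hβ : β₁ ≤ 1)
    (hth : |th - (1 + 2 * lam * cos (2 * π * (H - t)))| ≤ η₁) :
    |th * exp y - k2 lam H t y| ≤ β₁ ^ 3 + 4 * lam * β₁ + 3 * η₁ := by
  have y1 : |y| ≤ 1 := hy.trans hβ
  have h3 : |exp y - (1 + y + y ^ 2 / 2)| ≤ β₁ ^ 3 := by
    have := Real.exp_bound y1 (n := 3) (by norm_num)
    simp only [sum_range_succ, range_zero, sum_empty, Nat.factorial] at this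
    norm_num at this
    have h2 : |y| ^ 3 ≤ β₁ ^ 3 := pow_le_pow_left₀ (abs_nonneg _) hy 3
    have h4 : 0 ≤ |y| ^ 3 := by positivity
    refine this.trans ?_; linarith
  have h1 : |exp y - 1| ≤ 2 * β₁ := (Real.abs_exp_sub_one_le y1).trans (by linarith)
  have h0 : |exp y| ≤ 3 := by rw [abs_le] at *; constructor <;> linarith [h1.1, h1.2]
  have hc : |cos (2 * π * (H - t))| ≤ 1 := abs_cos_le_one _
  have e : th * exp y - k2 lam H t y = (exp y - (1 + y + y ^ 2 / 2)) +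
      2 * lam * (cos (2 * π * (H - t)) * (exp y - 1)) +
      (th - (1 + 2 * lam * cos (2 * π * (H - t)))) * exp y := by
    rw [k2, mul_sub (2 * π), cos_sub]; ring
  have b2 : |2 * lam * (cos (2 * π * (H - t)) * (exp y - 1))| ≤ 2 * lam * (1 * (2 * β₁)) := by
    rw [abs_mul, abs_of_nonneg (by positivity : 0 ≤ 2 * lam), abs_mul]
    exact mul_le_mul_of_nonneg_left (mul_le_mul hc h1 (abs_nonneg _) zero_le_one) (by positivity)
  have b3 : |(th - (1 + 2 * lam * cos (2 * π * (H - t)))) * exp y| ≤ η₁ * 3 := by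
    rw [abs_mul]; exact mul_le_mul hth h0 (abs_nonneg _) ((abs_nonneg _).trans hth)
  rw [e]
  refine (abs_add_le _ _).trans ((add_le_add_left (abs_add_le _ _) _).trans ?_)
  linarith

theorem k2_sub_one {lam H t y β₁ : ℝ} (hl : 0 ≤ lam) (hy : |y| ≤ β₁) (hβ : β₁ ≤ 1) :
    |k2 lam H t y - 1| ≤ 2 * β₁ + 2 * lam := by
  have hc := Real.abs_cos_le_one (2 * Real.pi * H - 2 * Real.pi * t)
  rw [Real.cos_sub] at hc
  have h2 : y ^ 2 ≤ β₁ := by
    have := abs_nonneg y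
    calc y ^ 2 = |y| * |y| := by rw [← sq_abs, sq]
      _ ≤ β₁ * 1 := mul_le_mul hy (hy.trans hβ) this (this.trans hy)
      _ = β₁ := mul_one _
  rw [k2, abs_le] at *
  constructor <;> nlinarith [hc.1, hc.2, sq_nonneg y, hy.1, hy.2]

/-- the structure produced by (K#) -/
structure Sec (μ : X × Y → ℝ) (π : X → ℝ) (π' : Y → ℝ) (κ : X → Y → ℝ) (H : X → ℝ) (t : Y → ℝ)
    (y : X → Y → ℝ) (ng : X ≃ X) (lam η ω β₀ β₁ : ℝ) : Prop extends Fac μ π π' κ η ω where
  lam0 : 0 ≤ lam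
  β₀0 : 0 ≤ β₀
  β₁0 : 0 ≤ β₁
  exp : ∀ a b, π a ≠ 0 → π' b ≠ 0 → |κ a b - k2 lam (H a) (t b) (y a b)| ≤ β₀
  yle : ∀ a b, π a ≠ 0 → π' b ≠ 0 → |y a b| ≤ β₁
  πng : ∀ a, π (ng a) = π a
  Hng : ∀ a, H (ng a) = -H a
  yng : ∀ a b, y (ng a) b = -y a b

theorem sm_odd {π u : X → ℝ} (ng : X ≃ X) (hπ : ∀ a, π (ng a) = π a) (hu : ∀ a, u (ng a) = -u a) :
    sm π u = 0 := by
  have : sm π u = -sm π u := by
    conv_lhs => rw [sm, ← ng.tsum_eq]
    rw [sm, ← tsum_neg]
    exact tsum_congr fun a => by rw [hπ, hu]; ring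
  linarith

namespace Sec
open Real
variable {μ : X × Y → ℝ} {p : X → ℝ} {p' : Y → ℝ} {κ : X → Y → ℝ} {H : X → ℝ} {t : Y → ℝ}
  {y : X → Y → ℝ} {ng : X ≃ X} {lam η ω β₀ β₁ : ℝ}

theorem expand (h : Sec μ p p' κ H t y ng lam η ω β₀ β₁) {F : X → ℝ} {N : ℝ} (hN : 0 ≤ N)
    (hF : ∀ a, |F a| ≤ N) {b : Y} (hb : p' b ≠ 0) :
    |sm p (fun a => F a * κ a b) - (sm p F + sm p (fun a => F a * y a b) +
      sm p (fun a => F a * y a b ^ 2) / 2 +
      2 * lam * (sm p (fun a => F a * cos (2 * π * H a)) * cos (2 * π * t b) +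
        sm p (fun a => F a * sin (2 * π * H a)) * sin (2 * π * t b)))| ≤ (∑' a, p a) * (N * β₀) := by
  have S : ∀ {u : X → ℝ} {U : ℝ}, (∀ a, p a ≠ 0 → |u a| ≤ U) →
      HasSum (fun a => p a * (F a * u a)) (sm p fun a => F a * u a) := fun {u U} hu =>
    (summ_bdd h.π0 h.πs (U := N * U) fun a ha => by
      rw [abs_mul]; exact mul_le_mul (hF a) (hu a ha) (abs_nonneg _) hN).hasSum
  have s0 : HasSum (fun a => p a * F a) (sm p F) := (summ_bdd h.π0 h.πs fun a _ => hF a).hasSum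
  have s1 := S fun a ha => h.toFac.κ_le ha hb
  have s2 := S fun a ha => h.yle a b ha hb
  have s3 := S (u := fun a => y a b ^ 2) (U := β₁ ^ 2) fun a ha => by
    rw [abs_pow]; exact pow_le_pow_left₀ (abs_nonneg _) (h.yle a b ha hb) 2
  have s4 := S (u := fun a => cos (2 * π * H a)) fun a _ => abs_cos_le_one _
  have s5 := S (u := fun a => sin (2 * π * H a)) fun a _ => abs_sin_le_one _
  have s := s1.sub (((s0.add s2).add (s3.div_const 2)).add
    (((s4.mul_right (cos (2 * π * t b))).add (s5.mul_right (sin (2 * π * t b)))).mul_left (2 * lam)))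
  rw [← s.tsum_eq]
  refine le_of_eq_of_le ?_ (abs_tsum_bdd h.π0 h.πs
    (u := fun a => F a * (κ a b - k2 lam (H a) (t b) (y a b))) fun a ha => by
      rw [abs_mul]; exact mul_le_mul (hF a) (h.exp a b ha hb) (abs_nonneg _) hN)
  congr 1; exact tsum_congr fun a => by rw [k2]; ring

/-- ODD sector with a symmetry group -/
theorem odd (h : Sec μ p p' κ H t y ng lam η ω β₀ β₁) {ι : Type*} (G : Finset ι) (hG : G.Nonempty)
    (g : ι → X ≃ X) (hg : ∀ i ∈ G, ∀ a, p (g i a) = p a) {β₃ : ℝ} (h3 : 0 ≤ β₃)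
    (hy : ∀ a b, p a ≠ 0 → p' b ≠ 0 → |∑ i ∈ G, y (g i a) b| ≤ G.card * β₃)
    {F : X → ℝ} {N : ℝ} (hN : 0 ≤ N) (hF : ∀ a, |F a| ≤ N) (hodd : ∀ a, F (ng a) = -F a)
    (hinv : ∀ i ∈ G, ∀ a, F (g i a) = F a) {φ : Y → ℝ} {B : ℝ} (hB : 0 ≤ B) (hφ : ∀ b, |φ b| ≤ B) :
    |br μ (fun a b => F a * φ b) - 2 * lam * br μ (fun a _ => F a * sin (2 * π * H a)) *
      br μ (fun _ b => sin (2 * π * t b) * φ b)| ≤
      N * B * (η + 3 * (β₀ + β₃) + 14 * lam * (η + 3 * ω)) := by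
  have hl := h.lam0
  have key := h.toFac.master ({()} : Finset Unit) (u := fun _ a => sin (2 * π * H a))
    (v := fun _ b => 2 * lam * sin (2 * π * t b)) (U := fun _ => 1) (V := fun _ => 2 * lam)
    (fun _ _ => zero_le_one) (fun _ _ => by positivity) (fun _ _ a => abs_sin_le_one _)
    (fun _ _ b => by
      rw [abs_mul, abs_of_nonneg (by positivity : 0 ≤ 2 * lam)]
      exact mul_le_of_le_one_right (by positivity) (abs_sin_le_one _))
    (c₀ := 0) (β := β₀ + β₃) hN (add_nonneg h.β₀0 h3) hF ?_ hB hφ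
  · simp only [sum_singleton, zero_mul, sub_zero] at key
    have : br μ (fun _ b => 2 * lam * sin (2 * π * t b) * φ b) =
        2 * lam * br μ (fun _ b => sin (2 * π * t b) * φ b) := by
      rw [br, br, ← tsum_mul_left]; exact tsum_congr fun q => by ring
    rw [this] at key
    refine le_of_eq_of_le ?_ (key.trans (le_of_eq (by ring)))
    congr 1; ring
  · intro b hb
    have e := h.expand hN hF hb
    rw [sm_odd ng h.πng hodd, sm_odd (u := fun a => F a * y a b ^ 2) ng h.πng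
      (fun a => by rw [hodd, h.yng]; ring), sm_odd (u := fun a => F a * cos (2 * π * H a)) ng h.πng
      (fun a => by rw [hodd, h.Hng, mul_neg, cos_neg]; ring)] at e
    have e2 : |sm p (fun a => F a * y a b)| ≤ (∑' a, p a) * (N * β₃) := by
      have c0 : (0 : ℝ) < G.card := by exact_mod_cast hG.card_pos
      have s1 : ∀ i ∈ G, HasSum (fun a => p a * (F a * y (g i a) b)) (sm p fun a => F a * y a b) := by
        intro i hi
        have := (g i).hasSum_iff.2 (summ_bdd h.π0 h.πs (u := fun a => F a * y a b) (U := N * β₁)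
          fun a ha => by
            rw [abs_mul]; exact mul_le_mul (hF a) (h.yle a b ha hb) (abs_nonneg _) hN).hasSum
        convert this using 1
        · funext a; simp only [Function.comp, hg i hi, hinv i hi]
        · rfl
      have s2 := hasSum_sum s1
      rw [sum_const, nsmul_eq_mul] at s2
      have s3 := abs_tsum_bdd h.π0 h.πs (u := fun a => F a * ∑ i ∈ G, y (g i a) b)
        (U := N * (G.card * β₃)) fun a ha => by
          rw [abs_mul]; exact mul_le_mul (hF a) (hy a b ha hb) (abs_nonneg _) hN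
      have s4 : ∑' a, p a * (F a * ∑ i ∈ G, y (g i a) b) = G.card * sm p fun a => F a * y a b := by
        rw [← s2.tsum_eq]; exact tsum_congr fun a => by rw [mul_sum, mul_sum]
      rw [s4, abs_mul, abs_of_pos c0] at s3
      exact le_of_mul_le_mul_left (s3.trans (le_of_eq (by ring))) c0
    simp only [sum_singleton, sub_zero]
    rw [abs_le] at *
    constructor <;> nlinarith [e.1, e.2, e2.1, e2.2]

/-- no symmetry: only the constant survives -/
theorem any (h : Fac μ p p' κ η ω) {F : X → ℝ} {N : ℝ} (hN : 0 ≤ N) (hF : ∀ a, |F a| ≤ N)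
    {φ : Y → ℝ} {B : ℝ} (hB : 0 ≤ B) (hφ : ∀ b, |φ b| ≤ B) :
    |br μ (fun a b => F a * φ b) - br μ (fun a _ => F a) * br μ (fun _ b => φ b)| ≤
      8 * (η + 3 * ω) * (N * B) := by
  have h1 := h.prod_near' hN hB hF hφ
  have h2 := h.prod_rule hN hB hF hφ
  rw [abs_le] at *
  constructor <;> nlinarith [h1.1, h1.2, h2.1, h2.2]

/-- ODD sector without symmetry: dipoles and the sine -/
theorem odd' (h : Sec μ p p' κ H t y ng lam η ω β₀ β₁) {ι : Type*} (T : Finset ι) {yy : ι → X → ℝ}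
    {d : ι → Y → ℝ} {y₀ d₀ β₂ : ℝ} (hy0 : 0 ≤ y₀) (hd0 : 0 ≤ d₀) (h2 : 0 ≤ β₂)
    (hyy : ∀ i ∈ T, ∀ a, |yy i a| ≤ y₀) (hd : ∀ i ∈ T, ∀ b, |d i b| ≤ d₀)
    (hy : ∀ a b, p a ≠ 0 → p' b ≠ 0 → |y a b - ∑ i ∈ T, yy i a * d i b| ≤ β₂)
    {F : X → ℝ} {N : ℝ} (hN : 0 ≤ N) (hF : ∀ a, |F a| ≤ N) (hodd : ∀ a, F (ng a) = -F a)
    {φ : Y → ℝ} {B : ℝ} (hB : 0 ≤ B) (hφ : ∀ b, |φ b| ≤ B) :
    |br μ (fun a b => F a * φ b) - 2 * lam * br μ (fun a _ => F a * sin (2 * π * H a)) *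
      br μ (fun _ b => sin (2 * π * t b) * φ b) -
      ∑ i ∈ T, br μ (fun a _ => F a * yy i a) * br μ (fun _ b => d i b * φ b)| ≤
      N * B * (η + 3 * (β₀ + β₂) + 7 * (η + 3 * ω) * (2 * lam + T.card * (y₀ * d₀))) := by
  classical
  have hl := h.lam0
  have key := h.toFac.master (insertNone T)
    (u := fun o a => o.elim (sin (2 * π * H a)) fun i => yy i a)
    (v := fun o b => o.elim (2 * lam * sin (2 * π * t b)) fun i => d i b)
    (U := fun o => o.elim 1 fun _ => y₀) (V := fun o => o.elim (2 * lam) fun _ => d₀)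
    (by rintro (_ | i) _ <;> simp [hy0]) (by rintro (_ | i) _ <;> simp [hd0, hl])
    (by
      rintro (_ | i) hi a
      · exact abs_sin_le_one _
      · exact hyy i (by simpa using hi) a)
    (by
      rintro (_ | i) hi b
      · simp only [Option.elim]
        rw [abs_mul, abs_of_nonneg (by positivity : 0 ≤ 2 * lam)]
        exact mul_le_of_le_one_right (by positivity) (abs_sin_le_one _)
      · exact hd i (by simpa using hi) b)
    (c₀ := 0) (β := β₀ + β₂) hN (add_nonneg h.β₀0 h2) hF ?_ hB hφ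
  · simp only [sum_insertNone, Option.elim, zero_mul, sub_zero, sum_const, nsmul_eq_mul, one_mul] at key
    have : br μ (fun _ b => 2 * lam * sin (2 * π * t b) * φ b) =
        2 * lam * br μ (fun _ b => sin (2 * π * t b) * φ b) := by
      rw [br, br, ← tsum_mul_left]; exact tsum_congr fun q => by ring
    rw [this] at key
    refine le_of_eq_of_le ?_ key
    congr 1; ring
  · intro b hb
    have e := h.expand hN hF hb
    rw [sm_odd ng h.πng hodd, sm_odd (u := fun a => F a * y a b ^ 2) ng h.πng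
      (fun a => by rw [hodd, h.yng]; ring), sm_odd (u := fun a => F a * cos (2 * π * H a)) ng h.πng
      (fun a => by rw [hodd, h.Hng, mul_neg, cos_neg]; ring)] at e
    have e2 : |sm p (fun a => F a * y a b) - ∑ i ∈ T, sm p (fun a => F a * yy i a) * d i b| ≤
        (∑' a, p a) * (N * β₂) := by
      have s1 : HasSum (fun a => p a * (F a * y a b)) (sm p fun a => F a * y a b) :=
        (summ_bdd h.π0 h.πs (U := N * β₁) fun a ha => by
          rw [abs_mul]; exact mul_le_mul (hF a) (h.yle a b ha hb) (abs_nonneg _) hN).hasSum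
      have s2 : HasSum (fun a => ∑ i ∈ T, p a * (F a * yy i a) * d i b)
          (∑ i ∈ T, sm p (fun a => F a * yy i a) * d i b) := hasSum_sum fun i hi =>
        (summ_bdd h.π0 h.πs (U := N * y₀) fun a _ => by
          rw [abs_mul]; exact mul_le_mul (hF a) (hyy i hi a) (abs_nonneg _) hN).hasSum.mul_right _
      rw [← (s1.sub s2).tsum_eq]
      refine le_of_eq_of_le ?_ (abs_tsum_bdd h.π0 h.πs
        (u := fun a => F a * (y a b - ∑ i ∈ T, yy i a * d i b)) fun a ha => by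
          rw [abs_mul]; exact mul_le_mul (hF a) (hy a b ha hb) (abs_nonneg _) hN)
      congr 1
      refine tsum_congr fun a => ?_
      rw [mul_sub, mul_sub, mul_sum, mul_sum]
      congr 1; exact sum_congr rfl fun i _ => by ring
    simp only [sum_insertNone, Option.elim, sub_zero]
    rw [abs_le] at *
    constructor <;> nlinarith [e.1, e.2, e2.1, e2.2]

/-- EVEN sector, `μ`-centred `F` -/
theorem even (h : Sec μ p p' κ H t y ng lam η ω β₀ β₁) {ι : Type*} (T : Finset ι) {yy : ι → X → ℝ}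
    {d : ι → Y → ℝ} {y₀ d₀ β₂ : ℝ} (hy0 : 0 ≤ y₀) (hd0 : 0 ≤ d₀) (h2 : 0 ≤ β₂)
    (hyy : ∀ i ∈ T, ∀ a, |yy i a| ≤ y₀) (hd : ∀ i ∈ T, ∀ b, |d i b| ≤ d₀)
    (hy : ∀ a b, p a ≠ 0 → p' b ≠ 0 → |y a b - ∑ i ∈ T, yy i a * d i b| ≤ β₂)
    {F : X → ℝ} {N : ℝ} (hN : 0 ≤ N) (hF : ∀ a, |F a| ≤ N) (hev : ∀ a, F (ng a) = F a)
    (hF0 : br μ (fun a _ => F a) = 0) {φ : Y → ℝ} {B : ℝ} (hB : 0 ≤ B) (hφ : ∀ b, |φ b| ≤ B) :
    |br μ (fun a b => F a * φ b) - 2 * lam * br μ (fun a _ => F a * cos (2 * π * H a)) *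
      (br μ (fun _ b => cos (2 * π * t b) * φ b) -
        br μ (fun _ b => cos (2 * π * t b)) * br μ (fun _ b => φ b)) -
      ∑ q ∈ T ×ˢ T, br μ (fun a _ => F a * (yy q.1 a * yy q.2 a)) / 2 *
        (br μ (fun _ b => d q.1 b * d q.2 b * φ b) -
          br μ (fun _ b => d q.1 b * d q.2 b) * br μ (fun _ b => φ b))| ≤
      N * B * (2 * η + 6 * (β₀ + β₂ * (β₁ + β₂)) +
        30 * (η + 3 * ω) * (2 * lam + (T.card * (y₀ * d₀)) ^ 2)) := by
  classical
  have hl := h.lam0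
  have hβ1 := h.β₁0
  have hyy2 : ∀ q ∈ T ×ˢ T, ∀ a, |yy q.1 a * yy q.2 a| ≤ y₀ * y₀ := fun q hq a => by
    rw [mem_product] at hq
    rw [abs_mul]; exact mul_le_mul (hyy _ hq.1 a) (hyy _ hq.2 a) (abs_nonneg _) hy0
  have key := h.toFac.master0 (insertNone (T ×ˢ T))
    (u := fun o a => o.elim (2 * lam * cos (2 * π * H a)) fun q => yy q.1 a * yy q.2 a / 2)
    (v := fun o b => o.elim (cos (2 * π * t b)) fun q => d q.1 b * d q.2 b)
    (U := fun o => o.elim (2 * lam) fun _ => y₀ * y₀) (V := fun o => o.elim 1 fun _ => d₀ * d₀)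
    (by rintro (_ | i) _ <;> simp only [Option.elim] <;> positivity)
    (by rintro (_ | i) _ <;> simp only [Option.elim] <;> positivity)
    (by
      rintro (_ | q) hq a
      · simp only [Option.elim]
        rw [abs_mul, abs_of_nonneg (by positivity : 0 ≤ 2 * lam)]
        exact mul_le_of_le_one_right (by positivity) (abs_cos_le_one _)
      · have := hyy2 q (by simpa using hq) a
        simp only [Option.elim]
        rw [abs_div, abs_two]; linarith [abs_nonneg (yy q.1 a * yy q.2 a)])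
    (by
      rintro (_ | q) hq b
      · exact abs_cos_le_one _
      · have hq' : q.1 ∈ T ∧ q.2 ∈ T := by simpa using hq
        simp only [Option.elim]
        rw [abs_mul]; exact mul_le_mul (hd _ hq'.1 b) (hd _ hq'.2 b) (abs_nonneg _) hd0)
    (c₀ := sm p F) (β := β₀ + β₂ * (β₁ + β₂)) hN (by have := h.β₀0; positivity) hF hF0 ?_ hB hφ
  · simp only [sum_insertNone, Option.elim, sum_const, nsmul_eq_mul, mul_one, card_product] at key
    have e1 : br μ (fun a _ => F a * (2 * lam * cos (2 * π * H a))) =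
        2 * lam * br μ (fun a _ => F a * cos (2 * π * H a)) := by
      rw [br, br, ← tsum_mul_left]; exact tsum_congr fun q => by ring
    have e2 : ∀ q : ι × ι, br μ (fun a _ => F a * (yy q.1 a * yy q.2 a / 2)) =
        br μ (fun a _ => F a * (yy q.1 a * yy q.2 a)) / 2 := fun q => by
      rw [br, br, ← tsum_div_const]; exact tsum_congr fun q => by ring
    simp only [e1, e2] at key
    refine le_of_eq_of_le ?_ (key.trans (le_of_eq ?_))
    · congr 1; ring
    · push_cast; ring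
  · intro b hb
    have e := h.expand hN hF hb
    rw [sm_odd (u := fun a => F a * y a b) ng h.πng (fun a => by rw [hev, h.yng]; ring),
      sm_odd (u := fun a => F a * sin (2 * π * H a)) ng h.πng
      (fun a => by rw [hev, h.Hng, mul_neg, sin_neg]; ring)] at e
    have e1 : sm p (fun a => F a * (2 * lam * cos (2 * π * H a))) =
        2 * lam * sm p (fun a => F a * cos (2 * π * H a)) := by
      rw [sm, sm, ← tsum_mul_left]; exact tsum_congr fun q => by ring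
    have e2 : |sm p (fun a => F a * y a b ^ 2) / 2 - ∑ q ∈ T ×ˢ T,
        sm p (fun a => F a * (yy q.1 a * yy q.2 a / 2)) * (d q.1 b * d q.2 b)| ≤
        (∑' a, p a) * (N * (β₂ * (β₁ + β₂))) := by
      have s1 : HasSum (fun a => p a * (F a * y a b ^ 2)) (sm p fun a => F a * y a b ^ 2) :=
        (summ_bdd h.π0 h.πs (U := N * β₁ ^ 2) fun a ha => by
          rw [abs_mul, abs_pow]
          exact mul_le_mul (hF a) (pow_le_pow_left₀ (abs_nonneg _) (h.yle a b ha hb) 2)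
            (by positivity) hN).hasSum
      have s2 : HasSum (fun a => ∑ q ∈ T ×ˢ T, p a * (F a * (yy q.1 a * yy q.2 a / 2)) * (d q.1 b * d q.2 b))
          (∑ q ∈ T ×ˢ T, sm p (fun a => F a * (yy q.1 a * yy q.2 a / 2)) * (d q.1 b * d q.2 b)) :=
        hasSum_sum fun q hq => (summ_bdd h.π0 h.πs (U := N * (y₀ * y₀)) fun a _ => by
          have := hyy2 q hq a
          rw [abs_mul, abs_div, abs_two]
          exact mul_le_mul (hF a) (by linarith [abs_nonneg (yy q.1 a * yy q.2 a)]) (by positivity)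
            hN).hasSum.mul_right _
      rw [← ((s1.div_const 2).sub s2).tsum_eq]
      refine le_of_eq_of_le ?_ (abs_tsum_bdd h.π0 h.πs
        (u := fun a => F a * ((y a b ^ 2 - (∑ i ∈ T, yy i a * d i b) ^ 2) / 2)) fun a ha => by
          rw [abs_mul]
          refine mul_le_mul (hF a) ?_ (abs_nonneg _) hN
          have a1 := hy a b ha hb
          have a2 := h.yle a b ha hb
          set s := ∑ i ∈ T, yy i a * d i b
          have a3 : |y a b + s| ≤ 2 * β₁ + β₂ := by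
            rw [abs_le] at *; constructor <;> linarith [a1.1, a1.2, a2.1, a2.2]
          rw [abs_div, abs_two, sq_sub_sq, abs_mul]
          have := mul_le_mul a3 a1 (abs_nonneg _) (by positivity)
          nlinarith)
      congr 1
      refine tsum_congr fun a => ?_
      rw [sq (∑ i ∈ T, yy i a * d i b), sum_mul_sum, ← sum_product', sub_div, mul_sub, mul_sub, sum_div,
        mul_sum, mul_sum]
      congr 1
      · ring
      · exact sum_congr rfl fun q _ => by ring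
    simp only [sum_insertNone, Option.elim, e1]
    rw [abs_le] at *
    constructor <;> nlinarith [e.1, e.2, e2.1, e2.2]

/-- EVEN sector, crude form -/
theorem even_crude (h : Sec μ p p' κ H t y ng lam η ω β₀ β₁) {F : X → ℝ} {N : ℝ} (hN : 0 ≤ N)
    (hF : ∀ a, |F a| ≤ N) (hev : ∀ a, F (ng a) = F a) (hF0 : br μ (fun a _ => F a) = 0)
    {φ : Y → ℝ} {B : ℝ} (hB : 0 ≤ B) (hφ : ∀ b, |φ b| ≤ B) :
    |br μ (fun a b => F a * φ b)| ≤ N * B * (2 * η + 6 * (β₀ + β₁ ^ 2 + 2 * lam)) := by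
  have hl := h.lam0
  have key := h.toFac.master0 (∅ : Finset Unit) (u := fun _ _ => 0) (v := fun _ _ => 0)
    (U := fun _ => 0) (V := fun _ => 0) (by simp) (by simp) (by simp) (by simp)
    (c₀ := sm p F) (β := β₀ + β₁ ^ 2 + 2 * lam) hN (by have := h.β₀0; positivity) hF hF0 ?_ hB hφ
  · simpa using key
  · intro b hb
    have e := h.expand hN hF hb
    rw [sm_odd (u := fun a => F a * y a b) ng h.πng (fun a => by rw [hev, h.yng]; ring),
      sm_odd (u := fun a => F a * sin (2 * π * H a)) ng h.πng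
      (fun a => by rw [hev, h.Hng, mul_neg, sin_neg]; ring)] at e
    have e1 : |sm p (fun a => F a * y a b ^ 2)| ≤ (∑' a, p a) * (N * β₁ ^ 2) :=
      abs_tsum_bdd h.π0 h.πs fun a ha => by
        rw [abs_mul, abs_pow]
        exact mul_le_mul (hF a) (pow_le_pow_left₀ (abs_nonneg _) (h.yle a b ha hb) 2) (by positivity) hN
    have e2 : |sm p (fun a => F a * cos (2 * π * H a)) * cos (2 * π * t b)| ≤ (∑' a, p a) * N := by
      rw [abs_mul]
      refine (mul_le_of_le_one_right (abs_nonneg _) (abs_cos_le_one _)).trans ?_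
      exact abs_tsum_bdd h.π0 h.πs fun a _ => by
        rw [abs_mul]; exact (mul_le_of_le_one_right (abs_nonneg _) (abs_cos_le_one _)).trans (hF a)
    have e3 := mul_le_mul_of_nonneg_left e2 (by positivity : 0 ≤ 2 * lam)
    rw [← abs_of_nonneg (by positivity : 0 ≤ 2 * lam), ← abs_mul,
      abs_of_nonneg (by positivity : 0 ≤ 2 * lam)] at e3
    have p0 : 0 ≤ (∑' a, p a) * (N * β₁ ^ 2) := (abs_nonneg _).trans e1
    simp only [sum_empty, sub_zero]
    rw [abs_le] at *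
    constructor <;> nlinarith [e.1, e.2, e1.1, e1.2, e3.1, e3.2]

end Sec

end Crest.Agent.T145.KrA
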