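import Crest.Agent.T145.KrA_90

/-!
# Row 145, design N: the abstract orbit lemma K4 and the form (K#) (helper90)
-/

set_option autoImplicit false

namespace Crest.Agent.T145.KrA

open Finset

variable {X Y : Type*}

/-- `ℓ¹` norm -/
noncomputable def n1 {α : Type*} (f : α → ℝ) : ℝ := ∑' a, |f a|

section n1
variable {α : Type*} {f g : α → ℝ}
theorem n1_nonneg (f : α → ℝ) : 0 ≤ n1 f := tsum_nonneg fun _ => abs_nonneg _
theorem n1_le {h : α → ℝ} (hh : Summable h) (hf : ∀ a, |f a| ≤ h a) : n1 f ≤ ∑' a, h a :=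
  (Summable.of_nonneg_of_le (fun _ => abs_nonneg _) hf hh).tsum_le_tsum hf hh
theorem n1_add (hf : Summable f) (hg : Summable g) : n1 (fun a => f a + g a) ≤ n1 f + n1 g := by
  rw [n1, n1, n1, ← hf.abs.tsum_add hg.abs]
  exact n1_le (hf.abs.add hg.abs) fun a => abs_add_le _ _
theorem n1_tri {h : α → ℝ} (hf : Summable f) (hg : Summable g) (hh : Summable h) :
    n1 (fun a => f a - h a) ≤ n1 (fun a => f a - g a) + n1 (fun a => g a - h a) := by
  refine le_of_eq_of_le ?_ (n1_add (hf.sub hg) (hg.sub hh))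
  congr 1; funext a; ring
theorem n1_comm (f g : α → ℝ) : n1 (fun a => f a - g a) = n1 (fun a => g a - f a) :=
  tsum_congr fun _ => abs_sub_comm _ _
theorem n1_mul (c : ℝ) (f : α → ℝ) : n1 (fun a => c * f a) = |c| * n1 f := by
  simp only [n1, abs_mul, tsum_mul_left]
theorem n1_of_nonneg (h : ∀ a, 0 ≤ f a) : n1 f = ∑' a, f a := tsum_congr fun a => abs_of_nonneg (h a)
end n1

theorem summ_tens {u : X → ℝ} {v : Y → ℝ} (hu : Summable u) (hv : Summable v) :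
    Summable fun p : X × Y => u p.1 * v p.2 :=
  summable_mul_of_summable_norm (by simpa using hu.abs) (by simpa using hv.abs)

theorem n1_tens {u : X → ℝ} {v : Y → ℝ} (hu : Summable u) (hv : Summable v) :
    n1 (fun p : X × Y => u p.1 * v p.2) = n1 u * n1 v := by
  simp only [n1, abs_mul]; exact tsum_prod_mul hu.abs hv.abs

theorem n1_marg {F : X × Y → ℝ} (hF : Summable F) : n1 (fun a => ∑' b, F (a, b)) ≤ n1 F := by
  rw [n1, n1, hF.abs.tsum_prod]
  refine n1_le hF.abs.prod fun a => ?_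
  have := norm_tsum_le_tsum_norm (f := fun b => F (a, b)) (hF.abs.prod_factor a)
  simpa using this

/-- the two inequalities are added -/
theorem orb_step {P : ℤ → X → ℝ} {Q : ℤ → Y → ℝ} {N : ℤ → ℤ → X × Y → ℝ} {M : ℤ} {e : ℝ}
    (hP : ∀ i, Summable (P i)) (hQ : ∀ j, Summable (Q j)) (hN : ∀ i j, Summable (N i j))
    (Q0 : ∀ j b, 0 ≤ Q j b) (inv : ∀ i j, N (i + 1) (j + 1) = N i j)
    (cl : ∀ i j, |i| ≤ M → |j| ≤ M → n1 (fun p => N i j p - P i p.1 * Q j p.2) ≤ e)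
    (ev : ∀ j, ∑' b, Q (-j) b = ∑' b, Q j b) (hM : 1 ≤ M) {i j : ℤ} (hi : |i| ≤ M) (hi' : |i + 1| ≤ M)
    (hj : |j| ≤ M) : (∑' b, Q j b) * n1 (fun a => P i a - P (i + 1) a) ≤ 4 * e := by
  have h1 : ∀ j, |j| ≤ M → |j + 1| ≤ M →
      n1 (fun a => (∑' b, Q j b) * P i a - (∑' b, Q (j + 1) b) * P (i + 1) a) ≤ 2 * e := by
    intro j hj hj'
    have a1 := cl i j hi hj
    have a2 := cl (i + 1) (j + 1) hi' hj'
    rw [inv] at a2
    have a3 := n1_tri (summ_tens (hP i) (hQ j)) (hN i j) (summ_tens (hP (i + 1)) (hQ (j + 1)))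
    rw [n1_comm _ (N i j)] at a3
    have a4 := n1_marg ((summ_tens (hP i) (hQ j)).sub (summ_tens (hP (i + 1)) (hQ (j + 1))))
    have a5 : (fun a => ∑' b, (P i a * Q j b - P (i + 1) a * Q (j + 1) b)) =
        fun a => (∑' b, Q j b) * P i a - (∑' b, Q (j + 1) b) * P (i + 1) a := by
      funext a
      rw [((hQ j).mul_left _).tsum_sub ((hQ (j + 1)).mul_left _), tsum_mul_left, tsum_mul_left]; ring
    simp only at a4
    rw [a5] at a4
    linarith
  have h2 : ∀ j, |j| ≤ M → |j + 1| ≤ M →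
      ((∑' b, Q j b) + ∑' b, Q (j + 1) b) * n1 (fun a => P i a - P (i + 1) a) ≤ 4 * e := by
    intro j hj hj'
    have a1 := h1 j hj hj'
    have a2 := h1 (-(j + 1)) (by rwa [abs_neg]) (by rw [show -(j + 1) + 1 = -j by ring, abs_neg]; exact hj)
    rw [show -(j + 1) + 1 = -j by ring, ev, ev] at a2
    have a3 := n1_add (((hP i).mul_left (∑' b, Q j b)).sub ((hP (i + 1)).mul_left (∑' b, Q (j + 1) b)))
      (((hP i).mul_left (∑' b, Q (j + 1) b)).sub ((hP (i + 1)).mul_left (∑' b, Q j b)))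
    have p0 : 0 ≤ (∑' b, Q j b) + ∑' b, Q (j + 1) b :=
      add_nonneg (tsum_nonneg (Q0 _)) (tsum_nonneg (Q0 _))
    rw [← abs_of_nonneg p0, ← n1_mul]
    refine le_of_eq_of_le ?_ (a3.trans (by linarith))
    congr 1; funext a; ring
  have n0 := n1_nonneg fun a => P i a - P (i + 1) a
  by_cases hc : j + 1 ≤ M
  · have := h2 j hj (by rw [abs_le] at *; omega)
    have q1 : 0 ≤ ∑' b, Q (j + 1) b := tsum_nonneg (Q0 _)
    nlinarith [mul_nonneg q1 n0]
  · have := h2 (j - 1) (by rw [abs_le] at *; omega) (by rwa [sub_add_cancel])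
    rw [sub_add_cancel] at this
    have q1 : 0 ≤ ∑' b, Q (j - 1) b := tsum_nonneg (Q0 _)
    nlinarith [mul_nonneg q1 n0]

theorem orb {P : ℤ → X → ℝ} {Q : ℤ → Y → ℝ} {N : ℤ → ℤ → X × Y → ℝ} {M : ℤ} {e : ℝ}
    (hP : ∀ i, Summable (P i)) (hQ : ∀ j, Summable (Q j)) (hN : ∀ i j, Summable (N i j))
    (Q0 : ∀ j b, 0 ≤ Q j b) (inv : ∀ i j, N (i + 1) (j + 1) = N i j)
    (cl : ∀ i j, |i| ≤ M → |j| ≤ M → n1 (fun p => N i j p - P i p.1 * Q j p.2) ≤ e)
    (ev : ∀ j, ∑' b, Q (-j) b = ∑' b, Q j b) (hM : 1 ≤ M) {j : ℤ} (hj : |j| ≤ M) (i : ℤ) :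
    |i| ≤ M → (∑' b, Q j b) * n1 (fun a => P i a - P 0 a) ≤ 4 * |(i : ℝ)| * e := by
  have q0 : 0 ≤ ∑' b, Q j b := tsum_nonneg (Q0 j)
  induction i using Int.induction_on with
  | zero => intro _; simp [n1]
  | succ n ih =>
    intro hi
    have hn : |(n : ℤ)| ≤ M := by rw [abs_le] at *; omega
    have a1 := orb_step hP hQ hN Q0 inv cl ev hM hn hi hj
    have a2 := n1_tri (hP (n + 1)) (hP n) (hP 0)
    rw [n1_comm (P (n + 1)) (P n)] at a2
    have a3 := ih hn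
    have a4 := mul_le_mul_of_nonneg_left a2 q0
    push_cast at *
    rw [abs_of_nonneg (by positivity)] at a3 ⊢
    linarith
  | pred n ih =>
    intro hi
    have hn : |-(n : ℤ)| ≤ M := by rw [abs_le] at *; omega
    have a1 := orb_step hP hQ hN Q0 inv cl ev hM hi (by rwa [sub_add_cancel]) hj
    rw [sub_add_cancel] at a1
    have a2 := n1_tri (hP (-n - 1)) (hP (-n)) (hP 0)
    have a3 := ih hn
    have a4 := mul_le_mul_of_nonneg_left a2 q0
    push_cast at *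
    rw [abs_neg, abs_of_nonneg (by positivity)] at a3
    rw [show -(n : ℝ) - 1 = -(n + 1) by ring, abs_neg, abs_of_nonneg (by positivity)]
    linarith

/-- a pointwise convex combination of the `P i`, `|i| ≤ 2` -/
theorem n1_conv {P : ℤ → X → ℝ} (hP : ∀ i, Summable (P i)) {π : X → ℝ} {c : ℤ → X → ℝ}
    (c0 : ∀ i a, 0 ≤ c i a) (c1 : ∀ i a, c i a ≤ 1)
    (hπ : ∀ a, π a - P 0 a = ∑ i ∈ Icc (-2 : ℤ) 2, c i a * (P i a - P 0 a)) :
    Summable π ∧ n1 (fun a => π a - P 0 a) ≤ ∑ i ∈ Icc (-2 : ℤ) 2, n1 fun a => P i a - P 0 a := by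
  have s : HasSum (fun a => ∑ i ∈ Icc (-2 : ℤ) 2, |P i a - P 0 a|)
      (∑ i ∈ Icc (-2 : ℤ) 2, n1 fun a => P i a - P 0 a) :=
    hasSum_sum fun i _ => ((hP i).sub (hP 0)).abs.hasSum
  have b : ∀ a, |π a - P 0 a| ≤ ∑ i ∈ Icc (-2 : ℤ) 2, |P i a - P 0 a| := fun a => by
    rw [hπ]
    refine (abs_sum_le_sum_abs _ _).trans (sum_le_sum fun i _ => ?_)
    rw [abs_mul, abs_of_nonneg (c0 i a)]
    exact mul_le_of_le_one_left (abs_nonneg _) (c1 i a)
  refine ⟨?_, s.tsum_eq ▸ n1_le s.summable b⟩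
  have := (Summable.of_norm_bounded s.summable (f := fun a => π a - P 0 a) b).add (hP 0)
  simpa using this

/-- K4, sequence form -/
theorem orb_main {P : ℤ → X → ℝ} {Q : ℤ → Y → ℝ} {N : ℤ → ℤ → X × Y → ℝ} {M : ℤ} {e : ℝ}
    (hP : ∀ i, Summable (P i)) (hQ : ∀ j, Summable (Q j)) (hN : ∀ i j, Summable (N i j))
    (P0 : ∀ i a, 0 ≤ P i a) (Q0 : ∀ j b, 0 ≤ Q j b) (inv : ∀ i j, N (i + 1) (j + 1) = N i j)
    (cl : ∀ i j, |i| ≤ M → |j| ≤ M → n1 (fun p => N i j p - P i p.1 * Q j p.2) ≤ e)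
    (evP : ∀ i, ∑' a, P (-i) a = ∑' a, P i a) (evQ : ∀ j, ∑' b, Q (-j) b = ∑' b, Q j b) (hM : 2 ≤ M)
    {π : X → ℝ} {c : ℤ → X → ℝ} (c0 : ∀ i a, 0 ≤ c i a) (c1 : ∀ i a, c i a ≤ 1)
    (hπ : ∀ a, π a - P 0 a = ∑ i ∈ Icc (-2 : ℤ) 2, c i a * (P i a - P 0 a))
    {π' : Y → ℝ} {c' : ℤ → Y → ℝ} (c0' : ∀ i a, 0 ≤ c' i a) (c1' : ∀ i a, c' i a ≤ 1)
    (hπ' : ∀ a, π' a - Q 0 a = ∑ i ∈ Icc (-2 : ℤ) 2, c' i a * (Q i a - Q 0 a))
    (hle : ∀ b, |π' b| ≤ ∑ i ∈ Icc (-2 : ℤ) 2, Q i b) {j : ℤ} (hj : |j| ≤ M) :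
    n1 (fun p => N 0 j p - π p.1 * π' p.2) ≤ (145 + 4 * |(j : ℝ)|) * e := by
  have hM1 : 1 ≤ M := by omega
  have h0 : |(0 : ℤ)| ≤ M := by simp; omega
  have A := fun j hj i => orb hP hQ hN Q0 inv cl evQ hM1 (j := j) hj i
  have B := fun i hi j => orb (P := Q) (Q := P) (N := fun j i q => N i j (q.2, q.1)) (M := M) (e := e) hQ hP
    (fun j i => (Equiv.prodComm Y X).summable_iff.2 (hN i j)) P0 (fun j i => by rw [inv])
    (fun j i hj hi => by
      refine le_of_eq_of_le ?_ (cl i j hi hj)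
      rw [n1, n1, ← (Equiv.prodComm X Y).tsum_eq]
      exact tsum_congr fun p => by simp [mul_comm]) evP hM1 (j := i) hi j
  obtain ⟨sπ, bπ⟩ := n1_conv hP c0 c1 hπ
  obtain ⟨sπ', bπ'⟩ := n1_conv hQ c0' c1' hπ'
  have hI : ∀ i ∈ Icc (-2 : ℤ) 2, |i| ≤ M := fun i hi => by
    rw [mem_Icc] at hi; rw [abs_le]; omega
  have sI : ∑ i ∈ Icc (-2 : ℤ) 2, 4 * |(i : ℝ)| * e = 24 * e := by
    rw [show Icc (-2 : ℤ) 2 = {-2, -1, 0, 1, 2} by decide]
    simp; ring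
  have p0 : 0 ≤ ∑' a, P 0 a := tsum_nonneg (P0 0)
  have b1 : ∀ j, |j| ≤ M → (∑' b, Q j b) * n1 (fun a => π a - P 0 a) ≤ 24 * e := fun j hj => by
    refine (mul_le_mul_of_nonneg_left bπ (tsum_nonneg (Q0 j))).trans ?_
    rw [mul_sum, ← sI]
    exact sum_le_sum fun i hi => A j hj i (hI i hi)
  have b2 : (∑' a, P 0 a) * n1 (fun a => π' a - Q 0 a) ≤ 24 * e := by
    refine (mul_le_mul_of_nonneg_left bπ' p0).trans ?_
    rw [mul_sum, ← sI]
    exact sum_le_sum fun i hi => B 0 h0 i (hI i hi)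
  have b3 := B 0 h0 j hj
  have b4 : n1 π' * n1 (fun a => π a - P 0 a) ≤ 120 * e := by
    have s : HasSum (fun b => ∑ i ∈ Icc (-2 : ℤ) 2, Q i b) (∑ i ∈ Icc (-2 : ℤ) 2, ∑' b, Q i b) :=
      hasSum_sum fun i _ => (hQ i).hasSum
    have := n1_le s.summable hle
    rw [s.tsum_eq] at this
    refine (mul_le_mul_of_nonneg_right this (n1_nonneg _)).trans ?_
    rw [sum_mul]
    refine (sum_le_sum fun i hi => b1 i (hI i hi)).trans (le_of_eq ?_)
    simp; ring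
  have t1 := n1_tri (hN 0 j) (summ_tens (hP 0) (hQ j)) (summ_tens sπ sπ')
  have t2 := n1_tri (summ_tens (hP 0) (hQ j)) (summ_tens (hP 0) (hQ 0)) (summ_tens sπ sπ')
  have t3 := n1_tri (summ_tens (hP 0) (hQ 0)) (summ_tens (hP 0) sπ') (summ_tens sπ sπ')
  have e1 : n1 (fun p : X × Y => P 0 p.1 * Q j p.2 - P 0 p.1 * Q 0 p.2) =
      (∑' a, P 0 a) * n1 fun b => Q j b - Q 0 b := by
    rw [← n1_of_nonneg (P0 0), ← n1_tens (hP 0) ((hQ j).sub (hQ 0))]; congr 1; funext p; ring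
  have e2 : n1 (fun p : X × Y => P 0 p.1 * Q 0 p.2 - P 0 p.1 * π' p.2) =
      (∑' a, P 0 a) * n1 fun b => π' b - Q 0 b := by
    rw [n1_comm π', ← n1_of_nonneg (P0 0), ← n1_tens (hP 0) ((hQ 0).sub sπ')]; congr 1; funext p; ring
  have e3 : n1 (fun p : X × Y => P 0 p.1 * π' p.2 - π p.1 * π' p.2) =
      n1 π' * n1 fun a => π a - P 0 a := by
    rw [n1_comm π, mul_comm, ← n1_tens ((hP 0).sub sπ) sπ']; congr 1; funext p; ring
  have := cl 0 j h0 hj
  linarith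

/-- the tent -/
noncomputable def tw (u : ℝ) : ℝ := max (1 - |u|) 0

theorem tw_nonneg (u : ℝ) : 0 ≤ tw u := le_max_right _ _
theorem tw_le_one (u : ℝ) : tw u ≤ 1 := max_le (by linarith [abs_nonneg u]) zero_le_one
theorem tw_neg (u : ℝ) : tw (-u) = tw u := by rw [tw, tw, abs_neg]
theorem tw_zero {u : ℝ} (h : 1 ≤ |u|) : tw u = 0 := max_eq_right (by linarith)
theorem lt_of_tw {u : ℝ} (h : tw u ≠ 0) : |u| < 1 := not_le.1 fun h' => h (tw_zero h')

theorem hasSum_tw (u : ℝ) : HasSum (fun j : ℤ => tw (u + j)) 1 := by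
  have h1 := Int.floor_le u
  have h2 := Int.lt_floor_add_one u
  have : ∑ j ∈ ({-⌊u⌋, -⌊u⌋ - 1} : Finset ℤ), tw (u + j) = 1 := by
    rw [sum_pair (by omega)]
    push_cast
    rw [tw, tw, abs_of_nonneg (by linarith), abs_of_nonpos (by linarith), max_eq_left (by linarith),
      max_eq_left (by linarith)]
    ring
  rw [← this]
  refine hasSum_sum_of_ne_finset_zero fun j hj => tw_zero ?_
  simp only [mem_insert, mem_singleton, not_or] at hj
  rcases (by omega : -⌊u⌋ + 1 ≤ j ∨ j ≤ -⌊u⌋ - 2) with h | h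
  · have : (-⌊u⌋ + 1 : ℝ) ≤ j := by exact_mod_cast h
    exact le_abs.2 (Or.inl (by linarith))
  · have : (j : ℝ) ≤ -⌊u⌋ - 2 := by exact_mod_cast h
    exact le_abs.2 (Or.inr (by linarith))

theorem hasSum_tw' (u : ℝ) : HasSum (fun j : ℤ => tw (u - j)) 1 := by
  convert hasSum_tw (-u) using 2 with j
  rw [← tw_neg]; congr 1; ring

theorem tw_far {u : ℝ} (hu : |u| ≤ 1) {j : ℤ} (hj : j ∉ Icc (-2 : ℤ) 2) : tw (u + j) = 0 := by
  rw [mem_Icc] at hj; rw [abs_le] at hu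
  refine tw_zero ?_
  rcases (by omega : 3 ≤ j ∨ j ≤ -3) with h | h
  · have : (3 : ℝ) ≤ j := by exact_mod_cast h
    exact le_abs.2 (Or.inl (by linarith))
  · have : (j : ℝ) ≤ -3 := by exact_mod_cast h
    exact le_abs.2 (Or.inr (by linarith))

/-- shifts, negation, level and typical set -/
structure Act (X : Type*) where
  s : ℤ → X ≃ X
  ng : X ≃ X
  H : X → ℝ
  T : X → Prop
  s_add : ∀ i j a, s (i + j) a = s i (s j a)
  s_zero : ∀ a, s 0 a = a
  ng_s : ∀ i a, ng (s i a) = s (-i) (ng a)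
  H_s : ∀ i a, H (s i a) = H a + i
  H_ng : ∀ a, H (ng a) = -H a
  T_s : ∀ i a, T (s i a) ↔ T a
  T_ng : ∀ a, T (ng a) ↔ T a

open Classical in
/-- indicator of the typical set at level at most `M` -/
noncomputable def Act.bx (A : Act X) (M : ℝ) (a : X) : ℝ := if A.T a ∧ |A.H a| ≤ M then 1 else 0

/-- the shift invariant factor, cut to the typical set and to levels `≤ 1` -/
noncomputable def Act.pi0 (A : Act X) (p : X → ℝ) (a : X) : ℝ :=
  A.bx 1 a * ∑' j : ℤ, p (A.s j a) * tw (A.H a + j)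

/-- the factor of (K#) -/
noncomputable def Act.pib (A : Act X) (p : X → ℝ) (a : X) : ℝ := tw (A.H a) * A.pi0 p a

/-- the folded weight -/
noncomputable def mub (A : Act X) (B : Act Y) (μ : X × Y → ℝ) (q : X × Y) : ℝ :=
  tw (A.H q.1) * tw (B.H q.2) * ∑' j : ℤ, μ (q.1, B.s j q.2)

/-- theta function -/
noncomputable def thf (κ u : ℝ) : ℝ := ∑' j : ℤ, Real.exp (-κ * (u - j) ^ 2 / 2)

namespace Act
variable (A : Act X) {p : X → ℝ}

theorem bx_nonneg (M : ℝ) (a : X) : 0 ≤ A.bx M a := by unfold bx; split_ifs <;> norm_num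
theorem bx_le_one (M : ℝ) (a : X) : A.bx M a ≤ 1 := by unfold bx; split_ifs <;> norm_num
theorem bx_ne {M : ℝ} {a : X} (h : A.bx M a ≠ 0) : A.T a ∧ |A.H a| ≤ M := by
  by_contra h'; exact h (if_neg h')
theorem bx_one {M : ℝ} {a : X} (h : A.T a ∧ |A.H a| ≤ M) : A.bx M a = 1 := if_pos h
theorem bx_ng (M : ℝ) (a : X) : A.bx M (A.ng a) = A.bx M a := by
  unfold bx; rw [A.H_ng, abs_neg, propext (A.T_ng a)]
theorem bx_s {M : ℝ} {i : ℤ} (hi : |(i : ℝ)| + 1 ≤ M) (a : X) : A.bx 1 a ≤ A.bx M (A.s i a) := by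
  by_cases h : A.bx 1 a = 0
  · rw [h]; exact A.bx_nonneg _ _
  · have := A.bx_ne h
    rw [A.bx_one (M := M) ⟨(A.T_s i a).2 this.1, by
      rw [A.H_s]; exact (abs_add_le _ _).trans (by linarith [this.2])⟩]
    exact A.bx_le_one _ _

theorem pi0_eq (p : X → ℝ) (a : X) :
    A.pi0 p a = ∑ i ∈ Icc (-2 : ℤ) 2, tw (A.H a + i) * (A.bx 1 a * p (A.s i a)) := by
  by_cases h : A.bx 1 a = 0
  · simp [pi0, h]
  · rw [pi0, tsum_eq_sum (s := Icc (-2 : ℤ) 2) fun j hj => by rw [tw_far (A.bx_ne h).2 hj, mul_zero],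
      mul_sum]
    exact sum_congr rfl fun i _ => by ring

theorem pi0_sub (p : X → ℝ) (a : X) : A.pi0 p a - A.bx 1 a * p (A.s 0 a) =
    ∑ i ∈ Icc (-2 : ℤ) 2, tw (A.H a + i) * (A.bx 1 a * p (A.s i a) - A.bx 1 a * p (A.s 0 a)) := by
  by_cases h : A.bx 1 a = 0
  · simp [pi0, h]
  · have h1 : ∑ i ∈ Icc (-2 : ℤ) 2, tw (A.H a + i) = 1 :=
      (hasSum_sum_of_ne_finset_zero fun j hj => tw_far (A.bx_ne h).2 hj).unique (hasSum_tw _)
    simp only [mul_sub, sum_sub_distrib, ← sum_mul, h1, one_mul, A.pi0_eq]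

theorem pi0_nonneg (hp : ∀ a, 0 ≤ p a) (a : X) : 0 ≤ A.pi0 p a :=
  mul_nonneg (A.bx_nonneg _ _) (tsum_nonneg fun _ => mul_nonneg (hp _) (tw_nonneg _))
theorem pib_nonneg (hp : ∀ a, 0 ≤ p a) (a : X) : 0 ≤ A.pib p a :=
  mul_nonneg (tw_nonneg _) (A.pi0_nonneg hp a)
theorem pib_le (hp : ∀ a, 0 ≤ p a) (a : X) : A.pib p a ≤ A.pi0 p a :=
  mul_le_of_le_one_left (A.pi0_nonneg hp a) (tw_le_one _)
theorem pib_ne {a : X} (h : A.pib p a ≠ 0) : A.T a ∧ |A.H a| ≤ 1 :=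
  A.bx_ne (left_ne_zero_of_mul (right_ne_zero_of_mul h))

theorem pib_ng (hp : ∀ a, p (A.ng a) = p a) (a : X) : A.pib p (A.ng a) = A.pib p a := by
  rw [pib, pib, pi0, pi0, A.bx_ng, A.H_ng, tw_neg, ← (Equiv.neg ℤ).tsum_eq]
  congr 2
  refine tsum_congr fun j => ?_
  rw [Equiv.neg_apply, ← A.ng_s, hp, ← tw_neg]; push_cast; congr 2; ring

/-- invariance under a symmetry -/
theorem pib_inv (g : X → X) (hp : ∀ a, p (g a) = p a) (hs : ∀ i a, g (A.s i a) = A.s i (g a))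
    (hH : ∀ a, A.H (g a) = A.H a) (hT : ∀ a, A.T (g a) ↔ A.T a) (a : X) : A.pib p (g a) = A.pib p a := by
  have : A.bx 1 (g a) = A.bx 1 a := by unfold bx; rw [hH, propext (hT a)]
  simp only [pib, pi0, this, hH, ← hs, hp]

theorem summ_P (hp : ∀ a, 0 ≤ p a) {M : ℝ} (hs : Summable fun a => A.bx M a * p a) {i : ℤ}
    (hi : |(i : ℝ)| + 1 ≤ M) : Summable fun a => A.bx 1 a * p (A.s i a) :=
  Summable.of_nonneg_of_le (fun _ => mul_nonneg (A.bx_nonneg _ _) (hp _))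
    (fun a => mul_le_mul_of_nonneg_right (A.bx_s hi a) (hp _)) ((A.s i).summable_iff.2 hs)

theorem ev_P (hp : ∀ a, p (A.ng a) = p a) (i : ℤ) :
    ∑' a, A.bx 1 a * p (A.s (-i) a) = ∑' a, A.bx 1 a * p (A.s i a) := by
  rw [← A.ng.tsum_eq]
  exact tsum_congr fun a => by rw [A.bx_ng, ← A.ng_s, hp]

theorem summ_pib (hp : ∀ a, 0 ≤ p a) {M : ℝ} (hM : 3 ≤ M) (hs : Summable fun a => A.bx M a * p a) :
    Summable (A.pib p) := by
  refine Summable.of_nonneg_of_le (A.pib_nonneg hp) (fun a => (A.pib_le hp a).trans ?_)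
    (summable_sum (s := Icc (-2 : ℤ) 2) fun i hi => A.summ_P hp hs (i := i) ?_)
  · rw [A.pi0_eq]
    exact sum_le_sum fun i _ => mul_le_of_le_one_left (mul_nonneg (A.bx_nonneg _ _) (hp _)) (tw_le_one _)
  · rw [mem_Icc] at hi
    have : |(i : ℝ)| ≤ 2 := by rw [abs_le]; exact_mod_cast hi
    linarith

end Act

/-- K4 -/
theorem k4 (A : Act X) (B : Act Y) {ν : X × Y → ℝ} {p : X → ℝ} {q : Y → ℝ} {K : ℕ} {e : ℝ}
    (ν0 : ∀ z, 0 ≤ ν z) (νs : ∀ i a b, ν (A.s i a, B.s i b) = ν (a, b))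
    (p0 : ∀ a, 0 ≤ p a) (q0 : ∀ b, 0 ≤ q b) (pe : ∀ a, p (A.ng a) = p a) (qe : ∀ b, q (B.ng b) = q b)
    (sp : Summable fun a => A.bx (K + 3) a * p a) (sq : Summable fun b => B.bx (K + 3) b * q b)
    (sν : Summable fun z : X × Y => A.bx (K + 3) z.1 * B.bx (K + 3) z.2 * ν z)
    (cl : ∑' z : X × Y, A.bx (K + 3) z.1 * B.bx (K + 3) z.2 * |ν z - p z.1 * q z.2| ≤ e)
    {j : ℤ} (hj : |j| ≤ K + 2) :
    Summable (fun z : X × Y => A.bx 1 z.1 * B.bx 1 z.2 * ν (z.1, B.s j z.2)) ∧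
    n1 (fun z : X × Y => A.bx 1 z.1 * B.bx 1 z.2 * ν (z.1, B.s j z.2) - A.pi0 p z.1 * B.pi0 q z.2) ≤
      (145 + 4 * |(j : ℝ)|) * e := by
  classical
  have c : ∀ {i : ℤ}, |i| ≤ (K + 2 : ℤ) → |(i : ℝ)| + 1 ≤ K + 3 := fun {i} hi => by
    have : |(i : ℝ)| ≤ K + 2 := by exact_mod_cast hi
    linarith
  have sN : ∀ {i j : ℤ}, |i| ≤ (K + 2 : ℤ) → |j| ≤ (K + 2 : ℤ) →
      Summable fun z : X × Y => A.bx 1 z.1 * B.bx 1 z.2 * ν (A.s i z.1, B.s j z.2) := fun {i j} hi hj =>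
    Summable.of_nonneg_of_le (fun z => mul_nonneg (mul_nonneg (A.bx_nonneg _ _) (B.bx_nonneg _ _)) (ν0 _))
      (fun z => mul_le_mul_of_nonneg_right (mul_le_mul (A.bx_s (c hi) _) (B.bx_s (c hj) _)
        (B.bx_nonneg _ _) (A.bx_nonneg _ _)) (ν0 _))
      (((A.s i).prodCongr (B.s j)).summable_iff.2 sν)
  have hd : ∀ i j : ℤ, ∀ z : X × Y, ν (A.s i z.1, B.s j z.2) = ν (z.1, B.s (j - i) z.2) := fun i j z => by
    rw [← νs i z.1, ← B.s_add, add_sub_cancel]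
  have h0 : |(0 : ℤ)| ≤ K + 2 := by simp; omega
  refine ⟨by simpa only [A.s_zero] using sN h0 hj, ?_⟩
  have sab : Summable fun z : X × Y => A.bx (K + 3) z.1 * B.bx (K + 3) z.2 * |ν z - p z.1 * q z.2| := by
    refine ((sν.sub (summ_tens sp sq)).abs).congr fun z => ?_
    rw [show A.bx (K + 3) z.1 * B.bx (K + 3) z.2 * ν z - A.bx (K + 3) z.1 * p z.1 * (B.bx (K + 3) z.2 * q z.2)
      = A.bx (K + 3) z.1 * B.bx (K + 3) z.2 * (ν z - p z.1 * q z.2) by ring, abs_mul,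
      abs_of_nonneg (mul_nonneg (A.bx_nonneg _ _) (B.bx_nonneg _ _))]
  have key := orb_main (M := K + 2) (e := e)
    (P := fun i a => if |i| ≤ (K + 2 : ℤ) then A.bx 1 a * p (A.s i a) else 0)
    (Q := fun j b => if |j| ≤ (K + 2 : ℤ) then B.bx 1 b * q (B.s j b) else 0)
    (N := fun i j z => if Summable (fun z : X × Y => A.bx 1 z.1 * B.bx 1 z.2 * ν (z.1, B.s (j - i) z.2))
      then A.bx 1 z.1 * B.bx 1 z.2 * ν (z.1, B.s (j - i) z.2) else 0)
    (fun i => by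
      by_cases h : |i| ≤ (K + 2 : ℤ)
      · simpa only [if_pos h] using A.summ_P p0 sp (c h)
      · simpa only [if_neg h] using summable_zero)
    (fun i => by
      by_cases h : |i| ≤ (K + 2 : ℤ)
      · simpa only [if_pos h] using B.summ_P q0 sq (c h)
      · simpa only [if_neg h] using summable_zero)
    (fun i j => by
      by_cases h : Summable (fun z : X × Y => A.bx 1 z.1 * B.bx 1 z.2 * ν (z.1, B.s (j - i) z.2))
      · simpa only [if_pos h] using h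
      · simpa only [if_neg h] using summable_zero)
    (fun i a => by
      split_ifs
      · exact mul_nonneg (A.bx_nonneg _ _) (p0 _)
      · exact le_rfl)
    (fun i a => by
      split_ifs
      · exact mul_nonneg (B.bx_nonneg _ _) (q0 _)
      · exact le_rfl)
    (fun i j => by simp only [add_sub_add_right_eq_sub])
    (fun i j hi hj => by
      have s1 := sN hi hj
      simp only [hd] at s1
      simp only [if_pos hi, if_pos hj, if_pos s1]
      refine (n1_le (((A.s i).prodCongr (B.s j)).summable_iff.2 sab) fun z => ?_).trans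
        (le_of_eq_of_le (((A.s i).prodCongr (B.s j)).tsum_eq fun z : X × Y =>
          A.bx (K + 3) z.1 * B.bx (K + 3) z.2 * |ν z - p z.1 * q z.2|) cl)
      rw [← hd, show A.bx 1 z.1 * B.bx 1 z.2 * ν (A.s i z.1, B.s j z.2) -
        A.bx 1 z.1 * p (A.s i z.1) * (B.bx 1 z.2 * q (B.s j z.2)) = A.bx 1 z.1 * B.bx 1 z.2 *
          (ν (A.s i z.1, B.s j z.2) - p (A.s i z.1) * q (B.s j z.2)) by ring, abs_mul,
        abs_of_nonneg (mul_nonneg (A.bx_nonneg _ _) (B.bx_nonneg _ _))]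
      exact mul_le_mul_of_nonneg_right (mul_le_mul (A.bx_s (c hi) _) (B.bx_s (c hj) _)
        (B.bx_nonneg _ _) (A.bx_nonneg _ _)) (abs_nonneg _))
    (fun i => by
      by_cases h : |i| ≤ (K + 2 : ℤ)
      · simp only [abs_neg, if_pos h]; exact A.ev_P pe i
      · simp only [abs_neg, if_neg h])
    (fun i => by
      by_cases h : |i| ≤ (K + 2 : ℤ)
      · simp only [abs_neg, if_pos h]; exact B.ev_P qe i
      · simp only [abs_neg, if_neg h])
    (by omega) (π := A.pi0 p) (c := fun i a => tw (A.H a + i)) (fun _ _ => tw_nonneg _)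
    (fun _ _ => tw_le_one _)
    (fun a => by
      rw [if_pos h0, A.pi0_sub]
      refine sum_congr rfl fun i hi => ?_
      rw [mem_Icc] at hi
      rw [if_pos (by rw [abs_le]; omega)])
    (π' := B.pi0 q) (c' := fun i b => tw (B.H b + i)) (fun _ _ => tw_nonneg _) (fun _ _ => tw_le_one _)
    (fun a => by
      rw [if_pos h0, B.pi0_sub]
      refine sum_congr rfl fun i hi => ?_
      rw [mem_Icc] at hi
      rw [if_pos (by rw [abs_le]; omega)])
    (fun b => by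
      rw [abs_of_nonneg (B.pi0_nonneg q0 b), B.pi0_eq]
      refine sum_le_sum fun i hi => ?_
      rw [mem_Icc] at hi
      rw [if_pos (by rw [abs_le]; omega)]
      exact mul_le_of_le_one_left (mul_nonneg (B.bx_nonneg _ _) (q0 _)) (tw_le_one _)) hj
  have s1 := sN h0 hj
  simp only [hd] at s1
  simp only [if_pos s1] at key
  simpa only [sub_zero] using key

/-- unfolding the level of `b` -/
theorem unfold_b (A : Act X) (B : Act Y) {μ : X × Y → ℝ} (μ0 : ∀ z, 0 ≤ μ z)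
    (μ1 : Summable fun z : X × Y => tw (A.H z.1) * μ z) {Ψ : X × Y → ℝ} {C : ℝ} (hΨ : ∀ z, |Ψ z| ≤ C) :
    (∀ z : X × Y, Summable fun j : ℤ =>
      tw (A.H z.1) * tw (B.H z.2) * (μ (z.1, B.s j z.2) * Ψ (z.1, B.s j z.2))) ∧
    HasSum (fun z : X × Y => ∑' j : ℤ,
      tw (A.H z.1) * tw (B.H z.2) * (μ (z.1, B.s j z.2) * Ψ (z.1, B.s j z.2)))
      (∑' z : X × Y, tw (A.H z.1) * μ z * Ψ z) := by
  let E : (X × Y) × ℤ ≃ (X × Y) × ℤ :=
    { toFun := fun w => ((w.1.1, B.s w.2 w.1.2), w.2)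
      invFun := fun w => ((w.1.1, (B.s w.2).symm w.1.2), w.2)
      left_inv := fun w => by simp
      right_inv := fun w => by simp }
  have g0 : Summable fun w : (X × Y) × ℤ => tw (A.H w.1.1) * μ w.1 * tw (B.H w.1.2 - w.2) := by
    have n0 : ∀ w : (X × Y) × ℤ, 0 ≤ tw (A.H w.1.1) * μ w.1 * tw (B.H w.1.2 - w.2) := fun w =>
      mul_nonneg (mul_nonneg (tw_nonneg _) (μ0 _)) (tw_nonneg _)
    rw [summable_prod_of_nonneg n0]
    have n1 : ∀ z : X × Y, HasSum (fun j : ℤ => tw (A.H z.1) * μ z * tw (B.H z.2 - j))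
        (tw (A.H z.1) * μ z) := fun z => by
      simpa only [mul_one] using (hasSum_tw' (B.H z.2)).mul_left (tw (A.H z.1) * μ z)
    exact ⟨fun z => (n1 z).summable, μ1.congr fun z => (n1 z).tsum_eq.symm⟩
  have g1 : Summable fun w : (X × Y) × ℤ => tw (A.H w.1.1) * μ w.1 * tw (B.H w.1.2 - w.2) * Ψ w.1 :=
    summ_bdd (π := fun w : (X × Y) × ℤ => tw (A.H w.1.1) * μ w.1 * tw (B.H w.1.2 - w.2))
      (u := fun w => Ψ w.1) (U := C)
      (fun w => mul_nonneg (mul_nonneg (tw_nonneg _) (μ0 _)) (tw_nonneg _)) g0 fun w _ => hΨ _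
  have g2 : ∑' w : (X × Y) × ℤ, tw (A.H w.1.1) * μ w.1 * tw (B.H w.1.2 - w.2) * Ψ w.1 =
      ∑' z : X × Y, tw (A.H z.1) * μ z * Ψ z := by
    rw [g1.tsum_prod]
    refine tsum_congr fun z => ?_
    simp only [tsum_mul_right, tsum_mul_left, (hasSum_tw' _).tsum_eq, mul_one]
  have g3 : HasSum (fun w : (X × Y) × ℤ => tw (A.H w.1.1) * tw (B.H w.1.2) *
      (μ (w.1.1, B.s w.2 w.1.2) * Ψ (w.1.1, B.s w.2 w.1.2))) (∑' z : X × Y, tw (A.H z.1) * μ z * Ψ z) := by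
    rw [← g2]
    convert E.hasSum_iff.2 g1.hasSum using 1
    funext w
    simp only [Function.comp, E, Equiv.coe_fn_mk, B.H_s, add_sub_cancel_right]; ring
  exact ⟨fun z => g3.summable.prod_factor z,
    g3.prod_fiberwise fun z => (g3.summable.prod_factor z).hasSum⟩

theorem mub_nonneg (A : Act X) (B : Act Y) {μ : X × Y → ℝ} (μ0 : ∀ z, 0 ≤ μ z) (z : X × Y) :
    0 ≤ mub A B μ z := mul_nonneg (mul_nonneg (tw_nonneg _) (tw_nonneg _)) (tsum_nonneg fun _ => μ0 _)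

/-- expectations of functions invariant under the shifts of `b` -/
theorem hasSum_mub (A : Act X) (B : Act Y) {μ : X × Y → ℝ} (μ0 : ∀ z, 0 ≤ μ z)
    (μ1 : Summable fun z : X × Y => tw (A.H z.1) * μ z) {Φ : X → Y → ℝ} {C : ℝ} (hΦ : ∀ a b, |Φ a b| ≤ C)
    (hs : ∀ j a b, Φ a (B.s j b) = Φ a b) :
    HasSum (fun z => mub A B μ z * Φ z.1 z.2) (∑' z : X × Y, tw (A.H z.1) * μ z * Φ z.1 z.2) := by
  convert (unfold_b A B μ0 μ1 (Ψ := fun z => Φ z.1 z.2) fun z => hΦ _ _).2 using 1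
  funext z
  simp only [mub, hs, tsum_mul_left, tsum_mul_right]; ring

theorem br_mub (A : Act X) (B : Act Y) {μ : X × Y → ℝ} (μ0 : ∀ z, 0 ≤ μ z)
    (μ1 : Summable fun z : X × Y => tw (A.H z.1) * μ z) {Φ : X → Y → ℝ} {C : ℝ} (hΦ : ∀ a b, |Φ a b| ≤ C)
    (hs : ∀ j a b, Φ a (B.s j b) = Φ a b) :
    br (mub A B μ) Φ = ∑' z : X × Y, tw (A.H z.1) * μ z * Φ z.1 z.2 :=
  (hasSum_mub A B μ0 μ1 hΦ hs).tsum_eq

theorem hasSum_mub_one (A : Act X) (B : Act Y) {μ : X × Y → ℝ} (μ0 : ∀ z, 0 ≤ μ z)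
    (μ1 : HasSum (fun z : X × Y => tw (A.H z.1) * μ z) 1) : HasSum (mub A B μ) 1 := by
  have := hasSum_mub A B μ0 μ1.summable (Φ := fun _ _ => 1) (C := 1) (by simp) (by simp)
  simpa only [mul_one, μ1.tsum_eq] using this

theorem summ_thf {κ : ℝ} (hκ : 0 < κ) (u : ℝ) : Summable fun j : ℤ => Real.exp (-κ * (u - j) ^ 2 / 2) := by
  have h1 : ∀ v : ℝ, Summable fun n : ℕ => Real.exp (-κ * (v - n) ^ 2 / 2) := fun v => by
    refine Summable.of_nonneg_of_le (fun _ => (Real.exp_pos _).le) (fun n => ?_)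
      ((Real.summable_exp_nat_mul_iff.2 (by linarith : -κ < 0)).mul_left (Real.exp (κ * (v + 1 / 2))))
    rw [← Real.exp_add]
    exact Real.exp_le_exp.2 (by nlinarith [mul_nonneg hκ.le (sq_nonneg (v - n + 1))])
  refine Summable.of_nat_of_neg (by simpa using h1 u) ?_
  refine (h1 (-u)).congr fun n => ?_
  push_cast; congr 1; ring

set_option maxHeartbeats 1000000 in
open Classical in
/-- (K#), for a cross term bounded by `Y₀` -/
theorem ksharpY (A : Act X) (B : Act Y) {μ : X × Y → ℝ} {p : X → ℝ} {q : Y → ℝ} {y : X → Y → ℝ} {K : ℕ}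
    {κ e η₀ τ Y₀ E : ℝ} (e3 : Real.exp Y₀ ≤ E) (hκ : 0 < κ) (μ0 : ∀ z, 0 ≤ μ z) (μs : ∀ i a b, μ (A.s i a, B.s i b) = μ (a, b))
    (μ1 : HasSum (fun z : X × Y => tw (A.H z.1) * μ z) 1)
    (p0 : ∀ a, 0 ≤ p a) (q0 : ∀ b, 0 ≤ q b) (pe : ∀ a, p (A.ng a) = p a) (qe : ∀ b, q (B.ng b) = q b)
    (ya : ∀ i a b, y (A.s i a) b = y a b) (yb : ∀ i a b, y a (B.s i b) = y a b)
    (y1 : ∀ a b, A.T a → B.T b → |y a b| ≤ Y₀)
    (sp : Summable fun a => A.bx (K + 3) a * p a) (sq : Summable fun b => B.bx (K + 3) b * q b)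
    (sμ : Summable fun z : X × Y => A.bx (K + 3) z.1 * B.bx (K + 3) z.2 * μ z)
    (cl : ∑' z : X × Y, A.bx (K + 3) z.1 * B.bx (K + 3) z.2 *
      |μ z - p z.1 * q z.2 * Real.exp (-κ * (A.H z.1 - B.H z.2) ^ 2 / 2 + y z.1 z.2)| ≤ e)
    (bad : ∑' z : X × Y, tw (A.H z.1) * μ z *
      (if A.T z.1 ∧ B.T z.2 ∧ |A.H z.1 - B.H z.2| < K then 0 else 1) ≤ η₀)
    (tail : ∀ u : ℝ, |u| ≤ 2 →
      ∑' j : ℤ, (if j ∈ Icc (-(K + 1) : ℤ) (K + 1) then 0 else Real.exp (-κ * (u - j) ^ 2 / 2)) ≤ τ) :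
    let e' := E * (149 + 4 * K) * (Real.exp (κ * (2 * K + 6) ^ 2 / 2 + Y₀) * e)
    (∑' a, A.pib p a) * (∑' b, B.pib q b) ≤ Real.exp (2 * κ + Y₀) * (1 + e') ∧
    ∑' z : X × Y, |mub A B μ z - A.pib p z.1 * B.pib q z.2 *
      (thf κ (A.H z.1 - B.H z.2) * Real.exp (y z.1 z.2))| ≤
      (2 * K + 3) * e' + η₀ + E * τ * (Real.exp (2 * κ + Y₀) * (1 + e')) := by
  intro e'
  set k : X × Y → ℝ := fun z => Real.exp (-κ * (A.H z.1 - B.H z.2) ^ 2 / 2 + y z.1 z.2) with hk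
  set L := Real.exp (κ * (2 * K + 6) ^ 2 / 2 + Y₀) with hL
  have k0 : ∀ z, 0 < k z := fun z => Real.exp_pos _
  have E0 : 0 < E := (Real.exp_pos _).trans_le e3
  have kU : ∀ a b, A.T a → B.T b → k (a, b) ≤ E := fun a b ha hb =>
    (Real.exp_le_exp.2 (by
      have := (abs_le.1 (y1 a b ha hb)).2
      nlinarith [mul_nonneg hκ.le (sq_nonneg (A.H a - B.H b))])).trans e3
  have kL : ∀ z : X × Y, A.bx (K + 3) z.1 * B.bx (K + 3) z.2 ≠ 0 → (k z)⁻¹ ≤ L := fun z hz => by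
    have ha := A.bx_ne (left_ne_zero_of_mul hz)
    have hb := B.bx_ne (right_ne_zero_of_mul hz)
    rw [hk, ← Real.exp_neg]
    refine Real.exp_le_exp.2 ?_
    have h1 := (abs_le.1 (y1 _ _ ha.1 hb.1)).1
    have h2 : (A.H z.1 - B.H z.2) ^ 2 ≤ (2 * K + 6) ^ 2 :=
      sq_le_sq' (by linarith [abs_le.1 ha.2, abs_le.1 hb.2]) (by linarith [abs_le.1 ha.2, abs_le.1 hb.2])
    nlinarith [mul_le_mul_of_nonneg_left h2 hκ.le]
  have bb0 : ∀ (M : ℝ) (z : X × Y), 0 ≤ A.bx M z.1 * B.bx M z.2 := fun M z =>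
    mul_nonneg (A.bx_nonneg _ _) (B.bx_nonneg _ _)
  have sν : Summable fun z : X × Y => A.bx (K + 3) z.1 * B.bx (K + 3) z.2 * (μ z * (k z)⁻¹) := by
    simpa only [mul_assoc] using summ_bdd (fun z => mul_nonneg (bb0 _ z) (μ0 z)) sμ
      (u := fun z => (k z)⁻¹) (U := L) fun z hz => by
        rw [abs_of_pos (inv_pos.2 (k0 z))]; exact kL z (left_ne_zero_of_mul hz)
  have sab : Summable fun z : X × Y => A.bx (K + 3) z.1 * B.bx (K + 3) z.2 * |μ z - p z.1 * q z.2 * k z| := by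
    have s1 : Summable fun z : X × Y => A.bx (K + 3) z.1 * p z.1 * (B.bx (K + 3) z.2 * q z.2) * k z :=
      summ_bdd (π := fun z : X × Y => A.bx (K + 3) z.1 * p z.1 * (B.bx (K + 3) z.2 * q z.2)) (u := k) (U := E)
      (fun z : X × Y => mul_nonneg (mul_nonneg (A.bx_nonneg (K + 3) z.1) (p0 z.1))
      (mul_nonneg (B.bx_nonneg (K + 3) z.2) (q0 z.2))) (summ_tens sp sq) fun z hz => by
        rw [abs_of_pos (k0 z)]
        exact kU _ _ (A.bx_ne (left_ne_zero_of_mul (left_ne_zero_of_mul hz))).1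
          (B.bx_ne (left_ne_zero_of_mul (right_ne_zero_of_mul hz))).1
    refine ((sμ.sub s1).abs).congr fun z => ?_
    rw [← abs_of_nonneg (bb0 (K + 3) z), ← abs_mul, abs_of_nonneg (bb0 (K + 3) z)]
    congr 1; ring
  have clν : ∑' z : X × Y, A.bx (K + 3) z.1 * B.bx (K + 3) z.2 * |μ z * (k z)⁻¹ - p z.1 * q z.2| ≤ L * e := by
    have b : ∀ z : X × Y, A.bx (K + 3) z.1 * B.bx (K + 3) z.2 * |μ z * (k z)⁻¹ - p z.1 * q z.2| ≤
        L * (A.bx (K + 3) z.1 * B.bx (K + 3) z.2 * |μ z - p z.1 * q z.2 * k z|) := fun z => by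
      by_cases hz : A.bx (K + 3) z.1 * B.bx (K + 3) z.2 = 0
      · simp [hz]
      · rw [show μ z * (k z)⁻¹ - p z.1 * q z.2 = (k z)⁻¹ * (μ z - p z.1 * q z.2 * k z) by
          field_simp [(k0 z).ne'], abs_mul, abs_of_pos (inv_pos.2 (k0 z))]
        have := mul_le_mul_of_nonneg_right (kL z hz) (mul_nonneg (bb0 (K + 3) z)
          (abs_nonneg (μ z - p z.1 * q z.2 * k z)))
        linarith
    refine ((Summable.of_nonneg_of_le (fun z => mul_nonneg (bb0 _ z) (abs_nonneg _)) b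
      (sab.mul_left L)).tsum_le_tsum b (sab.mul_left L)).trans ?_
    rw [tsum_mul_left]
    exact mul_le_mul_of_nonneg_left cl (Real.exp_pos _).le
  have Le0 : 0 ≤ L * e := (tsum_nonneg fun z => mul_nonneg (bb0 _ z) (abs_nonneg _)).trans clν
  have K4 := fun j hj => k4 A B (ν := fun z => μ z * (k z)⁻¹) (K := K) (e := L * e)
    (fun z => mul_nonneg (μ0 z) (inv_pos.2 (k0 z)).le)
    (fun i a b => by simp only [hk, μs, A.H_s, B.H_s, ya, yb, add_sub_add_right_eq_sub])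
    p0 q0 pe qe sp sq sν clν (j := j) hj
  have sA := A.summ_pib p0 (M := K + 3) (by linarith [Nat.cast_nonneg (α := ℝ) K]) sp
  have sB := B.summ_pib q0 (M := K + 3) (by linarith [Nat.cast_nonneg (α := ℝ) K]) sq
  have sA0 : Summable (A.pi0 p) := by
    refine Summable.of_nonneg_of_le (A.pi0_nonneg p0) (fun a => ?_)
      (summable_sum (s := Icc (-2 : ℤ) 2) fun i hi => A.summ_P p0 sp (i := i) ?_)
    · rw [A.pi0_eq]
      exact sum_le_sum fun i _ => mul_le_of_le_one_left (mul_nonneg (A.bx_nonneg _ _) (p0 _)) (tw_le_one _)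
    · rw [mem_Icc] at hi
      have : |(i : ℝ)| ≤ 2 := by rw [abs_le]; exact_mod_cast hi
      linarith [Nat.cast_nonneg (α := ℝ) K]
  have sB0 : Summable (B.pi0 q) := by
    refine Summable.of_nonneg_of_le (B.pi0_nonneg q0) (fun a => ?_)
      (summable_sum (s := Icc (-2 : ℤ) 2) fun i hi => B.summ_P q0 sq (i := i) ?_)
    · rw [B.pi0_eq]
      exact sum_le_sum fun i _ => mul_le_of_le_one_left (mul_nonneg (B.bx_nonneg _ _) (q0 _)) (tw_le_one _)
    · rw [mem_Icc] at hi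
      have : |(i : ℝ)| ≤ 2 := by rw [abs_le]; exact_mod_cast hi
      linarith [Nat.cast_nonneg (α := ℝ) K]
  -- one level
  set D : ℤ → X × Y → ℝ := fun j z =>
    E * |A.bx 1 z.1 * B.bx 1 z.2 * (μ (z.1, B.s j z.2) * (k (z.1, B.s j z.2))⁻¹) - A.pi0 p z.1 * B.pi0 q z.2|
    with hD
  have sD : ∀ j ∈ Icc (-(K + 1) : ℤ) (K + 1), Summable (D j) ∧ ∑' z, D j z ≤ e' := fun j hj => by
    rw [mem_Icc] at hj
    obtain ⟨s1, s2⟩ := K4 j (by rw [abs_le]; omega)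
    refine ⟨(s1.sub (summ_tens sA0 sB0)).abs.mul_left E, ?_⟩
    rw [hD]; simp only [tsum_mul_left]
    have : |(j : ℝ)| ≤ K + 1 := by rw [abs_le]; exact_mod_cast hj
    have := mul_le_mul_of_nonneg_right (show 145 + 4 * |(j : ℝ)| ≤ 149 + 4 * K by linarith) Le0
    simp only [e']; rw [n1] at s2
    exact (mul_le_mul_of_nonneg_left (s2.trans this) E0.le).trans_eq (by ring)
  have lev : ∀ (j : ℤ) (z : X × Y), A.T z.1 → B.T z.2 →
      |tw (A.H z.1) * tw (B.H z.2) * μ (z.1, B.s j z.2) -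
        A.pib p z.1 * B.pib q z.2 * k (z.1, B.s j z.2)| ≤ D j z := fun j z ha hb => by
    by_cases hw : tw (A.H z.1) * tw (B.H z.2) = 0
    · have : A.pib p z.1 * B.pib q z.2 = 0 := by
        rw [Act.pib, Act.pib, mul_mul_mul_comm, hw, zero_mul]
      rw [hw, this]; simp only [zero_mul, sub_zero, abs_zero, hD]; positivity
    · simp only [hD]
      rw [A.bx_one ⟨ha, (lt_of_tw (left_ne_zero_of_mul hw)).le⟩,
        B.bx_one ⟨hb, (lt_of_tw (right_ne_zero_of_mul hw)).le⟩, one_mul, one_mul]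
      have kk := k0 (z.1, B.s j z.2)
      rw [show tw (A.H z.1) * tw (B.H z.2) * μ (z.1, B.s j z.2) -
        A.pib p z.1 * B.pib q z.2 * k (z.1, B.s j z.2) = tw (A.H z.1) * tw (B.H z.2) * k (z.1, B.s j z.2) *
          (μ (z.1, B.s j z.2) * (k (z.1, B.s j z.2))⁻¹ - A.pi0 p z.1 * B.pi0 q z.2) by
          rw [Act.pib, Act.pib]; field_simp, abs_mul]
      refine mul_le_mul_of_nonneg_right ?_ (abs_nonneg _)
      have w0 := mul_nonneg (tw_nonneg (A.H z.1)) (tw_nonneg (B.H z.2))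
      have w1 := mul_le_one₀ (tw_le_one (A.H z.1)) (tw_nonneg (B.H z.2)) (tw_le_one (B.H z.2))
      rw [abs_of_nonneg (mul_nonneg w0 kk.le)]
      exact (mul_le_of_le_one_left kk.le w1).trans (kU _ _ ha ((B.T_s j _).2 hb))
  have pp0 : ∀ z : X × Y, 0 ≤ A.pib p z.1 * B.pib q z.2 := fun z =>
    mul_nonneg (A.pib_nonneg p0 _) (B.pib_nonneg q0 _)
  have mass : (∑' a, A.pib p a) * (∑' b, B.pib q b) ≤ Real.exp (2 * κ + Y₀) * (1 + e') := by
    have i0 : (0 : ℤ) ∈ Icc (-(K + 1) : ℤ) (K + 1) := by rw [mem_Icc]; omega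
    rw [← tsum_prod_mul sA sB]
    have b : ∀ z : X × Y, A.pib p z.1 * B.pib q z.2 ≤
        Real.exp (2 * κ + Y₀) * (tw (A.H z.1) * μ z + D 0 z) := fun z => by
      have d0 : 0 ≤ D 0 z := by simp only [hD]; positivity
      have m0 := mul_nonneg (tw_nonneg (A.H z.1)) (μ0 z)
      by_cases hz : A.pib p z.1 * B.pib q z.2 = 0
      · rw [hz]; positivity
      · have ha := A.pib_ne (left_ne_zero_of_mul hz)
        have hb := B.pib_ne (right_ne_zero_of_mul hz)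
        have h1 := (abs_le.1 (lev 0 z ha.1 hb.1)).1
        rw [B.s_zero] at h1
        have h2 : tw (A.H z.1) * tw (B.H z.2) * μ (z.1, z.2) ≤ tw (A.H z.1) * μ z := by
          rw [mul_right_comm]; exact mul_le_of_le_one_right m0 (tw_le_one _)
        have h3 : 1 ≤ Real.exp (2 * κ + Y₀) * k (z.1, z.2) := by
          rw [hk, ← Real.exp_add]
          refine Real.one_le_exp ?_
          have a1 := (abs_le.1 (y1 _ _ ha.1 hb.1)).1
          have a2 : (A.H z.1 - B.H z.2) ^ 2 ≤ 2 ^ 2 :=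
            sq_le_sq' (by linarith [abs_le.1 ha.2, abs_le.1 hb.2]) (by linarith [abs_le.1 ha.2, abs_le.1 hb.2])
          nlinarith [mul_le_mul_of_nonneg_left a2 hκ.le]
        calc _ ≤ A.pib p z.1 * B.pib q z.2 * (Real.exp (2 * κ + Y₀) * k (z.1, z.2)) :=
              le_mul_of_one_le_right (pp0 z) h3
          _ = Real.exp (2 * κ + Y₀) * (A.pib p z.1 * B.pib q z.2 * k (z.1, z.2)) := by ring
          _ ≤ _ := mul_le_mul_of_nonneg_left (by linarith) (Real.exp_pos _).le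
    refine ((summ_tens sA sB).tsum_le_tsum b ((μ1.summable.add (sD 0 i0).1).mul_left _)).trans ?_
    rw [tsum_mul_left, μ1.summable.tsum_add (sD 0 i0).1, μ1.tsum_eq]
    exact mul_le_mul_of_nonneg_left (by linarith [(sD 0 i0).2]) (Real.exp_pos _).le
  refine ⟨mass, ?_⟩
  obtain ⟨u1, -⟩ := unfold_b A B μ0 μ1.summable (Ψ := fun _ => 1) (C := 1) (by simp)
  obtain ⟨u2, u3⟩ := unfold_b A B μ0 μ1.summable (C := 1)
    (Ψ := fun z => if A.T z.1 ∧ B.T z.2 ∧ |A.H z.1 - B.H z.2| < K then 0 else 1)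
    (fun z => by split_ifs <;> simp)
  simp only [mul_one] at u1
  have τ0 : 0 ≤ τ := (tsum_nonneg fun j => by split_ifs; exacts [le_rfl, (Real.exp_pos _).le]).trans
    (tail 0 (by simp))
  have s1 : HasSum (fun z => ∑ j ∈ Icc (-(K + 1) : ℤ) (K + 1), D j z)
      (∑ j ∈ Icc (-(K + 1) : ℤ) (K + 1), ∑' z, D j z) := hasSum_sum fun j hj => (sD j hj).1.hasSum
  have s := (s1.add u3).add ((summ_tens sA sB).hasSum.mul_left (E * τ))
  refine (n1_le s.summable fun z => ?_).trans ?_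
  · have sk : Summable fun j : ℤ => Real.exp (-κ * (A.H z.1 - B.H z.2 - j) ^ 2 / 2) := summ_thf hκ _
    have hkj : ∀ j : ℤ, k (z.1, B.s j z.2) =
        Real.exp (-κ * (A.H z.1 - B.H z.2 - j) ^ 2 / 2) * Real.exp (y z.1 z.2) := fun j => by
      simp only [hk, B.H_s, yb, ← Real.exp_add]; congr 1; ring
    have st : Summable fun j : ℤ => (if j ∈ Icc (-(K + 1) : ℤ) (K + 1) then 0 else
        Real.exp (-κ * (A.H z.1 - B.H z.2 - j) ^ 2 / 2)) :=
      Summable.of_nonneg_of_le (fun j => by split_ifs; exacts [le_rfl, (Real.exp_pos _).le])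
        (fun j => by split_ifs; exacts [(Real.exp_pos _).le, le_rfl]) sk
    have sm2 : Summable fun j : ℤ => A.pib p z.1 * B.pib q z.2 * k (z.1, B.s j z.2) := by
      simp only [hkj]; exact (sk.mul_right _).mul_left _
    have eq1 : mub A B μ z - A.pib p z.1 * B.pib q z.2 * (thf κ (A.H z.1 - B.H z.2) * Real.exp (y z.1 z.2)) =
        ∑' j : ℤ, (tw (A.H z.1) * tw (B.H z.2) * μ (z.1, B.s j z.2) -
          A.pib p z.1 * B.pib q z.2 * k (z.1, B.s j z.2)) := by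
      rw [(u1 z).tsum_sub sm2]
      simp only [hkj, mub, thf, tsum_mul_left, tsum_mul_right]
    have sf : HasSum (fun j : ℤ => if j ∈ Icc (-(K + 1) : ℤ) (K + 1) then D j z else 0)
        (∑ j ∈ Icc (-(K + 1) : ℤ) (K + 1), D j z) := by
      have := hasSum_sum_of_ne_finset_zero (L := SummationFilter.unconditional ℤ)
        (f := fun j : ℤ => if j ∈ Icc (-(K + 1) : ℤ) (K + 1) then D j z else 0)
        (s := Icc (-(K + 1) : ℤ) (K + 1)) fun j hj => if_neg hj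
      rwa [sum_congr rfl fun j hj => if_pos hj] at this
    have sj := (sf.add (u2 z).hasSum).add (st.hasSum.mul_left (E * (A.pib p z.1 * B.pib q z.2)))
    rw [eq1, ← Real.norm_eq_abs]
    refine (tsum_of_norm_bounded sj fun j => ?_).trans ?_
    · rw [Real.norm_eq_abs]
      have w0 := mul_nonneg (tw_nonneg (A.H z.1)) (tw_nonneg (B.H z.2))
      have m0 := μ0 (z.1, B.s j z.2)
      have wm := mul_nonneg w0 m0
      have d0 : 0 ≤ D j z := by simp only [hD]; positivity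
      have x0 := (Real.exp_pos (-κ * (A.H z.1 - B.H z.2 - j) ^ 2 / 2)).le
      have pz := pp0 z
      by_cases hT : A.T z.1 ∧ B.T z.2
      · by_cases hj : j ∈ Icc (-(K + 1) : ℤ) (K + 1)
        · have := lev j z hT.1 hT.2
          rw [if_pos hj, if_pos hj, mul_zero, add_zero]
          refine this.trans (le_add_of_nonneg_right (mul_nonneg w0 (mul_nonneg m0 ?_)))
          split_ifs <;> norm_num
        · rw [if_neg hj, if_neg hj, zero_add]
          have b1 : tw (A.H z.1) * tw (B.H z.2) * μ (z.1, B.s j z.2) = tw (A.H z.1) * tw (B.H z.2) *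
              (μ (z.1, B.s j z.2) * if A.T z.1 ∧ B.T (B.s j z.2) ∧ |A.H z.1 - B.H (B.s j z.2)| < K
                then 0 else 1) := by
            by_cases hw : tw (A.H z.1) * tw (B.H z.2) = 0
            · rw [hw, zero_mul, zero_mul]
            · have a1 := abs_lt.1 (lt_of_tw (left_ne_zero_of_mul hw))
              have a2 := abs_lt.1 (lt_of_tw (right_ne_zero_of_mul hw))
              rw [if_neg, mul_one]
              rintro ⟨-, -, h⟩
              rw [B.H_s, abs_lt] at h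
              rw [mem_Icc] at hj
              rcases (by omega : (K + 2 : ℤ) ≤ j ∨ j ≤ -(K + 2 : ℤ)) with h' | h'
              · have : (K + 2 : ℝ) ≤ j := by exact_mod_cast h'
                linarith [h.1]
              · have : (j : ℝ) ≤ -(K + 2 : ℝ) := by exact_mod_cast h'
                linarith [h.2]
          have b2 : A.pib p z.1 * B.pib q z.2 * k (z.1, B.s j z.2) ≤ E * (A.pib p z.1 * B.pib q z.2) *
              Real.exp (-κ * (A.H z.1 - B.H z.2 - j) ^ 2 / 2) := by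
            have : Real.exp (y z.1 z.2) ≤ E :=
              (Real.exp_le_exp.2 (abs_le.1 (y1 _ _ hT.1 hT.2)).2).trans e3
            rw [hkj]; nlinarith [mul_le_mul_of_nonneg_left this (mul_nonneg pz x0)]
          have b3 := mul_nonneg pz (k0 (z.1, B.s j z.2)).le
          rw [← b1, abs_le]; constructor <;> linarith
      · have hz : A.pib p z.1 * B.pib q z.2 = 0 := by
          by_contra hz
          exact hT ⟨(A.pib_ne (left_ne_zero_of_mul hz)).1, (B.pib_ne (right_ne_zero_of_mul hz)).1⟩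
        rw [hz, if_neg (fun h : A.T z.1 ∧ B.T (B.s j z.2) ∧ _ => hT ⟨h.1, (B.T_s j _).1 h.2.1⟩)]
        simp only [zero_mul, sub_zero, mul_zero, add_zero, mul_one]
        rw [abs_of_nonneg wm]
        refine le_add_of_nonneg_left ?_
        split_ifs; exacts [d0, le_rfl]
    · refine add_le_add_right ?_ _
      by_cases hz : A.pib p z.1 * B.pib q z.2 = 0
      · rw [hz]; simp
      · have ha := A.pib_ne (left_ne_zero_of_mul hz)
        have hb := B.pib_ne (right_ne_zero_of_mul hz)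
        have := tail (A.H z.1 - B.H z.2) ((abs_sub _ _).trans (by linarith [ha.2, hb.2]))
        nlinarith [mul_le_mul_of_nonneg_left this (mul_nonneg E0.le (pp0 z))]
  · rw [s.tsum_eq, tsum_prod_mul sA sB]
    have b1 : ∑ j ∈ Icc (-(K + 1) : ℤ) (K + 1), ∑' z, D j z ≤ (2 * K + 3) * e' := by
      refine (sum_le_sum fun j hj => (sD j hj).2).trans (le_of_eq ?_)
      rw [sum_const, Int.card_Icc, nsmul_eq_mul, show (K + 1 + 1 - -(K + 1) : ℤ).toNat = 2 * K + 3 by omega]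
      push_cast; ring
    have b2 := mul_le_mul_of_nonneg_left mass (by positivity : 0 ≤ E * τ)
    linarith

open Classical in
/-- (K#) -/
theorem ksharp (A : Act X) (B : Act Y) {μ : X × Y → ℝ} {p : X → ℝ} {q : Y → ℝ} {y : X → Y → ℝ} {K : ℕ}
    {κ e η₀ τ : ℝ} (hκ : 0 < κ) (μ0 : ∀ z, 0 ≤ μ z) (μs : ∀ i a b, μ (A.s i a, B.s i b) = μ (a, b))
    (μ1 : HasSum (fun z : X × Y => tw (A.H z.1) * μ z) 1)
    (p0 : ∀ a, 0 ≤ p a) (q0 : ∀ b, 0 ≤ q b) (pe : ∀ a, p (A.ng a) = p a) (qe : ∀ b, q (B.ng b) = q b)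
    (ya : ∀ i a b, y (A.s i a) b = y a b) (yb : ∀ i a b, y a (B.s i b) = y a b)
    (y1 : ∀ a b, A.T a → B.T b → |y a b| ≤ 1)
    (sp : Summable fun a => A.bx (K + 3) a * p a) (sq : Summable fun b => B.bx (K + 3) b * q b)
    (sμ : Summable fun z : X × Y => A.bx (K + 3) z.1 * B.bx (K + 3) z.2 * μ z)
    (cl : ∑' z : X × Y, A.bx (K + 3) z.1 * B.bx (K + 3) z.2 *
      |μ z - p z.1 * q z.2 * Real.exp (-κ * (A.H z.1 - B.H z.2) ^ 2 / 2 + y z.1 z.2)| ≤ e)
    (bad : ∑' z : X × Y, tw (A.H z.1) * μ z *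
      (if A.T z.1 ∧ B.T z.2 ∧ |A.H z.1 - B.H z.2| < K then 0 else 1) ≤ η₀)
    (tail : ∀ u : ℝ, |u| ≤ 2 →
      ∑' j : ℤ, (if j ∈ Icc (-(K + 1) : ℤ) (K + 1) then 0 else Real.exp (-κ * (u - j) ^ 2 / 2)) ≤ τ) :
    let e' := 3 * (149 + 4 * K) * (Real.exp (κ * (2 * K + 6) ^ 2 / 2 + 1) * e)
    (∑' a, A.pib p a) * (∑' b, B.pib q b) ≤ Real.exp (2 * κ + 1) * (1 + e') ∧
    ∑' z : X × Y, |mub A B μ z - A.pib p z.1 * B.pib q z.2 *
      (thf κ (A.H z.1 - B.H z.2) * Real.exp (y z.1 z.2))| ≤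
      (2 * K + 3) * e' + η₀ + 3 * τ * (Real.exp (2 * κ + 1) * (1 + e')) :=
  ksharpY A B Real.exp_one_lt_three.le hκ μ0 μs μ1 p0 q0 pe qe ya yb y1 sp sq sμ cl bad tail

end Crest.Agent.T145.KrA
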