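import Crest.Agent.T145.PotL_17
import Crest.Agent.T145.PotE_17

/-!
# Row 145: differences of sampled smooth functions, discrete Leibniz rule, smooth cut-offs (helper17)
-/

set_option autoImplicit false

namespace Crest.Agent.T145.Pot

open Finset

/-! ## differences of smooth functions -/
section smooth
variable {E : Type*} [NormedAddCommGroup E] [NormedSpace ℝ E]

theorem difs_cons' (y : Pt) (ys : List Pt) (u : Pt → ℝ) : difs (y :: ys) u = difs ys (dif y u) := by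
  induction ys with
  | nil => rfl
  | cons y' ys ih => rw [difs, difs, dif_comm, ← difs, ← difs, difs, ih, difs]

theorem difs_shift (ys : List Pt) (u : Pt → ℝ) (a z : Pt) :
    difs ys (fun w => u (w + a)) z = difs ys u (z + a) := by
  induction ys generalizing z with
  | nil => rfl
  | cons y ys ih => simp only [difs, dif, ih, add_right_comm]

theorem difs_smul (ys : List Pt) (c : ℝ) (u : Pt → ℝ) : difs ys (c • u) = c • difs ys u := by
  induction ys with
  | nil => rfl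
  | cons y ys ih => funext z; simp only [difs, ih, dif, Pi.smul_apply, smul_eq_mul]; ring

theorem difs_const (y : Pt) (ys : List Pt) (c : ℝ) (z : Pt) : difs (y :: ys) (fun _ => c) z = 0 := by
  rw [difs_cons', show dif y (fun _ => c) = (0 : ℝ) • fun _ => c by funext w; simp [dif], difs_smul]
  simp

theorem hasDerivAt_difs (L : Pt →+ E) (v : E) (F : E → ℝ) {h : ℝ} (t : ℝ) : ∀ (ys : List Pt) (c : E)
    (z : Pt), (∀ y ∈ ys, ‖L y‖ ≤ h) →
    (∀ q, ‖q - (c + t • v + L z)‖ ≤ ys.length * h → DifferentiableAt ℝ F q) →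
    HasDerivAt (fun s : ℝ => difs ys (fun w => F (c + s • v + L w)) z)
      (difs ys (fun w => fderiv ℝ F (c + t • v + L w) v) z) t := by
  intro ys
  induction ys with
  | nil =>
    intro c z _ hF
    have h1 : HasDerivAt (fun s : ℝ => c + s • v + L z) v t := by
      simpa using (((hasDerivAt_id t).smul_const v).const_add c).add_const (L z)
    exact (hF _ (by simp)).hasFDerivAt.comp_hasDerivAt t h1
  | cons y ys ih =>
    intro c z hy hF
    have hy0 := hy y List.mem_cons_self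
    have hh : 0 ≤ h := (norm_nonneg _).trans hy0
    have hys : ∀ y ∈ ys, ‖L y‖ ≤ h := fun y' h' => hy y' (List.mem_cons_of_mem _ h')
    refine (ih c (z + y) hys fun q hq => hF q ?_).sub (ih c z hys fun q hq => hF q ?_)
    · have : q - (c + t • v + L z) = q - (c + t • v + L (z + y)) + L y := by
        rw [map_add]; abel
      rw [this, List.length_cons]; push_cast
      linarith [norm_add_le (q - (c + t • v + L (z + y))) (L y)]
    · rw [List.length_cons]; push_cast; linarith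

/-- `k`-th differences of a sampled `C^k` function -/
theorem abs_difs_le (L : Pt →+ E) {h : ℝ} : ∀ (ys : List Pt) (F : E → ℝ) (c : E) (z : Pt) (K : ℝ),
    (∀ y ∈ ys, ‖L y‖ ≤ h) →
    (∀ q, ‖q - (c + L z)‖ ≤ ys.length * h →
      ContDiffAt ℝ ys.length F q ∧ ‖iteratedFDeriv ℝ ys.length F q‖ ≤ K) →
    |difs ys (fun w => F (c + L w)) z| ≤ K * h ^ ys.length := by
  intro ys
  induction ys with
  | nil =>
    intro F c z K _ hF
    simpa [difs] using (hF (c + L z) (by simp)).2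
  | cons y ys ih =>
    intro F c z K hy hF
    have hy0 := hy y List.mem_cons_self
    have hh : 0 ≤ h := (norm_nonneg _).trans hy0
    have hys : ∀ y ∈ ys, ‖L y‖ ≤ h := fun y' h' => hy y' (List.mem_cons_of_mem _ h')
    rw [List.length_cons] at hF ⊢
    have hball : ∀ t ∈ Set.Icc (0 : ℝ) 1, ∀ q, ‖q - (c + t • L y + L z)‖ ≤ ys.length * h →
        ‖q - (c + L z)‖ ≤ ((ys.length + 1 : ℕ) : ℝ) * h := fun t ht q hq => by
      have : q - (c + L z) = q - (c + t • L y + L z) + t • L y := by abel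
      rw [this]; push_cast
      have h1 : ‖t • L y‖ ≤ h := by
        rw [norm_smul, Real.norm_of_nonneg ht.1]; nlinarith [ht.1, ht.2, norm_nonneg (L y)]
      linarith [norm_add_le (q - (c + t • L y + L z)) (t • L y)]
    have h1 := norm_image_sub_le_of_norm_deriv_le_segment_01'
      (f := fun s : ℝ => difs ys (fun w => F (c + s • L y + L w)) z)
      (f' := fun t => difs ys (fun w => fderiv ℝ F (c + t • L y + L w) (L y)) z)
      (C := K * h * h ^ ys.length)
      (fun t ht => (hasDerivAt_difs L (L y) F t ys c z hys fun q hq =>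
        (hF q (hball t ht q hq)).1.differentiableAt (by simp)).hasDerivWithinAt)
      fun t ht => ih (fun q => fderiv ℝ F q (L y)) (c + t • L y) z (K * h) hys fun q hq => by
        obtain ⟨h2, h3⟩ := hF q (hball t ⟨ht.1, ht.2.le⟩ q hq)
        have h4 : ContDiffAt ℝ ys.length (fderiv ℝ F) q := h2.fderiv_right (by simp)
        refine ⟨h4.clm_apply contDiffAt_const, ?_⟩
        refine (norm_iteratedFDeriv_clm_apply_const h4 le_rfl).trans ?_
        rw [norm_iteratedFDeriv_fderiv, mul_comm]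
        exact mul_le_mul h3 hy0 (norm_nonneg _) ((norm_nonneg _).trans h3)
    simp only [one_smul, zero_smul, add_zero, Real.norm_eq_abs] at h1
    have h5 : difs ys (fun w => F (c + L y + L w)) z = difs ys (fun w => F (c + L w)) (z + y) := by
      rw [← difs_shift]; congr 1; funext w; rw [map_add]; congr 1; abel
    rw [h5] at h1
    rw [pow_succ, mul_comm (h ^ _), ← mul_assoc]
    exact h1

end smooth

/-- all differences of order `j ≤ k` are `≤ C / ℓ ^ j` on `S` -/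
def Sm (k : ℕ) (S : Set Pt) (C ℓ : ℝ) (u : Pt → ℝ) : Prop :=
  ∀ ys : List Pt, ys.length ≤ k → (∀ y ∈ ys, y ∈ nn) → ∀ z ∈ S, |difs ys u z| ≤ C / ℓ ^ ys.length

theorem add_nn_mem_bl {y : Pt} (hy : y ∈ nn) (z : Pt) : z + y ∈ bl z 1 := by
  have := Lat.le_rg (Λ := nL) hy
  rw [nL_rg] at this
  exact mem_bl_abs.2 (by simpa using this)

namespace Sm
variable {k : ℕ} {S S' : Set Pt} {C C' ℓ : ℝ} {u v : Pt → ℝ}

theorem zero (h : Sm k S C ℓ u) {z : Pt} (hz : z ∈ S) : |u z| ≤ C := by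
  simpa [difs] using h [] (Nat.zero_le _) (by simp) z hz

theorem one (h : Sm k S C ℓ u) (hk : 1 ≤ k) {y z : Pt} (hy : y ∈ nn) (hz : z ∈ S) :
    |dif y u z| ≤ C / ℓ := by
  simpa [difs] using h [y] hk (by simpa using hy) z hz

theorem two (h : Sm k S C ℓ u) (hk : 2 ≤ k) {y y' z : Pt} (hy : y ∈ nn) (hy' : y' ∈ nn)
    (hz : z ∈ S) : |dif y (dif y' u) z| ≤ C / ℓ ^ 2 := by
  simpa [difs] using h [y, y'] hk (by simp [hy, hy']) z hz

theorem mono (h : Sm k S C ℓ u) {k' : ℕ} (hk : k' ≤ k) (hS : S' ⊆ S) (hC : C ≤ C') (hℓ : 0 < ℓ) :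
    Sm k' S' C' ℓ u := fun ys h1 h2 z hz =>
  (h ys (h1.trans hk) h2 z (hS hz)).trans (by gcongr)

theorem scale (h : Sm k S C ℓ u) {ℓ' : ℝ} (h0 : 0 < ℓ') (hℓ : ℓ' ≤ ℓ) : Sm k S C ℓ' u :=
  fun ys h1 h2 z hz => (h ys h1 h2 z hz).trans (by
    have := (abs_nonneg _).trans (h.zero hz); gcongr)

theorem scale' (h : Sm k S C ℓ u) {m : ℝ} (h0 : 0 < ℓ) (hm : 1 ≤ m) :
    Sm k S (C * m ^ k) (m * ℓ) u := fun ys h1 h2 z hz => (h ys h1 h2 z hz).trans (by
  have := (abs_nonneg _).trans (h.zero hz)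
  rw [mul_pow, div_le_div_iff₀ (by positivity) (by positivity), mul_assoc]
  gcongr)

theorem add (h : Sm k S C ℓ u) (h' : Sm k S C' ℓ v) : Sm k S (C + C') ℓ (u + v) :=
  fun ys h1 h2 z hz => by
    rw [difs_add, add_div]; exact (abs_add_le _ _).trans (add_le_add (h ys h1 h2 z hz) (h' ys h1 h2 z hz))

theorem sub (h : Sm k S C ℓ u) (h' : Sm k S C' ℓ v) : Sm k S (C + C') ℓ (u - v) :=
  fun ys h1 h2 z hz => by
    rw [difs_sub, add_div]; exact (abs_sub _ _).trans (add_le_add (h ys h1 h2 z hz) (h' ys h1 h2 z hz))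

theorem smul (h : Sm k S C ℓ u) (c : ℝ) : Sm k S (|c| * C) ℓ (c • u) := fun ys h1 h2 z hz => by
  rw [difs_smul, Pi.smul_apply, smul_eq_mul, abs_mul, mul_div_assoc]
  exact mul_le_mul_of_nonneg_left (h ys h1 h2 z hz) (abs_nonneg _)

theorem const (k : ℕ) (S : Set Pt) (hℓ : 0 < ℓ) (c : ℝ) : Sm k S |c| ℓ fun _ => c :=
  fun ys _ _ z _ => by
    cases ys with
    | nil => simp [difs]
    | cons y ys => rw [difs_const, abs_zero]; positivity

theorem shift (h : Sm k S C ℓ u) (a : Pt) (hS : ∀ z ∈ S', z + a ∈ S) :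
    Sm k S' C ℓ fun w => u (w + a) := fun ys h1 h2 z hz => by
  rw [difs_shift]; exact h ys h1 h2 _ (hS z hz)

theorem dif' (h : Sm (k + 1) S C ℓ u) {y : Pt} (hy : y ∈ nn) : Sm k S (C / ℓ) ℓ (dif y u) :=
  fun ys h1 h2 z hz => by
    rw [← difs_cons', div_div, ← pow_succ']
    exact h (y :: ys) (by simpa using h1) (by simpa [hy] using h2) z hz

theorem congr (h : Sm k S C ℓ u) (huv : ∀ z ∈ S, ∀ w ∈ bl z k, v w = u w) : Sm k S C ℓ v := by
  have key : ∀ (ys : List Pt) (z : Pt), (∀ y ∈ ys, y ∈ nn) → (∀ w ∈ bl z ys.length, v w = u w) →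
      difs ys v z = difs ys u z := by
    intro ys
    induction ys with
    | nil => intro z _ h2; exact h2 z (self_mem_bl _ _)
    | cons y ys ih =>
      intro z h1 h2
      have hys : ∀ y ∈ ys, y ∈ nn := fun y' h' => h1 y' (List.mem_cons_of_mem _ h')
      simp only [difs, dif]
      rw [ih z hys fun w hw => h2 w (bl_mono z (by simp) hw), ih (z + y) hys fun w hw =>
        h2 w (bl_subset_bl (add_nn_mem_bl (h1 y List.mem_cons_self) z) (by simp) hw)]
  intro ys h1 h2 z hz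
  rw [key ys z h2 fun w hw => huv z hz w (bl_mono z h1 hw)]
  exact h ys h1 h2 z hz

theorem lap' (h : Sm (k + 2) S' C ℓ u) (hS : ∀ z ∈ S, ∀ w ∈ bl z 1, w ∈ S') :
    Sm k S (2 * (C / ℓ ^ 2)) ℓ (lap u) := by
  have h1 : lap u = (fun w => dif (1, 0) (dif (1, 0) u) (w + (-1, 0))) +
      fun w => dif (0, 1) (dif (0, 1) u) (w + (0, -1)) := by
    funext ⟨a, b⟩
    simp only [lap_apply, dif, Pi.add_apply, Prod.mk_add_mk, add_zero, neg_add_cancel_right,
      ← sub_eq_add_neg]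
    ring_nf
  have h2 : ∀ y ∈ nn, Sm k S' (C / ℓ ^ 2) ℓ (dif y (dif y u)) := fun y hy => by
    have := (h.dif' hy).dif' hy
    rwa [div_div, ← pow_two] at this
  rw [h1, two_mul]
  exact ((h2 _ (by decide)).shift _ fun z hz => hS z hz _ (add_nn_mem_bl (by decide) z)).add
    ((h2 _ (by decide)).shift _ fun z hz => hS z hz _ (add_nn_mem_bl (by decide) z))

theorem abs_lap (h : Sm 2 S' C ℓ u) {z : Pt} (hS : ∀ w ∈ bl z 1, w ∈ S') :
    |lap u z| ≤ 2 * (C / ℓ ^ 2) :=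
  (h.lap' (k := 0) (S := {z}) fun _ hz => hz ▸ hS).zero rfl

/-- discrete Leibniz rule -/
theorem mul_aux (hℓ : 0 < ℓ) : ∀ (ys : List Pt) (z : Pt) (u v : Pt → ℝ) (C C' : ℝ),
    (∀ y ∈ ys, y ∈ nn) → Sm ys.length (bl z ys.length) C ℓ u → Sm ys.length (bl z ys.length) C' ℓ v →
    |difs ys (fun w => u w * v w) z| ≤ 2 ^ ys.length * C * C' / ℓ ^ ys.length := by
  intro ys
  induction ys with
  | nil =>
    intro z u v C C' _ hu hv
    have h1 := hu.zero (z := z) (self_mem_bl _ _)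
    simpa [difs, abs_mul] using mul_le_mul h1 (hv.zero (self_mem_bl _ _)) (abs_nonneg _)
      ((abs_nonneg _).trans h1)
  | cons y ys ih =>
    intro z u v C C' h1 hu hv
    have hy := h1 y List.mem_cons_self
    have hys : ∀ y ∈ ys, y ∈ nn := fun y' h' => h1 y' (List.mem_cons_of_mem _ h')
    rw [List.length_cons] at hu hv ⊢
    have hsub : (bl z ys.length : Set Pt) ⊆ bl z (ys.length + 1) :=
      coe_subset.2 (bl_mono z (Nat.le_succ _))
    have h2 : dif y (fun w => u w * v w) =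
        (fun w => dif y u w * v (w + y)) + fun w => u w * dif y v w := by
      funext w; simp only [dif, Pi.add_apply]; ring
    have h3 := ih z (dif y u) (fun w => v (w + y)) _ _ hys ((hu.dif' hy).mono le_rfl hsub le_rfl hℓ)
      ((hv.mono (Nat.le_succ _) Set.Subset.rfl le_rfl hℓ).shift y fun w hw =>
        bl_subset_bl (d := ys.length) (r := 1) hw (by omega) (add_nn_mem_bl hy w))
    have h4 := ih z u (dif y v) _ _ hys (hu.mono (Nat.le_succ _) hsub le_rfl hℓ)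
      ((hv.dif' hy).mono le_rfl hsub le_rfl hℓ)
    rw [difs_cons', h2, difs_add]
    refine (abs_add_le _ _).trans ((add_le_add h3 h4).trans (le_of_eq ?_))
    field_simp
    ring

theorem mul (hℓ : 0 < ℓ) (h : Sm k S' C ℓ u) (h' : Sm k S' C' ℓ v)
    (hS : ∀ z ∈ S, ∀ w ∈ bl z k, w ∈ S') : Sm k S (2 ^ k * C * C') ℓ fun w => u w * v w :=
  fun ys h1 h2 z hz => by
    have hs : (bl z ys.length : Set Pt) ⊆ S' := fun w hw => hS z hz w (bl_mono z h1 hw)
    have hz' := hS z hz z (self_mem_bl _ _)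
    have := (abs_nonneg _).trans (h.zero hz')
    have := (abs_nonneg _).trans (h'.zero hz')
    refine (mul_aux hℓ ys z u v C C' h2 (h.mono h1 hs le_rfl hℓ) (h'.mono h1 hs le_rfl hℓ)).trans ?_
    gcongr
    exact one_le_two

theorem mul_univ (hℓ : 0 < ℓ) (h : Sm k Set.univ C ℓ u) (h' : Sm k Set.univ C' ℓ v) :
    Sm k Set.univ (2 ^ k * C * C') ℓ fun w => u w * v w := h.mul hℓ h' fun _ _ _ _ => trivial

end Sm

/-- a sampled smooth function is in `Sm` -/
theorem sm_of_contDiff {E : Type*} [NormedAddCommGroup E] [NormedSpace ℝ E] (L : Pt →+ E) {ℓ : ℝ}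
    (hℓ : 0 < ℓ) (hL : ∀ y ∈ nn, ‖L y‖ ≤ ℓ⁻¹) {k : ℕ} {F : E → ℝ} (c : E) {S : Set Pt} {K : ℝ}
    (hF : ∀ z ∈ S, ∀ q, ‖q - (c + L z)‖ ≤ k * ℓ⁻¹ →
      ContDiffAt ℝ k F q ∧ ∀ j ≤ k, ‖iteratedFDeriv ℝ j F q‖ ≤ K) :
    Sm k S K ℓ fun w => F (c + L w) := fun ys h1 h2 z hz => by
  rw [div_eq_mul_inv, ← inv_pow]
  refine abs_difs_le L ys F c z K (fun y hy => hL y (h2 y hy)) fun q hq => ?_
  obtain ⟨h3, h4⟩ := hF z hz q (hq.trans (by gcongr))
  exact ⟨h3.of_le (by exact_mod_cast h1), h4 _ h1⟩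

/-- the rescaling `z ↦ z / ℓ` -/
noncomputable def rs (ℓ : ℝ) : Pt →+ ℝ × ℝ where
  toFun z := ((z.1 : ℝ) / ℓ, (z.2 : ℝ) / ℓ)
  map_zero' := by simp
  map_add' z w := by simp [add_div]

theorem rs_apply (ℓ : ℝ) (z : Pt) : rs ℓ z = ((z.1 : ℝ) / ℓ, (z.2 : ℝ) / ℓ) := rfl

theorem abs_nn_le {y : Pt} (hy : y ∈ nn) : |(y.1 : ℝ)| ≤ 1 ∧ |(y.2 : ℝ)| ≤ 1 :=
  ⟨(abs_fst_le_eu y).trans (eu_nn hy).le, (abs_snd_le_eu y).trans (eu_nn hy).le⟩

theorem norm_rs_nn {ℓ : ℝ} (hℓ : 0 < ℓ) {y : Pt} (hy : y ∈ nn) : ‖rs ℓ y‖ ≤ ℓ⁻¹ := by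
  rw [rs_apply, Prod.norm_def, max_le_iff, Real.norm_eq_abs, Real.norm_eq_abs, abs_div, abs_div,
    abs_of_pos hℓ, ← one_div]
  exact ⟨by gcongr; exact (abs_nn_le hy).1, by gcongr; exact (abs_nn_le hy).2⟩

theorem exists_bound_smoothTransition (k : ℕ) :
    ∃ K : ℝ, ∀ j ≤ k, ∀ t, ‖iteratedFDeriv ℝ j Real.smoothTransition t‖ ≤ K := by
  have key : ∀ j : ℕ, ∃ K : ℝ, ∀ t, ‖iteratedFDeriv ℝ j Real.smoothTransition t‖ ≤ K := fun j => by
    obtain ⟨K, hK⟩ := (isCompact_Icc (a := (0 : ℝ)) (b := 1)).exists_bound_of_continuousOn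
      ((Real.smoothTransition.contDiff (n := j)).continuous_iteratedFDeriv le_rfl).continuousOn
    have h1 : ∀ (c t : ℝ), |c| ≤ 1 → Real.smoothTransition =ᶠ[nhds t] (fun _ => c) →
        ‖iteratedFDeriv ℝ j Real.smoothTransition t‖ ≤ 1 := fun c t hc h => by
      rw [(h.iteratedFDeriv ℝ j).eq_of_nhds]
      rcases Nat.eq_zero_or_pos j with rfl | hj
      · simpa using hc
      · rw [iteratedFDeriv_const_of_ne hj.ne']; simp
    refine ⟨max K 1, fun t => ?_⟩
    rcases lt_or_ge t 0 with h | h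
    · exact (h1 0 t (by simp) ((gt_mem_nhds h).mono fun s hs =>
        Real.smoothTransition.zero_of_nonpos hs.le)).trans (le_max_right _ _)
    rcases le_or_gt t 1 with h' | h'
    · exact (hK t ⟨h, h'⟩).trans (le_max_left _ _)
    · exact (h1 1 t (by simp) ((lt_mem_nhds h').mono fun s hs =>
        Real.smoothTransition.one_of_one_le hs.le)).trans (le_max_right _ _)
  choose K hK using key
  exact ⟨∑ j ∈ range (k + 1), K j, fun j hj t => (hK j t).trans <|
    single_le_sum (f := K) (fun i _ => (norm_nonneg _).trans (hK i 0)) (mem_range.2 (by omega))⟩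

/-! ## cut-offs -/

/-- one dimensional cut-off: `1` on `[-a, a]`, `0` off `(-b, b)` -/
noncomputable def cut1 (a b t : ℝ) : ℝ :=
  Real.smoothTransition ((b - t) / (b - a)) * Real.smoothTransition ((b + t) / (b - a))

/-- square cut-off centred at `c`: `1` for `|z - c|_∞ ≤ a`, `0` for `|z - c|_∞ ≥ b` -/
noncomputable def cut (c : Pt) (a b : ℝ) (z : Pt) : ℝ :=
  cut1 a b ((z.1 : ℝ) - c.1) * cut1 a b ((z.2 : ℝ) - c.2)

theorem cut1_nonneg (a b t : ℝ) : 0 ≤ cut1 a b t :=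
  mul_nonneg (Real.smoothTransition.nonneg _) (Real.smoothTransition.nonneg _)
theorem cut1_le_one (a b t : ℝ) : cut1 a b t ≤ 1 :=
  mul_le_one₀ (Real.smoothTransition.le_one _) (Real.smoothTransition.nonneg _)
    (Real.smoothTransition.le_one _)
theorem cut1_neg (a b t : ℝ) : cut1 a b (-t) = cut1 a b t := by
  simp only [cut1, sub_neg_eq_add, ← sub_eq_add_neg, mul_comm]
theorem cut1_one {a b t : ℝ} (hab : a < b) (ht : |t| ≤ a) : cut1 a b t = 1 := by
  have := abs_le.1 ht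
  rw [cut1, Real.smoothTransition.one_of_one_le, Real.smoothTransition.one_of_one_le, one_mul] <;>
    rw [one_le_div (by linarith)] <;> linarith
theorem cut1_zero {a b t : ℝ} (hab : a < b) (ht : b ≤ |t|) : cut1 a b t = 0 := by
  rcases le_abs.1 ht with h | h
  · rw [cut1, Real.smoothTransition.zero_of_nonpos
      (div_nonpos_of_nonpos_of_nonneg (by linarith) (by linarith)), zero_mul]
  · rw [cut1, Real.smoothTransition.zero_of_nonpos (x := (b + t) / (b - a))
      (div_nonpos_of_nonpos_of_nonneg (by linarith) (by linarith)), mul_zero]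

theorem cut_nonneg (c : Pt) (a b : ℝ) (z : Pt) : 0 ≤ cut c a b z :=
  mul_nonneg (cut1_nonneg _ _ _) (cut1_nonneg _ _ _)
theorem cut_le_one (c : Pt) (a b : ℝ) (z : Pt) : cut c a b z ≤ 1 :=
  mul_le_one₀ (cut1_le_one _ _ _) (cut1_nonneg _ _ _) (cut1_le_one _ _ _)
theorem abs_cut_le (c : Pt) (a b : ℝ) (z : Pt) : |cut c a b z| ≤ 1 := by
  rw [abs_of_nonneg (cut_nonneg _ _ _ _)]; exact cut_le_one _ _ _ _
theorem abs_one_sub_cut_le (c : Pt) (a b : ℝ) (z : Pt) : |1 - cut c a b z| ≤ 1 :=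
  abs_le.2 ⟨by linarith [cut_le_one c a b z], by linarith [cut_nonneg c a b z]⟩

theorem cut_one {c z : Pt} {a b : ℝ} (hab : a < b) {r : ℕ} (hr : (r : ℝ) ≤ a) (hz : z ∈ bl c r) :
    cut c a b z = 1 := by
  rw [mem_bl_abs] at hz
  have h1 : |(z.1 : ℝ) - c.1| ≤ r := by exact_mod_cast hz.1
  have h2 : |(z.2 : ℝ) - c.2| ≤ r := by exact_mod_cast hz.2
  rw [cut, cut1_one hab (h1.trans hr), cut1_one hab (h2.trans hr), one_mul]

theorem cut_zero {c z : Pt} {a b : ℝ} (hab : a < b) {R : ℕ} (hR : b ≤ R + 1) (hz : z ∉ bl c R) :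
    cut c a b z = 0 := by
  rw [mem_bl_abs, not_and_or, not_le, not_le] at hz
  rcases hz with h | h
  · have h1 : (R : ℝ) + 1 ≤ |(z.1 : ℝ) - c.1| := by exact_mod_cast h
    rw [cut, cut1_zero hab (hR.trans h1), zero_mul]
  · have h1 : (R : ℝ) + 1 ≤ |(z.2 : ℝ) - c.2| := by exact_mod_cast h
    rw [cut, cut1_zero hab (hR.trans h1), mul_zero]

theorem sup_cut (c : Pt) {a b : ℝ} (hab : a < b) {R : ℕ} (hR : b ≤ R + 1) :
    Sup (bl c R) (cut c a b) := fun _ hz => cut_zero hab hR hz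

theorem cut_shift (c : Pt) (a b : ℝ) (z : Pt) : cut c a b z = cut 0 a b (z - c) := by simp [cut]
theorem cut_swap (a b : ℝ) (z : Pt) : cut 0 a b z.swap = cut 0 a b z := by simp [cut, mul_comm]
theorem cut_neg_fst (a b : ℝ) (z : Pt) : cut 0 a b (-z.1, z.2) = cut 0 a b z := by
  simp [cut, cut1_neg]
theorem cut_neg_snd (a b : ℝ) (z : Pt) : cut 0 a b (z.1, -z.2) = cut 0 a b z := by
  simp [cut, cut1_neg]
theorem cut_neg (a b : ℝ) (z : Pt) : cut 0 a b (-z) = cut 0 a b z := by simp [cut, cut1_neg]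

/-- all differences of the cut-off -/
theorem sm_cut (k : ℕ) : ∃ C : ℝ, 0 ≤ C ∧ ∀ (c : Pt) (a b : ℝ), a < b →
    Sm k Set.univ C (b - a) (cut c a b) := by
  obtain ⟨K, hK⟩ := exists_bound_smoothTransition k
  have hK0 : 0 ≤ K := (norm_nonneg _).trans (hK 0 (Nat.zero_le _) 0)
  refine ⟨2 ^ k * (2 ^ k * K * K) * (2 ^ k * K * K), by positivity, fun c a b hab => ?_⟩
  have hℓ : 0 < b - a := sub_pos.2 hab
  have key : ∀ (p : Pt →+ ℝ), (∀ y ∈ nn, |p y| ≤ 1) → ∀ d : ℝ,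
      Sm k Set.univ K (b - a) fun w => Real.smoothTransition ((d + p w) / (b - a)) := fun p hp d => by
    have := sm_of_contDiff ((b - a)⁻¹ • p) hℓ (fun y hy => by
      rw [AddMonoidHom.smul_apply, norm_smul, Real.norm_of_nonneg (inv_pos.2 hℓ).le]
      exact mul_le_of_le_one_right (inv_pos.2 hℓ).le (hp y hy)) (k := k) (F := Real.smoothTransition)
      (d / (b - a)) (S := Set.univ) (K := K) fun z _ q _ =>
        ⟨Real.smoothTransition.contDiffAt, fun j hj => hK j hj q⟩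
    refine this.congr fun _ _ w _ => ?_
    rw [AddMonoidHom.smul_apply, smul_eq_mul, add_div, div_eq_inv_mul (p w)]
  let p1 : Pt →+ ℝ := (Int.castAddHom ℝ).comp (AddMonoidHom.fst ℤ ℤ)
  let p2 : Pt →+ ℝ := (Int.castAddHom ℝ).comp (AddMonoidHom.snd ℤ ℤ)
  have h1 : ∀ y ∈ nn, |p1 y| ≤ 1 := fun y hy => (abs_nn_le hy).1
  have h2 : ∀ y ∈ nn, |p2 y| ≤ 1 := fun y hy => (abs_nn_le hy).2
  have h3 : ∀ (p : Pt →+ ℝ), (∀ y ∈ nn, |p y| ≤ 1) → ∀ d : ℝ,
      Sm k Set.univ (2 ^ k * K * K) (b - a) fun w => cut1 a b (p w - d) := fun p hp d => by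
    refine ((key (-p) (fun y hy => by simpa using hp y hy) (b + d)).mul_univ hℓ
      (key p hp (b - d))).congr fun _ _ w _ => ?_
    simp only [cut1, AddMonoidHom.neg_apply]
    congr 3 <;> ring
  exact (h3 p1 h1 c.1).mul_univ hℓ (h3 p2 h2 c.2)

/-- energy of a product with a cut-off -/
theorem edF_cut_le {Λ : Lat} {ed : Finset (Pt × Pt)} (hed : ∀ e ∈ ed, e.2 - e.1 ∈ Λ.Jp)
    {S S' : Finset Pt} {ζ : Pt → ℝ} {L : ℝ} (h1 : ∀ x, |ζ x| ≤ 1)
    (h2 : ∀ e ∈ ed, ζ e.1 ≠ 0 → e.1 ∈ S ∧ e.2 ∈ S)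
    (h3 : ∀ e ∈ ed, ζ e.2 ≠ ζ e.1 → e.2 ∈ S' ∧ |ζ e.2 - ζ e.1| ≤ L) (u : Pt → ℝ) :
    edF ed (fun x => ζ x * u x) (fun x => ζ x * u x) ≤
      2 * eN Λ S u u + 2 * (Λ.Jp.card * L ^ 2 * ∑ x ∈ S', u x ^ 2) := by
  refine (edF_mul_le ed ζ u h1).trans (add_le_add ?_ ?_) <;>
    refine mul_le_mul_of_nonneg_left ?_ zero_le_two
  · rw [eN, edF_self, ← sum_filter_of_ne (p := fun e => ζ e.1 ≠ 0) fun e _ h h' => h (by simp [h'])]
    refine (sum_le_sum fun e _ => ?_).trans (sum_le_sum_of_subset_of_nonneg (fun e he => ?_)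
      fun _ _ _ => sq_nonneg _)
    · exact mul_le_of_le_one_left (sq_nonneg _) ((sq_le_one_iff_abs_le_one _).2 (h1 _))
    · rw [mem_filter] at he; exact Lat.mem_edI.2 ⟨hed e he.1, h2 e he.1 he.2⟩
  · rw [← sum_filter_of_ne (p := fun e => ζ e.2 ≠ ζ e.1) fun e _ h h' => h (by simp [h'])]
    calc _ ≤ ∑ e ∈ ed.filter (fun e => ζ e.2 ≠ ζ e.1), L ^ 2 * u e.2 ^ 2 := sum_le_sum fun e he => by
          rw [mem_filter] at he
          exact mul_le_mul_of_nonneg_right (sq_le_sq' (abs_le.1 (h3 e he.1 he.2).2).1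
            (abs_le.1 (h3 e he.1 he.2).2).2) (sq_nonneg _)
      _ ≤ ∑ p ∈ Λ.Jp ×ˢ S', L ^ 2 * u p.2 ^ 2 := by
          have hinj : Set.InjOn (fun e : Pt × Pt => (e.2 - e.1, e.2))
              (ed.filter fun e => ζ e.2 ≠ ζ e.1) := fun e _ e' _ h => by
            have h4 := congrArg Prod.snd h
            have h5 := congrArg Prod.fst h
            simp only at h4 h5
            exact Prod.ext (by rw [h4] at h5; exact sub_right_injective h5) h4
          refine le_trans (le_of_eq (sum_image (g := fun e : Pt × Pt => (e.2 - e.1, e.2))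
            (f := fun p : Pt × Pt => L ^ 2 * u p.2 ^ 2) hinj).symm)
            (sum_le_sum_of_subset_of_nonneg (fun p hp => ?_) fun _ _ _ => by positivity)
          obtain ⟨e, he, rfl⟩ := mem_image.1 hp
          rw [mem_filter] at he
          exact mem_product.2 ⟨hed e he.1, (h3 e he.1 he.2).1⟩
      _ = _ := by
          rw [sum_product]; simp only [sum_const, nsmul_eq_mul, ← mul_sum, mul_assoc]

end Crest.Agent.T145.Pot
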