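import Crest.Agent.T145.KrWL_56
import Crest.Agent.T145.PotC_17
import Crest.Agent.T145.BrB_73

/-!
# Row 145: flows of linear functionals, Poincaré inequality in square annuli, cut-offs (helper85)
-/

set_option autoImplicit false

namespace Crest.Agent.T145.Pot.K85

open Finset

section fn
variable {V : Type*} {E E' : Finset (V × V)} {ℓ ℓ' : (V → ℝ) → ℝ} {n n' : ℝ}

/-- `ℓ u` is the pairing of the gradient of `u` with a flow on `E` of energy at most `n` -/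
def Fn (E : Finset (V × V)) (ℓ : (V → ℝ) → ℝ) (n : ℝ) : Prop :=
  ∃ φ : V × V → ℝ, (∀ u, ℓ u = ∑ e ∈ E, φ e * (u e.2 - u e.1)) ∧ ∑ e ∈ E, φ e ^ 2 ≤ n

theorem Fn.nonneg (h : Fn E ℓ n) : 0 ≤ n :=
  let ⟨_, _, h⟩ := h; (sum_nonneg fun _ _ => sq_nonneg _).trans h

theorem Fn.mono (h : Fn E ℓ n) (hn : n ≤ n') : Fn E ℓ n' := h.imp fun _ h => ⟨h.1, h.2.trans hn⟩

theorem Fn.congr (h : Fn E ℓ n) (e : ∀ u, ℓ' u = ℓ u) : Fn E ℓ' n :=
  h.imp fun _ h => ⟨fun u => (e u).trans (h.1 u), h.2⟩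

theorem Fn.subset (h : Fn E ℓ n) (hE : E ⊆ E') : Fn E' ℓ n := by
  classical
  obtain ⟨φ, h1, h2⟩ := h
  refine ⟨fun e => if e ∈ E then φ e else 0, fun u => ?_, ?_⟩
  · simp only [ite_mul, zero_mul, sum_ite_mem, inter_eq_right.2 hE, h1 u]
  · simpa only [ite_pow, ne_eq, OfNat.ofNat_ne_zero, not_false_eq_true, zero_pow, sum_ite_mem,
      inter_eq_right.2 hE] using h2

theorem Fn.smul (h : Fn E ℓ n) (c : ℝ) : Fn E (fun u => c * ℓ u) (c ^ 2 * n) := by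
  obtain ⟨φ, h1, h2⟩ := h
  refine ⟨fun e => c * φ e, fun u => by simp only [h1 u, mul_sum, mul_assoc], ?_⟩
  simp only [mul_pow, ← mul_sum]
  exact mul_le_mul_of_nonneg_left h2 (sq_nonneg c)

theorem Fn.add (h : Fn E ℓ n) (h' : Fn E ℓ' n') : Fn E (fun u => ℓ u + ℓ' u) (2 * (n + n')) := by
  obtain ⟨φ, h1, h2⟩ := h
  obtain ⟨ψ, h3, h4⟩ := h'
  refine ⟨fun e => φ e + ψ e, fun u => by simp only [h1 u, h3 u, add_mul, sum_add_distrib], ?_⟩
  calc _ ≤ ∑ e ∈ E, 2 * (φ e ^ 2 + ψ e ^ 2) :=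
        sum_le_sum fun e _ => by nlinarith [sq_nonneg (φ e - ψ e)]
    _ ≤ _ := by rw [← mul_sum, sum_add_distrib]; linarith

theorem Fn.sub (h : Fn E ℓ n) (h' : Fn E ℓ' n') : Fn E (fun u => ℓ u - ℓ' u) (2 * (n + n')) := by
  have := h.add (h'.smul (-1))
  simpa [sub_eq_add_neg] using this

theorem Fn.sq_le (h : Fn E ℓ n) (u : V → ℝ) : ℓ u ^ 2 ≤ n * edF E u u := by
  obtain ⟨φ, h1, h2⟩ := h
  rw [h1, edF_self]
  exact (sum_mul_sq_le_sq_mul_sq _ _ _).trans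
    (mul_le_mul_of_nonneg_right h2 (sum_nonneg fun _ _ => sq_nonneg _))

theorem Fn.shift (h : Fn E ℓ n) (u : V → ℝ) (c : ℝ) : ℓ (fun x => u x + c) = ℓ u := by
  obtain ⟨φ, h1, -⟩ := h
  simp only [h1, add_sub_add_right_eq_sub]

theorem Fn.neg (h : Fn E ℓ n) (u : V → ℝ) : ℓ (fun x => -u x) = -ℓ u := by
  obtain ⟨φ, h1, -⟩ := h
  simp only [h1, ← sum_neg_distrib]
  exact sum_congr rfl fun _ _ => by ring

/-- Riesz: a linear functional bounded by the energy has a flow -/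
theorem fn_of_dual (hn : 0 ≤ n) (hadd : ∀ u v, ℓ (u + v) = ℓ u + ℓ v)
    (hsmul : ∀ (c : ℝ) u, ℓ (c • u) = c * ℓ u) (h : ∀ u, ℓ u ^ 2 ≤ n * edF E u u) : Fn E ℓ n := by
  classical
  let L : (V → ℝ) →ₗ[ℝ] ℝ := ⟨⟨ℓ, hadd⟩, hsmul⟩
  let T : (V → ℝ) →ₗ[ℝ] EuclideanSpace ℝ E :=
    (WithLp.linearEquiv 2 ℝ (E → ℝ)).symm.toLinearMap ∘ₗ LinearMap.pi fun e : E => dr e.1
  have hT : ∀ u (e : E), T u e = u e.1.2 - u e.1.1 := fun u e => rfl
  have hN : ∀ u, ‖T u‖ ^ 2 = edF E u u := fun u => by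
    rw [EuclideanSpace.real_norm_sq_eq, edF_self, ← sum_coe_sort E]; rfl
  have hk : LinearMap.ker T ≤ LinearMap.ker L := fun u hu => by
    have h1 := h u
    rw [← hN, LinearMap.mem_ker.1 hu] at h1
    exact (pow_eq_zero_iff two_ne_zero).1 (le_antisymm (a := ℓ u ^ 2) (by simpa using h1) (sq_nonneg _))
  let L' : LinearMap.range T →ₗ[ℝ] ℝ :=
    (LinearMap.ker T).liftQ L hk ∘ₗ T.quotKerEquivRange.symm.toLinearMap
  have hL' : ∀ u, L' ⟨T u, LinearMap.mem_range_self T u⟩ = ℓ u := fun u => by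
    simp only [L', LinearMap.comp_apply, LinearEquiv.coe_coe,
      LinearMap.quotKerEquivRange_symm_apply_image]
    rfl
  obtain ⟨⟨_, u₀, rfl⟩, hw⟩ := (InnerProductSpace.toDual ℝ (LinearMap.range T)).surjective
    (LinearMap.toContinuousLinearMap L')
  have h1 : ∀ u, ℓ u = inner ℝ (T u₀) (T u) := fun u => by
    have := congrArg (fun f => f ⟨T u, LinearMap.mem_range_self T u⟩) hw
    simp only [InnerProductSpace.toDual_apply_apply, LinearMap.coe_toContinuousLinearMap', hL'] at this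
    exact this.symm
  refine ⟨fun e => u₀ e.2 - u₀ e.1, fun u => ?_, ?_⟩
  · rw [h1, PiLp.inner_apply, ← sum_coe_sort E]
    exact sum_congr rfl fun e _ => by simp [hT, mul_comm]
  · rw [← edF_self]
    have h2 := h u₀
    rw [h1, real_inner_self_eq_norm_sq, hN] at h2
    have h3 := (sy_edF E).nonneg u₀
    by_contra h4
    nlinarith [not_le.1 h4]

end fn

theorem Fn.f2 {V : Type} [DecidableEq V] {E : Finset (V × V)} {ℓ : (V → ℝ) → ℝ} {n : ℝ}
    (h : Fn E ℓ n) : ∃ f, F2 E f n ∧ ∀ s : Cfg V, ℓ (fun x => s x) = pr f s := by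
  obtain ⟨φ, h1, h2⟩ := h
  exact ⟨dv E φ, ⟨φ, rfl, h2⟩, fun s => by simp only [h1, pr_dv, dE_cast]⟩

/-! ## Poincaré inequality in rectangles and annuli -/

theorem poin_rc (a : Pt) (n₁ n₂ : ℕ) (u : Pt → ℝ) :
    ∑ x ∈ rc a n₁ n₂, (u x - av (rc a n₁ n₂) u) ^ 2 ≤
      ((n₁ : ℝ) ^ 2 + (n₂ : ℝ) ^ 2) * eN nL (rc a n₁ n₂) u u := by
  set B := rc a n₁ n₂
  set c := av B u with hc
  have h0 : ∑ x ∈ B, (u x - c) = 0 := by
    rcases B.eq_empty_or_nonempty with h | h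
    · simp [h]
    · have : (0 : ℝ) < B.card := by exact_mod_cast h.card_pos
      rw [sum_sub_distrib, sum_const, nsmul_eq_mul, hc, av]; field_simp; ring
  have h1 := (nL_ok.r1_f2 (f := on B fun x => u x - c) (sup_on _ _)
    ((sum_congr rfl fun x hx => on_of_mem hx).trans h0)).ip_sq_le (Lat.edI_ends _) u
  have h2 : ∑ x ∈ B, on B (fun x => u x - c) x ^ 2 = ∑ x ∈ B, (u x - c) ^ 2 :=
    sum_congr rfl fun x hx => by rw [on_of_mem hx]
  have h3 : T145.ip B (on B fun x => u x - c) u = ∑ x ∈ B, (u x - c) ^ 2 := by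
    rw [T145.ip, ← sub_zero (∑ x ∈ B, _), ← zero_mul c, ← h0, sum_mul, ← sum_sub_distrib]
    exact sum_congr rfl fun x hx => by rw [on_of_mem hx]; ring
  rw [h2, h3, ← edF_self] at h1
  have h4 : 0 ≤ ∑ x ∈ B, (u x - c) ^ 2 := sum_nonneg fun _ _ => sq_nonneg _
  have h5 : 0 ≤ ((n₁ : ℝ) ^ 2 + (n₂ : ℝ) ^ 2) * eN nL B u u :=
    mul_nonneg (by positivity) (Po44.eN_nonneg _ _ _)
  by_contra h6
  rw [eN] at h5 h6
  nlinarith [not_le.1 h6]

theorem chain {X Y Q : Finset Pt} (hX : Q ⊆ X) (hY : Q ⊆ Y) {u : Pt → ℝ} {c c' P : ℝ}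
    (h : ∑ x ∈ X, (u x - c) ^ 2 ≤ P) (h' : ∑ x ∈ Y, (u x - c') ^ 2 ≤ P) :
    Q.card * (c - c') ^ 2 ≤ 4 * P := by
  have h1 := sum_le_sum_of_subset_of_nonneg hX (f := fun x => (u x - c) ^ 2) fun _ _ _ => sq_nonneg _
  have h2 := sum_le_sum_of_subset_of_nonneg hY (f := fun x => (u x - c') ^ 2) fun _ _ _ => sq_nonneg _
  calc _ = ∑ _x ∈ Q, (c - c') ^ 2 := by rw [sum_const, nsmul_eq_mul]
    _ ≤ ∑ x ∈ Q, 2 * ((u x - c) ^ 2 + (u x - c') ^ 2) :=
        sum_le_sum fun x _ => by nlinarith [sq_nonneg (2 * u x - c - c')]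
    _ ≤ _ := by rw [← mul_sum, sum_add_distrib]; linarith

theorem recentre {X : Finset Pt} {u : Pt → ℝ} {c P : ℝ} (h : ∑ x ∈ X, (u x - c) ^ 2 ≤ P) (c' : ℝ) :
    ∑ x ∈ X, (u x - c') ^ 2 ≤ 2 * P + 2 * (X.card * (c - c') ^ 2) := by
  calc _ ≤ ∑ x ∈ X, 2 * ((u x - c) ^ 2 + (c - c') ^ 2) :=
        sum_le_sum fun x _ => by nlinarith [sq_nonneg (u x - 2 * c + c')]
    _ ≤ _ := by rw [← mul_sum, sum_add_distrib, sum_const, nsmul_eq_mul]; linarith

/-- Poincaré inequality in a square annulus -/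
theorem poin_an (z : Pt) {a b : ℕ} (hab : a < b) {κ : ℝ} (hκ : 2 * b + 1 ≤ κ * ((b : ℝ) - a))
    (u : Pt → ℝ) : ∃ c, ∑ x ∈ bl z b \ bl z a, (u x - c) ^ 2 ≤
      112 * κ * (2 * b + 1 : ℝ) ^ 2 * eN nL (bl z b \ bl z a) u u := by
  obtain ⟨w, rfl⟩ := Nat.exists_eq_add_of_le hab.le
  have hw : 0 < w := by omega
  set n := 2 * (a + w) + 1 with hn
  set S := bl z (a + w) \ bl z a with hS
  set T := rc (z.1 - (a + w : ℕ), z.2 + a + 1) n w with hT
  set B := rc (z.1 - (a + w : ℕ), z.2 - (a + w : ℕ)) n w with hB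
  set L := rc (z.1 - (a + w : ℕ), z.2 - (a + w : ℕ)) w n with hL
  set R := rc (z.1 + a + 1, z.2 - (a + w : ℕ)) w n with hR
  have hE := Po44.eN_nonneg nL S u
  have hw' : (1 : ℝ) ≤ w := by exact_mod_cast hw
  have hn' : (n : ℝ) = 2 * (a + w : ℕ) + 1 := by rw [hn]; push_cast; ring
  have hwn : (w : ℝ) ≤ n := by exact_mod_cast (by omega : w ≤ n)
  rw [← hn'] at hκ ⊢
  replace hκ : (n : ℝ) ≤ κ * w := by simpa using hκ
  set P := 2 * (n : ℝ) ^ 2 * eN nL S u u with hP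
  have hP0 : 0 ≤ P := by positivity
  have key : ∀ (p : Pt) (n₁ n₂ : ℕ), (n₁ : ℝ) ≤ n → (n₂ : ℝ) ≤ n → rc p n₁ n₂ ⊆ S →
      ∑ x ∈ rc p n₁ n₂, (u x - av (rc p n₁ n₂) u) ^ 2 ≤ P := fun p n₁ n₂ h1 h2 h3 =>
    (poin_rc p n₁ n₂ u).trans (mul_le_mul (by
      have := pow_le_pow_left₀ n₁.cast_nonneg h1 2
      have := pow_le_pow_left₀ n₂.cast_nonneg h2 2
      linarith) (eN_mono h3 u) (Po44.eN_nonneg _ _ _) (by positivity))
  have kT := key _ _ _ le_rfl hwn (show T ⊆ S from fun x hx => by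
    rw [hT, mem_rc] at hx; rw [hS, mem_sdiff, mem_bl, mem_bl]; push_cast at *; omega)
  have kB := key _ _ _ le_rfl hwn (show B ⊆ S from fun x hx => by
    rw [hB, mem_rc] at hx; rw [hS, mem_sdiff, mem_bl, mem_bl]; push_cast at *; omega)
  have kL := key _ _ _ hwn le_rfl (show L ⊆ S from fun x hx => by
    rw [hL, mem_rc] at hx; rw [hS, mem_sdiff, mem_bl, mem_bl]; push_cast at *; omega)
  have kR := key _ _ _ hwn le_rfl (show R ⊆ S from fun x hx => by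
    rw [hR, mem_rc] at hx; rw [hS, mem_sdiff, mem_bl, mem_bl]; push_cast at *; omega)
  rw [← hT] at kT; rw [← hB] at kB; rw [← hL] at kL; rw [← hR] at kR
  have c1 := chain (X := T) (Y := L) (Q := rc (z.1 - (a + w : ℕ), z.2 + a + 1) w w) (fun x hx => by
    rw [hT, mem_rc] at *; push_cast at *; omega) (fun x hx => by
    rw [hL, mem_rc] at *; push_cast at *; omega) kT kL
  have c2 := chain (X := B) (Y := L) (Q := rc (z.1 - (a + w : ℕ), z.2 - (a + w : ℕ)) w w)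
    (fun x hx => by rw [hB, mem_rc] at *; push_cast at *; omega)
    (fun x hx => by rw [hL, mem_rc] at *; push_cast at *; omega) kB kL
  have c3 := chain (X := R) (Y := T) (Q := rc (z.1 + a + 1, z.2 + a + 1) w w) (fun x hx => by
    rw [hR, mem_rc] at *; push_cast at *; omega) (fun x hx => by
    rw [hT, mem_rc] at *; push_cast at *; omega) kR kT
  rw [card_rc] at c1 c2 c3
  push_cast at c1 c2 c3
  have r1 := recentre kT (av L u)
  have r2 := recentre kB (av L u)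
  have r3 := recentre kR (av L u)
  rw [show (T.card : ℝ) = n * w by rw [hT, card_rc]; push_cast; ring] at r1
  rw [show (B.card : ℝ) = n * w by rw [hB, card_rc]; push_cast; ring] at r2
  rw [show (R.card : ℝ) = n * w by rw [hR, card_rc]; push_cast; ring] at r3
  have hκ1 : 1 ≤ κ := by nlinarith
  have q : ∀ {t K : ℝ}, (w : ℝ) * w * t ^ 2 ≤ K * P → (n : ℝ) * w * t ^ 2 ≤ κ * K * P := fun {t K} h =>
    calc _ ≤ κ * w * w * t ^ 2 := by gcongr
      _ = κ * (w * w * t ^ 2) := by ring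
      _ ≤ κ * (K * P) := by gcongr
      _ = _ := by ring
  have c4 : (w : ℝ) * w * (av R u - av L u) ^ 2 ≤ 16 * P := by
    have : (av R u - av L u) ^ 2 ≤ 2 * (av R u - av T u) ^ 2 + 2 * (av T u - av L u) ^ 2 := by
      nlinarith [sq_nonneg (av R u - 2 * av T u + av L u)]
    have := mul_le_mul_of_nonneg_left this (show (0 : ℝ) ≤ w * w by positivity)
    linarith
  have hU : S ⊆ T ∪ B ∪ L ∪ R := fun x hx => by
    rw [hS, mem_sdiff, mem_bl, mem_bl] at hx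
    simp only [mem_union, hT, hB, hL, hR, mem_rc]; push_cast at *; omega
  have un : ∀ X Y : Finset Pt, ∑ x ∈ X ∪ Y, (u x - av L u) ^ 2 ≤
      ∑ x ∈ X, (u x - av L u) ^ 2 + ∑ x ∈ Y, (u x - av L u) ^ 2 := fun X Y => by
    rw [← sum_union_inter]; exact le_add_of_nonneg_right (sum_nonneg fun _ _ => sq_nonneg _)
  refine ⟨av L u, (sum_le_sum_of_subset_of_nonneg hU fun _ _ _ => sq_nonneg _).trans ?_⟩
  have := un (T ∪ B ∪ L) R
  have := un (T ∪ B) L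
  have := un T B
  have := q c1
  have := q c2
  have := q c4
  have : P ≤ κ * P := le_mul_of_one_le_left hP0 hκ1
  calc _ ≤ 56 * (κ * P) := by linarith
    _ = _ := by rw [hP]; ring

end Crest.Agent.T145.Pot.K85
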