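import Crest.Agent.T145.KrDef_77

/-!
# Row 145, module KERNEL, HOL: the context `Ctx` (`w = W ^ (ε / 4)`), bridge and truncation (helper93)
-/

set_option autoImplicit false

namespace Crest.Agent.T145.Kr.H93

open Finset Real KrA

/-- second moment at most `v ^ 2` -/
structure L2 {α : Type*} (ρ X : α → ℝ) (v : ℝ) : Prop where
  ig : Ig ρ fun s => X s ^ 2
  nn : 0 ≤ v
  le : Ex ρ (fun s => X s ^ 2) ≤ v ^ 2

section l2
variable {α : Type*} {ρ X ψ : α → ℝ} {v B : ℝ}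

theorem L2.sqrt_le (h : L2 ρ X v) : √(Ex ρ fun s => X s ^ 2) ≤ v := sqrt_le_iff.2 ⟨h.nn, h.le⟩

theorem L2.mono (h : L2 ρ X v) {v' : ℝ} (hv : v ≤ v') : L2 ρ X v' :=
  ⟨h.ig, h.nn.trans hv, h.le.trans (pow_le_pow_left₀ h.nn hv 2)⟩

theorem L2.of_le (hρ : Wt ρ) (h : L2 ρ X v) (hB : 0 ≤ B) (hψ : ∀ s, |ψ s| ≤ B * |X s|) :
    L2 ρ ψ (B * v) := by
  have b : ∀ s, ψ s ^ 2 ≤ B ^ 2 * X s ^ 2 := fun s => by
    rw [← sq_abs (ψ s), ← sq_abs (X s), ← mul_pow]; exact pow_le_pow_left₀ (abs_nonneg _) (hψ s) 2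
  have i : Ig ρ fun s => ψ s ^ 2 := (h.ig.const_mul _).of_le hρ.nonneg (fun _ => sq_nonneg _) b
  refine ⟨i, mul_nonneg hB h.nn, (Ex_mono hρ.nonneg i (h.ig.const_mul _) b).trans ?_⟩
  rw [Ex_const_mul, mul_pow]
  exact mul_le_mul_of_nonneg_left h.le (sq_nonneg _)

theorem L2.bdd_mul (hρ : Wt ρ) (h : L2 ρ X v) (hB : 0 ≤ B) (hψ : ∀ s, |ψ s| ≤ B) :
    L2 ρ (fun s => ψ s * X s) (B * v) := h.of_le hρ hB fun s => by
  rw [abs_mul]; exact mul_le_mul_of_nonneg_right (hψ s) (abs_nonneg _)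

theorem L2.mul_bdd (hρ : Wt ρ) (h : L2 ρ X v) (hB : 0 ≤ B) (hψ : ∀ s, |ψ s| ≤ B) :
    L2 ρ (fun s => X s * ψ s) (v * B) := by
  simpa only [mul_comm] using h.bdd_mul hρ hB hψ

theorem L2.int (hρ : Wt ρ) (h : L2 ρ X v) : Ig ρ X := hρ.ig_of_sq h.ig

theorem L2.abs_le (hρ : Wt ρ) (h : L2 ρ X v) : |Ex ρ X| ≤ v :=
  (abs_le_sqrt (hρ.ex_sq_le h.ig)).trans h.sqrt_le

/-- dropping a truncation -/
theorem L2.cut (hρ : Wt ρ) (h : L2 ρ X v) {t : α → Prop} {b : ℝ} (hb : 0 ≤ b)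
    (ht : Pr ρ (fun s => ¬ t s) ≤ b ^ 2) : |Ex ρ (fun s => ind (t s) * X s) - Ex ρ X| ≤ v * b := by
  rw [← Ex_sub ((h.int hρ).ind_mul hρ.nonneg t) (h.int hρ), ← abs_neg, ← Ex_neg,
    Ex_congr (G := fun s => X s * ind (¬ t s)) fun s _ => by rw [ind_not]; ring]
  exact (hρ.abs_ex_ind_le h.ig _).trans
    (mul_le_mul h.sqrt_le (sqrt_le_iff.2 ⟨hb, ht⟩) (sqrt_nonneg _) h.nn)

/-- products from fourth moments -/
theorem L2.of_four (hρ : Wt ρ) {Y : α → ℝ} (hv : 0 ≤ v) (hX : Ig ρ fun s => X s ^ 4)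
    (hY : Ig ρ fun s => Y s ^ 4) (h1 : Ex ρ (fun s => X s ^ 4) ≤ v ^ 2)
    (h2 : Ex ρ (fun s => Y s ^ 4) ≤ v ^ 2) : L2 ρ (fun s => X s * Y s) v := by
  have b : ∀ s, (X s * Y s) ^ 2 ≤ (X s ^ 4 + Y s ^ 4) / 2 := fun s => by
    nlinarith [sq_nonneg (X s ^ 2 - Y s ^ 2)]
  have i : Ig ρ fun s => (X s * Y s) ^ 2 :=
    ((hX.add hY).div_const 2).of_le hρ.nonneg (fun _ => sq_nonneg _) b
  refine ⟨i, hv, (Ex_mono hρ.nonneg i ((hX.add hY).div_const 2) b).trans ?_⟩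
  rw [Ex_div_const, Ex_add hX hY]; linarith

end l2

theorem abs_mul_le' {a b A B : ℝ} (ha : |a| ≤ A) (hb : |b| ≤ B) : |a * b| ≤ A * B := by
  rw [abs_mul]; exact mul_le_mul ha hb (abs_nonneg _) ((abs_nonneg _).trans ha)

/-- `a b - a' b'` -/
theorem abs_mul_sub {a b a' b' A B x y : ℝ} (ha : |a - a'| ≤ x) (hb : |b - b'| ≤ y) (hA : |a| ≤ A)
    (hB : |b'| ≤ B) : |a * b - a' * b'| ≤ A * y + x * B := by
  rw [show a * b - a' * b' = a * (b - b') + (a - a') * b' by ring]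
  exact (abs_add_le _ _).trans (add_le_add (abs_mul_le' hA hb) (abs_mul_le' ha hB))

/-- the weight of the free annulus -/
noncomputable def rho (Λ : Lat) (G : Gm) : Cfg Pt → ℝ := Nc.rW (Λ.N G.Om) G.Om

theorem EA_eq (Λ : Lat) (G : Gm) (F : Cfg Pt → ℝ) : G.EA Λ F = Ex (rho Λ G) F := rfl

/-- invariance under the shifts of `S` -/
def Iv (S : Finset Pt) (u : Cfg Pt → ℝ) : Prop := ∀ i a, u (a + cst S i) = u a

theorem Iv.mul {S : Finset Pt} {u v : Cfg Pt → ℝ} (h : Iv S u) (h' : Iv S v) :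
    Iv S fun a => u a * v a := fun i a => by simp only [h i a, h' i a]

theorem iv_of {S : Finset Pt} {u : Cfg Pt → ℝ} (h : DepG S u) : Iv S u := fun i a =>
  h.shift subset_rfl a i

theorem res_of {S : Finset Pt} {β : Type*} {u : Cfg Pt → β} (h : Dep S u) (s : Cfg Pt) :
    u (resH S s) = u s := h _ _ fun x hx => by rw [resH_apply, if_pos hx]

/-- truncation to the typical set -/
noncomputable def tc (A : Act (Cfg Pt)) (u : Cfg Pt → ℝ) (a : Cfg Pt) : ℝ := ind (A.T a) * u a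

theorem abs_tc {A : Act (Cfg Pt)} {u : Cfg Pt → ℝ} {U : ℝ} (hU : 0 ≤ U) (h : ∀ a, A.T a → |u a| ≤ U)
    (a : Cfg Pt) : |tc A u a| ≤ U := by
  by_cases ha : A.T a
  · rw [tc, ind_pos ha, one_mul]; exact h a ha
  · rw [tc, ind_neg ha, zero_mul, abs_zero]; exact hU

theorem tc_of {A : Act (Cfg Pt)} (u : Cfg Pt → ℝ) {a : Cfg Pt} (h : A.T a) : tc A u a = u a := by
  rw [tc, ind_pos h, one_mul]

theorem tc_mul (A : Act (Cfg Pt)) (u v : Cfg Pt → ℝ) (a : Cfg Pt) :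
    tc A u a * tc A v a = tc A (fun a => u a * v a) a := by
  simp only [tc]; rw [mul_mul_mul_comm, ind_mul_self]

/-- everything that HOL uses; `w = W ^ (ε / 4)` -/
structure Ctx (Λ : Lat) (G : Gm) (g W w : ℝ) (A B : Act (Cfg Pt)) (p q : Cfg Pt → ℝ)
    (κ : Cfg Pt → Cfg Pt → ℝ) : Prop where
  alg : G.Alg
  gok : G.Ok W
  wt : Wt (rho Λ G)
  w1 : 1000 ≤ w
  w2 : w ^ 16 ≤ W
  isI : G.IsI A
  isO : G.IsO B
  sec : Sec (mub A B (G.nu Λ)) p q κ A.H B.H (fun a b => G.y0 a b / g) A.ng (G.lam g)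
    (1 / W ^ 9) (w ^ 4 / W) (w ^ 8 / W ^ 3) (w ^ 2 / W)
  pga : ∀ k a, p (ga k a) = p a
  pT : ∀ a, p a ≠ 0 → A.T a
  qT : ∀ b, q b ≠ 0 → B.T b
  lam : G.lam g ≤ w ^ 5 / W ^ 2
  bar : ∀ (Φ : Cfg Pt → Cfg Pt → ℝ) (C : ℝ), (∀ a b, |Φ a b| ≤ C) → (∀ i a b, Φ (A.s i a) b = Φ a b) →
    (∀ i a b, Φ a (B.s i b) = Φ a b) →
    br (mub A B (G.nu Λ)) Φ = G.EA Λ fun s => Φ (G.dat s).1 (G.dat s).2
  bad : Pr (rho Λ G) (fun s => ¬ (A.T (G.dat s).1 ∧ B.T (G.dat s).2)) ≤ (1 / W ^ 5) ^ 2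
  y2 : ∀ a b, A.T a → B.T b → |G.y0 a b / g - ∑ i, G.yi g i a * G.di i b| ≤ 2 * w / W ^ 2
  y3 : ∀ a b, A.T a → B.T b → |∑ k, G.y0 (ga k a) b / g| ≤ 2 * w / W ^ 3
  yi : ∀ a i, A.T a → |G.yi g i a| ≤ 2 * w * G.r
  di : ∀ b i, B.T b → |G.di i b| ≤ w / G.R
  dyi : ∀ i, DepG G.In (G.yi g i)
  ddi : ∀ i, DepG G.Ou (G.di i)
  m_y : ∀ i, L2 (rho Λ G) (G.yi g i) (w * G.r)
  m_yy : ∀ i j, L2 (rho Λ G) (fun s => G.yi g i s * G.yi g j s) (w * (G.r : ℝ) ^ 2)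
  m_d : ∀ i, L2 (rho Λ G) (G.di i) (w / G.R)
  m_dd : ∀ i j, L2 (rho Λ G) (fun s => G.di i s * G.di j s) (w / (G.R : ℝ) ^ 2)
  m_t : L2 (rho Λ G) (fun s => pr G.te s - pr (hm 0 G.R) s) (w / W)

theorem sub_In {G : Gm} {W : ℝ} (h : G.Ok W) : Nc.an 0 (G.r - 1) G.r ⊆ G.In := fun x hx => by
  have := h.hc; have := h.hr
  simp only [Gm.In, Nc.an, mem_sdiff, mem_bl, Prod.fst_zero, Prod.snd_zero] at *; omega

theorem r_le_R {G : Gm} {W : ℝ} (h : G.Ok W) : 1024 * G.r ≤ G.R := by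
  have h1 : (1024 : ℝ) * G.r ≤ G.R := (mul_le_mul_of_nonneg_right h.hW (Nat.cast_nonneg _)).trans h.lo
  exact_mod_cast h1

theorem sub_Ou {G : Gm} {W : ℝ} (h : G.Ok W) : Nc.an 0 G.R (G.R + 1) ⊆ G.Ou := fun x hx => by
  have := h.out; have := h.hr; have := r_le_R h
  simp only [Gm.Ou, Nc.an, mem_sdiff, mem_bl, Prod.fst_zero, Prod.snd_zero] at *; omega

namespace Ctx
variable {Λ : Lat} {G : Gm} {g W w : ℝ} {A B : Act (Cfg Pt)} {p q : Cfg Pt → ℝ}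
  {κ : Cfg Pt → Cfg Pt → ℝ} {u v F φ X : Cfg Pt → ℝ} {U V N M x : ℝ}

theorem W0 (h : Ctx Λ G g W w A B p q κ) : 0 < W := by linarith [h.gok.hW]
theorem w0 (h : Ctx Λ G g W w A B p q κ) : 0 < w := by linarith [h.w1]
theorem r0 (h : Ctx Λ G g W w A B p q κ) : (0 : ℝ) < G.r := by
  have := h.gok.hr; exact_mod_cast (by omega : 0 < G.r)
theorem R0 (h : Ctx Λ G g W w A B p q κ) : (0 : ℝ) < G.R :=
  (mul_pos h.W0 h.r0).trans_le h.gok.lo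
/-- `r / R ≤ 1 / W` -/
theorem rR (h : Ctx Λ G g W w A B p q κ) : (G.r : ℝ) / G.R ≤ 1 / W := by
  rw [div_le_div_iff₀ h.R0 h.W0]; linarith [h.gok.lo]
theorem lam0 (_ : Ctx Λ G g W w A B p q κ) : 0 ≤ G.lam g := (exp_pos _).le

theorem br_mul (h : Ctx Λ G g W w A B p q κ) (hu : ∀ a, |u a| ≤ U) (hv : ∀ b, |v b| ≤ V)
    (iu : Iv G.In u) (iv : Iv G.Ou v) : br (mub A B (G.nu Λ)) (fun a b => u a * v b) =
      Ex (rho Λ G) fun s => u (G.dat s).1 * v (G.dat s).2 :=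
  h.bar _ (U * V) (fun a b => abs_mul_le' (hu a) (hv b)) (fun i a b => by rw [h.isI.1, iu])
    fun i a b => by rw [h.isO.1, iv]

theorem br_fst (h : Ctx Λ G g W w A B p q κ) (hu : ∀ a, |u a| ≤ U) (iu : Iv G.In u) :
    br (mub A B (G.nu Λ)) (fun a _ => u a) = Ex (rho Λ G) fun s => u (G.dat s).1 :=
  h.bar _ U (fun a _ => hu a) (fun i a b => by rw [h.isI.1, iu]) fun _ _ _ => rfl

theorem br_snd (h : Ctx Λ G g W w A B p q κ) (hv : ∀ b, |v b| ≤ V) (iv : Iv G.Ou v) :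
    br (mub A B (G.nu Λ)) (fun _ b => v b) = Ex (rho Λ G) fun s => v (G.dat s).2 :=
  h.bar _ V (fun _ b => hv b) (fun _ _ _ => rfl) fun i a b => by rw [h.isO.1, iv]

theorem d1 {β : Type*} {F : Cfg Pt → β} (hF : Dep G.In F) (s : Cfg Pt) : F (G.dat s).1 = F s :=
  res_of hF s
theorem d2 {β : Type*} {F : Cfg Pt → β} (hF : Dep G.Ou F) (s : Cfg Pt) : F (G.dat s).2 = F s :=
  res_of hF s

theorem iv_tcA (h : Ctx Λ G g W w A B p q κ) (iu : Iv G.In u) : Iv G.In (tc A u) := fun i a => by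
  rw [tc, tc, iu, ← h.isI.1, ind_congr (A.T_s i a)]
theorem iv_tcB (h : Ctx Λ G g W w A B p q κ) (iu : Iv G.Ou u) : Iv G.Ou (tc B u) := fun i a => by
  rw [tc, tc, iu, ← h.isO.1, ind_congr (B.T_s i a)]

/-- functions of the level modulo `1` -/
theorem iv_H (h : Ctx Λ G g W w A B p q κ) {f : ℝ → ℝ} (hf : ∀ t (i : ℤ), f (t + i * (2 * π)) = f t) :
    Iv G.In fun a => f (2 * π * A.H a) := fun i a => by
  dsimp only; rw [← h.isI.1, A.H_s, ← hf (2 * π * A.H a) i]; congr 1; ring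
theorem iv_t (h : Ctx Λ G g W w A B p q κ) {f : ℝ → ℝ} (hf : ∀ t (i : ℤ), f (t + i * (2 * π)) = f t) :
    Iv G.Ou fun a => f (2 * π * B.H a) := fun i a => by
  dsimp only; rw [← h.isO.1, B.H_s, ← hf (2 * π * B.H a) i]; congr 1; ring

theorem H_dat (h : Ctx Λ G g W w A B p q κ) (s : Cfg Pt) : A.H (G.dat s).1 = pr G.eq s := by
  rw [h.isI.2.2]
  exact d1 (F := fun s => pr G.eq s) (Dep.pr fun x hx => h.alg.eq_sup x fun h' => hx (sub_In h.gok h')) s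
theorem t_dat (h : Ctx Λ G g W w A B p q κ) (s : Cfg Pt) : B.H (G.dat s).2 = pr G.te s := by
  rw [h.isO.2.2]
  exact d2 (F := fun s => pr G.te s) (Dep.pr fun x hx => h.alg.te_sup x fun h' => hx (sub_Ou h.gok h')) s

/-- bounded gradient observables -/
theorem br_FF (h : Ctx Λ G g W w A B p q κ) (dF : DepG G.In F) (hF : ∀ s, |F s| ≤ N) (dφ : DepG G.Ou φ)
    (hφ : ∀ s, |φ s| ≤ M) :
    br (mub A B (G.nu Λ)) (fun a b => F a * φ b) = G.EA Λ fun s => F s * φ s := by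
  rw [h.br_mul hF hφ (iv_of dF) (iv_of dφ)]; simp only [d1 dF.dep, d2 dφ.dep]; rfl
theorem br_F (h : Ctx Λ G g W w A B p q κ) (dF : DepG G.In F) (hF : ∀ s, |F s| ≤ N) :
    br (mub A B (G.nu Λ)) (fun a _ => F a) = G.EA Λ F := by
  rw [h.br_fst hF (iv_of dF)]; simp only [d1 dF.dep]; rfl
theorem br_φ (h : Ctx Λ G g W w A B p q κ) (dφ : DepG G.Ou φ) (hφ : ∀ s, |φ s| ≤ M) :
    br (mub A B (G.nu Λ)) (fun _ b => φ b) = G.EA Λ φ := by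
  rw [h.br_snd hφ (iv_of dφ)]; simp only [d2 dφ.dep]; rfl

/-- `F · f (2 π H)` with `f = sin, cos` -/
theorem br_FH (h : Ctx Λ G g W w A B p q κ) (dF : DepG G.In F) (hF : ∀ s, |F s| ≤ N) {f : ℝ → ℝ}
    (hf : ∀ t (i : ℤ), f (t + i * (2 * π)) = f t) (h1 : ∀ t, |f t| ≤ 1) :
    br (mub A B (G.nu Λ)) (fun a _ => F a * f (2 * π * A.H a)) =
      G.EA Λ fun s => F s * f (2 * π * pr G.eq s) := by
  rw [h.br_fst (u := fun a => F a * f (2 * π * A.H a)) (fun a => abs_mul_le' (hF a) (h1 _))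
    ((iv_of dF).mul (h.iv_H hf))]
  simp only [d1 dF.dep, h.H_dat]; rfl

/-- `f (2 π t) · φ`, with `t` replaced by the harmonic measure -/
theorem br_tφ (h : Ctx Λ G g W w A B p q κ) (dφ : DepG G.Ou φ) (hφ : ∀ s, |φ s| ≤ M) {f : ℝ → ℝ}
    (hf : ∀ t (i : ℤ), f (t + i * (2 * π)) = f t) (h1 : ∀ t, |f t| ≤ 1)
    (h2 : ∀ t t', |f t - f t'| ≤ |t - t'|) :
    |br (mub A B (G.nu Λ)) (fun _ b => f (2 * π * B.H b) * φ b) -
      G.EA Λ fun s => f (2 * π * pr (hm 0 G.R) s) * φ s| ≤ 7 * M * (w / W) := by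
  have hM : 0 ≤ M := (abs_nonneg _).trans (hφ 0)
  rw [h.br_snd (v := fun b => f (2 * π * B.H b) * φ b) (fun a => abs_mul_le' (h1 _) (hφ a))
    ((h.iv_t hf).mul (iv_of dφ))]
  simp only [d2 dφ.dep, h.t_dat]
  rw [EA_eq, ← Ex_sub (h.wt.ig_bdd fun a => abs_mul_le' (h1 _) (hφ a))
    (h.wt.ig_bdd fun a => abs_mul_le' (h1 _) (hφ a))]
  refine (h.m_t.of_le h.wt (by positivity) fun s => ?_).abs_le h.wt
  rw [← sub_mul, mul_right_comm 7 M]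
  refine abs_mul_le' ((h2 _ _).trans ?_) (hφ s)
  rw [← mul_sub, abs_mul, abs_of_pos (by positivity : 0 < 2 * π)]
  exact mul_le_mul_of_nonneg_right (by linarith [pi_lt_d2]) (abs_nonneg _)

theorem badA (h : Ctx Λ G g W w A B p q κ) :
    Pr (rho Λ G) (fun s => ¬ A.T (G.dat s).1) ≤ (1 / W ^ 5) ^ 2 :=
  (h.wt.pr_mono fun _ _ h1 h2 => h1 h2.1).trans h.bad
theorem badB (h : Ctx Λ G g W w A B p q κ) :
    Pr (rho Λ G) (fun s => ¬ B.T (G.dat s).2) ≤ (1 / W ^ 5) ^ 2 :=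
  (h.wt.pr_mono fun _ _ h1 h2 => h1 h2.2).trans h.bad

/-- inner truncated observable -/
theorem br_tcA (h : Ctx Λ G g W w A B p q κ) (dF : DepG G.In F) (hF : ∀ s, |F s| ≤ N) (dX : DepG G.In X)
    (hU : 0 ≤ U) (hX : ∀ a, A.T a → |X a| ≤ U) (mX : L2 (rho Λ G) X x) :
    |br (mub A B (G.nu Λ)) (fun a _ => F a * tc A X a) - G.EA Λ fun s => F s * X s| ≤
      N * x * (1 / W ^ 5) := by
  have hN : 0 ≤ N := (abs_nonneg _).trans (hF 0)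
  have := h.W0
  rw [h.br_fst (u := fun a => F a * tc A X a) (fun a => abs_mul_le' (hF a) (abs_tc hU hX a))
    ((iv_of dF).mul (h.iv_tcA (iv_of dX)))]
  simp only [tc, d1 dF.dep, d1 dX.dep, mul_left_comm (F _)]
  exact (mX.bdd_mul h.wt hN hF).cut h.wt (by positivity) h.badA

/-- outer truncated observable against an inner one -/
theorem br_tcAB (h : Ctx Λ G g W w A B p q κ) (dF : DepG G.In F) (hF : ∀ s, |F s| ≤ N)
    (dφ : DepG G.Ou φ) (hφ : ∀ s, |φ s| ≤ M) (dX : DepG G.Ou X) (hU : 0 ≤ U)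
    (hX : ∀ a, B.T a → |X a| ≤ U) (mX : L2 (rho Λ G) X x) :
    |br (mub A B (G.nu Λ)) (fun a b => F a * (tc B X b * φ b)) - G.EA Λ fun s => F s * (X s * φ s)| ≤
      N * (x * M) * (1 / W ^ 5) := by
  have hN : 0 ≤ N := (abs_nonneg _).trans (hF 0)
  have hM : 0 ≤ M := (abs_nonneg _).trans (hφ 0)
  have := h.W0
  rw [h.br_mul (v := fun b => tc B X b * φ b) hF (fun a => abs_mul_le' (abs_tc hU hX a) (hφ a))
    (iv_of dF) ((h.iv_tcB (iv_of dX)).mul (iv_of dφ))]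
  simp only [tc, d1 dF.dep, d2 dX.dep, d2 dφ.dep, mul_assoc, mul_left_comm (F _) (ind _)]
  rw [← mul_assoc x, ← mul_assoc N]
  exact ((mX.mul_bdd h.wt hM hφ).bdd_mul h.wt hN hF).cut h.wt (by positivity) h.badB

/-- outer truncated observable -/
theorem br_tcB (h : Ctx Λ G g W w A B p q κ) (dφ : DepG G.Ou φ) (hφ : ∀ s, |φ s| ≤ M)
    (dX : DepG G.Ou X) (hU : 0 ≤ U) (hX : ∀ a, B.T a → |X a| ≤ U) (mX : L2 (rho Λ G) X x) :
    |br (mub A B (G.nu Λ)) (fun _ b => tc B X b * φ b) - G.EA Λ fun s => X s * φ s| ≤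
      x * M * (1 / W ^ 5) := by
  have := h.br_tcAB (F := fun _ => 1) (N := 1) (DepG.const _ _) (by simp) dφ hφ dX hU hX mX
  simpa only [one_mul] using this

theorem br_tcB' (h : Ctx Λ G g W w A B p q κ) (dX : DepG G.Ou X) (hU : 0 ≤ U)
    (hX : ∀ a, B.T a → |X a| ≤ U) (mX : L2 (rho Λ G) X x) :
    |br (mub A B (G.nu Λ)) (fun _ b => tc B X b) - G.EA Λ X| ≤ x * (1 / W ^ 5) := by
  have := h.br_tcB (φ := fun _ => 1) (M := 1) (DepG.const _ _) (by simp) dX hU hX mX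
  simpa only [mul_one] using this

theorem abs_EA (h : Ctx Λ G g W w A B p q κ) (hF : ∀ s, |F s| ≤ N) : |G.EA Λ F| ≤ N :=
  h.wt.abs_ex_le fun s _ => hF s

/-- the hypothesis `hy` of `Sec.odd'`, `Sec.even` -/
theorem hy (h : Ctx Λ G g W w A B p q κ) (a b : Cfg Pt) (ha : p a ≠ 0) (hb : q b ≠ 0) :
    |G.y0 a b / g - ∑ i, tc A (G.yi g i) a * tc B (G.di i) b| ≤ 2 * w / W ^ 2 := by
  simp only [tc_of _ (h.pT a ha), tc_of _ (h.qT b hb)]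
  exact h.y2 a b (h.pT a ha) (h.qT b hb)

theorem ng (h : Ctx Λ G g W w A B p q κ) (a : Cfg Pt) : A.ng a = -a := h.isI.2.1 a

end Ctx

end Crest.Agent.T145.Kr.H93
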