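import Crest.Agent.T145.KrDef_77
import Crest.Agent.T145.OmB_11

/-!
# Row 145, module KERNEL: the symmetries `HsyStmt` (helper11)
-/

set_option autoImplicit false

namespace Crest.Agent.T145.Kr

open Finset Nc

namespace Hs11

section gen
variable {V : Type*} [DecidableEq V] {m m' : Mdl V} {φ : V ≃ V} {ψ : V × V ≃ V × V}

theorem ends (hI : m.Iso m' φ ψ) (N : Finset V) (e : V × V) :
    ((ψ e).1 ∈ N.map φ.toEmbedding ∨ (ψ e).2 ∈ N.map φ.toEmbedding) ↔ (e.1 ∈ N ∨ e.2 ∈ N) := by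
  rcases hI.2.2.1 e with h | h <;> rw [h] <;> simp only [mem_map_equiv, Equiv.symm_apply_apply]
  exact or_comm

theorem iso_hole (hI : m.Iso m' φ ψ) (N : Finset V) :
    (hole m N).Iso (hole m' (N.map φ.toEmbedding)) φ ψ := by
  refine ⟨?_, ?_, hI.2.2.1, fun e he => hI.2.2.2.1 e (mem_filter.1 he).1,
    fun x hx => hI.2.2.2.2 x (mem_sdiff.1 hx).1⟩
  · simp only [hole, hI.1, Finset.map_sdiff]
  · ext e
    obtain ⟨e, rfl⟩ := ψ.surjective e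
    have := ends hI N e
    simp only [hole, hI.2.1, mem_filter, mem_map_equiv, Equiv.symm_apply_apply] at this ⊢
    tauto

theorem iso_loc (hI : m.Iso m' φ ψ) {B : Finset V} (hB : B ⊆ m.A) :
    (m.loc B).Iso (m'.loc (B.map φ.toEmbedding)) φ ψ := by
  refine ⟨rfl, ?_, hI.2.2.1, fun e he => hI.2.2.2.1 e (mem_filter.1 he).1,
    fun x hx => hI.2.2.2.2 x (hB hx)⟩
  ext e
  obtain ⟨e, rfl⟩ := ψ.surjective e
  have := ends hI B e
  simp only [Mdl.loc, Mdl.free, Mdl.keep, Mdl.edM, hI.2.1, mem_filter, mem_map_equiv,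
    Equiv.symm_apply_apply] at this ⊢
  tauto

theorem fm_loc (h : m.Fm) (B : Finset V) : (m.loc B).Fm := fun e he => h e (mem_filter.1 he).1

theorem W_neg (h : m.Fm) (hs : ∀ x k, m.site x k = 1) (η s : Cfg V) : m.W (-η) (-s) = m.W η s := by
  simp only [Mdl.W, dE_neg, Finsupp.neg_apply, neg_inj, hs]
  rw [prod_congr rfl fun e he => (h e he).even _]

theorem Zs_neg (h : m.Fm) (hs : ∀ x k, m.site x k = 1) (η : Cfg V) : Zs (m.W (-η)) = Zs (m.W η) := by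
  rw [← Zs_equiv (Equiv.neg (Cfg V))]
  simp only [Equiv.neg_apply, W_neg h hs]

theorem Ex_neg0 (h : m.Fm) (hs : ∀ x k, m.site x k = 1) (F : Cfg V → ℝ) :
    Ex (m.W 0) (fun t => F (-t)) = Ex (m.W 0) F := by
  have := Ex_equiv (Equiv.neg (Cfg V)) (m.W 0) F
  have e : ∀ b, m.W 0 (-b) = m.W 0 b := fun b => by simpa only [neg_zero] using W_neg h hs 0 b
  simpa only [Equiv.neg_apply, e] using this

end gen

variable {Λ : Lat}

theorem sym_pow {φ : Equiv.Perm Pt} (h : Λ.Sym φ) : ∀ n : ℕ, Λ.Sym (φ ^ n)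
  | 0 => fun _ _ => Iff.rfl
  | n + 1 => by rw [pow_succ]; exact h.trans (sym_pow h n)

theorem sym_gp (hΛ : Λ.Ok) (k : Fin 4 × Fin 2) : Λ.Sym (gp k) :=
  (sym_pow (Om.sym_swp hΛ 0) _).trans (sym_pow (Om.sym_rot hΛ 0) _)

theorem map_mul (φ ψ : Equiv.Perm Pt) (S : Finset Pt) :
    S.map (φ * ψ).toEmbedding = (S.map ψ.toEmbedding).map φ.toEmbedding := by
  rw [Finset.map_map]; rfl

theorem map_pow {φ : Equiv.Perm Pt} {S : Finset Pt} (h : S.map φ.toEmbedding = S) :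
    ∀ n : ℕ, S.map (φ ^ n).toEmbedding = S
  | 0 => Finset.map_refl
  | n + 1 => by rw [pow_succ, map_mul, h, map_pow h n]

theorem map_bl (k : Fin 4 × Fin 2) (R : ℕ) : (bl 0 R).map (gp k).toEmbedding = bl 0 R := by
  rw [gp, map_mul, map_pow (Om.map_bl_swp 0 R), map_pow (Om.map_bl_rot 0 R)]

theorem map_an (k : Fin 4 × Fin 2) (c R : ℕ) : (an 0 c R).map (gp k).toEmbedding = an 0 c R := by
  rw [an, Finset.map_sdiff, map_bl, map_bl]

theorem gp_zero (k : Fin 4 × Fin 2) : gp k 0 = 0 := by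
  have := mem_map_of_mem (gp k).toEmbedding (self_mem_bl (0 : Pt) 0)
  rw [map_bl, mem_bl] at this
  ext <;> simp only [Equiv.coe_toEmbedding, Prod.fst_zero, Prod.snd_zero] at this ⊢ <;> omega

theorem mapH_mul (φ ψ : Equiv.Perm Pt) (s : Cfg Pt) : mapH (φ * ψ) s = mapH φ (mapH ψ s) := by
  ext x; rfl

theorem inv_pow {F : Cfg Pt → ℝ} {φ : Equiv.Perm Pt} (h : ∀ s, F (mapH φ s) = F s) :
    ∀ (n : ℕ) (s : Cfg Pt), F (mapH (φ ^ n) s) = F s
  | 0, s => congrArg F (by ext x; rfl)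
  | n + 1, s => by rw [pow_succ', mapH_mul, h, inv_pow h n]

theorem d4_iff {F : Cfg Pt → ℝ} : D4 0 F ↔ ∀ k s, F (ga k s) = F s := by
  refine ⟨fun h k s => ?_, fun h s => ⟨?_, ?_⟩⟩
  · rw [ga_eq, gp, mapH_mul, inv_pow fun s => (h s).1, inv_pow fun s => (h s).2]
  · simpa [ga_eq, gp] using h (1, 0) s
  · simpa [ga_eq, gp] using h (0, 1) s

theorem hd_neg (hΛ : Λ.Ok) (B N U T : Finset Pt) (s : Cfg Pt) :
    hd (Λ.N B) N U T (-s) = hd (Λ.N B) N U T s := by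
  rw [hd, hd, Zs_neg (fm_loc (hole_fm (hΛ.ctr_N B).1 N) _) fun _ _ => rfl,
    Zs_neg (fm_loc (hΛ.ctr_N B).1 _) fun _ _ => rfl]

theorem hd_map (hΛ : Λ.Ok) {φ : Pt ≃ Pt} (h : Λ.Sym φ) {B N U T : Finset Pt}
    (hB : B.map φ.toEmbedding = B) (hN : N.map φ.toEmbedding = N) (hU : U.map φ.toEmbedding = U)
    (hT : T.map φ.toEmbedding = T) (h1 : U \ T ⊆ B \ N) (h2 : N ∪ U \ T ⊆ B) (s : Cfg Pt) :
    hd (Λ.N B) N U T (mapH φ s) = hd (Λ.N B) N U T s := by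
  have i0 := h.iso_N hΛ B
  have i1 := Md.zs_iso (fm_loc (hole_fm (hΛ.ctr_N B).1 N) _) (iso_loc (iso_hole i0 N) h1) s
  have i2 := Md.zs_iso (fm_loc (hΛ.ctr_N B).1 _) (iso_loc i0 h2) s
  simp only [Finset.map_sdiff, Finset.map_union, hB, hN, hU, hT, ← mapH_eq] at i1 i2
  rw [hd, hd, i1, i2]

theorem pn_N (U : Finset Pt) (r : Pt) : (pn (Λ.N U) U {r}).W = (Λ.Nr U r).W :=
  Mdl.W_ext (sdiff_singleton_eq_erase r U) (Lat.inn_edI subset_rfl) (fun _ _ => rfl) fun _ _ _ => rfl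

theorem nE_map (hΛ : Λ.Ok) {φ : Pt ≃ Pt} (h : Λ.Sym φ) {U : Finset Pt} (hU : U.map φ.toEmbedding = U)
    (hn : U.Nonempty) {F : Cfg Pt → ℝ} (hF : DepG U F) :
    Nc.nE (Λ.N U) U (fun t => F (mapH φ t)) = Nc.nE (Λ.N U) U F := by
  obtain ⟨r, hr⟩ := hn
  have hU' : U.map φ.symm.toEmbedding = U := by
    ext x
    rw [mem_map_equiv, Equiv.symm_symm]
    conv_lhs => rw [← hU, mem_map_equiv, Equiv.symm_apply_apply]
  have hF' := Om.depG_mapH hF φ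
  rw [hU'] at hF'
  rw [nE_root hr hF, nE_root hr hF', pn_N]
  exact (h.ex_Nr hΛ hU hr hr fun s k => hF.shift subset_rfl s k).symm

end Hs11

open Hs11 in
theorem hsyStmt : HsyStmt := fun Λ c R F hΛ => by
  refine ⟨Om.St_neg 0 R F, fun k s => (Om.St_map hΛ (sym_gp hΛ k) (map_bl k R) F s).symm,
    fun _ _ => ⟨hd_neg hΛ _ _ _ _, fun k s => ?_⟩,
    ⟨Ex_neg0 (hΛ.ctr_Nr _ _).1 (fun _ _ => rfl) F,
      fun k => Om.EN_map hΛ (sym_gp hΛ k) (map_bl k R) (gp_zero k) F⟩,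
    fun hc => ⟨Ex_neg0 (pn_fm (hΛ.ctr_N _).1 _ _) (fun _ _ => rfl) F, fun hF k => ?_⟩, d4_iff⟩
  · refine hd_map hΛ (sym_gp hΛ k) (map_bl k _) (map_bl k _) (map_an k _ _) (map_an k _ _)
      sdiff_subset (union_subset (bl_mono _ (by omega)) (sdiff_subset.trans sdiff_subset)) s
  · refine nE_map hΛ (sym_gp hΛ k) (map_an k _ _) ⟨((R : ℤ), 0), ?_⟩ hF
    simp only [an, mem_sdiff, mem_bl, Prod.fst_zero, Prod.snd_zero]
    omega

end Crest.Agent.T145.Kr
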