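import Crest.Agent.T145.KrHolA_93
import Crest.Agent.T145.KrHsy_11
import Crest.Agent.T145.NcGeo_51
import Crest.Agent.T145.Route_51
import Crest.Agent.T145.Soft_23

/-!
# Row 145, module KERNEL, HOL: the fields `any`, `anyd`, `anydd`, `odd`; construction of `Ctx` (helper93)
-/

set_option autoImplicit false

namespace Crest.Agent.T145.Kr.H93

open Finset Real KrA

namespace Ctx
variable {Λ : Lat} {G : Gm} {g W w : ℝ} {A B : Act (Cfg Pt)} {p q : Cfg Pt → ℝ}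
  {κ : Cfg Pt → Cfg Pt → ℝ} {F φ X : Cfg Pt → ℝ} {U N M x : ℝ}

theorem mon (h : Ctx Λ G g W w A B p q κ) {a b a' b' : ℕ} (ha : a ≤ a') (hb : b' ≤ b) :
    w ^ a / W ^ b ≤ w ^ a' / W ^ b' := by
  have := h.W0; have := h.w0
  exact div_le_div₀ (by positivity) (pow_le_pow_right₀ (by linarith [h.w1]) ha) (by positivity)
    (pow_le_pow_right₀ (by linarith [h.gok.hW]) hb)

theorem fin (h : Ctx Λ G g W w A B p q κ) (a b : ℕ) :
    1000 * (w ^ a / W ^ b) ≤ w ^ (a + 1) / W ^ b := by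
  have := h.W0; have := h.w0
  rw [← mul_div_assoc, pow_succ, mul_comm]
  exact div_le_div_of_nonneg_right (mul_le_mul_of_nonneg_left h.w1 (by positivity)) (by positivity)

theorem eta (h : Ctx Λ G g W w A B p q κ) : 1 / W ^ 9 + 3 * (w ^ 4 / W) ≤ 4 * (w ^ 4 / W) := by
  have := h.mon (a := 0) (b := 9) (a' := 4) (b' := 1) (by norm_num) (by norm_num)
  rw [pow_zero, pow_one] at this; linarith

theorem any (h : Ctx Λ G g W w A B p q κ) (dF : DepG G.In F) (hF : ∀ s, |F s| ≤ N) (dφ : DepG G.Ou φ)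
    (hφ : ∀ s, |φ s| ≤ M) :
    |G.EA Λ (fun s => F s * φ s) - G.EA Λ F * G.EA Λ φ| ≤ w ^ 6 / W * (N * M) := by
  have hN : 0 ≤ N := (abs_nonneg _).trans (hF 0)
  have hM : 0 ≤ M := (abs_nonneg _).trans (hφ 0)
  have k := Sec.any h.sec.toFac hN hF hM hφ
  rw [h.br_FF dF hF dφ hφ, h.br_F dF hF, h.br_φ dφ hφ] at k
  refine k.trans (mul_le_mul_of_nonneg_right ?_ (mul_nonneg hN hM))
  have h1 := h.eta
  have h2 := h.fin 4 1
  have h3 := h.mon (a := 4 + 1) (b := 1) (a' := 6) (b' := 1) (by norm_num) le_rfl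
  have h4 : 0 ≤ w ^ 4 / W := by have := h.W0; positivity
  rw [pow_one] at h2 h3; linarith

theorem anyX (h : Ctx Λ G g W w A B p q κ) (dF : DepG G.In F) (hF : ∀ s, |F s| ≤ N)
    (dφ : DepG G.Ou φ) (hφ : ∀ s, |φ s| ≤ M) (dX : DepG G.Ou X) (hU : 0 ≤ U)
    (hX : ∀ a, B.T a → |X a| ≤ w ^ 2 * U) (mX : L2 (rho Λ G) X (w * U)) :
    |G.EA Λ (fun s => F s * (X s * φ s)) - G.EA Λ F * G.EA Λ fun s => X s * φ s| ≤
      w ^ 8 / W * U * (N * M) := by
  have hN : 0 ≤ N := (abs_nonneg _).trans (hF 0)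
  have hM : 0 ≤ M := (abs_nonneg _).trans (hφ 0)
  have hW := h.W0
  have hw := h.w0
  have hU' : 0 ≤ w ^ 2 * U := by positivity
  have k := Sec.any h.sec.toFac hN hF (φ := fun b => tc B X b * φ b) (mul_nonneg hU' hM)
    fun b => abs_mul_le' (abs_tc hU' hX b) (hφ b)
  rw [h.br_F dF hF] at k
  have k1 := h.br_tcAB dF hF dφ hφ dX hU' hX mX
  have k2 := abs_mul_le' (h.abs_EA hF) (h.br_tcB dφ hφ dX hU' hX mX)
  rw [mul_sub] at k2
  have e : 8 * (1 / W ^ 9 + 3 * (w ^ 4 / W)) * w ^ 2 + 2 * (w / W ^ 5) ≤ w ^ 8 / W := by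
    have h1 := mul_le_mul_of_nonneg_right h.eta (sq_nonneg w)
    have h2 := h.fin 6 1
    have h3 := h.mon (a := 6 + 1) (b := 1) (a' := 8) (b' := 1) (by norm_num) le_rfl
    have h4 := h.mon (a := 1) (b := 5) (a' := 6) (b' := 1) (by norm_num) (by norm_num)
    have h5 : w ^ 4 / W * w ^ 2 = w ^ 6 / W := by ring
    have h6 : 0 ≤ w ^ 6 / W := by positivity
    simp only [pow_one] at h2 h3 h4; nlinarith
  have e' := mul_le_mul_of_nonneg_right e (mul_nonneg hU (mul_nonneg hN hM))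
  have e1 : N * (w * U * M) * (1 / W ^ 5) = w / W ^ 5 * (U * (N * M)) := by ring
  have e2 : N * (w * U * M * (1 / W ^ 5)) = w / W ^ 5 * (U * (N * M)) := by ring
  rw [e1] at k1; rw [e2] at k2
  rw [abs_le] at *
  constructor <;> linarith [k.1, k.2, k1.1, k1.2, k2.1, k2.2]

theorem anyd (h : Ctx Λ G g W w A B p q κ) (dF : DepG G.In F) (hF : ∀ s, |F s| ≤ N)
    (dφ : DepG G.Ou φ) (hφ : ∀ s, |φ s| ≤ M) (i : Fin 2) :
    |G.EA Λ (fun s => F s * (G.di i s * φ s)) - G.EA Λ F * G.EA Λ fun s => G.di i s * φ s| ≤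
      w ^ 8 / W / G.R * (N * M) := by
  have hR := h.R0
  have hw := h.w0
  rw [div_eq_mul_one_div (w ^ 8 / W)]
  refine h.anyX dF hF dφ hφ (h.ddi i) (by positivity) (fun a ha => (h.di a i ha).trans ?_)
    (by rw [mul_one_div]; exact h.m_d i)
  rw [mul_one_div]
  exact div_le_div_of_nonneg_right (by nlinarith [h.w1]) hR.le

theorem anydd (h : Ctx Λ G g W w A B p q κ) (dF : DepG G.In F) (hF : ∀ s, |F s| ≤ N)
    (dφ : DepG G.Ou φ) (hφ : ∀ s, |φ s| ≤ M) (i j : Fin 2) :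
    |G.EA Λ (fun s => F s * (G.di i s * G.di j s * φ s)) -
      G.EA Λ F * G.EA Λ fun s => G.di i s * G.di j s * φ s| ≤ w ^ 8 / W / (G.R : ℝ) ^ 2 * (N * M) := by
  have hR := h.R0
  rw [div_eq_mul_one_div (w ^ 8 / W)]
  exact h.anyX dF hF dφ hφ ((h.ddi i).mul (h.ddi j)) (by positivity)
    (fun a ha => (abs_mul_le' (h.di a i ha) (h.di a j ha)).trans_eq (by ring))
    (by rw [mul_one_div]; exact h.m_dd i j)

theorem odd (h : Ctx Λ G g W w A B p q κ) (dF : DepG G.In F) (hF : ∀ s, |F s| ≤ N)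
    (dφ : DepG G.Ou φ) (hφ : ∀ s, |φ s| ≤ M) (ho : OddF F) (h4 : ∀ k s, F (ga k s) = F s) :
    |G.EA Λ (fun s => F s * φ s) - 2 * G.lam g * G.EA Λ (fun s => F s * sn G.eq s) *
      G.EA Λ fun s => sn (hm 0 G.R) s * φ s| ≤ w ^ 10 / W ^ 3 * (N * M) := by
  have hN : 0 ≤ N := (abs_nonneg _).trans (hF 0)
  have hM : 0 ≤ M := (abs_nonneg _).trans (hφ 0)
  have hW := h.W0
  have hw := h.w0
  have hl := h.lam0
  have k := h.sec.odd univ univ_nonempty ga (fun k _ => h.pga k) (β₃ := w / W ^ 3) (by positivity)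
    (fun a b ha hb => (h.y3 a b (h.pT a ha) (h.qT b hb)).trans (by
      have : 0 ≤ w / W ^ 3 := by positivity
      simp only [card_univ, Fintype.card_prod, Fintype.card_fin]
      rw [mul_div_assoc]; push_cast; linarith))
    hN hF (fun a => by rw [h.ng, ho]) (fun k _ => h4 k) hM hφ
  rw [h.br_FF dF hF dφ hφ, h.br_FH dF hF sin_add_int_mul_two_pi abs_sin_le_one] at k
  have k1 := h.br_tφ dφ hφ sin_add_int_mul_two_pi abs_sin_le_one abs_sin_sub_sin_le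
  have k2 : |G.EA Λ fun s => F s * sin (2 * π * pr G.eq s)| ≤ N :=
    h.abs_EA fun s => by simpa using abs_mul_le' (hF s) (abs_sin_le_one _)
  have k3 := abs_mul_le' (abs_mul_le' (abs_of_nonneg (by positivity : 0 ≤ 2 * G.lam g)).le k2) k1
  rw [mul_sub] at k3
  have e : 1 / W ^ 9 + 3 * (w ^ 8 / W ^ 3 + w / W ^ 3) + 14 * G.lam g * (1 / W ^ 9 + 3 * (w ^ 4 / W)) +
      14 * (G.lam g * (w / W)) ≤ w ^ 10 / W ^ 3 := by
    have h1 : G.lam g * (1 / W ^ 9 + 3 * (w ^ 4 / W)) ≤ w ^ 5 / W ^ 2 * (4 * (w ^ 4 / W)) :=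
      mul_le_mul h.lam h.eta (by positivity) (by positivity)
    have h2 : G.lam g * (w / W) ≤ w ^ 5 / W ^ 2 * (w / W) :=
      mul_le_mul_of_nonneg_right h.lam (by positivity)
    have h3 := h.fin 9 3
    have h5 := h.mon (a := 0) (b := 9) (a' := 9) (b' := 3) (by norm_num) (by norm_num)
    have h6 := h.mon (a := 8) (b := 3) (a' := 9) (b' := 3) (by norm_num) le_rfl
    have h7 := h.mon (a := 1) (b := 3) (a' := 9) (b' := 3) (by norm_num) le_rfl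
    have h8 := h.mon (a := 6) (b := 3) (a' := 9) (b' := 3) (by norm_num) le_rfl
    have h9 : 0 ≤ w ^ 9 / W ^ 3 := by positivity
    have e1 : w ^ 5 / W ^ 2 * (4 * (w ^ 4 / W)) = 4 * (w ^ 9 / W ^ 3) := by ring
    have e2 : w ^ 5 / W ^ 2 * (w / W) = w ^ 6 / W ^ 3 := by ring
    simp only [pow_zero, pow_one] at h5 h7
    rw [e1] at h1; rw [e2] at h2; linarith
  have e' := mul_le_mul_of_nonneg_right e (mul_nonneg hN hM)
  simp only [sn]
  rw [abs_le] at *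
  constructor <;> linarith [k.1, k.2, k3.1, k3.2]

end Ctx

theorem rp {W ε x : ℝ} (hW : 0 < W) (a b : ℕ) (hx : x = ε / 4 * a - b) :
    W ^ x = (W ^ (ε / 4)) ^ a / W ^ b := by
  rw [hx, rpow_sub hW, rpow_mul hW.le, rpow_natCast, rpow_natCast]

theorem depG_of {S T U : Finset Pt} {f : Pt → ℝ} {n : ℝ} (hS : Sup S f) (h1 : S ⊆ T)
    (hf : F2 (Pot.nL.edI U) f n) : DepG T fun s => pr f s := by
  refine DepG.pr (fun x hx => hS x fun h => hx (h1 h)) ?_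
  rw [sum_subset (subset_union_left (s₂ := U)) fun x _ hx => hS x fun h => hx (h1 h)]
  obtain ⟨ψ, rfl, -⟩ := hf
  exact sum_dv _ fun e he => ⟨mem_union_right _ (Lat.mem_edI.1 he).2.1,
    mem_union_right _ (Lat.mem_edI.1 he).2.2⟩

theorem om_ok {Λ : Lat} {G : Gm} {W : ℝ} (hΛ : Λ.Ok) (h : G.Ok W) :
    (Nc.pn (Λ.N G.Om) G.Om (Nc.rs G.Om)).Ctr ∧ (Nc.pn (Λ.N G.Om) G.Om (Nc.rs G.Om)).Anch := by
  have h1 : G.c < G.R₂ := by have := h.hc; have := h.hr; have := r_le_R h; have := h.out; omega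
  obtain ⟨r, hr, e⟩ := Nc.rs_spec (U := G.Om) (Nc.Geo.an_nonempty 0 h1)
  exact ⟨Nc.pn_ctr (hΛ.ctr_N _).1 _ _, Nc.pn_anch ((Nc.Geo.inL_N subset_rfl).cn (Nc.Geo.cnL_an hΛ 0 h1))
    hr (e ▸ mem_singleton_self r)⟩

/-- moments in the free annulus -/
theorem mom (hM : MomStmt) (F : Fa) (k : ℕ) : ∃ C : ℝ, 0 < C ∧ ∀ Λ, F.Mem Λ → ∀ (G : Gm) (W : ℝ),
    G.Ok W → ∀ (f : Pt → ℝ) (n : ℝ), 0 < n → (G.Ic f n ∨ G.Oc f n) →
      Ig (rho Λ G) (fun s => pr f s ^ (2 * k)) ∧ Ex (rho Λ G) (fun s => pr f s ^ (2 * k)) ≤ C * n ^ k := by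
  obtain ⟨C, hC, H⟩ := hM F k
  refine ⟨C, hC, fun Λ hΛ G W h f n hn hf => ?_⟩
  obtain ⟨hc, ha⟩ := om_ok hΛ.ok h
  have key : ∀ U ⊆ G.Om, F2 (Pot.nL.edI U) f n → Ex (rho Λ G) (fun s => pr f s ^ (2 * k)) ≤ C * n ^ k :=
    fun U hU hf => (H Λ hΛ _ (Pot.nL.edI U) Unit {()} (fun _ => f) n hc ha (fun e he => by
      have := Lat.mem_edI.1 he
      exact mem_inn.2 ⟨Lat.mem_edI.2 ⟨Pot.nn_subset hΛ.ok this.1, hU this.2.1, hU this.2.2⟩,
        hU this.2.1, hU this.2.2⟩) (fun _ _ => rfl) hn fun _ _ => hf).1 () (mem_singleton_self _)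
  have := h.hc; have := h.hr; have := r_le_R h; have := h.out
  refine ⟨(hc.cen ha).ig ((Tame.hom _).pow _), hf.elim (fun hf => key _ ?_ hf.2) fun hf => key _ ?_ hf.2⟩ <;>
    exact Nc.Geo.an_mono 0 (by omega) (by omega)

/-- construction of the context -/
theorem ctx (hB : BarStmt) (h3 : K3Stmt) (hM : MomStmt) (hA : AlgStmt) (F : Fa) {ε : ℝ} (hε : 0 < ε)
    (hε' : ε ≤ 1 / 4) : ∃ W₁ : ℝ, ∀ W, W₁ ≤ W → ∀ Λ, F.Mem Λ → ∀ (G : Gm) (g : ℝ), G.Ok W →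
      2 - ε ≤ π * g → G.Ksh Λ g W ε → ∃ A B p q κ, Ctx Λ G g W (W ^ (ε / 4)) A B p q κ := by
  obtain ⟨C₃, c3, H3⟩ := h3
  obtain ⟨C₁, c1, H1⟩ := mom hM F 1
  obtain ⟨C₂, c2, H2⟩ := mom hM F 2
  set D : ℝ := 1000 + 16 * (C₁ * C₃ + C₂ * C₃ ^ 2) with hD
  have p1 : 0 < C₁ * C₃ := by positivity
  have p2 : 0 < C₂ * C₃ ^ 2 := by positivity
  refine ⟨D ^ (ε / 4)⁻¹, fun W hW Λ hΛ G g h hg ⟨A₂, A, B, p, q, κ, hT, hS, pga, pT, qT, hl⟩ => ?_⟩
  have W1 : 1 ≤ W := by linarith [h.hW]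
  have W0 : 0 < W := by linarith
  have hw : D ≤ W ^ (ε / 4) := by
    rwa [← rpow_inv_le_iff_of_pos (by positivity) W0.le (by positivity)]
  set w := W ^ (ε / 4) with hwd
  have w1 : 1000 ≤ w := by linarith
  have d1 : 16 * (C₁ * C₃) ≤ w ^ 2 := by nlinarith
  have d2 : 16 * (C₂ * C₃ ^ 2) ≤ w ^ 2 := by nlinarith
  have g1 : 1 / 2 ≤ g := by nlinarith [pi_lt_d2, pi_pos]
  have g0 : 0 < g := by linarith
  have dv2 : ∀ {x y : ℝ}, |x| ≤ y → |x / g| ≤ 2 * y := fun {x y} hx => by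
    rw [abs_div, abs_of_pos g0, div_le_iff₀ g0]; nlinarith [abs_nonneg x]
  have r0 : (0 : ℝ) < G.r := by have := h.hr; exact_mod_cast (by omega : 0 < G.r)
  have R0 : (0 : ℝ) < G.R := (mul_pos W0 r0).trans_le h.lo
  obtain ⟨-, K2, K3, -⟩ := H3 G W h
  obtain ⟨hc, ha⟩ := om_ok hΛ.ok h
  have wt : Wt (rho Λ G) := (hc.cen ha).wt
  have l2 : ∀ {f : Pt → ℝ} {v : ℝ}, 0 < v → (G.Ic f (C₃ * v ^ 2) ∨ G.Oc f (C₃ * v ^ 2)) →
      L2 (rho Λ G) (fun s => pr f s) (w / 2 * v) := fun {f v} hv hf => by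
    obtain ⟨i, b⟩ := H1 Λ hΛ G W h f _ (by positivity) hf
    exact ⟨i, by positivity, b.trans (by nlinarith [sq_nonneg v])⟩
  have l4 : ∀ {f f' : Pt → ℝ} {v : ℝ}, 0 < v → (G.Ic f (C₃ * v ^ 2) ∨ G.Oc f (C₃ * v ^ 2)) →
      (G.Ic f' (C₃ * v ^ 2) ∨ G.Oc f' (C₃ * v ^ 2)) →
      L2 (rho Λ G) (fun s => pr f s * pr f' s) (w / 4 * v ^ 2) := fun {f f' v} hv hf hf' => by
    obtain ⟨i, b⟩ := H2 Λ hΛ G W h f _ (by positivity) hf
    obtain ⟨i', b'⟩ := H2 Λ hΛ G W h f' _ (by positivity) hf'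
    have : C₂ * (C₃ * v ^ 2) ^ 2 ≤ (w / 4 * v ^ 2) ^ 2 := by nlinarith [sq_nonneg (v ^ 2)]
    exact L2.of_four wt (by positivity) i i' (b.trans this) (b'.trans this)
  have eR : C₃ / (G.R : ℝ) ^ 2 = C₃ * (1 / G.R) ^ 2 := by ring
  have eW : C₃ / W ^ 2 = C₃ * (1 / W) ^ 2 := by ring
  rw [eR] at K2; rw [eW] at K3
  refine ⟨A, B, p, q, κ, hA G W h, h, wt, w1, ?_, hT.isI, hT.isO, ?_, pga, pT, qT, ?_,
    (hB Λ G W g A B hΛ.ok h hT.isI hT.isO).2.2.2.2, ?_, fun a b ha hb => ?_, fun a b ha hb => ?_,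
    fun a i ha => ?_, fun b i hb => hT.di b i hb,
    fun i => (depG_of (K2 i).1.1 (sub_In h) (K2 i).1.2).comp (· / g),
    fun i => depG_of (K2 i).2.1 (sub_Ou h) (K2 i).2.2, fun i => ?_, fun i j => ?_, fun i => ?_,
    fun i j => ?_, ?_⟩
  · have := rp (ε := ε) W0 16 0 rfl
    rw [pow_zero, div_one] at this
    rw [← this]
    exact (rpow_le_rpow_of_exponent_le W1 (by push_cast; linarith)).trans_eq (rpow_one W)
  · rwa [rp (ε := ε) W0 0 9 (by simp), rp (x := -1 + ε) (ε := ε) W0 4 1 (by push_cast; ring),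
      rp (x := -3 + 2 * ε) (ε := ε) W0 8 3 (by push_cast; ring),
      rp (x := -1 + ε / 2) (ε := ε) W0 2 1 (by push_cast; ring), pow_zero, pow_one] at hS
  · rwa [rp (ε := ε) W0 5 2 (by push_cast; ring)] at hl
  · have := hT.bad
    rw [rp (ε := ε) W0 0 10 (by simp)] at this
    exact this.trans_eq (by ring)
  · have := dv2 (hT.y2 a b ha hb)
    rw [rp (ε := ε) W0 1 2 (by push_cast; ring), pow_one, sub_div, sum_div] at this
    simpa only [Gm.yi, div_mul_eq_mul_div, mul_div_assoc] using this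
  · have := dv2 (hT.y3 a b ha hb)
    rw [rp (ε := ε) W0 1 3 (by push_cast; ring), pow_one, sum_div] at this
    simpa only [mul_div_assoc] using this
  · exact (dv2 (hT.yi a i ha)).trans_eq (by ring)
  · exact ((l2 r0 (Or.inl (K2 i).1)).of_le wt zero_le_two fun s => dv2 le_rfl).mono (le_of_eq (by ring))
  · refine ((l4 r0 (Or.inl (K2 i).1) (Or.inl (K2 j).1)).of_le wt zero_le_four fun s => ?_).mono
      (le_of_eq (by ring))
    exact (abs_mul_le' (dv2 le_rfl) (dv2 le_rfl)).trans_eq (by rw [abs_mul]; ring)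
  · exact (l2 (by positivity) (Or.inr (K2 i).2)).mono (by
      rw [mul_one_div]; exact div_le_div_of_nonneg_right (by linarith) R0.le)
  · exact (l4 (by positivity) (Or.inr (K2 i).2) (Or.inr (K2 j).2)).mono (by
      rw [div_pow, one_pow, mul_one_div]; exact div_le_div_of_nonneg_right (by linarith) (by positivity))
  · have := (l2 (by positivity) (Or.inr K3)).mono (v' := w / W) (by
      rw [mul_one_div]; exact div_le_div_of_nonneg_right (by linarith) W0.le)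
    simpa only [pr_sub, AddMonoidHom.sub_apply] using this

end Crest.Agent.T145.Kr.H93
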