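import Crest.Agent.T145.KrHolA_93

/-!
# Row 145, module KERNEL, HOL: the fields `vec` and `even` (helper46)
-/

set_option autoImplicit false

namespace Crest.Agent.T145.Kr.H46

open Finset Real KrA H93

theorem mono_le {w x : ℝ} (w0 : 0 ≤ w) (w1 : w ≤ 1) (x1 : 1 ≤ x) (a a' b b' : ℕ) (ha : a ≤ a')
    (hb : b' ≤ b) : w ^ a' * x ^ b' ≤ w ^ a * x ^ b :=
  mul_le_mul (pow_le_pow_of_le_one w0 w1 ha) (pow_le_pow_right₀ x1 hb) (by positivity) (by positivity)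

theorem ar_vec {w x lam P : ℝ} (w0 : 0 ≤ w) (w1 : w * x ^ 16 ≤ 1) (hx : 1000 ≤ x) (l0 : 0 ≤ lam)
    (hl : lam ≤ w ^ 2 * x ^ 5) (P0 : 0 ≤ P) (hP : P ≤ 2 * (w * x ^ 2)) :
    w ^ 9 + 3 * (w ^ 3 * x ^ 8 + 2 * (w ^ 2 * x)) + 7 * (w ^ 9 + 3 * (w * x ^ 4)) * (2 * lam + 2 * P) +
      2 * lam + 8 * (w ^ 6 * x ^ 2) ≤ w ^ 2 * x ^ 10 := by
  have x1 : 1 ≤ x := by linarith
  have h3 : w * x ^ 3 ≤ 1 :=
    (mul_le_mul_of_nonneg_left (pow_le_pow_right₀ x1 (by norm_num)) w0).trans w1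
  have w1' : w ≤ 1 := (le_mul_of_one_le_right w0 (one_le_pow₀ x1)).trans w1
  have m := mono_le w0 w1' x1
  have a1 : w ^ 9 ≤ w * x ^ 4 := by simpa using m 1 9 4 0 (by norm_num) (by norm_num)
  have a2 : lam ≤ w * x ^ 2 := hl.trans (by
    rw [show w ^ 2 * x ^ 5 = w * x ^ 2 * (w * x ^ 3) by ring]
    exact mul_le_of_le_one_right (by positivity) h3)
  have a3 : 7 * (w ^ 9 + 3 * (w * x ^ 4)) * (2 * lam + 2 * P) ≤
      7 * (4 * (w * x ^ 4)) * (6 * (w * x ^ 2)) :=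
    mul_le_mul (by linarith) (by linarith) (by positivity) (by positivity)
  have b1 : w ^ 9 ≤ w ^ 2 * x ^ 9 := by simpa using m 2 9 9 0 (by norm_num) (by norm_num)
  have b2 := m 2 3 9 8 (by norm_num) (by norm_num)
  have b3 : w ^ 2 * x ≤ w ^ 2 * x ^ 9 := by simpa using m 2 2 9 1 (by norm_num) (by norm_num)
  have b4 := m 2 2 9 6 (by norm_num) (by norm_num)
  have b5 := m 2 2 9 5 (by norm_num) (by norm_num)
  have b6 := m 2 6 9 2 (by norm_num) (by norm_num)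
  have b7 : 1000 * (w ^ 2 * x ^ 9) ≤ w ^ 2 * x ^ 10 := by
    rw [show w ^ 2 * x ^ 10 = x * (w ^ 2 * x ^ 9) by ring]
    exact mul_le_mul_of_nonneg_right hx (by positivity)
  have b8 : 0 ≤ w ^ 2 * x ^ 9 := by positivity
  have e : 7 * (4 * (w * x ^ 4)) * (6 * (w * x ^ 2)) = 168 * (w ^ 2 * x ^ 6) := by ring
  linarith

theorem ar_even {w x lam P : ℝ} (w0 : 0 ≤ w) (w1 : w * x ^ 16 ≤ 1) (hx : 1000 ≤ x) (l0 : 0 ≤ lam)
    (hl : lam ≤ w ^ 2 * x ^ 5) (P0 : 0 ≤ P) (hP : P ≤ 2 * (w * x ^ 2)) :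
    2 * w ^ 9 + 6 * (w ^ 3 * x ^ 8 + 2 * (w ^ 2 * x) * (w * x ^ 2 + 2 * (w ^ 2 * x))) +
      30 * (w ^ 9 + 3 * (w * x ^ 4)) * (2 * lam + (2 * P) ^ 2) + 42 * (lam * (x * w)) +
      64 * (w ^ 7 * x ^ 2) ≤ w ^ 3 * x ^ 10 := by
  have x1 : 1 ≤ x := by linarith
  have w1' : w ≤ 1 := (le_mul_of_one_le_right w0 (one_le_pow₀ x1)).trans w1
  have m := mono_le w0 w1' x1
  have a1 : w ^ 9 ≤ w * x ^ 4 := by simpa using m 1 9 4 0 (by norm_num) (by norm_num)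
  have a2 : (2 * P) ^ 2 ≤ w ^ 2 * x ^ 5 := by
    refine (pow_le_pow_left₀ (by positivity) (by linarith : 2 * P ≤ 4 * (w * x ^ 2)) 2).trans ?_
    rw [show w ^ 2 * x ^ 5 = x * (w * x ^ 2) ^ 2 by ring, mul_pow]
    exact mul_le_mul_of_nonneg_right (by linarith) (by positivity)
  have a3 : 30 * (w ^ 9 + 3 * (w * x ^ 4)) * (2 * lam + (2 * P) ^ 2) ≤
      30 * (4 * (w * x ^ 4)) * (3 * (w ^ 2 * x ^ 5)) :=
    mul_le_mul (by linarith) (by linarith) (by positivity) (by positivity)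
  have a4 : lam * (x * w) ≤ w ^ 2 * x ^ 5 * (x * w) := mul_le_mul_of_nonneg_right hl (by positivity)
  have b1 : w ^ 9 ≤ w ^ 3 * x ^ 9 := by simpa using m 3 9 9 0 (by norm_num) (by norm_num)
  have b2 := m 3 3 9 8 (by norm_num) (by norm_num)
  have b3 := m 3 3 9 3 (by norm_num) (by norm_num)
  have b4 := m 3 4 9 2 (by norm_num) (by norm_num)
  have b5 := m 3 3 9 6 (by norm_num) (by norm_num)
  have b6 := m 3 7 9 2 (by norm_num) (by norm_num)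
  have b7 : 1000 * (w ^ 3 * x ^ 9) ≤ w ^ 3 * x ^ 10 := by
    rw [show w ^ 3 * x ^ 10 = x * (w ^ 3 * x ^ 9) by ring]
    exact mul_le_mul_of_nonneg_right hx (by positivity)
  have b8 : 0 ≤ w ^ 3 * x ^ 9 := by positivity
  have e : 30 * (4 * (w * x ^ 4)) * (3 * (w ^ 2 * x ^ 5)) = 360 * (w ^ 3 * x ^ 9) := by ring
  have e2 : 2 * (w ^ 2 * x) * (w * x ^ 2 + 2 * (w ^ 2 * x)) =
      2 * (w ^ 3 * x ^ 3) + 4 * (w ^ 4 * x ^ 2) := by ring
  have e3 : w ^ 2 * x ^ 5 * (x * w) = w ^ 3 * x ^ 6 := by ring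
  linarith

theorem abs_sub_le' {a b A B : ℝ} (ha : |a| ≤ A) (hb : |b| ≤ B) : |a - b| ≤ A + B :=
  (abs_sub _ _).trans (add_le_add ha hb)

theorem abs_of_near {a b A e : ℝ} (h : |a - b| ≤ e) (hb : |b| ≤ A) : |a| ≤ e + A := by
  rw [show a = (a - b) + b by ring]; exact (abs_add_le _ _).trans (add_le_add h hb)

variable {Λ : Lat} {G : Gm} {g W w : ℝ} {A B : Act (Cfg Pt)} {p q : Cfg Pt → ℝ}
  {κ : Cfg Pt → Cfg Pt → ℝ} {F φ : Cfg Pt → ℝ} {N M : ℝ}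

theorem base (h : Ctx Λ G g W w A B p q κ) : 0 ≤ W⁻¹ ∧ W⁻¹ * w ^ 16 ≤ 1 ∧ G.lam g ≤ W⁻¹ ^ 2 * w ^ 5 ∧
    0 ≤ 2 * w * G.r * (w / G.R) ∧ 2 * w * G.r * (w / G.R) ≤ 2 * (W⁻¹ * w ^ 2) ∧
    (G.r : ℝ) / G.R ≤ W⁻¹ ∧ 1 / W ^ 5 ≤ 1 := by
  have := h.W0; have := h.w0; have := h.R0; have := h.r0
  have r := h.rR
  rw [one_div] at r
  refine ⟨by positivity, ?_, h.lam.trans (le_of_eq (by field_simp)), by positivity, ?_, r, ?_⟩
  · rw [inv_mul_le_iff₀ h.W0, mul_one]; exact h.w2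
  · rw [show 2 * w * G.r * (w / G.R) = 2 * (G.r / G.R * w ^ 2) by ring]
    gcongr
  · rw [div_le_one (by positivity)]; exact one_le_pow₀ (by linarith [h.gok.hW])

/-- the field `vec` of `Gm.Hol` -/
theorem vec (h : Ctx Λ G g W w A B p q κ) (dF : DepG G.In F) (hF : ∀ s, |F s| ≤ N) (dφ : DepG G.Ou φ)
    (hφ : ∀ s, |φ s| ≤ M) (ho : OddF F) : |G.EA Λ (fun s => F s * φ s) -
      ∑ i, G.EA Λ (fun s => F s * G.yi g i s) * G.EA Λ fun s => G.di i s * φ s| ≤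
      w ^ 10 / W ^ 2 * (N * M) := by
  have hN : 0 ≤ N := (abs_nonneg _).trans (hF 0)
  have hM : 0 ≤ M := (abs_nonneg _).trans (hφ 0)
  have := h.W0; have := h.w0; have := h.R0; have := h.r0; have l0 := h.lam0
  obtain ⟨u0, u1, u2, u3, u4, u5, u6⟩ := base h
  have y0 : 0 ≤ 2 * w * G.r := by positivity
  have d0 : 0 ≤ w / G.R := by positivity
  have key := h.sec.odd' univ (yy := fun i => tc A (G.yi g i)) (d := fun i => tc B (G.di i)) y0 d0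
    (by positivity : 0 ≤ 2 * w / W ^ 2) (fun i _ => abs_tc y0 fun a ha => h.yi a i ha)
    (fun i _ => abs_tc d0 fun a ha => h.di a i ha) h.hy hN hF (fun a => by rw [h.ng, ho]) hM hφ
  rw [h.br_FF dF hF dφ hφ] at key
  have s1 : |2 * G.lam g * br (mub A B (G.nu Λ)) (fun a _ => F a * sin (2 * π * A.H a)) *
      br (mub A B (G.nu Λ)) (fun _ b => sin (2 * π * B.H b) * φ b)| ≤ 2 * G.lam g * (N * 1) * (1 * M) :=
    abs_mul_le' (abs_mul_le' (abs_of_nonneg (by positivity)).le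
      (h.sec.toFac.abs_br fun a _ => abs_mul_le' (hF a) (abs_sin_le_one _)))
      (h.sec.toFac.abs_br fun _ b => abs_mul_le' (abs_sin_le_one _) (hφ b))
  have s2 : ∀ i, |br (mub A B (G.nu Λ)) (fun a _ => F a * tc A (G.yi g i) a) *
      br (mub A B (G.nu Λ)) (fun _ b => tc B (G.di i) b * φ b) -
      G.EA Λ (fun s => F s * G.yi g i s) * G.EA Λ fun s => G.di i s * φ s| ≤
      N * M * (4 * (W⁻¹ ^ 6 * w ^ 2)) := fun i => by
    have a1 := h.br_tcA dF hF (h.dyi i) y0 (fun a ha => h.yi a i ha) (h.m_y i)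
    have a2 := h.br_tcB dφ hφ (h.ddi i) d0 (fun a ha => h.di a i ha) (h.m_d i)
    have a3 := abs_of_near a1 (((h.m_y i).bdd_mul h.wt hN hF).abs_le h.wt)
    have a4 := ((h.m_d i).mul_bdd h.wt hM hφ).abs_le h.wt
    refine (abs_mul_sub a1 a2 a3 a4).trans ?_
    have e : (N * (w * G.r) * (1 / W ^ 5) + N * (w * G.r)) * (w / G.R * M * (1 / W ^ 5)) +
        N * (w * G.r) * (1 / W ^ 5) * (w / G.R * M) =
        N * M * ((2 + 1 / W ^ 5) * (G.r / G.R * (W⁻¹ ^ 5 * w ^ 2))) := by field_simp; ring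
    rw [e, show 4 * (W⁻¹ ^ 6 * w ^ 2) = 4 * (W⁻¹ * (W⁻¹ ^ 5 * w ^ 2)) by ring]
    gcongr
    linarith
  have s3 := (abs_sum_le_sum_abs _ univ).trans (sum_le_sum fun i _ => s2 i)
  rw [sum_sub_distrib, sum_const, card_fin, nsmul_eq_mul] at s3
  have ar := mul_le_mul_of_nonneg_left (ar_vec u0 u1 h.w1 l0 u2 u3 u4) (mul_nonneg hN hM)
  rw [card_fin] at key
  have e1 : 1 / W ^ 9 = W⁻¹ ^ 9 := by field_simp
  have e2 : w ^ 8 / W ^ 3 = W⁻¹ ^ 3 * w ^ 8 := by field_simp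
  have e3 : 2 * w / W ^ 2 = 2 * (W⁻¹ ^ 2 * w) := by field_simp
  have e4 : w ^ 4 / W = W⁻¹ * w ^ 4 := by field_simp
  have e5 : w ^ 10 / W ^ 2 = W⁻¹ ^ 2 * w ^ 10 := by field_simp
  rw [e1, e2, e3, e4] at key
  rw [e5]
  push_cast at key s3
  rw [abs_le] at key s1 s3 ⊢
  constructor <;> linarith [key.1, key.2, s1.1, s1.2, s3.1, s3.2]

/-- the field `even` of `Gm.Hol` -/
theorem even (h : Ctx Λ G g W w A B p q κ) (dF : DepG G.In F) (hF : ∀ s, |F s| ≤ N) (dφ : DepG G.Ou φ)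
    (hφ : ∀ s, |φ s| ≤ M) (he : EvenF F) (h0 : G.EA Λ F = 0) : |G.EA Λ (fun s => F s * φ s) -
      2 * G.lam g * G.EA Λ (fun s => F s * cs G.eq s) *
        (G.EA Λ (fun s => cs (hm 0 G.R) s * φ s) - G.EA Λ (cs (hm 0 G.R)) * G.EA Λ φ) -
      ∑ i, ∑ j, G.EA Λ (fun s => F s * (G.yi g i s * G.yi g j s)) / 2 *
        (G.EA Λ (fun s => G.di i s * G.di j s * φ s) -
          G.EA Λ (fun s => G.di i s * G.di j s) * G.EA Λ φ)| ≤ w ^ 10 / W ^ 3 * (N * M) := by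
  have hN : 0 ≤ N := (abs_nonneg _).trans (hF 0)
  have hM : 0 ≤ M := (abs_nonneg _).trans (hφ 0)
  have := h.W0; have := h.w0; have := h.R0; have := h.r0; have l0 := h.lam0
  obtain ⟨u0, u1, u2, u3, u4, u5, u6⟩ := base h
  have y0 : 0 ≤ 2 * w * G.r := by positivity
  have d0 : 0 ≤ w / G.R := by positivity
  have key := h.sec.even univ (yy := fun i => tc A (G.yi g i)) (d := fun i => tc B (G.di i)) y0 d0
    (by positivity : 0 ≤ 2 * w / W ^ 2) (fun i _ => abs_tc y0 fun a ha => h.yi a i ha)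
    (fun i _ => abs_tc d0 fun a ha => h.di a i ha) h.hy hN hF (fun a => by rw [h.ng, he])
    ((h.br_F dF hF).trans h0) hM hφ
  rw [h.br_FF dF hF dφ hφ, h.br_FH dF hF cos_add_int_mul_two_pi abs_cos_le_one, h.br_φ dφ hφ,
    univ_product_univ, Fintype.sum_prod_type] at key
  simp only [tc_mul] at key
  have c0 := h.abs_EA hφ
  have s1 : |2 * G.lam g * G.EA Λ (fun s => F s * cos (2 * π * pr G.eq s)) *
      (br (mub A B (G.nu Λ)) (fun _ b => cos (2 * π * B.H b) * φ b) -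
        br (mub A B (G.nu Λ)) (fun _ b => cos (2 * π * B.H b)) * G.EA Λ φ) -
      2 * G.lam g * G.EA Λ (fun s => F s * cs G.eq s) *
        (G.EA Λ (fun s => cs (hm 0 G.R) s * φ s) - G.EA Λ (cs (hm 0 G.R)) * G.EA Λ φ)| ≤
      2 * G.lam g * (N * 1) * (7 * M * (w / W) + 7 * 1 * (w / W) * M) := by
    have a1 := h.br_tφ dφ hφ cos_add_int_mul_two_pi abs_cos_le_one abs_cos_sub_cos_le
    have a2 := h.br_tφ (φ := fun _ => 1) (M := 1) (DepG.const _ _) (by simp) cos_add_int_mul_two_pi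
      abs_cos_le_one abs_cos_sub_cos_le
    simp only [mul_one] at a2
    have a3 := abs_sub_le' a1 (abs_mul_le' a2 c0)
    refine le_of_eq_of_le ?_ (abs_mul_le' (abs_mul_le' (abs_of_nonneg (by positivity)).le
      (h.abs_EA (F := fun s => F s * cs G.eq s) fun a => abs_mul_le' (hF a) (abs_cos_le_one _)))
      (a3.trans (le_of_eq (by ring))))
    congr 1
    simp only [cs]
    have : G.EA Λ (cs (hm 0 G.R)) = G.EA Λ fun s => cos (2 * π * pr (hm 0 G.R) s) := rfl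
    rw [this]; ring
  have s2 : ∀ i j, |br (mub A B (G.nu Λ)) (fun a _ => F a * tc A (fun a => G.yi g i a * G.yi g j a) a) / 2 *
      (br (mub A B (G.nu Λ)) (fun _ b => tc B (fun b => G.di i b * G.di j b) b * φ b) -
        br (mub A B (G.nu Λ)) (fun _ b => tc B (fun b => G.di i b * G.di j b) b) * G.EA Λ φ) -
      G.EA Λ (fun s => F s * (G.yi g i s * G.yi g j s)) / 2 *
        (G.EA Λ (fun s => G.di i s * G.di j s * φ s) -
          G.EA Λ (fun s => G.di i s * G.di j s) * G.EA Λ φ)| ≤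
      N * M * (16 * (W⁻¹ ^ 7 * w ^ 2)) := fun i j => by
    have a1 := h.br_tcA dF hF ((h.dyi i).mul (h.dyi j)) (mul_nonneg y0 y0)
      (fun a ha => abs_mul_le' (h.yi a i ha) (h.yi a j ha)) (h.m_yy i j)
    have a2 := h.br_tcB dφ hφ ((h.ddi i).mul (h.ddi j)) (mul_nonneg d0 d0)
      (fun a ha => abs_mul_le' (h.di a i ha) (h.di a j ha)) (h.m_dd i j)
    have a2' := h.br_tcB' ((h.ddi i).mul (h.ddi j)) (mul_nonneg d0 d0)
      (fun a ha => abs_mul_le' (h.di a i ha) (h.di a j ha)) (h.m_dd i j)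
    have a3 := abs_of_near a1 (((h.m_yy i j).bdd_mul h.wt hN hF).abs_le h.wt)
    have a4 := abs_sub_le' (((h.m_dd i j).mul_bdd h.wt hM hφ).abs_le h.wt)
      (abs_mul_le' ((h.m_dd i j).abs_le h.wt) c0)
    have a5 := abs_sub_le' a2 (abs_mul_le' a2' c0)
    rw [sub_mul, sub_sub_sub_comm] at a5
    have a6 := abs_mul_sub a1 a5 a3 a4
    have e : (N * (w * (G.r : ℝ) ^ 2) * (1 / W ^ 5) + N * (w * (G.r : ℝ) ^ 2)) *
        (w / (G.R : ℝ) ^ 2 * M * (1 / W ^ 5) + w / (G.R : ℝ) ^ 2 * (1 / W ^ 5) * M) +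
        N * (w * (G.r : ℝ) ^ 2) * (1 / W ^ 5) * (w / (G.R : ℝ) ^ 2 * M + w / (G.R : ℝ) ^ 2 * M) =
        N * M * ((4 + 2 * (1 / W ^ 5)) * ((G.r / G.R) ^ 2 * (W⁻¹ ^ 5 * w ^ 2))) := by field_simp; ring
    rw [e] at a6
    have a7 : N * M * ((4 + 2 * (1 / W ^ 5)) * ((G.r / G.R) ^ 2 * (W⁻¹ ^ 5 * w ^ 2))) ≤
        N * M * (32 * (W⁻¹ ^ 2 * (W⁻¹ ^ 5 * w ^ 2))) := by
      gcongr
      linarith
    rw [div_mul_eq_mul_div, div_mul_eq_mul_div, ← sub_div, abs_div, abs_two]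
    refine (div_le_div_of_nonneg_right (a6.trans a7) zero_le_two).trans (le_of_eq (by ring))
  have s3 := (abs_sum_le_sum_abs _ univ).trans (sum_le_sum fun i _ =>
    (abs_sum_le_sum_abs _ univ).trans (sum_le_sum fun j _ => s2 i j))
  simp only [sum_sub_distrib, sum_const, card_fin, nsmul_eq_mul] at s3
  have ar := mul_le_mul_of_nonneg_left (ar_even u0 u1 h.w1 l0 u2 u3 u4) (mul_nonneg hN hM)
  rw [card_fin] at key
  have e1 : 1 / W ^ 9 = W⁻¹ ^ 9 := by field_simp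
  have e2 : w ^ 8 / W ^ 3 = W⁻¹ ^ 3 * w ^ 8 := by field_simp
  have e3 : 2 * w / W ^ 2 = 2 * (W⁻¹ ^ 2 * w) := by field_simp
  have e4 : w ^ 4 / W = W⁻¹ * w ^ 4 := by field_simp
  have e5 : w ^ 10 / W ^ 3 = W⁻¹ ^ 3 * w ^ 10 := by field_simp
  have e6 : w ^ 2 / W = W⁻¹ * w ^ 2 := by field_simp
  rw [e1, e2, e3, e4, e6] at key
  rw [e5]
  rw [div_eq_mul_inv w W] at s1
  have : 0 ≤ N * M * (G.lam g * (w * W⁻¹)) := by positivity
  push_cast at key s3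
  rw [abs_le] at key s1 s3 ⊢
  constructor <;> linarith [key.1, key.2, s1.1, s1.2, s3.1, s3.2]

end Crest.Agent.T145.Kr.H46
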