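import Crest.Agent.T145.KrF_85
import Crest.Agent.T145.PotHa_91
import Crest.Agent.T145.PotPk_15
import Crest.Agent.T145.PotLg_22
import Crest.Agent.T145.PotD_17

/-!
# Row 145: K3 of docs/T145_c90.md, inner half: cut-offs, the bilinear form `Yb`, the kernel `kk` (helper85)
-/

set_option autoImplicit false

namespace Crest.Agent.T145.Pot.K85

open Finset H59 Kw56

/-! ## cut-offs -/

theorem rmp_mem (z : Pt) (a b : ℝ) (x : Pt) : 0 ≤ rmp z a b x ∧ rmp z a b x ≤ 1 :=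
  ⟨le_max_left _ _, max_le zero_le_one (min_le_left _ _)⟩

theorem mem_an {z x : Pt} {p q : ℕ} : x ∈ an z p q ↔ (p : ℤ) < ds z x ∧ ds z x ≤ q := by
  rw [an, mem_sdiff, mem_bl_ds, mem_bl_ds, not_le, and_comm]

theorem edge_ds (z : Pt) {e : Pt × Pt} (he : e.2 - e.1 ∈ nL.Jp) :
    e.2 ∈ bl e.1 1 ∧ |ds z e.2 - ds z e.1| ≤ 1 := by
  have h := Lat.edge_near he
  rw [nL_rg] at h
  exact ⟨h, by simpa using ds_lip z h⟩

theorem cut_gen {ed : Finset (Pt × Pt)} (hed : ∀ e ∈ ed, e.2 - e.1 ∈ nL.Jp) {S : Finset Pt} {z : Pt}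
    {a b : ℕ} (hab : a < b) {κ L : ℝ} (hκ : 2 * b + 1 ≤ κ * ((b : ℝ) - a)) (hS : an z a b ⊆ S)
    {ζ : Pt → ℝ} (h1 : ∀ x, |ζ x| ≤ 1) (h2 : ∀ e ∈ ed, ζ e.1 ≠ 0 → e.1 ∈ S ∧ e.2 ∈ S)
    (h3 : ∀ e ∈ ed, ζ e.2 ≠ ζ e.1 → e.2 ∈ an z a b ∧ |ζ e.2 - ζ e.1| ≤ L) (u : Pt → ℝ) :
    ∃ c, edF ed (fun x => ζ x * (u x - c)) (fun x => ζ x * (u x - c)) ≤
      (2 + 448 * κ * ((2 * b + 1) * L) ^ 2) * eN nL S u u := by
  obtain ⟨c, hc⟩ := poin_an z hab hκ u
  refine ⟨c, (edF_cut_le hed h1 h2 h3 fun x => u x - c).trans ?_⟩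
  have hκ0 : 0 ≤ κ := by
    have : (a : ℝ) < b := by exact_mod_cast hab
    by_contra h
    nlinarith [not_le.1 h, b.cast_nonneg (α := ℝ)]
  have h4 := hc.trans (mul_le_mul_of_nonneg_left (eN_mono hS u) (by positivity))
  have h5 := mul_le_mul_of_nonneg_left h4 (sq_nonneg L)
  rw [eN, edF_sub_const', ← eN, nL_Jp, card_pair (by decide), an]
  push_cast
  nlinarith

/-- filling a hole -/
theorem fill (z : Pt) {p R : ℕ} (hp : 4 ≤ p) (hR : p ≤ R + 1) (u : Pt → ℝ) : ∃ c, ∃ v : Pt → ℝ,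
    (∀ x, (p : ℤ) ≤ ds z x → v x = u x - c) ∧
      eD nL (bl z R) v v ≤ 200000 * eN nL (an z (p / 2) (R + 1)) u u := by
  have p4 : (4 : ℝ) ≤ p := by exact_mod_cast hp
  have a0 : 2 * (p / 2) ≤ p := by omega
  generalize p / 2 = q at *
  have a1 : 2 * (q : ℝ) ≤ p := by exact_mod_cast a0
  have b1 : (q : ℝ) + 1 < p := by linarith
  obtain ⟨c, hc⟩ := cut_gen (ed := nL.edT (bl z R)) (fun e he => (Lat.mem_edT.1 he).1)
    (S := an z q (R + 1)) (z := z) (a := q) (b := p) (by omega) (κ := 5) (L := 4 / p)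
    (by linarith) (fun x hx => by rw [mem_an] at *; omega)
    (ζ := fun x => 1 - rmp z (q + 1) p x)
    (fun x => abs_le.2 ⟨by linarith [(rmp_mem z (q + 1) p x).2],
      by linarith [(rmp_mem z (q + 1) p x).1]⟩)
    (fun e he hne => by
      rw [Lat.mem_edT, mem_bl_ds, mem_bl_ds] at he
      have h1 := abs_le.1 (edge_ds z he.1).2
      have h2 : (q : ℤ) + 1 < ds z e.1 := by
        by_contra h
        exact hne (by rw [rmp_one b1 (by exact_mod_cast not_lt.1 h), sub_self])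
      rw [mem_an, mem_an]; push_cast at *; omega)
    (fun e he hne => by
      rw [Lat.mem_edT] at he
      have h1 := rmp_ne b1 (edge_ds z he.1).1 fun h => hne (by rw [h])
      refine ⟨mem_ring.2 ⟨by simpa using h1.2.1, ?_⟩, ?_⟩
      · have : ds z e.2 < p + 1 := by exact_mod_cast h1.2.2
        exact_mod_cast (by omega : ds z e.2 ≤ p)
      · rw [sub_sub_sub_cancel_left, abs_sub_comm]
        refine (rmp_lip z b1 (edge_ds z he.1).1).trans ?_
        rw [div_le_div_iff₀ (by linarith) (by linarith)]; push_cast; linarith) u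
  refine ⟨c, _, fun x hx => ?_, hc.trans (mul_le_mul_of_nonneg_right ?_ (Po44.eN_nonneg _ _ _))⟩
  · simp only [rmp_zero b1 (show (p : ℝ) ≤ ds z x by exact_mod_cast hx), sub_zero, one_mul]
  · have : (2 * p + 1 : ℝ) * (4 / p) ≤ 9 := by
      rw [← mul_div_assoc, div_le_iff₀ (by linarith)]; linarith
    have := pow_le_pow_left₀ (by positivity) this 2
    linarith

/-- localisation near the boundary of the inner box -/
theorem ring (z : Pt) {r : ℕ} (hr : 4 ≤ r) (D : Finset Pt) (u : Pt → ℝ) : ∃ c, ∃ v : Pt → ℝ,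
    (∀ x, ds z x = r → v x = u x - c) ∧ Sup (bl z (2 * r)) v ∧
      eD nL D v v ≤ 10 ^ 6 * eN nL (an z (r / 2) (2 * r)) u u := by
  have p4 : (4 : ℝ) ≤ r := by exact_mod_cast hr
  have a0 : 2 * (r / 2) ≤ r := by omega
  generalize r / 2 = q at *
  have a1 : 2 * (q : ℝ) ≤ r := by exact_mod_cast a0
  have b1 : (q : ℝ) + 1 < r := by linarith
  have b2 : (r : ℝ) < 2 * r - 1 := by linarith
  have hz : ∀ x, rmp z r (2 * r - 1) x - rmp z (q + 1) r x ≠ 0 →
      (q : ℤ) + 1 < ds z x ∧ ds z x < 2 * r - 1 := fun x hne => by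
    constructor <;> by_contra h
    · have h' : (ds z x : ℝ) ≤ q + 1 := by exact_mod_cast not_lt.1 h
      exact hne (by rw [rmp_one b1 h', rmp_one b2 (by linarith), sub_self])
    · have h' : (2 * r - 1 : ℝ) ≤ ds z x := by exact_mod_cast not_lt.1 h
      exact hne (by rw [rmp_zero b1 (by linarith), rmp_zero b2 h', sub_self])
  obtain ⟨c, hc⟩ := cut_gen (ed := nL.edT D) (fun e he => (Lat.mem_edT.1 he).1)
    (S := an z q (2 * r)) (z := z) (a := q) (b := 2 * r) (by omega) (κ := 3) (L := 6 / r)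
    (by push_cast; linarith) Subset.rfl
    (ζ := fun x => rmp z r (2 * r - 1) x - rmp z (q + 1) r x)
    (fun x => abs_le.2 ⟨by
      linarith [(rmp_mem z (q + 1) r x).2, (rmp_mem z r (2 * r - 1) x).1], by
      linarith [(rmp_mem z (q + 1) r x).1, (rmp_mem z r (2 * r - 1) x).2]⟩)
    (fun e he hne => by
      have h1 := abs_le.1 (edge_ds z (Lat.mem_edT.1 he).1).2
      have h2 := hz _ hne
      rw [mem_an, mem_an]; push_cast at *; omega)
    (fun e he hne => by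
      have he' := edge_ds z (Lat.mem_edT.1 he).1
      have h1 := abs_le.1 he'.2
      refine ⟨?_, ?_⟩
      · rw [mem_an]
        by_cases h0 : rmp z r (2 * r - 1) e.1 - rmp z (q + 1) r e.1 = 0
        · have := hz e.2 (by rwa [h0] at hne); push_cast at *; omega
        · have := hz e.1 h0; push_cast at *; omega
      · have c1 := rmp_lip z b1 he'.1
        have c2 := rmp_lip z b2 he'.1
        have c3 : ((1 : ℕ) : ℝ) / (r - (q + 1)) ≤ 4 / r := by
          rw [div_le_div_iff₀ (by linarith) (by linarith)]; push_cast; linarith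
        have c4 : ((1 : ℕ) : ℝ) / (2 * r - 1 - r) ≤ 2 / r := by
          rw [div_le_div_iff₀ (by linarith) (by linarith)]; push_cast; linarith
        rw [abs_le] at *
        have : (6 : ℝ) / r = 4 / r + 2 / r := by ring
        constructor <;> linarith [c1.1, c1.2, c2.1, c2.2]) u
  refine ⟨c, _, fun x hx => ?_, fun x hx => ?_,
    hc.trans (mul_le_mul_of_nonneg_right ?_ (Po44.eN_nonneg _ _ _))⟩
  · have hx' : (ds z x : ℝ) = r := by exact_mod_cast hx
    simp only [rmp_zero b1 hx'.ge, rmp_one b2 hx'.le, sub_zero, one_mul]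
  · rw [mem_bl_ds] at hx
    refine mul_eq_zero_of_left (by_contra fun h => hx ?_) _
    have := hz x h; push_cast at *; omega
  · have : (2 * (2 * r : ℕ) + 1 : ℝ) * (6 / r) ≤ 26 := by
      rw [← mul_div_assoc, div_le_iff₀ (by linarith)]; push_cast; linarith
    have := pow_le_pow_left₀ (by positivity) this 2
    linarith

/-! ## the zero mode and the bilinear form -/

/-- the average against the equilibrium measure of `bl z r` in `bl z R` -/
noncomputable def Hh (z : Pt) (r R : ℕ) (u : Pt → ℝ) : ℝ :=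
  ip (bl z r) (eqm (bl z r) (bl z R) (eD nL (bl z R))) u

/-- harmonic extension into `bl z R` -/
noncomputable def Mh (z : Pt) (R : ℕ) (u : Pt → ℝ) : Pt → ℝ := hx (bl z R) (eD nL (bl z R)) u

/-- `(u, Σ⁻¹ (φ - (e, φ)))`; the cross term of K1 is `cap * Hh a * Hh (Mh b) + Yb a (Mh b)` -/
noncomputable def Yb (z : Pt) (r R : ℕ) (u φ : Pt → ℝ) : ℝ :=
  ip (bl z r) u (chg (bl z r) (bl z R) (eD nL (bl z R)) fun x => φ x - Hh z r R φ)

variable {z : Pt} {r R : ℕ}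

theorem bl_ne (z : Pt) (r : ℕ) : (bl z r).Nonempty := ⟨z, self_mem_bl z r⟩

theorem cross (h : r ≤ R) (a b : Pt → ℝ) :
    -eD nL (bl z R) (ex (bl z r) (bl z R) (eD nL (bl z R)) a) (exo (bl z r) (bl z R) (eD nL (bl z R)) b) =
      cap (bl z r) (bl z R) (eD nL (bl z R)) * Hh z r R a * Hh z r R (Mh z R b) +
        Yb z r R a (Mh z R b) :=
  (co_eD nL_ok _).cross_split (bl_mono z h) (bl_ne z r) a b

theorem Hh_add (u v : Pt → ℝ) : Hh z r R (u + v) = Hh z r R u + Hh z r R v := ip_add_right _ _ _ _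
theorem Hh_sub (u v : Pt → ℝ) : Hh z r R (u - v) = Hh z r R u - Hh z r R v := ip_sub_right _ _ _ _
theorem Hh_smul (c : ℝ) (u : Pt → ℝ) : Hh z r R (c • u) = c * Hh z r R u := ip_smul_right _ _ _ _
theorem Hh_congr {u v : Pt → ℝ} (h : ∀ x ∈ bl z r, u x = v x) : Hh z r R u = Hh z r R v :=
  sum_congr rfl fun x hx => by rw [h x hx]
theorem Hh_const (h : r ≤ R) (c : ℝ) : Hh z r R (fun _ => c) = c := by
  rw [Hh, ip, ← sum_mul, (co_eD nL_ok _).sum_eqm (bl_mono z h) (bl_ne z r), one_mul]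
theorem Hh_shift (h : r ≤ R) (u : Pt → ℝ) (c : ℝ) : Hh z r R (fun x => u x + c) = Hh z r R u + c :=
  (Hh_add u fun _ => c).trans (by rw [Hh_const h])
theorem Hh_neg (u : Pt → ℝ) : Hh z r R (fun x => -u x) = -Hh z r R u := ip_neg_right _ _ _
theorem abs_Hh_le (h : r ≤ R) {u : Pt → ℝ} {K : ℝ} (hu : ∀ x ∈ bl z r, |u x| ≤ K) :
    |Hh z r R u| ≤ K := (co_eD nL_ok _).abs_ip_eqm_le (mk_eD _) (bl_mono z h) (bl_ne z r) hu

theorem Yb_add_left (u v φ : Pt → ℝ) : Yb z r R (u + v) φ = Yb z r R u φ + Yb z r R v φ :=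
  ip_add_left _ _ _ _
theorem Yb_smul_left (c : ℝ) (u φ : Pt → ℝ) : Yb z r R (c • u) φ = c * Yb z r R u φ :=
  ip_smul_left _ _ _ _
theorem Yb_neg_left (u φ : Pt → ℝ) : Yb z r R (fun x => -u x) φ = -Yb z r R u φ := ip_neg_left _ _ _
theorem Yb_add (u φ ψ : Pt → ℝ) : Yb z r R u (φ + ψ) = Yb z r R u φ + Yb z r R u ψ := by
  rw [Yb, Yb, Yb, ← ip_add_right, ← (co_eD nL_ok _).chg_add, Hh_add]
  congr 2; funext x; simp only [Pi.add_apply]; ring
theorem Yb_smul (u : Pt → ℝ) (c : ℝ) (φ : Pt → ℝ) : Yb z r R u (c • φ) = c * Yb z r R u φ := by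
  rw [Yb, Yb, ← ip_smul_right, ← (co_eD nL_ok _).chg_smul, Hh_smul]
  congr 2; funext x; simp only [Pi.smul_apply, smul_eq_mul]; ring
theorem Yb_congr (u : Pt → ℝ) {φ ψ : Pt → ℝ} (h : ∀ x ∈ bl z r, φ x = ψ x) :
    Yb z r R u φ = Yb z r R u ψ := by
  rw [Yb, Yb, Hh_congr h, chg_congr (ψ := fun x => ψ x - Hh z r R ψ) fun x hx => by rw [h x hx]]
theorem Yb_shift (h : r ≤ R) (u φ : Pt → ℝ) (c : ℝ) :
    Yb z r R u (fun x => φ x + c) = Yb z r R u φ := by
  simp only [Yb, Hh_shift h, add_sub_add_right_eq_sub]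
theorem Yb_sum {ι : Type*} (T : Finset ι) (u : Pt → ℝ) (c : ι → ℝ) (φ : ι → Pt → ℝ) :
    Yb z r R u (∑ i ∈ T, c i • φ i) = ∑ i ∈ T, c i * Yb z r R u (φ i) := by
  classical
  induction T using Finset.induction_on with
  | empty => simpa using Yb_smul (z := z) (r := r) (R := R) u 0 0
  | insert a T ha ih => rw [sum_insert ha, sum_insert ha, Yb_add, Yb_smul, ih]
theorem Yb_sub (u φ ψ : Pt → ℝ) : Yb z r R u (φ - ψ) = Yb z r R u φ - Yb z r R u ψ := by
  rw [sub_eq_add_neg, Yb_add, ← neg_one_smul ℝ ψ, Yb_smul]; ring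

theorem sum_chg_zero (h : r ≤ R) (φ : Pt → ℝ) :
    ∑ x ∈ bl z r, chg (bl z r) (bl z R) (eD nL (bl z R)) (fun x => φ x - Hh z r R φ) x = 0 := by
  rw [(co_eD nL_ok _).sum_chg (bl_mono z h) (bl_ne z r), ← Hh]
  simp only [sub_eq_add_neg, Hh_shift h, add_neg_cancel, mul_zero]

theorem Yb_shift_left (h : r ≤ R) (u φ : Pt → ℝ) (c : ℝ) :
    Yb z r R (fun x => u x + c) φ = Yb z r R u φ := by
  simp only [Yb, ip, add_mul, sum_add_distrib, ← mul_sum, sum_chg_zero h, mul_zero, add_zero]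

theorem lap_congr {u v : Pt → ℝ} {x : Pt} (h : ∀ y ∈ bl x 1, u y = v y) : lap u x = lap v x := by
  unfold lap lapJ
  exact sum_congr rfl fun y hy => by rw [h _ (add_nn_mem_bl hy x), h x (self_mem_bl _ _)]

/-- the swept charge of a harmonic function lives on the boundary of the box -/
theorem chg_bd (h : r ≤ R) {φ : Pt → ℝ} (hφ : ∀ x, ds z x < r → lap φ x = 0) {x : Pt}
    (hne : chg (bl z r) (bl z R) (eD nL (bl z R)) φ x ≠ 0) : ds z x = r := by
  have hx : x ∈ bl z r := by_contra fun h => hne (chg_sup φ x h)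
  refine (mem_bl_ds.1 hx).eq_of_not_lt fun h1 => hne ?_
  rw [chg, on_of_mem hx, op_eD nL_ok (bl_mono z h hx), neg_eq_zero, ← hφ x h1]
  refine lap_congr fun y hy => (co_eD nL_ok _).ex_on φ (mem_bl_ds.2 ?_)
  have := abs_le.1 (ds_lip z hy); push_cast at this; omega

theorem lap_sub_const (φ : Pt → ℝ) (c : ℝ) (x : Pt) : lap (fun y => φ y - c) x = lap φ x := by
  simp only [lap, lapJ, sub_sub_sub_cancel_right]

theorem Yb_loc (h : r ≤ R) {φ : Pt → ℝ} (hφ : ∀ x, ds z x < r → lap φ x = 0) {u v : Pt → ℝ}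
    (huv : ∀ x, ds z x = r → u x = v x) : Yb z r R u φ = Yb z r R v φ :=
  sum_congr rfl fun x _ => by
    by_cases h0 : chg (bl z r) (bl z R) (eD nL (bl z R)) (fun x => φ x - Hh z r R φ) x = 0
    · rw [h0, mul_zero, mul_zero]
    · rw [huv x (chg_bd h (fun y hy => (lap_sub_const _ _ _).trans (hφ y hy)) h0)]

theorem eqm_bd (h : r ≤ R) {x : Pt} (hne : eqm (bl z r) (bl z R) (eD nL (bl z R)) x ≠ 0) :
    ds z x = r := chg_bd h (φ := 1) (fun y _ => lapJ_const _ 1 y) (right_ne_zero_of_mul hne)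

theorem Hh_loc (h : r ≤ R) {u v : Pt → ℝ} (huv : ∀ x, ds z x = r → u x = v x) :
    Hh z r R u = Hh z r R v :=
  sum_congr rfl fun x _ => by
    by_cases h0 : eqm (bl z r) (bl z R) (eD nL (bl z R)) x = 0
    · rw [h0, zero_mul, zero_mul]
    · rw [huv x (eqm_bd h h0)]

theorem osc_bl {ρ : ℕ} {φ : Pt → ℝ} {K : ℝ} (hK : ∀ x ∈ bl z ρ, ∀ e ∈ nn, |dif e φ x| ≤ K) {x : Pt}
    (hx : x ∈ bl z ρ) : |φ x - φ z| ≤ 2 * ρ * K := by
  have := (tayStmt ρ φ z (x - z) ((Ha91.add_mem_bl (z := z)).1 (by simpa using hx))).1 K hK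
  simpa using this

/-- K3 (ii) -/
theorem fn_Yb (hr : 4 ≤ r) (hR : 2 * r ≤ R) {φ : Pt → ℝ} (hφ : ∀ x, ds z x < r → lap φ x = 0) {K : ℝ}
    (hK : ∀ x ∈ bl z (2 * r), ∀ e ∈ nn, |dif e φ x| ≤ K) :
    Fn (nL.edI (an z (r / 2) (2 * r))) (fun u => Yb z r R u φ) ((10 ^ 6 * r * K) ^ 2) := by
  have h : r ≤ R := by omega
  have hC := co_eD nL_ok (bl z R)
  have p4 : (4 : ℝ) ≤ r := by exact_mod_cast hr
  have b2 : (r : ℝ) < 2 * r - 1 := by linarith
  have K0 : 0 ≤ K := (abs_nonneg _).trans (hK z (self_mem_bl _ _) _ Ha91.e1_nn)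
  set ψ : Pt → ℝ := fun x => φ x - Hh z r R φ with hψ
  have s1 : ∀ x ∈ bl z (2 * r), |ψ x| ≤ 8 * r * K := fun x hx => by
    have c1 := osc_bl hK hx
    have c2 := abs_Hh_le (R := R) h (u := fun y => φ y + -φ z) fun y hy =>
      osc_bl hK (bl_mono z (by omega) hy)
    rw [Hh_shift h] at c2
    push_cast at c1 c2
    rw [hψ, abs_le] at *
    constructor <;> linarith [c1.1, c1.2, c2.1, c2.2]
  have hz : ∀ x, rmp z r (2 * r - 1) x ≠ 0 → ds z x < 2 * r - 1 := fun x hne => by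
    by_contra h
    exact hne (rmp_zero b2 (by exact_mod_cast not_lt.1 h))
  have s2 := edF_cut_le (Λ := nL) (ed := nL.edT (bl z R)) (fun e he => (Lat.mem_edT.1 he).1)
    (S := bl z (2 * r)) (S' := bl z (2 * r)) (ζ := rmp z r (2 * r - 1)) (L := 2 / r)
    (fun x => abs_le.2 ⟨by linarith [(rmp_mem z r (2 * r - 1) x).1], (rmp_mem z r (2 * r - 1) x).2⟩)
    (fun e he hne => by
      have h1 := abs_le.1 (edge_ds z (Lat.mem_edT.1 he).1).2
      have h2 := hz _ hne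
      rw [mem_bl_ds, mem_bl_ds]; push_cast; omega)
    (fun e he hne => by
      have he' := edge_ds z (Lat.mem_edT.1 he).1
      have h1 := abs_le.1 he'.2
      refine ⟨?_, (rmp_lip z b2 he'.1).trans ?_⟩
      · rw [mem_bl_ds]
        by_cases h0 : rmp z r (2 * r - 1) e.1 = 0
        · have := hz e.2 (by rwa [h0] at hne); push_cast; omega
        · have := hz e.1 h0; push_cast; omega
      · rw [div_le_div_iff₀ (by linarith) (by linarith)]; push_cast; linarith) ψ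
  have hcard : ((bl z (2 * r)).card : ℝ) ≤ 25 * (r : ℝ) ^ 2 := by
    rw [card_bl]; push_cast; nlinarith
  have s3 : eN nL (bl z (2 * r)) ψ ψ ≤ 50 * (r * K) ^ 2 := by
    rw [hψ, eN, edF_sub_const', edF_self]
    refine (sum_le_card_nsmul _ _ (K ^ 2) fun e he => ?_).trans ?_
    · rw [Lat.mem_edI] at he
      have := hK e.1 he.2.1 _ (Lat.mem_Jp.1 he.1).1
      simp only [dif, add_sub_cancel] at this
      exact sq_le_sq' (abs_le.1 this).1 (abs_le.1 this).2
    · have c1 : ((nL.edI (bl z (2 * r))).card : ℝ) ≤ (bl z (2 * r)).card * 2 := by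
        have := card_edI_le nL (bl z (2 * r))
        rw [nL_Jp, card_pair (by decide)] at this
        exact_mod_cast this
      rw [nsmul_eq_mul]
      nlinarith [mul_le_mul_of_nonneg_right (c1.trans (mul_le_mul_of_nonneg_right hcard zero_le_two))
        (sq_nonneg K)]
  have s4 : (2 / r : ℝ) ^ 2 * ∑ x ∈ bl z (2 * r), ψ x ^ 2 ≤ 6400 * (r * K) ^ 2 := by
    have c1 : ∑ x ∈ bl z (2 * r), ψ x ^ 2 ≤ 25 * (r : ℝ) ^ 2 * (8 * r * K) ^ 2 :=
      (sum_le_card_nsmul _ _ ((8 * r * K) ^ 2) fun x hx =>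
        sq_le_sq' (abs_le.1 (s1 x hx)).1 (abs_le.1 (s1 x hx)).2).trans
        (by rw [nsmul_eq_mul]; exact mul_le_mul_of_nonneg_right hcard (sq_nonneg _))
    refine (mul_le_mul_of_nonneg_left c1 (sq_nonneg _)).trans_eq ?_
    field_simp; ring
  rw [nL_Jp, card_pair (by decide), mul_assoc] at s2
  push_cast at s2
  refine fn_of_dual (sq_nonneg _) (fun u v => Yb_add_left u v φ) (fun c u => Yb_smul_left c u φ)
    fun u => ?_
  obtain ⟨c, v, v1, v2, v3⟩ := ring z hr (bl z R) u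
  have s5 := hC.abs_ip_chg_le (bl_mono z h) (φ := ψ) (w := fun x => rmp z r (2 * r - 1) x * ψ x)
    (u := fun x => u x + -c) (v := v)
    (fun x hx => mul_eq_zero_of_left (by_contra fun h0 => hx (mem_bl_ds.2 (by
      have := hz x h0; omega))) _)
    (fun x hx => by rw [rmp_one b2 (by exact_mod_cast mem_bl_ds.1 hx), one_mul])
    (v2.mono (bl_mono z hR))
    fun x _ h0 => v1 x (chg_bd h (fun y hy => (lap_sub_const _ _ _).trans (hφ y hy)) h0)
  rw [ip_comm, ← Real.sqrt_mul (hC.nonneg _)] at s5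
  rw [← Yb_shift_left h u φ (-c)]
  rw [Real.le_sqrt (abs_nonneg _) (mul_nonneg (hC.nonneg _) (hC.nonneg _)), sq_abs] at s5
  refine s5.trans ?_
  have s6 := Po44.eN_nonneg nL (an z (r / 2) (2 * r)) u
  calc _ ≤ (10 ^ 6 * (r * K) ^ 2) * (10 ^ 6 * eN nL (an z (r / 2) (2 * r)) u u) :=
        mul_le_mul (s2.trans (by nlinarith [sq_nonneg (r * K)])) v3 (hC.nonneg _) (by positivity)
    _ = _ := by rw [eN]; ring

/-! ## the kernel -/

/-- the kernel of the mean value representation at scale `r` -/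
noncomputable def kk (z : Pt) (r : ℕ) (w x : Pt) : ℝ :=
  -lap (fun w' => cut z (3 * r + 1) (6 * r) w' * pk (x - w')) w

theorem pk_sub_comm (x y : Pt) : pk (x - y) = pk (y - x) := by
  rw [← neg_sub y x]; exact R165.Pkx583.pk_neg _ _

theorem lap_pk' (x w : Pt) : lap (fun w' => pk (x - w')) w = dl x w := by
  simp only [pk_sub_comm x, lap_pk_sub]

theorem kk_rep (hr : 1 ≤ r) {φ : Pt → ℝ} (hφ : ∀ x ∈ bl z (6 * r), lap φ x = 0) {x : Pt}
    (hx : x ∈ bl z (3 * r)) : φ x = ∑ w ∈ an z (3 * r) (6 * r), φ w * kk z r w x := by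
  have p1 : (1 : ℝ) ≤ r := by exact_mod_cast hr
  have hab : (3 * r + 1 : ℝ) < 6 * r := by linarith
  have h1 := green nL_ok (D := bl z (6 * r - 1)) (D' := bl z (6 * r))
    (fun y hy => bl_subset_bl hy (by rw [nL_rg]; omega)) φ
    (v := fun w' => cut z (3 * r + 1) (6 * r) w' * pk (x - w'))
    fun y hy => mul_eq_zero_of_left (cut_zero hab (by
      rw [Nat.cast_sub (by omega)]; push_cast; linarith) hy) _
  rw [sum_eq_zero fun y hy => mul_eq_zero_of_left (show lapJ nL.J φ y = 0 from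
    hφ y (bl_mono z (by omega) hy)) _, ← sum_sdiff (bl_mono z (by omega : 3 * r ≤ 6 * r))] at h1
  have h2 : ∑ w ∈ bl z (3 * r), φ w *
      lapJ nL.J (fun w' => cut z (3 * r + 1) (6 * r) w' * pk (x - w')) w = φ x := by
    rw [← ip_dl' hx φ]
    refine sum_congr rfl fun w hw => ?_
    rw [← lap_pk' x w]
    exact congrArg _ (lap_congr fun y hy => by
      rw [cut_one hab (r := 3 * r + 1) (by push_cast; rfl) (bl_subset_bl hw (by omega) hy), one_mul])
  rw [h2] at h1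
  simp only [kk, mul_neg, sum_neg_distrib]
  exact eq_neg_of_add_eq_zero_right h1.symm

theorem lap_sum {ι : Type*} (T : Finset ι) (c : ι → ℝ) (f : ι → Pt → ℝ) (x : Pt) :
    lap (fun y => ∑ i ∈ T, c i * f i y) x = ∑ i ∈ T, c i * lap (f i) x := by
  simp only [lap, lapJ, ← sum_sub_distrib, mul_sum, mul_sub]
  exact sum_comm

theorem lap_kk {w x : Pt} (h : x ∉ bl w 1) : lap (kk z r w) x = 0 := by
  set ζ := cut z (3 * r + 1) (6 * r)
  have h1 : kk z r w = (fun x => ∑ _y ∈ nn, ζ w * pk (x - w)) -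
      fun x => ∑ y ∈ nn, ζ (w + y) * pk (x - (w + y)) := by
    funext x; simp only [kk, lap, lapJ, sum_sub_distrib, neg_sub, Pi.sub_apply]; rfl
  rw [h1, lap, lapJ_sub, Pi.sub_apply, ← lap, ← lap, lap_sum, lap_sum, sum_eq_zero, sum_eq_zero,
    sub_self]
  · intro y hy
    rw [lap_pk_sub, dl, Pi.single_eq_of_ne fun h' => h (by rw [h']; exact add_nn_mem_bl hy w), mul_zero]
  · intro y _
    rw [lap_pk_sub, dl, Pi.single_eq_of_ne fun h' => h (by rw [h']; exact self_mem_bl _ _), mul_zero]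

theorem dif_kk : ∃ C : ℝ, 0 ≤ C ∧ ∀ (z : Pt) (r : ℕ), 1 ≤ r → ∀ w ∈ an z (3 * r) (6 * r),
    ∀ x ∈ bl z (2 * r), ∀ e ∈ nn, |dif e (kk z r w) x| ≤ C / (r : ℝ) ^ 3 := by
  obtain ⟨C, C0, hC⟩ := sm_cut 2
  obtain ⟨C₁, h₁⟩ := pkDStmt pkStmt lgStmt (harmStmt pkStmt) 0
  obtain ⟨C₂, h₂⟩ := pkDStmt pkStmt lgStmt (harmStmt pkStmt) 1
  refine ⟨|C₁| * (2 * C) + 4 * (C * |C₂|), by positivity, fun z r hr w hw x hx e he => ?_⟩
  have p1 : (1 : ℝ) ≤ r := by exact_mod_cast hr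
  have hs := (hC z (3 * r + 1) (6 * r) (by linarith)).scale (ℓ' := r) (by linarith) (by linarith)
  set ζ := cut z (3 * r + 1) (6 * r) with hζ
  set g : Pt → ℝ := fun w' => dif e pk (x - w') with hg
  have hw' : w ∉ bl x r := fun h => (mem_sdiff.1 hw).2 (bl_subset_bl hx (by omega) h)
  have d1 : (r : ℝ) ≤ 1 + eu (x - w) := by
    have := le_eu_of_not_bl hw'; rw [eu_sub_comm] at this; linarith
  have e1 : dif e (kk z r w) x = -lap (fun w' => ζ w' * g w') w := by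
    simp only [dif, kk, lap, lapJ, hg, ← hζ, add_sub_right_comm x e, ← sum_neg_distrib,
      ← sum_sub_distrib]
    exact sum_congr rfl fun _ _ => by ring
  have e2 : lapJ nn g w = 0 := by
    have : g = (fun w' => pk (x + e - w')) - fun w' => pk (x - w') := by
      funext w'; simp only [hg, dif, Pi.sub_apply, add_sub_right_comm x e]
    rw [this, lapJ_sub, Pi.sub_apply, ← lap, ← lap, lap_pk', lap_pk', dl, dl,
      Pi.single_eq_of_ne fun h => hw' (by rw [h]; exact bl_mono x hr (add_nn_mem_bl he x)),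
      Pi.single_eq_of_ne fun h => hw' (by rw [h]; exact self_mem_bl _ _), sub_self]
  have e3 : |g w| ≤ |C₁| / r := (h₁ [e] rfl (by simpa using he) (x - w)).1.trans (by
    rw [zero_add, pow_one]; gcongr; exact le_abs_self _)
  have e4 : ∀ y ∈ nn, |dif y g w| ≤ |C₂| / (r : ℝ) ^ 2 := fun y hy => by
    have := (h₂ [-y, e] rfl (by simpa [he, nL_J] using nL_ok.neg hy) (x - w)).1
    rw [show dif y g w = difs [-y, e] pk (x - w) by
      simp only [hg, difs, dif, sub_add_eq_sub_sub, ← sub_eq_add_neg]]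
    exact this.trans (by gcongr; exact le_abs_self _)
  have e5 : |lapJ nn ζ w| ≤ 2 * (C / (r : ℝ) ^ 2) := hs.abs_lap fun _ _ => trivial
  rw [e1, abs_neg, lap, lapJ_mul, e2, mul_zero, zero_add]
  refine (abs_add_le _ _).trans ?_
  have e6 : |∑ y ∈ nn, dif y ζ w * dif y g w| ≤ 4 * (C / r * (|C₂| / (r : ℝ) ^ 2)) := by
    refine (abs_sum_le_sum_abs _ _).trans ((sum_le_card_nsmul _ _ (C / r * (|C₂| / (r : ℝ) ^ 2))
      fun y hy => ?_).trans_eq (by rw [show nn.card = 4 by decide, nsmul_eq_mul]; rfl))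
    rw [abs_mul]
    exact mul_le_mul (hs.one one_le_two hy trivial) (e4 y hy) (abs_nonneg _) (by positivity)
  rw [abs_mul]
  refine (add_le_add (mul_le_mul e3 e5 (abs_nonneg _) (by positivity)) e6).trans_eq ?_
  field_simp

/-- the inner seminorm -/
noncomputable def Nin (z : Pt) (r R : ℕ) (u : Pt → ℝ) : ℝ :=
  ∑ w ∈ an z (3 * r) (6 * r), |Yb z r R u (kk z r w)|

theorem Nin_nonneg (u : Pt → ℝ) : 0 ≤ Nin z r R u := sum_nonneg fun _ _ => abs_nonneg _

theorem harm_kk {w : Pt} (hw : w ∈ an z (3 * r) (6 * r)) (x : Pt) (hx : ds z x < r) :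
    lap (kk z r w) x = 0 := lap_kk fun h => by
  have := abs_le.1 (ds_lip z h)
  rw [mem_an] at hw; push_cast at *; omega

/-- the bilinear form of a harmonic function -/
theorem abs_Yb_le (hr : 1 ≤ r) (u : Pt → ℝ) {φ : Pt → ℝ} (hφ : ∀ x ∈ bl z (6 * r), lap φ x = 0)
    {K : ℝ} (hK : ∀ x ∈ bl z (6 * r), |φ x| ≤ K) : |Yb z r R u φ| ≤ K * Nin z r R u := by
  rw [Yb_congr u (ψ := ∑ w ∈ an z (3 * r) (6 * r), φ w • kk z r w) fun x hx => by
    rw [kk_rep hr hφ (bl_mono z (by omega) hx), Finset.sum_apply]; rfl, Yb_sum, Nin, mul_sum]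
  refine (abs_sum_le_sum_abs _ _).trans (sum_le_sum fun w hw => ?_)
  rw [abs_mul]
  exact mul_le_mul_of_nonneg_right (hK w (mem_sdiff.1 hw).1) (abs_nonneg _)

theorem fn_kk : ∃ C : ℝ, 0 ≤ C ∧ ∀ (z : Pt) (r R : ℕ), 4 ≤ r → 2 * r ≤ R →
    ∀ w ∈ an z (3 * r) (6 * r), Fn (nL.edI (an z (r / 2) (2 * r)))
      (fun u => Yb z r R u (kk z r w)) ((C / (r : ℝ) ^ 2) ^ 2) := by
  obtain ⟨C, C0, hC⟩ := dif_kk
  refine ⟨10 ^ 6 * C, by positivity, fun z r R hr hR w hw => ?_⟩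
  have p1 : (4 : ℝ) ≤ r := by exact_mod_cast hr
  exact (fn_Yb hr hR (harm_kk hw) (hC z r (by omega) w hw)).mono
    (le_of_eq (by field_simp))

theorem Nin_loc (h : r ≤ R) {u v : Pt → ℝ} (huv : ∀ x, ds z x = r → u x = v x) :
    Nin z r R u = Nin z r R v :=
  sum_congr rfl fun w hw => by rw [Yb_loc h (harm_kk hw) huv]

theorem Nin_shift (h : r ≤ R) (u : Pt → ℝ) (c : ℝ) : Nin z r R (fun x => u x + c) = Nin z r R u := by
  simp only [Nin, Yb_shift_left h]

theorem Nin_neg (u : Pt → ℝ) : Nin z r R (fun x => -u x) = Nin z r R u := by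
  simp only [Nin, Yb_neg_left, abs_neg]

/-! ## symmetries of the square -/

/-- what is used of a symmetry of the square about `z` -/
structure Dq (z : Pt) (σ : Pt ≃ Pt) : Prop where
  sym : nL.Sym σ
  ds : ∀ x, ds z (σ x) = ds z x
  pk : ∀ x y, pk (σ x - σ y) = pk (x - y)
  cut : ∀ a b x, cut z a b (σ x) = cut z a b x

theorem dq_rot (z : Pt) : Dq z (rotZ z) := by
  refine ⟨fun x y => ?_, fun x => ?_, fun x y => ?_, fun a b x => ?_⟩
  · simp only [nL_J, Ha91.mem_nn, rotZ, Equiv.coe_fn_mk, Prod.ext_iff, Prod.fst_sub, Prod.snd_sub]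
    omega
  · simp only [H59.ds, rotZ, Equiv.coe_fn_mk, abs_eq_max_neg]; omega
  · rw [show rotZ z x - rotZ z y = (-(x - y).2, (x - y).1) from Prod.ext (by simp [rotZ]) (by simp [rotZ]),
      R165.Pkx583.pk_neg_fst, R165.Pkx583.pk_comm]
  · rw [cut_shift, cut_shift z a b x,
      show rotZ z x - z = (-(x - z).swap.1, (x - z).swap.2) from Prod.ext (by simp [rotZ]) (by simp [rotZ]),
      cut_neg_fst, cut_swap]

theorem dq_swp (z : Pt) : Dq z (swpZ z) := by
  refine ⟨fun x y => ?_, fun x => ?_, fun x y => ?_, fun a b x => ?_⟩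
  · simp only [nL_J, Ha91.mem_nn, swpZ, Equiv.coe_fn_mk, Prod.ext_iff, Prod.fst_sub, Prod.snd_sub]
    omega
  · simp only [H59.ds, swpZ, Equiv.coe_fn_mk, abs_eq_max_neg]; omega
  · rw [show swpZ z x - swpZ z y = ((x - y).2, (x - y).1) from Prod.ext (by simp [swpZ]) (by simp [swpZ]),
      R165.Pkx583.pk_comm]
  · rw [cut_shift, cut_shift z a b x,
      show swpZ z x - z = (x - z).swap from Prod.ext (by simp [swpZ]) (by simp [swpZ]), cut_swap]

namespace Dq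
variable {σ σ' : Pt ≃ Pt}

theorem one (z : Pt) : Dq z 1 := ⟨fun _ _ => Iff.rfl, fun _ => rfl, fun _ _ => rfl, fun _ _ _ => rfl⟩

theorem trans (h : Dq z σ) (h' : Dq z σ') : Dq z (σ.trans σ') :=
  ⟨h.sym.trans h'.sym, fun x => (h'.ds _).trans (h.ds x), fun x y => (h'.pk _ _).trans (h.pk x y),
    fun a b x => (h'.cut a b _).trans (h.cut a b x)⟩

theorem symm (h : Dq z σ) : Dq z σ.symm :=
  ⟨h.sym.symm, fun x => by rw [← h.ds, σ.apply_symm_apply],
    fun x y => by rw [← h.pk, σ.apply_symm_apply, σ.apply_symm_apply],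
    fun a b x => by rw [← h.cut, σ.apply_symm_apply]⟩

theorem pow (h : Dq z σ) (k : ℕ) : Dq z (σ ^ k : Equiv.Perm Pt) := by
  induction k with
  | zero => exact one z
  | succ k ih => rw [pow_succ]; exact h.trans ih

theorem mem_bl (h : Dq z σ) {x : Pt} {ρ : ℕ} : σ x ∈ bl z ρ ↔ x ∈ bl z ρ := by
  rw [mem_bl_ds, mem_bl_ds, h.ds]

theorem mem_an (h : Dq z σ) {x : Pt} {p q : ℕ} : σ x ∈ an z p q ↔ x ∈ an z p q := by
  rw [K85.mem_an, K85.mem_an, h.ds]

theorem map_bl (h : Dq z σ) (ρ : ℕ) : (bl z ρ).map σ.toEmbedding = bl z ρ := by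
  ext x; rw [mem_map_equiv, h.symm.mem_bl]

theorem fix (h : Dq z σ) : σ z = z := by
  have := h.mem_bl.2 (self_mem_bl z 0)
  rw [T145.mem_bl] at this
  exact Prod.ext (by omega) (by omega)

theorem eD (h : Dq z σ) (ρ : ℕ) (u v : Pt → ℝ) :
    eD nL (bl z ρ) u v = eD nL (bl z ρ) (u ∘ σ) (v ∘ σ) := by
  conv_lhs => rw [← h.map_bl ρ]
  rw [Pot.eD, Pot.eD, h.sym.edT_map nL_ok, edF_apply, edF_apply, sum_map]
  refine sum_congr rfl fun e _ => ?_
  rcases ori_cases σ e with h1 | h1 <;> simp only [Equiv.coe_toEmbedding, h1, Function.comp]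
  ring

theorem lap (h : Dq z σ) (u : Pt → ℝ) (x : Pt) : lap (u ∘ σ) x = lap u (σ x) := by
  have := congrFun (op_equiv σ (h.eD (H59.ds z x).toNat) u) x
  have hx : x ∈ bl z (H59.ds z x).toNat := mem_bl_ds.2 (Int.self_le_toNat _)
  rw [Function.comp_apply, op_eD nL_ok hx, op_eD nL_ok (h.mem_bl.2 hx), neg_inj] at this
  exact this.symm

theorem sum_bl (h : Dq z σ) (ρ : ℕ) (f : Pt → ℝ) : ∑ x ∈ bl z ρ, f (σ x) = ∑ x ∈ bl z ρ, f x :=
  sum_equiv σ (fun _ => h.mem_bl.symm) fun _ _ => rfl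

theorem sum_an (h : Dq z σ) (p q : ℕ) (f : Pt → ℝ) :
    ∑ x ∈ an z p q, f (σ x) = ∑ x ∈ an z p q, f x :=
  sum_equiv σ (fun _ => h.mem_an.symm) fun _ _ => rfl

theorem Hh (h : Dq z σ) (u : Pt → ℝ) : Hh z r R (u ∘ σ) = Hh z r R u := by
  have := (co_eD nL_ok (bl z R)).eqm_equiv (K := bl z r) σ (h.eD R)
  rw [h.map_bl, h.map_bl] at this
  rw [K85.Hh, K85.Hh, ip, ip, ← h.sum_bl r fun x => _ * u x]
  exact sum_congr rfl fun x _ => by rw [← congrFun this x]; rfl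

theorem Mh (h : Dq z σ) (u : Pt → ℝ) : Mh z R (u ∘ σ) = Mh z R u ∘ σ := by
  have := (co_eD nL_ok (bl z R)).hx_equiv σ (h.eD R) u
  rw [h.map_bl] at this
  exact this.symm

theorem ex (h : Dq z σ) (u : Pt → ℝ) : ex (bl z r) (bl z R) (Pot.eD nL (bl z R)) (u ∘ σ) =
    ex (bl z r) (bl z R) (Pot.eD nL (bl z R)) u ∘ σ := by
  have := (co_eD nL_ok (bl z R)).ex_equiv (K := bl z r) σ (h.eD R) u
  rw [h.map_bl, h.map_bl] at this
  exact this.symm

theorem exo (h : Dq z σ) (u : Pt → ℝ) : exo (bl z r) (bl z R) (Pot.eD nL (bl z R)) (u ∘ σ) =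
    exo (bl z r) (bl z R) (Pot.eD nL (bl z R)) u ∘ σ := by
  have := (co_eD nL_ok (bl z R)).exo_equiv (K := bl z r) σ (h.eD R) u
  rw [h.map_bl, h.map_bl] at this
  exact this.symm

theorem Yb (h : Dq z σ) (u φ : Pt → ℝ) : Yb z r R (u ∘ σ) (φ ∘ σ) = Yb z r R u φ := by
  have := (co_eD nL_ok (bl z R)).chg_equiv (K := bl z r) σ (h.eD R) fun x => φ x - K85.Hh z r R φ
  rw [h.map_bl, h.map_bl] at this
  rw [K85.Yb, K85.Yb, h.Hh, ip, ip, ← h.sum_bl r fun x => u x * _]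
  exact sum_congr rfl fun x _ => congrArg _ (congrFun this x).symm

theorem Yb' (h : Dq z σ) (u φ : Pt → ℝ) :
    K85.Yb z r R (u ∘ σ.symm) φ = K85.Yb z r R u (φ ∘ σ) := by
  rw [← h.Yb, Function.comp_assoc, σ.symm_comp_self, Function.comp_id]

theorem kk (h : Dq z σ) (w : Pt) : kk z r (σ w) ∘ σ = kk z r w := by
  funext x
  rw [Function.comp_apply, K85.kk, K85.kk, ← h.lap]
  congr 2; funext w'; simp only [Function.comp_apply, h.cut, h.pk]

theorem Nin (h : Dq z σ) (u : Pt → ℝ) : Nin z r R (u ∘ σ) = Nin z r R u := by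
  rw [K85.Nin, K85.Nin, ← h.sum_an _ _ fun w => |K85.Yb z r R u (K85.kk z r w)|]
  exact sum_congr rfl fun w _ => by rw [← h.kk w, h.Yb]

end Dq

end Crest.Agent.T145.Pot.K85
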