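import Crest.Agent.T145.Pot_17

/-!
# Row 145: screening by a massive ring (Wronskian lemma), abstract form (helper56)

`E = edF ed`, `Q = cellF T β κ` (mass `κ` on the cell averages), `F = c • E + Q`.  For `E`-harmonic `m`, `m'` the
form `F (hx m) (hx m') - c E m m'` is `min_u [c E u + Q (m + u)]` (polarised).
-/

set_option autoImplicit false
set_option linter.unusedSectionVars false

namespace Crest.Agent.T145.Kw56

open Finset Pot

variable {V : Type*} {ι : Type*}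

/-- average over a finite set, as a linear functional -/
noncomputable def avL (S : Finset V) : (V → ℝ) →ₗ[ℝ] ℝ :=
  (S.card : ℝ)⁻¹ • ∑ x ∈ S, (LinearMap.proj x : (V → ℝ) →ₗ[ℝ] ℝ)

theorem avL_apply (S : Finset V) (u : V → ℝ) : avL S u = (∑ x ∈ S, u x) / S.card := by
  simp [avL, LinearMap.sum_apply, div_eq_inv_mul]

/-- mass `κ` on the cell averages: `κ |P_lo u|²` -/
noncomputable def cellF (T : Finset ι) (β : ι → Finset V) (κ : ℝ) : Bf V :=
  sqF T (fun i => κ * (β i).card) fun i => avL (β i)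

theorem cellF_apply (T : Finset ι) (β : ι → Finset V) (κ : ℝ) (u v : V → ℝ) :
    cellF T β κ u v = κ * ∑ i ∈ T, (∑ x ∈ β i, u x) * (∑ x ∈ β i, v x) / (β i).card := by
  rw [cellF, sqF_apply, mul_sum]
  refine sum_congr rfl fun i _ => ?_
  rw [avL_apply, avL_apply]
  by_cases h : ((β i).card : ℝ) = 0
  · simp [h]
  · field_simp

theorem sy_cellF (T : Finset ι) (β : ι → Finset V) {κ : ℝ} (hκ : 0 ≤ κ) : Sy (cellF T β κ) :=
  sy_sqF _ fun _ _ => mul_nonneg hκ (Nat.cast_nonneg _)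

theorem cellF_congr {T : Finset ι} {β : ι → Finset V} (κ : ℝ) {u u' v v' : V → ℝ}
    (hu : ∀ i ∈ T, ∀ x ∈ β i, u x = u' x) (hv : ∀ i ∈ T, ∀ x ∈ β i, v x = v' x) :
    cellF T β κ u v = cellF T β κ u' v' := by
  rw [cellF_apply, cellF_apply]
  congr 1
  exact sum_congr rfl fun i hi => by
    rw [sum_congr rfl (hu i hi), sum_congr rfl (hv i hi)]

theorem sum_sq_split (S : Finset V) (u : V → ℝ) :
    ∑ x ∈ S, u x ^ 2 = (∑ x ∈ S, u x) * (∑ x ∈ S, u x) / S.card +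
      ∑ x ∈ S, (u x - (∑ y ∈ S, u y) / S.card) ^ 2 := by
  rcases S.eq_empty_or_nonempty with rfl | h
  · simp
  have hc : (S.card : ℝ) ≠ 0 := by exact_mod_cast h.card_pos.ne'
  have : ∀ x, (u x - (∑ y ∈ S, u y) / S.card) ^ 2 =
      u x ^ 2 - 2 * ((∑ y ∈ S, u y) / S.card) * u x + ((∑ y ∈ S, u y) / S.card) ^ 2 :=
    fun x => by ring
  simp only [this, sum_add_distrib, sum_sub_distrib, ← mul_sum, sum_const, nsmul_eq_mul]
  field_simp
  ring

theorem sum_mul_le_sqrt (S : Finset ι) (a b : ι → ℝ) :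
    ∑ i ∈ S, a i * b i ≤ √(∑ i ∈ S, a i ^ 2) * √(∑ i ∈ S, b i ^ 2) := by
  rw [← Real.sqrt_mul (sum_nonneg fun _ _ => sq_nonneg _)]
  exact Real.le_sqrt_of_sq_le (sum_mul_sq_le_sq_mul_sq S a b)

theorem edF_mono {ed ed' : Finset (V × V)} (h : ed' ⊆ ed) (u : V → ℝ) : edF ed' u u ≤ edF ed u u := by
  rw [edF_self, edF_self]
  exact sum_le_sum_of_subset_of_nonneg h fun _ _ _ => sq_nonneg _

/-- Wronskian identity -/
theorem wronski {A : Finset V} {F : Bf V} (hF : Sy F) {u v χ : V → ℝ} (hu : Hm A F u)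
    (hv : Hm A F v) (h1 : Sup A fun x => (1 - χ x) * u x) (h2 : Sup A fun x => χ x * v x) :
    F u v = F (fun x => χ x * u x) v - F u (fun x => χ x * v x) := by
  have e : u = (fun x => χ x * u x) + fun x => (1 - χ x) * u x := by
    funext x; simp only [Pi.add_apply]; ring
  rw [hu _ h2, sub_zero]
  conv_lhs => rw [e]
  rw [map_add, LinearMap.add_apply, hF.symm (fun x => (1 - χ x) * u x), hv _ h1, add_zero]

theorem edF_comm (ed : Finset (V × V)) (χ u v : V → ℝ) :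
    edF ed (fun x => χ x * u x) v - edF ed u (fun x => χ x * v x) =
      ∑ e ∈ ed, (χ e.2 - χ e.1) * (u e.1 * (v e.2 - v e.1) - v e.1 * (u e.2 - u e.1)) := by
  rw [edF_apply, edF_apply, ← sum_sub_distrib]
  exact sum_congr rfl fun e _ => by ring

/-- Caccioppoli identity -/
theorem edF_cut (ed : Finset (V × V)) (ζ m : V → ℝ) :
    edF ed (fun x => ζ x * m x) (fun x => ζ x * m x) =
      edF ed m (fun x => ζ x * (ζ x * m x)) + ∑ e ∈ ed, (ζ e.2 - ζ e.1) ^ 2 * (m e.1 * m e.2) := by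
  rw [edF_apply, edF_apply, ← sum_add_distrib]
  exact sum_congr rfl fun e _ => by ring

variable [DecidableEq V]

theorem sum_fst_le {ed : Finset (V × V)} {Γ : Finset V} {D : ℝ} (hΓ : ∀ e ∈ ed, e.1 ∈ Γ)
    (hD : ∀ x, ((ed.filter fun e => e.1 = x).card : ℝ) ≤ D) {f : V → ℝ} (hf : ∀ x, 0 ≤ f x) :
    ∑ e ∈ ed, f e.1 ≤ D * ∑ x ∈ Γ, f x := by
  rw [← sum_fiberwise_of_maps_to hΓ, mul_sum]
  refine sum_le_sum fun x _ => ?_
  rw [sum_congr rfl fun e he => by rw [(mem_filter.1 he).2], sum_const, nsmul_eq_mul]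
  exact mul_le_mul_of_nonneg_right (hD x) (hf x)

theorem sum_snd_le {ed : Finset (V × V)} {Γ : Finset V} {D : ℝ} (hΓ : ∀ e ∈ ed, e.2 ∈ Γ)
    (hD : ∀ x, ((ed.filter fun e => e.2 = x).card : ℝ) ≤ D) {f : V → ℝ} (hf : ∀ x, 0 ≤ f x) :
    ∑ e ∈ ed, f e.2 ≤ D * ∑ x ∈ Γ, f x := by
  rw [← sum_fiberwise_of_maps_to hΓ, mul_sum]
  refine sum_le_sum fun x _ => ?_
  rw [sum_congr rfl fun e he => by rw [(mem_filter.1 he).2], sum_const, nsmul_eq_mul]
  exact mul_le_mul_of_nonneg_right (hD x) (hf x)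

theorem card_filter_le_of_subset {ed ed' : Finset (V × V)} (h : ed' ⊆ ed) (p : V × V → Prop)
    [DecidablePred p] {D : ℝ} (hD : ((ed.filter p).card : ℝ) ≤ D) :
    ((ed'.filter p).card : ℝ) ≤ D :=
  le_trans (by exact_mod_cast card_le_card (filter_subset_filter p h)) hD

/-- Caccioppoli inequality: `ζ` changes by at most `lam` along an edge, and only inside `M` -/
theorem cacc {A M : Finset V} {ed : Finset (V × V)} {ζ m : V → ℝ} {lam D : ℝ}
    (hm : Hm A (edF ed) m) (hs : Sup A fun x => ζ x * m x)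
    (h1 : ∀ e ∈ ed, |ζ e.2 - ζ e.1| ≤ lam) (h2 : ∀ e ∈ ed, ζ e.1 ≠ ζ e.2 → e.1 ∈ M ∧ e.2 ∈ M)
    (hD : ∀ x, ((ed.filter fun e => e.1 = x).card : ℝ) ≤ D)
    (hD' : ∀ x, ((ed.filter fun e => e.2 = x).card : ℝ) ≤ D) :
    edF ed (fun x => ζ x * m x) (fun x => ζ x * m x) ≤ lam ^ 2 * D * ∑ x ∈ M, m x ^ 2 := by
  rw [edF_cut, hm _ (fun x hx => mul_eq_zero_of_right _ (hs x hx)), zero_add,
    ← sum_filter_of_ne (p := fun e => e.1 ∈ M ∧ e.2 ∈ M) fun e he hne => h2 e he fun h => hne (by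
      rw [h, sub_self]; ring)]
  have hsub := filter_subset (fun e : V × V => e.1 ∈ M ∧ e.2 ∈ M) ed
  have a1 := sum_fst_le (Γ := M) (fun e he => (mem_filter.1 he).2.1)
    (fun x => card_filter_le_of_subset hsub _ (hD x)) (f := fun x => m x ^ 2) fun _ => sq_nonneg _
  have a2 := sum_snd_le (Γ := M) (fun e he => (mem_filter.1 he).2.2)
    (fun x => card_filter_le_of_subset hsub _ (hD' x)) (f := fun x => m x ^ 2) fun _ => sq_nonneg _
  calc _ ≤ ∑ e ∈ ed.filter (fun e => e.1 ∈ M ∧ e.2 ∈ M), lam ^ 2 / 2 * (m e.1 ^ 2 + m e.2 ^ 2) := by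
        refine sum_le_sum fun e he => ?_
        have := sq_le_sq' (neg_le_of_abs_le (h1 e (hsub he))) (le_of_abs_le (h1 e (hsub he)))
        nlinarith [sq_nonneg (m e.1 - m e.2), sq_nonneg (m e.1 + m e.2), sq_nonneg (ζ e.2 - ζ e.1),
          mul_nonneg (sub_nonneg.2 this) (add_nonneg (sq_nonneg (m e.1)) (sq_nonneg (m e.2))),
          mul_nonneg (sq_nonneg (ζ e.2 - ζ e.1)) (sq_nonneg (m e.1 - m e.2))]
    _ ≤ _ := by
        rw [← mul_sum, sum_add_distrib]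
        nlinarith [sq_nonneg lam]

/-- commutator of a cut-off with the edge form -/
theorem abs_edF_comm {Γ : Finset V} {ed : Finset (V × V)} {χ : V → ℝ} {lam D : ℝ} (h0 : 0 ≤ lam)
    (hD0 : 0 ≤ D) (h1 : ∀ e ∈ ed, |χ e.2 - χ e.1| ≤ lam)
    (h2 : ∀ e ∈ ed, χ e.1 ≠ χ e.2 → e.1 ∈ Γ ∧ e.2 ∈ Γ)
    (hD : ∀ x, ((ed.filter fun e => e.1 = x).card : ℝ) ≤ D) (u v : V → ℝ) :
    |edF ed (fun x => χ x * u x) v - edF ed u (fun x => χ x * v x)| ≤
      lam * √D * (√(∑ x ∈ Γ, u x ^ 2) * √(edF (inn Γ ed) v v) +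
        √(∑ x ∈ Γ, v x ^ 2) * √(edF (inn Γ ed) u u)) := by
  have hsub : inn Γ ed ⊆ ed := filter_subset _ _
  have key : ∀ u v : V → ℝ, ∑ e ∈ inn Γ ed, |u e.1| * |v e.2 - v e.1| ≤
      √D * (√(∑ x ∈ Γ, u x ^ 2) * √(edF (inn Γ ed) v v)) := fun u v => by
    refine (sum_mul_le_sqrt _ _ _).trans ?_
    simp only [sq_abs]
    rw [← edF_self, ← mul_assoc, ← Real.sqrt_mul hD0]
    refine mul_le_mul_of_nonneg_right (Real.sqrt_le_sqrt ?_) (Real.sqrt_nonneg _)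
    exact sum_fst_le (fun e he => (mem_filter.1 he).2.1)
      (fun x => card_filter_le_of_subset hsub _ (hD x)) (f := fun x => u x ^ 2) fun _ => sq_nonneg _
  rw [edF_comm, ← sum_filter_of_ne (p := fun e => e.1 ∈ Γ ∧ e.2 ∈ Γ) fun e he hne =>
    h2 e he fun h => hne (by rw [h, sub_self, zero_mul])]
  refine (abs_sum_le_sum_abs _ _).trans ?_
  calc _ ≤ ∑ e ∈ inn Γ ed, lam * (|u e.1| * |v e.2 - v e.1| + |v e.1| * |u e.2 - u e.1|) := by
        refine sum_le_sum fun e he => ?_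
        rw [abs_mul]
        refine mul_le_mul (h1 e (hsub he)) ?_ (abs_nonneg _) h0
        rw [← abs_mul, ← abs_mul]
        exact abs_sub _ _
    _ ≤ _ := by
        rw [← mul_sum, sum_add_distrib, mul_assoc, mul_add (√D)]
        exact mul_le_mul_of_nonneg_left (add_le_add (key u v) (key v u)) h0

theorem sum_cells_le {T : Finset ι} {β : ι → Finset V} {Γ : Finset V}
    (hd : (T : Set ι).PairwiseDisjoint β) (hΓ : ∀ i ∈ T, β i ⊆ Γ) {f : V → ℝ} (hf : ∀ x, 0 ≤ f x) :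
    ∑ i ∈ T, ∑ x ∈ β i, f x ≤ ∑ x ∈ Γ, f x := by
  rw [← sum_biUnion hd]
  exact sum_le_sum_of_subset_of_nonneg (biUnion_subset.2 hΓ) fun x _ _ => hf x

omit [DecidableEq V] in
theorem sum_abs_mul_div_le (S : Finset V) (u v : V → ℝ) :
    (∑ x ∈ S, |u x|) * (∑ x ∈ S, |v x|) / S.card ≤ √(∑ x ∈ S, u x ^ 2) * √(∑ x ∈ S, v x ^ 2) := by
  rcases S.eq_empty_or_nonempty with rfl | h
  · simp
  have hc : (0 : ℝ) < S.card := by exact_mod_cast h.card_pos
  have k : ∀ u : V → ℝ, ∑ x ∈ S, |u x| ≤ √(S.card) * √(∑ x ∈ S, u x ^ 2) := fun u => by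
    simpa [sq_abs] using sum_mul_le_sqrt S (fun _ => (1 : ℝ)) fun x => |u x|
  rw [div_le_iff₀ hc]
  calc _ ≤ (√(S.card) * √(∑ x ∈ S, u x ^ 2)) * (√(S.card) * √(∑ x ∈ S, v x ^ 2)) :=
        mul_le_mul (k u) (k v) (sum_nonneg fun _ _ => abs_nonneg _) (by positivity)
    _ = (√(S.card) * √(S.card)) * (√(∑ x ∈ S, u x ^ 2) * √(∑ x ∈ S, v x ^ 2)) := by ring
    _ = _ := by rw [Real.mul_self_sqrt hc.le]; ring

/-- commutator of a cut-off with the cell mass -/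
theorem abs_cellF_comm {T : Finset ι} {β : ι → Finset V} {Γ : Finset V} {κ lam : ℝ} {χ : V → ℝ}
    (hκ : 0 ≤ κ) (h0 : 0 ≤ lam) (hd : (T : Set ι).PairwiseDisjoint β) (hΓ : ∀ i ∈ T, β i ⊆ Γ)
    (h1 : ∀ i ∈ T, ∀ x ∈ β i, ∀ y ∈ β i, |χ x - χ y| ≤ lam) (u v : V → ℝ) :
    |cellF T β κ (fun x => χ x * u x) v - cellF T β κ u (fun x => χ x * v x)| ≤
      κ * lam * (√(∑ x ∈ Γ, u x ^ 2) * √(∑ x ∈ Γ, v x ^ 2)) := by
  rw [cellF_apply, cellF_apply, ← mul_sub, ← sum_sub_distrib, abs_mul, abs_of_nonneg hκ, mul_assoc]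
  refine mul_le_mul_of_nonneg_left ((abs_sum_le_sum_abs _ _).trans ?_) hκ
  calc _ ≤ ∑ i ∈ T, lam * (√(∑ x ∈ β i, u x ^ 2) * √(∑ x ∈ β i, v x ^ 2)) := by
        refine sum_le_sum fun i hi => ?_
        refine le_trans ?_ (mul_le_mul_of_nonneg_left (sum_abs_mul_div_le (β i) u v) h0)
        rw [← sub_div, abs_div, Nat.abs_cast, ← mul_div_assoc]
        refine div_le_div_of_nonneg_right ?_ (Nat.cast_nonneg _)
        rw [sum_mul_sum, sum_mul_sum, sum_mul_sum, ← sum_sub_distrib, mul_sum]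
        refine (abs_sum_le_sum_abs _ _).trans (sum_le_sum fun x hx => ?_)
        rw [← sum_sub_distrib, mul_sum]
        refine (abs_sum_le_sum_abs _ _).trans (sum_le_sum fun y hy => ?_)
        rw [show χ x * u x * v y - u x * (χ y * v y) = (χ x - χ y) * (u x * v y) by ring, abs_mul,
          abs_mul]
        exact mul_le_mul_of_nonneg_right (h1 i hi x hx y hy) (by positivity)
    _ ≤ _ := by
        rw [← mul_sum]
        refine mul_le_mul_of_nonneg_left ((sum_mul_le_sqrt _ _ _).trans ?_) h0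
        have k : ∀ u : V → ℝ, √(∑ i ∈ T, √(∑ x ∈ β i, u x ^ 2) ^ 2) ≤ √(∑ x ∈ Γ, u x ^ 2) :=
          fun u => Real.sqrt_le_sqrt (by
            rw [sum_congr rfl fun i _ => Real.sq_sqrt (sum_nonneg fun _ _ => sq_nonneg _)]
            exact sum_cells_le hd hΓ (f := fun x => u x ^ 2) fun _ => sq_nonneg _)
        exact mul_le_mul (k u) (k v) (Real.sqrt_nonneg _) (Real.sqrt_nonneg _)

/-- the cells tile `Γ` and satisfy a Poincaré inequality with constant `P` -/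
structure Cells (ed : Finset (V × V)) (T : Finset ι) (β : ι → Finset V) (Γ : Finset V) (P : ℝ) :
    Prop where
  disj : (T : Set ι).PairwiseDisjoint β
  cover : T.biUnion β = Γ
  nn : 0 ≤ P
  poin : ∀ i ∈ T, ∀ u : V → ℝ, ∑ x ∈ β i, (u x - (∑ y ∈ β i, u y) / (β i).card) ^ 2 ≤
    P * edF (inn (β i) ed) u u

section
variable {ed : Finset (V × V)} {T : Finset ι} {β : ι → Finset V} {A Γ : Finset V} {P : ℝ}

theorem Cells.sub (h : Cells ed T β Γ P) {i : ι} (hi : i ∈ T) : β i ⊆ Γ :=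
  h.cover ▸ subset_biUnion_of_mem β hi

theorem Cells.sum_ed (h : Cells ed T β Γ P) (u : V → ℝ) :
    ∑ i ∈ T, edF (inn (β i) ed) u u ≤ edF (inn Γ ed) u u := by
  simp only [edF_self]
  have hd : (T : Set ι).PairwiseDisjoint fun i => inn (β i) ed := fun i hi j hj hne =>
    disjoint_left.2 fun e he he' =>
      disjoint_left.1 (h.disj hi hj hne) (mem_filter.1 he).2.1 (mem_filter.1 he').2.1
  rw [← sum_biUnion hd]
  refine sum_le_sum_of_subset_of_nonneg (biUnion_subset.2 fun i hi e he => ?_)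
    fun _ _ _ => sq_nonneg _
  obtain ⟨h1, h2, h3⟩ := mem_filter.1 he
  exact mem_filter.2 ⟨h1, h.sub hi h2, h.sub hi h3⟩

/-- `κ |u|² ≤ κ |P_lo u|² + κ P E(u)` on `Γ` -/
theorem Cells.norm_le (h : Cells ed T β Γ P) {κ : ℝ} (hκ : 0 ≤ κ) (u : V → ℝ) :
    κ * ∑ x ∈ Γ, u x ^ 2 ≤ cellF T β κ u u + κ * P * edF (inn Γ ed) u u := by
  rw [cellF_apply, mul_assoc, ← mul_add]
  refine mul_le_mul_of_nonneg_left ?_ hκ
  conv_lhs => rw [← h.cover, sum_biUnion h.disj]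
  rw [sum_congr rfl fun i _ => sum_sq_split (β i) u, sum_add_distrib]
  refine add_le_add le_rfl ((sum_le_sum fun i hi => h.poin i hi u).trans ?_)
  rw [← mul_sum]
  exact mul_le_mul_of_nonneg_left (h.sum_ed u) h.nn

/-- the screened form -/
noncomputable def scF (c : ℝ) (ed : Finset (V × V)) (T : Finset ι) (β : ι → Finset V) (κ : ℝ) : Bf V :=
  c • edF ed + cellF T β κ

omit [DecidableEq V] in
theorem scF_apply (c : ℝ) (ed : Finset (V × V)) (T : Finset ι) (β : ι → Finset V) (κ : ℝ)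
    (u v : V → ℝ) : scF c ed T β κ u v = c * edF ed u v + cellF T β κ u v := by
  simp [scF]

omit [DecidableEq V] in
theorem co_scF (hA : Co A (edF ed)) {c κ : ℝ} (hc : 0 < c) (hκ : 0 ≤ κ) (T : Finset ι)
    (β : ι → Finset V) : Co A (scF c ed T β κ) := (hA.smul hc).add (sy_cellF T β hκ)

/-- the ring form `B (m, m') = F (hx m) (hx m') - c E m m'` -/
noncomputable def rgB (A : Finset V) (c : ℝ) (ed : Finset (V × V)) (T : Finset ι)
    (β : ι → Finset V) (κ : ℝ) (m m' : V → ℝ) : ℝ :=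
  scF c ed T β κ (hx A (scF c ed T β κ) m) (hx A (scF c ed T β κ) m') - c * edF ed m m'

theorem edF_add_of_hm {m u : V → ℝ} (hm : Hm A (edF ed) m) (hu : Sup A u) :
    edF ed (m + u) (m + u) = edF ed m m + edF ed u u := by
  rw [(sy_edF ed).sq_add, hm u hu]; ring

/-- `B (m, m) ≤ c E u + Q (m + u)` for every `u` supported in `A` -/
theorem rgB_le (hA : Co A (edF ed)) {c κ : ℝ} (hc : 0 < c) (hκ : 0 ≤ κ) {m u : V → ℝ}
    (hm : Hm A (edF ed) m) (hu : Sup A u) :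
    rgB A c ed T β κ m m ≤ c * edF ed u u + cellF T β κ (m + u) (m + u) := by
  have := (co_scF hA hc hκ T β).hx_min (η := m) (u := m + u) fun x hx => by simp [hu x hx]
  rw [scF_apply c ed T β κ (m + u), edF_add_of_hm hm hu] at this
  unfold rgB; linarith

theorem sup_hx_sub {F : Bf V} (h : Co A F) (m : V → ℝ) : Sup A (hx A F m - m) := fun x hx' => by
  simp [h.hx_off m hx']

/-- the minimum is attained at `u = hx m - m` -/
theorem rgB_eq (hA : Co A (edF ed)) {c κ : ℝ} (hc : 0 < c) (hκ : 0 ≤ κ) {m : V → ℝ}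
    (hm : Hm A (edF ed) m) :
    rgB A c ed T β κ m m =
      c * edF ed (hx A (scF c ed T β κ) m - m) (hx A (scF c ed T β κ) m - m) +
        cellF T β κ (hx A (scF c ed T β κ) m) (hx A (scF c ed T β κ) m) := by
  have := edF_add_of_hm hm (sup_hx_sub (co_scF hA hc hκ T β) m)
  rw [add_sub_cancel] at this
  unfold rgB
  rw [scF_apply, this]; ring

theorem rgB_nonneg (hA : Co A (edF ed)) {c κ : ℝ} (hc : 0 < c) (hκ : 0 ≤ κ) {m : V → ℝ}
    (hm : Hm A (edF ed) m) : 0 ≤ rgB A c ed T β κ m m := by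
  rw [rgB_eq hA hc hκ hm]
  exact add_nonneg (mul_nonneg hc.le ((sy_edF ed).nonneg _)) ((sy_cellF T β hκ).nonneg _)

/-- `B (m, m) ≤ c E (ζ m)` when `ζ = 1` on the cells -/
theorem rgB_le_cut (hA : Co A (edF ed)) {c κ : ℝ} (hc : 0 < c) (hκ : 0 ≤ κ) {m ζ : V → ℝ}
    (hm : Hm A (edF ed) m) (hs : Sup A fun x => ζ x * m x) (hζ : ∀ i ∈ T, ∀ x ∈ β i, ζ x = 1) :
    rgB A c ed T β κ m m ≤ c * edF ed (fun x => ζ x * m x) (fun x => ζ x * m x) := by
  have := rgB_le (T := T) (β := β) hA hc hκ hm hs.neg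
  rw [cellF_congr κ (u' := 0) (v' := 0) (fun i hi x hx => by simp [hζ i hi x hx])
    (fun i hi x hx => by simp [hζ i hi x hx])] at this
  simpa using this

/-- a priori bounds for the screened extension on `Γ` -/
theorem Cells.apriori (h : Cells ed T β Γ P) (hA : Co A (edF ed)) {c κ : ℝ} (hc : 0 < c)
    (hκ : 0 ≤ κ) {m ζ : V → ℝ} (hm : Hm A (edF ed) m) (hs : Sup A fun x => ζ x * m x)
    (hζ : ∀ x ∈ Γ, ζ x = 1) :
    edF (inn Γ ed) (hx A (scF c ed T β κ) m) (hx A (scF c ed T β κ) m) ≤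
        4 * edF ed (fun x => ζ x * m x) (fun x => ζ x * m x) ∧
      κ * ∑ x ∈ Γ, hx A (scF c ed T β κ) m x ^ 2 ≤
        (c + 4 * (κ * P)) * edF ed (fun x => ζ x * m x) (fun x => ζ x * m x) := by
  have h1 := rgB_le_cut (T := T) (β := β) hA hc hκ hm hs fun i hi x hx => hζ x (h.sub hi hx)
  rw [rgB_eq hA hc hκ hm] at h1
  set v := hx A (scF c ed T β κ) m
  set Ea := edF ed (fun x => ζ x * m x) (fun x => ζ x * m x)
  have q0 := (sy_cellF T β hκ).nonneg v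
  have e0 := (sy_edF ed).nonneg (v - m)
  have h2 : edF ed (v - m) (v - m) ≤ Ea := by
    refine le_of_mul_le_mul_left ?_ hc; linarith
  have h3 : edF (inn Γ ed) m m ≤ Ea := by
    refine le_trans (le_of_eq ?_) (edF_mono (filter_subset _ _ : inn Γ ed ⊆ ed) _)
    rw [edF_self, edF_self]
    refine sum_congr rfl fun e he => ?_
    rw [hζ _ (mem_filter.1 he).2.1, hζ _ (mem_filter.1 he).2.2, one_mul, one_mul]
  have h4 : edF (inn Γ ed) (v - m) (v - m) ≤ edF ed (v - m) (v - m) :=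
    edF_mono (filter_subset _ _) (v - m)
  have h5 : edF (inn Γ ed) v v ≤ 4 * Ea := by
    have a := (sy_edF (inn Γ ed)).sq_add m (v - m)
    have b := (sy_edF (inn Γ ed)).sq_sub m (v - m)
    have := (sy_edF (inn Γ ed)).nonneg (m - (v - m))
    rw [add_sub_cancel] at a
    linarith
  refine ⟨h5, (h.norm_le hκ v).trans ?_⟩
  have := mul_le_mul_of_nonneg_left h5 (mul_nonneg hκ h.nn)
  nlinarith [mul_nonneg hc.le e0]

/-- **screening (Wronskian) lemma**: the screened extensions of data given on the two sides of the massive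
region `Γ` are almost orthogonal -/
theorem Cells.screen (h : Cells ed T β Γ P) (hA : Co A (edF ed)) {c κ lam lam' D : ℝ} (hc : 0 < c)
    (hκ : 0 < κ) {m m' ζ χ : V → ℝ} (hm : Hm A (edF ed) m) (hm' : Hm A (edF ed) m')
    (hs : Sup A fun x => ζ x * m x) (hs' : Sup A fun x => ζ x * m' x) (hζ : ∀ x ∈ Γ, ζ x = 1)
    (hχ : Sup A fun x => (1 - χ x) * m x) (hχ' : Sup A fun x => χ x * m' x)
    (h0 : 0 ≤ lam) (h0' : 0 ≤ lam') (hD0 : 0 ≤ D) (h1 : ∀ e ∈ ed, |χ e.2 - χ e.1| ≤ lam)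
    (h2 : ∀ e ∈ ed, χ e.1 ≠ χ e.2 → e.1 ∈ Γ ∧ e.2 ∈ Γ)
    (h3 : ∀ i ∈ T, ∀ x ∈ β i, ∀ y ∈ β i, |χ x - χ y| ≤ lam')
    (hD : ∀ x, ((ed.filter fun e => e.1 = x).card : ℝ) ≤ D) :
    |rgB A c ed T β κ m m' + c * edF ed m m'| ≤
      (4 * c * lam * √D * √((c + 4 * (κ * P)) / κ) + lam' * (c + 4 * (κ * P))) *
        (√(edF ed (fun x => ζ x * m x) (fun x => ζ x * m x)) *
          √(edF ed (fun x => ζ x * m' x) (fun x => ζ x * m' x))) := by
  have hF := co_scF hA hc hκ.le T β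
  obtain ⟨a1, a2⟩ := h.apriori hA hc hκ.le hm hs hζ
  obtain ⟨b1, b2⟩ := h.apriori hA hc hκ.le hm' hs' hζ
  rw [rgB, sub_add_cancel, wronski hF.toSy (hF.hx_hm m) (hF.hx_hm m') (χ := χ)
    (fun x hx => by simpa only [hF.hx_off m hx] using hχ x hx)
    (fun x hx => by simpa only [hF.hx_off m' hx] using hχ' x hx), scF_apply, scF_apply]
  set u := hx A (scF c ed T β κ) m
  set v := hx A (scF c ed T β κ) m'
  set Ea := edF ed (fun x => ζ x * m x) (fun x => ζ x * m x)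
  set Eb := edF ed (fun x => ζ x * m' x) (fun x => ζ x * m' x)
  set K := c + 4 * (κ * P)
  have hK : 0 ≤ K := add_nonneg hc.le (mul_nonneg (by norm_num) (mul_nonneg hκ.le h.nn))
  have e1 := abs_edF_comm h0 hD0 h1 h2 hD u v
  have e2 := abs_cellF_comm hκ.le h0' h.disj (fun i hi => h.sub hi) h3 u v
  have s1 : ∀ {x E : ℝ}, x ≤ 4 * E → √x ≤ 2 * √E := fun {x E} hx => by
    rw [show (2 : ℝ) = √4 by rw [show (4 : ℝ) = 2 ^ 2 by norm_num, Real.sqrt_sq (by norm_num)],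
      ← Real.sqrt_mul (by norm_num)]
    exact Real.sqrt_le_sqrt hx
  have s2 : ∀ {x E : ℝ}, κ * x ≤ K * E → √x ≤ √(K / κ) * √E := fun {x E} hx => by
    rw [← Real.sqrt_mul (div_nonneg hK hκ.le)]
    refine Real.sqrt_le_sqrt ?_
    rw [div_mul_eq_mul_div, le_div_iff₀ hκ]; linarith
  have n := Real.sqrt_nonneg
  have t1 : √(∑ x ∈ Γ, u x ^ 2) * √(edF (inn Γ ed) v v) ≤ (√(K / κ) * √Ea) * (2 * √Eb) :=
    mul_le_mul (s2 a2) (s1 b1) (n _) (mul_nonneg (n _) (n _))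
  have t2 : √(∑ x ∈ Γ, v x ^ 2) * √(edF (inn Γ ed) u u) ≤ (√(K / κ) * √Eb) * (2 * √Ea) :=
    mul_le_mul (s2 b2) (s1 a1) (n _) (mul_nonneg (n _) (n _))
  have t3 : √(∑ x ∈ Γ, u x ^ 2) * √(∑ x ∈ Γ, v x ^ 2) ≤ (√(K / κ) * √Ea) * (√(K / κ) * √Eb) :=
    mul_le_mul (s2 a2) (s2 b2) (n _) (mul_nonneg (n _) (n _))
  have t4 : κ * lam' * ((√(K / κ) * √Ea) * (√(K / κ) * √Eb)) = lam' * K * (√Ea * √Eb) := by
    have := Real.mul_self_sqrt (div_nonneg hK hκ.le)
    calc _ = κ * (√(K / κ) * √(K / κ)) * lam' * (√Ea * √Eb) := by ring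
      _ = _ := by rw [this]; field_simp
  have f1 := e1.trans (mul_le_mul_of_nonneg_left (add_le_add t1 t2) (mul_nonneg h0 (n D)))
  have f2 := e2.trans (mul_le_mul_of_nonneg_left t3 (mul_nonneg hκ.le h0'))
  rw [t4] at f2
  rw [show ∀ a b a' b' : ℝ, c * a + b - (c * a' + b') = c * (a - a') + (b - b') from
    fun _ _ _ _ => by ring]
  refine (abs_add_le _ _).trans ?_
  rw [abs_mul, abs_of_pos hc]
  have f3 := mul_le_mul_of_nonneg_left f1 hc.le
  calc _ ≤ c * (lam * √D * (√(K / κ) * √Ea * (2 * √Eb) + √(K / κ) * √Eb * (2 * √Ea))) +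
        lam' * K * (√Ea * √Eb) := add_le_add f3 f2
    _ = _ := by ring

end

end Crest.Agent.T145.Kw56
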