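import Crest.Agent.T145.GsR_85
import Crest.Agent.T145.KrW_56

/-!
# Row 145 (helper85): the screened form of the potential theory is the tilted matrix `Gs.tl`
-/

set_option autoImplicit false
set_option linter.unusedSectionVars false

namespace Crest.Agent.T145.Gs

open Finset Matrix Pot

variable {V : Type*} [DecidableEq V] {ι : Type*} [DecidableEq ι] {A : Finset V} {E : Bf V}

/-- the charge of a linear functional -/
def chg (ℓ : (V → ℝ) →ₗ[ℝ] ℝ) : V → ℝ := fun x => ℓ (dl x)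

theorem ip_chg (ℓ : (V → ℝ) →ₗ[ℝ] ℝ) {u : V → ℝ} (hu : Sup A u) : ip A (chg ℓ) u = ℓ u := by
  conv_rhs => rw [hu.eq_sum]
  simp [ip, chg, map_sum, mul_comm]

/-- Gram matrix of the charges `f j` for the Green form -/
noncomputable def gram (A : Finset V) (E : Bf V) (f : ι → V → ℝ) : Matrix ι ι ℝ :=
  Matrix.of fun i j => G A E (f i) (f j)

theorem gram_apply (f : ι → V → ℝ) (i j : ι) : gram A E f i j = G A E (f i) (f j) := rfl

variable [Fintype ι]

theorem gram_mulVec (h : Co A E) (f : ι → V → ℝ) (w : ι → ℝ) (i : ι) :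
    (gram A E f *ᵥ w) i = G A E (f i) (∑ j, w j • f j) := by
  rw [← h.GF_apply, map_sum]
  simp [mulVec, dotProduct, gram_apply, h.GF_apply, h.G_smul_right, mul_comm]

theorem gram_quad (h : Co A E) (f : ι → V → ℝ) (v w : ι → ℝ) :
    v ⬝ᵥ gram A E f *ᵥ w = G A E (∑ j, v j • f j) (∑ j, w j • f j) := by
  rw [← h.GF_apply, map_sum h.GF, LinearMap.sum_apply]
  simp only [dotProduct, gram_mulVec h, h.GF_apply, G_smul_left]

theorem gram_psd (h : Co A E) (f : ι → V → ℝ) : (gram A E f).PosSemidef :=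
  psd_of (by ext i j; simp [gram_apply, h.G_comm (f i)]) fun w => by
    rw [gram_quad h]; exact h.G_nonneg _

theorem gram_scale (h : Co A E) {c : ℝ} (hc : 0 < c) (f : ι → V → ℝ) :
    gram A (c • E) f = c⁻¹ • gram A E f := by
  ext i j; simp [gram_apply, h.G_scale hc]

theorem diag_psd {c : ι → ℝ} (hc : ∀ j, 0 ≤ c j) : (diagonal c).PosSemidef :=
  PosSemidef.diagonal hc

theorem gw_diagonal (c y : ι → ℝ) : gw (diagonal c) y = Real.exp (-(∑ j, c j * y j ^ 2) / 2) := by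
  simp only [gw, dotProduct, mulVec_diagonal]
  congr 3
  exact sum_congr rfl fun j _ => by ring

/-- the screened extension -/
theorem hx_screen (h : Co A E) {c : ι → ℝ} (hc : ∀ j, 0 ≤ c j) (ℓ : ι → (V → ℝ) →ₗ[ℝ] ℝ)
    {m : V → ℝ} (hm : Hm A E m) : hx A (E + sqF univ c ℓ) m = m - gr A E
      (∑ j, (tl (diagonal c) (gram A E fun j => chg (ℓ j)) *ᵥ fun j => ℓ j m) j • chg (ℓ j)) := by
  set C := gram A E fun j => chg (ℓ j) with hC
  set w := tl (diagonal c) C *ᵥ fun j => ℓ j m with hw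
  have h1 := tl_mulVec_id (unit_psd (gram_psd h fun j => chg (ℓ j)) (diag_psd hc)) fun j => ℓ j m
  rw [← hC, ← hw] at h1
  refine (h.add (sy_sqF ℓ fun j _ => hc j)).hx_unique (fun x hx => by simp [h.gr_sup _ x hx])
    fun φ hφ => ?_
  have h2 : ∀ j, c j * ℓ j (m - gr A E (∑ j, w j • chg (ℓ j))) = w j := fun j => by
    have := congrFun h1 j
    simp only [Pi.add_apply, mulVec_diagonal] at this
    rw [map_sub, ← ip_chg (ℓ j) (h.gr_sup _), ← G, ← gram_mulVec h (fun j => chg (ℓ j)), ← hC]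
    linarith
  have h3 : ip A (∑ j, w j • chg (ℓ j)) φ = ∑ j, w j * ℓ j φ := by
    simp only [← ip_chg _ hφ, ip, Finset.sum_apply, Pi.smul_apply, smul_eq_mul, sum_mul, mul_sum,
      mul_assoc]
    exact sum_comm
  rw [LinearMap.add_apply, LinearMap.add_apply, map_sub, LinearMap.sub_apply, hm φ hφ,
    h.gr_spec _ hφ, h3, sqF_apply]
  simp only [← mul_assoc, h2]
  ring

theorem ell_hx_screen (h : Co A E) {c : ι → ℝ} (hc : ∀ j, 0 ≤ c j) (ℓ : ι → (V → ℝ) →ₗ[ℝ] ℝ)
    {m : V → ℝ} (hm : Hm A E m) (j : ι) : c j * ℓ j (hx A (E + sqF univ c ℓ) m) =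
      (tl (diagonal c) (gram A E fun j => chg (ℓ j)) *ᵥ fun j => ℓ j m) j := by
  rw [hx_screen h hc ℓ hm]
  have h1 := congrFun
    (tl_mulVec_id (unit_psd (gram_psd h fun j => chg (ℓ j)) (diag_psd hc)) fun j => ℓ j m) j
  simp only [Pi.add_apply, mulVec_diagonal] at h1
  rw [map_sub, ← ip_chg (ℓ j) (h.gr_sup _), ← G, ← gram_mulVec h (fun j => chg (ℓ j))]
  linarith

/-- the screened form is the tilted matrix form of the functionals -/
theorem screen_eq (h : Co A E) {c : ι → ℝ} (hc : ∀ j, 0 ≤ c j) (ℓ : ι → (V → ℝ) →ₗ[ℝ] ℝ)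
    {m m' : V → ℝ} (hm : Hm A E m) (hm' : Hm A E m') :
    (E + sqF univ c ℓ) (hx A (E + sqF univ c ℓ) m) (hx A (E + sqF univ c ℓ) m') - E m m' =
      (fun j => ℓ j m) ⬝ᵥ tl (diagonal c) (gram A E fun j => chg (ℓ j)) *ᵥ fun j => ℓ j m' := by
  have hF := h.add (sy_sqF ℓ fun j (_ : j ∈ univ) => hc j)
  have h1 : (E + sqF univ c ℓ) (hx A (E + sqF univ c ℓ) m) (hx A (E + sqF univ c ℓ) m') =
      (E + sqF univ c ℓ) m (hx A (E + sqF univ c ℓ) m') := by
    have := hF.hx_hm m' _ (Kw56.sup_hx_sub hF m)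
    rw [hF.symm, map_sub, LinearMap.sub_apply] at this
    linarith
  have h2 : E m (hx A (E + sqF univ c ℓ) m') = E m m' := by
    have := hm _ (Kw56.sup_hx_sub hF m')
    rw [map_sub] at this
    linarith
  rw [h1, LinearMap.add_apply, LinearMap.add_apply, h2, sqF_apply, add_sub_cancel_left, dotProduct]
  exact sum_congr rfl fun j _ => by rw [← ell_hx_screen h hc ℓ hm' j]; ring

omit [Fintype ι] in
theorem sqF_coe (T : Finset ι) (c : ι → ℝ) (ℓ : ι → (V → ℝ) →ₗ[ℝ] ℝ) :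
    sqF T c ℓ = sqF (univ : Finset T) (fun j => c j) fun j => ℓ j := by
  unfold sqF
  exact (sum_coe_sort T _).symm

omit [Fintype ι] in
theorem chg_avL (S : Finset V) (x : V) :
    chg (Kw56.avL S) x = if x ∈ S then (S.card : ℝ)⁻¹ else 0 := by
  rw [chg, Kw56.avL_apply]
  by_cases hx : x ∈ S <;> simp [Pi.single_apply, hx]

omit [Fintype ι] in
/-- `Kw56.rgB` is the form of `tl S C`, `S = diag (κ |β i|)`, `C = c⁻¹ G (f i, f j)`, `f i` = uniform on `β i` -/
theorem rgB_eq_tl {ed : Finset (V × V)} (hA : Co A (edF ed)) {c κ : ℝ} (hc : 0 < c) (hκ : 0 ≤ κ)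
    (T : Finset ι) (β : ι → Finset V) {m m' : V → ℝ} (hm : Hm A (edF ed) m)
    (hm' : Hm A (edF ed) m') : Kw56.rgB A c ed T β κ m m' =
      (fun j : T => Kw56.avL (β j) m) ⬝ᵥ tl (diagonal fun j : T => κ * (β j).card)
        (c⁻¹ • gram A (edF ed) fun j : T => chg (Kw56.avL (β j))) *ᵥ
          fun j : T => Kw56.avL (β j) m' := by
  have hs : ∀ {u : V → ℝ}, Hm A (edF ed) u → Hm A (c • edF ed) u := fun hu v hv => by
    simp [hu v hv]
  rw [← gram_scale hA hc, ← screen_eq (hA.smul hc) (fun j => by positivity) _ (hs hm) (hs hm'),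
    Kw56.rgB, Kw56.scF, Kw56.cellF, sqF_coe]
  simp

end Crest.Agent.T145.Gs
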