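import Crest.Agent.T145.KrKs_90
import Crest.Agent.T145.KrBar_90

/-!
# Row 145: sectors without parity (mixing, rank-one dipole expansion), conditional laws (helper90)
-/

set_option autoImplicit false

namespace Crest.Agent.T145.KrA

open Finset Real

variable {X Y : Type*}

namespace Fac
variable {μ : X × Y → ℝ} {p : X → ℝ} {q : Y → ℝ} {κ : X → Y → ℝ} {η ω : ℝ}

theorem mono (h : Fac μ p q κ η ω) {η' ω' : ℝ} (h1 : η ≤ η') (h2 : η' ≤ 1 / 2) (h3 : ω ≤ ω')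
    (h4 : ω' ≤ 1 / 2) : Fac μ p q κ η' ω' :=
  { h with
    close := h.close.trans h1
    κ1 := fun a b ha hb => (h.κ1 a b ha hb).trans h3
    η1 := h2
    ω0 := h.ω0.trans h3
    ω1 := h4 }

theorem br_add (h : Fac μ p q κ η ω) {Φ Ψ : X → Y → ℝ} {B C : ℝ} (hΦ : ∀ a b, |Φ a b| ≤ B)
    (hΨ : ∀ a b, |Ψ a b| ≤ C) : br μ (fun a b => Φ a b + Ψ a b) = br μ Φ + br μ Ψ := by
  rw [br, br, br, ← (h.summ_μ hΦ).tsum_add (h.summ_μ hΨ)]
  exact tsum_congr fun z => mul_add _ _ _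

theorem br_smul (c : ℝ) (Φ : X → Y → ℝ) : br μ (fun a b => c * Φ a b) = c * br μ Φ := by
  rw [br, br, ← tsum_mul_left]; exact tsum_congr fun z => by ring

theorem br_cen (h : Fac μ p q κ η ω) {F : X → ℝ} {Φ : X → Y → ℝ} {N B : ℝ} (hF : ∀ a, |F a| ≤ N)
    (hΦ : ∀ a b, |Φ a b| ≤ B) (c : ℝ) :
    br μ (fun a b => (F a - c) * Φ a b) = br μ (fun a b => F a * Φ a b) - c * br μ Φ := by
  have h1 : ∀ a b, |F a * Φ a b| ≤ N * B := fun a b => by
    rw [abs_mul]; exact mul_le_mul (hF a) (hΦ a b) (abs_nonneg _) ((abs_nonneg _).trans (hF a))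
  rw [br, br, br, ← tsum_mul_left, ← (h.summ_μ h1).tsum_sub ((h.summ_μ hΦ).mul_left c)]
  exact tsum_congr fun z => by ring

/-- products of nonnegative observables, relative error -/
theorem pos_near (h : Fac μ p q κ η ω) {u : X → ℝ} {v : Y → ℝ} {U V : ℝ} (hU : 0 ≤ U) (hV : 0 ≤ V)
    (u0 : ∀ a, 0 ≤ u a) (hu : ∀ a, u a ≤ U) (v0 : ∀ b, 0 ≤ v b) (hv : ∀ b, v b ≤ V) :
    |br μ (fun a b => u a * v b) - sm p u * sm q v| ≤ η * (U * V) + ω * (sm p u * sm q v) := by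
  have hb : ∀ a b, |u a * v b| ≤ U * V := fun a b => by
    rw [abs_of_nonneg (mul_nonneg (u0 a) (v0 b))]; exact mul_le_mul (hu a) (hv b) (v0 b) hU
  have h1 := h.transfer (mul_nonneg hU hV) hb
  have su : Summable fun a => p a * u a := summ_bdd h.π0 h.πs fun a _ => (abs_of_nonneg (u0 a)).trans_le (hu a)
  have sv : Summable fun b => q b * v b :=
    summ_bdd h.π'0 h.π's fun b _ => (abs_of_nonneg (v0 b)).trans_le (hv b)
  have s := summ_tens su sv
  have h2 := abs_tsum_bdd (fun z : X × Y => mul_nonneg (mul_nonneg (h.π0 z.1) (u0 z.1))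
    (mul_nonneg (h.π'0 z.2) (v0 z.2))) s (u := fun z => κ z.1 z.2 - 1) (U := ω) fun z hz =>
      h.κ1 _ _ (left_ne_zero_of_mul (left_ne_zero_of_mul hz)) (left_ne_zero_of_mul (right_ne_zero_of_mul hz))
  have e : ∑' z : X × Y, p z.1 * u z.1 * (q z.2 * v z.2) * (κ z.1 z.2 - 1) =
      ∑' z : X × Y, p z.1 * q z.2 * (κ z.1 z.2 * (u z.1 * v z.2)) - sm p u * sm q v := by
    rw [sm, sm, ← tsum_prod_mul su sv, ← (h.summ_k hb).tsum_sub s]
    exact tsum_congr fun z => by ring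
  rw [e, tsum_prod_mul su sv] at h2
  change _ ≤ sm p u * sm q v * ω at h2
  rw [abs_le] at *
  constructor <;> linarith [h1.1, h1.2, h2.1, h2.2]

/-- MIX: nonnegative observables decorrelate with a relative error -/
theorem mix (h : Fac μ p q κ η ω) (hη : η ≤ 1 / 20) (hω : ω ≤ 1 / 20) {F : X → ℝ} {G : Y → ℝ} {A B : ℝ}
    (hA : 0 ≤ A) (hB : 0 ≤ B) (F0 : ∀ a, 0 ≤ F a) (hF : ∀ a, F a ≤ A) (G0 : ∀ b, 0 ≤ G b)
    (hG : ∀ b, G b ≤ B) :
    |br μ (fun a b => F a * G b) - br μ (fun a _ => F a) * br μ (fun _ b => G b)| ≤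
      5 * ω * (br μ (fun a _ => F a) * br μ fun _ b => G b) + 8 * η * (A * B) := by
  have h1 := h.pos_near hA hB F0 hF G0 hG
  have h2 := h.pos_near (v := fun _ => 1) hA zero_le_one F0 hF (fun _ => zero_le_one) fun _ => le_rfl
  have h3 := h.pos_near (u := fun _ => 1) zero_le_one hB (fun _ => zero_le_one) (fun _ => le_rfl) G0 hG
  have h4 := h.pos_near (u := fun _ => 1) (v := fun _ => 1) zero_le_one zero_le_one (fun _ => zero_le_one)
    (fun _ => le_rfl) (fun _ => zero_le_one) fun _ => le_rfl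
  simp only [mul_one, one_mul] at h2 h3 h4
  rw [h.br_one] at h4
  have x1 : br μ (fun a _ => F a) ≤ A :=
    (le_abs_self _).trans (h.abs_br fun a _ => (abs_of_nonneg (F0 a)).trans_le (hF a))
  have y1 : br μ (fun _ b => G b) ≤ B :=
    (le_abs_self _).trans (h.abs_br fun _ b => (abs_of_nonneg (G0 b)).trans_le (hG b))
  have x0 : 0 ≤ br μ (fun a _ => F a) := tsum_nonneg fun z => mul_nonneg (h.μ0 z) (F0 _)
  have y0 : 0 ≤ br μ (fun _ b => G b) := tsum_nonneg fun z => mul_nonneg (h.μ0 z) (G0 _)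
  have a0 : 0 ≤ sm p F := tsum_nonneg fun a => mul_nonneg (h.π0 a) (F0 a)
  have b0 : 0 ≤ sm q G := tsum_nonneg fun a => mul_nonneg (h.π'0 a) (G0 a)
  have P0 : 0 ≤ sm p (fun _ => 1) := tsum_nonneg fun a => mul_nonneg (h.π0 a) zero_le_one
  have Q0 : 0 ≤ sm q (fun _ => 1) := tsum_nonneg fun a => mul_nonneg (h.π'0 a) zero_le_one
  have e0 := h.η0
  have w0 := h.ω0
  generalize br μ (fun a b => F a * G b) = z at *
  generalize br μ (fun a _ => F a) = x at *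
  generalize br μ (fun _ b => G b) = y at *
  have e : sm p F * sm q (fun _ => 1) * (sm p (fun _ => 1) * sm q G) =
      sm p F * sm q G * (sm p (fun _ => 1) * sm q fun _ => 1) := by ring
  have s0 := mul_nonneg a0 Q0
  have t0 := mul_nonneg P0 b0
  have c0 := mul_nonneg a0 b0
  have m0 := mul_nonneg P0 Q0
  generalize sm p F * sm q (fun _ => 1) = s at *
  generalize sm p (fun _ => 1) * sm q G = t at *
  generalize sm p F * sm q G = c at *
  generalize sm p (fun _ => 1) * sm q (fun _ => 1) = m at *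
  rw [abs_le] at h1 h2 h3 h4 ⊢
  have xy0 := mul_nonneg x0 y0
  have xy1 : x * y ≤ A * B := mul_le_mul x1 y1 y0 hA
  have AB := mul_nonneg hA hB
  have u1 : (1 - ω) * s * ((1 - ω) * t) ≤ x * y + 3 * η * (A * B) := by
    refine (mul_le_mul (show (1 - ω) * s ≤ x + η * A by linarith [h2.1])
      (show (1 - ω) * t ≤ y + η * B by linarith [h3.1]) (by nlinarith) (by positivity)).trans ?_
    nlinarith [mul_le_mul_of_nonneg_right x1 (mul_nonneg e0 hB), mul_le_mul_of_nonneg_right y1 (mul_nonneg e0 hA),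
      mul_le_mul_of_nonneg_right hη (mul_nonneg e0 AB)]
  have u2 : x * y ≤ (1 + ω) * s * ((1 + ω) * t) + 2 * η * (A * B) := by
    have v1 : x ≤ (1 + ω) * s + η * A := by linarith [h2.2]
    have v2 : y ≤ (1 + ω) * t + η * B := by linarith [h3.2]
    by_cases k1 : x ≤ η * A
    · nlinarith [mul_le_mul k1 y1 y0 (mul_nonneg e0 hA), mul_nonneg s0 t0, mul_nonneg e0 AB,
        mul_nonneg (mul_nonneg (by linarith : 0 ≤ 1 + ω) s0) (mul_nonneg (by linarith : 0 ≤ 1 + ω) t0)]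
    by_cases k2 : y ≤ η * B
    · nlinarith [mul_le_mul x1 k2 y0 hA, mul_nonneg e0 AB,
        mul_nonneg (mul_nonneg (by linarith : 0 ≤ 1 + ω) s0) (mul_nonneg (by linarith : 0 ≤ 1 + ω) t0)]
    · have := mul_le_mul (show x - η * A ≤ (1 + ω) * s by linarith) (show y - η * B ≤ (1 + ω) * t by linarith)
        (by linarith) (by positivity)
      nlinarith [mul_le_mul_of_nonneg_right x1 (mul_nonneg e0 hB),
        mul_le_mul_of_nonneg_right y1 (mul_nonneg e0 hA), mul_nonneg (mul_nonneg e0 e0) AB]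
  have m1 : (1 - ω) * m ≤ 1 + η := by linarith [h4.1]
  have m2 : 1 - η ≤ (1 + ω) * m := by linarith [h4.2]
  have r1 : (1 - ω) ^ 2 * (1 - η) * c ≤ (1 + ω) * (x * y + 3 * η * (A * B)) := by
    have := mul_le_mul_of_nonneg_left m2 (mul_nonneg (sq_nonneg (1 - ω)) c0)
    have e' : (1 - ω) ^ 2 * c * ((1 + ω) * m) = (1 + ω) * ((1 - ω) * s * ((1 - ω) * t)) := by
      linear_combination (-(1 - ω) ^ 2 * (1 + ω)) * e
    nlinarith [mul_le_mul_of_nonneg_left u1 (by linarith : 0 ≤ 1 + ω)]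
  have r2 : (1 - ω) * (x * y - 2 * η * (A * B)) ≤ (1 + ω) ^ 2 * (1 + η) * c := by
    have := mul_le_mul_of_nonneg_left m1 (mul_nonneg (sq_nonneg (1 + ω)) c0)
    have e' : (1 + ω) ^ 2 * c * ((1 - ω) * m) = (1 - ω) * ((1 + ω) * s * ((1 + ω) * t)) := by
      linear_combination (-(1 + ω) ^ 2 * (1 - ω)) * e
    nlinarith [mul_le_mul_of_nonneg_left u2 (by linarith : 0 ≤ 1 - ω)]
  have k1 : (1 + ω) ^ 2 ≤ (1 + 5 * ω + 2 * η) * ((1 - ω) ^ 2 * (1 - η)) := by
    have a1 : 1 - 2 * ω - η ≤ (1 - ω) ^ 2 * (1 - η) := by nlinarith [mul_nonneg e0 w0, mul_nonneg w0 w0]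
    nlinarith [mul_le_mul_of_nonneg_left a1 (by linarith : 0 ≤ 1 + 5 * ω + 2 * η), mul_nonneg e0 w0]
  have k2 : (1 - 4 * ω - η) * ((1 + ω) ^ 2 * (1 + η)) ≤ (1 - ω) ^ 2 := by
    nlinarith [mul_nonneg e0 w0, mul_nonneg w0 w0, mul_nonneg e0 e0, mul_nonneg (mul_nonneg e0 w0) w0,
      mul_nonneg (mul_nonneg w0 w0) w0, mul_nonneg (mul_nonneg e0 e0) w0,
      mul_nonneg (mul_nonneg e0 w0) (mul_nonneg w0 w0), mul_nonneg (mul_nonneg e0 w0) (mul_nonneg e0 w0)]
  have D0 : 0 < (1 - ω) ^ 2 * (1 - η) := mul_pos (pow_pos (by linarith) 2) (by linarith)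
  have D1 : 0 < (1 + ω) ^ 2 * (1 + η) := by positivity
  have f1 : (1 + ω) * c ≤ (1 + 5 * ω + 2 * η) * (x * y + 3 * η * (A * B)) := by
    refine le_of_mul_le_mul_left ?_ D0
    have := mul_le_mul_of_nonneg_right k1 (show 0 ≤ x * y + 3 * η * (A * B) by positivity)
    nlinarith [mul_le_mul_of_nonneg_left r1 (by linarith : 0 ≤ 1 + ω)]
  have f2 : (1 - 4 * ω - η) * (x * y) - 2 * η * (A * B) ≤ (1 - ω) * c := by
    refine le_of_mul_le_mul_left ?_ D1
    have a1 := mul_le_mul_of_nonneg_right k2 xy0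
    have a2 : (1 - ω) ^ 2 ≤ (1 + ω) ^ 2 * (1 + η) := by nlinarith [mul_nonneg e0 (sq_nonneg (1 + ω))]
    have a3 := mul_le_mul_of_nonneg_right a2 (show 0 ≤ 2 * η * (A * B) by positivity)
    nlinarith [mul_le_mul_of_nonneg_left r2 (by linarith : 0 ≤ 1 - ω)]
  have g1 := mul_le_mul_of_nonneg_left xy1 e0
  have g2 : (5 * ω + 2 * η) * (3 * η * (A * B)) ≤ 7 / 20 * (3 * η * (A * B)) :=
    mul_le_mul_of_nonneg_right (by linarith) (by positivity)
  constructor <;> nlinarith [h1.1, h1.2, mul_nonneg w0 xy0, mul_nonneg e0 AB]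

/-- first order (dipole) expansion without any parity -/
theorem vec (h : Fac μ p q κ η ω) {ι : Type*} (T : Finset ι) {yy : ι → X → ℝ} {d : ι → Y → ℝ}
    {y₀ d₀ β : ℝ} (hy0 : 0 ≤ y₀) (hd0 : 0 ≤ d₀) (hβ : 0 ≤ β) (hyy : ∀ i ∈ T, ∀ a, |yy i a| ≤ y₀)
    (hd : ∀ i ∈ T, ∀ b, |d i b| ≤ d₀)
    (hκ : ∀ a b, p a ≠ 0 → q b ≠ 0 → |κ a b - 1 - ∑ i ∈ T, yy i a * d i b| ≤ β)
    {F : X → ℝ} {N : ℝ} (hN : 0 ≤ N) (hF : ∀ a, |F a| ≤ N) {φ : Y → ℝ} {B : ℝ} (hB : 0 ≤ B)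
    (hφ : ∀ b, |φ b| ≤ B) :
    |br μ (fun a b => F a * φ b) - br μ (fun a _ => F a) * br μ (fun _ b => φ b) -
      ∑ i ∈ T, (br μ (fun a _ => F a * yy i a) - br μ (fun a _ => F a) * br μ fun a _ => yy i a) *
        (br μ (fun _ b => d i b * φ b) - br μ (fun _ b => d i b) * br μ fun _ b => φ b)| ≤
      N * B * (4 * η + 12 * β + 60 * (η + 3 * ω) * (T.card * (y₀ * d₀))) := by
  set c := br μ (fun a _ => F a) with hc
  have c1 : |c| ≤ N := h.abs_br fun a _ => hF a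
  have F' : ∀ a, |F a - c| ≤ 2 * N := fun a => (abs_sub _ _).trans (by linarith [hF a])
  have key := h.master0 T (u := yy) (v := d) (U := fun _ => y₀) (V := fun _ => d₀) (fun _ _ => hy0)
    (fun _ _ => hd0) hyy hd (F := fun a => F a - c) (N := 2 * N) (β := β) (c₀ := sm p fun a => F a - c)
    (by positivity) hβ F' (by
      have := h.br_cen (Φ := fun _ _ => 1) (B := 1) hF (by simp) c
      simp only [mul_one] at this
      rw [this, h.br_one, ← hc]; ring) ?_ hB hφ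
  · rw [h.br_cen hF (Φ := fun _ b => φ b) (fun _ b => hφ b), sum_congr rfl fun i hi => by
      rw [h.br_cen hF (Φ := fun a _ => yy i a) (fun a _ => hyy i hi a)], sum_const, nsmul_eq_mul] at key
    exact key.trans_eq (by ring)
  · intro b hb
    have S : ∀ {u : X → ℝ} {U : ℝ}, (∀ a, p a ≠ 0 → |u a| ≤ U) →
        HasSum (fun a => p a * ((F a - c) * u a)) (sm p fun a => (F a - c) * u a) := fun {u U} hu =>
      (summ_bdd h.π0 h.πs (U := 2 * N * U) fun a ha => by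
        rw [abs_mul]; exact mul_le_mul (F' a) (hu a ha) (abs_nonneg _) (by positivity)).hasSum
    have s0 : HasSum (fun a => p a * (F a - c)) (sm p fun a => F a - c) :=
      (summ_bdd h.π0 h.πs fun a _ => F' a).hasSum
    have s := ((S fun a ha => h.κ_le ha hb).sub s0).sub
      (hasSum_sum fun i hi => (S fun a _ => hyy i hi a).mul_right (d i b))
    rw [← s.tsum_eq]
    refine le_of_eq_of_le ?_ (abs_tsum_bdd h.π0 h.πs
      (u := fun a => (F a - c) * (κ a b - 1 - ∑ i ∈ T, yy i a * d i b)) fun a ha => by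
        rw [abs_mul]; exact mul_le_mul (F' a) (hκ a b ha hb) (abs_nonneg _) (by positivity))
    congr 1
    refine tsum_congr fun a => ?_
    simp only [mul_sub, mul_sum, mul_one, mul_assoc]

end Fac

theorem ker_vec {th l y z β₁ β₂ : ℝ} (hth : |th - 1| ≤ l) (hy : |y| ≤ β₁) (h1 : β₁ ≤ 1 / 2)
    (hz : |y - z| ≤ β₂) : |th * exp y - 1 - z| ≤ β₂ + β₁ ^ 2 + 2 * l := by
  have e1 := abs_exp_sub_one_sub_id_le (x := y) (hy.trans (by linarith))
  have e2 : y ^ 2 ≤ β₁ ^ 2 := sq_le_sq' (abs_le.1 hy).1 (abs_le.1 hy).2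
  have e3 : exp y ≤ 2 := by
    have := abs_le.1 (abs_exp_sub_one_le (x := y) (hy.trans (by linarith)))
    linarith [this.2]
  have e4 : |(th - 1) * exp y| ≤ l * 2 := by
    rw [abs_mul, abs_of_pos (exp_pos y)]
    exact mul_le_mul hth e3 (exp_pos y).le ((abs_nonneg _).trans hth)
  rw [abs_le] at *
  constructor <;> linarith [e1.1, e1.2, e4.1, e4.2, hz.1, hz.2]

end Crest.Agent.T145.KrA

namespace Crest.Agent.T145.Kr

open Finset Real KrA

variable {L X Y : Type} {A : Act X} {B : Act Y}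

/-- the conclusion of `KsStmt` as a structure `Shp` -/
theorem shp_of_ks {ν : X × Y → ℝ} {y : X → Y → ℝ} {p : X → ℝ} {q : Y → ℝ} {κ η M₀ : ℝ} (hP : Pre A B ν y)
    (hκ : 0 < κ) (hl : exp (-(2 * π ^ 2 / κ)) ≤ 1 / 2) (y1 : ∀ a b, A.T a → B.T b → |y a b| ≤ M₀)
    (p0 : ∀ a, 0 ≤ p a) (q0 : ∀ b, 0 ≤ q b) (pe : ∀ a, p (A.ng a) = p a) (qe : ∀ b, q (B.ng b) = q b)
    (sA : Summable (A.pib p)) (sB : Summable (B.pib q))
    (cl : ∑' z : X × Y, |mub A B ν z - A.pib p z.1 * B.pib q z.2 *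
      (thf κ (A.H z.1 - B.H z.2) * exp (y z.1 z.2))| ≤ η) :
    KrA.Shp A B ν κ y (fun a => √(2 * π / κ) * A.pib p a) (B.pib q) η := by
  have s0 : 0 < √(2 * π / κ) := sqrt_pos.2 (by positivity)
  refine ⟨hP.nonneg, hP.one, fun a => mul_nonneg s0.le (A.pib_nonneg p0 a), sA.mul_left _, B.pib_nonneg q0, sB,
    fun a ha => (A.pib_ne (right_ne_zero_of_mul ha)).1, fun b hb => (B.pib_ne hb).1,
    fun a => by rw [A.pib_ng pe], B.pib_ng qe, ?_, le_of_eq_of_le (tsum_congr fun z => ?_) cl⟩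
  · refine ((hasSum_mub_one A B hP.nonneg hP.one).summable.sub (summ_bdd
      («π» := fun z : X × Y => √(2 * π / κ) * A.pib p z.1 * B.pib q z.2) (U := 3 * exp M₀)
      (fun z => mul_nonneg (mul_nonneg s0.le (A.pib_nonneg p0 _)) (B.pib_nonneg q0 _))
      (summ_tens (sA.mul_left _) sB) fun z hz => ?_)).abs
    have := abs_le.1 (thk_near hκ hl (A.H z.1 - B.H z.2))
    rw [abs_mul, abs_of_pos (exp_pos _)]
    exact mul_le_mul (abs_le.2 ⟨by linarith, by linarith⟩) (exp_le_exp.2 (abs_le.1 (y1 _ _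
      (A.pib_ne (right_ne_zero_of_mul (left_ne_zero_of_mul hz))).1
      (B.pib_ne (right_ne_zero_of_mul hz)).1)).2) (exp_pos _).le (by norm_num)
  · congr 2; rw [thk]; field_simp

/-- **the law conditioned on a sector** `P × Q` of probability at least `m`: it has a product structure with the
kernel `θ(H - t) exp (y - c)`, and its brackets are expectations in the sector -/
theorem sector {ρ : L → ℝ} {d : L → X × Y} {σ : ℤ → L ≃ L} {n : L ≃ L} {Z κ η β₁ m C : ℝ} {y : X → Y → ℝ}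
    {p : X → ℝ} {q : Y → ℝ} (hF : B90.Flt A B ρ d σ n) (hZ : Zs (fun l => tw (A.H (d l).1) * ρ l) = Z)
    (h : KrA.Shp A B (fun z => push ρ d z / Z) κ y p q η) (hκ : 0 < κ) (P : X → Prop) (Q : Y → Prop)
    (hQ : ∀ i b, Q (B.s i b) ↔ Q b) (c : Y → ℝ) (hc : ∀ b, B.T b → Q b → c b ≤ C) (β0 : 0 ≤ β₁)
    (y1 : ∀ a b, A.T a → B.T b → P a → Q b → |y a b - c b| ≤ β₁) (m0 : 0 < m)
    (hm : m ≤ Pr (fun l => tw (A.H (d l).1) * ρ l) fun l => P (d l).1 ∧ Q (d l).2)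
    (hη : η ≤ m / 2) (hβ : β₁ ≤ 1 / 20) (hl : exp (-(2 * π ^ 2 / κ)) ≤ 1 / 20) :
    ∃ (μ : X × Y → ℝ) (p' : X → ℝ) (q' : Y → ℝ),
      Fac μ p' q' (fun a b => thk κ (A.H a - B.H b) * exp (y a b - c b)) (η / m)
        (3 * β₁ + 3 * exp (-(2 * π ^ 2 / κ))) ∧
      (∀ a, p' a ≠ 0 → A.T a ∧ P a) ∧ (∀ b, q' b ≠ 0 → B.T b ∧ Q b) ∧
      ∀ (Φ : X → Y → ℝ) (M : ℝ), (∀ a b, |Φ a b| ≤ M) → (∀ i a b, Φ a (B.s i b) = Φ a b) →
        br μ Φ = Ex (fun l => ind (P (d l).1 ∧ Q (d l).2) * (tw (A.H (d l).1) * ρ l))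
          fun l => Φ (d l).1 (d l).2 := by
  classical
  set W : L → ℝ := fun l => tw (A.H (d l).1) * ρ l with hW
  set m' := Pr W fun l => P (d l).1 ∧ Q (d l).2 with hm'
  have m1 : 0 < m' := m0.trans_le hm
  have e : ∀ a b, ((if P a then 1 else 0) * if Q b then 1 else 0 : ℝ) = ind (P a ∧ Q b) := fun a b => by
    rw [ind_and, ind_eq_ite, ind_eq_ite]
  have key : ∀ (Φ : X → Y → ℝ) (M : ℝ), (∀ a b, |Φ a b| ≤ M) → (∀ i a b, Φ a (B.s i b) = Φ a b) →
      br (mub A B fun z => push ρ d z / Z) (fun a b => ind (P a ∧ Q b) * Φ a b) =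
        Ex W fun l => ind (P (d l).1 ∧ Q (d l).2) * Φ (d l).1 (d l).2 := fun Φ M h1 h2 =>
    hF.br hZ (Φ := fun a b => ind (P a ∧ Q b) * Φ a b) (C := M) (fun a b => by
      rw [abs_mul]; exact (mul_le_of_le_one_left (abs_nonneg _) (abs_ind_le _)).trans (h1 a b))
      fun i a b => by rw [h2, hQ]
  have hf := h.restrict hκ P Q c hc β0 y1 m1 (by
    have := key (fun _ _ => 1) 1 (by simp) fun _ _ _ => rfl
    simp only [mul_one] at this
    simp only [e]; exact this) (by linarith) hβ hl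
  have η0 : 0 ≤ η := (tsum_nonneg fun _ => abs_nonneg _).trans h.cl
  refine ⟨_, _, _, hf.mono (div_le_div_of_nonneg_left η0 m0 hm) (by rw [div_le_iff₀ m0]; linarith) le_rfl hf.ω1,
    fun a ha => ?_, fun b hb => ?_, fun Φ M h1 h2 => ?_⟩
  · by_cases hP : P a
    · exact ⟨h.pT a (by rwa [if_pos hP] at ha), hP⟩
    · exact absurd (if_neg hP) ha
  · by_cases hP : Q b
    · exact ⟨h.qT b fun h0 => hb (by rw [if_pos hP, h0]; simp), hP⟩
    · exact absurd (if_neg hP) hb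
  · have k1 : br (fun z : X × Y => mub A B (fun z => push ρ d z / Z) z *
        ((if P z.1 then 1 else 0) * if Q z.2 then 1 else 0) / m') Φ =
        br (mub A B fun z => push ρ d z / Z) (fun a b => ind (P a ∧ Q b) * Φ a b) / m' := by
      rw [br, br, ← tsum_div_const]; exact tsum_congr fun z => by rw [e]; ring
    rw [k1, key Φ M h1 h2, hm', Pr, Ex_def, Ex_def, Ex_def, div_div_div_cancel_right₀ hF.wt.ne]
    congr 1
    · exact tsum_congr fun l => by ring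
    · exact tsum_congr fun l => by ring

end Crest.Agent.T145.Kr
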