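import Crest.Agent.T145.KsT_68

/-!
# Row 145 (helper68): KS on the lattice, the two inductions, quasi-multiplicativity
-/

set_option autoImplicit false

namespace Crest.Agent.T145.Ks68

open Finset Nc Nc.Geo

/-- what the lattice provides at all scales `≥ r₀`; `M = W₀ W W₀` -/
structure Env (Λ : Lat) (W₀ W M r₀ : ℕ) (K η : ℝ) : Prop where
  ok : Λ.Ok
  nn : Λ.J = nn
  W2 : 2 ≤ W₀
  W1 : 1 ≤ W
  hM : M = W₀ * (W * W₀)
  rg : 2 * Λ.rg ≤ r₀
  gam : ∀ r, r₀ ≤ r → gam Λ r (W₀ * r) ≤ 2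
  mix : ∀ c, r₀ ≤ c → Mix (wN Λ (an 0 c (M * c)) (Vd.ray 0)) (an 0 c (W₀ * c))
    (an 0 (W * (W₀ * c)) (M * c)) (1 / 8) η
  η0 : 0 ≤ η
  K1 : 1 ≤ K
  ηK : 32 * η * (3 * K) * (3 * K) ≤ 1
  hT : ∀ c R, r₀ ≤ c → R ≤ M * (M * (M * c)) → 1 ≤ K * TT Λ c R
  h2 : ∀ (z : Pt) (n c : ℕ) (m : Mdl Pt) (σ : Pt × Pt → ℤ), r₀ ≤ c → 4 * c ≤ n → n ≤ 4 * M * (M * c) →
    Amb Λ m (bl z (2 * n)) → (∀ e ∈ m.ed, σ e = Es28.sm z n e) →
    1 ≤ K * zr (hole (hole m (bl (z + ((n : ℤ), 0)) c)) (bl z c)) σ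
  st : ∃ c, r₀ ≤ c ∧ uu Λ c ≤ 3 * K * uu Λ (M * c)

variable {Λ : Lat} {W₀ W M r₀ : ℕ} {K η : ℝ} {m : Mdl Pt} {H : Finset Pt} {z : Pt} {c R n : ℕ}
  {σ : Pt × Pt → ℤ}

theorem vtx_sm_left (hR : R < n) : Vtx Λ z (bl z R) (Es28.sm z n) :=
  ⟨1, 0, .inl rfl, fun e he => by
    have := mem_bl.1 (Lat.mem_edI.1 he).2.1
    simp only [Es28.sm, Vd.ray, dE, Finsupp.zero_apply]
    split_ifs <;> omega⟩

theorem vtx_sm_right (hJ : Λ.J = nn) (hR : R ≤ n) :
    Vtx Λ (z + ((n : ℤ), 0)) (bl (z + ((n : ℤ), 0)) R) (Es28.sm z n) :=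
  ⟨-1, cst ((bl (z + ((n : ℤ), 0)) R).filter fun x => z.2 ≤ x.2) 1, .inr rfl, fun e he => by
    obtain ⟨h0, h1, h2⟩ := Lat.mem_edI.1 he
    have h3 := mem_bl.1 h1
    have : Λ.Jp = Pot.nL.Jp := by simp only [Lat.Jp, hJ]; rfl
    rw [this, Vd.mem_Jp, Prod.ext_iff, Prod.ext_iff] at h0
    simp only [Es28.sm, Vd.ray, dE, cst_apply, mem_filter, h1, h2, true_and, Prod.fst_add, Prod.snd_add,
      Prod.fst_sub, Prod.snd_sub] at h0 h3 ⊢
    split_ifs <;> omega⟩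

namespace Env
variable (E : Env Λ W₀ W M r₀ K η)
include E

theorem two (c : ℕ) : 2 * c ≤ W₀ * c ∧ W₀ * c ≤ W * (W₀ * c) ∧ 2 * (W * (W₀ * c)) ≤ M * c :=
  ⟨Nat.mul_le_mul_right _ E.W2, Nat.le_mul_of_pos_left _ E.W1, by
    rw [E.hM, mul_assoc, mul_assoc]; exact Nat.mul_le_mul_right _ E.W2⟩

theorem four (c : ℕ) : 4 * c ≤ M * c := by have := E.two c; omega

/-- KS on the lattice minus `H` -/
theorem ksL (hc : m.Ctr) (ha : m.Anch) (h : Lh Λ m H z (M * c)) (c0 : r₀ ≤ c)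
    (hH : H ⊆ bl z (c - Λ.rg)) (n1 : CnL Λ (bl z c \ H)) (n2 : CnL Λ (bl z (M * c) \ H))
    (hv : Vtx Λ z (an z c (M * c)) σ) (hi : zN Λ (bl z c \ H) σ ≤ 3 * K * zN Λ (bl z (M * c) \ H) σ)
    (ho : zr (hole m (bl z (M * c) \ H)) σ ≤ 3 * K * zr (hole m (bl z c \ H)) σ) :
    zN Λ (bl z (M * c) \ H) σ * zr (hole m (bl z c \ H)) σ ≤ 3 * zr m σ := by
  have hΛ := E.ok
  have r1 := hΛ.one_le_rg
  have r2 := E.rg
  obtain ⟨a1, a2, a3⟩ := E.two c
  have g1 := E.gam c c0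
  have g2 := E.gam (W * (W₀ * c)) (by omega)
  have mx := mix_vtx hΛ (by rwa [map_an0]) (an_nonempty 0 (by omega)) (an_mono 0 le_rfl (by omega))
    (an_mono 0 (by omega) le_rfl) (E.mix c c0)
  rw [map_an0, map_an0, map_an0] at mx
  rw [show W₀ * (W * (W₀ * c)) = M * c by rw [E.hM, mul_assoc, mul_assoc]] at g2
  have eT := zN_an hΛ hv
  generalize M * c = d at *
  generalize W * (W₀ * c) = b at *
  generalize W₀ * c = a at *
  obtain ⟨a, rfl⟩ : ∃ a', a = a' + Λ.rg := ⟨a - Λ.rg, by omega⟩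
  have hH' : H ⊆ bl z c := hH.trans (bl_mono z (by omega))
  have ct := (h.mono (by omega : a ≤ d)).cut hΛ (by omega) (by omega) hH n1
  have ct' := h.cut hΛ (by omega) le_rfl (hH.trans (bl_mono z (by omega))) n2
  have lh := h.hole (bl z c \ H)
  rw [union_sdiff_of_subset hH'] at lh
  have eU : bl z c \ H ∪ an z c d = bl z d \ H := by
    have := union_cut z hH' (by omega : c ≤ d) d le_rfl
    rwa [an, an, sdiff_self, bot_eq_empty, sdiff_empty] at this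
  have iX : InL Λ m (an z c d) := (h.inL_an hH').mono (an_mono z le_rfl (by omega))
  have iD : InL Λ m (bl z d \ H) := h.ins.mono (sdiff_subset_sdiff (bl_mono z (by omega)) subset_rfl)
  have iN : InL Λ m (bl z c \ H) := h.ins.mono (sdiff_subset_sdiff (bl_mono z (by omega)) subset_rfl)
  have iH : InL Λ (hole m (bl z c \ H)) (an z c d) := lh.ins.mono (an_mono z le_rfl (Nat.le_add_right _ _))
  have bd : (hole m (bl z c \ H)).bd (an z c b) ⊆ an z b (b + Λ.rg) :=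
    (lh.bd (by omega : b ≤ d)).trans sdiff_subset
  have bx : Box (hole m (bl z c \ H)) (an z c d) (an z (d - Λ.rg) d) :=
    (lh.mono (Nat.sub_le _ _)).box' hΛ (by omega) (bl_mono z (by omega)) (cnL_an hΛ z (by omega))
  have T1 := TT_le_one hΛ c d
  have T0 := TT_pos hΛ c d
  have ah := ct.hole_anch ha
  have k := ks (X := an z c d) (S' := an z (d - Λ.rg) d) (I := an z c (a + Λ.rg)) (O := an z b d)
    (B := an z c b) (C := an z c (b + Λ.rg)) (σ := σ) (Ki := 3 * K) (Ko := 3 * K) hc ha ct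
    bx lh.cl
    (by rw [hole_hole, eU]; exact ct'.hole_anch ha) subset_rfl (an_mono z le_rfl a2)
    (by rw [an_sdiff_an z c (by omega)]; exact an_mono z le_rfl (by omega))
    (bd.trans (an_mono z (by omega) le_rfl)) (bd.trans (an_mono z le_rfl (by omega)))
    (an_mono z le_rfl (by omega)) (an_mono z (by omega) le_rfl)
    ((disjoint_bl_an z d le_rfl).symm.mono_right (an_subset_bl _ _ _)) E.η0 (by rwa [rWs_fr iX])
    (((h.mono (by omega : a ≤ d)).cr_cut hΛ hH' (by omega)).trans_le g1)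
    ((iH.cr_hole U.monoCr hΛ (Nc.hole_fm hc.1 _) (by omega) (by omega)).trans g2)
    (by
      rw [eU, zr_fr iN, zr_fr iX, zr_fr iD, eT]
      exact (mul_le_of_le_one_right (zN_pos hΛ n1 (ct.ne.mono ct.sub) σ).le T1).trans hi)
    (by
      rw [hole_hole, eU, zr_fr iX, eT]
      exact (mul_le_of_le_one_left (zr_pos (Nc.hole_ctr hc _) (ct'.hole_anch ha) σ).le T1).trans ho) E.ηK
  rw [eU, zr_fr iX, zr_fr iD, eT] at k
  have := mul_le_of_le_one_right (zr_pos hc ha σ).le T1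
  have := zr_pos hc ha σ
  linarith

/-- KS in the free ball of radius `R` minus `H` -/
theorem ksF (c0 : r₀ ≤ c) (hH : H ⊆ bl 0 (c - Λ.rg)) (hn : ∀ ρ, c ≤ ρ → CnL Λ (bl 0 ρ \ H))
    (hR : 2 * (M * c) ≤ R)
    (hi : zN Λ (bl 0 c \ H) (Vd.ray 0) ≤ 3 * K * zN Λ (bl 0 (M * c) \ H) (Vd.ray 0))
    (ho : TT Λ (M * c) R ≤ 3 * K * TT Λ c R) :
    zN Λ (bl 0 (M * c) \ H) (Vd.ray 0) * TT Λ c R ≤ 3 * zN Λ (bl 0 R \ H) (Vd.ray 0) := by
  have hΛ := E.ok
  have r1 := hΛ.one_le_rg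
  have r2 := E.rg
  have r3 := E.four c
  have iR : InL Λ (hole (Λ.N (bl 0 R)) H) (bl 0 R \ H) := (inL_N subset_rfl).hole H
  have fm := Nc.hole_fm (hΛ.ctr_N (bl 0 R)).1 H
  have hx : ∀ ρ, ρ < R → (((R : ℤ), (0 : ℤ)) : Pt) ∈ an 0 ρ R := fun ρ h => by
    simp only [mem_an, mem_bl, Prod.fst_zero, Prod.snd_zero]; omega
  have sub : ∀ ρ, c ≤ ρ → an 0 ρ R ⊆ bl 0 R \ H := fun ρ h =>
    sdiff_subset_sdiff subset_rfl (hH.trans (bl_mono 0 (by omega)))
  have eh : ∀ ρ, c ≤ ρ → ρ < R → zr (hole (pn (hole (Λ.N (bl 0 R)) H) (bl 0 R \ H) {((R : ℤ), (0 : ℤ))})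
      (bl 0 ρ \ H)) (Vd.ray 0) = TT Λ ρ R := fun ρ h h' => by
    have := union_cut 0 (hH.trans (bl_mono 0 (by omega : c - Λ.rg ≤ ρ))) h'.le R le_rfl
    rw [an, an, sdiff_self, bot_eq_empty, sdiff_empty, ← an] at this
    rw [← this, hole_pn ((disjoint_bl_an 0 R le_rfl).mono_left sdiff_subset), ← zr_root (hx ρ h'),
      zr_fr (iR.mono (sub ρ h))]; rfl
  have k := E.ksL (pn_ctr fm (bl 0 R \ H) {((R : ℤ), (0 : ℤ))})
    (pn_anch (iR.cn (hn R (by omega))) (sub c le_rfl (hx c (by omega))) (mem_singleton_self _))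
    (((lh_N (by omega)).hole0 H).pn (sdiff_subset_sdiff (bl_mono 0 (by omega)) subset_rfl)
      (disjoint_singleton_left.2 fun k => (mem_an.1 (hx _ (by omega))).2 (mem_sdiff.1 k).1))
    c0 hH (hn c le_rfl) (hn _ (by omega)) (vtx_ray Λ 0 _) hi
    (by rwa [eh _ (by omega) (by omega), eh _ le_rfl (by omega)])
  rwa [eh _ le_rfl (by omega), ← zr_root (sub c le_rfl (hx c (by omega))), zr_fr iR] at k

/-- the outer induction -/
theorem outer (R : ℕ) : ∀ c, r₀ ≤ c → TT Λ (M * c) R ≤ 3 * K * TT Λ c R := by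
  have hΛ := E.ok
  have r1 := hΛ.one_le_rg
  have r2 := E.rg
  have K1 := E.K1
  suffices h : ∀ k c, R - c ≤ k → r₀ ≤ c → TT Λ (M * c) R ≤ 3 * K * TT Λ c R from
    fun c => h _ c le_rfl
  intro k
  induction k with
  | zero =>
    intro c h _
    have := E.four c
    rw [TT_of_le Λ (by omega), TT_of_le Λ (by omega)]; linarith
  | succ k ih =>
    intro c h c0
    have r3 := E.four c
    have r4 := E.four (M * c)
    have r5 := E.four (M * (M * c))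
    have T0 := TT_pos hΛ c R
    have T1 := TT_pos hΛ (M * c) R
    rcases le_or_gt R (M * (M * (M * c))) with q | q
    · have := E.hT c R c0 q
      have := TT_le_one hΛ (M * c) R
      nlinarith
    have t := E.hT c (M * (M * c)) c0 (by omega)
    have k : TT Λ c (M * (M * c)) * TT Λ (M * c) R ≤ 3 * TT Λ c R :=
      E.ksF (H := bl 0 c) (c := M * c) (by omega) (bl_mono 0 (by omega))
        (fun ρ h => cnL_an hΛ 0 (by omega)) (by omega)
        ((TT_le_one hΛ c (M * c)).trans (t.trans (by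
          have := TT_pos hΛ c (M * (M * c))
          change _ ≤ 3 * K * TT Λ c (M * (M * c))
          nlinarith))) (ih _ (by omega) (by omega))
    nlinarith [mul_le_mul_of_nonneg_right t T1.le, mul_le_mul_of_nonneg_left k (by linarith : 0 ≤ K)]

theorem ksU (c0 : r₀ ≤ c) (hR : 2 * (M * c) ≤ R) (hi : uu Λ c ≤ 3 * K * uu Λ (M * c)) :
    uu Λ (M * c) * TT Λ c R ≤ 3 * uu Λ R := by
  have := E.ksF (H := ∅) (R := R) c0 (empty_subset _)
  simp only [sdiff_empty] at this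
  exact this (fun ρ _ => cnL_bl E.ok 0 ρ) hR hi (E.outer R c c0)

/-- the inner induction -/
theorem inner (c0 : r₀ ≤ c) (hi : uu Λ c ≤ 3 * K * uu Λ (M * c)) :
    uu Λ (M * c) ≤ 3 * K * uu Λ (M * (M * c)) := by
  have r4 := E.four (M * c)
  have r5 := E.four (M * (M * c))
  have k := E.ksU c0 (R := M * (M * c)) (by omega) hi
  have t := E.hT c (M * (M * c)) c0 (by omega)
  have := E.K1
  nlinarith [mul_le_mul_of_nonneg_right t (uu_pos E.ok (M * c)).le,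
    mul_le_mul_of_nonneg_left k (by linarith : 0 ≤ K)]

theorem good : ∃ c₀, ∀ ρ, c₀ ≤ ρ → ∃ c, r₀ ≤ c ∧ c ≤ ρ ∧ ρ < M * c ∧ uu Λ c ≤ 3 * K * uu Λ (M * c) := by
  obtain ⟨c₀, h0, h1⟩ := E.st
  have r1 := E.ok.one_le_rg
  have r2 := E.rg
  refine ⟨c₀, fun ρ h => ?_⟩
  induction ρ, h using Nat.le_induction with
  | base => exact ⟨c₀, h0, le_rfl, by have := E.four c₀; omega, h1⟩
  | succ ρ _ ih =>
    obtain ⟨c, a, b, d, e⟩ := ih
    have := E.four c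
    have := E.four (M * c)
    rcases lt_or_ge (ρ + 1) (M * c) with q | q
    exacts [⟨c, a, by omega, q, e⟩, ⟨M * c, by omega, q, by omega, E.inner a e⟩]

/-- two cores -/
theorem pair (c0 : r₀ ≤ c) (h1 : 4 * (M * c) ≤ n) (h2 : n ≤ 4 * M * (M * c))
    (hi : uu Λ c ≤ 3 * K * uu Λ (M * c)) (hm : Amb Λ m (bl z (2 * n)))
    (hσ : ∀ e ∈ m.ed, σ e = Es28.sm z n e) : uu Λ (M * c) ^ 2 ≤ 9 * K * zr m σ := by
  have hΛ := E.ok
  have r1 := hΛ.one_le_rg
  have r2 := E.rg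
  have r3 := E.four c
  have K1 := E.K1
  have t := E.h2 z n c m σ c0 (by omega) h2 hm hσ
  have e0 : ∀ {y : Pt} {m : Mdl Pt}, Amb Λ m (bl y (M * c + Λ.rg)) → Vtx Λ y (bl y (M * c)) σ →
      zr (hole m (bl y (M * c))) σ ≤ 3 * K * zr (hole m (bl y c)) σ →
      uu Λ (M * c) * zr (hole m (bl y c)) σ ≤ 3 * zr m σ := fun {y m} a v o => by
    have := E.ksL a.ctr a.anch (lh_amb a) c0 (empty_subset _) (σ := σ)
    simp only [sdiff_empty] at this
    rw [zN_bl hΛ v, zN_bl hΛ (v.mono (bl_mono y (by omega)))] at this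
    exact this (cnL_bl hΛ y _) (cnL_bl hΛ y _) (v.mono (an_subset_bl _ _ _)) hi o
  generalize M * c = d at *
  set x : Pt := z + ((n : ℤ), 0) with hx
  have az : Amb Λ m (bl z (d + Λ.rg)) := amb_mono hm (bl_mono z (by omega))
  have ax : Amb Λ m (bl x (d + Λ.rg)) := amb_mono hm fun y hy => by
    simp only [mem_bl, hx, Prod.fst_add, Prod.snd_add] at hy ⊢; omega
  have dj : ∀ ρ, ρ ≤ d → Disjoint (bl z (d + Λ.rg)) (bl x (ρ + Λ.rg)) := fun ρ h =>
    disjoint_left.2 fun y hy hy' => by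
      simp only [mem_bl, hx, Prod.fst_add, Prod.snd_add] at hy hy'; omega
  have a1 : ∀ ρ, ρ ≤ d → Amb Λ (hole m (bl x ρ)) (bl z (d + Λ.rg)) := fun ρ h =>
    ⟨Nc.hole_ctr hm.ctr _, (lh_amb ax).anch_hole hΛ hm.anch h, fun y hy => mem_sdiff.2 ⟨az.sub hy,
      fun k => disjoint_left.1 (dj ρ h) hy (bl_mono x (by omega) k)⟩, near_hole az.near (dj ρ h)⟩
  have ed : ∀ {y : Pt}, Amb Λ m (bl y (d + Λ.rg)) → ∀ e ∈ Λ.edI (bl y d), σ e = Es28.sm z n e :=
    fun a e he => hσ e ((a.near.1 e (.inl (bl_mono _ (by omega) (Lat.mem_edI.1 he).2.1))).2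
      (Lat.mem_edI.1 he).1)
  have vz : Vtx Λ z (bl z d) σ := (vtx_sm_left (by omega)).congr (ed az)
  have vx : Vtx Λ x (bl x d) σ := (vtx_sm_right E.nn (by omega)).congr (ed ax)
  have b1 := a1 c (by omega)
  have p1 := zr_pos (Nc.hole_ctr b1.ctr (bl z c)) ((lh_amb b1).anch_hole hΛ b1.anch (by omega)) σ
  have k1 := e0 b1 vz ((zr_le_one (Nc.hole_ctr b1.ctr _) ((lh_amb b1).anch_hole hΛ b1.anch le_rfl) σ).trans
    (by nlinarith))
  have u0 := uu_pos hΛ d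
  have k2 : uu Λ d ≤ 3 * K * zr (hole m (bl x c)) σ := by
    nlinarith [mul_le_mul_of_nonneg_right t u0.le, mul_le_mul_of_nonneg_left k1 (by linarith : 0 ≤ K)]
  have b2 := a1 d le_rfl
  have k3 := e0 ax vx (((zr_le_zN b2.ctr b2.anch ((lh_amb b2).inL_bl (by omega)) (cnL_bl hΛ z d)
    ⟨z, self_mem_bl _ _⟩ σ).trans_eq (zN_bl hΛ vz)).trans k2)
  nlinarith [mul_le_mul_of_nonneg_left k2 u0.le, mul_le_mul_of_nonneg_left k3 (by linarith : 0 ≤ K)]

theorem qm : ∃ ρ₀, Qm Λ ((3 * K) ^ 3) ρ₀ := by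
  obtain ⟨c₀, h⟩ := E.good
  have hΛ := E.ok
  have K1 := E.K1
  have M4 := E.four 1
  refine ⟨4 * M * c₀, fun ρ R h1 h2 => ?_, fun n z m σ h1 hm hσ => ?_⟩
  · obtain ⟨c, c0, a, b, e1⟩ := h ρ ((Nat.le_mul_of_pos_left _ (by omega)).trans h1)
    have r3 := E.four c
    have r4 := E.four (M * c)
    have r5 := E.four (M * (M * c))
    have e2 := E.inner c0 e1
    have e3 := E.inner (by omega) e2
    have u1 := uu_anti hΛ a
    have u0 := uu_pos hΛ ρ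
    have u2 := uu_pos hΛ R
    have K0 : 0 ≤ 3 * K := by linarith
    have e4 : uu Λ ρ ≤ 3 * K * (3 * K * uu Λ (M * (M * c))) :=
      u1.trans (e1.trans (mul_le_mul_of_nonneg_left e2 K0))
    rcases le_or_gt R (M * (M * (M * c))) with q | q
    · calc _ ≤ uu Λ ρ := mul_le_of_le_one_right u0.le (TT_le_one hΛ _ _)
        _ ≤ 3 * K * (3 * K * (3 * K * uu Λ R)) := e4.trans (mul_le_mul_of_nonneg_left
          (mul_le_mul_of_nonneg_left (e3.trans (mul_le_mul_of_nonneg_left (uu_anti hΛ q) K0)) K0) K0)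
        _ = _ := by ring
    · calc _ ≤ 3 * K * (3 * K * uu Λ (M * (M * c))) * TT Λ (M * c) R :=
          mul_le_mul e4 (TT_anti hΛ b.le le_rfl) (TT_pos hΛ _ _).le (u0.le.trans e4)
        _ = (3 * K) ^ 2 * (uu Λ (M * (M * c)) * TT Λ (M * c) R) := by ring
        _ ≤ (3 * K) ^ 2 * (3 * K * uu Λ R) := mul_le_mul_of_nonneg_left
          ((E.ksU (by omega) (by omega) e2).trans (mul_le_mul_of_nonneg_right (by linarith) u2.le))
          (sq_nonneg _)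
        _ = _ := by ring
  · obtain ⟨c, c0, a, b, e1⟩ := h (n / (4 * M))
      ((Nat.le_div_iff_mul_le (by omega)).2 (by rwa [mul_comm]))
    have a' : 4 * (M * c) ≤ n := by
      have := (Nat.le_div_iff_mul_le (by omega)).1 a
      rwa [mul_comm, mul_assoc] at this
    have b' := (Nat.div_lt_iff_lt_mul (by omega)).1 b
    have k := E.pair c0 a' (by rw [mul_comm]; exact b'.le) e1 hm hσ
    have z0 := zr_pos hm.ctr hm.anch σ
    calc _ ≤ uu Λ (M * c) ^ 2 := pow_le_pow_left₀ (uu_pos hΛ _).le (uu_anti hΛ (by omega)) 2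
      _ ≤ 9 * K * zr m σ := k
      _ ≤ _ := mul_le_mul_of_nonneg_right (by nlinarith [mul_self_nonneg (K - 1)]) z0.le

end Env

end Crest.Agent.T145.Ks68
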