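import Crest.Agent.T145.KtA_54

/-!
# Row 145 (helper54): the discrete Kosterlitz-Thouless flow, part B (power sums, the critical orbit)
-/

set_option autoImplicit false

namespace Crest.Agent.T145.KT

open Filter Topology Finset Asymptotics

/-- the constant of the telescoping bounds -/
noncomputable def ks (s : ℝ) : ℝ := 1 / (|s| * min 1 ((2 : ℝ) ^ (s - 1)))

theorem ks_pos {s : ℝ} (hs : s ≠ 0) : 0 < ks s := by
  have := abs_pos.2 hs
  unfold ks; positivity

theorem rpow_step (s : ℝ) {t : ℝ} (ht : 1 ≤ t) :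
    ∃ ξ, (t + 1) ^ s - t ^ s = s * ξ ∧ min 1 ((2 : ℝ) ^ (s - 1)) * t ^ (s - 1) ≤ ξ := by
  obtain ⟨c, hc, h⟩ := exists_hasDerivAt_eq_slope (fun u : ℝ => u ^ s) (fun u => s * u ^ (s - 1))
    (show t < t + 1 by linarith)
    (fun u hu => (Real.continuousAt_rpow_const u s (Or.inl (by linarith [hu.1]))).continuousWithinAt)
    (fun u hu => Real.hasDerivAt_rpow_const (Or.inl (by linarith [hu.1])))
  refine ⟨c ^ (s - 1), by rw [h]; ring, ?_⟩
  have h0 : 0 ≤ t ^ (s - 1) := Real.rpow_nonneg (by linarith) _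
  rcases le_total 0 (s - 1) with hs | hs
  · calc _ ≤ 1 * t ^ (s - 1) := by gcongr; exact min_le_left _ _
      _ ≤ _ := by rw [one_mul]; exact Real.rpow_le_rpow (by linarith) hc.1.le hs
  · calc _ ≤ 2 ^ (s - 1) * t ^ (s - 1) := by gcongr; exact min_le_right _ _
      _ = (2 * t) ^ (s - 1) := (Real.mul_rpow (by norm_num) (by linarith)).symm
      _ ≤ _ := Real.rpow_le_rpow_of_nonpos (by linarith [hc.1]) (by linarith [hc.2]) hs

theorem le_ks_pos {s t : ℝ} (hs : 0 < s) (ht : 1 ≤ t) :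
    t ^ (s - 1) ≤ ks s * ((t + 1) ^ s - t ^ s) := by
  obtain ⟨ξ, h1, h2⟩ := rpow_step s ht
  have : 0 < min 1 ((2 : ℝ) ^ (s - 1)) := by positivity
  rw [h1, ks, abs_of_pos hs, one_div, inv_mul_eq_div, le_div_iff₀ (by positivity)]
  nlinarith

theorem le_ks_neg {s t : ℝ} (hs : s < 0) (ht : 1 ≤ t) :
    t ^ (s - 1) ≤ ks s * (t ^ s - (t + 1) ^ s) := by
  obtain ⟨ξ, h1, h2⟩ := rpow_step s ht
  have : 0 < min 1 ((2 : ℝ) ^ (s - 1)) := by positivity
  have h3 : t ^ s - (t + 1) ^ s = -s * ξ := by linarith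
  have h4 : 0 < -s := by linarith
  rw [h3, ks, abs_of_neg hs, one_div, inv_mul_eq_div, le_div_iff₀ (by positivity)]
  nlinarith

theorem tele_pos {s c : ℝ} (hs : 0 < s) (hc : 0 ≤ c) {f : ℕ → ℝ} {m n : ℕ} (hm : 1 ≤ m) (hmn : m ≤ n)
    (h : ∀ j, m ≤ j → j < n → |f (j + 1) - f j| ≤ c * (j : ℝ) ^ (s - 1)) :
    |f n - f m| ≤ c * ks s * (n : ℝ) ^ s := by
  have key : |f n - f m| ≤ c * ks s * ((n : ℝ) ^ s - (m : ℝ) ^ s) := by
    induction n, hmn using Nat.le_induction with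
    | base => simp
    | succ n hmn ih =>
      have i := ih fun j h1 h2 => h j h1 (by omega)
      have h1 := h n hmn (by omega)
      have h2 := le_ks_pos (t := n) hs (by exact_mod_cast hm.trans hmn)
      have h3 := abs_sub_le (f (n + 1)) (f n) (f m)
      have h4 := mul_le_mul_of_nonneg_left h2 hc
      push_cast
      linarith
  have := mul_nonneg (mul_nonneg hc (ks_pos hs.ne').le) (Real.rpow_nonneg (Nat.cast_nonneg m) s)
  linarith

theorem tele_neg {s c : ℝ} (hs : s < 0) (hc : 0 ≤ c) {f : ℕ → ℝ} {m n : ℕ} (hm : 1 ≤ m) (hmn : m ≤ n)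
    (h : ∀ j, m ≤ j → j < n → |f (j + 1) - f j| ≤ c * (j : ℝ) ^ (s - 1)) :
    |f n - f m| ≤ c * ks s * (m : ℝ) ^ s := by
  have key : |f n - f m| ≤ c * ks s * ((m : ℝ) ^ s - (n : ℝ) ^ s) := by
    induction n, hmn using Nat.le_induction with
    | base => simp
    | succ n hmn ih =>
      have i := ih fun j h1 h2 => h j h1 (by omega)
      have h1 := h n hmn (by omega)
      have h2 := le_ks_neg (t := n) hs (by exact_mod_cast hm.trans hmn)
      have h3 := abs_sub_le (f (n + 1)) (f n) (f m)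
      have h4 := mul_le_mul_of_nonneg_left h2 hc
      push_cast
      linarith
  have := mul_nonneg (mul_nonneg hc (ks_pos hs.ne).le) (Real.rpow_nonneg (Nat.cast_nonneg n) s)
  linarith

/-- the comparison function `n ^ s` -/
noncomputable abbrev pw (s : ℝ) : ℕ → ℝ := fun n => (n : ℝ) ^ s

theorem pw_nonneg (s : ℝ) (n : ℕ) : 0 ≤ pw s n := Real.rpow_nonneg (Nat.cast_nonneg n) s

theorem bigO_iff {f : ℕ → ℝ} {s : ℝ} :
    f =O[atTop] pw s ↔ ∃ c, 0 ≤ c ∧ ∃ m, 1 ≤ m ∧ ∀ n, m ≤ n → |f n| ≤ c * (n : ℝ) ^ s := by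
  constructor
  · intro h
    obtain ⟨c, hc, h⟩ := h.exists_nonneg
    obtain ⟨m, hm⟩ := eventually_atTop.1 h.bound
    refine ⟨c, hc, max 1 m, le_max_left _ _, fun n hn => ?_⟩
    have := hm n ((le_max_right _ _).trans hn)
    rwa [Real.norm_eq_abs, Real.norm_of_nonneg (pw_nonneg s n)] at this
  · rintro ⟨c, -, m, -, h⟩
    refine IsBigO.of_bound c ((eventually_ge_atTop m).mono fun n hn => ?_)
    rw [Real.norm_eq_abs, Real.norm_of_nonneg (pw_nonneg s n)]
    exact h n hn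

theorem pw_bigO {s t : ℝ} (h : s ≤ t) : pw s =O[atTop] pw t :=
  bigO_iff.2 ⟨1, zero_le_one, 1, le_rfl, fun n hn => by
    rw [one_mul, abs_of_nonneg (pw_nonneg s n)]
    exact Real.rpow_le_rpow_of_exponent_le (by exact_mod_cast hn) h⟩

theorem pw_mul (s t : ℝ) : (fun n => pw s n * pw t n) =O[atTop] pw (s + t) :=
  EventuallyEq.isBigO ((eventually_ge_atTop 1).mono fun n hn =>
    (Real.rpow_add (by exact_mod_cast hn) s t).symm)

theorem bigO_mul {f g : ℕ → ℝ} {s t r : ℝ} (hf : f =O[atTop] pw s) (hg : g =O[atTop] pw t)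
    (h : s + t ≤ r) : (fun n => f n * g n) =O[atTop] pw r :=
  ((hf.mul hg).trans (pw_mul s t)).trans (pw_bigO h)

theorem tendsto_pw {s : ℝ} (hs : s < 0) : Tendsto (pw s) atTop (𝓝 0) := by
  have := (tendsto_rpow_neg_atTop (neg_pos.2 hs)).comp tendsto_natCast_atTop_atTop
  simpa [Function.comp_def] using this

theorem bigO_tendsto {f : ℕ → ℝ} {s : ℝ} (hf : f =O[atTop] pw s) (hs : s < 0) :
    Tendsto f atTop (𝓝 0) := hf.trans_tendsto (tendsto_pw hs)

theorem one_bigO {s : ℝ} (hs : 0 ≤ s) (c : ℝ) : (fun _ : ℕ => c) =O[atTop] pw s :=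
  bigO_iff.2 ⟨|c|, abs_nonneg c, 1, le_rfl, fun n hn =>
    le_mul_of_one_le_right (abs_nonneg c) (Real.one_le_rpow (by exact_mod_cast hn) hs)⟩

theorem bigO_of_diff {f : ℕ → ℝ} {s : ℝ} (hs : 0 < s)
    (h : (fun n => f (n + 1) - f n) =O[atTop] pw (s - 1)) : f =O[atTop] pw s := by
  obtain ⟨c, hc, m, hm, h⟩ := bigO_iff.1 h
  have h1 : (fun n => f n - f m) =O[atTop] pw s :=
    bigO_iff.2 ⟨c * ks s, mul_nonneg hc (ks_pos hs.ne').le, m, hm, fun n hn =>
      tele_pos hs hc hm hn fun j h1 _ => h j h1⟩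
  simpa using h1.add (one_bigO hs.le (f m))

theorem cauchy_of_diff {f : ℕ → ℝ} {s : ℝ} (hs : s < 0)
    (h : (fun n => f (n + 1) - f n) =O[atTop] pw (s - 1)) :
    ∃ L, Tendsto f atTop (𝓝 L) ∧ (fun n => f n - L) =O[atTop] pw s := by
  obtain ⟨c, hc, m, hm, h⟩ := bigO_iff.1 h
  have h1 : ∀ k n, m ≤ k → k ≤ n → |f n - f k| ≤ c * ks s * (k : ℝ) ^ s := fun k n hk hn =>
    tele_neg hs hc (hm.trans hk) hn fun j h1 _ => h j (hk.trans h1)
  have h2 : CauchySeq f := by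
    refine Metric.cauchySeq_iff'.2 fun ε hε => ?_
    have t := (tendsto_pw hs).const_mul (c * ks s)
    rw [mul_zero] at t
    obtain ⟨k, hk⟩ := ((t.eventually (gt_mem_nhds hε)).and (eventually_ge_atTop m)).exists
    exact ⟨k, fun n hn => (h1 k n hk.2 hn).trans_lt hk.1⟩
  obtain ⟨L, hL⟩ := cauchySeq_tendsto_of_complete h2
  refine ⟨L, hL, bigO_iff.2 ⟨c * ks s, mul_nonneg hc (ks_pos hs.ne).le, m, hm, fun k hk => ?_⟩⟩
  rw [abs_sub_comm]
  exact le_of_tendsto (hL.sub_const (f k)).abs ((eventually_ge_atTop k).mono fun n hn => h1 k n hk hn)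

theorem inv_bigO : (fun n : ℕ => 1 / (n : ℝ)) =O[atTop] pw (-1) :=
  EventuallyEq.isBigO (Eventually.of_forall fun n => by simp [pw, Real.rpow_neg_one])

variable {C δ : ℝ} {x y : ℕ → ℝ}

/-- one Riccati step for `1 / x` -/
theorem St.ricc {e x y x' y' w : ℝ} (h : St e x y x' y') (hx : 0 < x) (hw : e + (|x| + y) ≤ w)
    (hw1 : w ≤ 1 / 100) {κ : ℝ} (hκ : |x ^ 2 - y ^ 2| ≤ κ * x ^ 2) (hκ1 : κ ≤ 3 / 10) :
    0 < x' ∧ |1 / x' - 1 / x - 1| ≤ 2 * κ + 3 * w := by
  have he := h.e_nonneg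
  have hp := h.pos
  rw [abs_of_pos hx] at hw
  have h1 := abs_le.1 h.hx
  have h2 := abs_le.1 hκ
  have x2 := pow_pos hx 2
  have hκ0 : 0 ≤ κ := nonneg_of_mul_nonneg_left ((abs_nonneg _).trans hκ) x2
  have hy : y ^ 2 ≤ 13 / 10 * x ^ 2 := by nlinarith
  have hey : e * y ^ 2 ≤ w * (13 / 10 * x ^ 2) := by gcongr; linarith; linarith
  have hd : x - x' ≤ 132 / 100 * x ^ 2 := by nlinarith
  have hd0 : 0 ≤ x - x' := by nlinarith
  have hx' : 98 / 100 * x ≤ x' := by nlinarith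
  have hx0 : 0 < x' := by linarith
  refine ⟨hx0, ?_⟩
  have e1 : 1 / x' - 1 / x - 1 = ((x - x' - x ^ 2) + x * (x - x')) / (x * x') := by
    field_simp; ring
  have hxx : 98 / 100 * x ^ 2 ≤ x * x' := by nlinarith
  have h3 : x * (x - x') ≤ w * (132 / 100 * x ^ 2) := by gcongr; linarith; linarith
  have h4 : 0 ≤ x * (x - x') := by positivity
  have h5 : (2 * κ + 3 * w) * (98 / 100 * x ^ 2) ≤ (2 * κ + 3 * w) * (x * x') := by
    gcongr; linarith
  have h6 : 0 ≤ κ * x ^ 2 := by positivity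
  have h7 : 0 ≤ w * x ^ 2 := by have : 0 ≤ w := by linarith
                                positivity
  rw [e1, abs_div, abs_of_pos (mul_pos hx hx0), div_le_iff₀ (mul_pos hx hx0), abs_le]
  constructor <;> nlinarith

/-- the critical orbit -/
theorem crit (hC : 0 ≤ C) (hδ : 0 < δ) (hδ1 : δ < 1) {ε : ℝ} (hε : om C δ ε ≤ 1 / 100) {a : ℕ}
    (h : ∀ j, a ≤ j → Step C δ x y j ∧ |x j| + y j ≤ ε) (hx : Tendsto x atTop (𝓝 0)) :
    (fun n => x n - 1 / (n : ℝ)) =O[atTop] pw (-1 - δ) ∧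
      (fun n => y n - 1 / (n : ℝ)) =O[atTop] pw (-1 - δ) ∧
      (fun n => x n ^ 2 - y n ^ 2) =O[atTop] pw (-2 - δ) := by
  have hx0 : ∀ j, a ≤ j → 0 ≤ x j := fun j hj =>
    le_of_tendsto hx ((eventually_ge_atTop j).mono fun n hn =>
      (drift hC hδ.le hε hn fun k h1 _ => h k (hj.trans h1)).1)
  obtain ⟨L, -, hL, -, hs⟩ := sup hC hδ.le hε h hx0
  obtain rfl : L = 0 := tendsto_nhds_unique hL hx
  have hxp : ∀ j, a ≤ j → 0 < x j := fun j hj => by
    have := (hs j hj).2.1 j le_rfl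
    have := (h j hj).1.eta_pos
    linarith
  set w : ℕ → ℝ := fun n => om C δ (min ε (3 * x n)) with hw
  have hm0 : ∀ j, a ≤ j → 0 ≤ min ε (3 * x j) := fun j hj =>
    le_min ((h j hj).1.eta_pos.le.trans (h j hj).2) (by linarith [hx0 j hj])
  have hw1 : ∀ j, a ≤ j → w j ≤ 1 / 100 := fun j hj =>
    (om_mono hC hδ.le (hm0 j hj) (min_le_left _ _)).trans hε
  have hw0 : ∀ j, a ≤ j → 0 ≤ w j := fun j hj => om_nonneg hC (hm0 j hj)
  have hD : ∀ j, a ≤ j → |x j ^ 2 - y j ^ 2| ≤ 30 * w j * x j ^ 2 := fun j hj => by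
    have := (hs j hj).2.2
    simp only [ne_eq, OfNat.ofNat_ne_zero, not_false_eq_true, zero_pow, sub_zero] at this
    refine this.trans (le_of_eq ?_)
    simp only [hw]; ring
  have hr : ∀ j, a ≤ j → |1 / x (j + 1) - 1 / x j - 1| ≤ 63 * w j := fun j hj => by
    have := (St.ricc (h j hj).1 (hxp j hj) ((h j hj).1.w_le hC hδ.le
      (le_min (h j hj).2 ((hs j hj).2.1 j le_rfl))) (hw1 j hj) (hD j hj)
      (by linarith [hw1 j hj])).2
    linarith
  have hlin : ∀ n, a ≤ n → ((n : ℝ) - a) / 3 ≤ 1 / x n := by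
    intro n hn
    induction n, hn using Nat.le_induction with
    | base => simpa using hx0 a le_rfl
    | succ n hn ih =>
      have := (abs_le.1 (hr n hn)).1
      have := hw1 n hn
      push_cast; linarith
  have hxO : x =O[atTop] pw (-1) := bigO_iff.2 ⟨6, by norm_num, 2 * a + 1, by omega, fun n hn => by
    have h1 : a ≤ n := by omega
    have h2 : (2 * a + 1 : ℝ) ≤ n := by exact_mod_cast hn
    have h3 := hlin n h1
    have h4 := hxp n h1
    have h5 : (0 : ℝ) ≤ a := Nat.cast_nonneg a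
    rw [abs_of_pos h4, Real.rpow_neg_one, ← div_eq_mul_inv, le_div_iff₀ (by linarith)]
    rw [le_div_iff₀ h4] at h3
    nlinarith⟩
  have hwO : w =O[atTop] pw (-δ) := by
    obtain ⟨c, hc, m, hm, hb⟩ := bigO_iff.1 hxO
    refine bigO_iff.2 ⟨(C + 1) * (3 * c) ^ δ, by positivity, max m a, le_max_of_le_left hm,
      fun n hn => ?_⟩
    have h1 := (le_max_right _ _).trans hn
    have h2 := hb n ((le_max_left _ _).trans hn)
    rw [abs_of_pos (hxp n h1)] at h2
    rw [abs_of_nonneg (hw0 n h1)]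
    refine (om_le hδ1.le hδ.le (hm0 n h1) (((le_om hC (hm0 n h1)).trans (hw1 n h1)).trans
      (by norm_num))).trans ?_
    have h3 : (n : ℝ) ^ (-δ) = ((n : ℝ) ^ (-1 : ℝ)) ^ δ := by
      rw [← Real.rpow_mul (Nat.cast_nonneg n)]; ring_nf
    rw [h3, mul_assoc, ← Real.mul_rpow (by positivity) (by positivity)]
    exact mul_le_mul_of_nonneg_left (Real.rpow_le_rpow (hm0 n h1)
      ((min_le_right _ _).trans (by linarith)) hδ.le) (by linarith)
  have hrO : (fun n : ℕ => 1 / x n - n) =O[atTop] pw (1 - δ) := by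
    refine bigO_of_diff (by linarith) ?_
    rw [show 1 - δ - 1 = -δ by ring]
    refine IsBigO.trans (IsBigO.of_bound 63 ((eventually_ge_atTop a).mono fun n hn => ?_)) hwO
    rw [Real.norm_eq_abs, Real.norm_of_nonneg (hw0 n hn)]
    convert hr n hn using 2
    push_cast; ring
  have r1 : (fun n => x n - 1 / (n : ℝ)) =O[atTop] pw (-1 - δ) := by
    have := bigO_mul (bigO_mul hrO hxO le_rfl) inv_bigO (r := -1 - δ) (by linarith)
    refine EventuallyEq.trans_isBigO ((eventually_ge_atTop (a + 1)).mono fun n hn => ?_) this.neg_left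
    have h1 := hxp n (by omega)
    have h2 : (0 : ℝ) < n := by exact_mod_cast (show 0 < n by omega)
    field_simp; ring
  have r3 : (fun n => x n ^ 2 - y n ^ 2) =O[atTop] pw (-2 - δ) := by
    have := bigO_mul hwO (bigO_mul hxO hxO le_rfl) (r := -2 - δ) (by linarith)
    refine IsBigO.trans (IsBigO.of_bound 30 ((eventually_ge_atTop a).mono fun n hn => ?_)) this
    rw [Real.norm_eq_abs, Real.norm_of_nonneg (mul_nonneg (hw0 n hn) (mul_self_nonneg _))]
    exact (hD n hn).trans (le_of_eq (by ring))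
  refine ⟨r1, ?_, r3⟩
  have r2 : (fun n => x n - y n) =O[atTop] pw (-1 - δ) := by
    have := bigO_mul hwO hxO (r := -1 - δ) (by linarith)
    refine IsBigO.trans (IsBigO.of_bound 30 ((eventually_ge_atTop a).mono fun n hn => ?_)) this
    have h1 := hxp n hn
    have h2 := (h n hn).1.pos
    rw [Real.norm_eq_abs, Real.norm_of_nonneg (mul_nonneg (hw0 n hn) h1.le)]
    have h3 := hD n hn
    rw [sq_sub_sq, abs_mul, abs_of_pos (add_pos h1 h2)] at h3
    refine le_of_mul_le_mul_left ?_ h1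
    nlinarith [abs_nonneg (x n - y n)]
  simpa using r1.sub r2

/-- `∑_{j<n} x j - log n` converges on the critical orbit -/
theorem sum_sub_log {δ : ℝ} (hδ : 0 < δ) {x : ℕ → ℝ}
    (h : (fun n => x n - 1 / (n : ℝ)) =O[atTop] pw (-1 - δ)) :
    ∃ B, Tendsto (fun n : ℕ => ∑ j ∈ range n, x j - Real.log n) atTop (𝓝 B) := by
  obtain ⟨L, hL, -⟩ := cauchy_of_diff (f := fun n => ∑ j ∈ range n, (x j - 1 / (j : ℝ)))
    (s := -δ) (by linarith) (by
      rw [show -δ - 1 = -1 - δ by ring]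
      simpa only [sum_range_succ, add_sub_cancel_left] using h)
  have h2 : Tendsto (fun n : ℕ => 1 / (n : ℝ)) atTop (𝓝 0) := tendsto_one_div_atTop_nhds_zero_nat
  refine ⟨_, ((hL.add Real.tendsto_harmonic_sub_log).sub h2).congr fun n => ?_⟩
  have h3 : (harmonic n : ℝ) = ∑ j ∈ range n, 1 / (j : ℝ) + 1 / (n : ℝ) := by
    rw [← sum_range_succ (fun j : ℕ => 1 / (j : ℝ)), sum_range_succ']
    simp [harmonic]
  rw [h3, sum_sub_distrib]; ring

end Crest.Agent.T145.KT
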