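import Crest.Agent.T145.KtA_54

/-!
# Row 145 (helper54): the discrete Kosterlitz-Thouless flow, part C (massive orbits: the exit time)
-/

set_option autoImplicit false

namespace Crest.Agent.T145.KT

open Filter Topology Finset Real

/-- the flow is valid from `a` on as long as the orbit stays in the ball of radius `ε` -/
def Val (C δ ε : ℝ) (x y : ℕ → ℝ) (a : ℕ) : Prop :=
  ∀ n, a ≤ n → (∀ j, a ≤ j → j ≤ n → |x j| + y j ≤ ε) → Step C δ x y n

/-- `T` is the first exit time from the ball of radius `ε` -/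
def IsExit (ε : ℝ) (x y : ℕ → ℝ) (a T : ℕ) : Prop :=
  a ≤ T ∧ (∀ j, a ≤ j → j < T → |x j| + y j ≤ ε) ∧ ε < |x T| + y T

theorem IsExit.unique {ε : ℝ} {x y : ℕ → ℝ} {a T T' : ℕ} (h : IsExit ε x y a T)
    (h' : IsExit ε x y a T') : T = T' := by
  rcases lt_trichotomy T T' with hl | hl | hl
  · exact absurd (h'.2.1 T h.1 hl) (not_le.2 h.2.2)
  · exact hl
  · exact absurd (h.2.1 T' h'.1 hl) (not_le.2 h'.2.2)

theorem IsExit.le {ε ε' : ℝ} {x y : ℕ → ℝ} {a T T' : ℕ} (h : IsExit ε x y a T)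
    (h' : IsExit ε' x y a T') (hε : ε ≤ ε') : T ≤ T' :=
  not_lt.1 fun hl => absurd ((h.2.1 T' h'.1 hl).trans hε) (not_le.2 h'.2.2)

theorem exists_isExit {ε : ℝ} {x y : ℕ → ℝ} {a : ℕ} (h : ∃ n, a ≤ n ∧ ε < |x n| + y n) :
    ∃ T, IsExit ε x y a T := by
  classical
  refine ⟨Nat.find h, (Nat.find_spec h).1, fun j h1 h2 => ?_, (Nat.find_spec h).2⟩
  exact not_lt.1 fun h3 => Nat.find_min h h2 ⟨h1, h3⟩

theorem Val.step {C δ ε ε' : ℝ} {x y : ℕ → ℝ} {a n : ℕ} (h : Val C δ ε x y a) (hε : ε' ≤ ε)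
    (hn : ∀ j, a ≤ j → j < n → |x j| + y j ≤ ε') :
    ∀ j, a ≤ j → j < n → Step C δ x y j ∧ |x j| + y j ≤ ε' := fun j h1 h2 =>
  ⟨h j h1 fun i h3 h4 => (hn i h3 (by omega)).trans hε, hn j h1 h2⟩

theorem pi_div_two_sub_le_arctan {u l : ℝ} (hu : 0 < u) (hl : 0 < l) :
    π / 2 - l / u ≤ arctan (u / l) := by
  have h1 := arctan_inv_of_pos (div_pos hu hl)
  have h2 : arctan (u / l)⁻¹ ≤ (u / l)⁻¹ := by
    have := le_tan (x := arctan (u / l)⁻¹) (by simpa using arctan_mono (inv_pos.2 (div_pos hu hl)).le)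
      (arctan_lt_pi_div_two _)
    rwa [tan_arctan] at this
  rw [inv_div] at h1 h2
  linarith

theorem arctan_le_of_neg {u l : ℝ} (hu : u < 0) (hl : 0 < l) :
    arctan (u / l) ≤ -(π / 2) + l / (-u) := by
  have := pi_div_two_sub_le_arctan (neg_pos.2 hu) hl
  rw [neg_div, arctan_neg] at this
  linarith

/-- one step of the angle variable -/
theorem St.angle {e x y x' y' w l κ : ℝ} (h : St e x y x' y') (hw : e + (|x| + y) ≤ w)
    (hw1 : w ≤ 1 / 1000) (hl : 0 < l) (hκ : |y ^ 2 - x ^ 2 - l ^ 2| ≤ κ * (x ^ 2 + l ^ 2))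
    (hκ1 : κ ≤ 1 / 5) : |arctan (x / l) - arctan (x' / l) - l| ≤ (κ + 5 * w) * (101 / 100) * l := by
  have he := h.e_nonneg
  have hp := h.pos
  have hx0 := abs_nonneg x
  have hlt : x' < x := h.lt (by linarith)
  obtain ⟨ζ, hζ, hm⟩ := exists_hasDerivAt_eq_slope (fun u => arctan (u / l))
    (fun u => 1 / (1 + (u / l) ^ 2) * (1 / l)) hlt (by fun_prop)
    (fun u _ => (hasDerivAt_arctan (u / l)).comp u (h := fun v => v / l)
      ((hasDerivAt_id' u).div_const l))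
  set S := x ^ 2 + l ^ 2 with hS
  have hS0 : 0 < S := by positivity
  have hκ0 : 0 ≤ κ := nonneg_of_mul_nonneg_left ((abs_nonneg _).trans hκ) hS0
  have hw0 : 0 ≤ w := by linarith
  have h1 := abs_le.1 hκ
  have h2 := abs_le.1 h.hx
  have hy : y ^ 2 ≤ 6 / 5 * S := by nlinarith
  have hey : e * y ^ 2 ≤ w * (6 / 5 * S) := by gcongr; linarith
  have hΔ : x - x' ≤ 121 / 100 * S := by nlinarith
  have hΔ' : x - x' ≤ w / 100 := by nlinarith [h.sub_le]
  have hz : |ζ ^ 2 - x ^ 2| ≤ 5 / 2 * w * S := by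
    have a1 : |ζ - x| ≤ x - x' := by rw [abs_le]; constructor <;> linarith [hζ.1, hζ.2]
    have a2 : |ζ + x| ≤ 201 / 100 * w := by
      have : |ζ + x| ≤ |ζ - x| + |2 * x| := by
        have := abs_add_le (ζ - x) (2 * x); rwa [show ζ - x + 2 * x = ζ + x by ring] at this
      rw [abs_mul, abs_two] at this
      linarith
    rw [sq_sub_sq, abs_mul]
    calc _ ≤ (201 / 100 * w) * (121 / 100 * S) := by gcongr; linarith
      _ ≤ _ := by nlinarith [mul_nonneg hw0 hS0.le]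
  have h3 := abs_le.1 hz
  have hQ : 0 < ζ ^ 2 + l ^ 2 := by positivity
  have e1 : arctan (x / l) - arctan (x' / l) - l =
      ((x - x') - (ζ ^ 2 + l ^ 2)) / (ζ ^ 2 + l ^ 2) * l := by
    have : arctan (x / l) - arctan (x' / l) = 1 / (1 + (ζ / l) ^ 2) * (1 / l) * (x - x') := by
      rw [hm, div_mul_cancel₀ _ (sub_pos.2 hlt).ne']
    rw [this]; field_simp; ring
  rw [e1, abs_mul, abs_of_pos hl]
  refine mul_le_mul_of_nonneg_right ?_ hl.le
  rw [abs_div, abs_of_pos hQ, div_le_iff₀ hQ]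
  have hQ' : 997 / 1000 * S ≤ ζ ^ 2 + l ^ 2 := by nlinarith
  have h4 : (κ + 5 * w) * (101 / 100) * (997 / 1000 * S) ≤
      (κ + 5 * w) * (101 / 100) * (ζ ^ 2 + l ^ 2) := by gcongr
  have h5 := mul_nonneg hκ0 hS0.le
  have h6 := mul_nonneg hw0 hS0.le
  rw [abs_le]; constructor <;> nlinarith

variable {C δ : ℝ} {x y : ℕ → ℝ}

/-- the entrance data of a massive orbit -/
structure Ent (C δ ρ l : ℝ) (x y : ℕ → ℝ) (a : ℕ) : Prop where
  pos : 0 < l
  le : l ≤ x a / 3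
  drift : om C δ (3 * x a) * x a ^ 2 ≤ ρ * l ^ 2
  inv : |y a ^ 2 - x a ^ 2 - l ^ 2| ≤ ρ * l ^ 2

theorem Ent.inv_le {ρ l ε : ℝ} {a : ℕ} (E : Ent C δ ρ l x y a) (hC : 0 ≤ C) (hδ : 0 ≤ δ)
    (hρ : ρ ≤ 1 / 1000) (hε0 : 0 ≤ ε) (hε : om C δ ε ≤ 1 / 1000) (n : ℕ) (hn : a ≤ n)
    (h : ∀ j, a ≤ j → j < n → Step C δ x y j ∧ |x j| + y j ≤ ε) :
    |y n ^ 2 - x n ^ 2 - l ^ 2| ≤ 61 * (ρ + om C δ ε) * (x n ^ 2 + l ^ 2) := by
  have hl := E.pos
  have l2 := pow_pos hl 2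
  have hρ0 : 0 ≤ ρ := nonneg_of_mul_nonneg_left ((abs_nonneg _).trans E.inv) l2
  have hw0 : 0 ≤ om C δ ε := om_nonneg hC hε0
  have hxa : 0 < x a := by linarith [E.le]
  induction n using Nat.strong_induction_on with
  | _ n ih =>
  have hη : ∀ j, a ≤ j → j < n → |x j| + y j ≤ 11 / 5 * (max (x a) |x n| + l) := by
    intro j h1 h2
    have i := (abs_le.1 (ih j h2 h1 fun i h3 h4 => h i h3 (by omega))).2
    have m1 := (KT.drift hC hδ (hε.trans (by norm_num)) h1 fun i h3 h4 => h i h3 (by omega)).1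
    have m2 := (KT.drift hC hδ (hε.trans (by norm_num)) h2.le fun i h3 h4 => h i (by omega) h4).1
    have m3 : |x j| ≤ max (x a) |x n| :=
      abs_le.2 ⟨by linarith [le_max_right (x a) |x n|, neg_abs_le (x n)],
        m1.trans (le_max_left _ _)⟩
    have m4 : y j ≤ 6 / 5 * (|x j| + l) := by
      refine (abs_le_of_sq_le_sq' ?_ (by positivity)).2
      have : 61 * (ρ + om C δ ε) * (x j ^ 2 + l ^ 2) ≤ 61 * (2 / 1000) * (x j ^ 2 + l ^ 2) := by
        gcongr; linarith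
      nlinarith [sq_abs (x j), mul_nonneg (abs_nonneg (x j)) hl.le, sq_nonneg (x j)]
    linarith
  have tri : ∀ d, |(x n ^ 2 - y n ^ 2) - (x a ^ 2 - y a ^ 2)| ≤ d →
      |y n ^ 2 - x n ^ 2 - l ^ 2| ≤ d + ρ * l ^ 2 := fun d hd => by
    have h1 := abs_le.1 hd
    have h2 := abs_le.1 E.inv
    rw [abs_le]; constructor <;> linarith
  have p1 := mul_nonneg hρ0 (sq_nonneg (x n))
  have p2 := mul_nonneg hw0 (sq_nonneg (x n))
  have p3 := mul_nonneg hw0 l2.le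
  have p4 := mul_nonneg hρ0 l2.le
  rcases le_total |x n| (x a) with hc | hc
  · rw [max_eq_left hc] at hη
    have m0 : 0 ≤ min ε (3 * x a) := le_min hε0 (by linarith)
    have d := KT.drift (σ := min ε (3 * x a)) hC hδ
      (((om_mono hC hδ m0 (min_le_left _ _)).trans hε).trans (by norm_num)) hn
      fun j h1 h2 => ⟨(h j h1 h2).1, le_min (h j h1 h2).2 ((hη j h1 h2).trans (by linarith [E.le]))⟩
    have d2 : 10 * om C δ (min ε (3 * x a)) * min ε (3 * x a) * (x a - x n) ≤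
        10 * om C δ (3 * x a) * (3 * x a) * (2 * x a) := by
      have := om_nonneg (δ := δ) hC (show 0 ≤ 3 * x a by linarith)
      have := sub_nonneg.2 d.1
      gcongr
      · exact om_mono hC hδ m0 (min_le_right _ _)
      · exact min_le_right _ _
      · linarith [neg_abs_le (x n)]
    have := tri _ (d.2.trans d2)
    nlinarith [E.drift]
  · rw [max_eq_right hc] at hη
    have m0 : 0 ≤ min ε (11 / 5 * (|x n| + l)) := le_min hε0 (by positivity)
    have d := KT.drift (σ := min ε (11 / 5 * (|x n| + l))) hC hδ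
      (((om_mono hC hδ m0 (min_le_left _ _)).trans hε).trans (by norm_num)) hn
      fun j h1 h2 => ⟨(h j h1 h2).1, le_min (h j h1 h2).2 (hη j h1 h2)⟩
    have d2 : 10 * om C δ (min ε (11 / 5 * (|x n| + l))) * min ε (11 / 5 * (|x n| + l)) *
        (x a - x n) ≤ 10 * om C δ ε * (11 / 5 * (|x n| + l)) * (2 * |x n|) := by
      have := sub_nonneg.2 d.1
      gcongr
      · exact om_mono hC hδ m0 (min_le_left _ _)
      · exact min_le_right _ _
      · linarith [neg_abs_le (x n)]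
    have d3 : (|x n| + l) * |x n| ≤ 5 / 4 * (x n ^ 2 + l ^ 2) := by
      nlinarith [sq_abs (x n), sq_nonneg (|x n| - 2 * l)]
    have d4 := mul_le_mul_of_nonneg_left d3 hw0
    have := tri _ (d.2.trans d2)
    nlinarith

theorem Ent.angle {ρ l ε : ℝ} {a : ℕ} (E : Ent C δ ρ l x y a) (hC : 0 ≤ C) (hδ : 0 ≤ δ)
    (hρ : ρ ≤ 1 / 1000) (hε0 : 0 ≤ ε) (hε : om C δ ε ≤ 1 / 1000) {m n : ℕ} (hm : a ≤ m) (hn : m ≤ n)
    (h : ∀ j, a ≤ j → j < n → Step C δ x y j ∧ |x j| + y j ≤ ε) :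
    |arctan (x m / l) - arctan (x n / l) - l * (n - m)| ≤ 70 * (ρ + om C δ ε) * (l * (n - m)) := by
  have hl := E.pos
  have hρ0 : 0 ≤ ρ := nonneg_of_mul_nonneg_left ((abs_nonneg _).trans E.inv) (pow_pos hl 2)
  have hw0 : 0 ≤ om C δ ε := om_nonneg hC hε0
  induction n, hn using Nat.le_induction with
  | base => simp
  | succ n hn ih =>
    have i := abs_le.1 (ih fun j h1 h2 => h j h1 (by omega))
    obtain ⟨s, hs⟩ := h n (hm.trans hn) (by omega)
    have := abs_le.1 (St.angle s (s.w_le hC hδ hs) hε hl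
      (E.inv_le hC hδ hρ hε0 hε n (hm.trans hn) fun j h1 h2 => h j h1 (by omega)) (by linarith))
    have p1 := mul_nonneg hρ0 hl.le
    have p2 := mul_nonneg hw0 hl.le
    push_cast
    rw [abs_le]; constructor <;> nlinarith

/-- a massive orbit leaves every small ball, on the side `x < 0` -/
theorem Ent.exit {ρ l ε ε₀ : ℝ} {a : ℕ} (E : Ent C δ ρ l x y a) (hC : 0 ≤ C) (hδ : 0 ≤ δ)
    (hρ : ρ ≤ 1 / 1000) (hε : om C δ ε ≤ 1 / 1000) (hεε : ε ≤ ε₀) (hxa : x a ≤ ε / 10)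
    (hV : Val C δ ε₀ x y a) : ∃ T, IsExit ε x y a T ∧ x T ≤ -(ε / 3) := by
  have hl := E.pos
  have hle := E.le
  have hε0 : 0 ≤ ε := by linarith
  have hρ0 : 0 ≤ ρ := nonneg_of_mul_nonneg_left ((abs_nonneg _).trans E.inv) (pow_pos hl 2)
  have hw0 : 0 ≤ om C δ ε := om_nonneg hC hε0
  have hex : ∃ n, a ≤ n ∧ ε < |x n| + y n := by
    by_contra hne
    push Not at hne
    obtain ⟨k, hk⟩ := exists_nat_gt (2 * π / l)
    have := (abs_le.1 (E.angle hC hδ hρ hε0 hε le_rfl (Nat.le_add_right a k)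
      (hV.step hεε fun j h1 _ => hne j h1))).1
    push_cast at this
    rw [add_sub_cancel_left] at this
    rw [div_lt_iff₀ hl] at hk
    have h1 := arctan_lt_pi_div_two (x a / l)
    have h2 := neg_pi_div_two_lt_arctan (x (a + k) / l)
    have h3 : 70 * (ρ + om C δ ε) * (l * k) ≤ 70 * (2 / 1000) * (l * k) := by gcongr; linarith
    nlinarith [pi_pos]
  obtain ⟨T, hT⟩ := exists_isExit hex
  refine ⟨T, hT, ?_⟩
  have hs := hV.step hεε hT.2.1
  have i := (abs_le.1 (E.inv_le hC hδ hρ hε0 hε T hT.1 hs)).2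
  have m1 := (KT.drift hC hδ (hε.trans (by norm_num)) hT.1 hs).1
  have m4 : y T ≤ 6 / 5 * (|x T| + l) := by
    refine (abs_le_of_sq_le_sq' ?_ (by positivity)).2
    have : 61 * (ρ + om C δ ε) * (x T ^ 2 + l ^ 2) ≤ 61 * (2 / 1000) * (x T ^ 2 + l ^ 2) := by
      gcongr; linarith
    nlinarith [sq_abs (x T), mul_nonneg (abs_nonneg (x T)) hl.le, sq_nonneg (x T)]
  have h1 := hT.2.2
  rcases abs_cases (x T) with h2 | h2 <;> linarith [h2.1]

/-- the exit time of a massive orbit is `π / l` to leading order -/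
theorem exit_time (hC : 0 ≤ C) (hδ : 0 < δ) {ε₀ τ : ℝ} (hε0 : 0 < ε₀) (hε : om C δ ε₀ ≤ 1 / 1000)
    (hτ : 0 < τ) : ∃ ρ, 0 < ρ ∧ ∀ (x y : ℕ → ℝ) (a : ℕ) (l : ℝ), Val C δ ε₀ x y a → 0 < l →
      l ≤ ρ * x a → x a ≤ ρ → om C δ (3 * x a) * x a ^ 2 ≤ ρ * l ^ 2 →
      |y a ^ 2 - x a ^ 2 - l ^ 2| ≤ ρ * l ^ 2 →
      ∃ T, IsExit ε₀ x y a T ∧ x T ≤ -(ε₀ / 3) ∧ |l * (T - a) - π| ≤ τ := by
  obtain ⟨ε', hε', h'⟩ := exists_om_le C hδ (show 0 < min (1 / 1000) (τ / 600) by positivity)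
  set ε := min ε₀ ε' with hεd
  have hεp : 0 < ε := lt_min hε0 hε'
  have hw := h' ε hεp.le (min_le_right _ _)
  have hw1 := hw.trans (min_le_left _ _)
  have hw2 := hw.trans (min_le_right _ _)
  refine ⟨min (min (1 / 1000) (τ / 600)) (ε / 10), by positivity, ?_⟩
  set ρ := min (min (1 / 1000) (τ / 600)) (ε / 10) with hρ
  have r0 : 0 < ρ := by positivity
  have r1 : ρ ≤ 1 / 1000 := (min_le_left _ _).trans (min_le_left _ _)
  have r2 : ρ ≤ τ / 600 := (min_le_left _ _).trans (min_le_right _ _)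
  have r3 : ρ ≤ ε / 10 := min_le_right _ _
  intro x y a l hV hl h1 h2 h3 h4
  have hxa : 0 < x a := (mul_pos_iff_of_pos_left r0).1 (hl.trans_le h1)
  have E : Ent C δ ρ l x y a := ⟨hl, by nlinarith, h3, h4⟩
  have hεε : ε ≤ ε₀ := min_le_left _ _
  obtain ⟨T₁, hT₁, hx₁⟩ := E.exit hC hδ.le r1 hw1 hεε (h2.trans r3) hV
  obtain ⟨T, hT, hx⟩ := E.exit hC hδ.le r1 hε le_rfl (by linarith) hV
  refine ⟨T, hT, hx, ?_⟩
  have hle := hT₁.le hT hεε
  have a1 := abs_le.1 (E.angle hC hδ.le r1 hεp.le hw1 le_rfl hT₁.1 (hV.step hεε hT₁.2.1))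
  have a2 := (abs_le.1 (E.angle hC hδ.le r1 hε0.le hε hT₁.1 hle (hV.step le_rfl hT.2.1))).1
  have b1 := pi_div_two_sub_le_arctan hxa hl
  have b2 := arctan_lt_pi_div_two (x a / l)
  have b3 := arctan_le_of_neg (show x T₁ < 0 by linarith) hl
  have b4 := neg_pi_div_two_lt_arctan (x T₁ / l)
  have b5 := neg_pi_div_two_lt_arctan (x T / l)
  have c1 : l / x a ≤ ρ := by rwa [div_le_iff₀ hxa]
  have c2 : l / -x T₁ ≤ ρ := by
    rw [div_le_iff₀ (by linarith)]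
    nlinarith
  have hw0 : 0 ≤ om C δ ε := om_nonneg hC hεp.le
  have t1 : 0 ≤ l * ((T₁ : ℝ) - a) := mul_nonneg hl.le (sub_nonneg.2 (by exact_mod_cast hT₁.1))
  have t2 : 0 ≤ l * ((T : ℝ) - T₁) := mul_nonneg hl.le (sub_nonneg.2 (by exact_mod_cast hle))
  have d1 : 70 * (ρ + om C δ ε) * (l * ((T₁ : ℝ) - a)) ≤ 70 * (2 / 1000) * (l * ((T₁ : ℝ) - a)) := by
    gcongr; linarith
  have d2 : 70 * (ρ + om C δ ε₀) * (l * ((T : ℝ) - T₁)) ≤ 70 * (2 / 1000) * (l * ((T : ℝ) - T₁)) := by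
    gcongr; linarith
  have d3 : l * ((T₁ : ℝ) - a) ≤ 4 := by linarith [pi_lt_d2]
  have d4 : 70 * (ρ + om C δ ε) * (l * ((T₁ : ℝ) - a)) ≤ 70 * (ρ + om C δ ε) * 4 := by gcongr
  have e : l * ((T : ℝ) - a) = l * ((T₁ : ℝ) - a) + l * ((T : ℝ) - T₁) := by ring
  rw [e, abs_le]; constructor <;> linarith

end Crest.Agent.T145.KT
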