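import Crest.Agent.T145.KtB_54

/-!
# Row 145 (helper54): the discrete Kosterlitz-Thouless flow, part D (the linearised flow)
-/

set_option autoImplicit false

namespace Crest.Agent.T145.KT

open Filter Topology Finset Asymptotics

/-- one step of the linearised flow (`p = ∂ x`, `q = ∂ y`), relative error `e`, size `A` -/
structure Ln (e x y p q p' q' A : ℝ) : Prop where
  hp : |p' - p + 2 * y * q| ≤ e * (|x| + y) * A
  hq : |q' - q + x * q + y * p| ≤ e * (|x| + y) * A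
  le : |p| + |q| ≤ A

/-- one linearised step with error `C η ^ δ` -/
def Lin (C δ : ℝ) (x y p q A : ℕ → ℝ) (n : ℕ) : Prop :=
  Ln (C * (|x n| + y n) ^ δ) (x n) (y n) (p n) (q n) (p (n + 1)) (q (n + 1)) (A n)

namespace Ln
variable {e x y x' y' p q p' q' A w : ℝ}

theorem A_nonneg (h : Ln e x y p q p' q' A) : 0 ≤ A := le_trans (by positivity) h.le

theorem mono (h : Ln e x y p q p' q' A) (hy : 0 ≤ y) (he0 : 0 ≤ e) {e' A' : ℝ} (he : e ≤ e')
    (hA : A ≤ A') : Ln e' x y p q p' q' A' := by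
  have := h.A_nonneg
  have : 0 ≤ e' := he0.trans he
  exact ⟨h.hp.trans (by gcongr), h.hq.trans (by gcongr), h.le.trans hA⟩

/-- the linearised invariant `x p - y q` is almost conserved -/
theorem da (h : Ln e x y p q p' q' A) (s : St e x y x' y') (hw : e + (|x| + y) ≤ w)
    (hw1 : w ≤ 1 / 100) : |(x' * p' - y' * q') - (x * p - y * q)| ≤ 8 * w * (|x| + y) ^ 2 * A := by
  have he := s.e_nonneg
  have hy := s.pos
  have hx0 := abs_nonneg x
  have hA := h.A_nonneg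
  have hpA : |p| ≤ A := le_trans (by linarith [abs_nonneg q]) h.le
  have hqA : |q| ≤ A := le_trans (by linarith [abs_nonneg p]) h.le
  have h1 := s.hx
  have h2 := s.dy hw hw1
  have h3 := s.abs_dx hw hw1
  have h4 := s.abs_dy hw hw1
  have h5 := h.hp
  have h6 := h.hq
  obtain ⟨η, hη⟩ : ∃ η, η = |x| + y := ⟨_, rfl⟩
  rw [← hη] at h2 h4 h5 h6 hw ⊢
  have hη0 : 0 ≤ η := by linarith
  have hyη : y ≤ η := by linarith
  have hxη : |x| ≤ η := by linarith
  have hew : e ≤ w := by linarith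
  have hηw : η ≤ w := by linarith
  have hw0 : 0 ≤ w := by linarith
  have e1 : (x' * p' - y' * q') - (x * p - y * q) =
      (x' - x + y ^ 2) * p + x * (p' - p + 2 * y * q) - (y' - y + x * y) * q -
        y * (q' - q + x * q + y * p) + (x' - x) * (p' - p) - (y' - y) * (q' - q) := by ring
  have b1 : |(x' - x + y ^ 2) * p| ≤ w * η ^ 2 * A := by
    rw [abs_mul]; exact (mul_le_mul h1 hpA (abs_nonneg _) (by positivity)).trans (by gcongr)
  have b2 : |x * (p' - p + 2 * y * q)| ≤ |x| * (w * η * A) := by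
    rw [abs_mul]; exact mul_le_mul_of_nonneg_left (h5.trans (by gcongr)) hx0
  have b3 : |(y' - y + x * y) * q| ≤ 2 * w * η * η * A := by
    rw [abs_mul]; exact (mul_le_mul h2 hqA (abs_nonneg _) (by positivity)).trans (by gcongr)
  have b4 : |y * (q' - q + x * q + y * p)| ≤ y * (w * η * A) := by
    rw [abs_mul, abs_of_pos hy]; exact mul_le_mul_of_nonneg_left (h6.trans (by gcongr)) hy.le
  have b7 : |x| * (w * η * A) + y * (w * η * A) = w * η ^ 2 * A := by rw [hη]; ring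
  have hq' : |q' - q| ≤ 102 / 100 * w * A := by
    have a1 := abs_sub (q' - q + x * q + y * p) (x * q + y * p)
    have a0 := abs_add_le (x * q) (y * p)
    rw [show q' - q + x * q + y * p - (x * q + y * p) = q' - q by ring] at a1
    rw [abs_mul, abs_mul, abs_of_pos hy] at a0
    have a2 : |x| * |q| ≤ |x| * A := by gcongr
    have a4 : y * |p| ≤ y * A := by gcongr
    have a5 : η * A ≤ w * A := by gcongr
    have a3 : e * η * A ≤ 1 / 100 * w * A := by gcongr; linarith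
    have a6 : |x| * A + y * A = η * A := by rw [hη]; ring
    linarith [mul_nonneg hw0 hA]
  have hp' : |p' - p| ≤ 201 / 100 * w * A := by
    have a1 := abs_sub (p' - p + 2 * y * q) (2 * y * q)
    rw [add_sub_cancel_right, abs_mul, abs_mul, abs_two, abs_of_pos hy] at a1
    have a2 : 2 * y * |q| ≤ 2 * w * A := by gcongr; linarith
    have a3 : e * η * A ≤ 1 / 100 * w * A := by gcongr; linarith
    linarith
  have b5' : |(x' - x) * (p' - p)| ≤ 101 / 100 * η ^ 2 * (201 / 100 * w * A) := by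
    rw [abs_mul]; exact (mul_le_mul h3 hp' (abs_nonneg _) (by positivity)).trans (by gcongr)
  have b6' : |(y' - y) * (q' - q)| ≤ 102 / 100 * η * η * (102 / 100 * w * A) := by
    rw [abs_mul]; exact (mul_le_mul h4 hq' (abs_nonneg _) (by positivity)).trans (by gcongr)
  have c : 0 ≤ w * η ^ 2 * A := by positivity
  rw [e1, abs_le]
  have := abs_le.1 b1
  have := abs_le.1 b2
  have := abs_le.1 b3
  have := abs_le.1 b4
  have := abs_le.1 b5'
  have := abs_le.1 b6'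
  constructor <;> linarith

/-- one step of the growth bound -/
theorem grow (h : Ln e x y p q p' q' A) {κ t S B : ℝ} (hκ : 0 < κ) (hκ1 : κ ≤ 1) (ht : 2 ≤ t)
    (hx : |x - 1 / t| ≤ κ / 8 / t) (hy0 : 0 ≤ y) (hy : y ≤ (1 + κ / 8) / t) (he : 0 ≤ e)
    (hB : e * A ≤ B) (hS : 10 * B ≤ κ * S) (hp : |p| ≤ S) (hq : |q| ≤ S / 2) :
    |p'| ≤ S * (1 + (1 + κ) / t) ∧ |q'| ≤ S * (1 + (1 + κ) / t) / 2 := by
  have ht0 : 0 < t := by linarith
  have hS0 : 0 ≤ S := (abs_nonneg _).trans hp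
  have hA := h.A_nonneg
  set u := 1 / t with hu
  have hu0 : 0 < u := by positivity
  have hu1 : u ≤ 1 / 2 := by rw [hu, div_le_iff₀ ht0]; linarith
  rw [div_eq_mul_one_div (κ / 8), ← hu] at hx
  rw [div_eq_mul_one_div (1 + κ / 8), ← hu] at hy
  rw [div_eq_mul_one_div (1 + κ), ← hu]
  have h1 := abs_le.1 hx
  have hκu : κ * u ≤ u := by nlinarith
  have hκu0 : 0 ≤ κ * u := by positivity
  have hxa : |x| ≤ (1 + κ / 8) * u := by rw [abs_le]; constructor <;> nlinarith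
  have hF : e * (|x| + y) * A ≤ 3 * u * B := by
    calc e * (|x| + y) * A = (|x| + y) * (e * A) := by ring
      _ ≤ (3 * u) * B := by gcongr; nlinarith
  have hB' : 3 * u * B ≤ 3 / 10 * (κ * u * S) := by nlinarith
  have c0 : 0 ≤ κ * u * S := by positivity
  constructor
  · have a1 : |p'| ≤ |p' - p + 2 * y * q| + |p| + |2 * y * q| := by
      have := abs_add_le (p' - p + 2 * y * q) (p - 2 * y * q)
      have := abs_sub p (2 * y * q)
      rw [show p' - p + 2 * y * q + (p - 2 * y * q) = p' by ring] at *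
      linarith
    rw [abs_mul, abs_mul, abs_two, abs_of_nonneg hy0] at a1
    have a2 : 2 * y * |q| ≤ 2 * ((1 + κ / 8) * u) * (S / 2) := by gcongr
    nlinarith [h.hp]
  · have a1 : |q'| ≤ |q' - q + x * q + y * p| + |(1 - x) * q| + |y * p| := by
      have := abs_add_le (q' - q + x * q + y * p) ((1 - x) * q - y * p)
      have := abs_sub ((1 - x) * q) (y * p)
      rw [show q' - q + x * q + y * p + ((1 - x) * q - y * p) = q' by ring] at *
      linarith
    rw [abs_mul, abs_mul, abs_of_nonneg hy0, abs_of_nonneg (show 0 ≤ 1 - x by nlinarith)] at a1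
    have a2 : y * |p| ≤ ((1 + κ / 8) * u) * S := by gcongr
    have a3 : (1 - x) * |q| ≤ (1 - (1 - κ / 8) * u) * (S / 2) := by
      gcongr
      · nlinarith
      · nlinarith
    nlinarith [h.hq]

end Ln

theorem rpow_succ_ge {s t r : ℝ} (hs : 1 ≤ s) (hr : r ≤ s) (ht : 0 < t) :
    t ^ s * (1 + r / t) ≤ (t + 1) ^ s := by
  have h1 := one_add_mul_self_le_rpow_one_add (s := 1 / t) (by have := one_div_pos.2 ht; linarith) hs
  have h2 : (t + 1) ^ s = t ^ s * (1 + 1 / t) ^ s := by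
    rw [← Real.mul_rpow ht.le (by positivity)]; congr 1; field_simp
  rw [h2]
  refine mul_le_mul_of_nonneg_left (le_trans ?_ h1) (Real.rpow_nonneg ht.le _)
  rw [mul_one_div]; gcongr

/-- growth bound with a given forcing; `I` is the time interval, `g` a monotone weight -/
theorem grow {e x y p q A g : ℕ → ℝ} {I : ℕ → Prop} {a : ℕ} {κ s S B : ℝ} (hκ : 0 < κ) (hκ1 : κ ≤ 1)
    (hs : 1 + κ ≤ s) (ha : 2 ≤ a) (hI : ∀ n, I (n + 1) → a ≤ n → I n) (hg0 : ∀ n, 0 ≤ g n)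
    (hg : Monotone g)
    (h : ∀ n, a ≤ n → I (n + 1) → Ln (e n) (x n) (y n) (p n) (q n) (p (n + 1)) (q (n + 1)) (A n) ∧
      |x n - 1 / n| ≤ κ / 8 / n ∧ 0 ≤ y n ∧ y n ≤ (1 + κ / 8) / n ∧ 0 ≤ e n ∧
      e n * A n ≤ B * (g n * (n : ℝ) ^ s)) (hS : 10 * B ≤ κ * S) (hS' : 0 ≤ S)
    (hp : |p a| ≤ S * (g a * (a : ℝ) ^ s)) (hq : |q a| ≤ S * (g a * (a : ℝ) ^ s) / 2) :
    ∀ n, a ≤ n → I n → |p n| ≤ S * (g n * (n : ℝ) ^ s) ∧ |q n| ≤ S * (g n * (n : ℝ) ^ s) / 2 := by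
  intro n hn
  induction n, hn using Nat.le_induction with
  | base => exact fun _ => ⟨hp, hq⟩
  | succ n hn ih =>
    intro hI'
    obtain ⟨i1, i2⟩ := ih (hI n hI' hn)
    obtain ⟨h1, h2, h3, h4, h5, h6⟩ := h n hn hI'
    have hn2 : (2 : ℝ) ≤ n := by exact_mod_cast ha.trans hn
    have hG : 0 ≤ g n * (n : ℝ) ^ s := mul_nonneg (hg0 n) (by positivity)
    obtain ⟨r1, r2⟩ := h1.grow hκ hκ1 hn2 h2 h3 h4 h5 h6 (S := S * (g n * (n : ℝ) ^ s))
      (by nlinarith) i1 i2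
    have r3 : S * (g n * (n : ℝ) ^ s) * (1 + (1 + κ) / n) ≤
        S * (g (n + 1) * ((n + 1 : ℕ) : ℝ) ^ s) := by
      rw [mul_assoc, mul_assoc]
      refine mul_le_mul_of_nonneg_left (mul_le_mul (hg n.le_succ) ?_ (by positivity) (hg0 _)) hS'
      push_cast
      exact rpow_succ_ge (by linarith) hs (by linarith)
    exact ⟨r1.trans r3, r2.trans (by linarith)⟩

/-- closed growth bound: the size `A` is controlled by the solution itself (past and future) -/
theorem grow_closed {e x y p q A g : ℕ → ℝ} {I : ℕ → Prop} {a : ℕ} {κ s S₀ B₀ M e₀ : ℝ} (hκ : 0 < κ)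
    (hκ1 : κ ≤ 1) (hs : 1 + κ ≤ s) (ha : 2 ≤ a) (hI : ∀ n, I (n + 1) → a ≤ n → I n)
    (hg0 : ∀ n, 0 < g n) (hg : Monotone g) (hB₀ : 0 ≤ B₀) (hS₀ : 0 ≤ S₀)
    (he₀ : 30 * e₀ * M ≤ κ)
    (h : ∀ n, a ≤ n → I (n + 1) → Ln (e n) (x n) (y n) (p n) (q n) (p (n + 1)) (q (n + 1)) (A n) ∧
      |x n - 1 / n| ≤ κ / 8 / n ∧ 0 ≤ y n ∧ y n ≤ (1 + κ / 8) / n ∧ 0 ≤ e n ∧ e n ≤ e₀)
    (hA : ∀ S, 0 ≤ S → (∀ j, a ≤ j → I j → |p j| + |q j| ≤ S * (g j * (j : ℝ) ^ s)) →
      ∀ n, a ≤ n → I (n + 1) → A n ≤ M * (B₀ + S) * (g n * (n : ℝ) ^ s))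
    (hfin : ∃ S, ∀ j, a ≤ j → I j → |p j| + |q j| ≤ S * (g j * (j : ℝ) ^ s))
    (h0 : |p a| + |q a| ≤ S₀ * (g a * (a : ℝ) ^ s)) :
    ∀ n, a ≤ n → I n → |p n| + |q n| ≤ (6 * S₀ + B₀) * (g n * (n : ℝ) ^ s) := by
  have hG : ∀ j, a ≤ j → 0 < g j * (j : ℝ) ^ s := fun j hj =>
    mul_pos (hg0 j) (Real.rpow_pos_of_pos (by exact_mod_cast (show 0 < j by omega)) _)
  set P : Set ℝ := {S | 0 ≤ S ∧ ∀ j, a ≤ j → I j → |p j| + |q j| ≤ S * (g j * (j : ℝ) ^ s)} with hP
  have hne : P.Nonempty := by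
    obtain ⟨S, hS⟩ := hfin
    exact ⟨max S 0, le_max_right _ _, fun j h1 h2 => (hS j h1 h2).trans
      (mul_le_mul_of_nonneg_right (le_max_left _ _) (hG j h1).le)⟩
  have hbd : BddBelow P := ⟨0, fun S hS => hS.1⟩
  have h1 : 0 ≤ sInf P := le_csInf hne fun S hS => hS.1
  have h2 : ∀ j, a ≤ j → I j → |p j| + |q j| ≤ sInf P * (g j * (j : ℝ) ^ s) := fun j j1 j2 => by
    rw [← div_le_iff₀ (hG j j1)]
    exact le_csInf hne fun S hS => (div_le_iff₀ (hG j j1)).2 (hS.2 j j1 j2)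
  set S := 2 * S₀ + (B₀ + sInf P) / 3 with hS
  have h3 := grow (e := e) (x := x) (y := y) (p := p) (q := q) (A := A) (g := g) (I := I) (S := S)
    (B := e₀ * M * (B₀ + sInf P)) hκ hκ1 hs ha hI (fun n => (hg0 n).le) hg
    (fun n n1 n2 => by
      obtain ⟨k1, k2, k3, k4, k5, k6⟩ := h n n1 n2
      refine ⟨k1, k2, k3, k4, k5, ?_⟩
      calc e n * A n ≤ e₀ * (M * (B₀ + sInf P) * (g n * (n : ℝ) ^ s)) :=
            mul_le_mul k6 (hA _ h1 h2 n n1 n2) k1.A_nonneg (k5.trans k6)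
        _ = _ := by ring)
    (by
      have := mul_le_mul_of_nonneg_right he₀ (add_nonneg hB₀ h1)
      have := mul_nonneg hκ.le hS₀
      rw [hS]; linarith)
    (by positivity)
    (by
      have := mul_nonneg (add_nonneg hB₀ h1) (hG a le_rfl).le
      have := mul_nonneg hS₀ (hG a le_rfl).le
      rw [hS]; linarith [abs_nonneg (q a)])
    (by
      have := mul_nonneg (add_nonneg hB₀ h1) (hG a le_rfl).le
      rw [hS]; linarith [abs_nonneg (p a)])
  have h4 : sInf P ≤ 3 / 2 * S := csInf_le hbd ⟨by positivity, fun j j1 j2 => by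
    obtain ⟨k1, k2⟩ := h3 j j1 j2
    linarith⟩
  intro n n1 n2
  exact (h2 n n1 n2).trans (mul_le_mul_of_nonneg_right (by linarith) (hG n n1).le)

/-- damped recursion `f (n+1) = (1 - 2/n) f n + O(n^(t-1))` -/
theorem damp {f : ℕ → ℝ} {t : ℝ} (ht : -1 ≤ t)
    (h : (fun n => f (n + 1) - (1 - 2 / (n : ℝ)) * f n) =O[atTop] pw (t - 1)) : f =O[atTop] pw t := by
  obtain ⟨c, hc, m, hm, h⟩ := bigO_iff.1 h
  have hm2 : (0 : ℝ) < ((m + 2 : ℕ) : ℝ) ^ t := Real.rpow_pos_of_pos (by positivity) _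
  set S := c + |f (m + 2)| / ((m + 2 : ℕ) : ℝ) ^ t with hS
  have hS0 : c ≤ S := le_add_of_nonneg_right (by positivity)
  refine bigO_iff.2 ⟨S, hc.trans hS0, m + 2, by omega, fun n hn => ?_⟩
  induction n, hn using Nat.le_induction with
  | base => rw [hS, add_mul, div_mul_cancel₀ _ hm2.ne']; exact le_add_of_nonneg_left (by positivity)
  | succ n hn ih =>
    have h1 := h n (by omega)
    have hn2 : (2 : ℝ) ≤ n := by exact_mod_cast (show 2 ≤ n by omega)
    have hn0 : (0 : ℝ) < n := by linarith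
    have h2 : |f (n + 1)| ≤ |f (n + 1) - (1 - 2 / (n : ℝ)) * f n| + (1 - 2 / (n : ℝ)) * |f n| := by
      have := abs_add_le (f (n + 1) - (1 - 2 / (n : ℝ)) * f n) ((1 - 2 / (n : ℝ)) * f n)
      rwa [sub_add_cancel, abs_mul,
        abs_of_nonneg (show 0 ≤ 1 - 2 / (n : ℝ) by rw [sub_nonneg, div_le_one hn0]; exact hn2)] at this
    have h3 : (1 - 2 / (n : ℝ)) * |f n| ≤ (1 - 2 / (n : ℝ)) * (S * (n : ℝ) ^ t) :=
      mul_le_mul_of_nonneg_left ih (by rw [sub_nonneg, div_le_one hn0]; exact hn2)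
    have h4 : (n : ℝ) ^ t * (1 - 1 / n) ≤ ((n + 1 : ℕ) : ℝ) ^ t := by
      have e1 : ((n + 1 : ℕ) : ℝ) ^ t = (n : ℝ) ^ t * (1 + 1 / n) ^ t := by
        rw [← Real.mul_rpow hn0.le (by positivity)]; congr 1; push_cast; field_simp
      rw [e1]
      refine mul_le_mul_of_nonneg_left ?_ (by positivity)
      refine le_trans ?_ (Real.rpow_le_rpow_of_exponent_le (le_add_of_nonneg_right (by positivity)) ht)
      rw [Real.rpow_neg_one, ← one_div, le_div_iff₀ (by positivity)]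
      nlinarith [sq_nonneg (1 / (n : ℝ))]
    have h5 : (n : ℝ) ^ (t - 1) = (n : ℝ) ^ t * (1 / n) := by
      rw [Real.rpow_sub_one hn0.ne']; ring
    have h6 : c * ((n : ℝ) ^ t * (1 / n)) ≤ S * ((n : ℝ) ^ t * (1 / n)) := by gcongr
    have h7 := mul_le_mul_of_nonneg_left h4 (hc.trans hS0)
    rw [h5] at h1
    have e2 : (2 : ℝ) / n = 2 * (1 / n) := by ring
    rw [e2] at h1 h2 h3
    linarith

end Crest.Agent.T145.KT
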