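import Crest.Agent.T145.KtC_54

/-!
# Row 145 (helper54): the discrete Kosterlitz-Thouless flow, part F (from windows to single steps)
-/

set_option autoImplicit false

namespace Crest.Agent.T145.KT

open Filter Topology Finset

/-- the start of the window containing `n` (windows `[k, k + m k)` from `a` on) -/
def wst (a : ℕ) (m : ℕ → ℕ) : ℕ → ℕ
  | 0 => 0
  | n + 1 => if n + 1 ≤ a ∨ n + 1 = wst a m n + m (wst a m n) then n + 1 else wst a m n

theorem wst_spec {a : ℕ} {m : ℕ → ℕ} (hm : ∀ k, 1 ≤ m k) (n : ℕ) (hn : a ≤ n) :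
    a ≤ wst a m n ∧ wst a m n ≤ n ∧ n < wst a m n + m (wst a m n) := by
  induction n, hn using Nat.le_induction with
  | base =>
    have : wst a m a = a := by cases a <;> simp [wst]
    rw [this]; have := hm a; omega
  | succ n hn ih =>
    rw [wst]
    split_ifs with h
    · have := hm (n + 1); omega
    · omega

theorem wst_self (a : ℕ) (m : ℕ → ℕ) : wst a m a = a := by cases a <;> simp [wst]

/-- the window error -/
noncomputable def wer (f x : ℕ → ℝ) (k n : ℕ) : ℝ := f n - f k + ∑ j ∈ Ico k n, x j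

/-- spreading the window error evenly over the window -/
noncomputable def wsm (a : ℕ) (m : ℕ → ℕ) (b f x : ℕ → ℝ) (n : ℕ) : ℝ :=
  f n - wer f x (wst a m n) n + ((n : ℝ) - wst a m n) *
    (max (-b (wst a m n)) (min (b (wst a m n))
      (wer f x (wst a m n) (wst a m n + m (wst a m n)))) / m (wst a m n))

theorem wsm_self (a : ℕ) (m : ℕ → ℕ) (b f x : ℕ → ℝ) : wsm a m b f x a = f a := by
  simp [wsm, wst_self, wer]

theorem abs_clamp_le {b : ℝ} (hb : 0 ≤ b) (t : ℝ) : |max (-b) (min b t)| ≤ b :=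
  abs_le.2 ⟨le_max_left _ _, max_le (by linarith) (min_le_left _ _)⟩

theorem wsm_close {a : ℕ} {m : ℕ → ℕ} (hm : ∀ k, 1 ≤ m k) {b f x : ℕ → ℝ} {n : ℕ} (hn : a ≤ n)
    (h : |wer f x (wst a m n) n| ≤ b (wst a m n)) : |wsm a m b f x n - f n| ≤ 2 * b (wst a m n) := by
  obtain ⟨-, h2, h3⟩ := wst_spec hm n hn
  rw [wsm]
  generalize wst a m n = k at *
  have hb : 0 ≤ b k := (abs_nonneg _).trans h
  have hm0 : (0 : ℝ) < m k := by exact_mod_cast hm k
  have h4 : (0 : ℝ) ≤ (n : ℝ) - k := sub_nonneg.2 (by exact_mod_cast h2)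
  have h5 : (n : ℝ) - k ≤ m k := by
    have : (n : ℝ) < k + m k := by exact_mod_cast h3
    linarith
  have h6 : |((n : ℝ) - k) * (max (-b k) (min (b k) (wer f x k (k + m k))) / m k)| ≤ b k := by
    rw [abs_mul, abs_div, abs_of_nonneg h4, abs_of_pos hm0]
    calc _ ≤ m k * (b k / m k) := by gcongr; exact abs_clamp_le hb _
      _ = _ := by field_simp
  have := abs_le.1 h
  have := abs_le.1 h6
  rw [abs_le]; constructor <;> linarith

theorem wsm_step {a : ℕ} {m : ℕ → ℕ} (hm : ∀ k, 1 ≤ m k) {b f x : ℕ → ℝ} {n : ℕ} (hn : a ≤ n)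
    (h : |wer f x (wst a m n) (n + 1)| ≤ b (wst a m n)) :
    |wsm a m b f x (n + 1) - wsm a m b f x n + x n| ≤ b (wst a m n) / m (wst a m n) := by
  obtain ⟨-, h2, h3⟩ := wst_spec hm n hn
  have hb : 0 ≤ b (wst a m n) := (abs_nonneg _).trans h
  have hm0 : (0 : ℝ) < m (wst a m n) := by exact_mod_cast hm _
  have key : wsm a m b f x (n + 1) - wsm a m b f x n + x n =
      max (-b (wst a m n)) (min (b (wst a m n))
        (wer f x (wst a m n) (wst a m n + m (wst a m n)))) / m (wst a m n) := by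
    by_cases hc : n + 1 = wst a m n + m (wst a m n)
    · have e1 : wst a m (n + 1) = n + 1 := by rw [wst, if_pos (Or.inr hc)]
      have e2 : (m (wst a m n) : ℝ) = n + 1 - wst a m n := by
        have : ((n + 1 : ℕ) : ℝ) = wst a m n + m (wst a m n) := by exact_mod_cast hc
        push_cast at this; linarith
      simp only [wsm, e1, ← hc]
      rw [min_eq_right (abs_le.1 h).2, max_eq_right (abs_le.1 h).1]
      simp only [wer, sum_Ico_succ_top h2, Ico_self, sum_empty, sub_self, zero_mul]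
      rw [e2] at hm0 ⊢
      field_simp; ring
    · have e1 : wst a m (n + 1) = wst a m n := by rw [wst, if_neg (by omega)]
      simp only [wsm, e1, wer, sum_Ico_succ_top h2]
      push_cast; ring
  rw [key, abs_div, abs_of_pos hm0]
  gcongr
  exact abs_clamp_le hb _

/-- the window length `⌊η ^ (-d)⌋` -/
noncomputable def wlen (d η : ℝ) : ℕ := max 1 ⌊η ^ (-d)⌋₊

theorem one_le_wlen (d η : ℝ) : 1 ≤ wlen d η := le_max_left _ _

theorem wlen_mul_le {d η : ℝ} (hd : 0 ≤ d) (h0 : 0 < η) (h1 : η ≤ 1) : wlen d η * η ^ d ≤ 1 := by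
  have h2 : 1 ≤ η ^ (-d) := Real.one_le_rpow_of_pos_of_le_one_of_nonpos h0 h1 (by linarith)
  have h3 : (wlen d η : ℝ) ≤ η ^ (-d) := by
    rw [wlen, max_eq_right (Nat.le_floor (by simpa using h2))]
    exact Nat.floor_le (by positivity)
  calc _ ≤ η ^ (-d) * η ^ d := by gcongr
    _ = 1 := by rw [← Real.rpow_add h0]; simp

theorem div_wlen_le {d η b : ℝ} (h0 : 0 < η) (hb : 0 ≤ b) : b / wlen d η ≤ 2 * b * η ^ d := by
  have h1 : η ^ (-d) ≤ 2 * wlen d η := by
    have a1 := Nat.lt_floor_add_one (η ^ (-d))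
    have a2 : (⌊η ^ (-d)⌋₊ : ℝ) ≤ wlen d η := by exact_mod_cast le_max_right _ _
    have a3 : (1 : ℝ) ≤ wlen d η := by exact_mod_cast one_le_wlen d η
    linarith
  have h2 : (0 : ℝ) < wlen d η := by exact_mod_cast one_le_wlen d η
  have h3 : 0 < η ^ d := Real.rpow_pos_of_pos h0 d
  rw [Real.rpow_neg h0.le, inv_le_iff_one_le_mul₀ h3] at h1
  rw [div_le_iff₀ h2]
  nlinarith

/-- the flow in window form, valid up to the horizon `I` as long as the orbit stays in the ball `ε` -/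
structure Win (C δ γ d ε : ℝ) (x y : ℕ → ℝ) (a : ℕ) (I : ℕ → Prop) : Prop where
  pos : ∀ n, a ≤ n → I n → (∀ j, a ≤ j → j < n → |x j| + y j ≤ ε) → 0 < y n
  hx : ∀ n, a ≤ n → I (n + 1) → (∀ j, a ≤ j → j ≤ n → |x j| + y j ≤ ε) →
    |x (n + 1) - x n + y n ^ 2| ≤ C * (|x n| + y n) ^ δ * y n ^ 2
  hy : ∀ k n, a ≤ k → k ≤ n → I n → (∀ j, a ≤ j → j < n → |x j| + y j ≤ ε) →
    ((n : ℝ) - k) * (|x k| + y k) ^ d ≤ 1 →
      |wer (fun j => Real.log (y j)) x k n| ≤ C * (|x k| + y k) ^ γ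

/-- smallness of the ball -/
structure Sm (C δ γ d ε : ℝ) : Prop where
  C0 : 0 ≤ C
  δ0 : 0 ≤ δ
  γ0 : 0 ≤ γ
  d0 : 0 ≤ d
  d1 : d ≤ 1
  ε1 : ε ≤ 1
  s1 : C * ε ^ δ ≤ 1 / 100
  s2 : C * ε ^ γ ≤ 1 / 100
  s3 : ε ^ (1 - d) ≤ 1 / 100

theorem exists_sm {C δ γ d : ℝ} (hC : 0 ≤ C) (hδ : 0 < δ) (hγ : 0 < γ) (hd : 0 ≤ d) (hd1 : d < 1) :
    ∃ ε₀, 0 < ε₀ ∧ ∀ ε, 0 ≤ ε → ε ≤ ε₀ → Sm C δ γ d ε := by
  obtain ⟨a, ha, h1⟩ := exists_om_le C hδ (show (0 : ℝ) < 1 / 100 by norm_num)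
  obtain ⟨b, hb, h2⟩ := exists_om_le C hγ (show (0 : ℝ) < 1 / 100 by norm_num)
  obtain ⟨c, hc, h3⟩ := exists_om_le 1 (sub_pos.2 hd1) (show (0 : ℝ) < 1 / 100 by norm_num)
  refine ⟨min (min a b) (min c 1), by positivity, fun ε h0 h => ?_⟩
  simp only [le_min_iff] at h
  have := h1 ε h0 h.1.1
  have := h2 ε h0 h.1.2
  have := h3 ε h0 h.2.1
  simp only [om] at *
  exact ⟨hC, hδ.le, hγ.le, hd, hd1.le, h.2.2, by linarith, by linarith, by linarith⟩

variable {C δ γ d ε : ℝ} {x y : ℕ → ℝ} {a : ℕ} {I : ℕ → Prop}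

theorem exp_close {t : ℝ} (h : |t| ≤ 1 / 20) : |Real.exp t - 1| ≤ 2 * |t| :=
  Real.abs_exp_sub_one_le (h.trans (by norm_num))

theorem close_of_log {u v b : ℝ} (hu : 0 < u) (hv : 0 < v) (h : |Real.log u - Real.log v| ≤ b)
    (hb : b ≤ 1 / 20) : |u - v| ≤ 2 * b * v := by
  have e : u - v = (Real.exp (Real.log u - Real.log v) - 1) * v := by
    rw [Real.exp_sub, Real.exp_log hu, Real.exp_log hv]; field_simp
  rw [e, abs_mul, abs_of_pos hv]
  exact mul_le_mul_of_nonneg_right ((exp_close (h.trans hb)).trans (by linarith)) hv.le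

/-- the size is almost constant on a window -/
theorem Win.comp (W : Win C δ γ d ε x y a I) (S : Sm C δ γ d ε) (hI : ∀ n, I (n + 1) → a ≤ n → I n)
    {k : ℕ} (hk : a ≤ k) (n : ℕ) (hn : k ≤ n) (hIn : I n)
    (hε : ∀ j, a ≤ j → j < n → |x j| + y j ≤ ε) (hεk : |x k| + y k ≤ ε)
    (hw : ((n : ℝ) - k) * (|x k| + y k) ^ d ≤ 1) :
    |x n - x k| ≤ (|x k| + y k) / 50 ∧ |y n - y k| ≤ y k / 10 := by
  have hIk : ∀ j, k ≤ j → j ≤ n → I j := fun j h1 h2 => by
    induction h2 using Nat.decreasingInduction with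
    | self => exact hIn
    | of_succ i hi ih => exact hI i (ih (by omega)) (by omega)
  have hyk := W.pos k hk (hIk k le_rfl hn) fun j h1 h2 => hε j h1 (by omega)
  set η := |x k| + y k with hη
  have hη0 : 0 < η := add_pos_of_nonneg_of_pos (abs_nonneg _) hyk
  have hd : 0 < η ^ d := Real.rpow_pos_of_pos hη0 d
  have hs : η ≤ 1 / 100 * η ^ d := by
    have h1 : η = η ^ (1 - d) * η ^ d := by rw [← Real.rpow_add hη0]; simp
    have h2 : η ^ (1 - d) ≤ 1 / 100 :=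
      (Real.rpow_le_rpow hη0.le hεk (by linarith [S.d1])).trans S.s3
    conv_lhs => rw [h1]
    gcongr
  induction n using Nat.strong_induction_on with
  | _ n ih =>
  have hj : ∀ j, k ≤ j → j < n → |x j - x k| ≤ η / 50 ∧ |y j - y k| ≤ y k / 10 := fun j h1 h2 =>
    ih j h2 h1 (hIk j h1 h2.le) (fun i h3 h4 => hε i h3 (by omega))
      (fun i h3 h4 => hIk i h3 (by omega)) (le_trans (by gcongr) hw)
  have hnk : (0 : ℝ) ≤ (n : ℝ) - k := sub_nonneg.2 (by exact_mod_cast hn)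
  have hcard : ((Ico k n).card : ℝ) = (n : ℝ) - k := by rw [Nat.card_Ico, Nat.cast_sub hn]
  have hnη : ((n : ℝ) - k) * η ≤ 1 / 100 := by nlinarith
  constructor
  · have e : x n - x k = ∑ j ∈ Ico k n, (x (j + 1) - x j) := (sum_Ico_sub x hn).symm
    rw [e]
    refine (abs_sum_le_sum_abs _ _).trans ((sum_le_card_nsmul _ _ (2 * η * η) fun j hj' => ?_).trans ?_)
    · obtain ⟨h1, h2⟩ := mem_Ico.1 hj'
      have a1 := W.hx j (hk.trans h1) (hIk _ (by omega) h2) fun i h3 h4 => hε i h3 (by omega)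
      have a0 := W.pos j (hk.trans h1) (hIk _ h1 h2.le) fun i h3 h4 => hε i h3 (by omega)
      have a2 : C * (|x j| + y j) ^ δ ≤ 1 / 100 := le_trans (mul_le_mul_of_nonneg_left
        (Real.rpow_le_rpow (by positivity) (hε j (hk.trans h1) h2) S.δ0) S.C0) S.s1
      have a3 : C * (|x j| + y j) ^ δ * y j ^ 2 ≤ 1 / 100 * y j ^ 2 := by gcongr
      have a4 := (abs_le.1 (hj j h1 h2).2).2
      have a5 : y j ^ 2 ≤ (11 / 10 * η) ^ 2 := by gcongr; linarith [abs_nonneg (x k)]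
      have := abs_le.1 (a1.trans a3)
      rw [abs_le]; constructor <;> nlinarith [sq_nonneg (y j)]
    · rw [nsmul_eq_mul, hcard]; nlinarith
  · have a1 := W.hy k n hk hn hIn hε hw
    have a2 : C * η ^ γ ≤ 1 / 100 := le_trans (mul_le_mul_of_nonneg_left
      (Real.rpow_le_rpow hη0.le hεk S.γ0) S.C0) S.s2
    have a3 : |∑ j ∈ Ico k n, x j| ≤ 1 / 50 := by
      refine (abs_sum_le_sum_abs _ _).trans ((sum_le_card_nsmul _ _ (2 * η) fun j hj' => ?_).trans ?_)
      · obtain ⟨h1, h2⟩ := mem_Ico.1 hj'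
        have := abs_add_le (x j - x k) (x k)
        rw [sub_add_cancel] at this
        linarith [(hj j h1 h2).1]
      · rw [nsmul_eq_mul, hcard]; linarith
    have a4 : |Real.log (y n) - Real.log (y k)| ≤ 1 / 20 := by
      have := abs_le.1 (a1.trans a2)
      have := abs_le.1 a3
      simp only [wer] at *
      rw [abs_le]; constructor <;> linarith
    exact (close_of_log (W.pos n (hk.trans hn) hIn hε) hyk a4 le_rfl).trans (by linarith)

/-- the smoothed fugacity -/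
noncomputable def ysm (C γ d : ℝ) (x y : ℕ → ℝ) (a : ℕ) (n : ℕ) : ℝ :=
  Real.exp (wsm a (fun k => wlen d (|x k| + y k)) (fun k => C * (|x k| + y k) ^ γ)
    (fun j => Real.log (y j)) x n)

theorem ysm_pos (C γ d : ℝ) (x y : ℕ → ℝ) (a n : ℕ) : 0 < ysm C γ d x y a n := Real.exp_pos _

theorem ysm_self (C γ d : ℝ) (x : ℕ → ℝ) {y : ℕ → ℝ} {a : ℕ} (h : 0 < y a) :
    ysm C γ d x y a a = y a := by rw [ysm, wsm_self, Real.exp_log h]

theorem Sm.ε2 (S : Sm C δ γ d ε) (h0 : 0 ≤ ε) : ε ≤ 1 / 100 := by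
  refine le_trans ?_ S.s3
  conv_lhs => rw [← Real.rpow_one ε]
  exact Real.rpow_le_rpow_of_exponent_ge' h0 S.ε1 (by linarith [S.d1]) (by linarith [S.d0])

/-- the data of the window containing `n` -/
theorem Win.window (W : Win C δ γ d ε x y a I) (S : Sm C δ γ d ε) (hI : ∀ n, I (n + 1) → a ≤ n → I n)
    {n : ℕ} (hn : a ≤ n) {n' : ℕ} (h1 : n ≤ n') (h2 : n' ≤ n + 1) (hIn : I n')
    (hε : ∀ j, a ≤ j → j < n' → |x j| + y j ≤ ε) {k : ℕ}
    (hk : k = wst a (fun k => wlen d (|x k| + y k)) n) (hk' : k < n') :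
    |wer (fun j => Real.log (y j)) x k n'| ≤ C * (|x k| + y k) ^ γ ∧
      0 < |x k| + y k ∧ |x k| + y k ≤ ε ∧ |x k| + y k ≤ 6 / 5 * (|x n'| + y n') := by
  obtain ⟨k1, k2, k3⟩ := wst_spec (a := a) (m := fun k => wlen d (|x k| + y k))
    (fun k => one_le_wlen _ _) n hn
  rw [← hk] at k1 k2 k3
  have hIk : ∀ j, k ≤ j → j ≤ n' → I j := fun j h1 h2 => by
    induction h2 using Nat.decreasingInduction with
    | self => exact hIn
    | of_succ i hi ih => exact hI i (ih (by omega)) (by omega)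
  have hyk := W.pos k k1 (hIk k le_rfl hk'.le) fun j h1 h2 => hε j h1 (by omega)
  have hη0 : 0 < |x k| + y k := add_pos_of_nonneg_of_pos (abs_nonneg _) hyk
  have hεk := hε k k1 hk'
  have hw : ((n' : ℝ) - k) * (|x k| + y k) ^ d ≤ 1 := by
    refine le_trans ?_ (wlen_mul_le S.d0 hη0 (hεk.trans S.ε1))
    have : (n' : ℝ) ≤ k + wlen d (|x k| + y k) := by exact_mod_cast (show n' ≤ _ by omega)
    gcongr; linarith
  obtain ⟨c1, c2⟩ := W.comp S hI k1 n' hk'.le hIn hε hεk hw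
  refine ⟨W.hy k n' k1 hk'.le hIn hε hw, hη0, hεk, ?_⟩
  have := abs_sub (x n') (x n' - x k)
  rw [sub_sub_cancel] at this
  linarith [(abs_le.1 c2).1, abs_nonneg (x k)]

/-- the smoothed fugacity is close to the true one -/
theorem Win.close (W : Win C δ γ d ε x y a I) (S : Sm C δ γ d ε) (hI : ∀ n, I (n + 1) → a ≤ n → I n)
    {n : ℕ} (hn : a ≤ n) (hIn : I n) (hε : ∀ j, a ≤ j → j < n → |x j| + y j ≤ ε) :
    ∃ b, 0 ≤ b ∧ b ≤ 1 / 100 ∧ b ≤ C * (6 / 5 * (|x n| + y n)) ^ γ ∧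
      |Real.log (ysm C γ d x y a n) - Real.log (y n)| ≤ 2 * b ∧
      |ysm C γ d x y a n - y n| ≤ 4 * b * y n := by
  have hy := W.pos n hn hIn hε
  obtain ⟨k, hk⟩ : ∃ k, k = wst a (fun k => wlen d (|x k| + y k)) n := ⟨_, rfl⟩
  have k2 := (wst_spec (a := a) (m := fun k => wlen d (|x k| + y k))
    (fun k => one_le_wlen _ _) n hn).2.1
  rw [← hk] at k2
  rcases k2.lt_or_eq with k3 | k3
  · obtain ⟨w1, w2, w3, w4⟩ := W.window S hI hn le_rfl n.le_succ hIn hε hk k3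
    have b1 : C * (|x k| + y k) ^ γ ≤ 1 / 100 := le_trans (mul_le_mul_of_nonneg_left
      (Real.rpow_le_rpow w2.le w3 S.γ0) S.C0) S.s2
    have b2 : |Real.log (ysm C γ d x y a n) - Real.log (y n)| ≤ 2 * (C * (|x k| + y k) ^ γ) := by
      rw [ysm, Real.log_exp, hk]
      exact wsm_close (b := fun k => C * (|x k| + y k) ^ γ) (f := fun j => Real.log (y j))
        (fun k => one_le_wlen _ _) hn (by rw [← hk]; exact w1)
    exact ⟨_, (abs_nonneg _).trans w1, b1,
      mul_le_mul_of_nonneg_left (Real.rpow_le_rpow w2.le w4 S.γ0) S.C0, b2,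
      (close_of_log (ysm_pos ..) hy b2 (by linarith)).trans (le_of_eq (by ring))⟩
  · have e : ysm C γ d x y a n = y n := by
      rw [ysm, wsm, ← hk, k3]; simp [wer, Real.exp_log hy]
    exact ⟨0, le_rfl, by norm_num, mul_nonneg S.C0 (by positivity), by simp [e], by simp [e]⟩

/-- windows give single steps for the smoothed fugacity -/
theorem Win.step (W : Win C δ γ d ε x y a I) (S : Sm C δ γ d ε) (hI : ∀ n, I (n + 1) → a ≤ n → I n)
    {δ' : ℝ} (h0 : 0 ≤ δ') (h1 : δ' ≤ 1) (h2 : δ' ≤ δ) (h3 : δ' ≤ γ) (h4 : 1 + δ' ≤ γ + d)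
    {n : ℕ} (hn : a ≤ n) (hIn : I (n + 1)) (hε : ∀ j, a ≤ j → j ≤ n → |x j| + y j ≤ ε) :
    Step (21 * C) δ' x (ysm C γ d x y a) n := by
  have hC := S.C0
  have hIn' := hI n hIn hn
  have hε' : ∀ j, a ≤ j → j < n → |x j| + y j ≤ ε := fun j h1 h2 => hε j h1 h2.le
  have hy := W.pos n hn hIn' hε'
  have hεn := hε n hn le_rfl
  have hx0 := abs_nonneg (x n)
  have hε2 := S.ε2 (by linarith)
  obtain ⟨b, b0, b1, b2, -, b4⟩ := W.close S hI hn hIn' hε'
  obtain ⟨k, hk⟩ : ∃ k, k = wst a (fun k => wlen d (|x k| + y k)) n := ⟨_, rfl⟩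
  have k2 := (wst_spec (a := a) (m := fun k => wlen d (|x k| + y k))
    (fun k => one_le_wlen _ _) n hn).2.1
  rw [← hk] at k2
  obtain ⟨w1, w2, w3, -⟩ := W.window S hI hn n.le_succ le_rfl hIn
    (fun j h1 h2 => hε j h1 (by omega)) hk (by omega)
  have w4 : |x k| + y k ≤ 6 / 5 * (|x n| + y n) := by
    rcases k2.lt_or_eq with k3 | k3
    · exact (W.window S hI hn le_rfl n.le_succ hIn' hε' hk k3).2.2.2
    · rw [k3]; linarith
  have hs := wsm_step (b := fun k => C * (|x k| + y k) ^ γ) (f := fun j => Real.log (y j)) (x := x)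
    (m := fun k => wlen d (|x k| + y k)) (fun k => one_le_wlen _ _) hn (by rw [← hk]; exact w1)
  rw [← hk] at hs
  have hz := ysm_pos C γ d x y a n
  refine ⟨hz, ysm_pos .., ?_, ?_⟩ <;> generalize hzz : ysm C γ d x y a n = z at *
  all_goals
    have z1 := abs_le.1 b4
    have z2 : 4 * b * y n ≤ 4 * (1 / 100) * y n := by gcongr
    have hη : 0 < |x n| + z := by linarith
    have r : ∀ t s, 0 ≤ t → t ≤ 2 * (|x n| + z) → δ' ≤ s → t ^ s ≤ 2 * (|x n| + z) ^ δ' := by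
      intro t s t0 t1 t2
      calc t ^ s ≤ (2 * (|x n| + z)) ^ s := Real.rpow_le_rpow t0 t1 (h0.trans t2)
        _ ≤ (2 * (|x n| + z)) ^ δ' :=
            Real.rpow_le_rpow_of_exponent_ge (by linarith) (by linarith) t2
        _ = 2 ^ δ' * (|x n| + z) ^ δ' := Real.mul_rpow (by norm_num) hη.le
        _ ≤ 2 ^ (1 : ℝ) * (|x n| + z) ^ δ' := by gcongr; norm_num
        _ = _ := by rw [Real.rpow_one]
  · have a1 := W.hx n hn hIn hε
    have a2 := mul_le_mul_of_nonneg_left (r (|x n| + y n) δ (by linarith) (by linarith) h2) hC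
    have a3 := b2.trans (mul_le_mul_of_nonneg_left
      (r (6 / 5 * (|x n| + y n)) γ (by linarith) (by linarith) h3) hC)
    generalize (|x n| + z) ^ δ' = u at *
    have a4 : y n ^ 2 ≤ 109 / 100 * z ^ 2 := by nlinarith
    have a5 : |z ^ 2 - y n ^ 2| ≤ 4 * b * y n * (204 / 100 * y n) := by
      rw [sq_sub_sq, abs_mul, mul_comm]
      exact mul_le_mul b4 (by rw [abs_of_pos (by linarith)]; linarith) (abs_nonneg _) (by positivity)
    have a6 : C * (|x n| + y n) ^ δ * y n ^ 2 ≤ C * (2 * u) * (109 / 100 * z ^ 2) :=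
      mul_le_mul a2 a4 (by positivity) (b0.trans a3)
    have a7 : b * y n ^ 2 ≤ C * (2 * u) * (109 / 100 * z ^ 2) :=
      mul_le_mul a3 a4 (by positivity) (b0.trans a3)
    have a8 : 0 ≤ C * (2 * u) * z ^ 2 := mul_nonneg (b0.trans a3) (sq_nonneg z)
    have := abs_le.1 (a1.trans a6)
    have := abs_le.1 a5
    rw [abs_le]; constructor <;> nlinarith
  · rw [← hzz, ysm, ysm, Real.log_exp, Real.log_exp, ← ysm, hzz]
    refine hs.trans ((div_wlen_le w2 (by positivity)).trans ?_)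
    have e : (|x k| + y k) ^ γ * (|x k| + y k) ^ d = (|x k| + y k) ^ (γ + d - 1) * (|x k| + y k) := by
      rw [← Real.rpow_add w2, ← Real.rpow_add_one w2.ne']; ring_nf
    have a1 := r (|x k| + y k) (γ + d - 1) w2.le (by linarith) (by linarith)
    have a2 : (|x k| + y k) ^ (γ + d - 1) * (|x k| + y k) ≤
        2 * (|x n| + z) ^ δ' * (2 * (|x n| + z)) := by gcongr; linarith
    have a3 : 0 ≤ C * ((|x n| + z) ^ δ' * (|x n| + z)) := by positivity
    calc 2 * (C * (|x k| + y k) ^ γ) * (|x k| + y k) ^ d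
        = 2 * C * ((|x k| + y k) ^ γ * (|x k| + y k) ^ d) := by ring
      _ ≤ 2 * C * (2 * (|x n| + z) ^ δ' * (2 * (|x n| + z))) := by rw [e]; gcongr
      _ ≤ _ := by linarith

/-- a small smoothed orbit is a small orbit -/
theorem Win.small (W : Win C δ γ d ε x y a I) (S : Sm C δ γ d ε) (hI : ∀ n, I (n + 1) → a ≤ n → I n)
    (n : ℕ) (hIn : I n) (h : ∀ j, a ≤ j → j ≤ n → |x j| + ysm C γ d x y a j ≤ ε / 2) :
    ∀ j, a ≤ j → j ≤ n → |x j| + y j ≤ ε := by
  have hIk : ∀ j, a ≤ j → j ≤ n → I j := fun j h1 h2 => by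
    induction h2 using Nat.decreasingInduction with
    | self => exact hIn
    | of_succ i hi ih => exact hI i (ih (by omega)) (by omega)
  intro j
  induction j using Nat.strong_induction_on with
  | _ j ih =>
  intro h1 h2
  have hε : ∀ i, a ≤ i → i < j → |x i| + y i ≤ ε := fun i h3 h4 => ih i h4 h3 (by omega)
  obtain ⟨b, -, b1, -, -, b4⟩ := W.close S hI h1 (hIk j h1 h2) hε
  have hy := W.pos j h1 (hIk j h1 h2) hε
  have z2 : 4 * b * y j ≤ 4 * (1 / 100) * y j := by gcongr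
  linarith [(abs_le.1 b4).1, h j h1 h2, abs_nonneg (x j)]

theorem Win.val (W : Win C δ γ d ε x y a fun _ => True) (S : Sm C δ γ d ε)
    {δ' : ℝ} (h0 : 0 ≤ δ') (h1 : δ' ≤ 1) (h2 : δ' ≤ δ) (h3 : δ' ≤ γ) (h4 : 1 + δ' ≤ γ + d) :
    Val (21 * C) δ' (ε / 2) x (ysm C γ d x y a) a := fun n hn h =>
  W.step S (fun _ _ _ => trivial) h0 h1 h2 h3 h4 hn trivial
    (W.small S (fun _ _ _ => trivial) n trivial h)

end Crest.Agent.T145.KT
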