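import Crest.Agent.T145.KtH_54

/-!
# Row 145 (helper54): the discrete Kosterlitz-Thouless flow, part I (tools for the family theorem)
-/

set_option autoImplicit false

namespace Crest.Agent.T145.KT

open Filter Topology Finset Asymptotics Real

/-- exit time on a finite horizon -/
theorem exit_hor {C δ ε₀ ε₂ τ : ℝ} (hC : 0 ≤ C) (hδ : 0 < δ) (hε0 : 0 < ε₀) (hε₂ : 0 < ε₂)
    (hε : om C δ ε₀ ≤ 1 / 1000) (hτ : 0 < τ) :
    ∃ ρ, 0 < ρ ∧ ∀ (x y : ℕ → ℝ) (a K : ℕ) (l : ℝ), a ≤ K →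
      (∀ n, a ≤ n → n < K → Step C δ x y n ∧ |x n| + y n ≤ ε₀) → ε₂ ≤ |x K| + y K → 0 < l →
      l ≤ ρ * x a → x a ≤ ρ → om C δ (3 * x a) * x a ^ 2 ≤ ρ * l ^ 2 →
      |y a ^ 2 - x a ^ 2 - l ^ 2| ≤ ρ * l ^ 2 → |l * (K - a) - π| ≤ τ := by
  set ε := min ε₀ (ε₂ / 2) with hεd
  have ε0 : 0 < ε := by positivity
  obtain ⟨ρ₁, hρ₁, h⟩ := exit_time hC hδ ε0 ((om_mono hC hδ.le ε0.le (min_le_left _ _)).trans hε)
    (half_pos hτ)
  refine ⟨min (min ρ₁ (1 / 1000)) (τ * ε / 8), by positivity, ?_⟩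
  set ρ := min (min ρ₁ (1 / 1000)) (τ * ε / 8) with hρ
  have r0 : 0 < ρ := by positivity
  have r1 : ρ ≤ ρ₁ := (min_le_left _ _).trans (min_le_left _ _)
  have r2 : ρ ≤ 1 / 1000 := (min_le_left _ _).trans (min_le_right _ _)
  have r3 : ρ ≤ τ * ε / 8 := min_le_right _ _
  intro x y a K l haK hs hK hl h1 h2 h3 h4
  have hxa : 0 < x a := (mul_pos_iff_of_pos_left r0).1 (hl.trans_le h1)
  have hεK : ε < |x K| + y K := (min_le_right _ _).trans_lt (by linarith)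
  have l2 := sq_nonneg l
  obtain ⟨T, hT, hx, hlT⟩ := h x y a l
    (fun n hn hj => (hs n hn (not_le.1 fun hK' => absurd (hj K haK hK') (not_le.2 hεK))).1) hl
    (h1.trans (by gcongr)) (h2.trans r1) (h3.trans (by gcongr)) (h4.trans (by gcongr))
  have hTK : T ≤ K := not_lt.1 fun hl => absurd (hT.2.1 K haK hl) (not_le.2 hεK)
  have E : Ent C δ ρ l x y a := ⟨hl, by nlinarith, h3, h4⟩
  have a2 := (abs_le.1 (E.angle hC hδ.le r2 hε0.le hε hT.1 hTK hs)).1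
  have b3 := arctan_le_of_neg (show x T < 0 by linarith) hl
  have b5 := neg_pi_div_two_lt_arctan (x K / l)
  have c2 : l / -x T ≤ 3 * τ / 8 := by
    rw [div_le_iff₀ (by linarith)]
    have : l ≤ ρ := by nlinarith
    nlinarith
  have t2 : 0 ≤ l * ((K : ℝ) - T) := mul_nonneg hl.le (sub_nonneg.2 (by exact_mod_cast hTK))
  have d2 : 70 * (ρ + om C δ ε₀) * (l * ((K : ℝ) - T)) ≤ 70 * (2 / 1000) * (l * ((K : ℝ) - T)) := by
    gcongr; linarith
  have e : l * ((K : ℝ) - a) = l * ((T : ℝ) - a) + l * ((K : ℝ) - T) := by ring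
  have := abs_le.1 hlT
  rw [e, abs_le]; constructor <;> linarith

/-- the intermediate window of scales -/
theorem exists_window {κ δ : ℝ} (hκ : 0 < κ) (h : κ < δ) : ∃ N : ℝ → ℕ, Tendsto N (𝓝[>] 0) atTop ∧
    Tendsto (fun μ => μ * (N μ : ℝ) ^ (2 + κ)) (𝓝[>] 0) (𝓝 0) ∧
    Tendsto (fun μ => μ * (N μ : ℝ) ^ (2 + δ)) (𝓝[>] 0) atTop := by
  set σ := 1 / (2 + (κ + δ) / 2) with hσ
  have σ0 : 0 < σ := by rw [hσ]; apply one_div_pos.2; linarith
  have σ1 : σ * (2 + (κ + δ) / 2) = 1 := one_div_mul_cancel (by linarith)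
  have t : ∀ s : ℝ, 0 < s → Tendsto (fun μ : ℝ => μ ^ (-s)) (𝓝[>] 0) atTop := fun s hs =>
    tendsto_rpow_neg_nhdsGT_zero (by linarith)
  refine ⟨fun μ => ⌈μ ^ (-σ)⌉₊, tendsto_nat_ceil_atTop.comp (t σ σ0), ?_, ?_⟩
  · have h0 : 0 < 1 - σ * (2 + κ) := by nlinarith
    have h1 := ((Real.continuous_rpow_const h0.le).tendsto 0).const_mul ((2 : ℝ) ^ (2 + κ))
    rw [Real.zero_rpow h0.ne', mul_zero] at h1
    refine squeeze_zero' (eventually_mem_nhdsWithin.mono fun μ (hμ : 0 < μ) => by positivity) ?_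
      (h1.mono_left nhdsWithin_le_nhds)
    filter_upwards [eventually_mem_nhdsWithin, (t σ σ0).eventually_ge_atTop 1] with μ (hμ : 0 < μ) h2
    have h3 : (⌈μ ^ (-σ)⌉₊ : ℝ) ≤ 2 * μ ^ (-σ) := by
      linarith [Nat.ceil_lt_add_one (show 0 ≤ μ ^ (-σ) by positivity)]
    calc μ * (⌈μ ^ (-σ)⌉₊ : ℝ) ^ (2 + κ) ≤ μ * (2 * μ ^ (-σ)) ^ (2 + κ) := by gcongr
      _ = _ := by
        rw [Real.mul_rpow (by norm_num) (by positivity), ← Real.rpow_mul hμ.le, sub_eq_add_neg,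
          Real.rpow_add hμ, Real.rpow_one, neg_mul]
        ring
  · refine tendsto_atTop_mono' _ ?_ (t (σ * (2 + δ) - 1) (by nlinarith))
    filter_upwards [eventually_mem_nhdsWithin] with μ (hμ : 0 < μ)
    calc μ ^ (-(σ * (2 + δ) - 1)) = μ * (μ ^ (-σ)) ^ (2 + δ) := by
          rw [← Real.rpow_mul hμ.le, neg_sub, sub_eq_add_neg, Real.rpow_add hμ, Real.rpow_one, neg_mul]
      _ ≤ _ := by gcongr; linarith; exact Nat.le_ceil _

theorem eventually_geom {θ : ℝ} (h0 : 0 ≤ θ) (h1 : θ < 1) (c : ℝ) (r : ℕ) :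
    ∀ᶠ n : ℕ in atTop, c * (n : ℝ) ^ r * θ ^ (n / 20 - 1) ≤ 1 / (n : ℝ) ^ 3 := by
  have t1 := (tendsto_pow_const_mul_const_pow_of_abs_lt_one (r + 3)
    (show |θ| < 1 by rwa [abs_of_nonneg h0])).const_mul (|c| * 60 ^ (r + 3))
  rw [mul_zero] at t1
  have t2 : Tendsto (fun n : ℕ => n / 20 - 1) atTop atTop :=
    tendsto_atTop.2 fun b => (eventually_ge_atTop (20 * (b + 1))).mono fun n hn => by omega
  filter_upwards [t2.eventually (t1.eventually (ge_mem_nhds one_pos)), eventually_ge_atTop 40]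
    with n hn hn1
  have n0 : (0 : ℝ) < n := by exact_mod_cast (show 0 < n by omega)
  have h2 : (n : ℝ) ≤ 60 * (n / 20 - 1 : ℕ) := by exact_mod_cast (show n ≤ 60 * (n / 20 - 1) by omega)
  rw [le_div_iff₀ (by positivity)]
  calc c * (n : ℝ) ^ r * θ ^ (n / 20 - 1) * (n : ℝ) ^ 3
      = c * ((n : ℝ) ^ (r + 3) * θ ^ (n / 20 - 1)) := by ring
    _ ≤ |c| * ((60 * ((n / 20 - 1 : ℕ) : ℝ)) ^ (r + 3) * θ ^ (n / 20 - 1)) := by
        gcongr; exact le_abs_self c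
    _ = _ := by ring
    _ ≤ 1 := hn

/-- comparison of a finite-volume orbit with the critical orbit -/
theorem crit_cmp {e x y x' y' E X Y X' Y' t : ℝ} (s : St e x y x' y') (S : St E X Y X' Y')
    (ht : 2 ≤ t) (he : e ≤ 1 / 100) (hE : E ≤ 1 / 100) (h1 : |x - X| ≤ 1 / t ^ 3)
    (h2 : |x' - X'| ≤ 1 / t ^ 3) (hX : |X| ≤ 3 / 2 / t) (hY : Y ≤ 3 / 2 / t) :
    |x| + y ≤ 4 / t ∧ |x ^ 2 - y ^ 2 - (X ^ 2 - Y ^ 2)| ≤ (4 * e + 4 * E) / t ^ 2 + 6 / t ^ 3 := by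
  obtain ⟨u, hu⟩ : ∃ u, u = 1 / t := ⟨_, rfl⟩
  have u0 : 0 < u := by rw [hu]; positivity
  have u1 : u ≤ 1 / 2 := by rw [hu, div_le_iff₀ (by linarith)]; linarith
  have e1 : 1 / t ^ 3 = u ^ 3 := by rw [hu]; ring
  have e2 : 3 / 2 / t = 3 / 2 * u := by rw [hu]; ring
  have e3 : 4 / t = 4 * u := by rw [hu]; ring
  have e4 : (4 * e + 4 * E) / t ^ 2 + 6 / t ^ 3 = (4 * e + 4 * E) * u ^ 2 + 6 * u ^ 3 := by
    rw [hu]; ring
  rw [e1] at h1 h2
  rw [e2] at hX hY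
  rw [e3, e4]
  have a1 := abs_le.1 h1
  have a2 := abs_le.1 h2
  have a3 := abs_le.1 s.hx
  have a4 := abs_le.1 S.hx
  have e0 := s.e_nonneg
  have E0 := S.e_nonneg
  have u2 : 0 < u ^ 2 := by positivity
  have u3 : u ^ 3 ≤ u ^ 2 / 2 := by nlinarith
  have u4 : u ^ 2 ≤ u / 2 := by nlinarith
  have Y2 : Y ^ 2 ≤ 9 / 4 * u ^ 2 := by nlinarith [S.pos]
  have b1 : e * y ^ 2 ≤ 1 / 100 * y ^ 2 := by gcongr
  have b2 : E * Y ^ 2 ≤ 1 / 100 * Y ^ 2 := by gcongr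
  have y2 : y ^ 2 ≤ (2 * u) ^ 2 := by nlinarith
  have y1 : y ≤ 2 * u := (abs_le_of_sq_le_sq' y2 (by positivity)).2
  have x1 : |x| ≤ 2 * u := by
    have := abs_add_le (x - X) X
    rw [sub_add_cancel] at this; linarith
  refine ⟨by linarith, ?_⟩
  have b3 : e * y ^ 2 ≤ e * (2 * u) ^ 2 := by gcongr
  have b4 : E * Y ^ 2 ≤ E * (4 * u ^ 2) := by gcongr; linarith
  have b5 : |x ^ 2 - X ^ 2| ≤ 4 * u ^ 3 := by
    rw [sq_sub_sq, abs_mul]
    have := abs_add_le x X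
    calc _ ≤ 4 * u ^ 3 := mul_le_mul (by linarith) h1 (abs_nonneg _) (by norm_num)
      _ = _ := rfl
  have := abs_le.1 b5
  rw [abs_le]; constructor <;> linarith

/-- Riccati comparison with a relative error in the invariant -/
theorem ric_close {e x y : ℕ → ℝ} {m N : ℕ} {w κ : ℝ} (hm : 1 ≤ m) (hκ : 0 < κ) (hκ1 : κ ≤ 1)
    (hw : w ≤ κ / 1000) (hw0 : 0 ≤ w) (hxm : |x m - 1 / m| ≤ κ / 50 / m)
    (h : ∀ n, m ≤ n → n < N → St (e n) (x n) (y n) (x (n + 1)) (y (n + 1)) ∧ e n + (|x n| + y n) ≤ w)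
    (hD : ∀ n, m ≤ n → n ≤ N → |x n ^ 2 - y n ^ 2| ≤ κ / 800 / (n : ℝ) ^ 2 + w * (|x n| + y n) ^ 2) :
    ∀ n, m ≤ n → n ≤ N → |x n - 1 / n| ≤ κ / 8 / n ∧ y n ≤ (1 + κ / 8) / n := by
  have rel : ∀ n, m ≤ n → n ≤ N → 0 < x n → |1 / x n - n| ≤ κ / 24 * n →
      |x n ^ 2 - y n ^ 2| ≤ (κ / 200 + 9 / 2 * w) * x n ^ 2 := fun n h1 h2 i1 i2 => by
    have hn0 : (1 : ℝ) ≤ n := by exact_mod_cast hm.trans h1
    have a1 : 1 / x n ≤ 2 * n := by nlinarith [(abs_le.1 i2).2]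
    rw [div_le_iff₀ i1] at a1
    have a2 : 1 ≤ (2 * n * x n) ^ 2 := one_le_pow₀ a1
    have a3 : κ / 800 / (n : ℝ) ^ 2 ≤ κ / 200 * x n ^ 2 := by
      rw [div_le_iff₀ (by positivity)]; nlinarith
    have a4 := hD n h1 h2
    have a5 : (|x n| + y n) ^ 2 ≤ 2 * (x n ^ 2 + y n ^ 2) := by
      nlinarith [sq_abs (x n), sq_nonneg (|x n| - y n)]
    have a6 := mul_le_mul_of_nonneg_left a5 hw0
    have x2 := sq_nonneg (x n)
    have y2 := sq_nonneg (y n)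
    have a7 : y n ^ 2 ≤ 5 / 4 * x n ^ 2 := by
      have b1 : w * x n ^ 2 ≤ 1 / 1000 * x n ^ 2 := by gcongr; linarith
      have b2 : w * y n ^ 2 ≤ 1 / 1000 * y n ^ 2 := by gcongr; linarith
      have b3 : κ / 200 * x n ^ 2 ≤ 1 / 200 * x n ^ 2 := by gcongr
      linarith [(abs_le.1 a4).1]
    have a8 := mul_le_mul_of_nonneg_left a7 hw0
    linarith
  have key : ∀ n, m ≤ n → n ≤ N → 0 < x n ∧ |1 / x n - n| ≤ κ / 24 * n := by
    intro n hn
    induction n, hn using Nat.le_induction with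
    | base =>
      intro _
      have m0 : (0 : ℝ) < m := by exact_mod_cast hm
      have a1 : |m * x m - 1| ≤ κ / 50 := by
        rw [show m * x m - 1 = m * (x m - 1 / m) by field_simp, abs_mul, abs_of_pos m0]
        rwa [le_div_iff₀' m0] at hxm
      have a2 := abs_le.1 a1
      have a3 : 0 < x m := (mul_pos_iff_of_pos_left m0).1 (by linarith)
      refine ⟨a3, ?_⟩
      rw [show 1 / x m - m = -(m * x m - 1) / x m by field_simp; ring, abs_div, abs_neg, abs_of_pos a3,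
        div_le_iff₀ a3]
      nlinarith
    | succ n hn ih =>
      intro hN
      obtain ⟨i1, i2⟩ := ih (by omega)
      obtain ⟨s, h1⟩ := h n hn (by omega)
      obtain ⟨r1, r2⟩ := s.ricc i1 h1 (by linarith) (rel n hn (by omega) i1 i2) (by linarith)
      refine ⟨r1, ?_⟩
      have := abs_le.1 r2
      have := abs_le.1 i2
      push_cast
      rw [abs_le]; constructor <;> linarith
  intro n h1 h2
  obtain ⟨i1, i2⟩ := key n h1 h2
  have n0 : (0 : ℝ) < n := by exact_mod_cast (show 0 < n by omega)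
  have a1 : n * x n ≤ 2 := by
    have := (abs_le.1 i2).1
    have a : (n : ℝ) / 2 ≤ 1 / x n := by nlinarith
    rw [le_div_iff₀ i1] at a; linarith
  obtain ⟨c1, c2⟩ := close_of_inv (y := y n) (κ := κ / 24) n0 i1 (by linarith) (by linarith) i2
    ((rel n h1 h2 i1 i2).trans (by
      rw [le_div_iff₀ (by positivity), mul_assoc, ← mul_pow, mul_comm (x n)]
      have : (n * x n) ^ 2 ≤ 2 ^ 2 := by gcongr
      nlinarith)) le_rfl
  exact ⟨c1.trans (by gcongr; linarith), c2.trans (le_of_eq (by ring))⟩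

theorem eta_inv {e x y : ℕ → ℝ} {m n : ℕ} (hmn : m ≤ n)
    (h : ∀ j, m ≤ j → j < n → St (e j) (x j) (y j) (x (j + 1)) (y (j + 1)) ∧
      e j + (|x j| + y j) ≤ 1 / 100) :
    1 / (|x m| + y m) - 3 * ((n : ℝ) - m) ≤ 1 / (|x n| + y n) := by
  induction n, hmn using Nat.le_induction with
  | base => simp
  | succ n hmn ih =>
    have i := ih fun j h1 h2 => h j h1 (by omega)
    obtain ⟨s, hs⟩ := h n hmn (by omega)
    have h1 := s.eta_le' hs le_rfl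
    have p : 0 < |x n| + y n := add_pos_of_nonneg_of_pos (abs_nonneg _) s.pos
    have p' : 0 < |x (n + 1)| + y (n + 1) := add_pos_of_nonneg_of_pos (abs_nonneg _) s.pos'
    have h2 : 1 / (|x n| + y n) - 3 ≤ 1 / (|x (n + 1)| + y (n + 1)) := by
      refine le_trans ?_ (one_div_le_one_div_of_le p' h1)
      rw [le_div_iff₀ (by positivity)]
      have : (1 / (|x n| + y n) - 3) * ((|x n| + y n) * (1 + 3 * (|x n| + y n))) =
          1 - 9 * (|x n| + y n) ^ 2 := by field_simp; ring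
      rw [this]; nlinarith
    push_cast; linarith

theorem Orb.eta_back {C δ θ M B τ ε : ℝ} {a K : ℕ} {x y p q : ℕ → ℝ}
    (O : Orb C δ θ M B τ ε a K x y p q) (hC : 0 ≤ C) (hδ : 0 ≤ δ) (hθ : 0 ≤ θ) (hθ1 : θ ≤ 1)
    (hτ : 0 ≤ τ) (hε : 0 ≤ ε) (hw : om C δ ε + τ ≤ 1 / 100) (j : ℕ) (j1 : a ≤ j) (j2 : j ≤ K) :
    |x K| + y K ≤ (1 + 3 * ε) ^ (K - j) * (|x j| + y j) := by
  induction j2 using Nat.decreasingInduction with
  | self => simp
  | of_succ i hi ih =>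
    have s := O.st i j1 hi
    have p : 0 ≤ |x i| + y i := add_nonneg (abs_nonneg _) s.pos.le
    have k1 := s.eta_le' (er_le hC hδ hθ hθ1 hτ p (O.small i j1 hi.le)) hw
    have k2 : (|x i| + y i) * (1 + 3 * (|x i| + y i)) ≤ (|x i| + y i) * (1 + 3 * ε) := by
      gcongr; exact O.small i j1 hi.le
    rw [show K - i = K - (i + 1) + 1 by omega, pow_succ, mul_assoc]
    exact (ih (by omega)).trans (by gcongr; linarith)

/-- the horizon error is absorbed when the orbit is not small at the horizon -/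
theorem Orb.step {C δ θ M B τ ε ε₂ : ℝ} {a K k : ℕ} {x y p q : ℕ → ℝ}
    (O : Orb C δ θ M B τ ε a K x y p q) (hC : 0 ≤ C) (hδ : 0 ≤ δ) (hδ1 : δ ≤ 1) (hθ : 0 ≤ θ)
    (hτ : 0 ≤ τ) (hε : 0 ≤ ε) (hεθ : 6 * ε ≤ 1 - θ) (hw : om C δ ε + τ ≤ 1 / 100) (hε₂ : 0 ≤ ε₂)
    (hk : ((1 + θ) / 2) ^ k ≤ ε₂ ^ δ) (hK : ε₂ ≤ |x K| + y K) (n : ℕ) (h1 : a ≤ n) (h2 : n < K)
    (h3 : n + k ≤ K) : Step (C + 1) δ x y n := by
  have s := O.st n h1 h2
  have p : 0 ≤ |x n| + y n := add_nonneg (abs_nonneg _) s.pos.le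
  refine s.mono ?_
  have k1 : ε₂ ^ δ ≤ (1 + 3 * ε) ^ (K - n) * (|x n| + y n) ^ δ := by
    refine (Real.rpow_le_rpow hε₂ (hK.trans (O.eta_back hC hδ hθ (by linarith) hτ hε hw n h1 h2.le))
      hδ).trans ?_
    rw [Real.mul_rpow (by positivity) p]
    refine mul_le_mul_of_nonneg_right ?_ (by positivity)
    conv_rhs => rw [← Real.rpow_one ((1 + 3 * ε) ^ (K - n))]
    exact Real.rpow_le_rpow_of_exponent_le (one_le_pow₀ (by linarith)) hδ1
  have k2 : (θ * (1 + 3 * ε)) ^ (K - n) ≤ ε₂ ^ δ := by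
    calc _ ≤ ((1 + θ) / 2) ^ (K - n) := by gcongr; nlinarith
      _ ≤ ((1 + θ) / 2) ^ k := pow_le_pow_of_le_one (by linarith) (by linarith) (by omega)
      _ ≤ _ := hk
  have k3 : θ ^ (K - n) ≤ (|x n| + y n) ^ δ := by
    refine le_of_mul_le_mul_left ?_ (show 0 < (1 + 3 * ε) ^ (K - n) by positivity)
    rw [← mul_pow, mul_comm]
    exact k2.trans k1
  have k4 : τ * θ ^ (K - n) ≤ 1 * θ ^ (K - n) := by gcongr; linarith [om_nonneg (δ := δ) hC hε]
  rw [er]; linarith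

/-- an orbit that starts well inside a small ball can only leave it on the side `x < 0` -/
theorem exit_neg {e x y : ℕ → ℝ} {a T : ℕ} {ε : ℝ} (haT : a ≤ T) (ha : |x a| + y a ≤ ε / 10)
    (hya : 0 ≤ y a)
    (h : ∀ j, a ≤ j → j < T → St (e j) (x j) (y j) (x (j + 1)) (y (j + 1)) ∧
      e j + (|x j| + y j) ≤ 1 / 100 ∧ |x j| + y j ≤ ε) (hT : ε < |x T| + y T) : x T ≤ -(ε / 3) := by
  have hε : 0 ≤ ε := by linarith [abs_nonneg (x a)]
  have key : x T ≤ x a ∧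
      |(x T ^ 2 - y T ^ 2) - (x a ^ 2 - y a ^ 2)| ≤ 10 * (1 / 100) * ε * (x a - x T) := by
    clear hT
    induction T, haT using Nat.le_induction with
    | base => simp
    | succ n hn ih =>
      obtain ⟨i1, i2⟩ := ih fun j h1 h2 => h j h1 (by omega)
      obtain ⟨s, h1, h2⟩ := h n hn (by omega)
      have h3 := s.dD' h1 le_rfl
      have h4 : x (n + 1) < x n := s.lt (by linarith [abs_nonneg (x n), s.pos])
      have h5 : 10 * (1 / 100) * (|x n| + y n) * (x n - x (n + 1)) ≤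
          10 * (1 / 100) * ε * (x n - x (n + 1)) := by gcongr
      refine ⟨by linarith, ?_⟩
      have := abs_sub_le (x (n + 1) ^ 2 - y (n + 1) ^ 2) (x n ^ 2 - y n ^ 2) (x a ^ 2 - y a ^ 2)
      linarith
  by_contra hc
  have h1 : -(ε / 3) < x T := not_le.1 hc
  have h2 := le_abs_self (x a)
  have h3 : |x T| ≤ ε / 3 := abs_le.2 ⟨h1.le, by linarith [key.1]⟩
  have h4 : x T ^ 2 ≤ (ε / 3) ^ 2 := by rw [← sq_abs]; gcongr
  have h5 : (2 * ε / 3) ^ 2 < y T ^ 2 := by gcongr; linarith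
  have h6 : y a ^ 2 ≤ (ε / 10) ^ 2 := by gcongr; linarith [abs_nonneg (x a)]
  have h7 : ε * (x a - x T) ≤ ε * (ε / 10 + ε / 3) := by gcongr; linarith
  nlinarith [(abs_le.1 key.2).1, sq_nonneg (x a), sq_nonneg ε]

/-- the first component grows like `(2a/3) n` -/
theorem CL.p_asym {δ : ℝ} {e x y p q A : ℕ → ℝ} (h : CL δ e x y p q A) {a : ℝ}
    (ha : (fun n => x n * p n - y n * q n - a) =O[atTop] pw (-δ)) (hA : A =O[atTop] pw 1) :
    (fun n : ℕ => p n - 2 * a / 3 * n) =O[atTop] pw (1 - δ) := by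
  have h1 : (fun n => p (n + 1) - p n + 2 * y n * q n) =O[atTop] pw (-δ) :=
    bigO_of_le 1 (bigO_mul (bigO_mul h.he h.etaO le_rfl) hA (by linarith))
      (h.st.mono fun n hn => by rw [one_mul]; exact hn.2.hp)
  have h2 := bigO_mul h.hx (h.pO hA) (r := -δ) (by linarith)
  refine damp (by linarith [h.lt]) ?_
  rw [show 1 - δ - 1 = -δ by ring]
  refine EventuallyEq.trans_isBigO ((eventually_ge_atTop 1).mono fun n hn => ?_)
    ((h1.add (ha.const_mul_left 2)).sub (h2.const_mul_left 2))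
  have : (0 : ℝ) < n := by exact_mod_cast hn
  push_cast; field_simp; ring

/-- non-degeneracy: the limit of the invariant is positive -/
theorem CL.pos_lim {δ c s : ℝ} {e x y p q A : ℕ → ℝ} (h : CL δ e x y p q A) (hc : 0 < c)
    (h0 : (fun n => |p n| + |q n|) =O[atTop] pw s) (hp : ∃ᶠ n in atTop, c ≤ p n) :
    ∃ a, 0 < a ∧ Tendsto (fun n => x n * p n - y n * q n) atTop (𝓝 a) := by
  obtain ⟨a, h1, h2, h3, h4⟩ := h.main h0
  refine ⟨a, ?_, h1⟩
  rcases lt_trichotomy a 0 with ha | ha | ha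
  · exfalso
    have t := bigO_tendsto (bigO_mul (h.p_asym h2 h3) inv_bigO (r := -δ) (by linarith))
      (by linarith [h.pos])
    obtain ⟨n, n1, n2, n3⟩ := (hp.and_eventually ((t.eventually (gt_mem_nhds
      (show 0 < -(2 * a / 3) by linarith))).and (eventually_ge_atTop 1))).exists
    have n0 : (0 : ℝ) < n := by exact_mod_cast n3
    rw [mul_one_div, div_lt_iff₀ n0] at n2
    linarith
  · obtain ⟨n, n1, n2⟩ := (hp.and_eventually ((h4 ha).eventually (gt_mem_nhds hc))).exists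
    linarith [le_abs_self (p n), abs_nonneg (q n)]
  · exact ha

end Crest.Agent.T145.KT
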