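import Crest.Agent.T145.KtI_54

/-!
# Row 145 (helper54): the discrete Kosterlitz-Thouless flow, part J (finite-horizon estimates)
-/

set_option autoImplicit false

namespace Crest.Agent.T145.KT

open Filter Topology Finset Asymptotics Real

/-- admissible constants -/
structure Prm (C δ θ M B τ ε : ℝ) : Prop where
  C0 : 0 ≤ C
  δ0 : 0 < δ
  δ1 : δ < 1
  θ0 : 0 ≤ θ
  θ1 : θ < 1
  M0 : 0 ≤ M
  B0 : 0 ≤ B
  τ0 : 0 ≤ τ
  ε0 : 0 < ε
  εθ : 6 * ε ≤ 1 - θ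
  w1 : om (C + 1) δ ε ≤ 1 / 1000
  w2 : om C δ ε + τ ≤ δ / 2 / 1000
  w3 : 30 * (om C δ ε + τ) * Mth M θ ≤ δ / 2

theorem Mth_nonneg {M θ : ℝ} (hM : 0 ≤ M) (hθ : 0 ≤ θ) : 0 ≤ Mth M θ :=
  mul_nonneg hM (by linarith [cth_nonneg hθ])

theorem exists_prm {C δ θ M : ℝ} (hC : 0 ≤ C) (hδ : 0 < δ) (hδ1 : δ < 1) (hθ : 0 ≤ θ) (hθ1 : θ < 1)
    (hM : 0 ≤ M) : ∃ ε₁, 0 < ε₁ ∧ ∀ B τ ε, 0 ≤ B → 0 ≤ τ → τ ≤ ε₁ → 0 < ε → ε ≤ ε₁ →
      Prm C δ θ M B τ ε := by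
  have hm := Mth_nonneg hM hθ
  obtain ⟨w, hw⟩ : ∃ w, w = δ / (4000 * (1 + Mth M θ)) := ⟨_, rfl⟩
  have w0 : 0 < w := by rw [hw]; positivity
  have w1 : w * (4000 * (1 + Mth M θ)) = δ := by rw [hw]; field_simp
  have w2 := mul_nonneg w0.le hm
  obtain ⟨ε₁, h1, h2⟩ := exists_om_le (C + 1) hδ w0
  refine ⟨min (min ε₁ w) ((1 - θ) / 6), lt_min (lt_min h1 w0) (by linarith), fun B τ ε hB t0 t1 e0 e1 => ?_⟩
  have a1 := h2 ε e0.le (e1.trans ((min_le_left _ _).trans (min_le_left _ _)))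
  have a2 : τ ≤ w := t1.trans ((min_le_left _ _).trans (min_le_right _ _))
  have a3 := e1.trans (min_le_right _ _)
  have a4 : om C δ ε ≤ w := by
    have := rpow_nonneg e0.le δ
    simp only [om] at *; linarith
  have a5 : (om C δ ε + τ) * Mth M θ ≤ (w + w) * Mth M θ := by gcongr
  exact ⟨hC, hδ, hδ1, hθ, hθ1, hM, hB, t0, e0, by linarith, by linarith, by linarith, by linarith⟩

theorem inv_le_rpow {t s : ℝ} (ht : 1 ≤ t) (hs : s ≤ 1) : 1 / t ≤ t ^ (-s) := by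
  rw [one_div, ← rpow_neg_one]; exact rpow_le_rpow_of_exponent_le ht (by linarith)

theorem rpow_le_four {t s η : ℝ} (ht : 1 ≤ t) (hs0 : 0 ≤ s) (hs : s ≤ 1) (h0 : 0 ≤ η) (h : η ≤ 4 / t) :
    η ^ s ≤ 4 * t ^ (-s) := by
  refine (rpow_le_rpow h0 h hs0).trans ?_
  rw [div_rpow (by norm_num) (by linarith), rpow_neg (by linarith), div_eq_mul_inv]
  refine mul_le_mul_of_nonneg_right ?_ (by positivity)
  conv_rhs => rw [← rpow_one 4]
  exact rpow_le_rpow_of_exponent_le (by norm_num) hs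

theorem eta3 {x y t κ : ℝ} (ht : 0 < t) (hκ : κ ≤ 1) (h1 : |x - 1 / t| ≤ κ / 8 / t)
    (h2 : y ≤ (1 + κ / 8) / t) : |x| + y ≤ 3 / t := by
  have k3 := abs_add_le (x - 1 / t) (1 / t)
  rw [sub_add_cancel, abs_of_pos (show (0 : ℝ) < 1 / t by positivity)] at k3
  have : κ / 8 / t + 1 / t + (1 + κ / 8) / t ≤ 3 / t := by
    rw [← add_div, ← add_div]; gcongr; linarith
  linarith

/-- closeness to the critical orbit on `[m, N]` -/
def Cls (δ : ℝ) (x y : ℕ → ℝ) (m N : ℕ) : Prop :=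
  ∀ n, m ≤ n → n ≤ N → |x n - 1 / n| ≤ δ / 2 / 8 / n ∧ y n ≤ (1 + δ / 2 / 8) / n

/-- a differentiable version `D` of the invariant `x² - y²` at the parameter `b` and the step `n` -/
structure Inv (C δ θ M B τ : ℝ) (a K : ℕ) (x y p q : ℕ → ℝ) (D : ℝ → ℝ) (D' b : ℝ) (n : ℕ) : Prop where
  der : HasDerivAt D D' b
  val : |D b - (x n ^ 2 - y n ^ 2)| ≤ er C δ θ τ K x y n * (|x n| + y n) ^ 2
  slope : |D' - 2 * (x n * p n - y n * q n)| ≤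
    er C δ θ τ K x y n * (|x n| + y n) * Abd M B θ a K x y p q n

namespace Prm
variable {C δ θ M B τ ε : ℝ} {a K : ℕ}

theorem w (h : Prm C δ θ M B τ ε) : om C δ ε + τ ≤ 1 / 100 := by linarith [h.w2, h.δ1]

theorem τ1 (h : Prm C δ θ M B τ ε) : τ ≤ 1 := by linarith [h.w, om_nonneg (δ := δ) h.C0 h.ε0.le]

theorem wn (h : Prm C δ θ M B τ ε) {x y p q : ℕ → ℝ} (O : Orb C δ θ M B τ ε a K x y p q) {n : ℕ}
    (h1 : a ≤ n) (h2 : n < K) : er C δ θ τ K x y n + (|x n| + y n) ≤ om C δ ε + τ :=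
  er_le h.C0 h.δ0.le h.θ0 h.θ1.le h.τ0 (add_nonneg (abs_nonneg _) (O.st n h1 h2).pos.le)
    (O.small n h1 h2.le)

theorem er1 (h : Prm C δ θ M B τ ε) {x y p q : ℕ → ℝ} (O : Orb C δ θ M B τ ε a K x y p q) {n : ℕ}
    (h1 : a ≤ n) (h2 : n < K) : er C δ θ τ K x y n ≤ om C δ ε + τ := by
  linarith [h.wn O h1 h2, abs_nonneg (x n), (O.st n h1 h2).pos]

theorem er_pow (h : Prm C δ θ M B τ ε) {x y : ℕ → ℝ} {n : ℕ} (hn : 1 ≤ n) (h0 : 0 ≤ y n)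
    (hη : |x n| + y n ≤ 4 / n) (hθ : θ ^ (K - n) ≤ 1 / (n : ℝ) ^ 3) :
    er C δ θ τ K x y n + (|x n| + y n) ≤ (4 * C + 5) * (n : ℝ) ^ (-δ) := by
  have n1 : (1 : ℝ) ≤ n := by exact_mod_cast hn
  have a1 := mul_le_mul_of_nonneg_left (rpow_le_four n1 h.δ0.le h.δ1.le (by positivity) hη) h.C0
  have a2 := inv_le_rpow n1 h.δ1.le
  have a3 : 1 / (n : ℝ) ^ 3 ≤ 1 / n := by gcongr; exact le_self_pow₀ n1 (by norm_num)
  have a4 := mul_le_of_le_one_left (pow_nonneg h.θ0 (K - n)) h.τ1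
  have a5 : (4 : ℝ) / n = 4 * (1 / n) := by ring
  rw [er]; linarith

theorem lin (h : Prm C δ θ M B τ ε) {x y p q : ℕ → ℝ} (O : Orb C δ θ M B τ ε a K x y p q) (ha : 1 ≤ a)
    {m N : ℕ} (ham : a ≤ m) (hm : 2 ≤ m) (hmN : m ≤ N) (hNK : N ≤ K) (hcl : Cls δ x y m N) {B₁ : ℝ}
    (hB₁ : ∑ j ∈ Icc a m, (|p j| + |q j|) ≤ B₁) :
    (∀ j, a ≤ j → j ≤ K → |p j| + |q j| ≤
      (9 * B₁ + B) * ((1 + 3 * ε) ^ (j - N) * (j : ℝ) ^ (1 + δ / 2))) ∧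
    ∀ n, m ≤ n → n ≤ N → n < K → Abd M B θ a K x y p q n ≤
      Mth M θ * (10 * B₁ + 2 * B) * (n : ℝ) ^ (1 + δ / 2) := by
  obtain ⟨h1, h2⟩ := O.lin_bound h.C0 h.δ0.le h.θ0 h.θ1 h.M0 h.B0 h.τ0 h.ε0 h.εθ (half_pos h.δ0)
    (by linarith [h.δ1]) h.w h.w3 ham hm hmN hNK hcl hB₁
  have hB1 : 0 ≤ B₁ := (sum_nonneg fun j _ => by positivity).trans hB₁
  refine ⟨fun j j1 j2 => ?_, fun n n1 n2 n3 => by simpa [show n - N = 0 by omega] using h2 n n1 n3⟩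
  have G1 : 1 ≤ (1 + 3 * ε) ^ (j - N) * (j : ℝ) ^ (1 + δ / 2) :=
    one_le_mul_of_one_le_of_one_le (one_le_pow₀ (by linarith [h.ε0]))
      (one_le_rpow (by exact_mod_cast ha.trans j1) (by linarith [h.δ0]))
  rcases le_total j m with hj | hj
  · have := (single_le_sum (f := fun j => |p j| + |q j|) (fun j _ => by positivity)
      (mem_Icc.2 ⟨j1, hj⟩)).trans hB₁
    nlinarith [h.B0]
  · exact (h1 j hj j2).trans (by gcongr; linarith)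

/-- the continuity method in the parameter -/
theorem close (h : Prm C δ θ M B τ ε) {b₀ b₁ B₁ : ℝ} {x y p q D D' : ℝ → ℕ → ℝ} (ha : 1 ≤ a) {m N : ℕ}
    (ham : a ≤ m) (hm : 2 ≤ m) (hmN : m ≤ N) (hNK : N < K)
    (O : ∀ b ∈ Set.Icc b₀ b₁, Orb C δ θ M B τ ε a K (x b) (y b) (p b) (q b) ∧ (∀ n, a ≤ n → n < K →
      Inv C δ θ M B τ a K (x b) (y b) (p b) (q b) (fun b => D b n) (D' b n) b n) ∧
      |x b m - 1 / m| ≤ δ / 2 / 50 / m ∧ ∑ j ∈ Icc a m, (|p b j| + |q b j|) ≤ B₁)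
    (hD : ∀ n, m ≤ n → n ≤ N → |D b₁ n| + 9 * (Mth M θ * (10 * B₁ + 2 * B)) *
      (n : ℝ) ^ (δ / 2) * (b₁ - b₀) < δ / 2 / 800 / (n : ℝ) ^ 2) :
    ∀ b ∈ Set.Icc b₀ b₁, Cls δ (x b) (y b) m N := by
  have key : ∀ b ∈ Set.Icc b₀ b₁, (∀ n ∈ Icc m N, |D b n| ≤
      δ / 2 / 800 / (n : ℝ) ^ 2) → Cls δ (x b) (y b) m N := fun b hb hn =>
    ric_close (e := er C δ θ τ K (x b) (y b)) (by omega) (half_pos h.δ0) (by linarith [h.δ1]) h.w2
      (add_nonneg (om_nonneg h.C0 h.ε0.le) h.τ0) (O b hb).2.2.1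
      (fun n n1 n2 => ⟨(O b hb).1.st n (by omega) (by omega), h.wn (O b hb).1 (by omega) (by omega)⟩)
      fun n n1 n2 => by
        have k1 := abs_le.1 (hn n (mem_Icc.2 ⟨n1, n2⟩))
        have k2 := abs_le.1 ((O b hb).2.1 n (by omega) (by omega)).val
        have k3 := mul_le_mul_of_nonneg_right (h.er1 (O b hb).1 (show a ≤ n by omega) (by omega))
          (sq_nonneg (|x b n| + y b n))
        rw [abs_le]; constructor <;> linarith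
  intro b hb
  have hB1 : 0 ≤ B₁ := (sum_nonneg fun j _ => by positivity).trans (O b hb).2.2.2
  have hL : 0 ≤ Mth M θ * (10 * B₁ + 2 * B) := mul_nonneg (Mth_nonneg h.M0 h.θ0) (by linarith [h.B0])
  refine key b hb (real_ind (Icc m N) (D := fun n b => D b n) (D' := fun n b => D' b n)
    (l := fun n => 9 * (Mth M θ * (10 * B₁ + 2 * B)) * (n : ℝ) ^ (δ / 2)) (fun n hn b hb => ?_)
    (fun b hb hn n n0 => ?_) (fun n _ => by positivity)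
    (fun n hn => hD n (mem_Icc.1 hn).1 (mem_Icc.1 hn).2) b hb)
  · exact ((O b hb).2.1 n (by have := mem_Icc.1 hn; omega) (by have := mem_Icc.1 hn; omega)).der
  · obtain ⟨n1, n2⟩ := mem_Icc.1 n0
    have c := key b hb hn
    have np : (0 : ℝ) < n := by exact_mod_cast (show 0 < n by omega)
    have k1 := (h.lin (O b hb).1 ha ham hm hmN hNK.le c (O b hb).2.2.2).2 n n1 n2 (by omega)
    have k2 := eta3 np (by linarith [h.δ1]) (c n n1 n2).1 (c n n1 n2).2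
    have k3 := ((O b hb).1.ln n (by omega) (by omega)).le
    have k4 := ((O b hb).1.st n (by omega) (by omega)).pos
    have k5 : |x b n * p b n - y b n * q b n| ≤ (|x b n| + y b n) * (|p b n| + |q b n|) := by
      refine (abs_sub _ _).trans ?_
      rw [abs_mul, abs_mul, abs_of_pos k4]
      nlinarith [mul_nonneg (abs_nonneg (x b n)) (abs_nonneg (q b n)), mul_nonneg k4.le (abs_nonneg (p b n))]
    have k6 := ((O b hb).1.ln n (by omega) (by omega)).A_nonneg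
    have k7 := abs_le.1 (k5.trans (mul_le_mul k2 (k3.trans k1) (by positivity) (by positivity)))
    have k8 := abs_le.1 (((O b hb).2.1 n (by omega) (by omega)).slope.trans (mul_le_mul (mul_le_mul
      ((h.er1 (O b hb).1 (show a ≤ n by omega) (by omega)).trans (h.w.trans (by norm_num : _ ≤ (1 : ℝ))))
      k2 (by positivity) zero_le_one) k1 k6 (by positivity)))
    calc _ ≤ 3 * (3 / n * (Mth M θ * (10 * B₁ + 2 * B) * (n : ℝ) ^ (1 + δ / 2))) := by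
          rw [abs_le]; constructor <;> linarith
      _ = _ := by rw [rpow_add np, rpow_one]; field_simp; ring

/-- the linearised invariant is almost constant on the window -/
theorem tele (h : Prm C δ θ M B τ ε) {x y p q : ℕ → ℝ} (O : Orb C δ θ M B τ ε a K x y p q) (ha : 1 ≤ a)
    {m k N : ℕ} (ham : a ≤ m) (hm : 2 ≤ m) (hmk : m ≤ k) (hkN : k ≤ N) (hNK : N ≤ K)
    (hcl : Cls δ x y m N) {B₁ : ℝ} (hB₁ : ∑ j ∈ Icc a m, (|p j| + |q j|) ≤ B₁)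
    (hθ : ∀ n, m ≤ n → n ≤ N → θ ^ (K - n) ≤ 1 / (n : ℝ) ^ 3) :
    |(x N * p N - y N * q N) - (x k * p k - y k * q k)| ≤
      72 * (4 * C + 5) * (Mth M θ * (10 * B₁ + 2 * B)) * ks (-(δ / 2)) * (k : ℝ) ^ (-(δ / 2)) := by
  have hB1 : 0 ≤ B₁ := (sum_nonneg fun j _ => by positivity).trans hB₁
  have hL : 0 ≤ Mth M θ * (10 * B₁ + 2 * B) := mul_nonneg (Mth_nonneg h.M0 h.θ0) (by linarith [h.B0])
  have := h.C0
  refine tele_neg (f := fun n => x n * p n - y n * q n) (by linarith [h.δ0]) (by positivity) (by omega)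
    hkN fun n n1 n2 => ?_
  have np : (0 : ℝ) < n := by exact_mod_cast (show 0 < n by omega)
  have s := O.st n (by omega) (by omega)
  have k1 := (h.lin O ha ham hm (by omega) hNK hcl hB₁).2 n (by omega) n2.le (by omega)
  have k2 := eta3 np (by linarith [h.δ1]) (hcl n (by omega) n2.le).1 (hcl n (by omega) n2.le).2
  have k3 := h.er_pow (K := K) (by omega) s.pos.le (k2.trans (by gcongr; norm_num)) (hθ n (by omega) n2.le)
  have k4 := s.pos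
  have k5 := (O.ln n (by omega) (by omega)).A_nonneg
  refine ((O.ln n (by omega) (by omega)).da s le_rfl ((h.wn O (by omega) (by omega)).trans h.w)).trans ?_
  calc _ ≤ 8 * ((4 * C + 5) * (n : ℝ) ^ (-δ)) * (3 / n) ^ 2 *
        (Mth M θ * (10 * B₁ + 2 * B) * (n : ℝ) ^ (1 + δ / 2)) := by gcongr
    _ = 72 * (4 * C + 5) * (Mth M θ * (10 * B₁ + 2 * B)) *
        ((n : ℝ) ^ (-δ) * (n : ℝ) ^ (1 + δ / 2) / (n : ℝ) ^ (2 : ℝ)) := by rw [rpow_two]; ring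
    _ = _ := by rw [← rpow_add np, ← rpow_sub np]; ring_nf

/-- the invariant at the critical parameter -/
theorem cmp (h : Prm C δ θ M B τ ε) {x y p q X Y : ℕ → ℝ} (O : Orb C δ θ M B τ ε a K x y p q)
    {n : ℕ} (h1 : a ≤ n) (h2 : n < K) (hn : 2 ≤ n) (S : Step C δ X Y n) (hS : |X n| + Y n ≤ ε)
    (a1 : |x n - X n| ≤ 1 / (n : ℝ) ^ 3) (a2 : |x (n + 1) - X (n + 1)| ≤ 1 / (n : ℝ) ^ 3)
    (hX : |X n| ≤ 3 / 2 / n) (hY : Y n ≤ 3 / 2 / n) (hθ : θ ^ (K - n) ≤ 1 / (n : ℝ) ^ 3) {C₃ : ℝ}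
    (hD : |X n ^ 2 - Y n ^ 2| ≤ C₃ * (n : ℝ) ^ (-2 - δ)) {d : ℝ}
    (hd : |d - (x n ^ 2 - y n ^ 2)| ≤ er C δ θ τ K x y n * (|x n| + y n) ^ 2) :
    |d| ≤ (C₃ + 96 * C + 106) * (n : ℝ) ^ (-2 - δ) := by
  have s := O.st n h1 h2
  have n2 : (2 : ℝ) ≤ n := by exact_mod_cast hn
  have η0 : 0 ≤ |x n| + y n := add_nonneg (abs_nonneg _) s.pos.le
  obtain ⟨c1, c2⟩ := crit_cmp s S n2 (by linarith [h.wn O h1 h2, h.w])
    (by linarith [S.w_le h.C0 h.δ0.le hS, S.eta_pos, h.w, h.τ0]) a1 a2 hX hY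
  have k1 := h.er_pow (K := K) (by omega) s.pos.le c1 hθ
  have k2 := mul_le_mul_of_nonneg_left (rpow_le_four (t := n) (by linarith) h.δ0.le h.δ1.le S.eta_pos.le
    ((add_le_add hX hY).trans (by rw [← add_div]; gcongr; norm_num))) h.C0
  have k3 := inv_le_rpow (t := n) (by linarith) h.δ1.le
  have e1 : (n : ℝ) ^ (-2 - δ) = (n : ℝ) ^ (-δ) / (n : ℝ) ^ 2 := by
    rw [← rpow_two, ← rpow_sub (by linarith)]; ring_nf
  have k4 : (4 * er C δ θ τ K x y n + 4 * (C * (|X n| + Y n) ^ δ)) / (n : ℝ) ^ 2 + 6 / (n : ℝ) ^ 3 ≤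
      (32 * C + 26) * ((n : ℝ) ^ (-δ) / (n : ℝ) ^ 2) := by
    rw [show 6 / (n : ℝ) ^ 3 = 6 * (1 / n) / (n : ℝ) ^ 2 by field_simp, ← add_div,
      ← mul_div_assoc (32 * C + 26)]
    gcongr; linarith
  have k5 : er C δ θ τ K x y n * (|x n| + y n) ^ 2 ≤ (4 * C + 5) * (n : ℝ) ^ (-δ) * (4 / n) ^ 2 := by
    have := h.C0
    gcongr; linarith
  have e2 : (4 * C + 5) * (n : ℝ) ^ (-δ) * (4 / n) ^ 2 =
      (64 * C + 80) * ((n : ℝ) ^ (-δ) / (n : ℝ) ^ 2) := by ring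
  rw [e1] at hD ⊢
  have := abs_le.1 hD
  have := abs_le.1 hd
  have := abs_le.1 c2
  rw [abs_le]; constructor <;> linarith

theorem inv (h : Prm C δ θ M B τ ε) {x y p q : ℕ → ℝ} (O : Orb C δ θ M B τ ε a K x y p q) {n : ℕ}
    (h1 : a ≤ n) (h2 : n < K) (hn : 1 ≤ n) (hη : |x n| + y n ≤ 3 / n) {L : ℝ}
    (hA : Abd M B θ a K x y p q n ≤ L * (n : ℝ) ^ (1 + δ / 2)) (hθ : θ ^ (K - n) ≤ 1 / (n : ℝ) ^ 3)
    {D : ℝ → ℝ} {D' b : ℝ} (I : Inv C δ θ M B τ a K x y p q D D' b n) :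
    |D b - (x n ^ 2 - y n ^ 2)| ≤ 9 * (4 * C + 5) * (n : ℝ) ^ (-2 - δ) ∧
      |D' - 2 * (x n * p n - y n * q n)| ≤ 3 * (4 * C + 5) * L * (n : ℝ) ^ (-(δ / 2)) := by
  have np : (0 : ℝ) < n := by exact_mod_cast hn
  have y0 := (O.st n h1 h2).pos
  have A0 := (O.ln n h1 h2).A_nonneg
  have C0 := h.C0
  have k1 : er C δ θ τ K x y n ≤ (4 * C + 5) * (n : ℝ) ^ (-δ) := by
    linarith [h.er_pow (K := K) hn y0.le (hη.trans (by gcongr; norm_num)) hθ, abs_nonneg (x n)]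
  constructor
  · calc _ ≤ (4 * C + 5) * (n : ℝ) ^ (-δ) * (3 / n) ^ 2 := I.val.trans (by gcongr)
      _ = 9 * (4 * C + 5) * ((n : ℝ) ^ (-δ) / (n : ℝ) ^ (2 : ℝ)) := by rw [rpow_two]; ring
      _ = _ := by rw [← rpow_sub np]; ring_nf
  · calc _ ≤ (4 * C + 5) * (n : ℝ) ^ (-δ) * (3 / n) * (L * (n : ℝ) ^ (1 + δ / 2)) :=
          I.slope.trans (by gcongr)
      _ = 3 * (4 * C + 5) * L * ((n : ℝ) ^ (-δ) * (n : ℝ) ^ (1 + δ / 2) / (n : ℝ) ^ (1 : ℝ)) := by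
          rw [rpow_one]; ring
      _ = _ := by rw [← rpow_add np, ← rpow_sub np]; ring_nf

end Prm

end Crest.Agent.T145.KT
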