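import Crest.Agent.T145.KtJ_54

/-!
# Row 145 (helper54): the discrete Kosterlitz-Thouless flow, part K (families: the limiting orbit)
-/

set_option autoImplicit false

namespace Crest.Agent.T145.KT

open Filter Topology Finset Asymptotics Real

/-- a family of orbits `(b₀, b)`, `b₀ ≤ b ≤ bc`, with horizon `K b₀` -/
structure Fam (C δ θ M B τ ε ε₂ c C₁ bc : ℝ) (r a : ℕ) (K : ℝ → ℕ) (x y p q D D' : ℝ → ℝ → ℕ → ℝ)
    (X Y P Q : ℕ → ℝ) : Prop where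
  prm : Prm C δ θ M B τ ε
  a1 : 1 ≤ a
  c0 : 0 < c
  ε0 : 0 < ε₂
  orb : ∀ᶠ b₀ in 𝓝[<] bc, ∀ b ∈ Set.Icc b₀ bc,
    Orb C δ θ M B τ ε a (K b₀) (x b₀ b) (y b₀ b) (p b₀ b) (q b₀ b) ∧ ∀ n, a ≤ n → n < K b₀ →
      Inv C δ θ M B τ a (K b₀) (x b₀ b) (y b₀ b) (p b₀ b) (q b₀ b) (fun b => D b₀ b n) (D' b₀ b n) b n
  conv : ∀ n, a ≤ n → ∀ t, 0 < t → ∀ᶠ b₀ in 𝓝[<] bc, ∀ b ∈ Set.Icc b₀ bc,
    |x b₀ b n - X n| ≤ t ∧ |y b₀ b n - Y n| ≤ t ∧ |p b₀ b n - P n| ≤ t ∧ |q b₀ b n - Q n| ≤ t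
  top : Tendsto K (𝓝[<] bc) atTop
  amb : ∀ᶠ b₀ in 𝓝[<] bc, ∀ n, a ≤ n → n ≤ K b₀ →
    |x b₀ bc n - X n| ≤ C₁ * (n : ℝ) ^ r * θ ^ (K b₀ - n)
  lim : Tendsto X atTop (𝓝 0)
  pos : 0 < Y a
  nd : ∃ᶠ n in atTop, ∀ᶠ b₀ in 𝓝[<] bc, c - er C δ θ τ (K b₀) (x b₀ bc) (y b₀ bc) n *
    (1 + Abd M B θ a (K b₀) (x b₀ bc) (y b₀ bc) (p b₀ bc) (q b₀ bc) n) ≤ p b₀ bc n
  exit : ∀ᶠ b₀ in 𝓝[<] bc, ε₂ ≤ |x b₀ b₀ (K b₀)| + y b₀ b₀ (K b₀)

/-- `b₀ → bc` from below, uniformly in `b ∈ [b₀, bc]` -/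
def U (bc : ℝ) : Filter (ℝ × ℝ) := (𝓝[<] bc).bind fun b₀ => 𝓟 (Prod.mk b₀ '' Set.Icc b₀ bc)

theorem ev_U {bc : ℝ} {p : ℝ × ℝ → Prop} :
    (∀ᶠ z in U bc, p z) ↔ ∀ᶠ b₀ in 𝓝[<] bc, ∀ b ∈ Set.Icc b₀ bc, p (b₀, b) := by
  simp only [U, eventually_bind, eventually_principal, Set.forall_mem_image]

theorem ev_top {bc : ℝ} {p : ℝ → ℝ → Prop} (h : ∀ᶠ b₀ in 𝓝[<] bc, ∀ b ∈ Set.Icc b₀ bc, p b₀ b) :
    ∀ᶠ b₀ in 𝓝[<] bc, p b₀ bc := by
  filter_upwards [h, self_mem_nhdsWithin] with b₀ h (hb : b₀ < bc) using h bc ⟨hb.le, le_rfl⟩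

theorem tendsto_U (bc : ℝ) : Tendsto (fun b₀ => (b₀, bc)) (𝓝[<] bc) (U bc) := fun _ hs =>
  ev_top (p := fun b₀ b => (b₀, b) ∈ _) (ev_U.1 hs)

theorem tendsto_of_abs {ι : Type*} {l : Filter ι} {f : ι → ℝ} {L : ℝ}
    (h : ∀ t, 0 < t → ∀ᶠ i in l, |f i - L| ≤ t) : Tendsto f l (𝓝 L) :=
  Metric.tendsto_nhds.2 fun _ ht => (h _ (half_pos ht)).mono fun _ hi => hi.trans_lt (half_lt_self ht)

theorem ev_abs {ι : Type*} {l : Filter ι} {f : ι → ℝ} {L t : ℝ} (h : Tendsto f l (𝓝 L)) (ht : 0 < t) :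
    ∀ᶠ i in l, |f i - L| ≤ t := (Metric.tendsto_nhds.1 h t ht).mono fun _ hi => hi.le

/-- the limiting size -/
noncomputable def Ainf (M B θ : ℝ) (a : ℕ) (X Y P Q : ℕ → ℝ) (n : ℕ) : ℝ :=
  M * (B + ∑' j, (if a ≤ j then θ ^ Nat.dist j n * (|P j| + |Q j|) else 0) +
    (|X n| + Y n) * ∑ j ∈ Icc a n, (|P j| + |Q j|))

theorem CL.pos_lim' {δ c s : ℝ} {e x y p q A : ℕ → ℝ} (h : CL δ e x y p q A) (hc : 0 < c)
    (h0 : (fun n => |p n| + |q n|) =O[atTop] pw s) (hp : ∃ᶠ n in atTop, c - e n * (1 + A n) ≤ p n) :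
    ∃ a, 0 < a ∧ Tendsto (fun n => x n * p n - y n * q n) atTop (𝓝 a) := by
  obtain ⟨a, h1, h2, h3, h4⟩ := h.main h0
  refine ⟨a, ?_, h1⟩
  have hδ := h.pos
  rcases lt_trichotomy a 0 with ha | ha | ha
  · exfalso
    have t := bigO_tendsto (bigO_mul ((h.p_asym h2 h3).add (bigO_mul h.he
      ((one_bigO zero_le_one 1).add h3) (by linarith))) inv_bigO (r := -δ) (by linarith)) (by linarith)
    obtain ⟨n, n1, n2, n3⟩ := (hp.and_eventually ((t.eventually (gt_mem_nhds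
      (show 0 < -(2 * a / 3) by linarith))).and (eventually_ge_atTop 1))).exists
    have n0 : (0 : ℝ) < n := by exact_mod_cast n3
    rw [mul_one_div, div_lt_iff₀ n0] at n2
    linarith
  · have t0 : (fun n => |p n| + |q n|) =O[atTop] pw 0 :=
      ((h4 ha).isBigO_one ℝ).trans (one_bigO le_rfl 1)
    have t := bigO_tendsto (bigO_mul h.he ((one_bigO le_rfl 1).add (h.hA 0 le_rfl t0)) (r := -δ)
      (by linarith)) (by linarith)
    obtain ⟨n, n1, n2, n3⟩ := (hp.and_eventually (((h4 ha).eventually (gt_mem_nhds (half_pos hc))).and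
      (t.eventually (gt_mem_nhds (half_pos hc))))).exists
    linarith [le_abs_self (p n), abs_nonneg (q n)]
  · exact ha

namespace Fam
variable {C δ θ M B τ ε ε₂ c C₁ bc : ℝ} {r a : ℕ} {K : ℝ → ℕ} {x y p q D D' : ℝ → ℝ → ℕ → ℝ}
  {X Y P Q : ℕ → ℝ} (h : Fam C δ θ M B τ ε ε₂ c C₁ bc r a K x y p q D D' X Y P Q)
include h

theorem tU {n : ℕ} (hn : a ≤ n) : Tendsto (fun z : ℝ × ℝ => x z.1 z.2 n) (U bc) (𝓝 (X n)) ∧
    Tendsto (fun z : ℝ × ℝ => y z.1 z.2 n) (U bc) (𝓝 (Y n)) ∧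
    Tendsto (fun z : ℝ × ℝ => p z.1 z.2 n) (U bc) (𝓝 (P n)) ∧
    Tendsto (fun z : ℝ × ℝ => q z.1 z.2 n) (U bc) (𝓝 (Q n)) :=
  ⟨tendsto_of_abs fun t ht => ev_U.2 ((h.conv n hn t ht).mono fun _ k b hb => (k b hb).1),
    tendsto_of_abs fun t ht => ev_U.2 ((h.conv n hn t ht).mono fun _ k b hb => (k b hb).2.1),
    tendsto_of_abs fun t ht => ev_U.2 ((h.conv n hn t ht).mono fun _ k b hb => (k b hb).2.2.1),
    tendsto_of_abs fun t ht => ev_U.2 ((h.conv n hn t ht).mono fun _ k b hb => (k b hb).2.2.2)⟩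

theorem tx {n : ℕ} (hn : a ≤ n) : Tendsto (fun b₀ => x b₀ bc n) (𝓝[<] bc) (𝓝 (X n)) :=
  (h.tU hn).1.comp (tendsto_U bc)

theorem ty {n : ℕ} (hn : a ≤ n) : Tendsto (fun b₀ => y b₀ bc n) (𝓝[<] bc) (𝓝 (Y n)) :=
  (h.tU hn).2.1.comp (tendsto_U bc)

theorem tp {n : ℕ} (hn : a ≤ n) : Tendsto (fun b₀ => p b₀ bc n) (𝓝[<] bc) (𝓝 (P n)) :=
  (h.tU hn).2.2.1.comp (tendsto_U bc)

theorem tq {n : ℕ} (hn : a ≤ n) : Tendsto (fun b₀ => q b₀ bc n) (𝓝[<] bc) (𝓝 (Q n)) :=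
  (h.tU hn).2.2.2.comp (tendsto_U bc)

theorem orbc (n : ℕ) : ∀ᶠ b₀ in 𝓝[<] bc, n < K b₀ ∧
    Orb C δ θ M B τ ε a (K b₀) (x b₀ bc) (y b₀ bc) (p b₀ bc) (q b₀ bc) :=
  (h.top.eventually_gt_atTop n).and ((ev_top h.orb).mono fun _ k => k.1)

theorem ter {n : ℕ} (hn : a ≤ n) : Tendsto (fun b₀ => er C δ θ τ (K b₀) (x b₀ bc) (y b₀ bc) n)
    (𝓝[<] bc) (𝓝 (C * (|X n| + Y n) ^ δ)) := by
  have t1 := (((h.tx hn).abs.add (h.ty hn)).rpow_const (Or.inr h.prm.δ0.le)).const_mul C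
  have t2 := ((tendsto_pow_atTop_nhds_zero_of_lt_one h.prm.θ0 h.prm.θ1).comp
    ((tendsto_sub_atTop_nat n).comp h.top)).const_mul τ
  simpa [er] using t1.add t2

theorem step (n : ℕ) (hn : a ≤ n) : Step C δ X Y n ∧ |X n| + Y n ≤ ε := by
  have hY : ∀ n, a ≤ n → 0 < Y n := by
    intro n hn
    induction n, hn using Nat.le_induction with
    | base => exact h.pos
    | succ n hn ih =>
      refine (half_pos ih).trans_le (le_of_tendsto_of_tendsto ((h.ty hn).div_const 2)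
        (h.ty (by omega)) ((h.orbc n).mono fun b₀ ⟨k, O⟩ => ?_))
      have s := O.st n hn k
      have w := (h.prm.wn O hn k).trans h.prm.w
      have := (abs_le.1 (s.abs_dy w le_rfl)).1
      show _ ≤ _
      nlinarith [s.pos, s.e_nonneg]
  have n1 : a ≤ n + 1 := by omega
  refine ⟨⟨hY n hn, hY _ n1, ?_, ?_⟩, le_of_tendsto ((h.tx hn).abs.add (h.ty hn))
    ((h.orbc n).mono fun b₀ ⟨k, O⟩ => O.small n hn k.le)⟩
  · exact le_of_tendsto_of_tendsto (((h.tx n1).sub (h.tx hn)).add ((h.ty hn).pow 2)).abs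
      ((h.ter hn).mul ((h.ty hn).pow 2)) ((h.orbc n).mono fun b₀ ⟨k, O⟩ => (O.st n hn k).hx)
  · exact le_of_tendsto_of_tendsto ((((h.ty n1).log (hY _ n1).ne').sub
      ((h.ty hn).log (hY n hn).ne')).add (h.tx hn)).abs ((h.ter hn).mul ((h.tx hn).abs.add (h.ty hn)))
      ((h.orbc n).mono fun b₀ ⟨k, O⟩ => (O.st n hn k).hy)

theorem crit : (fun n => X n - 1 / (n : ℝ)) =O[atTop] pw (-1 - δ) ∧
    (fun n => Y n - 1 / (n : ℝ)) =O[atTop] pw (-1 - δ) ∧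
    (fun n => X n ^ 2 - Y n ^ 2) =O[atTop] pw (-2 - δ) :=
  KT.crit h.prm.C0 h.prm.δ0 h.prm.δ1 (by linarith [h.prm.w, h.prm.τ0]) h.step h.lim

theorem near : ∀ᶠ n : ℕ in atTop, a ≤ n ∧ 2 ≤ n ∧ |X n - 1 / n| ≤ δ / 2 / 100 / n ∧
    |Y n - 1 / n| ≤ δ / 2 / 100 / n := by
  have := h.prm.δ0
  exact (eventually_ge_atTop a).and ((eventually_ge_atTop 2).and
    ((eventually_le_div this (by positivity) h.crit.1).and
      (eventually_le_div this (by positivity) h.crit.2.1)))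

theorem nearU {n : ℕ} (hn : a ≤ n ∧ 2 ≤ n ∧ |X n - 1 / n| ≤ δ / 2 / 100 / n ∧
    |Y n - 1 / n| ≤ δ / 2 / 100 / n) : ∀ᶠ z : ℝ × ℝ in U bc, |x z.1 z.2 n - 1 / n| ≤ δ / 2 / 50 / n ∧
      |x z.1 z.2 n - 1 / n| ≤ δ / 2 / 8 / n ∧ y z.1 z.2 n ≤ (1 + δ / 2 / 8) / n := by
  have := h.prm.δ0
  have n0 : (0 : ℝ) < n := by exact_mod_cast (show 0 < n by omega)
  have t : 0 < δ / 2 / 100 / n := by positivity
  filter_upwards [ev_abs (h.tU hn.1).1 t, ev_abs (h.tU hn.1).2.1 t] with z h1 h2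
  have a1 := abs_sub_le (x z.1 z.2 n) (X n) (1 / n)
  have a2 := abs_le.1 h2
  have a3 := abs_le.1 hn.2.2.2
  have e1 : δ / 2 / 50 / n = 2 * (δ / 2 / 100 / n) := by ring
  have e2 : δ / 2 / 8 / n = 25 / 2 * (δ / 2 / 100 / n) := by ring
  refine ⟨by linarith [hn.2.2.1], by linarith [hn.2.2.1], by rw [add_div]; linarith⟩

theorem sumU (m : ℕ) : ∀ᶠ z : ℝ × ℝ in U bc, ∑ j ∈ Icc a m, (|p z.1 z.2 j| + |q z.1 z.2 j|) ≤
    ∑ j ∈ Icc a m, (|P j| + |Q j|) + 1 :=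
  (tendsto_finsetSum _ fun _ hj => (h.tU (mem_Icc.1 hj).1).2.2.1.abs.add
    (h.tU (mem_Icc.1 hj).1).2.2.2.abs).eventually (ge_mem_nhds (lt_add_one _))

/-- bounds of the linearised solution at the critical parameter -/
theorem bd : ∃ S m, 0 ≤ S ∧ ∀ N, m ≤ N → ∀ᶠ b₀ in 𝓝[<] bc, ∀ j, a ≤ j → j ≤ K b₀ →
    |p b₀ bc j| + |q b₀ bc j| ≤ S * ((1 + 3 * ε) ^ (j - N) * (j : ℝ) ^ (1 + δ / 2)) := by
  obtain ⟨m, hm⟩ := eventually_atTop.1 h.near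
  refine ⟨9 * (∑ j ∈ Icc a m, (|P j| + |Q j|) + 1) + B, m, by have := h.prm.B0; positivity,
    fun N hN => ?_⟩
  filter_upwards [h.orbc N, (tendsto_U bc).eventually (h.sumU m), (tendsto_U bc).eventually
    ((eventually_all_finset (Icc m N)).2 fun n hn => h.nearU (hm n (mem_Icc.1 hn).1))] with b₀ k1 k2 k3
  exact (h.prm.lin k1.2 h.a1 (hm m le_rfl).1 (hm m le_rfl).2.1 hN k1.1.le
    (fun n n1 n2 => (k3 n (mem_Icc.2 ⟨n1, n2⟩)).2) k2).1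

theorem apriori : (fun n => |P n| + |Q n|) =O[atTop] pw (1 + δ / 2) := by
  obtain ⟨S, m, hS, hm⟩ := h.bd
  refine bigO_iff.2 ⟨S, hS, max (max m a) 1, le_max_right _ _, fun n hn => ?_⟩
  rw [abs_of_nonneg (by positivity)]
  refine le_of_tendsto ((h.tp (by omega)).abs.add (h.tq (by omega)).abs) ?_
  filter_upwards [hm n (by omega), h.orbc n] with b₀ k1 k2
  simpa using k1 n (by omega) k2.1.le

theorem tA {n : ℕ} (hn : a ≤ n) : Tendsto (fun b₀ => Abd M B θ a (K b₀) (x b₀ bc) (y b₀ bc) (p b₀ bc)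
    (q b₀ bc) n) (𝓝[<] bc) (𝓝 (Ainf M B θ a X Y P Q n)) := by
  obtain ⟨S, m, hS, hm⟩ := h.bd
  have θ0 := h.prm.θ0
  have ε0 := h.prm.ε0
  have δ0 := h.prm.δ0
  refine ((tendsto_const_nhds.add ?_).add (((h.tx hn).abs.add (h.ty hn)).mul
    (tendsto_finsetSum _ fun j hj => (h.tp (mem_Icc.1 hj).1).abs.add
      (h.tq (mem_Icc.1 hj).1).abs))).const_mul M
  have hs : Summable fun j => (((Nat.dist j n : ℕ) : ℝ) + 1) ^ 2 * ((1 + θ) / 2) ^ Nat.dist j n :=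
    summable_of_sum_le (fun j => by positivity) fun u => sum_dist_le
      (φ := fun i : ℕ => ((i : ℝ) + 1) ^ 2 * ((1 + θ) / 2) ^ i) (fun i => by positivity)
      (summable_cth θ0 h.prm.θ1) u n
  refine (tendsto_tsum_of_dominated_convergence (f := fun b₀ j => if j ∈ Icc a (K b₀) then
    θ ^ Nat.dist j n * (|p b₀ bc j| + |q b₀ bc j|) else 0)
    (hs.mul_left (S * ((1 + 3 * ε) ^ (n - m) * (n : ℝ) ^ (1 + δ / 2)))) (fun j => ?_) ?_).congr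
    fun b₀ => ?_
  · by_cases hj : a ≤ j
    · rw [if_pos hj]
      exact (((h.tp hj).abs.add (h.tq hj).abs).const_mul _).congr'
        ((h.top.eventually_ge_atTop j).mono fun b₀ k => (if_pos (mem_Icc.2 ⟨hj, k⟩)).symm)
    · simp [hj]
  · filter_upwards [hm m le_rfl] with b₀ k j
    split_ifs with hj
    · have k1 := weight_le (j := j) (Γ := 1 + 3 * ε) (s := 1 + δ / 2) θ0 (by linarith)
        (by nlinarith [h.prm.εθ, h.prm.θ1]) (by linarith) (by linarith [h.prm.δ1]) m (h.a1.trans hn)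
      rw [Real.norm_of_nonneg (by positivity), mul_assoc]
      calc _ ≤ θ ^ Nat.dist j n * (S * ((1 + 3 * ε) ^ (j - m) * (j : ℝ) ^ (1 + δ / 2))) := by
            gcongr; exact k j (mem_Icc.1 hj).1 (mem_Icc.1 hj).2
        _ = S * (θ ^ Nat.dist j n * ((1 + 3 * ε) ^ (j - m) * (j : ℝ) ^ (1 + δ / 2))) := by ring
        _ ≤ _ := by gcongr
    · rw [norm_zero]; positivity
  · rw [tsum_eq_sum (s := Icc a (K b₀)) fun j hj => if_neg hj]
    exact sum_congr rfl fun j hj => if_pos hj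

theorem cl : CL δ (fun n => C * (|X n| + Y n) ^ δ) X Y P Q (Ainf M B θ a X Y P Q) := by
  have θ0 := h.prm.θ0
  have δ0 := h.prm.δ0
  have δ1 := h.prm.δ1
  have hη : ∀ᶠ n : ℕ in atTop, a ≤ n ∧ 2 ≤ n ∧ |X n| + Y n ≤ 3 / n := h.near.mono fun n ⟨n1, n2, n3, n4⟩ =>
    have n0 : (0 : ℝ) < n := by exact_mod_cast (show 0 < n by omega)
    have e : δ / 2 / 100 / n ≤ δ / 2 / 8 / n := by gcongr; norm_num
    ⟨n1, n2, eta3 (κ := δ / 2) n0 (by linarith) (n3.trans e)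
      (by rw [add_div]; linarith [(abs_le.1 n4).2])⟩
  have hA : ∀ s, 0 ≤ s → s ≤ 2 → (fun n => |P n| + |Q n|) =O[atTop] pw s →
      Ainf M B θ a X Y P Q =O[atTop] pw s := fun s s0 s2 hs => by
    obtain ⟨S, hS, hb⟩ := bound_of_isBigO_nat_atTop hs
    have hb' : ∀ j, a ≤ j → |P j| + |Q j| ≤ S * (j : ℝ) ^ s := fun j hj => by
      have j0 : (0 : ℝ) < (j : ℝ) ^ s :=
        rpow_pos_of_pos (by exact_mod_cast (show 0 < j by have := h.a1; omega)) _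
      have := hb (x := j) j0.ne'
      rwa [Real.norm_of_nonneg (by positivity), Real.norm_of_nonneg j0.le] at this
    refine IsBigO.const_mul_left (((one_bigO s0 B).add
      (bigO_of_le (S * (2 * cth θ)) (isBigO_refl _ _) (hη.mono fun n ⟨n1, n2, _⟩ => ?_))).add
      (bigO_of_le (3 * S) (isBigO_refl _ _) (hη.mono fun n ⟨n1, n2, n3⟩ => ?_))) M
    · have f0 : ∀ j, 0 ≤ if a ≤ j then θ ^ Nat.dist j n * (|P j| + |Q j|) else 0 := fun j => by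
        split_ifs <;> positivity
      rw [abs_of_nonneg (tsum_nonneg f0)]
      refine Real.tsum_le_of_sum_le f0 fun u => ?_
      have k := mul_le_mul_of_nonneg_left (sum_dist_le
        (φ := fun i : ℕ => ((i : ℝ) + 1) ^ 2 * ((1 + θ) / 2) ^ i) (fun i => by positivity)
        (summable_cth θ0 h.prm.θ1) u n) (show 0 ≤ S * (n : ℝ) ^ s by positivity)
      refine le_trans ?_ (k.trans (le_of_eq (by rw [cth]; ring)))
      rw [mul_sum]
      refine sum_le_sum fun j _ => ?_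
      split_ifs with hj
      · have k1 := weight_le (j := j) (n := n) (Γ := 1) θ0 le_rfl (by linarith [h.prm.θ1]) s0 s2 0
          (by omega)
        simp only [one_pow, one_mul] at k1
        calc _ ≤ θ ^ Nat.dist j n * (S * (j : ℝ) ^ s) := by gcongr; exact hb' j hj
          _ = S * (θ ^ Nat.dist j n * (j : ℝ) ^ s) := by ring
          _ ≤ _ := by rw [mul_assoc]; gcongr
      · positivity
    · have n0 : (0 : ℝ) < n := by exact_mod_cast (show 0 < n by omega)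
      have e0 := (h.step n n1).1.eta_pos
      have k : ∑ j ∈ Icc a n, (|P j| + |Q j|) ≤ n * (S * (n : ℝ) ^ s) := by
        refine (sum_le_card_nsmul _ _ (S * (n : ℝ) ^ s) fun j hj => (hb' j (mem_Icc.1 hj).1).trans ?_).trans ?_
        · gcongr; exact (mem_Icc.1 hj).2
        · rw [nsmul_eq_mul, Nat.card_Icc]; gcongr; have := h.a1; omega
      rw [abs_of_nonneg (by positivity)]
      calc _ ≤ 3 / n * (n * (S * (n : ℝ) ^ s)) := by gcongr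
        _ = _ := by field_simp
  refine ⟨δ0, δ1, h.crit.1, h.crit.2.1, bigO_of_le (4 * C) (isBigO_refl _ _)
    (hη.mono fun n ⟨n1, n2, n3⟩ => ?_), (eventually_ge_atTop a).mono fun n hn => ?_, fun s s0 hs => ?_⟩
  · have e0 := (h.step n n1).1.eta_pos
    have C0 := h.prm.C0
    have := mul_le_mul_of_nonneg_left (rpow_le_four (t := n)
      (by exact_mod_cast (show 1 ≤ n by omega)) δ0.le δ1.le e0.le (n3.trans (by gcongr; norm_num))) C0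
    rw [abs_of_nonneg (by positivity)]; linarith
  · have n1 : a ≤ n + 1 := by omega
    have t := ((h.ter hn).mul ((h.tx hn).abs.add (h.ty hn))).mul (h.tA hn)
    exact ⟨(h.step n hn).1, le_of_tendsto_of_tendsto (((h.tp n1).sub (h.tp hn)).add
      (((h.ty hn).const_mul 2).mul (h.tq hn))).abs t ((h.orbc n).mono fun b₀ ⟨k, O⟩ => (O.ln n hn k).hp),
      le_of_tendsto_of_tendsto ((((h.tq n1).sub (h.tq hn)).add ((h.tx hn).mul (h.tq hn))).add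
      ((h.ty hn).mul (h.tp hn))).abs t ((h.orbc n).mono fun b₀ ⟨k, O⟩ => (O.ln n hn k).hq),
      le_of_tendsto_of_tendsto ((h.tp hn).abs.add (h.tq hn).abs) (h.tA hn)
      ((h.orbc n).mono fun b₀ ⟨k, O⟩ => (O.ln n hn k).le)⟩
  · rcases le_total s 2 with h2 | h2
    · exact hA s s0 h2 hs
    · exact (hA _ (by linarith) (by linarith) h.apriori).trans (pw_bigO (by linarith))

/-- the linearised invariant has a positive limit -/
theorem alpha : ∃ α, 0 < α ∧ Tendsto (fun n => X n * P n - Y n * Q n) atTop (𝓝 α) :=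
  h.cl.pos_lim' h.c0 h.apriori ((h.nd.and_eventually (eventually_ge_atTop a)).mono fun _ ⟨k, hn⟩ =>
    le_of_tendsto_of_tendsto (((h.ter hn).mul ((h.tA hn).const_add 1)).const_sub c) (h.tp hn) k)

end Fam

end Crest.Agent.T145.KT
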