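import Crest.Agent.T145.KtK_54

/-!
# Row 145 (helper54): the discrete Kosterlitz-Thouless flow, part L (families: the exit scale)
-/

set_option autoImplicit false

namespace Crest.Agent.T145.KT

open Filter Topology Finset Asymptotics Real

namespace Fam
variable {C δ θ M B τ ε ε₂ c C₁ bc : ℝ} {r a : ℕ} {K : ℝ → ℕ} {x y p q D D' : ℝ → ℝ → ℕ → ℝ}
  {X Y P Q : ℕ → ℝ} (h : Fam C δ θ M B τ ε ε₂ c C₁ bc r a K x y p q D D' X Y P Q)
include h

/-- the orbits follow the critical orbit up to the intermediate scale -/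
theorem window {N : ℝ → ℕ} (hN : Tendsto N (𝓝[<] bc) atTop) (hNK : ∀ b₀, N b₀ ≤ K b₀ - K b₀ / 20)
    (hμ : Tendsto (fun b₀ => (bc - b₀) * (N b₀ : ℝ) ^ (2 + δ / 2)) (𝓝[<] bc) (𝓝 0)) :
    ∃ (m : ℕ) (C₂ L : ℝ), a ≤ m ∧ 2 ≤ m ∧ ∀ᶠ b₀ in 𝓝[<] bc, m ≤ N b₀ ∧ N b₀ < K b₀ ∧
      |D b₀ bc (N b₀)| ≤ C₂ * (N b₀ : ℝ) ^ (-2 - δ) ∧
      ∀ b ∈ Set.Icc b₀ bc, Cls δ (x b₀ b) (y b₀ b) m (N b₀) ∧
        |D b₀ b (N b₀) - (x b₀ b (N b₀) ^ 2 - y b₀ b (N b₀) ^ 2)| ≤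
          9 * (4 * C + 5) * (N b₀ : ℝ) ^ (-2 - δ) ∧ ∀ k, m ≤ k → k ≤ N b₀ →
        |D' b₀ b (N b₀) - 2 * (x b₀ b k * p b₀ b k - y b₀ b k * q b₀ b k)| ≤
          L * (k : ℝ) ^ (-(δ / 2)) := by
  have θ0 := h.prm.θ0
  have θ1 := h.prm.θ1
  have δ0 := h.prm.δ0
  have δ1 := h.prm.δ1
  obtain ⟨C₃, -, m₃, -, h₃⟩ := bigO_iff.1 h.crit.2.2
  have t₃ := (tendsto_pw (s := -δ) (by linarith)).const_mul (C₃ + 96 * C + 106)
  rw [mul_zero] at t₃
  obtain ⟨m, hm⟩ := eventually_atTop.1 (h.near.and ((eventually_geom θ0 θ1 (|C₁| * 2 ^ r) r).and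
    ((eventually_geom θ0 θ1 1 0).and ((eventually_ge_atTop m₃).and
      (t₃.eventually (ge_mem_nhds (show 0 < δ / 2 / 1600 by positivity)))))))
  obtain ⟨B₁, hB₁⟩ : ∃ B₁, B₁ = ∑ j ∈ Icc a m, (|P j| + |Q j|) + 1 := ⟨_, rfl⟩
  obtain ⟨L, hL⟩ : ∃ L, L = Mth M θ * (10 * B₁ + 2 * B) := ⟨_, rfl⟩
  have L0 : 0 ≤ L := by
    have := Mth_nonneg h.prm.M0 θ0
    have := h.prm.B0
    rw [hL, hB₁]; positivity
  have tL := hμ.const_mul (9 * L)
  rw [mul_zero] at tL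
  obtain ⟨am, m2, -⟩ := (hm m le_rfl).1
  refine ⟨m, C₃ + 96 * C + 106, 2 * (72 * (4 * C + 5) * L * ks (-(δ / 2))) + 3 * (4 * C + 5) * L, am, m2, ?_⟩
  filter_upwards [h.orb, ev_U.1 (h.nearU (hm m le_rfl).1), ev_U.1 (h.sumU m), h.amb,
    hN.eventually_ge_atTop m, h.top.eventually_ge_atTop 20,
    tL.eventually (gt_mem_nhds (show 0 < δ / 2 / 1600 by positivity)), self_mem_nhdsWithin]
    with b₀ k1 k2 k3 k4 k5 k6 k7 (k8 : b₀ < bc)
  have k9 := hNK b₀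
  rw [← hB₁] at k3
  have hθ : ∀ n, m ≤ n → n ≤ N b₀ → θ ^ (K b₀ - n) ≤ 1 / (n : ℝ) ^ 3 := fun n n1 n2 =>
    (pow_le_pow_of_le_one θ0 θ1.le (show n / 20 - 1 ≤ K b₀ - n by omega)).trans
      (by simpa using (hm n n1).2.2.1)
  have hD : ∀ n, m ≤ n → n ≤ N b₀ → |D b₀ bc n| ≤
      (C₃ + 96 * C + 106) * (n : ℝ) ^ (-2 - δ) := fun n n1 n2 => by
    obtain ⟨⟨g1, g2, g3, g4⟩, g5, -, g6, -⟩ := hm n n1
    have n0 : (0 : ℝ) < n := by exact_mod_cast (show 0 < n by omega)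
    have hj : ∀ j, n ≤ j → j ≤ n + 1 → |x b₀ bc j - X j| ≤ 1 / (n : ℝ) ^ 3 := fun j j1 j2 => by
      refine (k4 j (by omega) (by omega)).trans (le_trans ?_ g5)
      have : (j : ℝ) ≤ 2 * n := by exact_mod_cast (show j ≤ 2 * n by omega)
      rw [mul_assoc |C₁|, ← mul_pow]
      exact mul_le_mul (mul_le_mul (le_abs_self _) (by gcongr) (by positivity) (abs_nonneg _))
        (pow_le_pow_of_le_one θ0 θ1.le (by omega)) (by positivity) (by positivity)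
    have e1 : δ / 2 / 100 / n ≤ 1 / 2 / n := div_le_div_of_nonneg_right (by linarith) n0.le
    have e2 : (3 : ℝ) / 2 / n = 1 / 2 / n + 1 / n := by ring
    have e3 := abs_add_le (X n - 1 / n) (1 / n)
    rw [sub_add_cancel, abs_of_pos (show (0 : ℝ) < 1 / n by positivity)] at e3
    exact h.prm.cmp (k1 bc ⟨k8.le, le_rfl⟩).1 g1 (by omega) g2 (h.step n g1).1 (h.step n g1).2
      (hj n le_rfl (by omega)) (hj _ (by omega) le_rfl) (by linarith)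
      (by linarith [(abs_le.1 g4).2]) (hθ n n1 n2) (h₃ n g6)
      ((k1 bc ⟨k8.le, le_rfl⟩).2 n g1 (by omega)).val
  have hcl := h.prm.close (B₁ := B₁) h.a1 am m2 k5 (by omega)
    (fun b hb => ⟨(k1 b hb).1, (k1 b hb).2, (k2 b hb).1, k3 b hb⟩) fun n n1 n2 => by
      have n0 : (0 : ℝ) < n := by exact_mod_cast (show 0 < n by omega)
      have e1 : (n : ℝ) ^ (-2 - δ) * (n : ℝ) ^ 2 = (n : ℝ) ^ (-δ) := by
        rw [← rpow_two, ← rpow_add n0]; ring_nf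
      have e2 : (n : ℝ) ^ (δ / 2) * (n : ℝ) ^ 2 ≤ (N b₀ : ℝ) ^ (2 + δ / 2) := by
        rw [← rpow_two, ← rpow_add n0, add_comm]; gcongr
      have e3 := mul_le_mul_of_nonneg_right (hD n n1 n2) (sq_nonneg (n : ℝ))
      have e4 := mul_le_mul_of_nonneg_left e2 (show 0 ≤ 9 * L * (bc - b₀) by
        have := sub_pos.2 k8; positivity)
      have e5 := (hm n n1).2.2.2.2
      rw [mul_assoc, e1] at e3
      rw [← hL, lt_div_iff₀ (by positivity)]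
      simp only [pw] at e5
      linarith
  refine ⟨k5, by omega, hD _ k5 le_rfl, fun b hb => ?_⟩
  obtain ⟨i1, i2⟩ := h.prm.inv (k1 b hb).1 (am.trans k5) (by omega) (by omega)
    (eta3 (by exact_mod_cast (show 0 < N b₀ by omega)) (by linarith) (hcl b hb _ k5 le_rfl).1
      (hcl b hb _ k5 le_rfl).2)
    ((h.prm.lin (k1 b hb).1 h.a1 am m2 k5 (by omega) (hcl b hb) (k3 b hb)).2 _ k5 le_rfl (by omega))
    (hθ _ k5 le_rfl) ((k1 b hb).2 _ (am.trans k5) (by omega))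
  refine ⟨hcl b hb, i1, fun k j1 j2 => ?_⟩
  have i3 := abs_le.1 (h.prm.tele (k1 b hb).1 h.a1 am m2 j1 j2 (by omega) (hcl b hb) (k3 b hb) hθ)
  have i4 : (N b₀ : ℝ) ^ (-(δ / 2)) ≤ (k : ℝ) ^ (-(δ / 2)) := rpow_le_rpow_of_nonpos
    (by exact_mod_cast (show 0 < k by omega)) (by exact_mod_cast j2) (by linarith)
  rw [← hL] at i2 i3
  have i5 := abs_le.1 (i2.trans (mul_le_mul_of_nonneg_left i4 (by have := h.prm.C0; positivity)))
  rw [abs_le]; constructor <;> linarith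

/-- **the exit scale**: `√(bc - b₀) K b₀` has a positive limit -/
theorem scale : ∃ A, 0 < A ∧ Tendsto (fun b₀ => √(bc - b₀) * K b₀) (𝓝[<] bc) (𝓝 A) := by
  have θ0 := h.prm.θ0
  have θ1 := h.prm.θ1
  have δ0 := h.prm.δ0
  have δ1 := h.prm.δ1
  have C0 := h.prm.C0
  have ε0 := h.prm.ε0
  have ε2 := h.ε0
  obtain ⟨α, α0, hα⟩ := h.alpha
  obtain ⟨N₀, t1, t2, t3⟩ := exists_window (half_pos δ0) (half_lt_self δ0)
  have hμ0 : ∀ᶠ b₀ in 𝓝[<] bc, 0 < bc - b₀ := eventually_mem_nhdsWithin.mono fun _ hb => sub_pos.2 hb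
  have tμ' : Tendsto (fun b₀ => bc - b₀) (𝓝[<] bc) (𝓝 0) := by
    simpa using ((tendsto_id (x := 𝓝 bc)).const_sub bc).mono_left nhdsWithin_le_nhds
  have tμ : Tendsto (fun b₀ => bc - b₀) (𝓝[<] bc) (𝓝[>] 0) := tendsto_nhdsWithin_iff.2 ⟨tμ', hμ0⟩
  obtain ⟨N, hN⟩ : ∃ N : ℝ → ℕ, ∀ b₀, N b₀ = min (N₀ (bc - b₀)) (K b₀ - K b₀ / 20) := ⟨_, fun _ => rfl⟩
  have tN : Tendsto N (𝓝[<] bc) atTop := tendsto_atTop.2 fun n => by
    filter_upwards [(t1.comp tμ).eventually_ge_atTop n, h.top.eventually_ge_atTop (2 * n)] with b₀ k1 k2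
    rw [hN]; exact le_min k1 (by omega)
  have hNK : ∀ b₀, N b₀ ≤ K b₀ - K b₀ / 20 := fun b₀ => hN b₀ ▸ min_le_right _ _
  have s2 : Tendsto (fun b₀ => (bc - b₀) * (N b₀ : ℝ) ^ (2 + δ / 2)) (𝓝[<] bc) (𝓝 0) := by
    refine squeeze_zero' (hμ0.mono fun b₀ k => by positivity) (hμ0.mono fun b₀ k => ?_) (t2.comp tμ)
    have : N b₀ ≤ N₀ (bc - b₀) := hN b₀ ▸ min_le_left _ _
    simp only [Function.comp]; gcongr
  obtain ⟨m, C₂, L, am, m2, W⟩ := h.window tN hNK s2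
  have hb : ∀ {s : ℝ → ℝ → Prop}, (∀ᶠ b₀ in 𝓝[<] bc, ∀ b ∈ Set.Icc b₀ bc, s b₀ b) →
      ∀ᶠ b₀ in 𝓝[<] bc, s b₀ b₀ := fun k => by
    filter_upwards [k, hμ0] with b₀ k1 k2 using k1 b₀ ⟨le_rfl, by linarith⟩
  have W' : ∀ᶠ b₀ in 𝓝[<] bc, |x b₀ b₀ (N b₀) - 1 / N b₀| ≤ δ / 2 / 8 / N b₀ ∧
      y b₀ b₀ (N b₀) ≤ (1 + δ / 2 / 8) / N b₀ :=
    hb (s := fun b₀ b => |x b₀ b (N b₀) - 1 / N b₀| ≤ _ ∧ y b₀ b (N b₀) ≤ _)
      (W.mono fun _ k b k' => (k.2.2.2 b k').1 _ k.1 le_rfl)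
  have O := (hb h.orb).mono fun _ k => k.1
  have hEq : ∀ᶠ b₀ in 𝓝[<] bc, N₀ (bc - b₀) = N b₀ := by
    filter_upwards [W, W', O, h.exit, (tendsto_natCast_atTop_atTop.comp h.top).eventually_gt_atTop
      (6 * (1 / ε₂))] with b₀ k1 k2 k3 k4 (k5 : _ < (K b₀ : ℝ))
    by_contra hne
    have e : N b₀ + K b₀ / 20 = K b₀ := by have := hN b₀; omega
    have e1 : (N b₀ : ℝ) + (K b₀ / 20 : ℕ) = K b₀ := by exact_mod_cast e
    have e2 : 20 * ((K b₀ / 20 : ℕ) : ℝ) ≤ K b₀ := by exact_mod_cast Nat.mul_div_le _ _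
    have n0 : (0 : ℝ) < N b₀ := by exact_mod_cast (show 0 < N b₀ by omega)
    have a1 := eta_inv k1.2.1.le fun j j1 j2 =>
      ⟨k3.st j (by omega) j2, (h.prm.wn k3 (by omega) j2).trans h.prm.w⟩
    have a2 := one_div_le_one_div_of_le (add_pos_of_nonneg_of_pos (abs_nonneg (x b₀ b₀ (N b₀)))
      (k3.st _ (by omega) k1.2.1).pos) (eta3 n0 (by linarith) k2.1 k2.2)
    have a3 := one_div_le_one_div_of_le ε2 k4
    rw [one_div_div] at a2
    linarith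
  have s3 : ∀ c t, 0 < t → ∀ᶠ b₀ in 𝓝[<] bc, c * (N b₀ : ℝ) ^ (-2 - δ) ≤ t * (bc - b₀) := by
    intro c t ht
    filter_upwards [(t3.comp tμ).eventually_ge_atTop (c / t), hEq, tN.eventually_ge_atTop 1]
      with b₀ k1 k2 k3
    have n0 : (0 : ℝ) < N b₀ := by exact_mod_cast k3
    simp only [Function.comp, k2] at k1
    rw [div_le_iff₀ ht] at k1
    rw [show -2 - δ = -(2 + δ) by ring, rpow_neg n0.le, ← div_eq_mul_inv, div_le_iff₀ (by positivity)]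
    linarith
  have hinv : ∀ t, 0 < t → ∀ᶠ b₀ in 𝓝[<] bc,
      |y b₀ b₀ (N b₀) ^ 2 - x b₀ b₀ (N b₀) ^ 2 - 2 * α * (bc - b₀)| ≤ t * (bc - b₀) := by
    intro t ht
    have u := (tendsto_pw (s := -(δ / 2)) (by linarith)).const_mul L
    rw [mul_zero] at u
    obtain ⟨k, k1, k2, k3⟩ := ((eventually_ge_atTop m).and ((u.eventually
      (ge_mem_nhds (show 0 < t / 12 by positivity))).and (ev_abs hα (show 0 < t / 12 by positivity)))).exists
    obtain ⟨u1, u2, u3, u4⟩ := h.tU (am.trans k1)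
    filter_upwards [W, h.orb, ev_U.1 (ev_abs ((u1.mul u3).sub (u2.mul u4))
      (show 0 < t / 12 by positivity)), tN.eventually_ge_atTop k, s3 C₂ _ (show 0 < t / 4 by positivity),
      hμ0, s3 (9 * (4 * C + 5)) _ (show 0 < t / 4 by positivity)] with b₀ g1 g2 g3 g4 g5 g6 g7
    have := Convex.norm_image_sub_le_of_norm_hasDerivWithin_le (s := Set.Icc b₀ bc) (C := t / 2)
      (f := fun b => D b₀ b (N b₀) - 2 * α * b) (f' := fun b => D' b₀ b (N b₀) - 2 * α * 1)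
      (fun b k' => (((g2 b k').2 (N b₀) (by omega) g1.2.1).der.sub
        ((hasDerivAt_id' b).const_mul (2 * α))).hasDerivWithinAt)
      (fun b k' => by
        have a1 := abs_le.1 ((g1.2.2.2 b k').2.2 k k1 g4)
        have a2 := abs_le.1 (g3 b k')
        have a3 := abs_le.1 k3
        simp only [pw] at k2 a2
        rw [Real.norm_eq_abs, abs_le]; constructor <;> linarith)
      (convex_Icc _ _) (Set.left_mem_Icc.2 (by linarith)) (Set.right_mem_Icc.2 (by linarith))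
    rw [Real.norm_eq_abs, Real.norm_of_nonneg g6.le] at this
    have a1 := abs_le.1 this
    have a2 := abs_le.1 (g1.2.2.1.trans g5)
    have a3 := abs_le.1 ((g1.2.2.2 b₀ ⟨le_rfl, by linarith⟩).2.1.trans g7)
    rw [abs_le]; constructor <;> linarith
  obtain ⟨l, hl⟩ : ∃ l : ℝ → ℝ, ∀ b₀, l b₀ = √(2 * α) * √(bc - b₀) := ⟨_, fun _ => rfl⟩
  have l0 : ∀ᶠ b₀ in 𝓝[<] bc, 0 < l b₀ ∧ l b₀ ^ 2 = 2 * α * (bc - b₀) := hμ0.mono fun b₀ k => by
    rw [hl, mul_pow, sq_sqrt k.le, sq_sqrt (by positivity)]; exact ⟨by positivity, rfl⟩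
  have tl : Tendsto l (𝓝[<] bc) (𝓝 0) := by
    simpa only [← hl, sqrt_zero, mul_zero] using tμ'.sqrt.const_mul √(2 * α)
  have tlN : Tendsto (fun b₀ => l b₀ * N b₀) (𝓝[<] bc) (𝓝 0) := by
    have u := (s2.const_mul (2 * α)).sqrt
    rw [mul_zero, sqrt_zero] at u
    refine squeeze_zero' (l0.mono fun b₀ k => mul_nonneg k.1.le (Nat.cast_nonneg _)) ?_ u
    filter_upwards [l0, hμ0, tN.eventually_ge_atTop 1] with b₀ k1 k2 k3
    refine le_sqrt_of_sq_le ?_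
    rw [mul_pow, k1.2, mul_assoc, ← rpow_two]
    gcongr
    · exact_mod_cast k3
    · linarith
  obtain ⟨k, hk⟩ := exists_pow_lt_of_lt_one (rpow_pos_of_pos ε2 δ) (show (1 + θ) / 2 < 1 by linarith)
  have main : Tendsto (fun b₀ => l b₀ * (((K b₀ - k : ℕ) : ℝ) - N b₀)) (𝓝[<] bc) (𝓝 π) := by
    refine tendsto_of_abs fun t ht => ?_
    obtain ⟨ρ, ρ0, hρ⟩ := exit_hor (C := C + 1) (ε₂ := ε₂ / (1 + 3 * ε) ^ k) (by linarith) δ0 ε0
      (by positivity) h.prm.w1 ht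
    filter_upwards [W, W', O, h.exit, l0, hinv (ρ * (2 * α)) (by positivity),
      s3 ((C + 1 + 1) * 4 * 2) (ρ * (2 * α)) (by positivity), h.top.eventually_ge_atTop (20 * k),
      tlN.eventually (ge_mem_nhds (half_pos ρ0)), (tendsto_natCast_atTop_atTop.comp tN).eventually_ge_atTop
      (max 4 (2 / ρ))] with b₀ g1 g2 g3 g4 g5 g6 g7 g8 g9 (g10 : _ ≤ (N b₀ : ℝ))
    have := hNK b₀
    have n4 := (le_max_left _ _).trans g10
    have n0 : (0 : ℝ) < N b₀ := by linarith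
    have a1 := abs_le.1 g2.1
    have a2 : δ / 2 / 8 / N b₀ ≤ 1 / 3 * (1 / N b₀) := by
      rw [mul_one_div]; exact div_le_div_of_nonneg_right (by linarith) n0.le
    have a3 : 0 < 1 / (N b₀ : ℝ) := by positivity
    have a4 : 1 / (N b₀ : ℝ) ≤ 1 / 4 := by gcongr
    have a5 : 2 * (1 / (N b₀ : ℝ)) ≤ ρ := by
      have := (le_max_right _ _).trans g10
      rw [div_le_iff₀ ρ0] at this
      rw [mul_one_div, div_le_iff₀ n0]; linarith
    refine hρ _ (y b₀ b₀) _ _ _ (by omega) (fun n n1 n2 => ⟨g3.step C0 δ0.le δ1.le θ0 h.prm.τ0 ε0.le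
      h.prm.εθ h.prm.w ε2.le hk.le g4 n (by omega) (by omega) (by omega),
      g3.small n (by omega) (by omega)⟩) ?_ g5.1 ?_ (by linarith) ?_ (by rw [g5.2]; linarith)
    · have := g4.trans (g3.eta_back C0 δ0.le θ0 θ1.le h.prm.τ0 ε0.le h.prm.w (K b₀ - k) (by omega)
        (by omega))
      rwa [show K b₀ - (K b₀ - k) = k by omega, ← div_le_iff₀' (by positivity)] at this
    · rw [← le_div_iff₀ n0, div_eq_mul_one_div (ρ / 2)] at g9
      nlinarith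
    · have b1 : 3 * x b₀ b₀ (N b₀) ≤ 4 / N b₀ := by rw [div_eq_mul_one_div]; linarith
      have b2 := (om_le (C := C + 1) δ1.le δ0.le (by linarith) (by linarith)).trans
        (mul_le_mul_of_nonneg_left (rpow_le_four (by linarith) δ0.le δ1.le (by linarith) b1)
          (by linarith))
      have b3 : x b₀ b₀ (N b₀) ^ 2 ≤ 2 * (1 / N b₀) ^ 2 := by nlinarith
      have e1 : (N b₀ : ℝ) ^ (-2 - δ) = (N b₀ : ℝ) ^ (-δ) * (1 / N b₀) ^ 2 := by
        rw [one_div, inv_pow, ← rpow_two, ← rpow_neg n0.le, ← rpow_add n0]; ring_nf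
      have b4 := mul_le_mul b2 b3 (sq_nonneg _) (by positivity)
      rw [e1] at g7
      rw [g5.2]; linarith
  have fin : Tendsto (fun b₀ => l b₀ * K b₀) (𝓝[<] bc) (𝓝 π) := by
    have := (main.add tlN).add (tl.mul_const (k : ℝ))
    simp only [zero_mul, add_zero] at this
    refine this.congr' ((h.top.eventually_ge_atTop k).mono fun b₀ g => ?_)
    simp only [Nat.cast_sub g]; ring
  have α1 : 0 < √(2 * α) := by positivity
  refine ⟨π / √(2 * α), by positivity, (fin.div_const _).congr fun b₀ => ?_⟩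
  rw [hl]; field_simp

end Fam

end Crest.Agent.T145.KT
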