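import Crest.Agent.T145.KrV_90

/-!
# Row 145: the abstract kernel theorem on a floating weight; MIX and the dipole expansion in a sector (helper90)
-/

set_option autoImplicit false

namespace Crest.Agent.T145.Kr.V90

open Finset Real KrA B90

/-- the floating weight with the level fixed by the tent -/
noncomputable def fw {L X Y : Type} (A : Act X) (ρ : L → ℝ) (d : L → X × Y) (l : L) : ℝ :=
  KrA.tw (A.H (d l).1) * ρ l

/-- the weight restricted to a sector -/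
noncomputable def sw {L X Y : Type} (A : Act X) (ρ : L → ℝ) (d : L → X × Y) (P : X → Prop) (Q : Y → Prop)
    (l : L) : ℝ := ind (P (d l).1 ∧ Q (d l).2) * fw A ρ d l

/-- clamp to `[-c, c]` -/
noncomputable def cl (c x : ℝ) : ℝ := max (-c) (min x c)

theorem abs_cl {c : ℝ} (hc : 0 ≤ c) (x : ℝ) : |cl c x| ≤ c :=
  abs_le.2 ⟨le_max_left _ _, max_le (by linarith) (min_le_right _ _)⟩

theorem cl_of {c x : ℝ} (h : |x| ≤ c) : cl c x = x := by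
  rw [cl, min_eq_left (abs_le.1 h).2, max_eq_right (abs_le.1 h).1]

/-- **(K#), abstract**: typical sets, tails, K1 + K2 and the windowed (K0) give the shape of the data law -/
theorem ksh (κ₀ κ₁ M₀ η A₂ C : ℝ) (κ0 : 0 < κ₀) (η0 : 0 < η) (A0 : 0 ≤ A₂) (C0 : 0 ≤ C) :
    ∃ K e : ℝ, 0 < K ∧ 0 < e ∧ ∀ (L X Y : Type) (A : Act X) (B : Act Y) (ρ : L → ℝ) (d : L → X × Y)
      (σ : ℤ → L ≃ L) (n : L ≃ L) (Z κ η₁ ε : ℝ) (y : X → Y → ℝ) (Bq : X × Y → ℝ) (B₁ p₁ nA : X → ℝ)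
      (B₂ p₂ nB : Y → ℝ), Flt A B ρ d σ n → Zs (fw A ρ d) = Z →
      (∀ i a b, y (A.s i a) b = y a b) → (∀ i a b, y a (B.s i b) = y a b) →
      (∀ a b, y (A.ng a) (B.ng b) = y a b) → κ₀ ≤ κ → κ ≤ κ₁ → exp (-(2 * π ^ 2 / κ)) ≤ 1 / 2 →
      (∀ a b, A.T a → B.T b → |y a b| ≤ M₀) →
      Pr (fw A ρ d) (fun l => ¬ (A.T (d l).1 ∧ B.T (d l).2)) ≤ η₁ →
      Pr (fw A ρ d) (fun l => K / 2 < |A.H (d l).1 - B.H (d l).2|) ≤ A₂ / (K / 2) ^ 2 →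
      (∀ a, A.T a → nA a ≤ A₂ * (1 + A.H a ^ 2)) → (∀ b, B.T b → nB b ≤ A₂ * (1 + B.H b ^ 2)) →
      (∀ a b, Bq (a, b) ≤ C * (nA a + nB b) ∧
        |Bq (a, b) / 2 - (B₁ a + B₂ b + κ * A.H a * B.H b + y a b)| ≤ ε * (nA a + nB b)) →
      0 ≤ ε → ε ≤ e → (∀ a, 0 ≤ p₁ a) → (∀ b, 0 ≤ p₂ b) →
      (∀ S : Finset (X × Y), (∀ z ∈ S, |A.H z.1| ≤ K) →
        ∑ z ∈ S, |push ρ d z / Z * exp (-Bq z / 2) - p₁ z.1 * p₂ z.2| ≤ e) →
      ∃ p q, KrA.Shp A B (fun z => push ρ d z / Z) κ y p q (η₁ + 2 * η) := by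
  obtain ⟨K₀, h⟩ := ksStmt κ₀ κ₁ M₀ η κ0 η0
  set K := max K₀ (1 + 4 * A₂ / η) with hK
  have q0 : 0 ≤ 4 * A₂ / η := by positivity
  have K1 : 1 + 4 * A₂ / η ≤ K := le_max_right _ _
  have K0 : 0 < K := by linarith
  have Kt : A₂ / (K / 2) ^ 2 ≤ η := by
    rw [div_le_iff₀ (by positivity)]
    have : 4 * A₂ / η ≤ K ^ 2 := by nlinarith
    rw [div_le_iff₀ η0] at this; linarith
  set N := 2 * (A₂ * (1 + K ^ 2)) with hN
  have N0 : 0 ≤ N := by positivity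
  obtain ⟨e, e0, h⟩ := h K (C * N) (le_max_left _ _)
  refine ⟨K, min e (e / (N + 1)), K0, by positivity, fun L X Y A B ρ d σ n Z κ η₁ ε y Bq B₁ p₁ nA B₂ p₂ nB hF hZ
    ya yb yn k0 k1 hl y1 t1 t2 hA hB k2 ε0 ε1 p0 q0' hK0 => ?_⟩
  have hP := hF.pre hZ ya yb yn
  obtain ⟨p, q, P0, Q0, pe, qe, sp, sq, -, c⟩ := h X Y A B _ Bq y p₁ B₁ p₂ B₂ κ (η₁ + η) k0 k1 hP y1 p0 q0'
    (by
      rw [hF.tsum hZ (C := 1) fun _ => abs_ind_le _]
      refine le_trans ?_ (add_le_add t1 (t2.trans Kt))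
      refine (hF.wt.pr_mono fun l _ hl => ?_).trans (hF.wt.pr_or_le _ _)
      by_contra h'
      rw [not_or, not_not, not_lt] at h'
      exact hl ⟨h'.1.1, h'.1.2, h'.2⟩)
    (fun S hS => (hK0 S hS).trans (min_le_left _ _))
    (fun a b h1 h2 h3 h4 => by
      have m1 := (hA a h1).trans (mul_le_mul_of_nonneg_left
        (add_le_add_right (sq_le_sq' (abs_le.1 h2).1 (abs_le.1 h2).2) 1) A0)
      have m2 := (hB b h3).trans (mul_le_mul_of_nonneg_left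
        (add_le_add_right (sq_le_sq' (abs_le.1 h4).1 (abs_le.1 h4).2) 1) A0)
      have m3 : nA a + nB b ≤ N := by linarith
      refine ⟨(k2 a b).1.trans (mul_le_mul_of_nonneg_left m3 C0), (k2 a b).2.trans
        ((mul_le_mul_of_nonneg_left m3 ε0).trans ?_)⟩
      have := (le_div_iff₀ (by linarith)).1 (ε1.trans (min_le_right _ _))
      linarith)
  exact ⟨_, _, shp_of_ks hP (κ0.trans_le k0) hl y1 P0 Q0 pe qe sp sq (c.trans_eq (by ring))⟩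

variable {L X Y : Type} {A : Act X} {B : Act Y} {ρ : L → ℝ} {d : L → X × Y} {σ : ℤ → L ≃ L} {n : L ≃ L}
  {Z κ η β₁ m C : ℝ} {y : X → Y → ℝ} {p : X → ℝ} {q : Y → ℝ} {P : X → Prop} {Q : Y → Prop} {c : Y → ℝ}

/-- a sector `P × Q` of mass at least `m` on which `y` is within `β₁` of a function of the outer data -/
structure Sct (A : Act X) (B : Act Y) (ρ : L → ℝ) (d : L → X × Y) (y : X → Y → ℝ) (P : X → Prop)
    (Q : Y → Prop) (c : Y → ℝ) (β₁ m C : ℝ) : Prop where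
  hQ : ∀ i b, Q (B.s i b) ↔ Q b
  hc : ∀ b, B.T b → Q b → c b ≤ C
  β0 : 0 ≤ β₁
  y1 : ∀ a b, A.T a → B.T b → P a → Q b → |y a b - c b| ≤ β₁
  m0 : 0 < m
  hm : m ≤ Pr (fw A ρ d) fun l => P (d l).1 ∧ Q (d l).2

/-- **MIX in a sector** -/
theorem mix (hF : Flt A B ρ d σ n) (hZ : Zs (fw A ρ d) = Z)
    (h : KrA.Shp A B (fun z => push ρ d z / Z) κ y p q η) (hκ : 0 < κ) (hS : Sct A B ρ d y P Q c β₁ m C)
    (hη : η ≤ m / 20) (hω : β₁ + exp (-(2 * π ^ 2 / κ)) ≤ 1 / 60) {F : X → ℝ} {G : Y → ℝ} {a b : ℝ}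
    (hF' : ∀ x, 0 ≤ F x ∧ F x ≤ a) (hG : ∀ x, 0 ≤ G x ∧ G x ≤ b) (ha : 0 ≤ a) (hb : 0 ≤ b)
    (Gs : ∀ i x, G (B.s i x) = G x) :
    |Cv (sw A ρ d P Q) (fun l => F (d l).1) fun l => G (d l).2| ≤
      15 * (β₁ + exp (-(2 * π ^ 2 / κ))) *
        (Ex (sw A ρ d P Q) (fun l => F (d l).1) * Ex (sw A ρ d P Q) fun l => G (d l).2) +
        8 * (η / m) * (a * b) := by
  have l0 := exp_pos (-(2 * π ^ 2 / κ))
  have β0 := hS.β0
  have m0 := hS.m0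
  obtain ⟨μ, p', q', hf, -, -, e⟩ := sector hF hZ h hκ P Q hS.hQ c hS.hc β0 hS.y1 m0 hS.hm (by linarith)
    (by linarith) (by linarith)
  have := hf.mix (by rw [div_le_iff₀ m0]; linarith) (by linarith) ha hb (fun x => (hF' x).1)
    (fun x => (hF' x).2) (fun x => (hG x).1) fun x => (hG x).2
  have F1 : ∀ x, |F x| ≤ a := fun x => (abs_of_nonneg (hF' x).1).trans_le (hF' x).2
  have G1 : ∀ x, |G x| ≤ b := fun x => (abs_of_nonneg (hG x).1).trans_le (hG x).2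
  rw [e _ (a * b) (fun x z => by rw [abs_mul]; exact mul_le_mul (F1 x) (G1 z) (abs_nonneg _) ha)
    (fun i _ z => by rw [Gs]), e _ a (fun x _ => F1 x) (fun _ _ _ => rfl),
    e _ b (fun _ z => G1 z) fun i _ z => Gs i z] at this
  exact this.trans_eq (by unfold sw fw; ring)

/-- **rank `|T|` expansion in a sector**: the outer functions `cl d₀ (dd i ·)` do not depend on `F` -/
theorem vec (hF : Flt A B ρ d σ n) (hZ : Zs (fw A ρ d) = Z)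
    (h : KrA.Shp A B (fun z => push ρ d z / Z) κ y p q η) (hκ : 0 < κ) (hS : Sct A B ρ d y P Q c β₁ m C)
    (hη : η ≤ m / 2) (hβ : β₁ ≤ 1 / 20) (hl : exp (-(2 * π ^ 2 / κ)) ≤ 1 / 20) {ι : Type} (T : Finset ι)
    {yy : ι → X → ℝ} {dd : ι → Y → ℝ} {y₀ d₀ β₂ : ℝ} (hy0 : 0 ≤ y₀) (hd0 : 0 ≤ d₀) (β2 : 0 ≤ β₂)
    (hy : ∀ i ∈ T, ∀ a, A.T a → P a → |yy i a| ≤ y₀) (hd : ∀ i ∈ T, ∀ b, B.T b → Q b → |dd i b| ≤ d₀)
    (ds : ∀ i j b, dd i (B.s j b) = dd i b)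
    (y2 : ∀ a b, A.T a → B.T b → P a → Q b → |y a b - c b - ∑ i ∈ T, yy i a * dd i b| ≤ β₂)
    {F : X → ℝ} {N : ℝ} (hN : 0 ≤ N) (hF' : ∀ a, |F a| ≤ N) {φ : Y → ℝ} {M : ℝ} (hM : 0 ≤ M)
    (hφ : ∀ b, |φ b| ≤ M) (φs : ∀ i b, φ (B.s i b) = φ b) :
    |Cv (sw A ρ d P Q) (fun l => F (d l).1) (fun l => φ (d l).2) -
      ∑ i ∈ T, Cv (sw A ρ d P Q) (fun l => F (d l).1) (fun l => cl y₀ (yy i (d l).1)) *
        Cv (sw A ρ d P Q) (fun l => cl d₀ (dd i (d l).2)) fun l => φ (d l).2| ≤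
      N * M * (4 * (η / m) + 12 * (β₂ + β₁ ^ 2 + 6 * exp (-(2 * π ^ 2 / κ))) +
        60 * (η / m + 9 * (β₁ + exp (-(2 * π ^ 2 / κ)))) * (T.card * (y₀ * d₀))) := by
  have l0 := exp_pos (-(2 * π ^ 2 / κ))
  obtain ⟨μ, p', q', hf, pT, qT, e⟩ := sector hF hZ h hκ P Q hS.hQ c hS.hc hS.β0 hS.y1 hS.m0 hS.hm hη hβ hl
  have := hf.vec T (yy := fun i a => cl y₀ (yy i a)) (d := fun i b => cl d₀ (dd i b))
    (β := β₂ + β₁ ^ 2 + 2 * (3 * exp (-(2 * π ^ 2 / κ)))) hy0 hd0 (by positivity)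
    (fun i _ a => abs_cl hy0 _) (fun i _ b => abs_cl hd0 _) (fun a b ha hb => by
      rw [sum_congr rfl fun i hi => by
        rw [cl_of (hy i hi a (pT a ha).1 (pT a ha).2), cl_of (hd i hi b (qT b hb).1 (qT b hb).2)]]
      exact ker_vec (thk_near hκ (by linarith) _) (hS.y1 a b (pT a ha).1 (qT b hb).1 (pT a ha).2 (qT b hb).2)
        (by linarith) (y2 a b (pT a ha).1 (qT b hb).1 (pT a ha).2 (qT b hb).2)) hN hF' hM hφ
  have am : ∀ {u v U V : ℝ}, |u| ≤ U → |v| ≤ V → |u * v| ≤ U * V := fun h1 h2 => by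
    rw [abs_mul]; exact mul_le_mul h1 h2 (abs_nonneg _) ((abs_nonneg _).trans h1)
  rw [e _ _ (fun a b => am (hF' a) (hφ b)) (fun i _ z => by rw [φs]), e _ _ (fun a _ => hF' a) (fun _ _ _ => rfl),
    e _ _ (fun _ b => hφ b) (fun i _ z => φs i z), sum_congr rfl fun i _ => by
      rw [e _ _ (fun a _ => am (hF' a) (abs_cl hy0 (yy i a))) (fun _ _ _ => rfl),
        e _ _ (fun a _ => abs_cl hy0 (yy i a)) (fun _ _ _ => rfl),
        e _ _ (fun _ b => am (abs_cl hd0 (dd i b)) (hφ b)) (fun j _ z => by rw [φs, ds]),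
        e _ _ (fun _ b => abs_cl hd0 (dd i b)) fun j _ z => by rw [ds]]] at this
  exact this.trans_eq (by ring)

end Crest.Agent.T145.Kr.V90
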