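import Crest.Agent.T145.KvDef_8
import Crest.Agent.T145.KrKs_90
import Crest.Agent.T145.KrKsh_77

/-!
# Row 145, module Kv: (K#) on the extended lattice (helper77)
-/

set_option autoImplicit false

namespace Crest.Agent.T145.Kv

open Finset Real Filter Topology KrA

namespace K77

theorem thf_le {κ : ℝ} (hκ : 0 < κ) (u : ℝ) : 0 ≤ thf κ u ∧ thf κ u ≤ 3 * √(2 * π / min κ 1) := by
  have k0 : 0 < min κ 1 := lt_min hκ one_pos
  have hl := exp_two_pi_le k0 (min_le_right _ _)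
  have h := (abs_le.1 (thk_near k0 hl u)).2
  rw [thk, sub_le_iff_le_add, div_le_iff₀ (sqrt_pos.2 (by positivity))] at h
  refine ⟨tsum_nonneg fun _ => (exp_pos _).le, le_trans ((summ_thf hκ u).tsum_le_tsum (fun j => ?_)
    (summ_thf k0 u)) (h.trans (mul_le_mul_of_nonneg_right (by linarith) (sqrt_nonneg _)))⟩
  exact exp_le_exp.2 (by nlinarith [sq_nonneg (u - j), min_le_left κ 1])

theorem shp {X Y : Type} {A : Act X} {B : Act Y} {ν : X × Y → ℝ} {y : X → Y → ℝ} {p : X → ℝ} {q : Y → ℝ}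
    {κ η M₀ : ℝ} (hP : Kr.Pre A B ν y) (hκ : 0 < κ) (y1 : ∀ a b, A.T a → B.T b → |y a b| ≤ M₀)
    (p0 : ∀ a, 0 ≤ p a) (q0 : ∀ b, 0 ≤ q b) (pe : ∀ a, p (A.ng a) = p a) (qe : ∀ b, q (B.ng b) = q b)
    (sA : Summable (A.pib p)) (sB : Summable (B.pib q))
    (cl : ∑' z : X × Y, |mub A B ν z - A.pib p z.1 * B.pib q z.2 *
      (thf κ (A.H z.1 - B.H z.2) * exp (y z.1 z.2))| ≤ η) :
    KrA.Shp A B ν κ y (fun a => √(2 * π / κ) * A.pib p a) (B.pib q) η := by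
  have s0 : 0 < √(2 * π / κ) := sqrt_pos.2 (by positivity)
  refine ⟨hP.nonneg, hP.one, fun a => mul_nonneg s0.le (A.pib_nonneg p0 a), sA.mul_left _,
    B.pib_nonneg q0, sB, fun a ha => (A.pib_ne (right_ne_zero_of_mul ha)).1, fun b hb => (B.pib_ne hb).1,
    fun a => by rw [A.pib_ng pe], B.pib_ng qe, ?_, le_of_eq_of_le (tsum_congr fun z => ?_) cl⟩
  · refine ((hasSum_mub_one A B hP.nonneg hP.one).summable.sub (summ_bdd
      («π» := fun z : X × Y => √(2 * π / κ) * A.pib p z.1 * B.pib q z.2)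
      (U := 3 * √(2 * π / min κ 1) / √(2 * π / κ) * exp M₀)
      (fun z => mul_nonneg (mul_nonneg s0.le (A.pib_nonneg p0 _)) (B.pib_nonneg q0 _))
      (summ_tens (sA.mul_left _) sB) fun z hz => ?_)).abs
    have := thf_le hκ (A.H z.1 - B.H z.2)
    rw [abs_mul, abs_of_pos (exp_pos _), thk, abs_of_nonneg (div_nonneg this.1 s0.le)]
    exact mul_le_mul (div_le_div_of_nonneg_right this.2 s0.le) (exp_le_exp.2 (abs_le.1 (y1 _ _
      (A.pib_ne (right_ne_zero_of_mul (left_ne_zero_of_mul hz))).1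
      (B.pib_ne (right_ne_zero_of_mul hz)).1)).2) (exp_pos _).le (by positivity)
  · congr 2; rw [thk]; field_simp

/-- the tail of the window -/
theorem tail {X Y : Type} {A : Act X} {B : Act Y} {ν : X × Y → ℝ} {y : X → Y → ℝ} {K e₁ e₂ : ℝ}
    (hP : Kr.Pre A B ν y)
    (h1 : ∑' z : X × Y, tw (A.H z.1) * ν z * ind (¬ (A.T z.1 ∧ B.T z.2)) ≤ e₁)
    (h2 : ∑' z : X × Y, tw (A.H z.1) * ν z * ind (K < |A.H z.1 - B.H z.2|) ≤ e₂) :
    ∑' z : X × Y, tw (A.H z.1) * ν z * ind (¬ (A.T z.1 ∧ B.T z.2 ∧ |A.H z.1 - B.H z.2| ≤ K)) ≤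
      e₁ + e₂ := by
  have w0 : ∀ z : X × Y, 0 ≤ tw (A.H z.1) * ν z := fun z => mul_nonneg (tw_nonneg _) (hP.nonneg z)
  have S : ∀ p : X × Y → Prop, Summable fun z : X × Y => tw (A.H z.1) * ν z * ind (p z) := fun p =>
    summ_bdd w0 hP.one.summable (U := 1) fun z _ => by
      rw [abs_of_nonneg (ind_nonneg _)]; exact ind_le_one _
  refine le_trans ?_ (add_le_add h1 h2)
  rw [← (S _).tsum_add (S _)]
  refine (S _).tsum_le_tsum (fun z => ?_) ((S _).add (S _))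
  rw [← mul_add]
  refine mul_le_mul_of_nonneg_left ((ind_mono fun h => ?_).trans (ind_or_le _ _)) (w0 z)
  by_contra h'
  rw [not_or, not_not, not_lt] at h'
  exact h ⟨h'.1.1, h'.1.2, h'.2⟩

/-- the capacity and the cross term are bounded on the typical sets -/
theorem y_bd {V : Gv} (Al : V.Alg) {A B : Act (Cfg Pt)} {α C T : ℝ} (α0 : 0 ≤ α) (C0 : 0 ≤ C) (T0 : 0 ≤ T)
    (hI : V.IsI A α) (hO : V.IsO B α)
    (h2 : ∀ s t, |V.B (V.ma s) (V.mb t)| ≤ C * (V.nm (V.ma s) + V.nm (V.mb t)))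
    (ha : ∀ a, A.T a → V.nm (V.ma a) ≤ 2 * α + T * pr V.eq a ^ 2)
    (hb : ∀ b, B.T b → V.nm (V.mb b) ≤ 2 * α + T * pr V.te b ^ 2) :
    V.cp ≤ C * (4 * α + 2 * T) ∧ ∀ a b, A.T a → B.T b → |V.y0 a b| ≤ 2 * (C * (4 * α + 2 * T)) := by
  have key : ∀ a b, A.T a → B.T b → |A.H a| ≤ 1 → |B.H b| ≤ 1 →
      |V.B (V.ma a) (V.mb b)| ≤ C * (4 * α + 2 * T) := fun a b h1 h3 k1 k3 => by
    rw [hI.2.2.1] at k1
    rw [hO.2.2.1] at k3
    have m1 := mul_le_mul_of_nonneg_left ((sq_le_one_iff_abs_le_one _).2 k1) T0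
    have m2 := mul_le_mul_of_nonneg_left ((sq_le_one_iff_abs_le_one _).2 k3) T0
    exact (h2 a b).trans (mul_le_mul_of_nonneg_left (by linarith [ha a h1, hb b h3]) C0)
  have z : ∀ {m : Pt → ℝ}, m = -m → m = 0 := fun {m} h => funext fun x => by
    have := congrFun h x
    rw [Pi.neg_apply] at this
    rw [Pi.zero_apply]; linarith
  have n0 : V.nm 0 = 0 := by simp [Gv.nm]
  have TA : A.T 0 := (hI.2.2.2 0).2 (by
    rw [z (m := V.ma 0) (by rw [← (Al.m_neg 0).1, neg_zero]), map_zero, zero_smul, sub_zero, n0]; exact α0)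
  have TB : B.T 0 := (hO.2.2.2 0).2 (by
    rw [z (m := V.mb 0) (by rw [← (Al.m_neg 0).2, neg_zero]), map_zero, zero_smul, sub_zero, n0]; exact α0)
  have HA : A.H (A.s 1 0) = 1 := by rw [A.H_s, hI.2.2.1, map_zero]; simp
  have HB : B.H (B.s 1 0) = 1 := by rw [B.H_s, hO.2.2.1, map_zero]; simp
  have yi : ∀ i j a b, V.y0 (A.s i a) (B.s j b) = V.y0 a b := fun i j a b => by
    rw [hI.1, hO.1, Al.y_in, Al.y_out]
  have c1 : V.cp ≤ C * (4 * α + 2 * T) := by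
    have k := key _ _ ((A.T_s 1 0).2 TA) ((B.T_s 1 0).2 TB) (by rw [HA, abs_one]) (by rw [HB, abs_one])
    have y0 := yi 1 1 0 0
    have y1 := (Al.y_neg 0 0).1
    rw [neg_zero] at y1
    rw [Gv.y0, ← hI.2.2.1, ← hO.2.2.1, HA, HB] at y0
    linarith [(abs_le.1 k).1]
  refine ⟨c1, fun a b h1 h3 => ?_⟩
  have r : ∀ u : ℝ, |u + ((-round u : ℤ) : ℝ)| ≤ 1 := fun u => by
    rw [Int.cast_neg, ← sub_eq_add_neg]; exact (abs_sub_round u).trans (by norm_num)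
  have k1 : |A.H (A.s (-round (A.H a)) a)| ≤ 1 := by rw [A.H_s]; exact r _
  have k3 : |B.H (B.s (-round (B.H b)) b)| ≤ 1 := by rw [B.H_s]; exact r _
  have k := key _ _ ((A.T_s _ a).2 h1) ((B.T_s _ b).2 h3) k1 k3
  rw [← yi (-round (A.H a)) (-round (B.H b)), Gv.y0, ← hI.2.2.1, ← hO.2.2.1]
  refine (abs_sub _ _).trans ?_
  rw [abs_neg, abs_mul, abs_mul, abs_of_pos Al.cp_pos]
  have := mul_le_one₀ k1 (abs_nonneg _) k3
  nlinarith [Al.cp_pos]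

end K77

set_option maxHeartbeats 800000 in
open K77 in
theorem kshStmt (hKs : Kr.KsStmt) (hK0 : K0Stmt) (hK2 : K2Stmt) (hT : TypStmt) (hB : BarStmt)
    (hC : CapStmt) (hA : AlgStmt) (ha : T1aStmt) (hm : T1mStmt) : KshStmt := by
  intro F θ₀ W Kw j hJ hθ hKw η η0
  obtain ⟨g₂, hg₂⟩ : ∃ g₂, g₂ = max F.τ₂ 1 := ⟨_, rfl⟩
  have g₂1 : 1 ≤ g₂ := hg₂ ▸ le_max_right _ _
  have E0 : 0 < F.base.a / F.τ₁ := div_pos F.base_ok.a_pos F.pos
  obtain ⟨g₁, hg₁⟩ : ∃ g₁, g₁ = θ₀ / 2 / (F.base.a / F.τ₁) := ⟨_, rfl⟩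
  have g₁0 : 0 < g₁ := by rw [hg₁]; positivity
  obtain ⟨C, C0, hK2⟩ := hK2 g₁ g₂ g₁0
  obtain ⟨T, T0, hT⟩ := hT F W j hJ
  obtain ⟨α, hα⟩ : ∃ α, α = 3 * T / η := ⟨_, rfl⟩
  have α0 : 0 < α := by rw [hα]; positivity
  obtain ⟨U, hU⟩ : ∃ U, U = C * (4 * α + 2 * T) := ⟨_, rfl⟩
  obtain ⟨K₀, hKs⟩ := hKs (1 / (2 * max W 1) / g₂) (U / g₁) (2 * U / g₁) (η / 3) (by positivity)
    (by positivity)
  obtain ⟨K, hK⟩ : ∃ K, K = max K₀ (1 + 12 * T / η) := ⟨_, rfl⟩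
  have q0 : 0 ≤ 12 * T / η := by positivity
  have K1 : 1 + 12 * T / η ≤ K := hK ▸ le_max_right _ _
  have K0 : 0 < K := by linarith
  have Kt : T / (K / 2) ^ 2 ≤ η / 3 := by
    rw [div_le_iff₀ (by positivity)]
    have : 12 * T / η ≤ K ^ 2 := by nlinarith
    rw [div_le_iff₀ η0] at this; linarith
  obtain ⟨M, hM⟩ : ∃ M, M = C * (2 * (2 * α + T * K ^ 2)) := ⟨_, rfl⟩
  obtain ⟨e, e0, hKs⟩ := hKs K M (hK ▸ le_max_left _ _)
  obtain ⟨a₀, ha₀⟩ := pow_unbounded_of_one_lt (M / e) (one_lt_two (α := ℝ))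
  obtain ⟨a, b, hab, δ₁, δ0, hδ⟩ := hK0 F θ₀ W Kw j hJ hθ hKw K e a₀ e0
  obtain ⟨δ, δp, δ1, hw'⟩ := exists_of_ev ((ev_le δ0).and (ev_win hm F hθ one_pos))
  refine ⟨δ, δp, fun Λ hΛ l L hw V hV hj hL => ?_⟩
  obtain ⟨hp, p₁, p₂, p10, p20, h0⟩ := hδ Λ hΛ l L (hw.mono_d δ1) V hV hj hL
  have g2 : Λ.gN l ≤ g₂ := hg₂ ▸ Kr.K77.g_range ha hΛ hw.one_le_l
  have g1 : g₁ ≤ Λ.gN l := by
    have := (hw' Λ hΛ l L hw).2
    rw [hg₁]
    exact div_le_div₀ (by linarith) this hΛ.e0_pos hΛ.e0_le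
  generalize Λ.gN l = g at *
  have g0 : 0 < g := by linarith
  have Al := hA V W hV
  obtain ⟨A, B, hI, hO⟩ := Al.act α
  obtain ⟨Pr, -, bar, -⟩ := hB Λ V W g α A B hΛ.ok (hΛ.1.trans hJ) hV hI hO
  obtain ⟨far, hT⟩ := hT Λ hΛ V hV hj
  obtain ⟨bad, mA, mB⟩ := hT α A B α0 hI hO
  have k2 := hK2 g g1 g2 V W hV a b hp
  obtain ⟨c2, yb⟩ := y_bd Al α0.le C0.le T0.le hI hO (fun s t => (k2 s t).2.2.1) mA mB
  rw [← hU] at c2 yb
  have cp0 := Al.cp_pos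
  have W1 : max W 1 = W := max_eq_left (by linarith [hV.g.hW])
  have yb' : ∀ s t, A.T s → B.T t → |V.y0 s t / g| ≤ 2 * U / g₁ := fun s t h1 h2 => by
    rw [abs_div, abs_of_pos g0]
    exact div_le_div₀ (by linarith) (yb s t h1 h2) g₁0 g1
  have ab : ∀ p : Prop, |ind p| ≤ 1 := fun p => by
    rw [abs_of_nonneg (ind_nonneg p)]; exact ind_le_one p
  have t1 := bar (fun z => ind (¬ (A.T z.1 ∧ B.T z.2))) 1 (fun z => ab _) fun i a b => by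
    simp only [A.T_s, B.T_s]
  have t2 := bar (fun z => ind (K / 2 < |A.H z.1 - B.H z.2|)) 1 (fun z => ab _) fun i a b => by
    simp only [A.H_s, B.H_s, add_sub_add_right_eq_sub]
  have t3 : (fun s => ind (K / 2 < |A.H (V.dH s).1 - B.H (V.dH s).2|)) =
      fun s => ind (K / 2 < |pr V.eq s - pr V.te s|) := by
    funext s
    rw [hI.2.2.1, hO.2.2.1, (Al.dat s).2.2.1, (Al.dat s).2.2.2]
  rw [t3] at t2
  have t4 : T / α = η / 3 := by rw [hα]; field_simp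
  obtain ⟨p, q, P0, Q0, pe, qe, sp, sq, -, cl⟩ := hKs _ _ A B (V.nu Λ) (V.Bz g a b)
    (fun s t => V.y0 s t / g) p₁ (fun s => V.Bq g a b (V.ma s) (V.ma s) / 2) p₂
    (fun t => V.Bq g a b (V.mb t) (V.mb t) / 2) (V.cp / g) (η / 3 + η / 3)
    (by rw [W1]; exact div_le_div₀ cp0.le (hC V W hV).1 g0 g2)
    (div_le_div₀ (by linarith) c2 g₁0 g1) Pr yb' p10 p20
    (tail Pr (t1.trans_le (bad.trans_eq t4)) (t2.trans_le ((far _ (by positivity)).trans Kt)))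
    (fun S hS => h0 S fun z hz => by rw [← hI.2.2.1]; exact hS z hz)
    (fun s t h1 h2 h3 h4 => by
      obtain ⟨-, k1, -, k3⟩ := k2 s t
      rw [hI.2.2.1] at h2 ⊢
      rw [hO.2.2.1] at h4 ⊢
      have m1 := mul_le_mul_of_nonneg_left (sq_le_sq' (abs_le.1 h2).1 (abs_le.1 h2).2) T0.le
      have m2 := mul_le_mul_of_nonneg_left (sq_le_sq' (abs_le.1 h4).1 (abs_le.1 h4).2) T0.le
      have m3 : C * (V.nm (V.ma s) + V.nm (V.mb t)) ≤ M :=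
        hM ▸ mul_le_mul_of_nonneg_left (by linarith [mA s h1, mB t h3]) C0.le
      refine ⟨k1.trans m3, le_of_eq_of_le ?_ (k3.trans ?_)⟩
      · congr 2
        rw [Gv.y0]; ring
      · have t2 : (2 : ℝ) ^ a₀ ≤ 2 ^ a := pow_le_pow_right₀ one_le_two hab
        rw [div_mul_eq_mul_div, div_le_iff₀ (by positivity)]
        rw [div_lt_iff₀ e0] at ha₀
        nlinarith)
  exact ⟨g0, α, A, B, _, _, hI, hO, shp Pr (div_pos cp0 g0) yb' P0 Q0 pe qe sp sq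
    (cl.trans_eq (by ring))⟩

end Crest.Agent.T145.Kv
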