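import Crest.Agent.T145.AllU_21
import Crest.Agent.T145.KrAll_77
import Crest.Agent.T145.KvGeo_32
import Crest.Agent.T145.KvAlg_91
import Crest.Agent.T145.KvBar_61
import Crest.Agent.T145.KvFs_9
import Crest.Agent.T145.KvK2_17
import Crest.Agent.T145.KvK3_85
import Crest.Agent.T145.KvKsh_77
import Crest.Agent.T145.KvTop_77
import Crest.Agent.T145.KvMom_3
import Crest.Agent.T145.KvP0b_75
import Crest.Agent.T145.KvSec_74
import Crest.Agent.T145.KvUv_49
import Crest.Agent.T145.KvR_49
import Crest.Agent.T145.KvGff_16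
import Crest.Agent.T145.KvK0_16
import Crest.Agent.T145.KvDual_19
import Crest.Agent.T145.KvRmv_78
import Crest.Agent.T145.KvT1_60
import Crest.Agent.T145.KvZk_62
import Crest.Agent.T145.KvBr_68
import Crest.Agent.T145.KvExt_46
import Crest.Agent.T145.KvM3_89
import Crest.Agent.T145.KvDl_68
import Crest.Agent.T145.KvSect_51
import Crest.Agent.T145.KvVec_90
import Crest.Agent.T145.KsE_68

/-!
# Row 145, module Kv: every Prop of `KvDef_8`, without hypotheses (draft: helper8)
-/

set_option autoImplicit false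

namespace Crest.Agent.T145.Kv.U

theorem geo : GeoStmt := geoStmt
theorem alg : AlgStmt := algStmt geo
theorem cap : CapStmt := K17.capS alg Kr.U.alg
theorem tr : TrStmt := K17.trS geo
theorem k2 : K2Stmt := k2Stmt geo alg
theorem p0 : P0Stmt := p0Stmt geo
theorem sec : SecStmt := secStmt
theorem f : FStmt := fStmt All.mix0 geo All.t1m
theorem dual : DualStmt := dualStmt
theorem k3 : K3Stmt := k3Stmt geo alg dual
theorem rmv : RmvStmt := rmvStmt All.rate geo
theorem ext : ExtStmt := extStmt geo
theorem m3 : M3Stmt := m3Stmt geo alg dual cap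
theorem mom : MomStmt := momStmt ext
theorem bar : BarStmt := barStmt geo alg ext
theorem zk : ZkStmt := zkStmt geo dual mom ext
theorem t1 : T1Stmt := t1Stmt All.t1g All.brg geo ext All.t1a
theorem dl : DlStmt := dlStmt t1 All.dlg All.dlGen geo ext All.t1m
theorem uv : UvStmt := uvStmt (Mx.uvGStmt All.r1 Nc.U.ld1 Nc.U.sub) All.mxGd All.r1 geo ext
theorem gff : GffStmt := gffStmt p0 t1 dl All.brg All.afac All.t1a geo alg ext
theorem r : RStmt := rStmt gff uv tr geo alg ext All.t1a All.t1m
theorem lam : LamStmt := lamStmt geo alg ext m3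
theorem typ : TypStmt := typStmt geo alg ext m3
theorem k0 : K0Stmt := k0Stmt r f lam k2 bar alg All.t1a All.t1m
theorem ksh : KshStmt := kshStmt Kr.U.ks k0 k2 typ bar cap alg All.t1a All.t1m
theorem sect : SectStmt := sectStmt ksh sec k3 mom zk bar ext cap geo
theorem kv : KvStmt := kvStmt sect rmv
theorem mix : Ks68.MixStmt := Ks68.mixStmt kv All.gffD All.t1m
theorem vec : Ks68.VecStmt := Ks68.vecStmt kv All.gffD All.t1m
theorem qm : Ks68.QmStmt := Ks68.qmStmt mix All.gd All.gffD All.t1m
theorem vxKv : Vx.KvStmt := Vx.kvStmt vec All.t1m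

end Crest.Agent.T145.Kv.U
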