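import Crest.Agent.T145.KvK3_85

/-!
# Row 145: energies of the flux-free extensions in the slit condenser, bounds for the twists (helper85)
-/

set_option autoImplicit false

namespace Crest.Agent.T145.Kv.K85

open Finset Pot Pot.K85 Pot.V85 Pot.H59
open Kr (cu)
open Vd (ray)

variable {V : Gv}

theorem eT_self (ed : Finset (Pt × Pt)) (u : Pt → ℝ) : V.eT ed u u =
    ∑ e ∈ ed, (u e.2 - u e.1 + (V.s1 e : ℝ) * u V.k1 + (V.s2 e : ℝ) * u V.k2) ^ 2 := by
  simp [Gv.eT, sqF_apply, Gv.Gk, pow_two]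

theorem eT_mono {ed ed' : Finset (Pt × Pt)} (h : ed ⊆ ed') (u : Pt → ℝ) : V.eT ed u u ≤ V.eT ed' u u := by
  rw [eT_self, eT_self]; exact sum_le_sum_of_subset_of_nonneg h fun _ _ _ => sq_nonneg _

theorem eT_nonneg (ed : Finset (Pt × Pt)) (u : Pt → ℝ) : 0 ≤ V.eT ed u u := by
  rw [eT_self]; exact sum_nonneg fun _ _ => sq_nonneg _

theorem ps_in (s : Cfg Pt) : ps V (on V.In (cu s)) = V.ma s - pr V.eq s • V.om := by
  rw [Gv.eq, pr_op]; rfl

theorem ps_out (s : Cfg Pt) : ps V (on V.Ou (cu s)) = V.mb s + pr V.te s • V.om := by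
  rw [Gv.te, pr_op, neg_mul, neg_smul, ← sub_eq_add_neg]; rfl

/-- minimality -/
theorem ps_min (a : V.Alg) {w v : Pt → ℝ} {c : ℝ} (h : ∀ x, x ∉ V.G.A → v x = w x + c * on V.G.In 1 x) :
    V.B (ps V w) (ps V w) ≤ V.B v v := by
  have b1 := ps_hm a w (v - ps V w - (c + V.cp⁻¹ * V.B V.om w) • on V.G.In 1) fun x hx => by
    rw [Pi.sub_apply, Pi.sub_apply, ps_off a _ hx, h x hx, Pi.smul_apply, smul_eq_mul]; ring
  rw [map_sub, map_smul, ps_flux a, smul_zero, sub_zero] at b1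
  have b2 := a.coA.sq_add (ps V w) (v - ps V w)
  rw [b1, add_sub_cancel] at b2
  linarith [a.coA.nonneg (v - ps V w)]

theorem sg_kp (g : V.Geo) {ed : Finset (Pt × Pt)} (h : ∀ e ∈ ed, e.2 - e.1 ∈ nL.Jp) (q : ℕ) :
    Sg (V.kp ed) (fun e => V.s1 e) (fun e => V.s2 e) q (V.G.rho - 4 * V.ω) (V.G.rho + 4 * V.ω) := by
  have n6 := g.ω_le
  refine ⟨fun e he => h e (mem_filter.1 he).1, fun e he h1 => ?_, fun e he h1 h2 => ?_,
    fun e he h1 => by rw [Gv.s2, if_neg (by push_cast at h1; omega), Int.cast_zero], by omega⟩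
  · have := edge_cases (h e (mem_filter.1 he).1)
    rw [ds0] at h1
    simp only [Gv.s1, ray, Prod.fst_zero, Prod.snd_zero]
    split_ifs <;> first | (simp; done) | (exfalso; omega)
  · have := edge_cases (h e (mem_filter.1 he).1)
    have h3 := (mem_filter.1 he).2
    simp only [Gv.s1, Gv.s2, ray, Prod.fst_zero, Prod.snd_zero] at h3
    split_ifs at h3 <;> omega

end Crest.Agent.T145.Kv.K85

namespace Crest.Agent.T145.Kv

open Finset Pot Pot.K85 Pot.V85 Pot.H59 K85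

theorem en85 (hG : GeoStmt) (hA : AlgStmt) (j : ℕ) : ∃ C : ℝ, 0 < C ∧ ∀ (V : Gv) (W : ℝ), V.Ok W → V.j = j →
    ∀ u : Pt → ℝ, V.B (ps V (on V.Ou u)) (ps V (on V.Ou u)) ≤ C * V.B u u ∧
      V.B (ps V (on V.In u)) (ps V (on V.In u)) ≤ C * V.B u u ∧
      u V.k1 ^ 2 ≤ 4000 * V.B u u ∧ u V.k2 ^ 2 ≤ 4000 * V.B u u ∧ V.B u u ≤ V.eT V.EO u u := by
  refine ⟨10 ^ 10 * (300 + 30 * 2 ^ j), by positivity, fun V W hV hj u => ?_⟩
  have g := hG V W hV
  have a := hA V W hV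
  have n1 := hV.g.hc
  have n2 := hV.g.hr
  have n3 := hV.g.out
  have n4 := g.rho_le
  have n5 := g.r_le
  have n6 := g.ω_le
  have n7 := g.ω16
  have mA : ∀ {x}, x ∈ V.G.A ↔ (V.G.r : ℤ) < ds 0 x ∧ ds 0 x ≤ V.G.R := mem_an'
  have mI : ∀ {x}, x ∈ V.G.In ↔ (V.G.c : ℤ) < ds 0 x ∧ ds 0 x ≤ V.G.r := mem_an'
  have mO : ∀ {x}, x ∈ V.G.Ou ↔ (V.G.R : ℤ) < ds 0 x ∧ ds 0 x ≤ V.G.R₂ := mem_an'
  have mm : ∀ {x}, x ∈ V.G.Om ↔ (V.G.c : ℤ) < ds 0 x ∧ ds 0 x ≤ V.G.R₂ := mem_an'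
  have d1 : ds 0 V.k1 = 0 := by simp [ds0, Gv.k1]
  have d2 : ds 0 V.k2 = V.G.R₂ + 1 := by simp only [ds0, Gv.k2]; omega
  have eA : ∀ e ∈ V.EA, e.1 ∈ V.G.Om ∧ e.2 ∈ V.G.Om := fun e he =>
    (Lat.mem_edI.1 (mem_filter.1 (g.EA_sub he)).1).2
  have T0 : 0 ≤ V.B u u := eT_nonneg _ _
  obtain ⟨q, hq⟩ : ∃ q, q = V.G.rho / 4 := ⟨_, rfl⟩
  have H : Sg V.EA _ _ q _ _ := sg_kp g (fun e he => (Lat.mem_edT.1 he).1) q
  have hE : nL.edI (an 0 q (2 * q)) ⊆ V.EA := fun e he => by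
    rw [Lat.mem_edI, Pot.K85.mem_an, Pot.K85.mem_an] at he
    have := ds0 e.1
    exact (kp_in (Lat.mem_edT.2 ⟨he.1, by rw [mA, mA]; omega⟩) (by omega)).1
  have k1 := H.twist (p := 2 * q) (by omega) le_rfl (by omega) (by omega) hE u (u V.k1) (u V.k2)
  obtain ⟨c, v, v1, v2, v3⟩ := H.untw (p := 2 * q) (h := V.G.rho) (by omega) le_rfl (by omega) (by omega)
    (by omega) hE u (u V.k1) (u V.k2)
  rw [← eT_self, ← Gv.B] at k1 v3
  have J : (1 : ℝ) ≤ 2 ^ j := one_le_pow₀ one_le_two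
  have e1 : ve q (V.G.rho + 4 * V.ω - (V.G.rho - 4 * V.ω) + 1) (V.G.rho + 4 * V.ω) V.G.rho ≤
      222 + 30 * 2 ^ j := by
    have l : ∀ {x y : ℝ}, 0 ≤ x → x ≤ y → Real.log (1 + x) ≤ y := fun h h' =>
      (Real.log_le_sub_one_of_pos (by linarith)).trans (by linarith)
    have r0 : (0 : ℝ) < V.G.rho := by exact_mod_cast (by omega : 0 < V.G.rho)
    have c1 := l (x := V.G.rho / (V.G.rho + 4 * V.ω - (V.G.rho - 4 * V.ω) + 1 : ℕ)) (y := 2 ^ j) (by positivity)
      (by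
        rw [div_le_iff₀ (by positivity), ← hj]
        exact_mod_cast g.rho_eq.trans_le (Nat.mul_le_mul_left _ (by omega)))
    have c2 := l (x := V.G.rho / q) (y := 5) (by positivity) (by
      rw [div_le_iff₀ (by exact_mod_cast (by omega : 0 < q))]; exact_mod_cast (by omega : V.G.rho ≤ 5 * q))
    have c3 : 6 * ((V.G.rho + 4 * V.ω : ℕ) + 1 : ℝ) / V.G.rho ≤ 12 := by
      rw [div_le_iff₀ r0]; exact_mod_cast (by omega : 6 * (V.G.rho + 4 * V.ω + 1) ≤ 12 * V.G.rho)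
    rw [ve]; linarith
  have o1 : V.B (ps V (on V.Ou u)) (ps V (on V.Ou u)) ≤ 3 * 10 ^ 9 * (223 + 30 * 2 ^ j) * V.B u u := by
    refine (ps_min a (v := on V.G.Om v + u V.k2 • dl V.k2) (c := c) fun x hx => ?_).trans
      (le_trans (le_of_eq ?_) (v3.trans (mul_le_mul_of_nonneg_right (by linarith) T0)))
    · rw [Gv.Ou, on_insert (by rw [mO]; omega), Pi.add_apply, Pi.add_apply, add_right_comm, add_left_inj]
      rw [mA] at hx
      by_cases h : x ∈ V.G.In
      · have := mI.1 h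
        rw [on_of_mem h, on_of_mem (mm.2 (by omega)), on_of_not (by rw [mO]; omega), v1 x (by omega)]
        simp
      · rw [on_of_not h, mul_zero, add_zero]
        rw [mI] at h
        by_cases h' : x ∈ V.G.Ou
        · have := mO.1 h'
          rw [on_of_mem h', on_of_mem (mm.2 (by omega)), v2 x (by omega), add_eq_left]
          refine mul_eq_zero_of_right _ (of_not_not fun h3 => ?_)
          have := vf_ne (by omega) h3
          have := ds0 x
          omega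
        · rw [on_of_not h']
          rw [mO] at h'
          rw [on_of_not (by rw [mm]; omega)]
    · rw [Gv.B, eT_self]
      refine sum_congr rfl fun e he => ?_
      have := eA e he
      simp only [Pi.add_apply, Pi.smul_apply, on_of_mem this.1, on_of_mem this.2, on_of_not g.k_off.1,
        on_of_not g.k_off.2.1, dl_ne g.k_off.2.2.1, dl_ne fun h : e.1 = V.k2 => g.k_off.2.1 (h ▸ this.1),
        dl_ne fun h : e.2 = V.k2 => g.k_off.2.1 (h ▸ this.2), Pi.single_eq_same, smul_eq_mul, mul_zero,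
        add_zero, zero_add, mul_one]
  have o2 : V.B (ps V (on V.In u + on V.Ou u)) (ps V (on V.In u + on V.Ou u)) ≤ V.B u u := by
    refine (ps_min a (v := on V.G.A u + (on V.In u + on V.Ou u)) (c := 0) fun x hx => by
      rw [Pi.add_apply, on_of_not hx, zero_mul, zero_add, add_zero]).trans_eq ?_
    have k : ∀ x, x ∈ V.G.Om ∨ x = V.k1 ∨ x = V.k2 → (on V.G.A u + (on V.In u + on V.Ou u)) x = u x :=
      fun x hx => by
        have b1 : x ∈ V.In ↔ x = V.k1 ∨ (V.G.c : ℤ) < ds 0 x ∧ ds 0 x ≤ V.G.r := by rw [Gv.In, mem_insert, mI]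
        have b2 : x ∈ V.Ou ↔ x = V.k2 ∨ (V.G.R : ℤ) < ds 0 x ∧ ds 0 x ≤ V.G.R₂ := by
          rw [Gv.Ou, mem_insert, mO]
        have b3 := g.k_off.2.2.1
        simp only [Pi.add_apply, on, mA, b1, b2]
        rcases hx with hx | rfl | rfl
        · have c1 : x ≠ V.k1 := fun h => g.k_off.1 (h ▸ hx)
          have c2 : x ≠ V.k2 := fun h => g.k_off.2.1 (h ▸ hx)
          rw [mm] at hx
          simp only [c1, c2, false_or]
          split_ifs <;> first | ring1 | (exfalso; omega)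
        · simp only [b3, false_or, true_or, if_true]
          rw [if_neg (by omega), if_neg (by omega)]; ring
        · simp only [b3.symm, false_or, true_or, if_true]
          rw [if_neg (by omega), if_neg (by omega)]; ring
    rw [Gv.B, eT_self, eT_self, k _ (Or.inr (Or.inl rfl)), k _ (Or.inr (Or.inr rfl))]
    exact sum_congr rfl fun e he => by rw [k _ (Or.inl (eA e he).1), k _ (Or.inl (eA e he).2)]
  refine ⟨o1.trans (mul_le_mul_of_nonneg_right (by linarith) T0), ?_, k1, ?_, eT_mono g.EA_sub u⟩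
  · have b1 := a.coA.sq_sub (ps V (on V.In u + on V.Ou u)) (ps V (on V.Ou u))
    have b2 := a.coA.nonneg (ps V (on V.In u + on V.Ou u) + ps V (on V.Ou u))
    rw [a.coA.sq_add] at b2
    rw [ps_add a, add_sub_cancel_right, ← ps_add a] at b1
    nlinarith [mul_nonneg (by positivity : (0 : ℝ) ≤ 2 ^ j) T0]
  · obtain ⟨p, hp⟩ : ∃ p, p = V.G.R / 2 := ⟨_, rfl⟩
    have k : ∀ e ∈ nL.edI (an 0 p V.G.R), (e ∈ V.EA ∧ V.s1 e = 0) ∧
        (V.s2 e : ℝ) = if e.1.2 = -1 ∧ e.2.2 = 0 ∧ 0 < e.1.1 then 1 else 0 := fun e he => by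
      rw [Lat.mem_edI, Pot.K85.mem_an, Pot.K85.mem_an] at he
      refine ⟨kp_out (Lat.mem_edT.2 ⟨he.1, by rw [mA, mA]; omega⟩) (by omega), ?_⟩
      have := edge_cases he.1
      have := ds0 e.2
      simp only [Gv.s2, Vd.ray, Prod.fst_zero, Prod.snd_zero]
      split_ifs <;> first | (simp; done) | (exfalso; omega)
    have h1 := loop (p := p) (q := V.G.R) (by omega) u (u V.k2) fun e he => (k e he).2
    have h2 := eT_mono (V := V) (fun e he => (k e he).1.1) u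
    rw [eT_self, sum_congr rfl fun e he => by rw [(k e he).1.2, Int.cast_zero, zero_mul, add_zero],
      ← Gv.B] at h2
    have a1 : (2 * p : ℝ) ≤ V.G.R := by exact_mod_cast (by omega : 2 * p ≤ V.G.R)
    have a2 : (4 : ℝ) ≤ V.G.R := by exact_mod_cast (by omega : 4 ≤ V.G.R)
    have a4 : (2 * V.G.R + 1 : ℝ) ^ 2 ≤ (11 / 2 * (V.G.R - p)) ^ 2 :=
      pow_le_pow_left₀ (by positivity) (by linarith) 2
    have h3 := h1.trans (mul_le_mul (mul_le_mul_of_nonneg_left a4 (by norm_num)) h2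
      (sum_nonneg fun _ _ => sq_nonneg _) (by positivity))
    have a5 : 0 < ((V.G.R : ℝ) - p) ^ 2 := pow_pos (by linarith) 2
    refine le_of_mul_le_mul_left ?_ a5
    nlinarith [mul_nonneg a5.le T0]

end Crest.Agent.T145.Kv
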