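import Crest.Agent.T145.KvDef_8
import Crest.Agent.T145.PotAn_44

/-!
# Row 145, module Kv: the Poincaré inequality on the slit ring (helper12)
-/

set_option autoImplicit false

namespace Crest.Agent.T145.Kv

open Finset Pot Pot.An44
open Vd (ray)

namespace Ring12

variable (V : Gv)

/-- the edges inside the ring that do not cross the ray -/
noncomputable def cut (n : ℕ) : Finset (Pt × Pt) := (nL.edI (V.rng n)).filter fun e => ray 0 e = 0

variable {V}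

theorem mem_rng {n : ℕ} (hn : n ≤ V.G.rho) {x : Pt} : x ∈ V.rng n ↔
    ((-(V.G.rho + n : ℤ) ≤ x.1 ∧ x.1 < V.G.rho + n) ∧ -(V.G.rho + n : ℤ) ≤ x.2 ∧ x.2 < V.G.rho + n) ∧
      ¬ ((-(V.G.rho - n : ℤ) ≤ x.1 ∧ x.1 < V.G.rho - n) ∧ -(V.G.rho - n : ℤ) ≤ x.2 ∧
        x.2 < V.G.rho - n) := by
  simp only [Gv.rng, mem_sdiff, mem_sq]
  omega

theorem card_rng_le (n : ℕ) : (V.rng n).card ≤ (2 * (V.G.rho + n)) ^ 2 :=
  (card_le_card sdiff_subset).trans (by rw [card_sq])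

/-- Poincaré inequality on the C-shaped ring -/
theorem poin (lam : ℕ) : ∃ C : ℝ, 0 < C ∧ ∀ (V : Gv) (n : ℕ) (u : Pt → ℝ), n ≤ V.G.rho →
    V.G.rho + n ≤ lam * n →
      ∑ x ∈ V.rng n, (u x - av (V.rng n) u) ^ 2 ≤ C * (n : ℝ) ^ 2 * edF (cut V n) u u := by
  set c : ℝ := 2 + 2 * (lam : ℝ) ^ 2 with hc
  refine ⟨c * (c * (c * (c * 2 + 1) + 1) + 1) * (8 * lam ^ 2) + 1, by positivity, fun V n u hn h => ?_⟩
  have hE := (sy_edF (cut V n)).nonneg u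
  set ρ := V.G.rho with hρ
  set K : ℝ := 8 * (lam : ℝ) ^ 2 * (n : ℝ) ^ 2 * edF (cut V n) u u with hK
  have h' : ((2 * (ρ + n) : ℕ) : ℝ) ≤ 2 * (lam * n) := by exact_mod_cast (by omega)
  have base : ∀ (a : Pt) (p q : ℕ), p ≤ 2 * (ρ + n) → q ≤ 2 * (ρ + n) → rec a p q ⊆ V.rng n →
      (a.1 + p ≤ 0 ∨ 0 ≤ a.2 ∨ a.2 + q ≤ 0) →
      ∑ x ∈ rec a p q, (u x - av (rec a p q) u) ^ 2 ≤ K := by
    intro a p q hp hq hs hr
    refine (poin_rec a hp hq u).trans (mul_le_mul ?_ (Pot.edF_mono (fun e he => ?_) u)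
      (Po44.eN_nonneg _ _ _) (by positivity))
    · have := pow_le_pow_left₀ (Nat.cast_nonneg _) h' 2
      nlinarith
    · obtain ⟨h0, h1, h2⟩ := Lat.mem_edI.1 he
      refine mem_filter.2 ⟨Lat.mem_edI.2 ⟨h0, hs h1, hs h2⟩, if_neg ?_⟩
      rw [mem_rec] at h1 h2
      simp only [Prod.fst_zero, Prod.snd_zero]
      omega
  have crd : ∀ (A : Finset Pt) (a : Pt), A ⊆ V.rng n →
      (A.card : ℝ) ≤ (lam : ℝ) ^ 2 * (rec a (2 * n) (2 * n)).card := by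
    intro A a hA
    have e1 := (card_le_card hA).trans (card_rng_le n)
    have e2 : (2 * (ρ + n)) ^ 2 ≤ (2 * (lam * n)) ^ 2 := Nat.pow_le_pow_left (by omega) 2
    have e3 : A.card ≤ lam ^ 2 * (2 * n * (2 * n)) := (e1.trans e2).trans (le_of_eq (by ring))
    rw [card_rec]
    exact_mod_cast e3
  set L := rec (-(ρ + n : ℤ), -(ρ + n : ℤ)) (2 * n) (2 * (ρ + n))
  set T := rec (-(ρ + n : ℤ), (ρ - n : ℤ)) (2 * (ρ + n)) (2 * n)
  set B := rec (-(ρ + n : ℤ), -(ρ + n : ℤ)) (2 * (ρ + n)) (2 * n)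
  set U := rec ((ρ - n : ℤ), 0) (2 * n) (ρ + n)
  set D := rec ((ρ - n : ℤ), -(ρ + n : ℤ)) (2 * n) (ρ + n)
  have hL : L ⊆ V.rng n := fun x => by simp only [L, mem_rec, mem_rng hn]; omega
  have hT : T ⊆ V.rng n := fun x => by simp only [T, mem_rec, mem_rng hn]; omega
  have hB : B ⊆ V.rng n := fun x => by simp only [B, mem_rec, mem_rng hn]; omega
  have hU : U ⊆ V.rng n := fun x => by simp only [U, mem_rec, mem_rng hn]; omega
  have hD : D ⊆ V.rng n := fun x => by simp only [D, mem_rec, mem_rng hn]; omega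
  have g1 := glue (A := L) (B := T) (T := rec (-(ρ + n : ℤ), (ρ - n : ℤ)) (2 * n) (2 * n))
    (by positivity) (fun x => by simp only [L, mem_rec]; omega)
    (fun x => by simp only [T, mem_rec]; omega) (crd _ _ hL) (crd _ _ hT)
    (base _ _ _ (by omega) le_rfl hL (by simp only; omega))
    (base _ _ _ le_rfl (by omega) hT (by simp only; omega))
  have g2 := glue (A := L ∪ T) (B := B) (T := rec (-(ρ + n : ℤ), -(ρ + n : ℤ)) (2 * n) (2 * n))
    (by positivity) (fun x => by simp only [L, T, mem_union, mem_rec]; omega)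
    (fun x => by simp only [B, mem_rec]; omega) (crd _ _ (union_subset hL hT)) (crd _ _ hB) g1
    (base _ _ _ le_rfl (by omega) hB (by simp only; omega))
  have g3 := glue (A := L ∪ T ∪ B) (B := U) (T := rec ((ρ - n : ℤ), (ρ - n : ℤ)) (2 * n) (2 * n))
    (by positivity) (fun x => by simp only [L, T, B, mem_union, mem_rec]; omega)
    (fun x => by simp only [U, mem_rec]; omega)
    (crd _ _ (union_subset (union_subset hL hT) hB)) (crd _ _ hU) g2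
    (base _ _ _ (by omega) (by omega) hU (by simp only; omega))
  have g4 := glue (A := L ∪ T ∪ B ∪ U) (B := D)
    (T := rec ((ρ - n : ℤ), -(ρ + n : ℤ)) (2 * n) (2 * n)) (by positivity)
    (fun x => by simp only [L, T, B, U, mem_union, mem_rec]; omega)
    (fun x => by simp only [D, mem_rec]; omega)
    (crd _ _ (union_subset (union_subset (union_subset hL hT) hB) hU)) (crd _ _ hD) g3
    (base _ _ _ (by omega) (by omega) hD (by simp only; omega))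
  have e : L ∪ T ∪ B ∪ U ∪ D = V.rng n := by
    ext x; simp only [L, T, B, U, D, mem_union, mem_rec, mem_rng hn]; omega
  rw [e, ← hc] at g4
  refine g4.trans ?_
  have : 0 ≤ (n : ℝ) ^ 2 * edF (cut V n) u u := by positivity
  rw [hK]
  nlinarith

theorem plain_of_ray {e : Pt × Pt} (h : ray 0 e = 0) : V.s1 e = 0 ∧ V.s2 e = 0 := by
  simp only [Gv.s1, Gv.s2, h, ite_self, and_self]

theorem cut_plain {n : ℕ} {e : Pt × Pt} (he : e ∈ cut V n) : V.s1 e = 0 ∧ V.s2 e = 0 :=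
  plain_of_ray (mem_filter.1 he).2

theorem Gk_plain {e : Pt × Pt} (h : V.s1 e = 0 ∧ V.s2 e = 0) (u : Pt → ℝ) :
    V.Gk e u = u e.2 - u e.1 := by
  simp [Gv.Gk, h.1, h.2]

theorem cut_kp (n : ℕ) : cut V n ⊆ V.kp (nL.edI (V.rng n)) := fun e he =>
  mem_filter.2 ⟨(mem_filter.1 he).1, by
    rw [(cut_plain he).1, (cut_plain he).2, (mem_filter.1 he).2]; rfl⟩

/-- for `n ≤ 4 ω` the slit is exactly the crossing of the ring with the ray -/
theorem cut_eq {n : ℕ} (hn : n ≤ V.G.rho) (h4 : n ≤ 4 * V.ω) :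
    cut V n = V.kp (nL.edI (V.rng n)) := by
  refine Subset.antisymm (cut_kp n) fun e he => ?_
  obtain ⟨h0, h1⟩ := mem_filter.1 he
  refine mem_filter.2 ⟨h0, ?_⟩
  obtain ⟨-, h2, h3⟩ := Lat.mem_edI.1 h0
  rw [mem_rng hn] at h2 h3
  by_contra h
  have h5 : e.1.2 = -1 ∧ e.2.2 = 0 ∧ e.1.1 = e.2.1 ∧ 0 ≤ e.1.1 := by
    by_contra h5
    exact h (if_neg (by simpa using h5))
  rw [Gv.s1, Gv.s2, if_neg (by omega), if_neg (by omega)] at h1
  exact h h1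

theorem eT_self (ed : Finset (Pt × Pt)) (u : Pt → ℝ) : V.eT ed u u = ∑ e ∈ ed, V.Gk e u ^ 2 := by
  simp [Gv.eT, sqF_apply, pow_two]

theorem eT_nonneg (ed : Finset (Pt × Pt)) (u : Pt → ℝ) : 0 ≤ V.eT ed u u := by
  rw [eT_self]; positivity

theorem eT_mono {ed ed' : Finset (Pt × Pt)} (h : ed ⊆ ed') (u : Pt → ℝ) :
    V.eT ed u u ≤ V.eT ed' u u := by
  rw [eT_self, eT_self]
  exact sum_le_sum_of_subset_of_nonneg h fun _ _ _ => sq_nonneg _

theorem eT_cut (n : ℕ) (u : Pt → ℝ) : V.eT (cut V n) u u = edF (cut V n) u u := by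
  rw [eT_self, edF_self]
  exact sum_congr rfl fun e he => by rw [Gk_plain (cut_plain he)]

theorem rng_mono {n n' : ℕ} (h : n ≤ n') (hn : n' ≤ V.G.rho) : V.rng n ⊆ V.rng n' := fun x => by
  simp only [mem_rng hn, mem_rng (h.trans hn)]; omega

theorem rng_A (g : V.Geo) {n : ℕ} (hn : n ≤ 8 * V.ω) : V.rng n ⊆ V.G.A := fun x hx => by
  have h1 := g.r_le
  have h2 := g.rho_le
  have h3 := g.ω_le
  have h4 := g.ω16
  rw [mem_rng (by omega)] at hx
  simp only [Nc.an, Kr.Gm.A, mem_sdiff, mem_bl, Prod.fst_zero, Prod.snd_zero]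
  omega

theorem cut_EA (g : V.Geo) {n : ℕ} (hn : n ≤ 8 * V.ω) : cut V n ⊆ V.EA := (cut_kp _).trans
  (filter_subset_filter _ fun _ he =>
    Lat.mem_edT.2 ⟨(Lat.mem_edI.1 he).1, Or.inl (rng_A g hn (Lat.mem_edI.1 he).2.1)⟩)

theorem edF_cut_le (g : V.Geo) {n : ℕ} (hn : n ≤ 8 * V.ω) (u : Pt → ℝ) :
    edF (cut V n) u u ≤ V.B u u ∧ V.B u u ≤ V.eT V.EO u u :=
  ⟨(eT_cut _ u).symm.trans_le (eT_mono (cut_EA g hn) u), eT_mono g.EA_sub u⟩

/-- recentre at the mean over a large subset -/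
theorem recentre {S T : Finset Pt} {M : ℝ} (hM : 0 ≤ M) (h : T ⊆ S)
    (hc : (S.card : ℝ) ≤ M * T.card) (u : Pt → ℝ) (c : ℝ) :
    ∑ x ∈ S, (u x - av T u) ^ 2 ≤ (2 + 2 * M) * ∑ x ∈ S, (u x - c) ^ 2 := by
  have e1 : T.card * (av T u - c) ^ 2 ≤ ∑ x ∈ S, (u x - c) ^ 2 := (Po44.card_mul_av_sub T u c).trans
    (sum_le_sum_of_subset_of_nonneg h fun _ _ _ => sq_nonneg _)
  have e2 : ∑ x ∈ S, (u x - av T u) ^ 2 ≤
      2 * ∑ x ∈ S, (u x - c) ^ 2 + 2 * (S.card * (av T u - c) ^ 2) := by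
    rw [← nsmul_eq_mul, ← sum_const, mul_sum, mul_sum, ← sum_add_distrib]
    exact sum_le_sum fun x _ => by nlinarith [sq_nonneg (u x - 2 * c + av T u)]
  have e3 : S.card * (av T u - c) ^ 2 ≤ M * ∑ x ∈ S, (u x - c) ^ 2 :=
    (mul_le_mul_of_nonneg_right hc (sq_nonneg _)).trans
      (by rw [mul_assoc]; exact mul_le_mul_of_nonneg_left e1 hM)
  linarith

end Ring12

open Ring12

/-- Poincaré inequality on the slit rings `rng (m ω)` (`Ga`: `m = 1`, `mid`: `m = 2`), centred at the mean over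
`Ga`; only plain edges inside the ring are used -/
theorem ring12 (j : ℕ) : ∃ C : ℝ, 0 < C ∧ ∀ V : Gv, V.Geo → V.j = j → ∀ m : ℕ, 1 ≤ m → m ≤ 8 →
    ∀ u : Pt → ℝ, ∑ x ∈ V.rng (m * V.ω), (u x - Kw56.avL V.Ga u) ^ 2 ≤
        C * (V.ω : ℝ) ^ 2 * edF (cut V (m * V.ω)) u u ∧
      ∑ x ∈ V.rng (m * V.ω), (u x - Kw56.avL V.Ga u) ^ 2 ≤ C * (V.ω : ℝ) ^ 2 * V.eT V.EA u u ∧
      ∑ x ∈ V.rng (m * V.ω), (u x - Kw56.avL V.Ga u) ^ 2 ≤ C * (V.ω : ℝ) ^ 2 * V.eT V.EO u u := by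
  obtain ⟨C, hC, h⟩ := poin (2 ^ j + 1)
  refine ⟨(2 + 2 * (2 ^ j + 8) ^ 2) * (C * 64), by positivity, fun V g hj m h1 h8 u => ?_⟩
  have e1 := g.ω_le
  have e2 := g.rho_eq
  rw [hj] at e2
  have e3 : V.ω ≤ m * V.ω := Nat.le_mul_of_pos_left _ h1
  have e4 : m * V.ω ≤ 8 * V.ω := Nat.mul_le_mul_right _ h8
  have e5 : 2 ^ j * V.ω ≤ 2 ^ j * (m * V.ω) := Nat.mul_le_mul_left _ e3
  have h3 := h V (m * V.ω) u (by omega) (by rw [e2, add_mul]; omega)
  have e6 : (V.rng (m * V.ω)).card ≤ (2 ^ j + 8) ^ 2 * V.Ga.card := by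
    have a1 : (2 * (V.G.rho + m * V.ω)) ^ 2 ≤ (2 * ((2 ^ j + 8) * V.ω)) ^ 2 :=
      Nat.pow_le_pow_left (by rw [e2, add_mul]; omega) 2
    have a2 : 4 * V.ω ^ 2 ≤ V.Ga.card := by
      rw [g.card_Ga]; exact Nat.mul_le_mul_right _ (by have := Nat.two_pow_pos V.j; omega)
    exact ((card_rng_le _).trans a1).trans
      ((le_of_eq (by ring)).trans (Nat.mul_le_mul_left ((2 ^ j + 8) ^ 2) a2))
  have h5 := recentre (M := (2 ^ j + 8) ^ 2) (by positivity) (rng_mono (V := V) e3 (by omega))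
    (by exact_mod_cast e6) u (av (V.rng (m * V.ω)) u)
  have h0 := (sy_edF (cut V (m * V.ω))).nonneg u
  have h6 : ∑ x ∈ V.rng (m * V.ω), (u x - Kw56.avL V.Ga u) ^ 2 ≤
      (2 + 2 * (2 ^ j + 8) ^ 2) * (C * 64) * (V.ω : ℝ) ^ 2 * edF (cut V (m * V.ω)) u u := by
    rw [Kw56.avL_apply]
    refine h5.trans ((mul_le_mul_of_nonneg_left h3 (by positivity)).trans ?_)
    have a1 : ((m * V.ω : ℕ) : ℝ) ≤ 8 * V.ω := by exact_mod_cast e4
    calc _ ≤ (2 + 2 * (2 ^ j + 8) ^ 2) * (C * (8 * V.ω : ℝ) ^ 2 * edF (cut V (m * V.ω)) u u) := by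
          gcongr
      _ = _ := by ring
  have h7 := edF_cut_le g e4 u
  exact ⟨h6, h6.trans (mul_le_mul_of_nonneg_left h7.1 (by positivity)),
    h6.trans (mul_le_mul_of_nonneg_left (h7.1.trans h7.2) (by positivity))⟩

end Crest.Agent.T145.Kv
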