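import Crest.Agent.T145.KvEn_85
import Crest.Agent.T145.KvRing_12

/-!
# Row 145: the ring mean of a function that is constant on the inner or on the outer data (helper85)
-/

set_option autoImplicit false

namespace Crest.Agent.T145.Kv

open Finset Pot Pot.K85 Pot.V85 Pot.H59 K85

theorem lvl85 (hG : GeoStmt) (W : ℝ) (j : ℕ) : ∃ C : ℝ, 0 < C ∧ ∀ V : Gv, V.Ok W → V.j = j →
    ∀ (w : Pt → ℝ) (c : ℝ), ((∀ x ∈ V.G.In, w x = c) ∨ ∀ x ∈ V.G.Ou, w x = c) →
      (Kw56.avL V.Ga w - c) ^ 2 ≤ C * V.B w w := by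
  obtain ⟨C, C0, hC⟩ := ring12 j
  refine ⟨1 + 20 * W ^ 2 + 2 * ((320 * 2 ^ j + C) * |W|), by positivity, fun V hV hj w c h => ?_⟩
  have g := hG V W hV
  have n1 := hV.g.hc
  have n2 := hV.g.hr
  have n3 := hV.g.out
  have n4 := g.rho_le
  have n5 := g.r_le
  have n6 := g.ω_le
  have n7 := g.ω16
  have mA : ∀ {x}, x ∈ V.G.A ↔ (V.G.r : ℤ) < ds 0 x ∧ ds 0 x ≤ V.G.R := mem_an'
  have mI : ∀ {x}, x ∈ V.G.In ↔ (V.G.c : ℤ) < ds 0 x ∧ ds 0 x ≤ V.G.r := mem_an'
  have mO : ∀ {x}, x ∈ V.G.Ou ↔ (V.G.R : ℤ) < ds 0 x ∧ ds 0 x ≤ V.G.R₂ := mem_an'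
  have T0 : 0 ≤ V.B w w := eT_nonneg _ _
  have W0 : 0 < W := by linarith [hV.g.hW]
  have r0 : (64 : ℝ) ≤ V.G.r := by exact_mod_cast n2
  have o0 : (16 : ℝ) ≤ V.ω := by exact_mod_cast n7
  have R1 := hV.g.hi
  have R2 : (V.G.R : ℝ) ≤ 64 * (2 ^ j * V.ω) := by rw [← hj]; exact_mod_cast g.rho_eq ▸ g.le_rho
  have R3 : (V.ω : ℝ) ≤ V.G.R := by exact_mod_cast (by omega : V.ω ≤ V.G.R)
  have R4 : (2 * V.G.r : ℝ) ≤ V.G.R := by exact_mod_cast (by omega : 2 * V.G.r ≤ V.G.R)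
  have h1 := (hC V g hj 1 le_rfl (by omega) w).2.1
  rw [one_mul, ← Gv.B] at h1
  have key : ∀ (a a' : ℤ) (n : ℕ) (v : Pt → ℝ), n ≤ 2 * V.G.R → a ≤ a' → a' + V.G.r ≤ a + n →
      a ≤ -(V.G.rho + V.ω : ℤ) → -(V.G.rho : ℤ) + V.ω ≤ a + n → a + n ≤ 0 →
      (∀ x ∈ rc (a', -V.G.r) V.G.r (2 * V.G.r), v x = c) → (∀ x ∈ V.G.A, v x = w x) →
      (∀ e ∈ nL.edI (rc (a, -V.G.r) n (2 * V.G.r)), v e.2 ≠ v e.1 →
        (e.1 ∈ V.G.A ∨ e.2 ∈ V.G.A) ∧ v e.1 = w e.1 ∧ v e.2 = w e.2) →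
      (Kw56.avL V.Ga w - c) ^ 2 ≤ (1 + 20 * W ^ 2 + 2 * ((320 * 2 ^ j + C) * |W|)) * V.B w w :=
    fun a a' n v c1 c2 c3 c4 c5 c6 v1 v2 v3 => by
      set X := rc (a, -V.G.r) n (2 * V.G.r) with hX
      have e1 : eN nL X v v ≤ V.B w w := by
        rw [eN, edF_self, ← sum_filter_of_ne (p := fun e => v e.2 ≠ v e.1) fun e _ h h' => h (by simp [h']),
          Gv.B, eT_self]
        have k : ∀ e ∈ (nL.edI X).filter fun e => v e.2 ≠ v e.1, (e ∈ V.EA ∧ V.s2 e = 0) ∧ V.s1 e = 0 :=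
          fun e he => by
            rw [mem_filter] at he
            have := (Lat.mem_edI.1 he.1).2.1
            rw [hX, mem_rc] at this
            refine ⟨kp_in (Lat.mem_edT.2 ⟨(Lat.mem_edI.1 he.1).1, (v3 e he.1 he.2).1⟩) (by omega), ?_⟩
            simp only [Gv.s1, Vd.ray, Prod.fst_zero, Prod.snd_zero]
            split_ifs <;> omega
        refine (sum_congr rfl fun e he => ?_).trans_le
          (sum_le_sum_of_subset_of_nonneg (fun e he => (k e he).1.1) fun _ _ _ => sq_nonneg _)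
        have := v3 e (mem_filter.1 he).1 (mem_filter.1 he).2
        rw [(k e he).1.2, (k e he).2, this.2.1, this.2.2]; simp
      have e2 : ∑ x ∈ X, (v x - av X v) ^ 2 ≤ 5 * (V.G.R : ℝ) ^ 2 * V.B w w := by
        refine (poin_rc _ _ _ v).trans (mul_le_mul ?_ e1 (Po44.eN_nonneg _ _ _) (by positivity))
        have : (n : ℝ) ≤ 2 * V.G.R := by exact_mod_cast c1
        have := pow_le_pow_left₀ n.cast_nonneg this 2
        have := pow_le_pow_left₀ (by positivity) R4 2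
        push_cast; nlinarith
      have e3 : 2 * (V.G.r : ℝ) ^ 2 * (c - av X v) ^ 2 ≤ 5 * (V.G.R : ℝ) ^ 2 * V.B w w := by
        refine le_trans (le_of_eq ?_) ((sum_le_sum_of_subset_of_nonneg
          (s := rc (a', -V.G.r) V.G.r (2 * V.G.r)) (fun x hx => by
            rw [hX, mem_rc] at *; push_cast at *; omega) fun _ _ _ => sq_nonneg _).trans e2)
        rw [sum_congr rfl fun x hx => by rw [v1 x hx], sum_const, card_rc, nsmul_eq_mul]; push_cast; ring
      set Q := rc (-(V.G.rho + V.ω : ℤ), -V.G.r) (2 * V.ω) (2 * V.G.r) with hQ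
      have q1 : Q ⊆ V.rng V.ω := fun x hx => by
        rw [hQ, mem_rc] at hx; rw [Ring12.mem_rng (by omega)]; push_cast at *; omega
      have e4 : 4 * V.ω * V.G.r * (av X v - Kw56.avL V.Ga w) ^ 2 ≤
          2 * (5 * (V.G.R : ℝ) ^ 2 * V.B w w) + 2 * (C * (V.ω : ℝ) ^ 2 * V.B w w) := by
        have b1 := (sum_le_sum_of_subset_of_nonneg (s := Q) (fun x hx => by
          rw [hX, hQ, mem_rc] at *; push_cast at *; omega) fun _ _ _ => sq_nonneg _).trans e2
        have b2 := (sum_le_sum_of_subset_of_nonneg q1 fun _ _ _ => sq_nonneg _).trans h1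
        rw [sum_congr rfl fun x hx => by rw [v2 x (Ring12.rng_A g (by omega) (q1 hx))]] at b1
        calc _ = ∑ _x ∈ Q, (av X v - Kw56.avL V.Ga w) ^ 2 := by
              rw [sum_const, hQ, card_rc, nsmul_eq_mul]; push_cast; ring
          _ ≤ ∑ x ∈ Q, (2 * (w x - av X v) ^ 2 + 2 * (w x - Kw56.avL V.Ga w) ^ 2) :=
              sum_le_sum fun x _ => by nlinarith [sq_nonneg (2 * w x - av X v - Kw56.avL V.Ga w)]
          _ ≤ _ := by rw [sum_add_distrib, ← mul_sum, ← mul_sum]; linarith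
      have e5 : (c - av X v) ^ 2 ≤ 10 * W ^ 2 * V.B w w := by
        refine le_of_mul_le_mul_left (e3.trans ?_) (by positivity)
        nlinarith [mul_le_mul_of_nonneg_right (pow_le_pow_left₀ (by positivity) R1 2) T0]
      have e6 : (av X v - Kw56.avL V.Ga w) ^ 2 ≤ (320 * 2 ^ j + C) * W * V.B w w := by
        refine le_of_mul_le_mul_left (e4.trans ?_) (by positivity)
        have b1 := mul_le_mul_of_nonneg_right (mul_le_mul R1 R2 (by positivity) (by positivity)) T0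
        have b2 := mul_le_mul_of_nonneg_left (R3.trans R1) (by positivity : 0 ≤ C * V.ω * V.B w w)
        nlinarith
      rw [abs_of_pos W0]
      nlinarith [sq_nonneg (Kw56.avL V.Ga w + c - 2 * av X v)]
  rcases h with h | h
  · refine key (-V.G.R) (-V.G.r) V.G.R (fun x => if x ∈ bl 0 V.G.r then c else w x) (by omega) (by omega)
      (by omega) (by omega) (by omega) (by omega) (fun x hx => if_pos ?_)
      (fun x hx => if_neg (mem_sdiff.1 hx).2) fun e he hne => ?_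
    · rw [mem_rc] at hx; rw [mem_bl_ds, ds0]; push_cast at *; omega
    · rw [Lat.mem_edI, mem_rc, mem_rc] at he
      have a1 := abs_le.1 (edge_ds 0 he.1).2
      have a2 := ds0 e.1
      have a3 := ds0 e.2
      simp only [mem_bl_ds] at hne ⊢
      have a4 : ¬(ds 0 e.1 ≤ V.G.r ∧ ds 0 e.2 ≤ V.G.r) := fun h => hne (by rw [if_pos h.1, if_pos h.2])
      push_cast at *
      refine ⟨by rw [mA, mA]; omega, ?_, ?_⟩ <;> split_ifs with h' <;>
        first | rfl | exact (h _ (mI.2 (by omega))).symm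
  · refine key (-(2 * V.G.R)) (-(2 * V.G.R)) (2 * V.G.R - V.G.r) (fun x => if x ∈ bl 0 V.G.R then w x else c)
      (by omega) (by omega) (by omega) (by omega) (by omega) (by omega) (fun x hx => if_neg ?_)
      (fun x hx => if_pos (mem_sdiff.1 hx).1) fun e he hne => ?_
    · rw [mem_rc] at hx; rw [mem_bl_ds, ds0]; push_cast at *; omega
    · rw [Lat.mem_edI, mem_rc, mem_rc] at he
      have a1 := abs_le.1 (edge_ds 0 he.1).2
      have a2 := ds0 e.1
      have a3 := ds0 e.2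
      simp only [mem_bl_ds] at hne ⊢
      have a4 : ds 0 e.1 ≤ V.G.R ∨ ds 0 e.2 ≤ V.G.R := by
        by_contra h
        rw [not_or] at h
        exact hne (by rw [if_neg h.1, if_neg h.2])
      refine ⟨by rw [mA, mA]; omega, ?_, ?_⟩ <;> split_ifs with h' <;>
        first | rfl | exact (h _ (mO.2 (by omega))).symm

end Crest.Agent.T145.Kv
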