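import Crest.Agent.T145.KvRing_12
import Crest.Agent.T145.KrM3_17

/-!
# Row 145, module Kv: M3 from the ring Poincaré inequality and the pointwise bound (helper89)
-/

set_option autoImplicit false

namespace Crest.Agent.T145.Kv

open Finset Pot Kw56 H59
open Kr (cu)

namespace M89

/-- Poincaré inequality on the slit ring -/
def RingStmt : Prop := ∀ j : ℕ, ∃ C : ℝ, 0 ≤ C ∧ ∀ (V : Gv) (W : ℝ), V.Ok W → V.j = j → ∀ u : Pt → ℝ,
  ∑ x ∈ V.rng (3 * V.ω), (u x - avL V.Ga u) ^ 2 ≤ C * (V.ω : ℝ) ^ 2 * V.eT V.EA u u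

/-- mean value inequality in the slit domain -/
def PtStmt : Prop := ∃ C : ℝ, 0 ≤ C ∧ ∀ (V : Gv) (W : ℝ), V.Ok W → ∀ w, Hm V.G.A V.B w →
  ∀ x ∈ V.mid, w x ^ 2 ≤ C / (V.ω : ℝ) ^ 2 * ∑ y ∈ V.rng (3 * V.ω), w y ^ 2

/-- a competitor bounds the level and the flux free part -/
theorem key {X : Type} [DecidableEq X] {A : Finset X} {B : Bf X} (h : Co A B) {o η v : X → ℝ} {τ : ℝ}
    (ho : Hm A B o) (hp : 0 < B o o) (hv : ∀ x, x ∉ A → v x = η x - τ * o x) :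
    (B o η / B o o - τ) ^ 2 * B o o ≤ B v v ∧ ∃ z, Pot.Sup A z ∧ B z z ≤ B v v ∧
      ∀ x, hx A B η x - o x * (B o η / B o o) = v x - z x - (B o η / B o o - τ) * o x := by
  have h1 : B o v = B o η - τ * B o o := by
    have := ho (v - (η - τ • o)) fun x hx' => by simp [hv x hx']
    simp only [map_sub, map_smul, smul_eq_mul] at this
    linarith
  have h2 : hx A B v = hx A B η - τ • o :=
    h.hx_unique (fun x hx' => by simp [h.hx_off _ hx', hv x hx']) fun w hw => by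
      simp [h.hx_hm η w hw, ho w hw]
  obtain ⟨s1, s2⟩ := h.sub_hx_le (η := v) (v := v) fun _ _ => rfl
  refine ⟨?_, _, s1, s2, fun x => ?_⟩
  · have h3 := h.cs o v
    have h4 : B o η / B o o - τ = B o v / B o o := by rw [h1]; field_simp
    rw [h4, div_pow, div_mul_eq_mul_div, div_le_iff₀ (by positivity)]
    nlinarith
  · rw [Pi.sub_apply, h2]; simp only [Pi.sub_apply, Pi.smul_apply, smul_eq_mul]; ring

theorem sum_edge {E : Finset (Pt × Pt)} (hE : ∀ e ∈ E, e.2 - e.1 ∈ nL.Jp) {T : Finset Pt}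
    {F : Pt × Pt → ℝ} {g : Pt → ℝ} (h0 : ∀ x, 0 ≤ g x)
    (hT : ∀ e ∈ E, F e ≠ 0 → e.1 ∈ T ∧ F e ≤ g e.1) : ∑ e ∈ E, F e ≤ 2 * ∑ x ∈ T, g x := by
  rw [← sum_filter_of_ne (p := fun e => F e ≠ 0) fun _ _ h => h,
    ← sum_fiberwise_of_maps_to (g := fun e : Pt × Pt => e.1) (t := T)
      fun e he => (hT e (mem_filter.1 he).1 (mem_filter.1 he).2).1, mul_sum]
  refine sum_le_sum fun x _ => (sum_le_card_nsmul _ _ (g x) fun e he => ?_).trans ?_
  · obtain ⟨a, b⟩ := mem_filter.1 he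
    exact b ▸ (hT e (mem_filter.1 a).1 (mem_filter.1 a).2).2
  · have := deg_fst (Λ := nL) (ed := E.filter fun e => F e ≠ 0)
      (fun e he => hE e (mem_filter.1 he).1) x
    rw [nL_Jp, card_pair (by decide)] at this
    rw [nsmul_eq_mul]
    exact mul_le_mul_of_nonneg_right (by exact_mod_cast this) (h0 x)

variable {V : Gv} {W : ℝ}

theorem Gk_apply (V : Gv) (e : Pt × Pt) (u : Pt → ℝ) :
    V.Gk e u = u e.2 - u e.1 + V.s1 e * u V.k1 + V.s2 e * u V.k2 := by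
  simp [Gv.Gk]

theorem eT_apply (V : Gv) (ed : Finset (Pt × Pt)) (u v : Pt → ℝ) :
    V.eT ed u v = ∑ e ∈ ed, V.Gk e u * V.Gk e v := by
  simp [Gv.eT, sqF_apply]

theorem eT_self (V : Gv) (ed : Finset (Pt × Pt)) (u : Pt → ℝ) :
    V.eT ed u u = ∑ e ∈ ed, V.Gk e u ^ 2 := by
  simp [eT_apply, pow_two]

theorem eT_nonneg (V : Gv) (ed : Finset (Pt × Pt)) (u : Pt → ℝ) : 0 ≤ V.eT ed u u := by
  rw [eT_self]; positivity

theorem eT_mono (V : Gv) {ed ed' : Finset (Pt × Pt)} (h : ed ⊆ ed') (u : Pt → ℝ) :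
    V.eT ed u u ≤ V.eT ed' u u := by
  rw [eT_self, eT_self]
  exact sum_le_sum_of_subset_of_nonneg h fun _ _ _ => sq_nonneg _

theorem EA_ends (hG : V.Geo) {e : Pt × Pt} (he : e ∈ V.EA) :
    e.2 - e.1 ∈ nL.Jp ∧ e.1 ∈ V.G.Om ∧ e.2 ∈ V.G.Om :=
  Lat.mem_edI.1 (mem_filter.1 (hG.EA_sub he)).1

theorem mem_rng {n : ℕ} (hn : n ≤ V.G.rho) {x : Pt} : x ∈ V.rng n ↔
    ((-(V.G.rho + n : ℤ) ≤ x.1 ∧ x.1 < V.G.rho + n) ∧ -(V.G.rho + n : ℤ) ≤ x.2 ∧ x.2 < V.G.rho + n) ∧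
      ¬ ((-(V.G.rho - n : ℤ) ≤ x.1 ∧ x.1 < V.G.rho - n) ∧ -(V.G.rho - n : ℤ) ≤ x.2 ∧ x.2 < V.G.rho - n) := by
  simp only [Gv.rng, mem_sdiff, mem_sq]
  omega

theorem ds_zero (x : Pt) : ds 0 x = max |x.1| |x.2| := by simp [ds]

theorem mem_an0 {p q : ℕ} {x : Pt} : x ∈ Nc.an 0 p q ↔ (p : ℤ) < ds 0 x ∧ ds 0 x ≤ q := by
  rw [Nc.an, mem_sdiff, mem_bl_ds, mem_bl_ds, not_le, and_comm]

theorem rng_sub (hG : V.Geo) : V.rng (3 * V.ω) ⊆ V.G.A := fun x hx' => by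
  have h1 := hG.r_le
  have h2 := hG.rho_le
  have h3 := hG.ω_le
  have h4 := hG.ω16
  rw [mem_rng (by omega)] at hx'
  rw [Kr.Gm.A, mem_an0, ds_zero]
  simp only [lt_max_iff, max_le_iff, lt_abs, abs_le]
  omega

theorem mem_rng_of (hG : V.Geo) {x : Pt} (h1 : (V.G.rho : ℤ) - 3 * V.ω < ds 0 x)
    (h2 : ds 0 x < V.G.rho + 3 * V.ω) : x ∈ V.rng (3 * V.ω) := by
  have h3 := hG.ω_le
  rw [mem_rng (by omega)]
  rw [ds_zero] at h1 h2
  simp only [lt_max_iff, max_lt_iff, lt_abs, abs_lt] at h1 h2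
  omega

/-- the data with the level `τ` subtracted -/
noncomputable def tu (V : Gv) (u : Pt → ℝ) (τ : ℝ) (x : Pt) : ℝ :=
  if x ∈ V.G.Om then u x - τ else if x = V.k1 ∨ x = V.k2 then u x else 0

/-- the cut-off -/
noncomputable def ze (V : Gv) : Pt → ℝ := rmp 0 (V.G.rho - V.ω) (V.G.rho + V.ω)

theorem ze_mem (V : Gv) (x : Pt) : 0 ≤ ze V x ∧ ze V x ≤ 1 :=
  ⟨le_max_left _ _, max_le zero_le_one (min_le_left _ _)⟩

theorem ω_pos (hG : V.Geo) : (0 : ℝ) < V.ω := by exact_mod_cast (show 0 < V.ω by linarith [hG.ω16])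

theorem ze_one (hG : V.Geo) {x : Pt} (h : ds 0 x ≤ V.G.rho - V.ω) : ze V x = 1 :=
  rmp_one (by linarith [ω_pos hG]) (by exact_mod_cast h)

theorem ze_zero (hG : V.Geo) {x : Pt} (h : (V.G.rho : ℤ) + V.ω ≤ ds 0 x) : ze V x = 0 :=
  rmp_zero (by linarith [ω_pos hG]) (by exact_mod_cast h)

theorem ze_k1 (hG : V.Geo) : ze V V.k1 = 1 := ze_one hG (by
  have := hG.ω_le
  simp only [Gv.k1, ds_zero, Prod.fst_zero, Prod.snd_zero, abs_zero, max_self]; omega)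

theorem ze_k2 (ok : V.Ok W) (hG : V.Geo) : ze V V.k2 = 0 := ze_zero hG (by
  have h1 := hG.ω_le
  have h2 := hG.rho_le
  have h3 := ok.g.out
  simp only [Gv.k2, ds_zero, le_max_iff, le_abs]; omega)

theorem Gk_tu (hG : V.Geo) (u : Pt → ℝ) (τ : ℝ) {e : Pt × Pt} (he : e ∈ V.EA) :
    V.Gk e (tu V u τ) = V.Gk e u := by
  obtain ⟨-, h1, h2⟩ := EA_ends hG he
  simp only [Gk_apply, tu, if_pos h1, if_pos h2, if_neg hG.k_off.1, if_neg hG.k_off.2.1, true_or, or_true,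
    if_true]
  ring

/-- the energy of the competitors -/
theorem en_cut (ok : V.Ok W) (hG : V.Geo) {χ : Pt → ℝ} (hχ : χ = ze V ∨ χ = 1 - ze V) (u : Pt → ℝ) (τ : ℝ) :
    V.B (fun x => χ x * tu V u τ x) (fun x => χ x * tu V u τ x) ≤
      2 * V.eT V.EA u u + (∑ x ∈ V.rng (3 * V.ω), (u x - τ) ^ 2) / (V.ω : ℝ) ^ 2 := by
  have hω := ω_pos hG
  have a1 : ∀ x, χ x ^ 2 ≤ 1 := fun x => by
    obtain ⟨c1, c2⟩ := ze_mem V x
    rcases hχ with rfl | rfl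
    · nlinarith
    · simp only [Pi.sub_apply, Pi.one_apply]; nlinarith
  have a2 : ∀ x y, (χ x - χ y) ^ 2 = (ze V x - ze V y) ^ 2 := fun x y => by
    rcases hχ with rfl | rfl
    · rfl
    · simp only [Pi.sub_apply, Pi.one_apply]; ring
  have a3 : ∀ x y, ze V x = ze V y → χ x = χ y := fun x y h => by
    have := a2 x y
    rw [h, sub_self] at this
    nlinarith [sq_nonneg (χ x - χ y), sq_eq_zero_iff.1 (show (χ x - χ y) ^ 2 = 0 by simpa using this)]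
  have a4 : ∀ e ∈ V.EA, V.Gk e (fun x => χ x * tu V u τ x) =
      χ e.2 * V.Gk e u + (χ e.2 - χ e.1) * (u e.1 - τ) := fun e he => by
    have c1 : (V.s1 e : ℝ) * (χ V.k1 - χ e.2) = 0 := by
      by_cases h : V.s1 e = 0
      · simp [h]
      obtain ⟨-, -, d1, d2, d3, d4⟩ := (hG.seam e).1 h
      rw [a3 V.k1 e.2 (by
        rw [ze_k1 hG, ze_one hG]
        rw [d2, ds_zero]
        simp only [Prod.fst_add, Prod.snd_add, max_le_iff, abs_le]; omega), sub_self, mul_zero]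
    have c2 : (V.s2 e : ℝ) * (χ V.k2 - χ e.2) = 0 := by
      by_cases h : V.s2 e = 0
      · simp [h]
      obtain ⟨-, -, d1, d2, d3⟩ := (hG.seam e).2 h
      rw [a3 V.k2 e.2 (by
        rw [ze_k2 ok hG, ze_zero hG]
        rw [d2, ds_zero]
        simp only [Prod.fst_add, Prod.snd_add, le_max_iff, le_abs]; omega), sub_self, mul_zero]
    have c3 : tu V u τ e.1 = u e.1 - τ := if_pos (EA_ends hG he).2.1
    rw [← Gk_tu hG u τ he, ← c3, Gk_apply, Gk_apply]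
    linear_combination tu V u τ V.k1 * c1 + tu V u τ V.k2 * c2
  have a5 := sum_edge (E := V.EA) (fun e he => (EA_ends hG he).1) (T := V.rng (3 * V.ω))
    (F := fun e => ((χ e.2 - χ e.1) * (u e.1 - τ)) ^ 2) (g := fun x => (u x - τ) ^ 2 / (4 * (V.ω : ℝ) ^ 2))
    (fun x => by positivity) fun e he h0 => by
      have c1 : e.2 ∈ bl e.1 1 := by have := Lat.edge_near (EA_ends hG he).1; rwa [nL_rg] at this
      have c0 : (V.G.rho : ℝ) - V.ω < V.G.rho + V.ω := by linarith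
      have c2 : ze V e.1 ≠ ze V e.2 := fun h => h0 (by rw [a3 _ _ h]; simp)
      obtain ⟨⟨c3, c4⟩, -⟩ := rmp_ne c0 c1 c2
      have c5 := rmp_lip 0 c0 c1
      have c6 : (16 : ℝ) ≤ V.ω := by exact_mod_cast hG.ω16
      refine ⟨mem_rng_of hG ?_ ?_, ?_⟩
      · have : (V.G.rho : ℝ) - 3 * V.ω < ds 0 e.1 := by push_cast at c3; linarith
        exact_mod_cast this
      · have : (ds 0 e.1 : ℝ) < V.G.rho + 3 * V.ω := by push_cast at c4; linarith
        exact_mod_cast this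
      · rw [mul_pow, a2, div_eq_inv_mul]
        refine mul_le_mul_of_nonneg_right ((sq_le_sq' (abs_le.1 c5).1 (abs_le.1 c5).2).trans
          (le_of_eq ?_)) (sq_nonneg _)
        rw [show (V.G.rho : ℝ) + V.ω - (V.G.rho - V.ω) = 2 * V.ω by ring]
        push_cast
        field_simp
        ring
  rw [← sum_div] at a5
  rw [Gv.B, eT_self, eT_self, sum_congr rfl fun e he => by rw [a4 e he]]
  calc _ ≤ ∑ e ∈ V.EA, (2 * V.Gk e u ^ 2 + 2 * ((χ e.2 - χ e.1) * (u e.1 - τ)) ^ 2) :=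
        sum_le_sum fun e _ => by
          nlinarith [sq_nonneg (χ e.2 * V.Gk e u - (χ e.2 - χ e.1) * (u e.1 - τ)),
            mul_le_mul_of_nonneg_right (a1 e.2) (sq_nonneg (V.Gk e u))]
    _ ≤ _ := by
        rw [sum_add_distrib, ← mul_sum, ← mul_sum]
        refine add_le_add le_rfl ((mul_le_mul_of_nonneg_left a5 zero_le_two).trans (le_of_eq ?_))
        field_simp
        ring

theorem sq3 (a b c : ℝ) : (a - b - c) ^ 2 ≤ 3 * a ^ 2 + 3 * b ^ 2 + 3 * c ^ 2 := by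
  nlinarith [sq_nonneg (a + b), sq_nonneg (a + c), sq_nonneg (b - c)]

theorem chi_sq {χ : Pt → ℝ} (hχ : χ = ze V ∨ χ = 1 - ze V) (x : Pt) : χ x ^ 2 ≤ 1 := by
  obtain ⟨c1, c2⟩ := ze_mem V x
  rcases hχ with rfl | rfl
  · nlinarith
  · simp only [Pi.sub_apply, Pi.one_apply]; nlinarith

/-- level and flux free part of a harmonic extension -/
theorem est (ok : V.Ok W) (hG : V.Geo) (hA : V.Alg) (hc : 1 / (2 * W) ≤ V.cp) {C τ : ℝ} (hC : 0 ≤ C)
    {u χ o η : Pt → ℝ}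
    (hR : ∑ x ∈ V.rng (3 * V.ω), (u x - τ) ^ 2 ≤ C * (V.ω : ℝ) ^ 2 * V.eT V.EA u u)
    (hχ : χ = ze V ∨ χ = 1 - ze V) (ho : Hm V.G.A V.B o) (hoo : V.B o o = V.cp)
    (ob : ∀ x ∈ V.G.A, o x ^ 2 ≤ 1) (hv : ∀ x, x ∉ V.G.A → χ x * tu V u τ x = η x - τ * o x) :
    (V.B o η / V.cp - τ) ^ 2 ≤ 2 * W * (2 + C) * V.eT V.EA u u ∧
      ∑ y ∈ V.rng (3 * V.ω), (hx V.G.A V.B η y - o y * (V.B o η / V.cp)) ^ 2 ≤
        3 * (C + (4 + 18 * W) * (64 * 2 ^ V.j) ^ 2 * (2 + C)) * (V.ω : ℝ) ^ 2 * V.eT V.EA u u := by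
  have hω := ω_pos hG
  have hW : 0 < W := by linarith [ok.g.hW]
  have hE := eT_nonneg V V.EA u
  obtain ⟨k1, z, z1, z2, z3⟩ := key hA.coA ho (hoo ▸ hA.cp_pos) hv
  have e1 := (en_cut ok hG hχ u τ).trans (add_le_add le_rfl (div_le_div_of_nonneg_right hR (by positivity)))
  rw [hoo] at k1 z3
  obtain ⟨E, hE'⟩ : ∃ E, E = V.eT V.EA u u := ⟨_, rfl⟩
  obtain ⟨b, hb⟩ : ∃ b, b = V.B (fun x => χ x * tu V u τ x) (fun x => χ x * tu V u τ x) := ⟨_, rfl⟩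
  obtain ⟨d, hd⟩ : ∃ d, d = V.B o η / V.cp - τ := ⟨_, rfl⟩
  rw [← hE'] at hE e1 hR ⊢
  rw [← hb] at k1 z2 e1
  rw [← hd] at k1 z3 ⊢
  have e2 : b ≤ (2 + C) * E := e1.trans (le_of_eq (by field_simp))
  have e3 : d ^ 2 ≤ 2 * W * (2 + C) * E := by
    have c1 := (mul_le_mul_of_nonneg_left hc (sq_nonneg d)).trans (k1.trans e2)
    rw [mul_one_div, div_le_iff₀ (by positivity)] at c1
    linarith
  refine ⟨e3, ?_⟩
  have kA : V.k1 ∉ V.G.A ∧ V.k2 ∉ V.G.A := by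
    have : V.G.A ⊆ V.G.Om := An44.an_mono 0 (by linarith [ok.g.hc]) (by linarith [ok.g.out])
    exact ⟨fun h => hG.k_off.1 (this h), fun h => hG.k_off.2.1 (this h)⟩
  have r1 : (V.G.R : ℝ) ^ 2 ≤ (64 * 2 ^ V.j) ^ 2 * (V.ω : ℝ) ^ 2 := by
    have : (V.G.R : ℝ) ≤ 64 * 2 ^ V.j * V.ω := by
      have c1 := hG.le_rho
      rw [hG.rho_eq, ← mul_assoc] at c1
      exact_mod_cast c1
    rw [← mul_pow]
    exact pow_le_pow_left₀ (Nat.cast_nonneg _) this 2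
  have r2 : ((V.rng (3 * V.ω)).card : ℝ) ≤ 9 * (V.G.R : ℝ) ^ 2 := by
    have c1 : (V.rng (3 * V.ω)).card ≤ (2 * V.G.R + 1) ^ 2 :=
      (card_le_card ((rng_sub hG).trans sdiff_subset)).trans_eq (card_bl _ _)
    have c2 : 1 ≤ V.G.R := by linarith [hG.rho_le, hG.ω_le, hG.ω16]
    have c3 : (V.rng (3 * V.ω)).card ≤ 9 * V.G.R ^ 2 := c1.trans (by nlinarith)
    exact_mod_cast c3
  have s1 : ∑ y ∈ V.rng (3 * V.ω), z y ^ 2 ≤ 4 * (V.G.R : ℝ) ^ 2 * ((2 + C) * E) := by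
    refine (sum_le_sum_of_subset_of_nonneg (rng_sub hG) fun _ _ _ => sq_nonneg _).trans
      ((hA.poin z z1).trans (mul_le_mul_of_nonneg_left ?_ (by positivity)))
    rw [← hA.plain _ z z (z1 _ kA.1) (z1 _ kA.2) (z1 _ kA.1) (z1 _ kA.2)]
    exact z2.trans e2
  have s2 : ∑ y ∈ V.rng (3 * V.ω), (hx V.G.A V.B η y - o y * (V.B o η / V.cp)) ^ 2 ≤
      ∑ y ∈ V.rng (3 * V.ω), (3 * (u y - τ) ^ 2 + 3 * z y ^ 2 + 3 * d ^ 2) := sum_le_sum fun y hy => by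
    have c0 := rng_sub hG hy
    have c1 : tu V u τ y = u y - τ :=
      if_pos (An44.an_mono 0 (by linarith [ok.g.hc]) (by linarith [ok.g.out]) c0)
    have c2 := chi_sq hχ y
    have c3 : (χ y * (u y - τ)) ^ 2 ≤ (u y - τ) ^ 2 := by
      rw [mul_pow]; exact mul_le_of_le_one_left (sq_nonneg _) c2
    have c4 : (d * o y) ^ 2 ≤ d ^ 2 := by
      rw [mul_pow]; exact mul_le_of_le_one_right (sq_nonneg _) (ob y c0)
    rw [z3, c1]
    linarith only [sq3 (χ y * (u y - τ)) (z y) (d * o y), c3, c4]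
  rw [sum_add_distrib, sum_add_distrib, ← mul_sum, ← mul_sum, sum_const, nsmul_eq_mul] at s2
  have t0 : 0 ≤ (2 + C) * E := by positivity
  have t1 := mul_le_mul_of_nonneg_right r1 t0
  have t2 : ((V.rng (3 * V.ω)).card : ℝ) * (3 * d ^ 2) ≤
      9 * ((64 * 2 ^ V.j) ^ 2 * (V.ω : ℝ) ^ 2) * (3 * (2 * W * (2 + C) * E)) :=
    mul_le_mul (by linarith only [r1, r2]) (by linarith only [e3]) (by positivity) (by positivity)
  exact s2.trans (by linarith only [hR, s1, t1, t2])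

theorem on_dl (K : Finset Pt) (y : Pt) : on K (dl y) = if y ∈ K then dl y else 0 := by
  funext x
  by_cases h : x = y
  · subst h; by_cases h' : x ∈ K <;> simp [on, h']
  · split_ifs <;> simp [on, Pi.single_eq_of_ne h]

theorem fx_lin (hD : DualStmt) (V : Gv) (ed : Finset (Pt × Pt)) {ℓ : (Pt → ℝ) → ℝ} (hℓ : IsLinearMap ℝ ℓ) :
    (∀ s, pr (fun y => ℓ (dl y)) s = ℓ (cu s)) ∧ ∀ n : ℝ, 0 ≤ n → (∀ u, ℓ u ^ 2 ≤ n * V.eT ed u u) →
      V.Fx ed (fun y => ℓ (dl y)) n :=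
  ⟨((hD V ed 0).1 (hℓ.mk' _)).1, fun n => ((hD V ed n).1 (hℓ.mk' _)).2⟩

/-- the outer equilibrium potential -/
noncomputable def oo (V : Gv) : Pt → ℝ := on V.G.Om 1 - V.om

theorem B_one (hG : V.Geo) (v : Pt → ℝ) : V.B (on V.G.Om 1) v = 0 := by
  rw [Gv.B, eT_apply]
  refine sum_eq_zero fun e he => ?_
  obtain ⟨-, h1, h2⟩ := EA_ends hG he
  simp [Gk_apply, on, h1, h2, hG.k_off.1, hG.k_off.2.1]

theorem B_oo (hG : V.Geo) (v : Pt → ℝ) : V.B (oo V) v = -V.B V.om v := by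
  rw [oo, map_sub, LinearMap.sub_apply, B_one hG, zero_sub]

theorem m3 (hG : GeoStmt) (hA : AlgStmt) (hD : DualStmt) (hC : CapStmt) (hR : RingStmt) (hP : PtStmt) :
    M3Stmt := by
  intro W j
  obtain ⟨C, C0, hR⟩ := hR j
  obtain ⟨Q, Q0, hP⟩ := hP
  obtain ⟨K, hK⟩ : ∃ K, K = 3 * (C + (4 + 18 * |W|) * (64 * 2 ^ j) ^ 2 * (2 + C)) := ⟨_, rfl⟩
  have K0 : 0 ≤ K := by rw [hK]; positivity
  refine ⟨1 + Q * K + 8 * |W| * (2 + C), by positivity, fun V ok hj => ?_⟩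
  have ge := hG V W ok
  have al := hA V W ok
  have hc := (hC V W ok).1
  have hW : 0 < W := by linarith [ok.g.hW]
  have hω := ω_pos ge
  rw [abs_of_pos hW] at hK ⊢
  subst hj
  have g1 := ge.r_le
  have g2 := ge.rho_le
  have g3 := ge.ω_le
  have g4 := ok.g.hc
  have g5 := ok.g.out
  have g6 := ok.g.hr
  obtain ⟨f1, f2, f3, -⟩ := ge.k_off
  have om_off : ∀ x, x ∉ V.G.A → V.om x = on V.G.In 1 x := fun x hx' => al.coA.hx_off _ hx'
  have iO : V.G.In ⊆ V.G.Om := An44.an_mono 0 le_rfl (by omega)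
  have oO : V.G.Ou ⊆ V.G.Om := An44.an_mono 0 (by omega) le_rfl
  have aO : V.G.A ⊆ V.G.Om := An44.an_mono 0 (by omega) (by omega)
  have tri : ∀ x, x ∉ V.G.A → x ∈ V.G.Om → (x ∈ V.G.In ∧ x ∉ V.G.Ou ∧ ze V x = 1) ∨
      (x ∉ V.G.In ∧ x ∈ V.G.Ou ∧ ze V x = 0) := fun x h1 h2 => by
    rw [Kr.Gm.A, mem_an0] at h1
    rw [Kr.Gm.Om, mem_an0] at h2
    rw [Kr.Gm.In, Kr.Gm.Ou, mem_an0, mem_an0]
    by_cases h : ds 0 x ≤ V.G.r
    · exact Or.inl ⟨by omega, by omega, ze_one ge (by omega)⟩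
    · exact Or.inr ⟨by omega, by omega, ze_zero ge (by omega)⟩
  have z1 := ze_k1 ge
  have z2 := ze_k2 ok ge
  have eI := fun u => est ok ge al hc C0 (hR V W ok rfl u) (Or.inl rfl) al.om_hm rfl
    (fun x _ => by nlinarith [al.om_mem x]) (η := on V.In u) fun x hx' => by
      rw [om_off x hx']
      by_cases h : x ∈ V.G.Om
      · have h1 : x ≠ V.k1 := fun h1 => f1 (h1 ▸ h)
        rcases tri x hx' h with ⟨c1, -, c3⟩ | ⟨c1, -, c3⟩ <;> simp [tu, on, Gv.In, h, h1, c1, c3]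
      · have c1 : x ∉ V.G.In := fun c => h (iO c)
        by_cases h1 : x = V.k1
        · subst h1; simp [tu, on, Gv.In, h, c1, z1]
        · by_cases h2 : x = V.k2
          · subst h2; simp [on, Gv.In, h1, c1, z2]
          · simp [tu, on, Gv.In, h, h1, h2, c1]
  have hoo : Hm V.G.A V.B (oo V) := fun v hv => by rw [B_oo ge, al.om_hm v hv, neg_zero]
  have ooA : ∀ x ∈ V.G.A, oo V x = 1 - V.om x := fun x hx' => by simp [oo, on, aO hx']
  have eO := fun u => est ok ge al hc C0 (hR V W ok rfl u) (Or.inr rfl) hoo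
    (by rw [B_oo ge, al.coA.symm, B_oo ge, neg_neg]; rfl)
    (fun x hx' => by rw [ooA x hx']; nlinarith [al.om_mem x]) (η := on V.Ou u) fun x hx' => by
      rw [oo, Pi.sub_apply, Pi.sub_apply, om_off x hx']
      by_cases h : x ∈ V.G.Om
      · have h1 : x ≠ V.k2 := fun h1 => f2 (h1 ▸ h)
        rcases tri x hx' h with ⟨c1, c2, c3⟩ | ⟨c1, c2, c3⟩ <;> simp [tu, on, Gv.Ou, h, h1, c1, c2, c3]
      · have c1 : x ∉ V.G.In := fun c => h (iO c)
        have c2 : x ∉ V.G.Ou := fun c => h (oO c)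
        by_cases h2 : x = V.k2
        · subst h2; simp [tu, on, Gv.Ou, h, c1, z2]
        · by_cases h1 : x = V.k1
          · subst h1; simp [on, Gv.Ou, h, h2, c1, c2, z1]
          · simp [tu, on, Gv.Ou, h, h1, h2, c1, c2]
  have lH : ∀ (o : Pt → ℝ) (S : Finset Pt), IsLinearMap ℝ fun u => V.B o (on S u) / V.cp := fun o S =>
    ⟨fun u v => by rw [on_add, map_add, add_div], fun c u => by
      rw [on_smul, map_smul, smul_eq_mul, smul_eq_mul, mul_div_assoc]⟩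
  have lW : ∀ (o : Pt → ℝ) (S : Finset Pt) (x : Pt), IsLinearMap ℝ fun u =>
      hx V.G.A V.B (on S u) x - o x * (V.B o (on S u) / V.cp) := fun o S x =>
    ⟨fun u v => by rw [(lH o S).map_add, on_add, al.coA.hx_add, Pi.add_apply]; ring, fun c u => by
      rw [(lH o S).map_smul, on_smul, al.coA.hx_smul, Pi.smul_apply]; simp only [smul_eq_mul]; ring⟩
  have q1 : (fun y => V.B V.om (on V.In (dl y)) / V.cp) = V.eq := funext fun y => by
    rw [on_dl, Gv.eq, Pi.smul_apply, on]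
    split_ifs <;> simp [op, div_eq_inv_mul]
  have q2 : (fun y => V.B (oo V) (on V.Ou (dl y)) / V.cp) = V.te := funext fun y => by
    rw [B_oo ge, on_dl, Gv.te, Pi.smul_apply, on]
    split_ifs <;> simp [op, div_eq_inv_mul]
  have fin : ∀ {a b : ℝ} (u : Pt → ℝ), a ≤ b * V.eT V.EA u u → 0 ≤ b →
      b ≤ 1 + Q * K + 8 * W * (2 + C) → a ≤ (1 + Q * K + 8 * W * (2 + C)) * V.eT V.EO u u :=
    fun u h1 h2 h3 => h1.trans (mul_le_mul h3 (eT_mono V ge.EA_sub u) (eT_nonneg _ _ _) (h2.trans h3))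
  have n0 : 0 ≤ 1 + Q * K + 8 * W * (2 + C) := by positivity
  have n1 : 0 ≤ W * (2 + C) := by positivity
  have n2 := mul_nonneg Q0 K0
  have pt : ∀ (o η u : Pt → ℝ), Hm V.G.A V.B o →
      ∑ y ∈ V.rng (3 * V.ω), (hx V.G.A V.B η y - o y * (V.B o η / V.cp)) ^ 2 ≤
        K * (V.ω : ℝ) ^ 2 * V.eT V.EA u u → ∀ x ∈ V.mid,
      (hx V.G.A V.B η x - o x * (V.B o η / V.cp)) ^ 2 ≤
        (1 + Q * K + 8 * W * (2 + C)) * V.eT V.EO u u := fun o η u ho h x hx' => by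
    have c1 := hP V W ok (hx V.G.A V.B η - (V.B o η / V.cp) • o) (fun v hv => by
      simp [al.coA.hx_hm η v hv, ho v hv]) x hx'
    simp only [Pi.sub_apply, Pi.smul_apply, smul_eq_mul, mul_comm (V.B o η / V.cp)] at c1
    refine fin u (b := Q * K) (c1.trans ((mul_le_mul_of_nonneg_left h (by positivity)).trans
      (le_of_eq (by field_simp)))) n2 (by linarith)
  refine ⟨fun x hx' => ?_, ?_, ?_⟩
  · obtain ⟨p1, p2⟩ := fx_lin hD V V.EO (lW V.om V.In x)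
    obtain ⟨p3, p4⟩ := fx_lin hD V V.EO (lW (oo V) V.Ou x)
    have xA : x ∈ V.G.A := An44.an_mono 0 (by omega) (by omega) (ge.mid_sub hx')
    refine ⟨_, _, p2 _ n0 fun u => pt _ _ u al.om_hm (hK ▸ (eI u).2) x hx',
      p4 _ n0 fun u => pt _ _ u hoo (hK ▸ (eO u).2) x hx', fun a => ?_, fun b => ?_⟩
    · rw [p1, ← q1, (fx_lin hD V V.EO (lH V.om V.In)).1]; exact (add_sub_cancel _ _).symm
    · rw [p3, ← q2, (fx_lin hD V V.EO (lH (oo V) V.Ou)).1, ← ooA x xA]; exact (add_sub_cancel _ _).symm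
  · have ll : IsLinearMap ℝ fun u => V.B V.om (on V.In u) / V.cp - V.B (oo V) (on V.Ou u) / V.cp :=
      ⟨fun u v => by rw [(lH _ _).map_add, (lH _ _).map_add]; ring,
        fun c u => by rw [(lH _ _).map_smul, (lH _ _).map_smul, smul_sub]⟩
    rw [← q1, ← q2]
    refine (fx_lin hD V V.EO ll).2 _ n0 fun u => fin u (b := 8 * W * (2 + C)) ?_ (by linarith) (by linarith)
    nlinarith [(eI u).1, (eO u).1, sq_nonneg (V.B V.om (on V.In u) / V.cp - avL V.Ga u +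
      (V.B (oo V) (on V.Ou u) / V.cp - avL V.Ga u))]
  · have ll : IsLinearMap ℝ fun u => V.B V.om (on V.In u) / V.cp - avL V.Ga u :=
      ⟨fun u v => by rw [(lH _ _).map_add, map_add]; ring,
        fun c u => by rw [(lH _ _).map_smul, map_smul, smul_sub]⟩
    have q3 : (fun y => avL V.Ga (dl y)) = unC V.Ga := funext fun y => by
      rw [avL_apply, unC, sum_pi_single']
      split_ifs <;> simp
    rw [← q1, ← q3]
    exact (fx_lin hD V V.EO ll).2 _ n0 fun u => fin u (eI u).1 (by linarith) (by linarith)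

theorem ringStmt (hG : GeoStmt) : RingStmt := fun j => by
  obtain ⟨C, h0, h⟩ := ring12 j
  exact ⟨C, h0.le, fun V W ok hj u => (h V (hG V W ok) hj 3 (by omega) (by omega) u).2.1⟩

end M89

/-- M3 from the pointwise bound -/
theorem m3Stmt_of (hG : GeoStmt) (hA : AlgStmt) (hD : DualStmt) (hC : CapStmt) (hP : M89.PtStmt) : M3Stmt :=
  M89.m3 hG hA hD hC (M89.ringStmt hG) hP

end Crest.Agent.T145.Kv
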