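import Crest.Agent.T145.KsB_68
import Crest.Agent.T145.NcGeo_51
import Crest.Agent.T145.Sc_97

/-!
# Row 145 (helper89): twisted (D1) as a pure N-cut; families of blocks
-/

set_option autoImplicit false

namespace Crest.Agent.T145.Vx.D89

open Finset Nc Cut7 Ks68

section gen
variable {V ι : Type} [DecidableEq V] {m : Mdl V} {I : Finset ι} {N C S : ι → Finset V}

/-- product formula on the N-cut model (any kernels) -/
theorem prod_ncut (m : Mdl V) {r : ι → V} (hB : ∀ i ∈ I, ∀ j ∈ I, i ≠ j → Disjoint (N i) (N j))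
    {F : ι → Cfg V → ℝ} (hF : ∀ i ∈ I, Dep (N i) (F i))
    (hI : ∀ i ∈ I, Ig ((pn m (N i) {r i}).W 0) (F i)) :
    HasSum (fun s => (m.ncut I N r).W 0 s * ∏ i ∈ I, F i s)
      (∏ i ∈ I, ∑' s, (pn m (N i) {r i}).W 0 s * F i s) := by
  let m₁ : Mdl V := { m with site := fun _ _ => 1 }
  have e1 : ∀ i ∈ I, (sb m₁ ((N i).erase (r i)) (inn (N i) m.ed)).W 0 = (pn m (N i) {r i}).W 0 :=
    fun i _ => by rw [← sdiff_singleton_eq_erase]; rfl
  have hd : Ind I (fun i => (N i).erase (r i)) fun i => inn (N i) m.ed :=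
    Ind.of_blocks hB (fun _ _ => erase_subset _ _) fun _ _ _ he => (mem_filter.1 he).2
  have h1 := prod_hasSum m₁ 0 hd (F := F) fun i hi => by rw [e1 i hi]; exact hI i hi
  rw [prod_congr rfl fun i hi => by rw [e1 i hi]] at h1
  refine h1.congr_fun fun s => ?_
  change _ = (m.ncut I N r).W 0 s * _
  by_cases hW : (m.ncut I N r).W 0 s = 0
  · rw [hW, zero_mul, zero_mul]
  have off := Md.W_off hW
  congr 1
  refine prod_congr rfl fun i hi => hF i hi _ _ fun x hx => ?_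
  by_cases h : x ∈ (N i).erase (r i)
  · exact (pw_of_mem _ _ h).symm
  · rw [pw_of_notMem _ _ h]
    refine off x fun h' => ?_
    obtain ⟨j, hj, h'⟩ := mem_biUnion.1 h'
    by_cases hij : i = j
    · exact h (hij ▸ h')
    · exact disjoint_left.1 (hB i hi j hj hij) hx (mem_of_mem_erase h')

theorem ncut_Ws {r : ι → V} (hB : ∀ i ∈ I, ∀ j ∈ I, i ≠ j → Disjoint (N i) (N j))
    (q : V × V → ℤ) (s : Cfg V) : (m.ncut I N r).Ws 0 q (prj I N r s) =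
      ∏ e ∈ (m.ncut I N r).ed, m.w e (dE e s + q e) := by
  have hoff : ∀ x, x ∉ (m.ncut I N r).A → prj I N r s x = (0 : Cfg V) x := fun x hx => by
    by_cases h1 : ∃ i ∈ I, x ∈ N i
    · obtain ⟨i, hi, h1⟩ := h1
      have : x = r i := by_contra fun k => hx (mem_biUnion.2 ⟨i, hi, mem_erase.2 ⟨k, h1⟩⟩)
      rw [Cut7.prj_mem hB hi h1, this, sub_self]; rfl
    · exact Cut7.prj_not (fun i hi k => h1 ⟨i, hi, k⟩) s
  rw [Mdl.Ws, ind_pos hoff, one_mul, prod_eq_one (s := (m.ncut I N r).A)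
    (f := fun x => (m.ncut I N r).site x (prj I N r s x)) fun _ _ => rfl, mul_one]
  refine prod_congr rfl fun e he => ?_
  obtain ⟨i, hi, he⟩ := mem_biUnion.1 he
  change m.w e _ = _
  rw [dE, dE, Cut7.prj_mem hB hi (mem_filter.1 he).2.1, Cut7.prj_mem hB hi (mem_filter.1 he).2.2,
    sub_sub_sub_cancel_right]

/-- **twisted (D1)**, pure N-cut: no hole, no anchoring condition -/
theorem tdN (hc : m.Ctr) (ha : m.Anch) (hB : ∀ i ∈ I, ∀ j ∈ I, i ≠ j → Disjoint (N i) (N j))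
    (hN : ∀ i ∈ I, Box m (N i) (S i) ∧ C i ⊆ N i) (σ : V × V → ℤ) {F : ι → Cfg V → ℝ}
    (hF : ∀ i ∈ I, DepG (C i) (F i) ∧ (∀ s, 0 ≤ F i s) ∧ Ig (rWs m (N i) σ) (F i)) :
    Ig (m.Ws 0 σ) (fun s => ∏ i ∈ I, F i s) ∧ zx m σ (fun s => ∏ i ∈ I, F i s) ≤
      ∏ i ∈ I, cr m (N i) (C i) (S i) * zx (fr m (N i)) σ (F i) := by
  rcases I.eq_empty_or_nonempty with rfl | ⟨i₀, hi₀⟩
  · simp only [prod_empty, zx_one]
    exact ⟨(Md.ctr_wts hc ha 0 σ).ig_const 1, zr_le_one hc ha σ⟩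
  have ne : ∀ i ∈ I, (N i).Nonempty := fun i hi => (hN i hi).1.ne.mono (hN i hi).1.sub
  have : Nonempty V := ⟨(ne i₀ hi₀).choose⟩
  choose! r hr using ne
  have hE : (m.ncut I N r).ed ⊆ m.ed := biUnion_subset.2 fun _ _ => filter_subset _ _
  have c' : (m.ncut I N r).Ctr := hc.1.ctr_ncut I N r
  have a' : (m.ncut I N r).Anch := anch_ncut hB fun i hi =>
    anch_nbox fun x hx => (hN i hi).1.cn x hx _ (hr i hi)
  let φ : Cfg V →+ (I → V × V → ℤ) := AddMonoidHom.pi fun i => flH (C i.1)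
  have hφ : ∀ s t, φ s = φ t ↔ ∀ i ∈ I, flH (C i) s = flH (C i) t := fun s t =>
    ⟨fun k i hi => congrFun k ⟨i, hi⟩, fun k => funext fun i => k i.1 i.2⟩
  have hφ0 : ∀ s, ind (φ s = 0) = ∏ i ∈ I, ind (Fl (C i) s) := fun s => by
    rw [← ind_forall, ← map_zero φ]
    exact ind_congr ((hφ s 0).trans (by simp only [map_zero, fl_iff]))
  have hpr : ∀ (K : ι → Cfg V → ℝ), (∀ i ∈ I, DepG (C i) (K i)) → ∀ s,
      ∏ i ∈ I, K i (prj I N r s) = ∏ i ∈ I, K i s := fun K hK s => prod_congr rfl fun i hi =>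
    (hK i hi s _ (-s (r i)) fun x hx => by
      rw [Cut7.prj_mem hB hi ((hN i hi).2 hx)]; ring).symm
  have dF : ∀ i ∈ I, DepG (N i) (F i) := fun i hi => (hF i hi).1.mono (hN i hi).2
  have dL : ∀ i ∈ I, DepG (N i) fun s => ind (Fl (C i) s) := fun i hi =>
    (depG_fl _).mono (hN i hi).2
  have wi : ∀ i ∈ I, Wt ((pn m (N i) {r i}).W 0) := fun i hi =>
    pn_wt hc.1 (hN i hi).1.cn (hr i hi) (mem_singleton_self _) 0
  have w0 := Md.ctr_wt hc ha 0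
  have p1 := prod_ncut (tw m σ) (r := r) (F := F) hB (fun i hi => (dF i hi).dep)
    fun i hi => by rw [pn_tw, tw_W]; exact (root_tw (hr i hi) (dF i hi)).1.1 (hF i hi).2.2
  rw [show (tw m σ).ncut I N r = tw (m.ncut I N r) σ from rfl] at p1
  simp only [pn_tw, tw_W] at p1
  have p2 := prod_ncut m (r := r) hB (F := fun i s => ind (Fl (C i) s))
    (fun i hi => (dL i hi).dep) fun i hi => (wi i hi).ig_ind _
  have hW : ∀ q s, m.Ws 0 q s = (ind (∀ x, x ∉ m.A → s x = 0) *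
      (∏ e ∈ m.ed \ (m.ncut I N r).ed, m.w e (dE e s + q e)) * ∏ x ∈ m.A, m.site x (s x)) *
        (m.ncut I N r).Ws 0 q (Cut7.prjH I N r s) := fun q s => by
    rw [Cut7.prjH_apply, ncut_Ws hB]
    simp only [Mdl.Ws, Finsupp.coe_zero, Pi.zero_apply]
    rw [← prod_sdiff hE]; ring
  have h := cut_dat (Cut7.prjH I N r) φ (ρ := fun q => (m.ncut I N r).Ws 0 q)
    (W := fun q => m.Ws 0 q) (H := fun q s => ind (∀ x, x ∉ m.A → s x = 0) *
      (∏ e ∈ m.ed \ (m.ncut I N r).ed, m.w e (dE e s + q e)) * ∏ x ∈ m.A, m.site x (s x))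
    (Md.ctr_rsd_seam c')
    ((((Md.pd_off m.A).comp (AddMonoidHom.fst (Cfg V) (V × V → ℤ))).mul
      (Sl46.pd_seam hc.1 sdiff_subset)).mul (pd_prod pdStmt _ fun x hx =>
        (hc.2 x hx).2.1.comp ((Finsupp.applyAddHom x).comp (AddMonoidHom.fst (Cfg V) (V × V → ℤ)))))
    (fun q t => dens_slice (Cut7.prjH I N r) (fun s => by
      rw [Cut7.prjH_apply, ncut_Ws hB]
      exact (prod_pos fun e he => (hc.1 e (hE he)).pos _).ne') (hW q) (Md.ctr_wts hc ha 0 q).summ t)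
    hW (fun q => Md.Ws_nonneg hc.1 hc.nn 0 q) (fun q => (Md.ctr_wts hc ha 0 q).summ)
    (fun q => (Md.ctr_wts c' a' 0 q).summ) (by rw [← Mdl.W_eq_Ws]; exact (c'.cen a').pos0) σ
    (F := fun s => ∏ i ∈ I, F i s) (fun t => prod_nonneg fun i hi => (hF i hi).2.1 t)
    (fun s t k => prod_congr rfl fun i hi => depG_of_flH (hF i hi).1 ((hφ s t).1 k i hi))
    p1.summable
  simp only [← Mdl.W_eq_Ws, Cut7.prjH_apply, hpr F fun i hi => (hF i hi).1, hφ0,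
    hpr (fun i s => ind (Fl (C i) s)) fun i _ => depG_fl _] at h
  obtain ⟨k1, k2⟩ := h
  refine ⟨k1, ?_⟩
  rw [p2.tsum_eq, p1.tsum_eq, w0.tsum_eq fun s => ∏ i ∈ I, ind (Fl (C i) s)] at k2
  have d := (d1Stmt V ι m I N C S (fun i s => ind (Fl (C i) s)) hc ha hB fun i hi =>
    ⟨(hN i hi).1, (hN i hi).2, depG_fl _, fun _ => ind_nonneg _,
      (rW_cen hc.1 (hN i hi).1.cn ⟨_, hr i hi⟩).wt.ig_ind _⟩).2
  have z1 : ∏ i ∈ I, Nc.nE m (N i) (fun s => ind (Fl (C i) s)) =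
      (∏ i ∈ I, ∑' s, (pn m (N i) {r i}).W 0 s * ind (Fl (C i) s)) /
        ∏ i ∈ I, Zs ((pn m (N i) {r i}).W 0) := by
    rw [← prod_div_distrib]
    exact prod_congr rfl fun i hi => pr_root (hr i hi) (hN i hi).2
  have z2 : ∏ i ∈ I, zx (fr m (N i)) σ (F i) =
      (∏ i ∈ I, ∑' s, (pn m (N i) {r i}).Ws 0 σ s * F i s) /
        ∏ i ∈ I, Zs ((pn m (N i) {r i}).W 0) := by
    rw [← prod_div_distrib]
    exact prod_congr rfl fun i hi => zx_root (hr i hi) (dF i hi)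
  have P0 : 0 < ∏ i ∈ I, Zs ((pn m (N i) {r i}).W 0) := prod_pos fun i hi => (wi i hi).pos
  have P1 : 0 < ∏ i ∈ I, Nc.nE m (N i) (fun s => ind (Fl (C i) s)) :=
    prod_pos fun i hi => Ks68.pr_fl_pos hc.1 (hN i hi).1.cn ⟨_, hr i hi⟩ _
  have P2 := w0.pos
  have P3 : 0 ≤ ∏ i ∈ I, zx (fr m (N i)) σ (F i) :=
    prod_nonneg fun i hi => zx_nonneg (fr_ctr hc.1 _) σ (hF i hi).2.1
  rw [prod_mul_distrib] at d ⊢
  rw [z1] at d P1
  rw [z2] at P3 ⊢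
  rw [zx]
  generalize (∏ i ∈ I, Zs ((pn m (N i) {r i}).W 0)) = a at *
  generalize Zs (m.W 0) = c at *
  generalize (∏ i ∈ I, ∑' s, (pn m (N i) {r i}).W 0 s * ind (Fl (C i) s)) = u at *
  generalize (∏ i ∈ I, ∑' s, (pn m (N i) {r i}).Ws 0 σ s * F i s) = v at *
  generalize (∏ i ∈ I, cr m (N i) (C i) (S i)) = g at *
  have u0 : 0 < u := (div_pos_iff_of_pos_right P0).1 P1
  have v0 : 0 ≤ v := by
    have := mul_nonneg P3 P0.le
    rwa [div_mul_cancel₀ _ P0.ne'] at this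
  rw [div_le_iff₀ P2]
  refine le_of_mul_le_mul_right (k2.trans ((mul_le_mul_of_nonneg_left
    (mul_le_mul_of_nonneg_left d P2.le) v0).trans_eq ?_)) u0
  field_simp

end gen

section fam
variable {V : Type} [DecidableEq V] {m : Mdl V} {σ : V × V → ℤ} {U U' : Finset V}
  {F F' : Cfg V → ℝ} {β β' : ℝ}

/-- `F` is a product of nonnegative insertions in disjoint boxes inside `U`, with total norm at most `β` -/
def Fam (m : Mdl V) (σ : V × V → ℤ) (U : Finset V) (F : Cfg V → ℝ) (β : ℝ) : Prop :=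
  ∃ (ι : Type) (I : Finset ι) (N C S : ι → Finset V) (G : ι → Cfg V → ℝ),
    (∀ i ∈ I, ∀ j ∈ I, i ≠ j → Disjoint (N i) (N j)) ∧
    (∀ i ∈ I, N i ⊆ U ∧ (Box m (N i) (S i) ∧ C i ⊆ N i) ∧ DepG (C i) (G i) ∧ (∀ s, 0 ≤ G i s) ∧
      Ig (rWs m (N i) σ) (G i)) ∧
    (∀ s, F s = ∏ i ∈ I, G i s) ∧ ∏ i ∈ I, cr m (N i) (C i) (S i) * zx (fr m (N i)) σ (G i) ≤ β

theorem Fam.le (h : Fam m σ U F β) (hc : m.Ctr) (ha : m.Anch) :
    Ig (m.Ws 0 σ) F ∧ zx m σ F ≤ β := by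
  obtain ⟨ι, I, N, C, S, G, h1, h2, h3, h4⟩ := h
  obtain rfl : F = fun s => ∏ i ∈ I, G i s := funext h3
  have := tdN hc ha h1 (fun i hi => (h2 i hi).2.1) σ fun i hi => (h2 i hi).2.2
  exact ⟨this.1, this.2.trans h4⟩

/-- normalised form -/
theorem Fam.ex (h : Fam m σ U F β) (hc : m.Ctr) (ha : m.Anch) :
    zr m σ * Ex (m.Ws 0 σ) F ≤ β := by
  rw [← zx_eq (Md.ctr_wts hc ha 0 σ)]; exact (h.le hc ha).2

theorem Fam.nonneg (h : Fam m σ U F β) (hF : m.Fm) : 0 ≤ β := by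
  obtain ⟨ι, I, N, C, S, G, -, h2, -, h4⟩ := h
  exact (prod_nonneg fun i hi => mul_nonneg (cr_nonneg hF _ _ _)
    (zx_nonneg (fr_ctr hF _) σ (h2 i hi).2.2.2.1)).trans h4

theorem Fam.one (m : Mdl V) (σ : V × V → ℤ) (U : Finset V) : Fam m σ U (fun _ => 1) 1 :=
  ⟨Unit, ∅, fun _ => ∅, fun _ => ∅, fun _ => ∅, fun _ _ => 1, fun _ h => absurd h (notMem_empty _),
    fun _ h => absurd h (notMem_empty _), fun _ => prod_empty.symm, prod_empty.le⟩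

theorem Fam.box {N C S : Finset V} (h : Box m N S) (hC : C ⊆ N) (dF : DepG C F) (F0 : ∀ s, 0 ≤ F s)
    (iF : Ig (rWs m N σ) F) : Fam m σ N F (cr m N C S * zx (fr m N) σ F) :=
  ⟨Unit, {()}, fun _ => N, fun _ => C, fun _ => S, fun _ => F, fun _ _ _ _ h => absurd rfl h,
    fun _ _ => ⟨Subset.rfl, ⟨h, hC⟩, dF, F0, iF⟩, fun _ => by rw [prod_singleton],
    by rw [prod_singleton]⟩

theorem Fam.mono (h : Fam m σ U F β) (hU : U ⊆ U') (hβ : β ≤ β') : Fam m σ U' F β' := by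
  obtain ⟨ι, I, N, C, S, G, h1, h2, h3, h4⟩ := h
  exact ⟨ι, I, N, C, S, G, h1, fun i hi => ⟨(h2 i hi).1.trans hU, (h2 i hi).2⟩, h3, h4.trans hβ⟩

theorem Fam.congr (h : Fam m σ U F β) (hF : ∀ s, F' s = F s) : Fam m σ U F' β := by
  rwa [funext hF]

theorem Fam.mul (h : Fam m σ U F β) (h' : Fam m σ U' F' β') (hF : m.Fm) (hU : Disjoint U U') :
    Fam m σ (U ∪ U') (fun s => F s * F' s) (β * β') := by
  have b0 := h.nonneg hF
  obtain ⟨ι, I, N, C, S, G, h1, h2, h3, h4⟩ := h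
  obtain ⟨ι', I', N', C', S', G', h1', h2', h3', h4'⟩ := h'
  refine ⟨ι ⊕ ι', I.disjSum I', Sum.elim N N', Sum.elim C C', Sum.elim S S', Sum.elim G G', ?_, ?_,
    fun s => ?_, ?_⟩
  · rintro (i | i) hi (j | j) hj hij
    · exact h1 i (inl_mem_disjSum.1 hi) j (inl_mem_disjSum.1 hj) fun k => hij (congrArg _ k)
    · exact hU.mono (h2 i (inl_mem_disjSum.1 hi)).1 (h2' j (inr_mem_disjSum.1 hj)).1
    · exact hU.symm.mono (h2' i (inr_mem_disjSum.1 hi)).1 (h2 j (inl_mem_disjSum.1 hj)).1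
    · exact h1' i (inr_mem_disjSum.1 hi) j (inr_mem_disjSum.1 hj) fun k => hij (congrArg _ k)
  · rintro (i | i) hi
    · have := h2 i (inl_mem_disjSum.1 hi)
      exact ⟨this.1.trans subset_union_left, this.2⟩
    · have := h2' i (inr_mem_disjSum.1 hi)
      exact ⟨this.1.trans subset_union_right, this.2⟩
  · rw [prod_disjSum]; exact congrArg₂ (· * ·) (h3 s) (h3' s)
  · rw [prod_disjSum]
    exact mul_le_mul h4 h4' (prod_nonneg fun i hi => mul_nonneg (cr_nonneg hF _ _ _)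
      (zx_nonneg (fr_ctr hF _) σ (h2' i hi).2.2.2.1)) b0

theorem Fam.prod {ι : Type} (hF : m.Fm) (I : Finset ι) {N : ι → Finset V} {G : ι → Cfg V → ℝ}
    {b : ι → ℝ} (hB : ∀ i ∈ I, ∀ j ∈ I, i ≠ j → Disjoint (N i) (N j))
    (h : ∀ i ∈ I, Fam m σ (N i) (G i) (b i)) :
    Fam m σ (I.biUnion N) (fun s => ∏ i ∈ I, G i s) (∏ i ∈ I, b i) := by
  classical
  induction I using Finset.induction_on with
  | empty => simpa only [prod_empty] using Fam.one m σ _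
  | insert j I hj ih =>
    simp only [prod_insert hj, biUnion_insert]
    refine (h j (mem_insert_self _ _)).mul (ih (fun a ha b hb => hB a (mem_insert_of_mem ha) b
      (mem_insert_of_mem hb)) fun i hi => h i (mem_insert_of_mem hi)) hF ?_
    exact (disjoint_biUnion_right _ _ _).2 fun i hi =>
      hB j (mem_insert_self _ _) i (mem_insert_of_mem hi) fun k => hj (k ▸ hi)

/-- a connected set without insertion -/
theorem Fam.blk (hF : m.Fm) (hU : Cn m U) (hn : U.Nonempty) :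
    Fam m σ U (fun _ => 1) (zr (fr m U) σ) := by
  have hb : Box m U U := ⟨hU, Subset.rfl, hn, by
    rw [sdiff_self]; exact ⟨empty_subset _, fun _ h => absurd h (notMem_empty _)⟩,
    fun x hx => by
      rw [sdiff_self] at hx
      obtain ⟨-, e, -, h⟩ := Mdl.mem_bd.1 hx
      rcases h with h | h <;> exact absurd h.2 (notMem_empty _)⟩
  have := Fam.box (σ := σ) hb (empty_subset _) (DepG.const _ (1 : ℝ)) (fun _ => zero_le_one)
    ((wt_rWs hF hU hn σ).ig_const 1)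
  rwa [cr_empty hF hb, one_mul, zx_one] at this

theorem zr_empty (m : Mdl V) (σ : V × V → ℤ) (hF : m.Fm) : zr (fr m ∅) σ = 1 := by
  have a : (fr m ∅).Anch := fun x hx => absurd (mem_sdiff.1 hx).1 (notMem_empty _)
  rw [zr, Sl46.Ws_eq_W (fr m ∅) 0 fun e he => absurd (mem_pn_ed.1 he).2.1 (notMem_empty _)]
  exact div_self (Md.ctr_wt (fr_ctr hF _) a 0).pos.ne'

end fam

/-! ## the lattice -/

open Geo

variable {Λ : Lat} {m : Mdl Pt} {σ : Pt × Pt → ℤ} {U : Finset Pt} {z : Pt} {r c R : ℕ}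
  {F : Cfg Pt → ℝ}

theorem rWs_inL (h : InL Λ m U) : rWs m U σ = rWs (Λ.N U) U σ := by
  rw [rWs, rWs, fr, fr, h.pn_Ws, (inL_N Subset.rfl).pn_Ws]

theorem zx_inL (h : InL Λ m U) (F : Cfg Pt → ℝ) : zx (fr m U) σ F = zx (fr (Λ.N U) U) σ F := by
  rw [zx, zx, fr_W, fr_W, h.rW_eq]
  exact congrArg (fun W : Cfg Pt → ℝ => (∑' s, W s * F s) / _) (rWs_inL h)

theorem zr_inL (h : InL Λ m U) : zr (fr m U) σ = zr (fr (Λ.N U) U) σ := by
  rw [← zx_one, ← zx_one, zx_inL h]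

theorem pn_Nr (Λ : Lat) (U : Finset Pt) (x : Pt) : (pn (Λ.N U) U {x}).Ws = (Λ.Nr U x).Ws := by
  rw [(inL_N Subset.rfl).pn_Ws, sdiff_singleton_eq_erase]; rfl

theorem fm_N (hΛ : Λ.Ok) (U : Finset Pt) : (Λ.N U).Fm := fun _ _ => ⟨Λ.xy, Λ.τ, hΛ.2, rfl⟩

theorem ctr_Nr (hΛ : Λ.Ok) (U : Finset Pt) (x : Pt) : (pn (Λ.N U) U {x}).Ctr := pn_ctr (fm_N hΛ U) _ _

theorem anch_Nr (hU : CnL Λ U) {x : Pt} (hx : x ∈ U) : (pn (Λ.N U) U {x}).Anch :=
  pn_anch ((inL_N Subset.rfl).cn hU) hx (mem_singleton_self _)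

/-- the free expectation with any root -/
theorem zx_Nr (hΛ : Λ.Ok) (hU : CnL Λ U) {x : Pt} (hx : x ∈ U) (hF : DepG U F) :
    zx (fr (Λ.N U) U) σ F = zr (fr (Λ.N U) U) σ * Ex ((Λ.Nr U x).Ws 0 σ) F := by
  rw [zx_root hx hF, zr_root hx, zx_eq (Md.ctr_wts (ctr_Nr hΛ U x) (anch_Nr hU hx) 0 σ), pn_Nr]

theorem zr_fr_pos (hΛ : Λ.Ok) (hU : CnL Λ U) (hn : U.Nonempty) : 0 < zr (fr (Λ.N U) U) σ :=
  zr_pos (fr_ctr (fm_N hΛ U) _) (fr_anch ((inL_N Subset.rfl).cn hU) hn) σ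

theorem zr_fr_le (hΛ : Λ.Ok) (hU : CnL Λ U) (hn : U.Nonempty) : zr (fr (Λ.N U) U) σ ≤ 1 :=
  zr_le_one (fr_ctr (fm_N hΛ U) _) (fr_anch ((inL_N Subset.rfl).cn hU) hn) σ

theorem ex_Nr (hΛ : Λ.Ok) (hU : CnL Λ U) {x y : Pt} (hx : x ∈ U) (hy : y ∈ U) (hF : DepG U F) :
    Ex ((Λ.Nr U x).Ws 0 σ) F = Ex ((Λ.Nr U y).Ws 0 σ) F :=
  mul_left_cancel₀ (zr_fr_pos (σ := σ) hΛ hU ⟨x, hx⟩).ne'
    ((zx_Nr hΛ hU hx hF).symm.trans (zx_Nr hΛ hU hy hF))

theorem nrm_nonneg (hΛ : Λ.Ok) (σ : Pt × Pt → ℤ) (z : Pt) (c : ℕ) (F : Cfg Pt → ℝ) :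
    0 ≤ Λ.nrm σ z c F := by
  rw [Lat.nrm, Lat.exN, ← pn_Nr]
  exact Ex_nonneg (Md.Ws_nonneg (ctr_Nr hΛ _ _).1 (ctr_Nr hΛ _ _).nn 0 σ) fun s _ => abs_nonneg _

/-- a cell -/
theorem fam_cell (hΛ : Λ.Ok) (hF : m.Fm) (h : Lh Λ m ∅ z (c - Λ.rg)) (hr : r + 2 * Λ.rg ≤ c)
    (hI : Ins z (r + Λ.rg) F) : Fam m σ (bl z c) (fun s => |F s|)
      (gam Λ r c * (zr (fr (Λ.N (bl z c)) (bl z c)) σ * Λ.nrm σ z c F)) := by
  have hL : InL Λ m (bl z c) := h.inL_bl (by omega)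
  have hb := h.box0 hΛ (c := c) (by omega) (by omega)
  have sub : bl z (r + Λ.rg) ⊆ bl z c := bl_mono z (by omega)
  have dF : DepG (bl z (r + Λ.rg)) fun s => |F s| := fun s s' k hk => congrArg abs (hI.1 s s' k hk)
  have ne : (bl z c).Nonempty := ⟨z, self_mem_bl z c⟩
  have k := Fam.box (σ := σ) hb sub dF (fun _ => abs_nonneg _)
    ((Md.ctr_ses (fr_ctr hF _) (fr_anch hb.cn ne) 0 σ).ig hI.2.abs)
  refine k.mono Subset.rfl ?_
  rw [zx_inL hL, zx_Nr hΛ (cnL_bl hΛ z c) (self_mem_bl z c) (dF.mono sub)]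
  exact mul_le_mul_of_nonneg_right (hL.cr_bl monoCrStmt hΛ hF hr)
    (mul_nonneg (zr_fr_pos hΛ (cnL_bl hΛ z c) ne).le (nrm_nonneg hΛ σ z c F))

/-- a free cell: the ratio is at most `1` -/
theorem fam_cell' (hΛ : Λ.Ok) (hF : m.Fm) (h : Lh Λ m ∅ z (c - Λ.rg)) (hr : r + 2 * Λ.rg ≤ c)
    (hI : Ins z (r + Λ.rg) F) {g : ℝ} (hg : gam Λ r c ≤ g) :
    Fam m σ (bl z c) (fun s => |F s|) (g * Λ.nrm σ z c F) := by
  have n0 := nrm_nonneg hΛ σ z c F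
  have ne : (bl z c).Nonempty := ⟨z, self_mem_bl z c⟩
  have z0 := (zr_fr_pos (σ := σ) hΛ (cnL_bl hΛ z c) ne).le
  refine (fam_cell hΛ hF h hr hI).mono Subset.rfl (mul_le_mul hg
    (mul_le_of_le_one_left n0 (zr_fr_le hΛ (cnL_bl hΛ z c) ne)) (mul_nonneg z0 n0) ?_)
  exact (zero_le_one.trans (one_le_gam monoCrStmt hΛ (by omega))).trans hg

/-- an annulus (possibly empty) -/
theorem fam_an (hΛ : Λ.Ok) (hF : m.Fm) (h : InL Λ m (an z c R)) :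
    Fam m σ (an z c R) (fun _ => 1) (zr (fr (Λ.N (an z c R)) (an z c R)) σ) := by
  rcases lt_or_ge c R with hc | hc
  · rw [← zr_inL h]
    exact Fam.blk hF (h.cn (cnL_an hΛ z hc)) (an_nonempty z hc)
  · have e : an z c R = ∅ := sdiff_eq_empty_iff_subset.2 (bl_mono z hc)
    rw [e, zr_empty _ _ (fm_N hΛ _)]
    exact Fam.one m σ _

theorem lh_of_amb (h : Amb Λ m (bl z c)) (hc : Λ.rg ≤ c) : Lh Λ m ∅ z (c - Λ.rg) :=
  lh_amb (by rwa [Nat.sub_add_cancel hc])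

/-- a ball inside a free model whose root lies off the interior of the ball -/
theorem lh_free (hc : Λ.rg ≤ c) (hU : bl z c ⊆ U) {x : Pt} (hx : x ∉ bl z (c - Λ.rg)) :
    Lh Λ (pn (Λ.N U) U {x}) ∅ z (c - Λ.rg) := by
  have e : c - Λ.rg + Λ.rg = c := Nat.sub_add_cancel hc
  refine ⟨fun e he _ => ⟨?_, notMem_empty _, notMem_empty _⟩, ?_, ?_⟩
  · have h := mem_pn_ed.1 he
    exact ((inL_N (Λ := Λ) (Subset.refl U)).mem h.2.1 h.2.2).1 h.1
  · rw [e, sdiff_empty]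
    exact (inL_N hU).pn hU _
  · rw [sdiff_empty]
    exact cl_pn ((bl_mono z (Nat.sub_le _ _)).trans hU) (disjoint_singleton_right.2 hx)

end Crest.Agent.T145.Vx.D89
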