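import Crest.Agent.T145.KsC_68
import Crest.Agent.T145.VxDomA_89

/-!
# Row 145 (helper11): removal of a hole or a slit in one twisted sector, no sum over sectors
-/

set_option autoImplicit false

namespace Crest.Agent.T145.Kv11

open Finset Nc Ks68

variable {V : Type} [DecidableEq V] {m m' : Mdl V} {N S U K T X S' : Finset V} {σ : V × V → ℤ}

/-- a pure gauge costs nothing -/
theorem zr_pure (hF : m.Fm) (hU : Cn m U) (hn : U.Nonempty) {ψ : Cfg V}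
    (hσ : ∀ e ∈ inn U m.ed, σ e = dE e ψ) : zr (fr m U) σ = 1 := by
  obtain ⟨r, hr⟩ := hn
  rw [zr_root hr, zr, div_eq_one_iff_eq (pn_wt hF hU hr (mem_singleton_self r) 0).ne,
    ← Zs_equiv (Equiv.addRight (pj U r ψ)) ((pn m U {r}).W 0)]
  refine congrArg _ (funext fun t => ?_)
  rw [Equiv.coe_addRight, Mdl.W_congr _ (η := 0) (η' := 0 + pj U r ψ) fun x hx => by
    rw [zero_add, pj_off ψ hx]; rfl, Md.W_eq_Ws, Md.Ws_gauge (pn m U {r}) 0 (pj U r ψ) t 0 fun _ _ _ => rfl]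
  exact congrFun (Sl46.Ws_congr _ 0 fun e he => by
    rw [Pi.zero_apply, zero_add, dE_pj (mem_pn_ed.1 he).2]; exact hσ e he) t

/-- **removal of a hole in a sector** -/
theorem rem1 (hc : m.Ctr) (ha : m.Anch) (h : Cut m N S U K T) (hX : Box (hole m N) X S') (hd : Disjoint N X)
    (hU : U ⊆ X \ S') {g C : ℝ} (g1 : cr m U K T ≤ 1 + g) (g2 : cr (hole m N) X T S' ≤ 2) {ψ : Cfg V}
    (hσ : ∀ e ∈ inn (N ∪ X) m.ed, σ e = dE e ψ) {G : Cfg V → ℝ} (oG : Out (N ∪ U \ T) G)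
    (hG : ∀ s, |G s| ≤ C) : |zx m σ G - zx (hole m N) σ G| ≤ 3 * g * C := by
  obtain ⟨r, hr⟩ := hX.ne
  have hrX : r ∈ X := hX.sub hr
  have UX : U ⊆ X := hU.trans sdiff_subset
  have ag := agr_hole (m := m) hd
  have cX : Cn m X := ag.cn hX.cn
  have ch := hole_ctr hc N
  have ah := h.hole_anch ha
  have wX := wt_rWs hc.1 cX ⟨r, hrX⟩ σ
  have w := Md.ctr_wts ch ah 0 σ
  have C0 : 0 ≤ C := (abs_nonneg _).trans (hG 0)
  obtain ⟨Φ, hΦ⟩ : ∃ Φ : Cfg V → ℝ, Φ = fun s => (hdt m σ N U T s)⁻¹ := ⟨_, rfl⟩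
  have dΦ : DepG T Φ := hΦ ▸ (hdt_depG h σ).comp fun a => a⁻¹
  have p0 : ∀ s, 0 < Φ s := fun s => hΦ ▸ inv_pos.2 (hdt_pos hc.1 h σ s)
  have p1 : ∀ s, Φ s ≤ 1 + g := fun s => hΦ ▸ ((inv_hdt_le hc.1 h σ s).trans (mul_le_of_le_one_right
    (cr_nonneg hc.1 _ _ _) (zr_le_one (fr_ctr hc.1 N) (fr_anch h.cn (h.ne.mono h.sub)) σ))).trans g1
  have aΦ : ∀ s, |Φ s| ≤ 1 + g := fun s => (abs_of_pos (p0 s)).trans_le (p1 s)
  have iY : ∀ {W : Cfg V → ℝ}, Wt W → Ig W fun s => 1 + g - Φ s := fun h => (h.ig_const _).sub (h.ig_bdd aΦ)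
  -- the free model on `N ∪ X`
  have NU : N ∪ U ⊆ N ∪ X := union_subset_union_right UX
  have hR : Disjoint (N ∪ U \ T) {r} := disjoint_singleton_right.2 fun k => (mem_union.1 k).elim
    (disjoint_right.1 hd hrX) fun k => (mem_sdiff.1 (hU (mem_sdiff.1 k).1)).2 hr
  have hf := h.pn NU hR
  have cf := pn_ctr hc.1 (N ∪ X) {r}
  have cn : Cn m (N ∪ X) := by
    obtain ⟨t, ht⟩ := h.tne
    have mono : ∀ {Y : Finset V}, Y ⊆ N ∪ X → inn Y m.ed ⊆ inn (N ∪ X) m.ed := fun hY e he =>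
      mem_filter.2 ⟨(mem_filter.1 he).1, hY (mem_filter.1 he).2.1, hY (mem_filter.1 he).2.2⟩
    have : ∀ x ∈ N ∪ X, Conn (inn (N ∪ X) m.ed) x t := fun x hx => (mem_union.1 hx).elim
      (fun k => Md.conn_mono (mono NU) (h.cn_union x (mem_union_left _ k) t
        (mem_union_right _ (h.tsub ht))))
      fun k => Md.conn_mono (mono subset_union_right) (cX x k t (UX (h.tsub ht)))
    exact fun x hx y hy => (this x hx).trans (this y hy).symm
  have af := pn_anch cn (mem_union_right N hrX) (mem_singleton_self r)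
  have e1 := zr_glue cf af hf σ
  rw [hdt_congr hf h (agr_pn NU _), hole_pn hd, ← hΦ, ← zx_root hrX (dΦ.mono (h.tsub.trans UX)),
    ← zr_root (mem_union_right N hrX), zr_pure hc.1 cn ⟨r, mem_union_right N hrX⟩ hσ] at e1
  have e2 : 1 ≤ zx (fr m X) σ Φ := e1.trans_le (mul_le_of_le_one_left
    (zx_nonneg (fr_ctr hc.1 X) σ fun s => (p0 s).le) (kap_bd cf af hf).2)
  have e3 : zx (fr m X) σ (fun s => 1 + g - Φ s) ≤ g := by
    have z := zr_le_one (fr_ctr hc.1 X) (fr_anch cX ⟨r, hrX⟩) σ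
    rw [zx_eq (m := fr m X) wX, ← rWs] at e2 ⊢
    rw [Ex_sub (Wt.ig_const wX _) (Wt.ig_bdd wX aΦ), Wt.ex_const wX]
    nlinarith [(p0 0).trans_le (p1 0)]
  have e4 := ((Vx.D89.Fam.box (σ := σ) hX (h.tsub.trans UX) (dΦ.comp fun a => 1 + g - a)
    (fun s => sub_nonneg.2 (p1 s)) (by rw [agr_rWs ag]; exact iY wX)).le ch ah).2
  rw [agr_zx ag] at e4
  have y0 := zx_nonneg (fr_ctr hc.1 X) σ fun s => sub_nonneg.2 (p1 s)
  have g0 := y0.trans e3
  have e5 := e4.trans (mul_le_mul g2 e3 y0 two_pos.le)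
  -- the ambient model
  have bG : ∀ s, |G s * Φ s| ≤ C * (1 + g) := fun s => by rw [abs_mul]; gcongr; exacts [hG s, aΦ s]
  have e6 := (hdt_zx hc ha h σ (oG.mul (dΦ.dep.out h.disjT.symm)) (w.ig_bdd bG)).2
  simp only [hΦ, mul_assoc, inv_mul_cancel₀ (hdt_pos hc.1 h σ _).ne', mul_one] at e6
  simp only [← congrFun hΦ] at e6
  obtain ⟨k1, k2⟩ := kap_bd hc ha h
  have c0 := cr_pos hc.1 h.cnU h.tsub h.tne K
  have k0 := (one_div_pos.2 c0).trans_le k1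
  have k3 : 1 ≤ kap m N U * (1 + g) := by
    rw [div_le_iff₀ c0] at k1; exact k1.trans (mul_le_mul_of_nonneg_left g1 k0.le)
  have z0 := zr_pos ch ah σ
  have z1 := zr_le_one ch ah σ
  rw [zx_eq w] at e5
  rw [show zx m σ G = _ from e6, zx_eq w, zx_eq w, mul_left_comm, ← mul_sub, ← Ex_const_mul,
    ← Ex_sub ((w.ig_bdd bG).const_mul _) (w.ig_bdd hG), abs_mul, abs_of_pos z0]
  have i1 := ((w.ig_bdd bG).const_mul (kap m N U)).sub (w.ig_bdd hG)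
  have e7 := (abs_Ex_le w.nonneg i1).trans (Ex_mono w.nonneg (i1.abs w.nonneg)
    (((iY w).add (w.ig_const g)).const_mul C) fun s => by
      rw [show kap m N U * (G s * Φ s) - G s = G s * (kap m N U * Φ s - 1) by ring, abs_mul]
      refine mul_le_mul (hG s) (abs_le.2 ⟨?_, ?_⟩) (abs_nonneg _) C0 <;> nlinarith [p0 s, p1 s])
  rw [Ex_const_mul, Ex_add (iY w) (w.ig_const g), w.ex_const] at e7
  nlinarith [mul_le_mul_of_nonneg_left e7 z0.le, mul_le_mul_of_nonneg_left e5 C0, mul_nonneg g0 C0]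

/-- **removal of a slit**: two models that differ only on the edges meeting `N` -/
theorem rem2 (hc : m.Ctr) (ha : m.Anch) (h : Cut m N S U K T) (hc' : m'.Ctr) (ha' : m'.Anch)
    {S₁ : Finset V} (h' : Cut m' N S₁ U K T) (hX : Box (hole m N) X S') (hX' : Box (hole m' N) X S')
    (hd : Disjoint N X) (hU : U ⊆ X \ S') {g C : ℝ}
    (g1 : cr m U K T ≤ 1 + g) (g1' : cr m' U K T ≤ 1 + g) (g2 : cr (hole m N) X T S' ≤ 2)
    (g2' : cr (hole m' N) X T S' ≤ 2) {ψ : Cfg V} (hσ : ∀ e ∈ inn (N ∪ X) m.ed, σ e = dE e ψ)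
    (hσ' : ∀ e ∈ inn (N ∪ X) m'.ed, σ e = dE e ψ) {G : Cfg V → ℝ} (oG : Out (N ∪ U \ T) G)
    (hG : ∀ s, |G s| ≤ C) (e : zx (hole m' N) σ G = zx (hole m N) σ G) :
    |zx m σ G - zx m' σ G| ≤ 6 * g * C := by
  have k1 := abs_le.1 (rem1 hc ha h hX hd hU g1 g2 hσ oG hG)
  have k2 := abs_le.1 (rem1 hc' ha' h' hX' hd hU g1' g2' hσ' oG hG)
  rw [abs_le]
  constructor <;> linarith [k1.1, k1.2, k2.1, k2.2]

end Crest.Agent.T145.Kv11
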