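import Crest.Agent.T145.KsB_68

/-!
# Row 145 (helper78): removal of a hole or a slit in a twisted sector (GOUT on the extended lattice)
-/

set_option autoImplicit false

namespace Crest.Agent.T145.Kv78

open Finset Nc Ks68

/-- (P) along a projection -/
theorem cut_P {L L' : Type} [AddCommGroup L] [AddCommGroup L'] [IsAddTorsionFree L'] (π : L →+ L')
    {ρ Φ : L' → ℝ} {H W : L → ℝ} (hρ : RSD ρ) (wρ : Wt ρ) (hH : PD H) (H0 : ∀ s, 0 ≤ H s)
    (hp : 0 < H 0) (hne : ∀ s, ρ (π s) ≠ 0) (hW : ∀ s, W s = H s * ρ (π s)) (wW : Wt W) (hΦ : PD Φ) :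
    Ex ρ Φ ≤ Ex W fun s => Φ (π s) := by
  obtain ⟨h1, -, -⟩ := Cut7.dens pdStmt π hH H0 hp hne hW wW.summ
  have h := hρ.zs_supermod wρ.summ h1 hΦ
  have e1 := (Cut7.dens_hasSum π hW (F := fun _ => 1) (wW.ig_const 1)).tsum_eq
  have e2 := (Cut7.dens_hasSum π hW (F := Φ) (wW.ig_bdd fun s => hΦ.abs_le _)).tsum_eq
  simp only [mul_one] at e1
  simp only [Zs, ← mul_assoc] at h
  rw [e1, e2, wρ.tsum_eq, wW.tsum_eq] at h
  have := wρ.pos
  have := wW.pos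
  change Zs W * (Zs ρ * _) ≤ Zs ρ * (Zs W * _) at h
  nlinarith [mul_pos wρ.pos wW.pos]

variable {V Q : Type} [DecidableEq V] [AddCommGroup Q] {m m' : Mdl V} {N S U K T : Finset V}

/-- the weight on the extended lattice: sector and heights -/
noncomputable def XW (m : Mdl V) (σ : Q →+ (V × V → ℤ)) (p : Q × Cfg V) : ℝ := m.Ws 0 (σ p.1) p.2

theorem XW_rsd (hc : m.Ctr) (σ : Q →+ (V × V → ℤ)) : RSD (XW m σ) :=
  Md.rsd_comp (Md.ctr_rsd_seam hc) ((AddMonoidHom.snd Q (Cfg V)).prod (σ.comp (AddMonoidHom.fst Q (Cfg V))))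

theorem XW_sum (hc : m.Ctr) (ha : m.Anch) {σ : Q →+ (V × V → ℤ)} (hZ : Summable fun k => zr m (σ k))
    {F : Q × Cfg V → ℝ} {C : ℝ} (hF : ∀ p, |F p| ≤ C) : Wt (XW m σ) ∧
      (Summable fun k => zx m (σ k) fun s => F (k, s)) ∧
      ∑' p, XW m σ p * F p = Zs (m.W 0) * ∑' k, zx m (σ k) fun s => F (k, s) := by
  have z := (Md.ctr_wt hc ha 0).ne
  have n0 : ∀ p, 0 ≤ XW m σ p := fun p => Md.Ws_nonneg hc.1 hc.nn _ _ _
  have s1 : Summable (XW m σ) := (summable_prod_of_nonneg n0).2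
    ⟨fun k => (Md.ctr_wts hc ha 0 (σ k)).summ, (hZ.mul_right (Zs (m.W 0))).congr fun k => by
      rw [zr, div_mul_cancel₀ _ z]; rfl⟩
  have w : Wt (XW m σ) := Wt.of_pos n0 s1 (a := 0)
    (Md.Ws_pos hc.1 (fun _ _ => rfl) (fun x hx => (hc.2 x hx).2.2) _)
  have i : Ig (XW m σ) F := w.ig_bdd hF
  refine ⟨w, ((Summable.prod i).div_const (Zs (m.W 0))).congr fun k => rfl, ?_⟩
  rw [Summable.tsum_prod i, ← tsum_mul_left]
  exact tsum_congr fun k => by rw [zx, mul_div_cancel₀ _ z]; rfl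

theorem XW_zs (hc : m.Ctr) (ha : m.Anch) {σ : Q →+ (V × V → ℤ)} (hZ : Summable fun k => zr m (σ k)) :
    Zs (XW m σ) = Zs (m.W 0) * ∑' k, zr m (σ k) := by
  have h := (XW_sum hc ha hZ (F := fun _ => 1) (C := 1) fun _ => by simp).2.2
  simp only [mul_one, zx_one] at h
  exact h

/-- a positive definite function of the gradients has a larger mean on the extended lattice than in the free
model, if the seams are gradients on `U` -/
theorem ext_le (hc : m.Ctr) (hU : Cn m U) (hn : U.Nonempty) {σ : Q →+ (V × V → ℤ)} (ψ : Q →+ Cfg V)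
    (hσ : ∀ k, ∀ e ∈ inn U m.ed, σ k e = dE e (ψ k)) (w : Wt (XW m σ)) {G : Cfg V → ℝ} (hG : PD G)
    (hd : DepG U G) : nE m U G ≤ Ex (XW m σ) fun p => G (p.2 + ψ p.1) := by
  obtain ⟨r, hr⟩ := hn
  obtain ⟨θ, hθ⟩ : ∃ θ : Q × Cfg V →+ Cfg V, ∀ p, θ p = p.2 + ψ p.1 :=
    ⟨AddMonoidHom.snd Q (Cfg V) + ψ.comp (AddMonoidHom.fst Q (Cfg V)), fun _ => rfl⟩
  obtain ⟨π, hπ⟩ : ∃ π : Q × Cfg V →+ Cfg V, ∀ p,
      π p = prj ({()} : Finset Unit) (fun _ => U) (fun _ => r) (θ p) :=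
    ⟨(Cut7.prjH ({()} : Finset Unit) (fun _ => U) fun _ => r).comp θ, fun _ => rfl⟩
  have hB : ∀ i ∈ ({()} : Finset Unit), ∀ j ∈ ({()} : Finset Unit), i ≠ j →
      Disjoint ((fun _ => U) i) ((fun _ => U) j) := fun _ _ _ _ h => absurd rfl h
  have p1 : ∀ p, ∀ x ∈ U, π p x = θ p x - θ p r := fun p x hx => by
    rw [hπ]; exact Cut7.prj_mem (i := ()) hB (mem_singleton_self _) hx _
  have p2 : ∀ p, ∀ x, x ∉ (pn m U {r}).A → π p x = (0 : Cfg V) x := fun p x hx => by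
    by_cases h : x ∈ U
    · have : x = r := by_contra fun k => hx (mem_sdiff.2 ⟨h, fun h' => k (mem_singleton.1 h')⟩)
      rw [p1 p x h, this, sub_self]; rfl
    · rw [hπ]; exact Cut7.prj_not (fun _ _ => h) _
  have p3 : ∀ p, (pn m U {r}).W 0 (π p) = ∏ e ∈ inn U m.ed, m.w e (dE e p.2 + σ p.1 e) := fun p => by
    rw [Mdl.W, ind_pos (p2 p), one_mul]
    simp only [pn, prod_const_one, mul_one]
    refine prod_congr rfl fun e he => ?_
    rw [dE, p1 p _ (mem_filter.1 he).2.1, p1 p _ (mem_filter.1 he).2.2, sub_sub_sub_cancel_right,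
      hσ _ e he, ← Md.dE_add, ← hθ]
    rfl
  have hE : inn U m.ed ⊆ m.ed := filter_subset _ _
  have d1 : PD fun p : Q × Cfg V => ind (∀ x, x ∉ m.A → p.2 x = 0) :=
    (Md.pd_off m.A).comp (AddMonoidHom.snd Q (Cfg V))
  have d2 : PD fun p : Q × Cfg V => ∏ e ∈ m.ed \ inn U m.ed, m.w e (dE e p.2 + σ p.1 e) :=
    (Sl46.pd_seam hc.1 sdiff_subset).comp ((AddMonoidHom.snd Q (Cfg V)).prod
      (σ.comp (AddMonoidHom.fst Q (Cfg V))))
  have d3 : PD fun p : Q × Cfg V => ∏ x ∈ m.A, m.site x (p.2 x) :=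
    (Md.pd_sites fun x hx => (hc.2 x hx).2.1).comp (AddMonoidHom.snd Q (Cfg V))
  have h := cut_P π (ρ := (pn m U {r}).W 0) (W := XW m σ)
    (Md.ctr_rsd0 (pn_ctr hc.1 _ _)) (pn_wt hc.1 hU hr (mem_singleton_self r) 0) ((d1.mul d2).mul d3)
    (fun p => mul_nonneg (mul_nonneg (ind_nonneg _)
      (prod_nonneg fun e he => ((hc.1 e (sdiff_subset he)).pos _).le))
      (prod_nonneg fun x hx => hc.nn x hx _))
    (mul_pos (mul_pos ((ind_pos fun _ _ => rfl).ge.trans_lt' one_pos)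
      (prod_pos fun e he => (hc.1 e (sdiff_subset he)).pos _)) (prod_pos fun x hx => (hc.2 x hx).2.2))
    (fun p => by rw [p3]; exact (prod_pos fun e he => (hc.1 e (hE he)).pos _).ne')
    (fun p => by
      rw [p3, XW, Mdl.Ws, ← prod_sdiff hE]
      simp only [Finsupp.coe_zero, Pi.zero_apply]
      ring) w hG
  rw [nE_root hr hd]
  refine h.trans_eq (congrArg _ (funext fun p => hd _ _ (θ p r) fun x hx => ?_))
  rw [p1 p x hx, sub_add_cancel, hθ]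

/-- gluing in a sector whose seam is a gradient near `N` -/
theorem glue_tw (hc : m.Ctr) (ha : m.Anch) (hN : Cl m N) {σ : V × V → ℤ} {ψ : Cfg V}
    (hσ : ∀ e ∈ m.edM N, σ e = dE e ψ) :
    Zs (m.Ws 0 σ) = ∑' s, (hole m N).Ws 0 σ s * gl m N (s + ψ) := by
  have h := Io98.glue (m := tw m σ) hN.1 (Md.ctr_wts hc ha 0 σ).summ
  rw [tw_W, hole_tw, tw_W] at h
  rw [h]
  refine tsum_congr fun s => ?_
  congr 1
  rw [gl, gl, loc_tw, tw_W, ← Zs_equiv (Equiv.addRight ψ) ((m.loc N).W (s + ψ))]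
  refine congrArg _ (funext fun t => ?_)
  rw [Equiv.coe_addRight, Md.W_eq_Ws, Md.Ws_gauge (m.loc N) s ψ t 0 fun x hx k => by
    change m.site x _ = m.site x _
    rw [hN.2 x hx, hN.2 x hx]]
  exact congrFun (Sl46.Ws_congr (m.loc N) s fun e he => by rw [Pi.zero_apply, zero_add]; exact hσ e he) t

/-- upper bound, sector by sector, any seam -/
theorem zx_le (hc : m.Ctr) (ha : m.Anch) (h : Cut m N S U K T) (σ : V × V → ℤ) {G : Cfg V → ℝ}
    (oG : Out (N ∪ U \ T) G) (G0 : ∀ s, 0 ≤ G s) (iG : Ig ((hole m N).Ws 0 σ) G) :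
    zx m σ G ≤ cr m U K T * zx (hole m N) σ G := by
  have hn : N.Nonempty := h.ne.mono h.sub
  have k := (td1io hc ha h (empty_subset N) σ (F := fun _ => 1) (DepG.const _ _) (fun _ => zero_le_one)
    ((wt_rWs hc.1 h.cn hn σ).ig_const 1) oG G0 iG).2
  simp only [one_mul, cr_empty hc.1 h.toBox, zx_one] at k
  refine k.trans (mul_le_mul_of_nonneg_right (mul_le_of_le_one_right (cr_nonneg hc.1 _ _ _)
    (zr_le_one (fr_ctr hc.1 _) (fr_anch h.cn hn) σ)) (zx_nonneg (hole_ctr hc N) σ G0))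

theorem zr_le (hc : m.Ctr) (ha : m.Anch) (h : Cut m N S U K T) (σ : V × V → ℤ) :
    zr m σ ≤ cr m U K T * zr (hole m N) σ := by
  simpa only [zx_one] using zx_le hc ha h σ (Out.const _ 1) (fun _ => zero_le_one)
    ((Md.ctr_wts (hole_ctr hc N) (h.hole_anch ha) 0 σ).ig_const 1)

/-- lower bound for the sum over all sectors -/
theorem sum_ge (hc : m.Ctr) (ha : m.Anch) (h : Cut m N S U K T) {σ : Q →+ (V × V → ℤ)} (ψ : Q →+ Cfg V)
    (hσ : ∀ k, ∀ e ∈ inn (N ∪ U) m.ed, σ k e = dE e (ψ k))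
    (hZ : Summable fun k => zr (hole m N) (σ k)) :
    (Summable fun k => zr m (σ k)) ∧
      ∑' k, zr (hole m N) (σ k) ≤ cr m U K T * ∑' k, zr m (σ k) := by
  have ch := hole_ctr hc N
  have ah := h.hole_anch ha
  have s1 : Summable fun k => zr m (σ k) := (hZ.mul_left (cr m U K T)).of_nonneg_of_le
    (fun k => (zr_pos hc ha _).le) fun k => zr_le hc ha h _
  refine ⟨s1, ?_⟩
  obtain ⟨b, hb⟩ := h.bne
  have hbU : m.bd N ⊆ U := h.kbd.trans h.ksub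
  have toB : ∀ x ∈ N, Conn m.ed x b := fun x hx => by
    obtain ⟨_, e, he, ⟨h1, h2⟩ | ⟨h1, h2⟩⟩ := Mdl.mem_bd.1 hb
    · exact ((h.cn x hx _ h2).mono (filter_subset _ _)).trans (h1 ▸ Conn.edge' he)
    · exact ((h.cn x hx _ h2).mono (filter_subset _ _)).trans (h1 ▸ Conn.edge he)
  have pd : PD (gl m N) := Hd10.gl_pd (Hd10.loc_ctr hc.1 h.clN)
    (Hd10.loc_anch fun x hx => ⟨b, (Mdl.mem_bd.1 hb).1, toB x hx⟩)
  have ag : Agr (hole m N) m U := agr_hole h.disj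
  obtain ⟨w, -, e1⟩ := XW_sum ch ah hZ (F := fun p => gl m N (p.2 + ψ p.1)) fun p => pd.abs_le _
  have k1 := ext_le ch (ag.symm.cn h.cnU) (h.tne.mono h.tsub) ψ (fun k e he => hσ k e (mem_filter.2
    ⟨(mem_hole_ed.1 (mem_filter.1 he).1).1, mem_union_right _ (mem_filter.1 he).2.1,
      mem_union_right _ (mem_filter.1 he).2.2⟩)) w pd ((Hd10.gl_depG h.clN).mono hbU)
  have zh := (Md.ctr_wt ch ah 0).pos
  have zm := (Md.ctr_wt hc ha 0).pos
  have e2 : ∀ k, Zs ((hole m N).W 0) * zx (hole m N) (σ k) (fun s => gl m N (s + ψ k)) =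
      Zs (m.W 0) * zr m (σ k) := fun k => by
    rw [zx, zr, mul_div_cancel₀ _ zh.ne', mul_div_cancel₀ _ zm.ne']
    refine (glue_tw hc ha h.clN fun e he => hσ k e (mem_filter.2 ⟨(Mdl.mem_edM.1 he).1, ?_, ?_⟩)).symm
    · exact (Mdl.ends_of_edM he).1.elim (mem_union_left _) fun h => mem_union_right _ (hbU h)
    · exact (Mdl.ends_of_edM he).2.elim (mem_union_left _) fun h => mem_union_right _ (hbU h)
  rw [← tsum_mul_left, tsum_congr e2, tsum_mul_left, w.tsum_eq, XW_zs ch ah hZ] at e1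
  rw [ag.nE] at k1
  obtain ⟨k2, -⟩ := kap_bd hc ha h
  have c0 : 0 < cr m U K T := cr_pos hc.1 h.cnU h.tsub h.tne K
  have z0 : 0 ≤ ∑' k, zr (hole m N) (σ k) := tsum_nonneg fun k => (zr_pos ch ah _).le
  rw [kap, div_le_div_iff₀ c0 zm, one_mul] at k2
  refine le_of_mul_le_mul_left ?_ zm
  calc Zs (m.W 0) * ∑' k, zr (hole m N) (σ k)
      ≤ nE m U (gl m N) * Zs ((hole m N).W 0) * cr m U K T * ∑' k, zr (hole m N) (σ k) :=
        mul_le_mul_of_nonneg_right k2 z0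
    _ ≤ (Ex (XW (hole m N) σ) fun p => gl m N (p.2 + ψ p.1)) * Zs ((hole m N).W 0) * cr m U K T *
          ∑' k, zr (hole m N) (σ k) := by gcongr
    _ = cr m U K T * (Zs ((hole m N).W 0) * (∑' k, zr (hole m N) (σ k)) *
          Ex (XW (hole m N) σ) fun p => gl m N (p.2 + ψ p.1)) := by ring
    _ = _ := by rw [e1]; ring

theorem zx_add_sub (hc : m.Ctr) (ha : m.Anch) (σ : V × V → ℤ) {G : Cfg V → ℝ} {C : ℝ} (hG : ∀ s, |G s| ≤ C) :
    zx m σ (fun s => C + G s) = C * zr m σ + zx m σ G ∧ zx m σ (fun s => C - G s) = C * zr m σ - zx m σ G := by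
  have w := Md.ctr_wts hc ha 0 σ
  rw [zx_eq w, zx_eq w, zx_eq w, Ex_add (w.ig_const _) (w.ig_bdd hG), Ex_sub (w.ig_const _) (w.ig_bdd hG),
    w.ex_const]
  constructor <;> ring

theorem abs_zx_le (hc : m.Ctr) (ha : m.Anch) (σ : V × V → ℤ) {G : Cfg V → ℝ} {C : ℝ} (hG : ∀ s, |G s| ≤ C) :
    |zx m σ G| ≤ C * zr m σ := by
  have w := Md.ctr_wts hc ha 0 σ
  rw [zx_eq w, abs_mul, abs_of_pos (zr_pos hc ha σ), mul_comm]
  exact mul_le_mul_of_nonneg_right (w.abs_ex_le fun s _ => hG s) (zr_pos hc ha σ).le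

/-- **removal of a hole in a sector** -/
theorem rem_hole (hc : m.Ctr) (ha : m.Anch) (h : Cut m N S U K T) {σ : Q →+ (V × V → ℤ)} (ψ : Q →+ Cfg V)
    (hσ : ∀ k, ∀ e ∈ inn (N ∪ U) m.ed, σ k e = dE e (ψ k))
    (hZ : Summable fun k => zr (hole m N) (σ k)) {g Z C : ℝ} (hg : cr m U K T ≤ 1 + g)
    (hZ' : ∑' k, zr (hole m N) (σ k) ≤ Z) (k : Q) {G : Cfg V → ℝ} (oG : Out (N ∪ U \ T) G)
    (hG : ∀ s, |G s| ≤ C) : |zx m (σ k) G - zx (hole m N) (σ k) G| ≤ 3 * g * Z * C := by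
  have ch := hole_ctr hc N
  have ah := h.hole_anch ha
  obtain ⟨s1, k1⟩ := sum_ge hc ha h ψ hσ hZ
  set c := cr m U K T with hcd
  have c1 : 1 ≤ c := by
    obtain ⟨k2, k3⟩ := kap_bd hc ha h
    have := k2.trans k3
    rwa [div_le_one (cr_pos hc.1 h.cnU h.tsub h.tne K)] at this
  have C0 : 0 ≤ C := (abs_nonneg _).trans (hG 0)
  have z0 : 0 ≤ ∑' k, zr (hole m N) (σ k) := tsum_nonneg fun k => (zr_pos ch ah _).le
  have k2 : c * zr (hole m N) (σ k) - zr m (σ k) ≤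
      c * (∑' k, zr (hole m N) (σ k)) - ∑' k, zr m (σ k) := by
    rw [← tsum_mul_left, ← (hZ.mul_left c).tsum_sub s1]
    exact ((hZ.mul_left c).sub s1).le_tsum k fun j _ => sub_nonneg.2 (zr_le hc ha h _)
  have k3 : zr (hole m N) (σ k) ≤ ∑' k, zr (hole m N) (σ k) :=
    hZ.le_tsum k fun j _ => (zr_pos ch ah _).le
  set A := ∑' k, zr (hole m N) (σ k)
  set B := ∑' k, zr m (σ k)
  have k4 : c * A - B ≤ 2 * (c - 1) * A := by
    refine le_of_mul_le_mul_left ?_ (zero_lt_one.trans_le c1)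
    nlinarith [mul_nonneg (mul_nonneg (sub_nonneg.2 c1) (sub_nonneg.2 c1)) z0]
  have wh := Md.ctr_wts ch ah 0 (σ k)
  have u1 := zx_le hc ha h (σ k) (G := fun s => C + G s) (oG.comp fun a => C + a)
    (fun s => by linarith [neg_abs_le (G s), hG s]) ((wh.ig_const _).add (wh.ig_bdd hG))
  have u2 := zx_le hc ha h (σ k) (G := fun s => C - G s) (oG.comp fun a => C - a)
    (fun s => by linarith [le_abs_self (G s), hG s]) ((wh.ig_const _).sub (wh.ig_bdd hG))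
  rw [(zx_add_sub hc ha _ hG).1, (zx_add_sub ch ah _ hG).1] at u1
  rw [(zx_add_sub hc ha _ hG).2, (zx_add_sub ch ah _ hG).2] at u2
  have u3 := abs_le.1 (abs_zx_le ch ah (σ k) hG)
  have g1 : c - 1 ≤ g := by linarith
  have a1 : C * (c * zr (hole m N) (σ k) - zr m (σ k)) ≤ C * (2 * (c - 1) * A) :=
    mul_le_mul_of_nonneg_left (k2.trans k4) C0
  have a2 : (c - 1) * (C * zr (hole m N) (σ k)) ≤ (c - 1) * (C * A) := by gcongr
  have a3 : (c - 1) * (C * A) ≤ g * (C * Z) :=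
    mul_le_mul g1 (mul_le_mul_of_nonneg_left hZ' C0) (mul_nonneg C0 z0) (by linarith)
  have b1 := mul_le_mul_of_nonneg_left u3.1 (sub_nonneg.2 c1)
  have b2 := mul_le_mul_of_nonneg_left u3.2 (sub_nonneg.2 c1)
  rw [abs_le]
  constructor <;> nlinarith

/-- **removal of a slit**: two models that differ only on the edges meeting `N` -/
theorem rem_two (hc : m.Ctr) (ha : m.Anch) (h : Cut m N S U K T) (hc' : m'.Ctr) (ha' : m'.Anch)
    {S' : Finset V} (h' : Cut m' N S' U K T) (hh : (hole m' N).Ws = (hole m N).Ws) (ag : Agr m' m U)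
    {σ : Q →+ (V × V → ℤ)} (ψ : Q →+ Cfg V) (hσ : ∀ k, ∀ e ∈ inn (N ∪ U) m.ed, σ k e = dE e (ψ k))
    (hσ' : ∀ k, ∀ e ∈ inn (N ∪ U) m'.ed, σ k e = dE e (ψ k))
    (hZ : Summable fun k => zr (hole m N) (σ k)) {g Z C : ℝ} (hg : cr m U K T ≤ 1 + g)
    (hZ' : ∑' k, zr (hole m N) (σ k) ≤ Z) (k : Q) {G : Cfg V → ℝ} (oG : Out (N ∪ U \ T) G)
    (hG : ∀ s, |G s| ≤ C) : |zx m (σ k) G - zx m' (σ k) G| ≤ 6 * g * Z * C := by
  have e1 : ∀ q, zr (hole m' N) q = zr (hole m N) q := fun q => by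
    simp only [zr, Mdl.W_eq_Ws, hh]
  have e2 : zx (hole m' N) (σ k) G = zx (hole m N) (σ k) G := by simp only [zx, Mdl.W_eq_Ws, hh]
  have k1 := rem_hole hc ha h ψ hσ hZ hg hZ' k oG hG
  have k2 := rem_hole hc' ha' h' ψ hσ' (by simpa only [e1] using hZ) (by rwa [ag.cr])
    (by simpa only [e1] using hZ') k oG hG
  rw [e2] at k2
  rw [abs_le] at k1 k2 ⊢
  constructor <;> linarith

/-- from unnormalised to normalised means -/
theorem ex_of_zx (hc : m.Ctr) (ha : m.Anch) (hc' : m'.Ctr) (ha' : m'.Anch) {σ σ' : V × V → ℤ}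
    {G : Cfg V → ℝ} {C δ : ℝ} (hG : ∀ s, |G s| ≤ C) (h1 : |zr m σ - zr m' σ'| ≤ δ)
    (h2 : |zx m σ G - zx m' σ' G| ≤ δ * C) :
    |Ex (m.Ws 0 σ) G - Ex (m'.Ws 0 σ') G| ≤ 2 * δ * C / zr m σ := by
  have w := Md.ctr_wts hc ha 0 σ
  have w' := Md.ctr_wts hc' ha' 0 σ'
  have z := zr_pos hc ha σ
  have b := w'.abs_ex_le fun s _ => hG s
  rw [zx_eq w, zx_eq w'] at h2
  rw [le_div_iff₀ z, ← abs_of_pos z, ← abs_mul, show (Ex (m.Ws 0 σ) G - Ex (m'.Ws 0 σ') G) * zr m σ =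
    (zr m σ * Ex (m.Ws 0 σ) G - zr m' σ' * Ex (m'.Ws 0 σ') G) - (zr m σ - zr m' σ') * Ex (m'.Ws 0 σ') G by ring]
  refine (abs_sub _ _).trans ?_
  rw [abs_mul]
  have := mul_le_mul h1 b (abs_nonneg _) ((abs_nonneg _).trans h1)
  linarith

end Crest.Agent.T145.Kv78
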