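import Crest.Agent.T145.GfSpr_80
import Crest.Agent.T145.GsQ_85

/-!
# Row 145, (b) T3a, low modes, abstract part (helper21)

A Stein identity for the characters of `ℝ^I / ℤ·1` implies the Stein identity for every bounded
periodic function smoothed by a Gaussian, with constants that depend only on `I` and the smoothing.
-/

set_option autoImplicit false
set_option linter.unusedVariables false
set_option linter.unusedSectionVars false

namespace Crest.Agent.T145.Lo21

open MeasureTheory Finset Matrix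

variable {I : Type} [Fintype I] [DecidableEq I]

/-- `h1` is the derivative of `h` in direction `m`; both are bounded by `b` -/
structure Fm (m : I → ℝ) (h h1 : (I → ℝ) → ℝ) (b : ℝ) : Prop where
  der : ∀ v, HasDerivAt (fun t : ℝ => h (v + t • m)) (h1 v) 0
  bd : ∀ v, |h v| ≤ b
  bd1 : ∀ v, |h1 v| ≤ b

theorem der_at {m : I → ℝ} {h h1 : (I → ℝ) → ℝ}
    (H : ∀ v, HasDerivAt (fun t : ℝ => h (v + t • m)) (h1 v) 0) (v : I → ℝ) (t : ℝ) :
    HasDerivAt (fun t : ℝ => h (v + t • m)) (h1 (v + t • m)) t := by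
  have h0 : HasDerivAt (fun s : ℝ => h (v + t • m + s • m)) (h1 (v + t • m)) (t - t) := by
    rw [sub_self]; exact H _
  have := h0.comp_sub_const t t
  refine this.congr_of_eventuallyEq (Filter.Eventually.of_forall fun s => ?_)
  simp only [sub_smul]
  congr 1
  abel

/-- the Stein functional -/
noncomputable def St {S : Type} [MeasurableSpace S] (Q : Measure S) (y : S → I → ℝ) (X : S → ℝ)
    (h h1 : (I → ℝ) → ℝ) : ℝ := ∫ s, (h1 (y s) - X s * h (y s)) ∂Q

section mix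
variable {Ω : Type} [MeasurableSpace Ω] {ν : Measure Ω} [SFinite ν] {m : I → ℝ}
  {h h1 : Ω → (I → ℝ) → ℝ} {b : Ω → ℝ}

theorem meas_mix (mh : Measurable (Function.uncurry h)) : Measurable fun v => ∫ ω, h ω v ∂ν :=
  (mh.stronglyMeasurable.integral_prod_left).measurable

theorem int_of {f : Ω → ℝ} (mf : Measurable f) (hb : Integrable b ν) (hf : ∀ ω, |f ω| ≤ b ω) :
    Integrable f ν := hb.mono' mf.aestronglyMeasurable (Filter.Eventually.of_forall hf)

theorem abs_int_le {f : Ω → ℝ} (hb : Integrable b ν) (hf : ∀ ω, |f ω| ≤ b ω) :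
    |∫ ω, f ω ∂ν| ≤ ∫ ω, b ω ∂ν :=
  norm_integral_le_of_norm_le (f := f) hb (Filter.Eventually.of_forall hf)

theorem fm_mix (mh : Measurable (Function.uncurry h)) (mh1 : Measurable (Function.uncurry h1))
    (hb : Integrable b ν) (H : ∀ ω, Fm m (h ω) (h1 ω) (b ω)) :
    Fm m (fun v => ∫ ω, h ω v ∂ν) (fun v => ∫ ω, h1 ω v ∂ν) (∫ ω, b ω ∂ν) := by
  have m0 : ∀ v, Measurable fun ω => h ω v := fun v => mh.comp measurable_prodMk_right
  have m1 : ∀ v, Measurable fun ω => h1 ω v := fun v => mh1.comp measurable_prodMk_right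
  refine ⟨fun v => ?_, fun v => abs_int_le hb fun ω => (H ω).bd v,
    fun v => abs_int_le hb fun ω => (H ω).bd1 v⟩
  have := (hasDerivAt_integral_of_dominated_loc_of_deriv_le (μ := ν) (x₀ := (0 : ℝ))
    (F := fun t ω => h ω (v + t • m)) (F' := fun t ω => h1 ω (v + t • m)) (bound := b)
    Filter.univ_mem (Filter.Eventually.of_forall fun t => (m0 _).aestronglyMeasurable)
    (int_of (m0 _) hb fun ω => (H ω).bd _) (m1 _).aestronglyMeasurable
    (Filter.Eventually.of_forall fun ω t _ => (H ω).bd1 _) hb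
    (Filter.Eventually.of_forall fun ω t _ => der_at (H ω).der v t)).2
  simpa using this

variable {S : Type} [MeasurableSpace S] {Q : Measure S} [IsProbabilityMeasure Q] {y : S → I → ℝ}
  {X : S → ℝ}

theorem st_mix (mh : Measurable (Function.uncurry h)) (mh1 : Measurable (Function.uncurry h1))
    (hb : Integrable b ν) (H : ∀ ω, Fm m (h ω) (h1 ω) (b ω)) (my : Measurable y)
    (mX : Measurable X) (iX : Integrable X Q) :
    St Q y X (fun v => ∫ ω, h ω v ∂ν) (fun v => ∫ ω, h1 ω v ∂ν) =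
      ∫ ω, St Q y X (h ω) (h1 ω) ∂ν := by
  have m0 : ∀ v, Measurable fun ω => h ω v := fun v => mh.comp measurable_prodMk_right
  have m1 : ∀ v, Measurable fun ω => h1 ω v := fun v => mh1.comp measurable_prodMk_right
  have mp : Measurable fun p : S × Ω => (p.2, y p.1) := measurable_snd.prodMk (my.comp measurable_fst)
  unfold St
  rw [← integral_integral_swap (f := fun s ω => h1 ω (y s) - X s * h ω (y s))]
  · refine integral_congr_ae (Filter.Eventually.of_forall fun s => ?_)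
    simp only
    rw [integral_sub (int_of (m1 _) hb fun ω => (H ω).bd1 _)
      ((int_of (m0 _) hb fun ω => (H ω).bd _).const_mul _), integral_const_mul]
  · refine (((integrable_const (1 : ℝ)).add iX.abs).mul_prod hb).mono'
      ((mh1.comp mp).sub ((mX.comp measurable_fst).mul (mh.comp mp))).aestronglyMeasurable
      (Filter.Eventually.of_forall fun p => ?_)
    have h2 := (H p.2).bd1 (y p.1)
    have h3 := mul_le_mul_of_nonneg_left ((H p.2).bd (y p.1)) (abs_nonneg (X p.1))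
    have h4 := abs_sub (h1 p.2 (y p.1)) (X p.1 * h p.2 (y p.1))
    rw [abs_mul] at h4
    simp only [Function.uncurry, Real.norm_eq_abs, Pi.add_apply]
    linarith

theorem st_le {h h1 : (I → ℝ) → ℝ} {b0 b1 : ℝ} (iX : Integrable X Q) (H0 : ∀ v, |h v| ≤ b0)
    (H1 : ∀ v, |h1 v| ≤ b1) : |St Q y X h h1| ≤ b1 + b0 * ∫ s, |X s| ∂Q := by
  have := abs_int_le (ν := Q) (f := fun s => h1 (y s) - X s * h (y s))
    (b := fun s => b1 + b0 * |X s|) ((integrable_const _).add (iX.abs.const_mul _)) fun s => by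
      have h3 := mul_le_mul_of_nonneg_left (H0 (y s)) (abs_nonneg (X s))
      have h4 := abs_sub (h1 (y s)) (X s * h (y s))
      rw [abs_mul] at h4
      linarith [H1 (y s)]
  rwa [integral_add (integrable_const _) (iX.abs.const_mul _), integral_const_mul, integral_const,
    probReal_univ, one_smul] at this

theorem st_smul (c : ℝ) (h h1 : (I → ℝ) → ℝ) :
    St Q y X (fun v => c * h v) (fun v => c * h1 v) = c * St Q y X h h1 := by
  unfold St
  rw [← integral_const_mul]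
  congr 1
  funext s
  ring

end mix

theorem Fm.smul {m : I → ℝ} {h h1 : (I → ℝ) → ℝ} {b : ℝ} (H : Fm m h h1 b) (c : ℝ) :
    Fm m (fun v => c * h v) (fun v => c * h1 v) (|c| * b) :=
  ⟨fun v => (H.der v).const_mul c,
    fun v => by rw [abs_mul]; exact mul_le_mul_of_nonneg_left (H.bd v) (abs_nonneg _),
    fun v => by rw [abs_mul]; exact mul_le_mul_of_nonneg_left (H.bd1 v) (abs_nonneg _)⟩

theorem Fm.shift {m : I → ℝ} {h h1 : (I → ℝ) → ℝ} {b : ℝ} (H : Fm m h h1 b) (p : I → ℝ) :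
    Fm m (fun v => h (v - p)) (fun v => h1 (v - p)) b :=
  ⟨fun v => by simpa only [add_sub_right_comm] using H.der (v - p), fun v => H.bd _,
    fun v => H.bd1 _⟩

theorem Fm.mono {m : I → ℝ} {h h1 : (I → ℝ) → ℝ} {b b' : ℝ} (H : Fm m h h1 b) (hb : b ≤ b') :
    Fm m h h1 b' := ⟨H.der, fun v => (H.bd v).trans hb, fun v => (H.bd1 v).trans hb⟩

theorem der_cos (m η v : I → ℝ) : HasDerivAt (fun t : ℝ => Real.cos (η ⬝ᵥ (v + t • m)))
    (-(η ⬝ᵥ m) * Real.sin (η ⬝ᵥ v)) 0 := by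
  have h : HasDerivAt (fun t : ℝ => η ⬝ᵥ v + t * (η ⬝ᵥ m)) (η ⬝ᵥ m) 0 := by
    simpa using ((hasDerivAt_id (0 : ℝ)).mul_const (η ⬝ᵥ m)).const_add (η ⬝ᵥ v)
  have := h.cos
  simp only [zero_mul, add_zero] at this
  simp only [dotProduct_add, dotProduct_smul, smul_eq_mul]
  convert this using 1
  ring

/-! ## the Fourier representation of the periodised Gaussian -/

/-- Fourier weights of the zero mode -/
noncomputable def ga (B : ℝ) (q : ℤ) : ℝ := Real.exp (-(2 * Real.pi * q) ^ 2 / (2 * B))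

theorem ga_pos (B : ℝ) (q : ℤ) : 0 < ga B q := Real.exp_pos _

theorem ga_zero (B : ℝ) : ga B 0 = 1 := by simp [ga]

theorem summable_ga {B : ℝ} (hB : 0 < B) : Summable (ga B) := by
  have := Spr.summable_gf hB 0
  simp only [sub_zero] at this
  exact this

variable (I) in
/-- number of coordinates -/
noncomputable def dd : ℝ := Fintype.card I

/-- mean -/
noncomputable def av (v : I → ℝ) : ℝ := (∑ i, v i) / dd I

/-- component orthogonal to the constants -/
noncomputable def pp (v : I → ℝ) : I → ℝ := fun i => v i - av v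

/-- the frequency -/
noncomputable def et (A : ℝ) (ω : ℤ × (I → ℝ)) : I → ℝ :=
  fun i => Real.sqrt A * pp ω.2 i + 2 * Real.pi * ω.1 / dd I

variable (I) in
/-- the measure on frequencies -/
noncomputable def nu : Measure (ℤ × (I → ℝ)) := Measure.count.prod (Gs.gm (1 : Matrix I I ℝ))

instance : SFinite (nu I) := by unfold nu; infer_instance

/-- the dominating function -/
noncomputable def dm (A : ℝ) (ω : ℤ × (I → ℝ)) : ℝ :=
  (1 + |2 * Real.pi * ω.1|) * (1 + 2 * dd I * Real.sqrt A * ‖ω.2‖)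

noncomputable def l1 (η : I → ℝ) : ℝ := ∑ i, |η i|

variable [Nonempty I]

theorem dd_ge : 1 ≤ dd I := by unfold dd; exact_mod_cast Fintype.card_pos

theorem dd_pos : 0 < dd I := one_pos.trans_le dd_ge

theorem sum_cst (c : ℝ) : ∑ _i : I, c = dd I * c := by simp [dd]

theorem sum_pp (v : I → ℝ) : ∑ i, pp v i = 0 := by
  have := dd_pos (I := I)
  simp only [pp, Finset.sum_sub_distrib, sum_cst, av]
  field_simp
  ring

theorem sum_et (A : ℝ) (ω : ℤ × (I → ℝ)) : ∑ i, et A ω i = 2 * Real.pi * ω.1 := by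
  have := dd_pos (I := I)
  simp only [et, Finset.sum_add_distrib, ← Finset.mul_sum, sum_pp, sum_cst]
  field_simp
  ring

theorem pp_dot (a v : I → ℝ) : pp a ⬝ᵥ v = pp v ⬝ᵥ a := by
  have := dd_pos (I := I)
  simp only [pp, dotProduct, sub_mul, Finset.sum_sub_distrib, ← Finset.mul_sum, av, mul_comm (a _)]
  ring

theorem et_dot (A : ℝ) (ω : ℤ × (I → ℝ)) (v : I → ℝ) :
    et A ω ⬝ᵥ v = (Real.sqrt A • pp v) ⬝ᵥ ω.2 + 2 * Real.pi * ω.1 * av v := by
  rw [smul_dotProduct, ← pp_dot, smul_eq_mul]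
  simp only [et, dotProduct, add_mul, Finset.sum_add_distrib, mul_assoc, ← Finset.mul_sum, av]
  ring

theorem sq_split (v : I → ℝ) (k : ℝ) :
    (fun i => v i + k) ⬝ᵥ (fun i => v i + k) = pp v ⬝ᵥ pp v + dd I * (av v + k) ^ 2 := by
  have e : ∀ i, (v i + k) * (v i + k) =
      pp v i * pp v i + (2 * (av v + k) * pp v i + (av v + k) ^ 2) := fun i => by
    simp only [pp]; ring
  simp only [dotProduct, e, Finset.sum_add_distrib, ← Finset.mul_sum, sum_pp, sum_cst]
  ring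

theorem abs_pp_le (v : I → ℝ) (i : I) : |pp v i| ≤ 2 * ‖v‖ := by
  have hd := dd_pos (I := I)
  have h1 : ∀ j, |v j| ≤ ‖v‖ := fun j => norm_le_pi_norm v j
  have h2 : |av v| ≤ ‖v‖ := by
    rw [av, abs_div, abs_of_pos hd, div_le_iff₀ hd, mul_comm, ← sum_cst]
    exact (Finset.abs_sum_le_sum_abs _ _).trans (Finset.sum_le_sum fun j _ => h1 j)
  exact (abs_sub _ _).trans (by linarith [h1 i])

theorem l1_et (A : ℝ) (ω : ℤ × (I → ℝ)) :
    l1 (et A ω) ≤ 2 * dd I * Real.sqrt A * ‖ω.2‖ + |2 * Real.pi * ω.1| := by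
  have hd := dd_pos (I := I)
  have h : ∀ i, |et A ω i| ≤ Real.sqrt A * (2 * ‖ω.2‖) + |2 * Real.pi * ω.1| / dd I := fun i => by
    refine (abs_add_le _ _).trans (add_le_add ?_ ?_)
    · rw [abs_mul, abs_of_nonneg (Real.sqrt_nonneg _)]
      exact mul_le_mul_of_nonneg_left (abs_pp_le _ _) (Real.sqrt_nonneg _)
    · rw [abs_div, abs_of_pos hd]
  refine (Finset.sum_le_sum fun i _ => h i).trans_eq ?_
  rw [sum_cst]
  field_simp

theorem l1_nonneg (η : I → ℝ) : 0 ≤ l1 η := Finset.sum_nonneg fun _ _ => abs_nonneg _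

theorem l1_dm (A : ℝ) (ω : ℤ × (I → ℝ)) : 1 + l1 (et A ω) ≤ dm A ω := by
  have hd := dd_pos (I := I)
  have h := l1_et A ω
  have : 0 ≤ |2 * Real.pi * ω.1| * (2 * dd I * Real.sqrt A * ‖ω.2‖) := by positivity
  unfold dm
  nlinarith

theorem one_le_dm (A : ℝ) (ω : ℤ × (I → ℝ)) : 1 ≤ dm A ω := by
  linarith [l1_dm A ω, l1_nonneg (et A ω)]

theorem q_le (q : ℤ) : |(q : ℝ)| ≤ |2 * Real.pi * q| := by
  rw [abs_mul, abs_of_pos (by positivity : 0 < 2 * Real.pi)]
  nlinarith [Real.pi_gt_three, abs_nonneg (q : ℝ)]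

theorem q_dm (A : ℝ) (ω : ℤ × (I → ℝ)) : |(ω.1 : ℝ)| ≤ dm A ω := by
  have hd := dd_pos (I := I)
  have h := q_le ω.1
  have : 0 ≤ (1 + |2 * Real.pi * ω.1|) * (2 * dd I * Real.sqrt A * ‖ω.2‖) := by positivity
  unfold dm
  nlinarith

theorem abs_dot_le (η m : I → ℝ) {C : ℝ} (hm : ∀ i, |m i| ≤ C) : |η ⬝ᵥ m| ≤ C * l1 η := by
  rw [l1, Finset.mul_sum]
  refine (Finset.abs_sum_le_sum_abs _ _).trans (Finset.sum_le_sum fun i _ => ?_)
  rw [abs_mul, mul_comm]
  exact mul_le_mul_of_nonneg_right (hm i) (abs_nonneg _)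

theorem meas_et (A : ℝ) : Measurable (et A : ℤ × (I → ℝ) → I → ℝ) := by
  refine measurable_from_prod_countable_right fun q => Continuous.measurable ?_
  unfold et pp av
  fun_prop

theorem meas_ga (B : ℝ) : Measurable fun ω : ℤ × (I → ℝ) => ga B ω.1 :=
  (Measurable.of_discrete (f := ga B)).comp measurable_fst

theorem int_dm {B : ℝ} (hB : 0 < B) (A : ℝ) :
    Integrable (fun ω : ℤ × (I → ℝ) => ga B ω.1 * dm A ω ^ 2) (nu I) := by
  have hd := dd_pos (I := I)
  have h1 : Integrable (fun q : ℤ => ga B q * (1 + |2 * Real.pi * q|) ^ 2) Measure.count := by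
    refine integrable_count_iff.2 (Summable.of_nonneg_of_le (fun _ => norm_nonneg _) (fun q => ?_)
      ((summable_ga (B := 2 * B) (by positivity)).mul_left (2 + 8 * B)))
    rw [Real.norm_of_nonneg (by have := ga_pos B q; positivity)]
    set x := 2 * Real.pi * q
    have e : ga B q = ga (2 * B) q * Real.exp (-(x ^ 2 / (4 * B))) := by
      rw [ga, ga, ← Real.exp_add]; congr 1; field_simp; ring
    have h2 : (1 + |x|) ^ 2 ≤ (2 + 8 * B) * Real.exp (x ^ 2 / (4 * B)) := by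
      have h3 := Real.add_one_le_exp (x ^ 2 / (4 * B))
      have h4 : x ^ 2 = 4 * B * (x ^ 2 / (4 * B)) := by field_simp
      have h5 : 0 ≤ x ^ 2 / (4 * B) := by positivity
      nlinarith [sq_abs x, sq_nonneg (1 - |x|)]
    rw [e, Real.exp_neg, mul_assoc, mul_comm (2 + 8 * B)]
    refine mul_le_mul_of_nonneg_left ?_ (ga_pos _ _).le
    rw [inv_mul_le_iff₀ (Real.exp_pos _), mul_comm]
    exact h2
  have h2 : Integrable (fun ζ : I → ℝ => (1 + 2 * dd I * Real.sqrt A * ‖ζ‖) ^ 2)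
      (Gs.gm (1 : Matrix I I ℝ)) := by
    refine Gs.int_of_le _ (Continuous.aestronglyMeasurable (by fun_prop)) 1
      (2 * (2 * dd I * Real.sqrt A)) fun ζ => ?_
    rw [Real.norm_of_nonneg (by positivity), one_mul, mul_assoc 2 (2 * dd I * Real.sqrt A),
      two_mul (2 * dd I * Real.sqrt A * ‖ζ‖), Real.exp_add, ← pow_two]
    exact pow_le_pow_left₀ (by positivity) (by linarith [Real.add_one_le_exp (2 * dd I * Real.sqrt A * ‖ζ‖)]) 2
  refine (h1.mul_prod h2).congr (Filter.Eventually.of_forall fun ω => ?_)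
  simp only [dm]
  ring

theorem dm_le_sq (A : ℝ) (ω : ℤ × (I → ℝ)) : dm A ω ≤ dm A ω ^ 2 := by
  nlinarith [one_le_dm A ω]

/-- the characters -/
noncomputable def ch (A : ℝ) (ω : ℤ × (I → ℝ)) (v : I → ℝ) : ℝ :=
  ga (A * dd I) ω.1 * Real.cos (et A ω ⬝ᵥ v)

noncomputable def ch1 (A : ℝ) (m : I → ℝ) (ω : ℤ × (I → ℝ)) (v : I → ℝ) : ℝ :=
  ga (A * dd I) ω.1 * (-(et A ω ⬝ᵥ m) * Real.sin (et A ω ⬝ᵥ v))

theorem meas_ch (A : ℝ) : Measurable (Function.uncurry (ch A : ℤ × (I → ℝ) → _)) :=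
  ((meas_ga _).comp measurable_fst).mul
    (Gs.meas_dot ((meas_et A).comp measurable_fst) measurable_snd).cos

theorem meas_ch1 (A : ℝ) (m : I → ℝ) : Measurable (Function.uncurry (ch1 A m)) :=
  ((meas_ga _).comp measurable_fst).mul
    ((Gs.meas_dot ((meas_et A).comp measurable_fst) measurable_const).neg.mul
      (Gs.meas_dot ((meas_et A).comp measurable_fst) measurable_snd).sin)

theorem abs_sin_le (η m v : I → ℝ) {C : ℝ} (hm : ∀ i, |m i| ≤ C) :
    |-(η ⬝ᵥ m) * Real.sin (η ⬝ᵥ v)| ≤ C * l1 η := by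
  rw [abs_mul, abs_neg]
  exact (mul_le_of_le_one_right (abs_nonneg _) (Real.abs_sin_le_one _)).trans (abs_dot_le η m hm)

theorem fm_ch (A : ℝ) {m : I → ℝ} {C : ℝ} (hC : 1 ≤ C) (hm : ∀ i, |m i| ≤ C) (ω : ℤ × (I → ℝ)) :
    Fm m (ch A ω) (ch1 A m ω) (C * (ga (A * dd I) ω.1 * dm A ω ^ 2)) := by
  have H : Fm m (fun v => Real.cos (et A ω ⬝ᵥ v))
      (fun v => -(et A ω ⬝ᵥ m) * Real.sin (et A ω ⬝ᵥ v)) (C * dm A ω ^ 2) := by
    have h1 := one_le_dm A ω
    have h2 := dm_le_sq A ω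
    have h3 := l1_dm A ω
    exact ⟨fun v => der_cos m _ v, fun v => (Real.abs_cos_le_one _).trans (by nlinarith),
      fun v => (abs_sin_le _ m v hm).trans (by nlinarith)⟩
  refine (H.smul (ga (A * dd I) ω.1)).mono (le_of_eq ?_)
  rw [abs_of_pos (ga_pos _ _)]
  ring

/-- the normalised periodised Gaussian and its derivative -/
noncomputable def Ph0 (A : ℝ) (v : I → ℝ) : ℝ := ∫ ω, ch A ω v ∂nu I

noncomputable def Ph1 (A : ℝ) (m v : I → ℝ) : ℝ := ∫ ω, ch1 A m ω v ∂nu I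

variable (I) in
noncomputable def MM (B A : ℝ) : ℝ := ∫ ω, ga B ω.1 * dm A ω ^ 2 ∂nu I

theorem MM_nonneg (B A : ℝ) : 0 ≤ MM I B A :=
  integral_nonneg fun ω => mul_nonneg (ga_pos _ _).le (sq_nonneg _)

theorem fm_Ph {A : ℝ} (hA : 0 < A) {m : I → ℝ} {C : ℝ} (hC : 1 ≤ C) (hm : ∀ i, |m i| ≤ C) :
    Fm m (Ph0 A) (Ph1 A m) (C * MM I (A * dd I) A) := by
  have := fm_mix (ν := nu I) (meas_ch A) (meas_ch1 A m)
    ((int_dm (mul_pos hA dd_pos) A).const_mul C) (fm_ch A hC hm)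
  rwa [integral_const_mul] at this

theorem meas_sec {Ω : Type} [MeasurableSpace Ω] {h : Ω → (I → ℝ) → ℝ}
    (mh : Measurable (Function.uncurry h)) (v : I → ℝ) : Measurable fun ω => h ω v :=
  mh.comp measurable_prodMk_right

theorem int_ch {A : ℝ} (hA : 0 < A) (v : I → ℝ) : Integrable (fun ω => ch A ω v) (nu I) :=
  int_of (meas_sec (meas_ch A) v) ((int_dm (mul_pos hA dd_pos) A).const_mul 1)
    fun ω => (fm_ch A (m := 0) le_rfl (by simp) ω).bd v

theorem theta {A : ℝ} (hA : 0 < A) (v : I → ℝ) :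
    ∑' k : ℤ, Real.exp (-A * ((fun i => v i + k) ⬝ᵥ (fun i => v i + k)) / 2) =
      Real.sqrt (2 * Real.pi / (A * dd I)) * Ph0 A v := by
  have hB := mul_pos hA (dd_pos (I := I))
  have hi : Integrable (fun ω => ch A ω v) (Measure.count.prod (Gs.gm (1 : Matrix I I ℝ))) :=
    int_ch hA v
  have e1 : Ph0 A v = ∑' q : ℤ, Real.exp (-A * (pp v ⬝ᵥ pp v) / 2) *
      (ga (A * dd I) q * Real.cos (2 * Real.pi * q * av v)) := by
    rw [Ph0, nu, integral_prod _ hi, integral_countable hi.integral_prod_left]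
    refine tsum_congr fun q => ?_
    simp only [ch, et_dot]
    rw [integral_const_mul, Gs.integral_cos PosSemidef.one, one_mulVec, smul_dotProduct,
      dotProduct_smul, smul_eq_mul, smul_eq_mul, smul_eq_mul, ← mul_assoc (Real.sqrt A),
      Real.mul_self_sqrt hA.le]
    simp only [measureReal_def, Measure.count_singleton, ENNReal.toReal_one, neg_mul]
    ring
  have e2 := Spr.poisson hB (av v) 0 0
  simp only [zero_mul, add_zero, Real.cos_zero, mul_one, sub_zero] at e2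
  rw [e1, tsum_mul_left, mul_left_comm]
  unfold ga
  rw [← e2, ← tsum_mul_left]
  refine tsum_congr fun k => ?_
  rw [sq_split, ← Real.exp_add]
  congr 1
  ring

/-! ## a wide Gaussian is almost constant -/

/-- indicator of the zero charge -/
noncomputable def z0 (q : ℤ) : ℝ := if q = 0 then 1 else 0

theorem small {κ : ℝ} (hκ : 0 < κ) (h1 : κ ≤ 1) (ω : ℤ × (I → ℝ)) :
    ga (κ * dd I) ω.1 * (1 - z0 ω.1 + l1 (et κ ω)) ≤
      Real.sqrt κ * (2 + 4 * dd I) * (ga (2 * dd I) ω.1 * dm 1 ω ^ 2) := by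
  have hd := dd_pos (I := I)
  have hs := Real.sqrt_pos.2 hκ
  have hs1 : Real.sqrt κ ≤ 1 := Real.sqrt_le_one.2 h1
  have hκs : κ ≤ Real.sqrt κ := by nlinarith [Real.mul_self_sqrt hκ.le]
  have h2 := dm_le_sq 1 ω
  have h3 := one_le_dm 1 ω
  by_cases hq : ω.1 = 0
  · have h4 := l1_et κ ω
    have h5 : 2 * dd I * ‖ω.2‖ ≤ dm 1 ω := by simp [dm, hq]
    simp only [hq, Int.cast_zero, mul_zero, abs_zero, add_zero] at h4
    simp only [hq, ga_zero, z0, if_true, sub_self, zero_add, one_mul]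
    have h6 : Real.sqrt κ * (2 * dd I * ‖ω.2‖) ≤ Real.sqrt κ * ((2 + 4 * dd I) * dm 1 ω ^ 2) :=
      mul_le_mul_of_nonneg_left (by nlinarith) hs.le
    linarith
  · have h4 : 1 + l1 (et κ ω) ≤ dm 1 ω ^ 2 := by
      refine (l1_dm κ ω).trans (le_trans ?_ h2)
      unfold dm
      gcongr
    set x := 2 * Real.pi * ω.1 with hx
    have hx1 : 1 ≤ x ^ 2 := by
      have := q_le ω.1
      have h7 : (1 : ℝ) ≤ |(ω.1 : ℝ)| := by exact_mod_cast Int.one_le_abs hq
      nlinarith [sq_abs x]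
    have h5 : ga (κ * dd I) ω.1 ≤ 4 * (κ * dd I) * ga (2 * dd I) ω.1 := by
      have e : ga (κ * dd I) ω.1 =
          Real.exp (-(x ^ 2 / (4 * (κ * dd I)))) * Real.exp (-(x ^ 2 / (4 * (κ * dd I)))) := by
        rw [ga, ← Real.exp_add]; congr 1; field_simp; ring
      rw [e]
      refine mul_le_mul ?_ (Real.exp_le_exp.2 ?_) (Real.exp_pos _).le (by positivity)
      · rw [Real.exp_neg, inv_le_comm₀ (Real.exp_pos _) (by positivity)]
        refine le_trans ?_ ((le_add_of_nonneg_right zero_le_one).trans (Real.add_one_le_exp _))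
        rw [← one_div]
        gcongr
      · rw [neg_div, neg_le_neg_iff]
        exact div_le_div_of_nonneg_left (sq_nonneg _) (by positivity) (by nlinarith)
    simp only [z0, hq, if_false, sub_zero]
    have h6 := ga_pos (2 * dd I) ω.1
    calc _ ≤ 4 * (κ * dd I) * ga (2 * dd I) ω.1 * dm 1 ω ^ 2 :=
          mul_le_mul h5 h4 (by linarith [l1_nonneg (et κ ω)]) (by positivity)
      _ = 4 * (κ * dd I) * (ga (2 * dd I) ω.1 * dm 1 ω ^ 2) := by ring
      _ ≤ _ := mul_le_mul_of_nonneg_right (by nlinarith) (by positivity)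

theorem near {κ : ℝ} (hκ : 0 < κ) (h1 : κ ≤ 1) (i₀ : I) (v : I → ℝ) :
    |1 - Ph0 κ v| ≤ Real.sqrt κ * (2 + 4 * dd I) * MM I (2 * dd I) 1 *
      (1 + l1 fun i => v i - v i₀) := by
  have hd := dd_pos (I := I)
  have hz : Integrable z0 Measure.count := integrable_count_iff.2
    (summable_of_ne_finset_zero (s := {0}) fun q hq => by simp_all [z0])
  have hi : Integrable (fun ω : ℤ × (I → ℝ) => z0 ω.1) (nu I) := by
    simpa [nu] using hz.mul_prod (integrable_const (μ := Gs.gm (1 : Matrix I I ℝ)) (1 : ℝ))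
  have e : ∫ ω, z0 ω.1 ∂nu I = 1 := by
    have := integral_prod_mul (μ := Measure.count) (ν := Gs.gm (1 : Matrix I I ℝ)) z0
      fun _ => (1 : ℝ)
    simp only [mul_one, integral_const, probReal_univ, smul_eq_mul] at this
    rw [nu, this, integral_countable hz, tsum_eq_single 0 fun q hq => by simp [z0, hq]]
    simp [z0, measureReal_def]
  set Y := l1 fun i => v i - v i₀ with hY
  have hY0 : 0 ≤ Y := l1_nonneg _
  conv_lhs => rw [← e]
  rw [Ph0, ← integral_sub hi (int_ch hκ v), MM, ← integral_const_mul, ← integral_mul_const]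
  refine abs_int_le (((int_dm (by positivity) 1).const_mul _).mul_const _) fun ω => ?_
  refine le_trans ?_ (mul_le_mul_of_nonneg_right (small hκ h1 ω) (by positivity))
  have hl := l1_nonneg (et κ ω)
  by_cases hq : ω.1 = 0
  · simp only [ch, hq, ga_zero, z0, if_true, sub_self, zero_add, one_mul]
    have e2 : et κ ω ⬝ᵥ v = et κ ω ⬝ᵥ fun i => v i - v i₀ := by
      simp only [dotProduct, mul_sub, Finset.sum_sub_distrib, ← Finset.sum_mul, sum_et, hq]
      simp
    have h2 : |et κ ω ⬝ᵥ v| ≤ Y * l1 (et κ ω) := by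
      rw [e2]
      exact abs_dot_le _ _ fun i => Finset.single_le_sum (f := fun i => |v i - v i₀|)
        (fun _ _ => abs_nonneg _) (Finset.mem_univ i)
    have h3 := Real.abs_cos_sub_cos_le 0 (et κ ω ⬝ᵥ v)
    rw [Real.cos_zero, zero_sub, abs_neg] at h3
    nlinarith
  · simp only [ch, z0, hq, if_false, zero_sub, abs_neg, sub_zero, abs_mul, abs_of_pos (ga_pos _ _),
      mul_assoc]
    exact mul_le_mul_of_nonneg_left ((Real.abs_cos_le_one _).trans (by nlinarith)) (ga_pos _ _).le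

theorem near1 {κ : ℝ} (hκ : 0 < κ) (h1 : κ ≤ 1) {m : I → ℝ} {C : ℝ} (hC : 0 ≤ C)
    (hm : ∀ i, |m i| ≤ C) (v : I → ℝ) :
    |Ph1 κ m v| ≤ C * (Real.sqrt κ * (2 + 4 * dd I) * MM I (2 * dd I) 1) := by
  have hd := dd_pos (I := I)
  rw [Ph1, MM, ← integral_const_mul, ← integral_const_mul]
  refine abs_int_le (((int_dm (by positivity) 1).const_mul _).const_mul _) fun ω => ?_
  refine le_trans ?_ (mul_le_mul_of_nonneg_left (small hκ h1 ω) hC)
  rw [ch1, abs_mul, abs_of_pos (ga_pos _ _), mul_left_comm]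
  refine mul_le_mul_of_nonneg_left ((abs_sin_le _ m v hm).trans
    (mul_le_mul_of_nonneg_left ?_ hC)) (ga_pos _ _).le
  unfold z0
  split_ifs <;> linarith

/-! ## the Stein identity for translates of the periodised Gaussian -/

section stein
variable {S : Type} [MeasurableSpace S] {Q : Measure S} [IsProbabilityMeasure Q] {y : S → I → ℝ}
  {X : S → ℝ}

/-- the Stein identity for characters of bounded frequency -/
def Chs (Q : Measure S) (y : S → I → ℝ) (X : S → ℝ) (m : I → ℝ) (T ε : ℝ) : Prop :=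
  ∀ (η : I → ℝ) (q : ℤ), ∑ i, η i = 2 * Real.pi * q → |(q : ℝ)| ≤ T → l1 η ≤ T → ∀ φ : ℝ,
    |∫ s, (-(η ⬝ᵥ m) * Real.sin (η ⬝ᵥ y s - φ) - X s * Real.cos (η ⬝ᵥ y s - φ)) ∂Q| ≤ ε

theorem st_Ph {A : ℝ} (hA : 0 < A) {m : I → ℝ} {C T ε : ℝ} (hC : 1 ≤ C) (hm : ∀ i, |m i| ≤ C)
    (hT : 0 < T) (hε : 0 ≤ ε) (my : Measurable y) (mX : Measurable X) (iX : Integrable X Q)
    (hX : ∫ s, |X s| ∂Q ≤ C) (H : Chs Q y X m T ε) (p : I → ℝ) :
    |St Q y X (fun v => Ph0 A (v - p)) (fun v => Ph1 A m (v - p))| ≤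
      (ε + 2 * C / T) * MM I (A * dd I) A := by
  have hi := int_dm (I := I) (mul_pos hA (dd_pos (I := I))) A
  have e := st_mix (ν := nu I) (Q := Q) (y := fun s => y s - p) (meas_ch A) (meas_ch1 A m)
    (hi.const_mul C) (fm_ch A hC hm) (my.sub_const p) mX iX
  change |St Q (fun s => y s - p) X (fun v => ∫ ω, ch A ω v ∂nu I)
    (fun v => ∫ ω, ch1 A m ω v ∂nu I)| ≤ _
  rw [e, MM, ← integral_const_mul]
  refine abs_int_le (hi.const_mul _) fun ω => ?_
  change |St Q (fun s => y s - p) X (fun v => ga (A * dd I) ω.1 * Real.cos (et A ω ⬝ᵥ v))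
    (fun v => ga (A * dd I) ω.1 * (-(et A ω ⬝ᵥ m) * Real.sin (et A ω ⬝ᵥ v)))| ≤ _
  rw [st_smul, abs_mul, abs_of_pos (ga_pos _ _), mul_left_comm]
  refine mul_le_mul_of_nonneg_left ?_ (ga_pos _ _).le
  have h1 := one_le_dm A ω
  have h2 := dm_le_sq A ω
  have h3 := l1_dm A ω
  have h4 : 0 ≤ 2 * C / T := by positivity
  rcases le_or_gt (dm A ω) T with h | h
  · have := H _ ω.1 (sum_et A ω) ((q_dm A ω).trans h) (by linarith) (et A ω ⬝ᵥ p)
    simp only [St, dotProduct_sub]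
    nlinarith
  · refine (st_le iX (fun v => Real.abs_cos_le_one _) fun v => abs_sin_le _ m v hm).trans ?_
    have h5 : 2 * C * dm A ω ≤ 2 * C / T * dm A ω ^ 2 := by
      rw [div_mul_eq_mul_div, le_div_iff₀ hT]
      have : 0 ≤ 2 * C * dm A ω := by positivity
      nlinarith
    nlinarith

end stein

/-! ## unfolding a smoothed periodic function -/

section rep
variable {Ω : Type} [MeasurableSpace Ω] {P : Measure Ω} [IsProbabilityMeasure P] {Z : Ω → I → ℝ}
  {G : Ω → ℝ} {α : ℝ} {g : (I → ℝ) → ℝ}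

theorem int_Z (hZ : MeasurePreserving Z P (Gs.gm (1 : Matrix I I ℝ))) {f : (I → ℝ) → ℝ}
    (hf : Integrable f (Gs.gm (1 : Matrix I I ℝ))) :
    Integrable (fun ω => f (Z ω)) P ∧ ∫ ω, f (Z ω) ∂P = ∫ z, f z ∂Gs.gm (1 : Matrix I I ℝ) := by
  refine ⟨hZ.integrable_comp_of_integrable hf, ?_⟩
  rw [← hZ.map_eq] at hf ⊢
  rw [integral_map hZ.measurable.aemeasurable hf.1]

theorem cmd_one (h : I → ℝ) : ∫ z, Gs.cmd 1 h z ∂Gs.gm (1 : Matrix I I ℝ) = 1 := by
  have := Gs.integral_shift (C := (1 : Matrix I I ℝ)) PosSemidef.one h fun _ => (1 : ℝ)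
  simpa using this.symm

theorem int_G (hZ : MeasurePreserving Z P (Gs.gm (1 : Matrix I I ℝ))) (mG : Measurable G)
    (hG : ∀ ω, |G ω| ≤ 1) (h : I → ℝ) : Integrable (fun ω => G ω * Gs.cmd 1 h (Z ω)) P ∧
      ∫ ω, |G ω * Gs.cmd 1 h (Z ω)| ∂P ≤ 1 := by
  obtain ⟨h1, h2⟩ := int_Z hZ (Gs.int_cmd 1 1 h)
  have hb : ∀ ω, |G ω * Gs.cmd 1 h (Z ω)| ≤ Gs.cmd 1 h (Z ω) := fun ω => by
    rw [abs_mul, abs_of_pos (Gs.cmd_pos _ _ _)]
    exact mul_le_of_le_one_left (Gs.cmd_pos _ _ _).le (hG ω)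
  have h3 := int_of (mG.mul ((Gs.cont_cmd 1 h).measurable.comp hZ.measurable)) h1 hb
  exact ⟨h3, (integral_mono h3.abs h1 hb).trans_eq (h2.trans (cmd_one h))⟩

/-- the weight left after completing the square -/
noncomputable def ew (α A : ℝ) (z : I → ℝ) : ℝ := Real.exp (α ^ 2 / A * (z ⬝ᵥ z) / 2)

theorem int_ew {α κ : ℝ} (hκ : 0 < κ) :
    Integrable (ew α (α ^ 2 + κ)) (Gs.gm (1 : Matrix I I ℝ)) := by
  have hA : 0 < α ^ 2 + κ := by positivity
  have h : ((1 : Matrix I I ℝ)⁻¹ + (-(α ^ 2 / (α ^ 2 + κ))) • (1 : Matrix I I ℝ)).PosDef := by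
    have e : (1 : Matrix I I ℝ)⁻¹ + (-(α ^ 2 / (α ^ 2 + κ))) • (1 : Matrix I I ℝ) =
        (κ / (α ^ 2 + κ)) • (1 : Matrix I I ℝ) := by
      rw [inv_one, show κ / (α ^ 2 + κ) = 1 + -(α ^ 2 / (α ^ 2 + κ)) by field_simp; ring, add_smul,
        one_smul]
    rw [e]
    exact PosDef.one.smul (by positivity)
  refine (Gs.int_gw_gm PosSemidef.one (Gs.tOk_of_pd PosDef.one h)).congr
    (Filter.Eventually.of_forall fun z => ?_)
  simp only [Gs.gw, ew, smul_mulVec, one_mulVec, dotProduct_smul, smul_eq_mul, neg_mul, neg_neg]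

theorem rep (hZ : MeasurePreserving Z P (Gs.gm (1 : Matrix I I ℝ))) (mG : Measurable G)
    (hG : ∀ ω, |G ω| ≤ 1) (hg : ∀ v, g v = ∫ ω, G ω * Gs.cmd 1 (α • v) (Z ω) ∂P)
    (per : ∀ (k : ℤ) v, g (fun i => v i + k) = g v) {κ : ℝ} (hκ : 0 < κ) (v : I → ℝ) :
    g v * Ph0 κ v = ∫ ω, (Real.sqrt (2 * Real.pi / ((α ^ 2 + κ) * dd I)) /
      Real.sqrt (2 * Real.pi / (κ * dd I)) * (G ω * ew α (α ^ 2 + κ) (Z ω))) *
        Ph0 (α ^ 2 + κ) (v - (α / (α ^ 2 + κ)) • Z ω) ∂P := by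
  have hd := dd_pos (I := I)
  have hπ := Real.pi_pos
  set A := α ^ 2 + κ with hA
  have hA0 : 0 < A := by positivity
  have hN : 0 < Real.sqrt (2 * Real.pi / (κ * dd I)) := by positivity
  set E : ℤ → ℝ := fun k => Real.exp (-κ * ((fun i => v i + k) ⬝ᵥ (fun i => v i + k)) / 2) with hE
  have sE : Summable E := by
    refine ((Spr.summable_gs (mul_pos hκ hd) (av v)).mul_left
      (Real.exp (-κ * (pp v ⬝ᵥ pp v) / 2))).congr fun k => ?_
    rw [hE]
    simp only
    rw [sq_split, ← Real.exp_add]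
    congr 1
    ring
  have h1 := integral_tsum_of_summable_integral_norm (μ := P)
    (F := fun (k : ℤ) ω => G ω * Gs.cmd 1 (α • fun i => v i + k) (Z ω) * E k)
    (fun k => (int_G hZ mG hG _).1.mul_const _)
    (Summable.of_nonneg_of_le (fun k => integral_nonneg fun _ => norm_nonneg _) (fun k => by
      simp only [norm_mul (_ * _), integral_mul_const, Real.norm_eq_abs]
      rw [abs_of_pos (Real.exp_pos _)]
      exact mul_le_of_le_one_left (Real.exp_pos _).le (int_G hZ mG hG _).2) sE)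
  simp only [integral_mul_const, ← hg, per] at h1
  rw [tsum_mul_left, theta hκ] at h1
  refine mul_left_cancel₀ hN.ne' ?_
  rw [mul_left_comm, h1, ← integral_const_mul]
  refine integral_congr_ae (Filter.Eventually.of_forall fun ω => ?_)
  have h2 := theta hA0 (v - (α / A) • Z ω)
  have e : ∀ k : ℤ, G ω * Gs.cmd 1 (α • fun i => v i + k) (Z ω) * E k = G ω * ew α A (Z ω) *
      Real.exp (-A * ((fun i => (v - (α / A) • Z ω) i + k) ⬝ᵥ
        (fun i => (v - (α / A) • Z ω) i + k)) / 2) := fun k => by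
    have e1 : (fun i => (v - (α / A) • Z ω) i + k) = (fun i => v i + k) - (α / A) • Z ω := by
      funext i; simp only [Pi.sub_apply]; ring
    rw [e1, hE, mul_assoc, mul_assoc, Gs.cmd, ew, ← Real.exp_add, ← Real.exp_add]
    congr 2
    generalize (fun i => v i + (k : ℝ)) = w
    simp only [one_mulVec, smul_dotProduct, dotProduct_smul, sub_dotProduct, dotProduct_sub,
      smul_eq_mul, dotProduct_comm (Z ω) w]
    field_simp
    rw [hA]
    ring
  simp only [e]
  rw [tsum_mul_left, h2]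
  field_simp

end rep

/-- the abstract low-mode theorem -/
theorem main (I : Type) [Fintype I] [DecidableEq I] [Nonempty I] (α : ℝ) {C ε : ℝ} (hC : 1 ≤ C)
    (hε : 0 < ε) : ∃ T ε₁ : ℝ, 1 ≤ T ∧ 0 < ε₁ ∧ ∀ (Ω : Type) [MeasurableSpace Ω] (P : Measure Ω)
    [IsProbabilityMeasure P] (Z : Ω → I → ℝ) (G : Ω → ℝ) (g g1 : (I → ℝ) → ℝ) (m : I → ℝ)
    (S : Type) [MeasurableSpace S] (Q : Measure S) [IsProbabilityMeasure Q] (y : S → I → ℝ)
    (X : S → ℝ), MeasurePreserving Z P (Gs.gm (1 : Matrix I I ℝ)) → Measurable G →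
    (∀ ω, |G ω| ≤ 1) → (∀ v, g v = ∫ ω, G ω * Gs.cmd 1 (α • v) (Z ω) ∂P) →
    (∀ (k : ℤ) v, g (fun i => v i + k) = g v) →
    (∀ v, HasDerivAt (fun t : ℝ => g (v + t • m)) (g1 v) 0) → (∀ v, |g1 v| ≤ C) →
    (∀ i, |m i| ≤ C) → Measurable y → Measurable X → Measurable (fun s => g (y s)) →
    Measurable (fun s => g1 (y s)) → Integrable (fun s => X s ^ 2) Q → ∫ s, X s ^ 2 ∂Q ≤ C →
    (∀ i j, Integrable (fun s => (y s i - y s j) ^ 2) Q ∧ ∫ s, (y s i - y s j) ^ 2 ∂Q ≤ C) →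
    Chs Q y X m T ε₁ → |St Q y X g g1| ≤ ε := by
  have hd := dd_pos (I := I)
  have hπ := Real.pi_pos
  set M₀ := (2 + 4 * dd I) * MM I (2 * dd I) 1 with hM₀
  have hM₀0 : 0 ≤ M₀ := mul_nonneg (by positivity) (MM_nonneg _ _)
  set C₁ := C ^ 2 + 2 * C + 1 + dd I ^ 2 * C with hC₁
  have hC₁0 : 0 < C₁ := by positivity
  obtain ⟨κ, hκ, hκ1, hρ⟩ : ∃ κ : ℝ, 0 < κ ∧ κ ≤ 1 ∧ Real.sqrt κ * M₀ * C₁ ≤ ε / 2 := by
    have h0 : 0 < ε / 2 / (M₀ * C₁ + 1) := by positivity
    refine ⟨(min 1 (ε / 2 / (M₀ * C₁ + 1))) ^ 2, by positivity,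
      pow_le_one₀ (by positivity) (min_le_left _ _), ?_⟩
    rw [Real.sqrt_sq (by positivity), mul_assoc]
    refine (mul_le_mul_of_nonneg_right (min_le_right _ _) (by positivity)).trans ?_
    rw [div_mul_eq_mul_div, div_le_iff₀ (by positivity)]
    nlinarith
  set A := α ^ 2 + κ with hA
  have hA0 : 0 < A := by positivity
  set c := Real.sqrt (2 * Real.pi / (A * dd I)) / Real.sqrt (2 * Real.pi / (κ * dd I)) with hc
  have hc0 : 0 ≤ c := by positivity
  set M₁ := c * (∫ z, ew α A z ∂Gs.gm (1 : Matrix I I ℝ)) * MM I (A * dd I) A + 1 with hM₁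
  have hE0 : 0 ≤ ∫ z, ew α A z ∂Gs.gm (1 : Matrix I I ℝ) :=
    integral_nonneg fun _ => (Real.exp_pos _).le
  have hM := MM_nonneg (I := I) (A * dd I) A
  have hM₁0 : 1 ≤ M₁ := le_add_of_nonneg_left (by positivity)
  refine ⟨8 * C * M₁ / ε + 1, ε / (4 * M₁), le_add_of_nonneg_left (by positivity), by positivity,
    ?_⟩
  intro Ω _ P _ Z G g g1 m S _ Q _ y X hZ mG hG hg per hder hg1 hm my mX mg mg1 iX2 hX2 hy H
  have hX1 : ∀ s, |X s| ≤ (1 + X s ^ 2) / 2 := fun s => by nlinarith [sq_abs (X s), sq_nonneg (|X s| - 1)]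
  have iX' : Integrable (fun s => (1 + X s ^ 2) / 2) Q := ((integrable_const _).add iX2).div_const _
  have iX : Integrable X Q := int_of mX iX' hX1
  have hX : ∫ s, |X s| ∂Q ≤ C := by
    refine (integral_mono iX.abs iX' hX1).trans ?_
    rw [integral_div, integral_add (integrable_const _) iX2, integral_const, probReal_univ, one_smul]
    linarith
  have hg0 : ∀ v, |g v| ≤ 1 := fun v => by
    rw [hg]; exact abs_integral_le_integral_abs.trans (int_G hZ mG hG _).2
  -- the mixture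
  obtain ⟨iE, eE⟩ := int_Z hZ (int_ew (I := I) (α := α) hκ)
  have mE : Measurable fun ω => c * (G ω * ew α A (Z ω)) :=
    (mG.mul ((by unfold ew; fun_prop : Continuous (ew α A)).measurable.comp hZ.measurable)).const_mul _
  have bE : ∀ ω, |c * (G ω * ew α A (Z ω))| ≤ c * ew α A (Z ω) := fun ω => by
    rw [abs_mul, abs_of_nonneg hc0, abs_mul, abs_of_pos (a := ew α A (Z ω)) (Real.exp_pos _)]
    exact mul_le_mul_of_nonneg_left (mul_le_of_le_one_left (Real.exp_pos _).le (hG ω)) hc0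
  have mp : Measurable fun x : Ω × (I → ℝ) => x.2 - (α / A) • Z x.1 :=
    measurable_snd.sub ((hZ.measurable.comp measurable_fst).const_smul (α / A))
  have m0 : Measurable (Function.uncurry fun ω (v : I → ℝ) =>
      c * (G ω * ew α A (Z ω)) * Ph0 A (v - (α / A) • Z ω)) :=
    (mE.comp measurable_fst).mul ((meas_mix (ν := nu I) (meas_ch A)).comp mp)
  have m1 : Measurable (Function.uncurry fun ω (v : I → ℝ) =>
      c * (G ω * ew α A (Z ω)) * Ph1 A m (v - (α / A) • Z ω)) :=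
    (mE.comp measurable_fst).mul ((meas_mix (ν := nu I) (meas_ch1 A m)).comp mp)
  have hb : Integrable (fun ω => c * ew α A (Z ω) * (C * MM I (A * dd I) A)) P :=
    (iE.const_mul _).mul_const _
  have hF : ∀ ω, Fm m (fun v => c * (G ω * ew α A (Z ω)) * Ph0 A (v - (α / A) • Z ω))
      (fun v => c * (G ω * ew α A (Z ω)) * Ph1 A m (v - (α / A) • Z ω))
      (c * ew α A (Z ω) * (C * MM I (A * dd I) A)) := fun ω =>
    (((fm_Ph hA0 hC hm).shift _).smul _).mono (mul_le_mul_of_nonneg_right (bE ω) (by positivity))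
  have e0 : ∀ v, ∫ ω, c * (G ω * ew α A (Z ω)) * Ph0 A (v - (α / A) • Z ω) ∂P = g v * Ph0 κ v :=
    fun v => (rep hZ mG hG hg per hκ v).symm
  have e1 : ∀ v, ∫ ω, c * (G ω * ew α A (Z ω)) * Ph1 A m (v - (α / A) • Z ω) ∂P =
      g1 v * Ph0 κ v + g v * Ph1 κ m v := fun v => by
    have h1 := (fm_mix m0 m1 hb hF).der v
    have h2 := (hder v).mul ((fm_Ph hκ hC hm).der v)
    simp only [e0] at h1
    simpa using h1.unique h2
  have hQ := st_mix (Q := Q) m0 m1 hb hF my mX iX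
  simp only [e0, e1] at hQ
  have hQ2 : |St Q y X (fun v => g v * Ph0 κ v) fun v => g1 v * Ph0 κ v + g v * Ph1 κ m v| ≤
      ε / 2 := by
    have hT : 0 < 8 * C * M₁ / ε + 1 := by positivity
    set δ := ε / (4 * M₁) + 2 * C / (8 * C * M₁ / ε + 1) with hδ
    have hδ1 : δ * M₁ ≤ ε / 2 := by
      have : 2 * C / (8 * C * M₁ / ε + 1) ≤ ε / (4 * M₁) := by
        rw [div_le_div_iff₀ hT (by positivity)]
        have : ε * (8 * C * M₁ / ε + 1) = 8 * C * M₁ + ε := by field_simp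
        linarith
      have e : ε / (4 * M₁) * M₁ = ε / 4 := by field_simp
      nlinarith
    have hδ0 : 0 ≤ δ := by positivity
    rw [hQ]
    refine (abs_int_le ((iE.const_mul c).mul_const (δ * MM I (A * dd I) A)) fun ω => ?_).trans ?_
    · rw [st_smul, abs_mul]
      exact mul_le_mul (bE ω) (st_Ph hA0 hC hm hT (by positivity) my mX iX hX H _) (abs_nonneg _)
        (mul_nonneg hc0 (Real.exp_pos _).le)
    · rw [integral_mul_const, integral_const_mul, eE]
      nlinarith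
  -- comparison with the weight one
  obtain ⟨i₀⟩ := ‹Nonempty I›
  have mw : Measurable fun s => Ph0 κ (y s) := (meas_mix (ν := nu I) (meas_ch κ)).comp my
  have mw1 : Measurable fun s => Ph1 κ m (y s) := (meas_mix (ν := nu I) (meas_ch1 κ m)).comp my
  set ρ := Real.sqrt κ * M₀ with hρ'
  have hρ0 : 0 ≤ ρ := by positivity
  have iS : Integrable (fun s => ∑ i, (y s i - y s i₀) ^ 2) Q :=
    integrable_finsetSum _ fun i _ => (hy i i₀).1
  have iB : Integrable (fun s => ρ * (C ^ 2 + C + 1 + X s ^ 2 +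
      dd I * ∑ i, (y s i - y s i₀) ^ 2)) Q :=
    (((integrable_const _).add iX2).add (iS.const_mul _)).const_mul _
  have hpt : ∀ s, |(g1 (y s) - X s * g (y s)) - (g1 (y s) * Ph0 κ (y s) + g (y s) * Ph1 κ m (y s) -
      X s * (g (y s) * Ph0 κ (y s)))| ≤ ρ * (C ^ 2 + C + 1 + X s ^ 2 +
      dd I * ∑ i, (y s i - y s i₀) ^ 2) := fun s => by
    have h1 := near hκ hκ1 i₀ (y s)
    have h2 := near1 hκ hκ1 (by positivity) hm (y s)
    rw [mul_assoc (Real.sqrt κ), ← hM₀, ← hρ'] at h1 h2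
    set Y := l1 fun i => y s i - y s i₀ with hY
    have h3 : Y ^ 2 ≤ dd I * ∑ i, (y s i - y s i₀) ^ 2 := by
      have := sq_sum_le_card_mul_sum_sq (s := Finset.univ) (f := fun i => |y s i - y s i₀|)
      simp only [sq_abs, Finset.card_univ] at this
      exact this
    have h4 : |g1 (y s) - X s * g (y s)| ≤ C + |X s| := by
      refine (abs_sub _ _).trans (add_le_add (hg1 _) ?_)
      rw [abs_mul]
      exact mul_le_of_le_one_right (abs_nonneg _) (hg0 _)
    have h5 : |g (y s) * Ph1 κ m (y s)| ≤ C * ρ := by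
      rw [abs_mul]
      exact (mul_le_of_le_one_left (abs_nonneg _) (hg0 _)).trans h2
    have h6 : (C + |X s|) * (1 + Y) ≤ C ^ 2 + 1 + X s ^ 2 + Y ^ 2 := by
      nlinarith [sq_abs (X s), sq_nonneg (C - |X s|), sq_nonneg (1 - Y),
        sq_nonneg (C + |X s| - (1 + Y))]
    have h7 := mul_le_mul h4 h1 (abs_nonneg _) (by positivity)
    rw [← abs_mul] at h7
    have h8 := abs_sub ((g1 (y s) - X s * g (y s)) * (1 - Ph0 κ (y s))) (g (y s) * Ph1 κ m (y s))
    have h9 := mul_le_mul_of_nonneg_left (h6.trans (add_le_add_right h3 _)) hρ0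
    calc _ = |(g1 (y s) - X s * g (y s)) * (1 - Ph0 κ (y s)) - g (y s) * Ph1 κ m (y s)| := by
          congr 1; ring
      _ ≤ _ := by nlinarith
  have i1 : Integrable (fun s => g1 (y s) - X s * g (y s)) Q :=
    (Gs.int_bdd mg1 fun s => hg1 _).sub (iX.mul_bdd mg.aestronglyMeasurable
      (Filter.Eventually.of_forall fun s => hg0 _))
  have i2 := int_of ((mg1.sub (mX.mul mg)).sub (((mg1.mul mw).add (mg.mul mw1)).sub
    (mX.mul (mg.mul mw)))) iB hpt
  have i3 : Integrable (fun s => g1 (y s) * Ph0 κ (y s) + g (y s) * Ph1 κ m (y s) -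
      X s * (g (y s) * Ph0 κ (y s))) Q :=
    (i1.sub i2).congr (Filter.Eventually.of_forall fun s => sub_sub_cancel _ _)
  have h1 := abs_int_le iB hpt
  have iX3 : Integrable (fun s => C ^ 2 + C + 1 + X s ^ 2) Q := (integrable_const _).add iX2
  rw [integral_sub i1 i3, integral_const_mul, integral_add iX3 (iS.const_mul _), integral_add (integrable_const _) iX2, integral_const_mul,
    integral_finsetSum _ fun i _ => (hy i i₀).1, integral_const, probReal_univ, one_smul] at h1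
  have h2 : ∑ i, ∫ s, (y s i - y s i₀) ^ 2 ∂Q ≤ dd I * C :=
    (Finset.sum_le_sum fun i _ => (hy i i₀).2).trans_eq (sum_cst C)
  have h3 : ρ * (C ^ 2 + C + 1 + ∫ s, X s ^ 2 ∂Q + dd I * ∑ i, ∫ s, (y s i - y s i₀) ^ 2 ∂Q) ≤
      ρ * C₁ := mul_le_mul_of_nonneg_left (by nlinarith) hρ0
  unfold St at hQ2 ⊢
  have h4 := abs_add_le _ _ |>.trans (add_le_add h1 hQ2)
  rw [sub_add_cancel] at h4
  linarith

end Crest.Agent.T145.Lo21
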