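import Crest.Agent.T145.MbDef2_25
import Crest.Agent.T145.T5_11
import Crest.Agent.T145.GeoB_51
import Crest.Agent.T145.CorB_59

/-!
# Row 145, module MB (helper25): counting the bad scales; uniform lower bound of the charge
-/

set_option autoImplicit false

namespace Crest.Agent.T145.Mb

open Finset Filter Topology

theorem count_drops (f : ℕ → ℝ) (a₀ p : ℕ) (δ : ℝ) (hδ : 0 < δ) (h0 : ∀ n, 0 ≤ f n)
    (mono : ∀ a b, a₀ ≤ a → a ≤ b → f b ≤ f a + δ / 2) (M : ℕ) :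
    ∀ a, a₀ ≤ a → ∀ S : Finset ℕ, (∀ i ∈ S, a + p ≤ i ∧ f (i + 1) < f (i - p) - δ) →
      (∀ b, a ≤ b → f b ≤ M * (δ / 2)) → S.card ≤ (p + 1) * M := by
  induction M with
  | zero =>
    intro a _ S hS hb
    rcases S.eq_empty_or_nonempty with rfl | ⟨i, hi⟩
    · simp
    · have h1 := hS i hi
      have h2 := hb (i - p) (by omega)
      have h3 := h0 (i + 1)
      simp only [Nat.cast_zero, zero_mul] at h2
      linarith [h1.2]
  | succ M ih =>
    intro a ha S hS hb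
    rcases S.eq_empty_or_nonempty with rfl | hne
    · simp
    · have hi := S.min'_mem hne
      set i := S.min' hne with hi'
      have h1 := hS i hi
      have h2 := hb (i - p) (by omega)
      have h3 := ih (i + 1) (by omega) (S.filter fun j => i + 1 + p ≤ j)
        (fun j hj => ⟨(mem_filter.1 hj).2, (hS j (mem_filter.1 hj).1).2⟩) fun b hb' => by
          have := mono (i + 1) b (by omega) hb'
          push_cast at h2
          linarith [h1.2]
      have h4 : S ⊆ (S.filter fun j => i + 1 + p ≤ j) ∪ Ico i (i + 1 + p) := fun j hj => by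
        have := S.min'_le j hj
        rw [mem_union, mem_filter, mem_Ico]
        by_cases h : i + 1 + p ≤ j
        · exact Or.inl ⟨hj, h⟩
        · exact Or.inr ⟨this, by omega⟩
      have h5 := (card_le_card h4).trans (card_union_le _ _)
      rw [Nat.card_Ico] at h5
      rw [Nat.mul_succ]
      omega

theorem badGStmt_25 (ha : T1aStmt) (hd : T1dStmt) (h2 : T2Stmt) : BadGStmt := by
  intro F q₀ c θ₀ hc hθ
  obtain ⟨δ, hδ, H2⟩ := h2 F θ₀ (q₀ + 1) (c / 2) hθ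
    (by have : (0 : ℝ) ≤ q₀ := Nat.cast_nonneg _; linarith) (by linarith)
  obtain ⟨C, HA⟩ := ha F
  obtain ⟨l₁, HD⟩ := hd.2.1 F (δ / 2) (by linarith)
  obtain ⟨p, hp⟩ := T511.exists_pow δ hδ
  obtain ⟨l₂, hl₂⟩ := exists_nat_ge (1 / δ)
  obtain ⟨M, hM⟩ := exists_nat_ge (2 / δ)
  refine ⟨(p + 1) * M, l₁ + l₂ + p, fun Λ hΛ S hS => ?_⟩
  refine count_drops (fun n => Λ.tN (2 ^ n)) (l₁ + l₂) p δ hδ
    (fun n => (HA Λ hΛ _ Nat.one_le_two_pow).1) (fun a b h1 h2 => ?_) M (l₁ + l₂) le_rfl S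
    (fun i hi => ?_) fun b _ => ?_
  · have h3 := (Nat.lt_two_pow_self (n := a)).le
    have := HD Λ hΛ (2 ^ a) (2 ^ (b - a)) (by omega) Nat.one_le_two_pow
    rwa [← pow_add, Nat.sub_add_cancel h2] at this
  · obtain ⟨h1, h3, q, q1, q2, q3⟩ := hS i hi
    refine ⟨h1, ?_⟩
    by_contra hn
    push Not at hn
    have q4 : |(q : ℝ)| ≤ q₀ + 1 := by
      have a1 : (1 : ℝ) ≤ q := by exact_mod_cast q1
      have a2 : (q : ℝ) ≤ q₀ := by exact_mod_cast q2
      rw [abs_of_pos (by linarith)]; linarith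
    have sep : Sep δ (2 ^ (i - p)) (2 ^ i) := by
      have h4 := (Nat.lt_two_pow_self (n := i - p)).le
      have b1 : (l₂ : ℝ) ≤ ((2 ^ (i - p) : ℕ) : ℝ) := by exact_mod_cast (by omega : l₂ ≤ 2 ^ (i - p))
      have b2 : 1 ≤ δ * l₂ := by rwa [div_le_iff₀ hδ, mul_comm] at hl₂
      refine ⟨b2.trans (mul_le_mul_of_nonneg_left b1 hδ.le), ?_⟩
      push_cast
      rw [show (2 : ℝ) ^ i = 2 ^ (i - p) * 2 ^ p by rw [← pow_add]; congr 1; omega]
      have b4 : (0 : ℝ) < 2 ^ (i - p) := by positivity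
      nlinarith
    have e : 2 * 2 ^ i = 2 ^ (i + 1) := by ring
    have := H2 Λ hΛ _ _ ⟨⟨_, rfl⟩, sep, by rwa [e], by rw [e]; linarith⟩ q (by omega) q4
    linarith
  · have b1 := (HA Λ hΛ (2 ^ b) Nat.one_le_two_pow).2.1
    have b2 : 2 ≤ M * δ := (div_le_iff₀ hδ).1 hM
    linarith

theorem y0Stmt_25 : Y0Stmt := by
  intro F l hl
  set Λ₂ : Lat := ⟨F.J, F.xy, max F.τ₁ F.τ₂⟩ with hΛ₂
  have hok : Λ₂.Ok := ⟨F.adm, F.pos.trans_le (le_max_left _ _)⟩
  have h0 : (0 : Pt) ∈ sq 0 l := by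
    simp only [sq, mem_product, mem_Ico, Prod.fst_zero, Prod.snd_zero]
    omega
  have hg := (geoStmt Λ₂ hok).2.1 0 l 0 h0
  refine ⟨Λ₂.Y l, ((mdlStmt _ _).2.2 hg.1 hg.2).ph_pos _, fun Λ hΛ => ?_⟩
  have e : Λ = Λ₂.at' Λ.τ := by
    obtain ⟨J, xy, τ⟩ := Λ
    obtain ⟨h1, h2, -⟩ := hΛ
    simp only at h1 h2
    subst h1 h2
    rfl
  rw [e]
  exact (hok.loc_at_Nr (T511.mem_ok hΛ).2 (hΛ.2.2.2.trans (le_max_right _ _)) hg.2).Ph_le _

end Crest.Agent.T145.Mb
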