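import Crest.Agent.T145.MbDef_25
import Crest.Agent.T145.TauA_5

/-!
# Row 145, module MB: covariance of the currents through two edges (helper30)
-/

set_option autoImplicit false
set_option linter.unusedSectionVars false

open Finset MeasureTheory

noncomputable section

namespace Crest.Agent.T145.Mb.Cov30

open Xy48

variable {ι E : Type} [Fintype ι] [DecidableEq ι] [Fintype E] [DecidableEq E] {src tgt : E → ι}
  {b : E → ℝ}

theorem wt_add (b : E → ℝ) (k : E → ℤ) (e : E) (j : ℤ) :
    wt b (k + Pi.single e j) = besI (b e) (k e + j) * ∏ f ∈ univ.erase e, besI (b f) (k f) := by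
  rw [wt, ← mul_prod_erase _ _ (mem_univ e)]
  congr 1
  · simp
  · exact prod_congr rfl fun f hf => by simp [Pi.single_eq_of_ne (ne_of_mem_erase hf)]

theorem wt_mul (b : E → ℝ) (k : E → ℤ) (e : E) :
    wt b k * k e = b e / 2 * (wt b (k + Pi.single e (-1)) - wt b (k + Pi.single e 1)) := by
  have h := Tau5.bes_rec (b e) (k e)
  have h0 := wt_add b k e 0
  rw [Pi.single_zero, add_zero, add_zero] at h0
  rw [bes_eq, sub_eq_add_neg (k e)] at h
  rw [wt_add, wt_add, h0]
  linear_combination (∏ f ∈ univ.erase e, besI (b f) (k f)) / 2 * h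

theorem dv_single (e : E) (j : ℤ) :
    Xy48.dv src tgt (Pi.single e j) = j • (Pi.single (src e) 1 - Pi.single (tgt e) 1) := by
  funext v
  rw [Xy48.dv, sum_eq_single e (fun f _ hf => by simp [Pi.single_eq_of_ne hf]) (by simp)]
  simp only [Pi.single_eq_same, Pi.smul_apply, Pi.sub_apply, Pi.single_apply, smul_eq_mul,
    eq_comm (a := v)]
  split_ifs <;> ring

theorem hasSum_shift (j : E → ℤ) :
    HasSum (fun k => ind (Xy48.dv src tgt k = 0) * wt b (k + j))
      (cur src tgt b (Xy48.dv src tgt j)) := by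
  rw [← cur_neg, cur_eq]
  have h := (Equiv.addRight j).hasSum_iff.2
    (summable_cur' (src := src) (tgt := tgt) (b := b) (-Xy48.dv src tgt j)).hasSum
  convert h using 2 with k
  simp only [Function.comp, Equiv.coe_addRight, Xy48.dv_add, neg_add_cancel_comm_assoc]

/-- the Boltzmann factor -/
def H (src tgt : E → ι) (b : E → ℝ) (σ : ι → S1) : ℝ :=
  Real.exp (∑ e, b e * inner ℝ (σ (src e) : Xy48.E2) (σ (tgt e) : Xy48.E2))

theorem cont_H : Continuous (H src tgt b) := by unfold H; fun_prop

theorem ig {F : (ι → S1) → ℝ} (hF : Continuous F) : Integrable F (Measure.pi fun _ : ι => muS) :=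
  hF.integrable_of_hasCompactSupport (HasCompactSupport.of_compactSpace _)

theorem cur_re (a : ι → ℤ) : ∫ σ : ι → S1, (∏ v, cz (σ v) ^ a v).re * H src tgt b σ
    ∂(Measure.pi fun _ => muS) = mS ^ Fintype.card ι * cur src tgt b a := by
  have h1 := current src tgt b a
  have i1 : Integrable (fun σ : ι → S1 => (∏ v, cz (σ v) ^ a v) * (H src tgt b σ : ℂ))
      (Measure.pi fun _ => muS) :=
    ((continuous_finsetProd _ fun v _ => (continuous_cz_zpow _).comp (continuous_apply v)).mul
      (Complex.continuous_ofReal.comp cont_H)).integrable_of_hasCompactSupport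
        (HasCompactSupport.of_compactSpace _)
  have h3 := integral_re i1
  simp only [H] at h3
  rw [h1, ← Complex.ofReal_pow, ← Complex.ofReal_mul] at h3
  simpa only [RCLike.re_to_complex, Complex.re_mul_ofReal, Complex.ofReal_re, H] using h3

theorem im_nonneg (hb : ∀ e, 0 ≤ b e) (x y : ι) {φ : (ι → ℝ) → ℝ} (hφ : Continuous φ)
    (h0 : ∀ σ : ι → S1, 0 ≤ φ fun v => (cz (σ v)).re) :
    0 ≤ ∫ σ : ι → S1, φ (fun v => (cz (σ v)).re) * ((cz (σ x)).im * (cz (σ y)).im * H src tgt b σ)
      ∂(Measure.pi fun _ => muS) := by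
  set F : (ι → S1) → ℝ := fun σ => φ (fun v => (cz (σ v)).re) *
    ((cz (σ x)).im * (cz (σ y)).im * H src tgt b σ) with hF
  have hz := continuous_cz
  have hH := cont_H (src := src) (tgt := tgt) (b := b)
  have hFc : Continuous F := by rw [hF]; fun_prop
  set T : (ι → Bool) → (ι → S1) → ι → S1 := fun ε σ v => (if ε v then rf else id) (σ v) with hT
  have hT1 : ∀ ε, MeasurePreserving (T ε) (Measure.pi fun _ => muS) (Measure.pi fun _ => muS) :=
    fun ε => measurePreserving_pi _ _ (f := fun v => if ε v then rf else id) fun v => by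
      split_ifs
      exacts [mp_isoS _, MeasurePreserving.id _]
  have h1 : ∀ ε, ∫ σ, F (T ε σ) ∂(Measure.pi fun _ => muS) = ∫ σ, F σ ∂(Measure.pi fun _ => muS) :=
    fun ε => by
      rw [← integral_map (hT1 ε).measurable.aemeasurable hFc.aestronglyMeasurable, (hT1 ε).map_eq]
  have h2 : 0 ≤ ∫ σ, ∑ ε, F (T ε σ) ∂(Measure.pi fun _ => muS) := by
    refine integral_nonneg fun σ => ?_
    have hre : ∀ ε v, (cz (T ε σ v)).re = (cz (σ v)).re := fun ε v => by
      simp only [hT]; split_ifs <;> simp [cz_rf]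
    have him : ∀ ε v, (cz (T ε σ v)).im = sv (fun v => (cz (σ v)).im) ε v := fun ε v => by
      simp only [hT, sv]; split_ifs <;> simp [cz_rf]
    have h3 := mul_nonneg (h0 σ) (mul_nonneg
      (Real.exp_pos (∑ e, b e * ((cz (σ (src e))).re * (cz (σ (tgt e))).re))).le
      (gks (src := src) (tgt := tgt) hb (fun v => (cz (σ v)).im) univ (Pi.single x 1 + Pi.single y 1)))
    rw [mul_sum, mul_sum] at h3
    refine h3.trans_eq (sum_congr rfl fun ε _ => ?_)
    have h : ∀ w : ι, ∏ v, sv (fun v => (cz (σ v)).im) ε v ^ (Pi.single w 1 : ι → ℕ) v =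
        sv (fun v => (cz (σ v)).im) ε w := fun w => by
      rw [prod_eq_single w (fun x _ hx => by rw [Pi.single_eq_of_ne hx, pow_zero]) (by simp)]
      simp
    simp only [hF, H, inner_eq', hre, him, Pi.add_apply, pow_add, prod_mul_distrib, h, mul_add,
      sum_add_distrib, Real.exp_add, ← Real.exp_sum]
    ring
  rw [integral_finsetSum (f := fun ε σ => F (T ε σ)) _
    fun ε _ => (hT1 ε).integrable_comp_of_integrable (ig hFc)] at h2
  simp only [h1, sum_const, nsmul_eq_mul] at h2
  exact nonneg_of_mul_nonneg_right h2 (by exact_mod_cast card_pos.2 univ_nonempty) |> fun h => h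

theorem prod_add' (σ : ι → S1) (a a' : ι → ℤ) :
    ∏ v, cz (σ v) ^ (a + a') v = (∏ v, cz (σ v) ^ a v) * ∏ v, cz (σ v) ^ a' v := by
  simp only [Pi.add_apply, zpow_add₀ (cz_ne _), prod_mul_distrib]

theorem prod_one' (σ : ι → S1) (w : ι) : ∏ v, cz (σ v) ^ (Pi.single w 1 : ι → ℤ) v = cz (σ w) := by
  rw [prod_eq_single w (fun x _ hx => by rw [Pi.single_eq_of_ne hx, zpow_zero]) (by simp)]
  simp

theorem prod_dif (σ : ι → S1) (x y : ι) :
    ∏ v, cz (σ v) ^ (Pi.single x 1 - Pi.single y 1 : ι → ℤ) v =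
      cz (σ x) * (starRingEnd ℂ) (cz (σ y)) := by
  rw [Xy48.prod_single fun v => cz_ne _, Complex.inv_eq_conj (norm_cz _)]

theorem im_le (hb : ∀ e, 0 ≤ b e) (x y : ι) :
    2 * ∫ σ : ι → S1, (cz (σ x)).im * (cz (σ y)).im * H src tgt b σ ∂(Measure.pi fun _ => muS) ≤
      mS ^ Fintype.card ι * cur src tgt b (Pi.single y 1 - Pi.single x 1) := by
  have hz := continuous_cz
  have hH := cont_H (src := src) (tgt := tgt) (b := b)
  have h1 := cur_re (src := src) (tgt := tgt) (b := b) (Pi.single y 1 - Pi.single x 1)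
  have h2 := cur_re (src := src) (tgt := tgt) (b := b) (Pi.single y 1 + Pi.single x 1)
  simp only [prod_dif] at h1
  simp only [prod_add', prod_one'] at h2
  have h3 := mul_nonneg (pow_pos mS_pos (Fintype.card ι)).le
    (cur_nonneg (src := src) (tgt := tgt) hb (Pi.single y 1 + Pi.single x 1))
  rw [← h2] at h3
  rw [← h1, ← integral_const_mul]
  refine le_trans (le_of_eq ?_) (sub_le_self _ h3)
  rw [← integral_sub (ig (by fun_prop)) (ig (by fun_prop))]
  refine integral_congr_ae (ae_of_all _ fun σ => ?_)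
  simp only [Complex.mul_re, Complex.conj_re, Complex.conj_im]
  ring

theorem abs_re_le (s : S1) : |(cz s).re| ≤ 1 := (Complex.abs_re_le_norm _).trans (norm_cz s).le

theorem four_le (hb : ∀ e, 0 ≤ b e) (x y u w : ι) :
    2 * |∫ σ : ι → S1, (cz (σ u)).re * (cz (σ w)).re *
      ((cz (σ x)).im * (cz (σ y)).im * H src tgt b σ) ∂(Measure.pi fun _ => muS)| ≤
      mS ^ Fintype.card ι * cur src tgt b (Pi.single y 1 - Pi.single x 1) := by
  have hz := continuous_cz
  have hH := cont_H (src := src) (tgt := tgt) (b := b)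
  have hp : ∀ σ : ι → S1, |(cz (σ u)).re * (cz (σ w)).re| ≤ 1 := fun σ => by
    rw [abs_mul]; exact mul_le_one₀ (abs_re_le _) (abs_nonneg _) (abs_re_le _)
  have h1 := im_nonneg (src := src) (tgt := tgt) hb x y (φ := fun r => 1 + r u * r w) (by fun_prop)
    fun σ => by linarith [(abs_le.1 (hp σ)).1]
  have h2 := im_nonneg (src := src) (tgt := tgt) hb x y (φ := fun r => 1 - r u * r w) (by fun_prop)
    fun σ => by linarith [(abs_le.1 (hp σ)).2]
  simp only [add_mul, one_mul] at h1
  simp only [sub_mul, one_mul] at h2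
  rw [integral_add (ig (by fun_prop)) (ig (by fun_prop))] at h1
  rw [integral_sub (ig (by fun_prop)) (ig (by fun_prop))] at h2
  refine le_trans ?_ (im_le hb x y)
  exact mul_le_mul_of_nonneg_left (abs_le.2 ⟨by linarith, by linarith⟩) zero_le_two

/-- the four point bound -/
theorem neg_le (hb : ∀ e, 0 ≤ b e) (p q r t : ι) :
    |cur src tgt b (Pi.single p 1 - Pi.single q 1 + (Pi.single r 1 - Pi.single t 1)) -
      cur src tgt b (Pi.single p 1 - Pi.single q 1 + (Pi.single t 1 - Pi.single r 1))| ≤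
      cur src tgt b (Pi.single r 1 - Pi.single p 1) + cur src tgt b (Pi.single t 1 - Pi.single p 1) +
      cur src tgt b (Pi.single r 1 - Pi.single q 1) + cur src tgt b (Pi.single t 1 - Pi.single q 1) := by
  have hz := continuous_cz
  have hH := cont_H (src := src) (tgt := tgt) (b := b)
  have h1 := cur_re (src := src) (tgt := tgt) (b := b)
    (Pi.single p 1 - Pi.single q 1 + (Pi.single r 1 - Pi.single t 1))
  have h2 := cur_re (src := src) (tgt := tgt) (b := b)
    (Pi.single p 1 - Pi.single q 1 + (Pi.single t 1 - Pi.single r 1))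
  simp only [prod_add', prod_dif] at h1 h2
  have a1 := four_le (src := src) (tgt := tgt) hb p r q t
  have a2 := four_le (src := src) (tgt := tgt) hb p t q r
  have a3 := four_le (src := src) (tgt := tgt) hb q r p t
  have a4 := four_le (src := src) (tgt := tgt) hb q t p r
  refine le_of_mul_le_mul_left ?_ (pow_pos mS_pos (Fintype.card ι))
  rw [← abs_of_pos (pow_pos mS_pos (Fintype.card ι)), ← abs_mul, mul_sub, ← h1, ← h2,
    abs_of_pos (pow_pos mS_pos (Fintype.card ι)), ← integral_sub (ig (by fun_prop)) (ig (by fun_prop))]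
  generalize hA : (fun σ : ι → S1 => (cz (σ q)).re * (cz (σ t)).re *
    ((cz (σ p)).im * (cz (σ r)).im * H src tgt b σ)) = A at a1
  generalize hB : (fun σ : ι → S1 => (cz (σ q)).re * (cz (σ r)).re *
    ((cz (σ p)).im * (cz (σ t)).im * H src tgt b σ)) = B at a2
  generalize hC : (fun σ : ι → S1 => (cz (σ p)).re * (cz (σ t)).re *
    ((cz (σ q)).im * (cz (σ r)).im * H src tgt b σ)) = C at a3
  generalize hD : (fun σ : ι → S1 => (cz (σ p)).re * (cz (σ r)).re *
    ((cz (σ q)).im * (cz (σ t)).im * H src tgt b σ)) = D at a4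
  have iA : Integrable A (Measure.pi fun _ => muS) := hA ▸ ig (by fun_prop)
  have iB : Integrable B (Measure.pi fun _ => muS) := hB ▸ ig (by fun_prop)
  have iC : Integrable C (Measure.pi fun _ => muS) := hC ▸ ig (by fun_prop)
  have iD : Integrable D (Measure.pi fun _ => muS) := hD ▸ ig (by fun_prop)
  rw [integral_congr_ae (g := fun σ => -2 * (A σ - B σ - C σ + D σ)) (ae_of_all _ fun σ => by
    simp only [← hA, ← hB, ← hC, ← hD, Complex.mul_re, Complex.mul_im, Complex.conj_re,
      Complex.conj_im]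
    ring), integral_const_mul, integral_add (f := fun σ => A σ - B σ - C σ) ((iA.sub iB).sub iC) iD,
    integral_sub (f := fun σ => A σ - B σ) (iA.sub iB) iC, integral_sub iA iB, abs_le]
  have := abs_le.1 (le_refl |∫ σ, A σ ∂(Measure.pi fun _ => muS)|)
  have := abs_le.1 (le_refl |∫ σ, B σ ∂(Measure.pi fun _ => muS)|)
  have := abs_le.1 (le_refl |∫ σ, C σ ∂(Measure.pi fun _ => muS)|)
  have := abs_le.1 (le_refl |∫ σ, D σ ∂(Measure.pi fun _ => muS)|)
  constructor <;> linarith

end Crest.Agent.T145.Mb.Cov30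

namespace Crest.Agent.T145.Mb

open Xy48 Cov30

theorem covStmt : CovStmt := by
  intro ι E _ _ _ src tgt b hb e e' hne
  classical
  have hs := fun i j : ℤ =>
    hasSum_shift (src := src) (tgt := tgt) (b := b) (Pi.single e i + Pi.single e' j)
  simp only [Xy48.dv_add, dv_single] at hs
  have h := ((((hs (-1) (-1)).sub (hs (-1) 1)).sub (hs 1 (-1))).add (hs 1 1)).mul_left
    (b e * b e' / 4)
  have h1 : ∀ k : E → ℤ, ind (Xy48.dv src tgt k = 0) * wt b k * ((k e : ℝ) * (k e' : ℝ)) =
      b e * b e' / 4 * (ind (Xy48.dv src tgt k = 0) * wt b (k + (Pi.single e (-1) + Pi.single e' (-1))) -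
        ind (Xy48.dv src tgt k = 0) * wt b (k + (Pi.single e (-1) + Pi.single e' 1)) -
        ind (Xy48.dv src tgt k = 0) * wt b (k + (Pi.single e 1 + Pi.single e' (-1))) +
        ind (Xy48.dv src tgt k = 0) * wt b (k + (Pi.single e 1 + Pi.single e' 1))) := fun k => by
    have a0 := wt_mul b k e
    have a1 := wt_mul b (k + Pi.single e (-1)) e'
    have a2 := wt_mul b (k + Pi.single e 1) e'
    rw [Pi.add_apply, Pi.single_eq_of_ne hne.symm, add_zero, add_assoc, add_assoc] at a1 a2
    linear_combination ind (Xy48.dv src tgt k = 0) * ((k e' : ℝ) * a0 + b e / 2 * (a1 - a2))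
  rw [tsum_congr h1, h.tsum_eq]
  have h2 := neg_le (src := src) (tgt := tgt) hb (src e) (tgt e) (src e') (tgt e')
  have h3 := cur_zero_pos (src := src) (tgt := tgt) hb
  simp only [neg_smul, one_smul]
  rw [← neg_add, cur_neg, ← cur_neg src tgt b (-_ + _), neg_add, neg_neg, neg_sub]
  have h4 := mul_nonneg (hb e) (hb e')
  simp only [G]
  rw [mul_assoc, add_mul, add_mul, add_mul, div_mul_cancel₀ _ h3.ne', div_mul_cancel₀ _ h3.ne',
    div_mul_cancel₀ _ h3.ne', div_mul_cancel₀ _ h3.ne', abs_mul, abs_of_nonneg (by positivity)]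
  have h5 := mul_le_mul_of_nonneg_left h2 h4
  rw [show ∀ x y : ℝ, x - y - y + x = 2 * (x - y) from fun _ _ => by ring, abs_mul, abs_two]
  linarith

end Crest.Agent.T145.Mb
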