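import Crest.Agent.T145.MbDef_25
import Crest.Agent.T145.GeoA_51
import Crest.Agent.T145.Api_98

/-!
# Row 145, module MB: decay in the bulk of the wired graph (helper93)
-/

set_option autoImplicit false

open Finset Filter Topology Crest.ProbabilityR.SpinModel

namespace Crest.Agent.T145.Mb

open Xy48

namespace D93
variable {l : ℕ}

/-- the names of the two plaquettes of an edge -/
def aS (e : Pt × Pt) : Pt := if e.2 = e.1 + (1, 0) then e.1 else e.1 - (1, 0)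
def aT (e : Pt × Pt) : Pt := if e.2 = e.1 + (1, 0) then e.1 - (0, 1) else e.1

theorem ws_eq (e : Ed l) : ws l e = pl l (aS e.1) := by unfold ws aS; split_ifs <;> rfl
theorem wg_eq (e : Ed l) : wg l e = pl l (aT e.1) := by unfold wg aT; split_ifs <;> rfl

theorem nn_Jp : nnL.Jp = {(1, 0), (0, 1)} := by decide

theorem mem_Ed {e : Pt × Pt} : e ∈ nnL.edI (sq 0 l) ↔
    (e.2 = e.1 + (1, 0) ∨ e.2 = e.1 + (0, 1)) ∧ e.1 ∈ sq 0 l ∧ e.2 ∈ sq 0 l := by
  rw [Lat.mem_edI, nn_Jp, mem_insert, mem_singleton, sub_eq_iff_eq_add', sub_eq_iff_eq_add']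

theorem pl_inj {q a : Pt} (hq : q ∈ sq (0 : Pt) (l - 1)) (h : pl l a = pl l q) : a = q := by
  unfold pl at h
  rw [dif_pos hq] at h
  split_ifs at h with ha
  · exact congrArg Subtype.val (Option.some.inj h)

theorem card_le (V : Finset Pt) (a : Pt × Pt → Pt)
    (ha : ∀ e e' : Ed l, a e.1 = a e'.1 → (e.1.2 = e.1.1 + (1, 0) ↔ e'.1.2 = e'.1.1 + (1, 0)) →
      e.1.1 = e'.1.1) : ∑ e : Ed l, ind (a e.1 ∈ V) ≤ 2 * (V.card : ℝ) := by
  classical
  simp only [ind_eq_ite]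
  rw [sum_boole]
  have h : (univ.filter fun e : Ed l => a e.1 ∈ V).card ≤ ((univ : Finset Bool) ×ˢ V).card := by
    refine card_le_card_of_injOn (fun e => (decide (e.1.2 = e.1.1 + (1, 0)), a e.1))
      (fun e he => ?_) fun e _ e' _ h => ?_
    · exact mem_coe.2 (mem_product.2 ⟨mem_univ _, (mem_filter.1 he).2⟩)
    · simp only [Prod.mk.injEq, decide_eq_decide] at h
      have h1 := ha e e' h.2 h.1
      refine Subtype.ext (Prod.ext h1 ?_)
      have h2 := (mem_Ed.1 e.2).1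
      have h3 := (mem_Ed.1 e'.2).1
      by_cases h4 : e.1.2 = e.1.1 + (1, 0)
      · rw [h4, h.1.1 h4, h1]
      · rw [h2.resolve_left h4, h3.resolve_left fun h5 => h4 (h.1.2 h5), h1]
  rw [card_product, card_univ, Fintype.card_bool] at h
  exact_mod_cast h

theorem card_S (V : Finset Pt) : ∑ e : Ed l, ind (aS e.1 ∈ V) ≤ 2 * (V.card : ℝ) :=
  card_le V aS fun e e' h1 h2 => by
    unfold aS at h1
    by_cases h : e.1.2 = e.1.1 + (1, 0)
    · rwa [if_pos h, if_pos (h2.1 h)] at h1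
    · rwa [if_neg h, if_neg fun h' => h (h2.2 h'), sub_left_inj] at h1

theorem card_T (V : Finset Pt) : ∑ e : Ed l, ind (aT e.1 ∈ V) ≤ 2 * (V.card : ℝ) :=
  card_le V aT fun e e' h1 h2 => by
    unfold aT at h1
    by_cases h : e.1.2 = e.1.1 + (1, 0)
    · rwa [if_pos h, if_pos (h2.1 h), sub_left_inj] at h1
    · rwa [if_neg h, if_neg fun h' => h (h2.2 h')] at h1

theorem adj (e : Pt × Pt) : |(aS e).1 - (aT e).1| ≤ 1 ∧ |(aS e).2 - (aT e).2| ≤ 1 := by
  unfold aS aT; split_ifs <;> simp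

/-- the height edge crossed by a lattice edge of plaquettes -/
def cr (q : Pt × Fin 2) : Pt × Pt := (q.1 + latticeDir q.2, q.1 + (1, 1))

theorem cr_zero (u : Pt) : aS (cr (u, 0)) = u ∧ aT (cr (u, 0)) = u + latticeDir 0 := by
  have : ¬ (cr (u, 0)).2 = (cr (u, 0)).1 + (1, 0) := by simp [cr, latticeDir, Prod.ext_iff]
  rw [aS, aT, if_neg this, if_neg this]
  simp [cr, latticeDir]

theorem cr_one (u : Pt) : aS (cr (u, 1)) = u + latticeDir 1 ∧ aT (cr (u, 1)) = u := by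
  have : (cr (u, 1)).2 = (cr (u, 1)).1 + (1, 0) := by simp [cr, latticeDir, Prod.ext_iff]
  rw [aS, aT, if_pos this, if_pos this]
  simp [cr, latticeDir]

theorem cr_inj : Function.Injective cr := by
  rintro ⟨u, i⟩ ⟨v, j⟩ h
  simp only [cr, Prod.mk.injEq, add_left_inj] at h
  obtain ⟨h, rfl⟩ := h
  fin_cases i <;> fin_cases j <;> simp_all [latticeDir]

theorem cr_mem {u : Pt} (hu : u ∈ sq (0 : Pt) (l - 1)) (i : Fin 2) :
    cr (u, i) ∈ nnL.edI (sq 0 l) := by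
  rw [mem_Ed]
  simp only [mem_sq, Prod.fst_zero, Prod.snd_zero, zero_add] at hu ⊢
  fin_cases i <;> simp [cr, latticeDir, Prod.ext_iff] <;> omega

theorem exists_cr {V : Finset Pt} (e : Ed l) (h1 : aS e.1 ∈ V) (h2 : aT e.1 ∈ V) :
    ∃ q ∈ EF V, cr q = e.1 := by
  obtain ⟨⟨x, y⟩, he⟩ := e
  unfold aS at h1
  unfold aT at h2
  by_cases h : y = x + (1, 0)
  · simp only [h, if_true] at h1 h2
    exact ⟨(x - (0, 1), 1), mem_EF.2 ⟨h2, by simpa [latticeDir] using h1⟩, by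
      simp [cr, latticeDir, h, Prod.ext_iff]⟩
  · simp only [h, if_false] at h1 h2
    have h3 : y = x + (0, 1) := (mem_Ed.1 he).1.resolve_left h
    exact ⟨(x - (1, 0), 0), mem_EF.2 ⟨h1, by simpa [latticeDir] using h2⟩, by
      simp [cr, latticeDir, h3, Prod.ext_iff]⟩

/-- the free ball inside the wired graph -/
theorem G_le (hE : EmbStmt) {b : ℝ} (hb : 0 < b) {V : Finset Pt} (hV : V ⊆ sq 0 (l - 1))
    {B : Finset (Pl l)} (hB : ∀ a, pl l a ∈ B ↔ a ∈ V) (x y : V) :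
    G (ws l) (wg l) (bIn (ws l) (wg l) (fun _ => b) B) (pl l x) (pl l y) ≤
      twoPoint 2 V (fun _ _ => b) x y := by
  rw [twoPoint_eq]
  refine (hE V (EF V) (Pl l) (Ed l) (sE V) (tE V) (ws l) (wg l) (fun u => pl l u)
    (fun q => ⟨cr q.1, cr_mem (hV (mem_EF.1 q.2).1) _⟩) (fun _ => b)
    (bIn (ws l) (wg l) (fun _ => b) B) (fun u v h => Subtype.ext (pl_inj (hV v.2) h))
    (fun q q' h => Subtype.ext (cr_inj (congrArg Subtype.val h))) (fun q => ?_) (fun _ => hb.le)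
    (fun e => ?_)).2 (fun q => ?_) (fun e he => ?_) x y
  · obtain ⟨⟨u, i⟩, hq⟩ := q
    rw [ws_eq, wg_eq]
    fin_cases i
    · exact Or.inl ⟨congrArg _ (cr_zero u).1, congrArg _ (cr_zero u).2⟩
    · exact Or.inr ⟨congrArg _ (cr_one u).1, congrArg _ (cr_one u).2⟩
  · unfold bIn; split_ifs; exacts [hb.le, le_rfl]
  · unfold bIn; split_ifs; exacts [le_rfl, hb.le]
  · refine if_neg fun h => ?_
    rw [ws_eq, wg_eq, hB, hB] at h
    obtain ⟨q, hq, h⟩ := exists_cr e h.1 h.2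
    exact he ⟨q, hq⟩ (Subtype.ext h)

end D93

open D93 in
theorem decStmt (hL : LiebStmt) (hE : EmbStmt) (hO : OffStmt) : DecStmt := by
  classical
  intro b C m hb hm l s p c hV hc
  set V := bl p s with hVd
  set B : Finset (Pl l) := V.image (pl l) with hBd
  have hB : ∀ a, pl l a ∈ B ↔ a ∈ V := fun a =>
    ⟨fun h => by obtain ⟨q, hq, h⟩ := mem_image.1 h; rwa [pl_inj (hV hq) h.symm],
      mem_image_of_mem _⟩
  have hp : p ∈ V := by simp [hVd, mem_bl_abs]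
  set ε := Real.exp (-(m * s)) with hε
  have hε0 : 0 ≤ ε := (Real.exp_pos _).le
  have hG0 : ∀ x y, 0 ≤ G (ws l) (wg l) (fun _ => b) x y := fun x y =>
    div_nonneg (cur_nonneg (fun _ => hb.le) _) (cur_nonneg (fun _ => hb.le) _)
  have hG1 : ∀ x y, G (ws l) (wg l) (fun _ => b) x y ≤ 1 := fun x y =>
    (div_le_one (cur_zero_pos fun _ => hb.le)).2 (cur_le _)
  have key : ∀ (q q' : Pt) (y : Pl l), |q.1 - q'.1| ≤ 1 → |q.2 - q'.2| ≤ 1 →
      ind (pl l q ∈ B ∧ pl l q' ∉ B) * (G (ws l) (wg l) (bIn (ws l) (wg l) (fun _ => b) B)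
        (pl l p) (pl l q) * G (ws l) (wg l) (fun _ => b) y c) ≤ ind (q ∈ V) * ε := by
    intro q q' y h1 h2
    by_cases h : pl l q ∈ B ∧ pl l q' ∉ B
    · rw [ind_pos h]
      rw [hB, hB] at h
      rw [ind_pos h.1, one_mul, one_mul]
      have h3 := (G_le hE hb hV hB ⟨p, hp⟩ ⟨q, h.1⟩).trans (hO b C m hb hm V ⟨p, hp⟩ ⟨q, h.1⟩ s (by
        obtain ⟨h4, h5⟩ := h
        rw [hVd, mem_bl_abs] at h4 h5
        simp only [abs_le, le_abs] at *
        omega))
      exact (mul_le_mul h3 (hG1 _ _) (hG0 _ _) hε0).trans_eq (mul_one _)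
    · rw [ind_neg h, zero_mul]; exact mul_nonneg (ind_nonneg _) hε0
  have h1 := hL _ _ (ws l) (wg l) (fun _ => b) (fun _ => hb.le) B (pl l p) c ((hB p).2 hp)
    fun h => by obtain ⟨q, hq, h⟩ := mem_image.1 h; exact hc q hq h.symm
  refine h1.trans ((sum_le_sum (g := fun e : Ed l =>
    b / 2 * (ind (aS e.1 ∈ V) * ε + ind (aT e.1 ∈ V) * ε)) fun e _ => ?_).trans ?_)
  · refine mul_le_mul_of_nonneg_left (add_le_add ?_ ?_) (by positivity)
    · rw [ws_eq e, wg_eq e]; exact key _ _ _ (adj e.1).1 (adj e.1).2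
    · rw [ws_eq e, wg_eq e]
      exact key _ _ _ (by rw [abs_sub_comm]; exact (adj e.1).1)
        (by rw [abs_sub_comm]; exact (adj e.1).2)
  · rw [← mul_sum, sum_add_distrib, ← sum_mul, ← sum_mul]
    have h2 := card_S (l := l) V
    have h3 := card_T (l := l) V
    have h4 : (V.card : ℝ) = (2 * s + 1) ^ 2 := by rw [hVd, card_bl]; push_cast; ring
    rw [h4] at h2 h3
    nlinarith [mul_le_mul_of_nonneg_right (add_le_add h2 h3) (mul_nonneg hb.le hε0)]

end Crest.Agent.T145.Mb
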