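import Crest.Agent.T145.MbDef2_25
import Crest.Agent.T145.XyS_48

/-!
# Row 145, module MB (helper48): `liebStmt`, `massStmt`
-/

set_option autoImplicit false

open Finset Filter Topology Crest.ProbabilityR.SpinModel

namespace Crest.Agent.T145.Mb

open Xy48

theorem liebStmt : LiebStmt := by
  classical
  intro ι E _ _ _ src tgt b hb B x y hx hy
  refine (lieb hb B hx hy).trans_eq ?_
  rw [Fintype.sum_prod_type]
  refine sum_congr rfl fun e _ => ?_
  rw [Fintype.sum_bool, ite_eq_ind, ite_eq_ind]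
  change ind (src e ∈ B ∧ tgt e ∉ B) * (b e / 2 * G src tgt (bIn src tgt b B) x (src e) *
      G src tgt b (tgt e) y) + ind (tgt e ∈ B ∧ src e ∉ B) *
    (b e / 2 * G src tgt (bIn src tgt b B) x (tgt e) * G src tgt b (src e) y) = _
  ring

theorem step_48 {b ε δ : ℝ} (hb : 0 < b) {L : ℕ} {V : Finset Pt} (x y : V)
    (h : ∀ u : V, ((L : ℤ) = |x.1.1 - u.1.1| ∨ (L : ℤ) = |x.1.2 - u.1.2|) →
      twoPoint 2 V (fun _ _ => b) x u ≤ ε) (hε : 0 ≤ ε) (hδ : 0 ≤ δ)
    (h' : ∀ u : V, |x.1.1 - u.1.1| ≤ L + 1 → twoPoint 2 V (fun _ _ => b) u y ≤ δ)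
    (hy : (L : ℤ) < |x.1.1 - y.1.1|) :
    twoPoint 2 V (fun _ _ => b) x y ≤ 4 * (2 * L + 1) * (b / 2 * ε * δ) := by
  classical
  set B : Finset V := univ.filter fun u => |x.1.1 - u.1.1| ≤ L ∧ |x.1.2 - u.1.2| ≤ L with hB
  have hm : ∀ u : V, u ∈ B ↔ |x.1.1 - u.1.1| ≤ L ∧ |x.1.2 - u.1.2| ≤ L := fun u => by simp [hB]
  have h1 := simon (src := sE V) (tgt := tE V) (b := fun _ => b) (fun _ => hb.le) B (x := x) (y := y)
    (by simp [hm]) (by rw [hm]; omega)
  have e : ∀ u v : V, twoPoint 2 V (fun _ _ => b) u v = gg (sE V) (tE V) (fun _ => b) u v :=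
    fun u v => twoPoint_eq _ u v
  set S : Finset (EF V × Bool) :=
    univ.filter fun a => frA (sE V) (tE V) a ∈ B ∧ tgA (sE V) (tE V) a ∉ B with hS
  have hc : ∀ a ∈ S, let u := a.1.1.1
      (a.1.1.2 = 0 ∧ |x.1.2 - u.2| ≤ L ∧ u.1 = if a.2 then x.1.1 + L else x.1.1 - L - 1) ∨
      (a.1.1.2 = 1 ∧ |x.1.1 - u.1| ≤ L ∧ u.2 = if a.2 then x.1.2 + L else x.1.2 - L - 1) := by
    rintro ⟨⟨⟨u, i⟩, hu⟩, c⟩ ha
    have h2 := (mem_filter.1 ha).2
    rw [hm, hm] at h2
    fin_cases i <;> cases c <;>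
      simp [frA, tgA, sE, tE, latticeDir, abs_le] at h2 ⊢ <;> omega
  have hcard : S.card ≤ 4 * (2 * L + 1) := by
    have h2 : S.card ≤ ((univ : Finset (Fin 2 × Bool)) ×ˢ Icc (-(L : ℤ)) L).card := by
      refine card_le_card_of_injOn (fun a => ((a.1.1.2, a.2),
        if a.1.1.2 = 0 then x.1.2 - a.1.1.1.2 else x.1.1 - a.1.1.1.1)) (fun a ha => ?_)
        fun a ha a' ha' haa => ?_
      · simp only [coe_product, coe_univ, Set.mem_prod, Set.mem_univ, true_and, mem_coe, mem_Icc,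
          ← abs_le]
        rcases hc a ha with h3 | h3 <;> simp [h3.1, h3.2.1]
      · simp only [Prod.mk.injEq] at haa
        obtain ⟨⟨h3, h4⟩, h5⟩ := haa
        refine Prod.ext (Subtype.ext (Prod.ext ?_ h3)) h4
        rcases hc a ha with h6 | h6 <;> rcases hc a' ha' with h7 | h7
        · rw [if_pos h6.1, if_pos h7.1] at h5
          exact Prod.ext (by rw [h6.2.2, h7.2.2, h4]) (by omega)
        · rw [h6.1, h7.1] at h3; cases h3
        · rw [h6.1, h7.1] at h3; cases h3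
        · rw [if_neg (by rw [h6.1]; decide), if_neg (by rw [h7.1]; decide)] at h5
          exact Prod.ext (by omega) (by rw [h6.2.2, h7.2.2, h4])
    rw [card_product, card_univ, Int.card_Icc] at h2
    simp only [Fintype.card_prod, Fintype.card_fin, Fintype.card_bool] at h2
    omega
  rw [e]
  refine h1.trans ?_
  rw [← sum_filter, ← hS]
  refine (sum_le_card_nsmul _ _ (b / 2 * ε * δ) fun a ha => ?_).trans ?_
  · have h2 := hc a ha
    have h3 : twoPoint 2 V (fun _ _ => b) x (frA (sE V) (tE V) a) ≤ ε := by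
      refine h _ ?_
      obtain ⟨⟨⟨u, i⟩, hu⟩, c⟩ := a
      rcases h2 with ⟨h3, -, h4⟩ | ⟨h3, -, h4⟩ <;> simp only at h3 h4 <;> subst h3 <;> cases c <;>
        simp [frA, sE, tE, latticeDir, h4]
    have h4 : twoPoint 2 V (fun _ _ => b) (tgA (sE V) (tE V) a) y ≤ δ := by
      refine h' _ ?_
      obtain ⟨⟨⟨u, i⟩, hu⟩, c⟩ := a
      rcases h2 with ⟨h3, h5, h4⟩ | ⟨h3, h5, h4⟩ <;> simp only at h3 h4 h5 <;> subst h3 <;>
        cases c <;> simp [tgA, sE, tE, latticeDir, abs_le] at h4 h5 ⊢ <;> omega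
    rw [e] at h3 h4
    exact mul_le_mul (mul_le_mul_of_nonneg_left h3 (by positivity)) h4
      (gg_nonneg (fun _ => hb.le) _ _) (by positivity)
  · rw [nsmul_eq_mul]
    exact mul_le_mul_of_nonneg_right (by exact_mod_cast hcard) (by positivity)

theorem decay_48 {b ε : ℝ} (hb : 0 < b) {L : ℕ}
    (h : ∀ (V : Finset Pt) (x y : V), ((L : ℤ) = |x.1.1 - y.1.1| ∨ (L : ℤ) = |x.1.2 - y.1.2|) →
      twoPoint 2 V (fun _ _ => b) x y ≤ ε) (hε : 4 * b * (2 * L + 1) * ε ≤ 1) (n : ℕ)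
    (V : Finset Pt) (x y : V) (hn : (n : ℤ) * (L + 1) ≤ |x.1.1 - y.1.1|) :
    twoPoint 2 V (fun _ _ => b) x y ≤ (1 / 2) ^ n := by
  have h0 : 0 ≤ ε := (twoPoint_nonneg (fun _ _ => hb.le) _ _).trans
    (h {(0, 0), ((L : ℤ), 0)} ⟨(0, 0), by simp⟩ ⟨((L : ℤ), 0), by simp⟩ (by simp))
  induction n generalizing x with
  | zero => exact (twoPoint_le_one (fun _ _ => hb.le) _ _).trans_eq (pow_zero _).symm
  | succ n ih =>
    push_cast at hn
    have h1 : (0 : ℤ) ≤ n * (L + 1) := by positivity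
    rw [add_mul, one_mul] at hn
    refine (step_48 hb x y (h V x) h0 (by positivity) (fun u hu => ih u ?_) (by omega)).trans ?_
    · have h2 := abs_sub_le x.1.1 u.1.1 y.1.1
      omega
    · have h2 : (0 : ℝ) ≤ (1 / 2) ^ n := by positivity
      rw [pow_succ]
      nlinarith [mul_le_mul_of_nonneg_right hε h2]

theorem massStmt : MassStmt := by
  intro b C m hb hL L ε h hε
  have h1 : ∀ n : ℕ, C (n * (L + 1)) ≤ (1 / 2) ^ n := fun n => by
    refine le_of_tendsto (hL.hC _) ((eventually_ge_atTop (n * (L + 1))).mono fun R hR => ?_)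
    rw [xyBoxCorrelation, dif_pos hR]
    refine decay_48 hb h hε n _ _ _ ?_
    simp only [zero_sub, abs_neg, Nat.abs_cast]
    push_cast
    exact le_rfl
  have h2 : Tendsto (fun n : ℕ => n * (L + 1)) atTop atTop :=
    tendsto_atTop_mono (fun n => Nat.le_mul_of_pos_right n L.succ_pos) tendsto_id
  refine ge_of_tendsto (hL.hm.comp h2) ((eventually_gt_atTop 0).mono fun n hn => ?_)
  have h3 := Real.log_le_log (C_pos hb hL.hC _) (h1 n)
  rw [Real.log_pow, one_div, Real.log_inv] at h3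
  have hn' : (0 : ℝ) < n := by exact_mod_cast hn
  have hL' : (0 : ℝ) < (L : ℝ) + 1 := by positivity
  simp only [Function.comp]
  push_cast
  rw [div_le_div_iff₀ hL' (mul_pos hn' hL')]
  nlinarith

end Crest.Agent.T145.Mb
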