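import Crest.Agent.T145.MbDef2_25

/-!
# Row 145, module MB (helper18): `embStmt`, `off2Stmt`, `offStmt`
-/

set_option autoImplicit false
set_option linter.unusedSectionVars false

namespace Crest.Agent.T145.Mb

open Finset Filter Topology Crest.ProbabilityR.SpinModel Xy48

namespace O18

section flip
variable {ι E : Type} [Fintype ι] [DecidableEq ι] [Fintype E]

/-- reverse the current on the edges of `S` -/
def fl (S : E → Prop) [DecidablePred S] : (E → ℤ) ≃ (E → ℤ) where
  toFun k e := if S e then -k e else k e
  invFun k e := if S e then -k e else k e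
  left_inv k := by funext e; by_cases h : S e <;> simp [h]
  right_inv k := by funext e; by_cases h : S e <;> simp [h]

theorem fl_apply (S : E → Prop) [DecidablePred S] (k : E → ℤ) (e : E) :
    fl S k e = if S e then -k e else k e := rfl

/-- `cur` does not depend on the orientation of the edges -/
theorem cur_flip (src tgt : E → ι) (S : E → Prop) [DecidablePred S] (b : E → ℝ) (a : ι → ℤ) :
    cur (fun e => if S e then tgt e else src e) (fun e => if S e then src e else tgt e) b a =
      cur src tgt b a := by
  unfold cur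
  rw [← (fl S).tsum_eq]
  refine tsum_congr fun k => ?_
  have h1 : Xy48.dv (fun e => if S e then tgt e else src e) (fun e => if S e then src e else tgt e)
      (fl S k) = Xy48.dv src tgt k := by
    funext v
    unfold Xy48.dv
    refine Finset.sum_congr rfl fun e _ => ?_
    rw [fl_apply]
    by_cases h : S e
    · simp only [h, if_true]
      split_ifs <;> simp
    · simp only [h, if_false]
  have h2 : wt b (fl S k) = wt b k := by
    unfold wt
    refine Finset.prod_congr rfl fun e _ => ?_
    rw [fl_apply]
    split_ifs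
    · exact besI_neg _ _
    · rfl
  rw [h1, h2]

end flip

end O18

open O18 in
theorem embStmt : EmbStmt := by
  intro ι E ι' E' _ _ _ _ _ _ src tgt src' tgt' φ ψ b b' hφ hψ hor hb hb'
  classical
  set S : E → Prop := fun e => ¬ (src' (ψ e) = φ (src e) ∧ tgt' (ψ e) = φ (tgt e)) with hS
  set s2 : E → ι := fun e => if S e then tgt e else src e with hs2
  set t2 : E → ι := fun e => if S e then src e else tgt e with ht2
  have hs : ∀ e, src' (ψ e) = φ (s2 e) := fun e => by
    by_cases h : S e
    · simp only [hs2, h, if_true]; exact ((hor e).resolve_left h).1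
    · simp only [hs2, h, if_false]; exact (not_not.1 h).1
  have ht : ∀ e, tgt' (ψ e) = φ (t2 e) := fun e => by
    by_cases h : S e
    · simp only [ht2, h, if_true]; exact ((hor e).resolve_left h).2
    · simp only [ht2, h, if_false]; exact (not_not.1 h).2
  have hG : ∀ x y, G src tgt b x y = G s2 t2 b x y := fun x y => by
    unfold G
    rw [hs2, ht2, cur_flip, cur_flip]
  refine ⟨fun hbb x y => ?_, fun hbb h0 x y => ?_⟩
  · rw [hG]
    exact cur_emb hφ hψ hs ht hb hb' hbb x y
  · rw [hG]
    have h1 : ∀ e', b' e' ≤ Function.extend ψ b 0 e' := fun e' => by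
      by_cases h : ∃ e, ψ e = e'
      · obtain ⟨e, rfl⟩ := h
        rw [hψ.extend_apply]
        exact hbb e
      · rw [Function.extend_apply' _ _ _ h]
        exact (h0 e' fun e he => h ⟨e, he⟩).le
    have h2 := cur_mono (src := src') (tgt := tgt') hb' h1
      (Pi.single (φ y) 1 - Pi.single (φ x) 1)
    rw [cur_extend hφ hψ hs ht (a := Pi.single y 1 - Pi.single x 1)
      (a' := Pi.single (φ y) 1 - Pi.single (φ x) 1) (fun v => by simp [Pi.single_apply, hφ.eq_iff])
      (fun v' h => by simp [Pi.single_apply, (h _).symm]),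
      cur_extend hφ hψ hs ht (a := 0) (a' := 0) (fun _ => rfl) fun _ _ => rfl] at h2
    unfold G
    rw [div_le_div_iff₀ (cur_zero_pos hb') (cur_zero_pos hb)]
    exact h2

namespace O18

/-- monotonicity of the two point function under lattice isometries -/
theorem tp_map {b : ℝ} (hb : 0 ≤ b) {V V' : Finset Pt} (g : Pt → Pt) (hg : Function.Injective g)
    (p : Fin 2 → Fin 2) (hp : Function.Injective p)
    (hd : ∀ i, (∀ u, g (u + latticeDir i) = g u + latticeDir (p i)) ∨
      ∀ u, g u = g (u + latticeDir i) + latticeDir (p i))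
    (hV : ∀ u ∈ V, g u ∈ V') (x y : V) (x' y' : V') (hx : (x' : Pt) = g x) (hy : (y' : Pt) = g y) :
    twoPoint 2 V (fun _ _ => b) x y ≤ twoPoint 2 V' (fun _ _ => b) x' y' := by
  classical
  set S : Fin 2 → Prop := fun i => ∀ u, g (u + latticeDir i) = g u + latticeDir (p i) with hS
  set φ : V → V' := fun u => ⟨g u, hV u u.2⟩ with hφ
  have hm : ∀ e : EF V, ((if S e.1.2 then g e.1.1 else g (e.1.1 + latticeDir e.1.2)), p e.1.2) ∈
      EF V' := fun e => by
    have h := mem_EF.1 e.2
    refine mem_EF.2 ?_
    by_cases hs : S e.1.2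
    · simp only [hs, if_true]
      exact ⟨hV _ h.1, by rw [← hs]; exact hV _ h.2⟩
    · simp only [hs, if_false]
      exact ⟨hV _ h.2, by rw [← (hd _).resolve_left hs]; exact hV _ h.1⟩
  set ψ : EF V → EF V' := fun e => ⟨_, hm e⟩ with hψ
  have e1 : x' = φ x := Subtype.ext hx
  have e2 : y' = φ y := Subtype.ext hy
  rw [twoPoint_eq, twoPoint_eq, e1, e2]
  have h1 : Function.Injective φ := fun u v h => Subtype.ext (hg (congrArg Subtype.val h))
  have h2 : Function.Injective ψ := fun u v h => by
    have h1 := congrArg Subtype.val h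
    simp only [hψ, Prod.mk.injEq] at h1
    have h3 := hp h1.2
    have h4 := h1.1
    rw [← h3] at h4
    refine Subtype.ext (Prod.ext ?_ h3)
    by_cases hs : S u.1.2
    · simp only [hs, if_true] at h4
      exact hg h4
    · simp only [hs, if_false] at h4
      exact add_right_cancel (hg h4)
  refine (embStmt V (EF V) V' (EF V') (sE V) (tE V) (sE V') (tE V') φ ψ (fun _ => b) (fun _ => b)
    h1 h2 (fun e => ?_) (fun _ => hb) (fun _ => hb)).1 (fun _ => le_rfl) x y
  by_cases hs : S e.1.2
  · left
    refine ⟨Subtype.ext ?_, Subtype.ext ?_⟩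
    · simp only [hψ, hφ, sE, hs, if_true]
    · simp only [hψ, hφ, tE, hs, if_true]
      exact (hs _).symm
  · right
    refine ⟨Subtype.ext ?_, Subtype.ext ?_⟩
    · simp only [hψ, hφ, sE, tE, hs, if_false]
    · simp only [hψ, hφ, sE, tE, hs, if_false]
      exact ((hd _).resolve_left hs _).symm

theorem exists_box (S : Finset Pt) (n : ℕ) : ∃ R : ℕ, n ≤ R ∧ ∀ u ∈ S, u ∈ latticeBox R := by
  refine ⟨n + S.sup fun u => u.1.natAbs + u.2.natAbs, Nat.le_add_right _ _, fun u hu => ?_⟩
  have h : u.1.natAbs + u.2.natAbs ≤ S.sup fun u => u.1.natAbs + u.2.natAbs :=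
    Finset.le_sup (f := fun u : Pt => u.1.natAbs + u.2.natAbs) hu
  rw [mem_box]
  omega

/-- two isometries, one the mirror image of the other -/
theorem core {b : ℝ} (hb : 0 < b) {C : ℕ → ℝ} (hC : Top.IsC b C) {V : Finset Pt} (x y : V) (d : ℕ)
    (g : Pt → Pt) (hg : Function.Injective g) (p : Fin 2 → Fin 2) (hp : Function.Injective p)
    (hd : ∀ i, (∀ u, g (u + latticeDir i) = g u + latticeDir (p i)) ∨
      ∀ u, g u = g (u + latticeDir i) + latticeDir (p i))
    (hx : g x = (0, 0)) (hy : (g y).1 = d) : twoPoint 2 V (fun _ _ => b) x y ^ 2 ≤ C (2 * d) := by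
  classical
  set r : Pt → Pt := fun u => (2 * d - u.1, u.2) with hr
  have hri : Function.Injective r := fun u v h => by
    simp only [hr, Prod.mk.injEq] at h
    exact Prod.ext (by omega) h.2
  obtain ⟨R, hR, hS⟩ := exists_box (V.image g ∪ V.image (r ∘ g)) (2 * d)
  have hg1 : ∀ u ∈ V, g u ∈ latticeBox R := fun u hu =>
    hS _ (mem_union_left _ (mem_image_of_mem _ hu))
  have hg2 : ∀ u ∈ V, (r ∘ g) u ∈ latticeBox R := fun u hu =>
    hS _ (mem_union_right _ (mem_image_of_mem _ hu))
  have hd2 : ∀ i, (∀ u, (r ∘ g) (u + latticeDir i) = (r ∘ g) u + latticeDir (p i)) ∨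
      ∀ u, (r ∘ g) u = (r ∘ g) (u + latticeDir i) + latticeDir (p i) := fun i => by
    have q0 : ∀ w : Pt, r w = r (w + (1, 0)) + (1, 0) := fun w =>
      Prod.ext (by simp only [hr, Prod.fst_add]; omega) (by simp only [hr, Prod.snd_add]; omega)
    have q1 : ∀ w : Pt, r (w + (0, 1)) = r w + (0, 1) := fun w =>
      Prod.ext (by simp only [hr, Prod.fst_add]; omega) (by simp only [hr, Prod.snd_add])
    by_cases h0 : p i = 0
    · have e0 : latticeDir (p i) = (1, 0) := by rw [h0]; rfl
      rw [e0]
      rcases hd i with h | h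
      · exact Or.inr fun u => by rw [Function.comp, Function.comp, h u, e0]; exact q0 _
      · refine Or.inl fun u => ?_
        rw [Function.comp, Function.comp, h u, e0]
        exact q0 _
    · have e0 : latticeDir (p i) = (0, 1) := if_neg h0
      rw [e0]
      rcases hd i with h | h
      · exact Or.inl fun u => by rw [Function.comp, Function.comp, h u, e0]; exact q1 _
      · refine Or.inr fun u => ?_
        rw [Function.comp, Function.comp, h u, e0]
        exact q1 _
  have m0 : ((0 : ℤ), (0 : ℤ)) ∈ latticeBox R := by rw [mem_box]; simp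
  have m2 : (((2 * d : ℕ) : ℤ), (0 : ℤ)) ∈ latticeBox R := by rw [mem_box]; simp only; omega
  have a1 := tp_map hb.le g hg p hp hd hg1 x y ⟨_, m0⟩ ⟨_, hg1 y y.2⟩ hx.symm rfl
  have a2 := tp_map hb.le (r ∘ g) (hri.comp hg) p hp hd2 hg2 y x ⟨_, hg1 y y.2⟩ ⟨_, m2⟩
    (by simp only [Function.comp, hr]; exact Prod.ext (by simp only; omega) rfl)
    (by simp only [Function.comp, hr, hx]; exact Prod.ext (by simp only; omega) rfl)
  rw [twoPoint_comm] at a2
  have a3 := twoPoint_super (V := latticeBox R) (b := fun _ _ => b) (fun _ _ => hb.le) ⟨_, m0⟩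
    ⟨_, hg1 y y.2⟩ ⟨_, m2⟩
  have a4 := box_le_C hb.le hC hR
  rw [xyBoxCorrelation, dif_pos hR] at a4
  have a0 := twoPoint_nonneg (V := V) (b := fun _ _ => b) (fun _ _ => hb.le) x y
  calc _ = twoPoint 2 V (fun _ _ => b) x y * twoPoint 2 V (fun _ _ => b) x y := pow_two _
    _ ≤ _ := mul_le_mul a1 a2 a0 (a0.trans a1)
    _ ≤ _ := a3
    _ ≤ _ := a4

end O18

open O18 in
theorem off2Stmt : Off2Stmt := by
  intro b C hb hC V x y d hd
  have sw : Function.Injective (![1, 0] : Fin 2 → Fin 2) := by decide
  rcases hd with h | h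
  · rcases le_total x.1.1 y.1.1 with h1 | h1
    · refine core hb hC x y d (fun u => (u.1 - x.1.1, u.2 - x.1.2)) (fun u v e => ?_) id
        Function.injective_id (fun i => Or.inl fun u => ?_) (by simp) ?_
      · simp only [Prod.mk.injEq] at e
        exact Prod.ext (by omega) (by omega)
      · simp only [id, Prod.fst_add, Prod.snd_add]
        exact Prod.ext (by simp only [Prod.fst_add]; omega) (by simp only [Prod.snd_add]; omega)
      · simp only
        rw [abs_of_nonpos (by omega)] at h
        omega
    · refine core hb hC x y d (fun u => (x.1.1 - u.1, u.2 - x.1.2)) (fun u v e => ?_) id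
        Function.injective_id (fun i => ?_) (by simp) ?_
      · simp only [Prod.mk.injEq] at e
        exact Prod.ext (by omega) (by omega)
      · fin_cases i
        · right
          intro u
          simp [latticeDir]
          omega
        · left
          intro u
          simp [latticeDir]
          omega
      · simp only
        rw [abs_of_nonneg (by omega)] at h
        omega
  · rcases le_total x.1.2 y.1.2 with h1 | h1
    · refine core hb hC x y d (fun u => (u.2 - x.1.2, u.1 - x.1.1)) (fun u v e => ?_) _ sw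
        (fun i => Or.inl fun u => ?_) (by simp) ?_
      · simp only [Prod.mk.injEq] at e
        exact Prod.ext (by omega) (by omega)
      · fin_cases i <;> simp [latticeDir] <;> omega
      · simp only
        rw [abs_of_nonpos (by omega)] at h
        omega
    · refine core hb hC x y d (fun u => (x.1.2 - u.2, u.1 - x.1.1)) (fun u v e => ?_) _ sw
        (fun i => ?_) (by simp) ?_
      · simp only [Prod.mk.injEq] at e
        exact Prod.ext (by omega) (by omega)
      · fin_cases i
        · left
          intro u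
          simp [latticeDir]
          omega
        · right
          intro u
          simp [latticeDir]
          omega
      · simp only
        rw [abs_of_nonneg (by omega)] at h
        omega

theorem offStmt : OffStmt := by
  intro b C m hb hL V x y s hs
  have hm := m_nonneg hb hL.hC hL.hm
  have key : ∀ d : ℕ, ((d : ℤ) = |x.1.1 - y.1.1| ∨ (d : ℤ) = |x.1.2 - y.1.2|) → s ≤ d →
      twoPoint 2 V (fun _ _ => b) x y ≤ Real.exp (-(m * s)) := fun d hd hsd => by
    have h1 := (off2Stmt b C hb hL.hC V x y d hd).trans (C_le_exp hb hL.hC hL.hm (2 * d))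
    have h2 : Real.exp (-(m * ((2 * d : ℕ) : ℝ))) ≤ Real.exp (-(m * s)) ^ 2 := by
      rw [← Real.exp_nat_mul]
      refine Real.exp_le_exp.2 ?_
      have : (s : ℝ) ≤ d := by exact_mod_cast hsd
      push_cast
      nlinarith
    exact le_of_sq_le_sq (h1.trans h2) (Real.exp_pos _).le
  rcases hs with h | h
  · exact key (x.1.1 - y.1.1).natAbs (Or.inl (Int.natCast_natAbs _))
      (by rw [← Int.natCast_natAbs] at h; exact_mod_cast h)
  · exact key (x.1.2 - y.1.2).natAbs (Or.inr (Int.natCast_natAbs _))
      (by rw [← Int.natCast_natAbs] at h; exact_mod_cast h)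

end Crest.Agent.T145.Mb
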