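import Crest.Agent.T145.MbDef_25
import Crest.Agent.T145.GeoA_51
import Crest.Agent.T145.MdlA_73
import Crest.Agent.T145.Api_98

/-!
# Row 145, module MB: gradients of the free box are the divergence free currents of the wired dual (helper56)
-/

set_option autoImplicit false

namespace Crest.Agent.T145.Mb

open Finset

namespace W56

theorem mem_ed {l : ℕ} {e : Pt × Pt} : e ∈ nnL.edI (sq 0 l) ↔
    (e.2 = e.1 + (1, 0) ∨ e.2 = e.1 + (0, 1)) ∧ e.1 ∈ sq (0 : Pt) l ∧ e.2 ∈ sq (0 : Pt) l := by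
  rw [Lat.mem_edI, show nnL.Jp = {(1, 0), (0, 1)} from xyL_Jp 1, mem_insert, mem_singleton,
    sub_eq_iff_eq_add', sub_eq_iff_eq_add']

/-- extension by zero -/
noncomputable def kx {l : ℕ} (k : Ed l → ℤ) (e : Pt × Pt) : ℤ :=
  if h : e ∈ nnL.edI (sq 0 l) then k ⟨e, h⟩ else 0

theorem kx_coe {l : ℕ} (k : Ed l → ℤ) (e : Ed l) : kx k e.1 = k e := dif_pos e.2

theorem sum_ite_kx {l : ℕ} (k : Ed l → ℤ) (e₀ : Pt × Pt) :
    ∑ e : Ed l, (if e.1 = e₀ then k e else 0) = kx k e₀ := by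
  by_cases h : e₀ ∈ nnL.edI (sq 0 l)
  · rw [sum_eq_single ⟨e₀, h⟩ (fun e _ he => if_neg fun h' => he (Subtype.ext h')) (by simp),
      if_pos rfl, kx, dif_pos h]
  · rw [kx, dif_neg h]
    exact sum_eq_zero fun e _ => if_neg fun h' : e.1 = e₀ => h (h' ▸ e.2)

theorem pl_eq_some {l : ℕ} {p q : Pt} (hp : p ∈ sq (0 : Pt) (l - 1)) :
    pl l q = some ⟨p, hp⟩ ↔ q = p := by
  unfold pl
  split_ifs with h
  · simp
  · exact iff_of_false (by simp) fun h' => h (h' ▸ hp)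

theorem ws_iff {l : ℕ} (e : Ed l) {p : Pt} (hp : p ∈ sq (0 : Pt) (l - 1)) :
    ws l e = some ⟨p, hp⟩ ↔
      e.1 = (p, p + (1, 0)) ∨ e.1 = (p + (1, 0), p + (1, 0) + (0, 1)) := by
  have h1 := (mem_ed.1 e.2).1
  unfold ws
  split_ifs with h <;> rw [pl_eq_some] <;>
    simp only [Prod.ext_iff, Prod.fst_add, Prod.snd_add, Prod.fst_sub, Prod.snd_sub] at h h1 ⊢ <;>
    omega

theorem wg_iff {l : ℕ} (e : Ed l) {p : Pt} (hp : p ∈ sq (0 : Pt) (l - 1)) :
    wg l e = some ⟨p, hp⟩ ↔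
      e.1 = (p + (0, 1), p + (0, 1) + (1, 0)) ∨ e.1 = (p, p + (0, 1)) := by
  have h1 := (mem_ed.1 e.2).1
  unfold wg
  split_ifs with h <;> rw [pl_eq_some] <;>
    simp only [Prod.ext_iff, Prod.fst_add, Prod.snd_add, Prod.fst_sub, Prod.snd_sub] at h h1 ⊢ <;>
    omega

theorem ite_or' {α : Type*} [DecidableEq α] {u a b : α} (hab : a ≠ b) {P : Prop} [Decidable P]
    (h : P ↔ u = a ∨ u = b) (x : ℤ) :
    (if P then x else 0) = (if u = a then x else 0) + if u = b then x else 0 := by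
  by_cases h1 : u = a <;> by_cases h2 : u = b
  · exact absurd (h1.symm.trans h2) hab
  all_goals simp [h, h1, h2, hab, hab.symm]

/-- the divergence at a plaquette is the circulation around it -/
theorem dv_some {l : ℕ} (k : Ed l → ℤ) {p : Pt} (hp : p ∈ sq (0 : Pt) (l - 1)) :
    Xy48.dv (ws l) (wg l) k (some ⟨p, hp⟩) =
      kx k (p, p + (1, 0)) + kx k (p + (1, 0), p + (1, 0) + (0, 1)) -
        (kx k (p + (0, 1), p + (0, 1) + (1, 0)) + kx k (p, p + (0, 1))) := by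
  rw [← sum_ite_kx, ← sum_ite_kx, ← sum_ite_kx, ← sum_ite_kx, ← sum_add_distrib,
    ← sum_add_distrib, ← sum_sub_distrib, Xy48.dv]
  refine sum_congr rfl fun e _ => ?_
  rw [ite_or' (by simp [Prod.ext_iff]) (ws_iff e hp), ite_or' (by simp [Prod.ext_iff]) (wg_iff e hp)]

theorem plaq {l : ℕ} {p : Pt} (hp : p ∈ sq (0 : Pt) (l - 1)) :
    (p, p + (1, 0)) ∈ nnL.edI (sq 0 l) ∧ (p + (1, 0), p + (1, 0) + (0, 1)) ∈ nnL.edI (sq 0 l) ∧
      (p + (0, 1), p + (0, 1) + (1, 0)) ∈ nnL.edI (sq 0 l) ∧ (p, p + (0, 1)) ∈ nnL.edI (sq 0 l) := by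
  simp only [mem_ed, mem_sq, Prod.fst_add, Prod.snd_add, Prod.fst_zero, Prod.snd_zero, true_or,
    or_true, true_and] at hp ⊢
  omega

theorem dv_eq_zero {l : ℕ} {k : Ed l → ℤ}
    (h : ∀ p hp, Xy48.dv (ws l) (wg l) k (some ⟨p, hp⟩) = 0) : Xy48.dv (ws l) (wg l) k = 0 := by
  funext v
  rcases v with _ | ⟨p, hp⟩
  · have := Xy48.sum_dv (src := ws l) (tgt := wg l) k
    rwa [Fintype.sum_option, sum_eq_zero fun p _ => h p.1 p.2, add_zero] at this
  · exact h p hp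

theorem dv_grad (l : ℕ) (s : Cfg Pt) : Xy48.dv (ws l) (wg l) (fun e => dE e.1 s) = 0 :=
  dv_eq_zero fun p hp => by
    obtain ⟨h1, h2, h3, h4⟩ := plaq hp
    rw [dv_some, kx, kx, kx, kx, dif_pos h1, dif_pos h2, dif_pos h3, dif_pos h4]
    simp only [dE, add_right_comm p (0, 1) (1, 0)]
    ring

theorem grad_inj {l : ℕ} (hl : 1 ≤ l) {s t : Cfg Pt}
    (hs : ∀ x, x ∉ (sq (0 : Pt) l).erase 0 → s x = 0)
    (ht : ∀ x, x ∉ (sq (0 : Pt) l).erase 0 → t x = 0)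
    (h : ∀ e : Ed l, dE e.1 s = dE e.1 t) : s = t := by
  ext x
  by_cases hx : x ∈ sq (0 : Pt) l
  · have h0 : (0 : Pt) ∈ sq (0 : Pt) l := by rw [mem_sq]; simp only [Prod.fst_zero, Prod.snd_zero]; omega
    refine Md.conn_ind (P := fun v => s v = t v) (fun e he => ?_)
      ((xyL_ok one_pos).conn_sq h0 hx) (by rw [hs 0 (by simp), ht 0 (by simp)])
    have := h ⟨e, he⟩
    simp only [dE] at this
    omega
  · rw [hs x fun h' => hx (mem_of_mem_erase h'), ht x fun h' => hx (mem_of_mem_erase h')]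

/-- the potential of a current -/
noncomputable def pot {l : ℕ} (k : Ed l → ℤ) (i j : ℕ) : ℤ :=
  ∑ a ∈ range i, kx k (((a : ℤ), 0), ((a : ℤ) + 1, 0)) +
    ∑ c ∈ range j, kx k (((i : ℤ), (c : ℤ)), ((i : ℤ), (c : ℤ) + 1))

theorem pot_up {l : ℕ} (k : Ed l → ℤ) (i j : ℕ) :
    pot k i (j + 1) - pot k i j = kx k (((i : ℤ), (j : ℤ)), ((i : ℤ), (j : ℤ) + 1)) := by
  simp only [pot, sum_range_succ]; ring

theorem pot_right {l : ℕ} {k : Ed l → ℤ} (hk : Xy48.dv (ws l) (wg l) k = 0) {i : ℕ}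
    (hi : i + 1 < l) (j : ℕ) (hj : j < l) :
    pot k (i + 1) j - pot k i j = kx k (((i : ℤ), (j : ℤ)), ((i : ℤ) + 1, (j : ℤ))) := by
  induction j with
  | zero => simp [pot, sum_range_succ]
  | succ j ih =>
    have hp : (((i : ℤ), (j : ℤ)) : Pt) ∈ sq (0 : Pt) (l - 1) := by
      rw [mem_sq]; simp only [Prod.fst_zero, Prod.snd_zero]; omega
    have h1 := dv_some k hp
    have h2 := pot_up k i j
    have h3 := pot_up k (i + 1) j
    have h4 := ih (by omega)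
    rw [hk] at h1
    simp only [Prod.mk_add_mk, add_zero, Pi.zero_apply] at h1
    push_cast at h3 ⊢
    omega

theorem exists_grad {l : ℕ} {k : Ed l → ℤ} (hk : Xy48.dv (ws l) (wg l) k = 0) :
    ∃ s : Cfg Pt, (∀ x, x ∉ (sq (0 : Pt) l).erase 0 → s x = 0) ∧ (fun e : Ed l => dE e.1 s) = k := by
  refine ⟨Finsupp.onFinset (sq 0 l)
    (fun x => if x ∈ sq (0 : Pt) l then pot k x.1.toNat x.2.toNat else 0)
    fun x hx => by by_contra h; exact hx (if_neg h), fun x hx => ?_, funext fun e => ?_⟩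
  · rw [Finsupp.onFinset_apply]
    split_ifs with h
    · have : x = 0 := by by_contra h0; exact hx (mem_erase.2 ⟨h0, h⟩)
      subst this
      simp [pot]
    · rfl
  · rw [← kx_coe k e]
    obtain ⟨⟨⟨a, b⟩, y⟩, he⟩ := e
    obtain ⟨h1, h2, h3⟩ := mem_ed.1 he
    simp only [dE, Finsupp.onFinset_apply] at h2 h3 ⊢
    rw [if_pos h2, if_pos h3]
    rw [mem_sq] at h2 h3
    simp only [Prod.fst_zero, Prod.snd_zero] at h1 h2 h3
    obtain ⟨i, rfl⟩ := Int.eq_ofNat_of_zero_le h2.1.1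
    obtain ⟨j, rfl⟩ := Int.eq_ofNat_of_zero_le h2.2.1
    rcases h1 with rfl | rfl
    · simp only [Prod.mk_add_mk, add_zero] at h3 ⊢
      rw [← pot_right hk (by omega) j (by omega)]
      simp
    · simp only [Prod.mk_add_mk, add_zero] at h3 ⊢
      rw [← pot_up]
      simp

theorem WN_eq (b : ℝ) (l : ℕ) (s : Cfg Pt) : (xyL b).WN l s =
    ind (∀ x, x ∉ (sq (0 : Pt) l).erase 0 → s x = 0) *
      Xy48.wt (fun _ : Ed l => b) fun e => dE e.1 s := by
  rw [Xy48.wt, prod_coe_sort (nnL.edI (sq 0 l)) fun e => Xy48.besI b (dE e s)]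
  simp only [Lat.WN, Lat.Nr, Lat.N, Mdl.W, Mdl.free, prod_const_one, mul_one]
  rfl

end W56

open W56 in
theorem wirStmt : WirStmt := by
  intro b l hl F
  let S : Set (Cfg Pt) := {s | ∀ x, x ∉ (sq (0 : Pt) l).erase 0 → s x = 0}
  let i : S → Ed l → ℤ := fun s e => dE e.1 s.1
  have hi : Function.Injective i := fun s t h =>
    Subtype.ext (grad_inj hl s.2 t.2 fun e => congrFun h e)
  rw [← hi.tsum_eq (f := fun k => ind (Xy48.dv (ws l) (wg l) k = 0) * Xy48.wt (fun _ => b) k * F k)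
    fun k hk => by
      obtain ⟨s, hs, rfl⟩ := exists_grad
        (ind_ne_zero.1 (left_ne_zero_of_mul (left_ne_zero_of_mul hk)))
      exact ⟨⟨s, hs⟩, rfl⟩,
    ← tsum_subtype_eq_of_support_subset (s := S) fun s hs => by
      rw [Function.mem_support, WN_eq] at hs
      exact ind_ne_zero.1 (left_ne_zero_of_mul (left_ne_zero_of_mul hs))]
  refine tsum_congr fun s => ?_
  have h1 : ∀ x, x ∉ (sq (0 : Pt) l).erase 0 → s.1 x = 0 := s.2
  rw [WN_eq, ind_pos h1, ind_pos (dv_grad l s.1)]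

end Crest.Agent.T145.Mb
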