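import Crest.Agent.T145.MbTop_25
import Crest.Agent.T145.MbBad_25
import Crest.Agent.T145.MbLieb_48
import Crest.Agent.T145.MbOff_18
import Crest.Agent.T145.MbCov_30
import Crest.Agent.T145.MbWir_56
import Crest.Agent.T145.MbDec_93

/-!
# Row 145, module MB (helper25): assembly
-/

set_option autoImplicit false

namespace Crest.Agent.T145.Mb

/-- **P5** -/
theorem p5 (ha : T1aStmt) (hd : T1dStmt) (hm : T1mStmt) (h2 : T2Stmt) (hS : Step2Stmt) :
    Top.MassLoStmt :=
  massLoStmt hm hd (exitGStmt hS hd (badGStmt_25 ha hd h2) y0Stmt_25) massStmt off2Stmt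

theorem dec : DecStmt := decStmt liebStmt embStmt offStmt

/-- **P4** from the variance estimate -/
theorem p4_of (h : CovStmt → WirStmt → DecStmt → LowStmt) : Top.MassUpStmt :=
  massUpStmt (h covStmt wirStmt dec)

end Crest.Agent.T145.Mb
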