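import Crest.Agent.T145.MbDef_25
import Crest.Agent.T145.GffDef2_8
import Crest.Agent.T145.TopDef_76

/-!
# Row 145, module MB (helper25): additional Props
-/

set_option autoImplicit false

namespace Crest.Agent.T145.Mb

open Finset Filter Topology Crest.ProbabilityR.SpinModel

/-- OFF2: off-axis correlations are bounded by the axis correlation (Griffiths + reflection) -/
def Off2Stmt : Prop := ∀ (b : ℝ) (C : ℕ → ℝ), 0 < b → Top.IsC b C → ∀ (V : Finset Pt) (x y : V) (d : ℕ),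
  ((d : ℤ) = |x.1.1 - y.1.1| ∨ (d : ℤ) = |x.1.2 - y.1.2|) →
    twoPoint 2 V (fun _ _ => b) x y ^ 2 ≤ C (2 * d)

/-- MASS: finite-size criterion for the mass (Simon's inequality) -/
def MassStmt : Prop := ∀ (b : ℝ) (C : ℕ → ℝ) (m : ℝ), 0 < b → Lim b C m → ∀ (L : ℕ) (ε : ℝ),
  (∀ (V : Finset Pt) (x y : V), ((L : ℤ) = |x.1.1 - y.1.1| ∨ (L : ℤ) = |x.1.2 - y.1.2|) →
    twoPoint 2 V (fun _ _ => b) x y ≤ ε) → 4 * b * (2 * L + 1) * ε ≤ 1 →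
    Real.log 2 / ((L : ℝ) + 1) ≤ m

/-- U: a small stiffness at one scale gives a fast power law beyond it -/
def UStmt : Prop := ∀ b₂ η : ℝ, ∃ (κ : ℝ) (l₀ : ℕ) (K : ℝ), 0 < κ ∧ 0 < K ∧ ∀ b, 0 < b → b ≤ b₂ →
  ∀ l : ℕ, l₀ ≤ l → (xyL b).gN l ≤ κ → ∀ r R : ℕ, 1 ≤ r → r ≤ R →
    Zs (((xyL b).D (faces R)).Ws 0 (seam r)) / Zs (((xyL b).D (faces R)).W 0) ≤ K * ((l : ℝ) / r) ^ η

/-- BADG: only boundedly many stiff dyadic scales carry a non-small charge -/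
def BadGStmt : Prop := ∀ (F : Fa) (q₀ : ℕ) (c θ₀ : ℝ), 0 < c → 0 < θ₀ → ∃ N i₀ : ℕ, ∀ Λ, F.Mem Λ →
  ∀ S : Finset ℕ, (∀ i ∈ S, i₀ ≤ i ∧ θ₀ ≤ Λ.tN (2 ^ (i + 1)) ∧
    ∃ q : ℤ, 1 ≤ q ∧ q ≤ q₀ ∧ c ≤ Λ.aq (2 ^ i) q) → S.card ≤ N

/-- EXITG: the stiffness is small at the scale `l ^ (1 + ε)` -/
def ExitGStmt : Prop := ∀ (F : Fa) (ε₀ ε κ : ℝ), 0 < ε₀ → 0 < ε → 0 < κ →
  ∃ (ε₁ : ℝ) (j₀ : ℕ), 0 < ε₁ ∧ ∀ j₁, j₀ ≤ j₁ → ∃ j₂ : ℕ, ∀ Λ, F.Mem Λ → ∀ j, j₂ ≤ j →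
    Λ.gN (2 ^ j₁) ≤ 2 / Real.pi + ε₁ → Λ.gN (2 ^ j) ≤ 2 / Real.pi - ε₀ →
      ∃ i : ℕ, j₁ ≤ i ∧ (i : ℝ) ≤ (1 + ε) * j ∧ Λ.gN (2 ^ i) ≤ κ

end Crest.Agent.T145.Mb
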