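import Crest.Agent.T145.MbDef2_25
import Crest.Agent.T145.T5_11

/-!
# Row 145, module MB (helper25): the quantitative exit
-/

set_option autoImplicit false

namespace Crest.Agent.T145.Mb

open Finset Filter Topology

theorem drift (u φ : ℕ → ℝ) (bad : ℕ → Prop) [DecidablePred bad] (B : ℝ) (T : ℕ)
    (h : ∀ t < T, u t + (φ (t + 1) - φ t) - (if bad t then B else 0) ≤ u (t + 1)) :
    u 0 + φ T - φ 0 - B * ((range T).filter bad).card ≤ u T := by
  induction T with
  | zero => simp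
  | succ T ih =>
    have h1 := ih fun t ht => h t (by omega)
    have h2 := h T (by omega)
    rw [range_add_one, filter_insert]
    split_ifs at h2 ⊢ with hb
    · rw [card_insert_of_notMem (by simp)]
      push_cast
      linarith
    · linarith

/-- an upper bound of the lengths of the family -/
noncomputable def tm (F : Fa) : ℝ := max F.τ₁ F.τ₂

theorem tm_pos (F : Fa) : 0 < tm F := F.pos.trans_le (le_max_left _ _)

theorem le_tm {F : Fa} {Λ : Lat} (h : F.Mem Λ) : Λ.τ ≤ tm F := h.2.2.2.trans (le_max_right _ _)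

theorem gN_le_of {F : Fa} {Λ : Lat} (h : F.Mem Λ) {l L : ℕ} {ε : ℝ} (hε : 0 ≤ ε)
    (H : Λ.tN L ≤ Λ.tN l + ε / tm F) : Λ.gN L ≤ Λ.gN l + ε := by
  have h0 := T511.e0_pos (T511.mem_ok h)
  have h1 := (T511.inv_e0_le (T511.mem_ok h)).trans (le_tm h)
  have h2 := tm_pos F
  have h3 : ε / tm F ≤ ε * Λ.e0 := by
    rw [div_le_iff₀ h2]
    rw [div_le_iff₀ h0] at h1
    nlinarith
  rw [Lat.gN, Lat.gN, div_add' _ _ _ h0.ne', div_le_div_iff_of_pos_right h0]
  linarith

theorem le_tN_of {F : Fa} {Λ : Lat} (h : F.Mem Λ) {l : ℕ} {κ : ℝ} (hκ : 0 ≤ κ)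
    (H : κ ≤ Λ.gN l) : κ / tm F ≤ Λ.tN l := by
  have h0 := T511.e0_pos (T511.mem_ok h)
  have h1 := (T511.inv_e0_le (T511.mem_ok h)).trans (le_tm h)
  have h2 := tm_pos F
  rw [Lat.gN, le_div_iff₀ h0] at H
  rw [div_le_iff₀ h0] at h1
  refine le_trans ?_ H
  rw [div_le_iff₀ h2]
  nlinarith

set_option maxHeartbeats 2000000 in
theorem exitGStmt (hS : Step2Stmt) (hd : T1dStmt) (hB : BadGStmt) (hY : Y0Stmt) : ExitGStmt := by
  classical
  intro F ε₀ ε κ hε₀ hε hκ
  set η : ℝ := ε * ε₀ / 2 with hη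
  have hη0 : 0 < η := by positivity
  obtain ⟨k₀, H1⟩ := hS F (min (ε₀ / 2) (η / 2)) (by positivity)
  obtain ⟨q₀, l₀, c, hc, H2⟩ := H1 (k₀ + 1) (by omega)
  set k := k₀ + 1 with hk
  obtain ⟨N, i₀, H3⟩ := hB F q₀ c (κ / tm F) hc (div_pos hκ (tm_pos F))
  obtain ⟨l₁, H4⟩ := hd.2.1 F (min (η / 16) (ε₀ / 2) / tm F) (div_pos (by positivity) (tm_pos F))
  refine ⟨η / 16, i₀ + l₀ + l₁, by positivity, fun j₁ hj₁ => ?_⟩
  obtain ⟨y, hy, H5⟩ := hY F (2 ^ j₁) Nat.one_le_two_pow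
  have hl2 : 0 < Real.log 2 := Real.log_pos one_lt_two
  set B : ℝ := |Real.log c| + Real.log 2 * (ε₀ * k) with hBd
  have hB0 : 0 ≤ B := by positivity
  obtain ⟨j₂, hj₂⟩ := exists_nat_gt
    (((B * N - Real.log y) / Real.log 2 + ε₀ * (j₁ + 1 + k) + (ε₀ + η) * k) / η)
  refine ⟨j₂ + j₁ + 1, fun Λ hΛ j hj g1 g2 => ?_⟩
  by_contra hn
  push Not at hn
  have hpow : ∀ i, j₁ ≤ i → l₀ ≤ 2 ^ i ∧ l₁ ≤ 2 ^ i := fun i hi => by
    have := (Nat.lt_two_pow_self (n := i)).le
    omega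
  have mono : ∀ i i', j₁ ≤ i → i ≤ i' → Λ.gN (2 ^ i') ≤ Λ.gN (2 ^ i) + min (η / 16) (ε₀ / 2) :=
    fun i i' hi hii => by
      refine gN_le_of hΛ (by positivity) ?_
      have := H4 Λ hΛ (2 ^ i) (2 ^ (i' - i)) (hpow i hi).2 Nat.one_le_two_pow
      rwa [← pow_add, Nat.sub_add_cancel hii] at this
  have hk0 : (0 : ℝ) < k := by rw [hk]; positivity
  have hjr : (j₁ : ℝ) + 1 ≤ j := by exact_mod_cast (by omega : j₁ + 1 ≤ j)
  have hx : 0 ≤ ((1 + ε) * j - j₁ - 1) / k := by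
    refine div_nonneg ?_ hk0.le
    nlinarith [(Nat.cast_nonneg j : (0 : ℝ) ≤ j)]
  set T : ℕ := ⌊((1 + ε) * j - j₁ - 1) / k⌋₊ with hT
  have hT1 : (T : ℝ) * k ≤ (1 + ε) * j - j₁ - 1 := (le_div_iff₀ hk0).1 (Nat.floor_le hx)
  have hT2 : (1 + ε) * j - j₁ - 1 < (T + 1) * k := (div_lt_iff₀ hk0).1 (Nat.lt_floor_add_one _)
  set bad : ℕ → Prop := fun t => ∃ q : ℤ, 1 ≤ q ∧ q ≤ q₀ ∧ c ≤ Λ.aq (2 ^ (j₁ + t * k)) q with hbad
  have hcard : (((range T).filter bad).card : ℝ) ≤ N := by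
    have hi : Function.Injective fun t : ℕ => j₁ + t * k := fun a b h => by
      simp only [add_right_inj] at h
      exact Nat.eq_of_mul_eq_mul_right (by omega) h
    have h1 := H3 Λ hΛ (((range T).filter bad).image fun t => j₁ + t * k) fun i hi => by
      obtain ⟨t, ht, rfl⟩ := mem_image.1 hi
      obtain ⟨ht1, ht2⟩ := mem_filter.1 ht
      refine ⟨by omega, le_tN_of hΛ hκ.le (hn _ (by omega) ?_).le, ht2⟩
      have h2 : (t : ℝ) ≤ T := by exact_mod_cast (mem_range.1 ht1).le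
      push_cast
      nlinarith
    rw [card_image_of_injective _ hi] at h1
    exact_mod_cast h1
  set u : ℕ → ℝ := fun t => Real.log (Λ.Y (2 ^ (j₁ + t * k))) with hu
  set φ : ℕ → ℝ := fun t => Real.log 2 * (ε₀ * (t * k) - (ε₀ + η) * min ((t : ℝ) * k) (j + k)) with hφ
  have hpi1 := Real.pi_gt_three
  have hpi2 := Real.pi_lt_four
  have key := drift u φ bad B T fun t _ => by
    obtain ⟨a1, -, a3, a4⟩ := H2 Λ hΛ (2 ^ (j₁ + t * k)) (hpow _ (by omega)).1
    have e1 : 2 ^ k * 2 ^ (j₁ + t * k) = 2 ^ (j₁ + (t + 1) * k) := by rw [← pow_add]; congr 1; ring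
    rw [e1] at a3 a4
    have d1 : φ (t + 1) - φ t ≤ Real.log 2 * (ε₀ * k) := by
      simp only [hφ]
      rw [← mul_sub]
      refine mul_le_mul_of_nonneg_left ?_ hl2.le
      have : min ((t : ℝ) * k) (j + k) ≤ min (((t + 1 : ℕ) : ℝ) * k) (j + k) :=
        min_le_min_right _ (by push_cast; nlinarith)
      push_cast at this ⊢
      nlinarith
    split_ifs with hb
    · have h1 := Real.log_le_log (mul_pos hc a1) a3
      rw [Real.log_mul hc.ne' a1.ne'] at h1
      have h2 := neg_abs_le (Real.log c)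
      simp only [hu]
      linarith
    · have h1 := a4.resolve_right hb
      have h2 := Real.log_le_log (mul_pos (Real.rpow_pos_of_pos (by positivity) _) a1) h1
      rw [Real.log_mul (Real.rpow_pos_of_pos (by positivity) _).ne' a1.ne',
        Real.log_rpow (by positivity), Real.log_pow] at h2
      have m1 := min_le_left (ε₀ / 2) (η / 2)
      have m2 := min_le_right (ε₀ / 2) (η / 2)
      have m3 := min_le_left (η / 16) (ε₀ / 2)
      have m4 := min_le_right (η / 16) (ε₀ / 2)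
      have hp : Real.pi * (2 / Real.pi) = 2 := by field_simp
      have hkl : 0 < (k : ℝ) * Real.log 2 := mul_pos hk0 hl2
      simp only [hu, sub_zero]
      by_cases hlt : j₁ + t * k < j
      · have g3 := mono j₁ (j₁ + t * k) le_rfl (by omega)
        have g4 : Real.pi * Λ.gN (2 ^ (j₁ + t * k)) ≤ Real.pi * (2 / Real.pi + η / 8) :=
          mul_le_mul_of_nonneg_left (by linarith) Real.pi_pos.le
        have g5 : -η ≤ 2 - Real.pi * Λ.gN (2 ^ (j₁ + t * k)) - min (ε₀ / 2) (η / 2) := by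
          nlinarith
        have d2 : φ (t + 1) - φ t = -η * (k * Real.log 2) := by
          have h3 : (t : ℝ) * k ≤ j := by exact_mod_cast (by omega : t * k ≤ j)
          simp only [hφ]
          push_cast
          rw [min_eq_left (by nlinarith), min_eq_left (by nlinarith)]
          ring
        nlinarith
      · have g3 := mono j (j₁ + t * k) (by omega) (by omega)
        have g4 : Real.pi * Λ.gN (2 ^ (j₁ + t * k)) ≤ Real.pi * (2 / Real.pi - ε₀ / 2) :=
          mul_le_mul_of_nonneg_left (by linarith) Real.pi_pos.le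
        have g5 : ε₀ ≤ 2 - Real.pi * Λ.gN (2 ^ (j₁ + t * k)) - min (ε₀ / 2) (η / 2) := by
          nlinarith
        nlinarith
  have uT : u T ≤ 0 := by
    obtain ⟨a1, a2, -⟩ := H2 Λ hΛ (2 ^ (j₁ + T * k)) (hpow _ (by omega)).1
    exact Real.log_nonpos a1.le a2
  have u0 : Real.log y ≤ u 0 := by
    simp only [hu, zero_mul, add_zero]
    exact Real.log_le_log hy (H5 Λ hΛ)
  have φ0 : φ 0 = 0 := by
    simp only [hφ, Nat.cast_zero, zero_mul]
    rw [min_eq_left (by positivity)]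
    ring
  have φT : Real.log 2 * (η * j - ε₀ * (j₁ + 1 + k) - (ε₀ + η) * k) ≤ φ T := by
    refine mul_le_mul_of_nonneg_left ?_ hl2.le
    have h1 := min_le_right ((T : ℝ) * k) (j + k)
    have h2 := mul_le_mul_of_nonneg_left h1 (by positivity : 0 ≤ ε₀ + η)
    have h3 := mul_le_mul_of_nonneg_left hT2.le hε₀.le
    nlinarith
  have hj' : (j₂ : ℝ) ≤ j := by exact_mod_cast (by omega : j₂ ≤ j)
  rw [div_lt_iff₀ hη0] at hj₂
  have h1 : (B * N - Real.log y) / Real.log 2 < η * j - ε₀ * (j₁ + 1 + k) - (ε₀ + η) * k := by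
    nlinarith
  rw [div_lt_iff₀ hl2] at h1
  have h2 := mul_le_mul_of_nonneg_left hcard hB0
  linarith

end Crest.Agent.T145.Mb
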