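import Crest.Agent.T145.Sq_46
import Crest.Agent.T145.GffDef_8

/-!
# Row 145 (helper46): (U) small stiffness at one scale gives a fast power decay of the seam ratio
-/

set_option autoImplicit false
set_option linter.unusedSectionVars false

namespace Crest.Agent.T145.Sl46

open Finset

theorem fl_single {V : Type} [DecidableEq V] (ed : Finset (V × V)) (φ : V × V → ℝ) (x : V) :
    fl ed φ (Finsupp.single x 1) = dv ed φ x := by
  rw [fl_apply, dv]
  refine sum_congr rfl fun e _ => ?_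
  rw [dE_cast, Finsupp.single_apply, Finsupp.single_apply, ind, ind]
  simp only [eq_comm (a := x)]
  congr 2 <;> split_ifs <;> simp

theorem pr_dv {V : Type} [DecidableEq V] (ed : Finset (V × V)) (φ : V × V → ℝ) :
    pr (dv ed φ) = fl ed φ := by
  rw [eq_pr (fl ed φ)]
  simp only [fl_single]

theorem pr_Au (Λ : Lat) (D : Finset Pt) (u : Pt → ℝ) : pr (Λ.Au D u) = Λ.τ⁻¹ • X Λ D u := by
  rw [Lat.Au, pr_dv, X, ← fl_smul]
  exact fl_congr fun e _ => by rw [gd, div_eq_inv_mul]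

/-- `K_N` in the units of `GffDef_8` -/
theorem KN_eq {Λ : Lat} (hΛ : Λ.Ok) (l : ℕ) : KN Λ l = Λ.a ^ 2 * Λ.gN l := by
  have e : co 0 = lin (1, 0) := funext fun x => by simp [co, lin]
  have h1 := hΛ.pos.ne'
  have h2 : Λ.a ≠ 0 := (one_pos.trans_le hΛ.one_le_a).ne'
  rw [KN, Lat.gN, Lat.tN, Lat.X, pr_Au, Vr_smul_left, Vr_smul_right, e, Lat.WN, Lat.e0]
  rcases eq_or_ne (l : ℝ) 0 with h | h
  · simp [h]
  · field_simp

theorem KN_xy {b : ℝ} (hb : 0 < b) (l : ℕ) : KN (xyL b) l = (xyL b).gN l := by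
  rw [KN_eq (xyL_ok hb), xyL_a, one_pow, one_mul]

/-- every free site can move in the direction `y` -/
theorem anch_dir {m : Mdl Pt} {y : Pt} (hy : y ≠ 0)
    (h : ∀ x ∈ m.A, (x, x + y) ∈ m.ed ∨ (x + y, x) ∈ m.ed) : m.Anch := by
  have key : ∀ (k : ℕ) (x : Pt), x + k • y ∉ m.A → ∃ z, Conn m.ed x z ∧ z ∉ m.A := by
    intro k
    induction k with
    | zero => exact fun x hx => ⟨x, Conn.refl _ _, by simpa using hx⟩
    | succ k ih =>
      intro x hx
      by_cases hA : x ∈ m.A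
      · obtain ⟨z, h1, h2⟩ := ih (x + y) (by rwa [add_assoc, ← succ_nsmul'])
        exact ⟨z, Relation.ReflTransGen.head (h x hA) h1, h2⟩
      · exact ⟨x, Conn.refl _ _, hA⟩
  intro x _
  obtain ⟨k, hk⟩ : ∃ k : ℕ, x + k • y ∉ m.A := by
    by_contra hc
    push Not at hc
    exact Set.infinite_of_injective_forall_mem (s := (m.A : Set Pt)) (f := fun k : ℕ => x + k • y)
      (fun k k' e => Nat.cast_injective (R := ℤ) (smul_left_injective ℤ hy (by
        simpa only [natCast_zsmul] using add_left_cancel (a := x) e))) hc m.A.finite_toSet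
  obtain ⟨z, h1, h2⟩ := key k x hk
  exact ⟨z, h1, Or.inl h2⟩

theorem mem_xy {b : ℝ} {y : Pt} : y ∈ (xyL b).Jp ↔ y = (1, 0) ∨ y = (0, 1) := by
  rw [xyL_Jp, mem_insert, mem_singleton]

theorem edge_xy {b : ℝ} {e : Pt × Pt} (h : e.2 - e.1 ∈ (xyL b).Jp) :
    e = (e.1, e.1 + (1, 0)) ∨ e = (e.1, e.1 + (0, 1)) :=
  (mem_xy.1 h).imp (fun h => Prod.ext rfl (sub_eq_iff_eq_add'.1 h))
    fun h => Prod.ext rfl (sub_eq_iff_eq_add'.1 h)

/-- rotated gradient of a function on the primal lattice -/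
def rot (F : Pt → ℝ) (e : Pt × Pt) : ℝ :=
  (((e.2.2 - e.1.2) - (e.2.1 - e.1.1) : ℤ) : ℝ) * (F (e.1 + (1, 1)) - F e.2)

theorem rot_h (F : Pt → ℝ) (x : Pt) : rot F (x, x + (1, 0)) = F (x + (1, 0)) - F (x + (1, 1)) := by
  simp [rot]

theorem rot_v (F : Pt → ℝ) (x : Pt) : rot F (x, x + (0, 1)) = F (x + (1, 1)) - F (x + (0, 1)) := by
  simp [rot]

/-- a rotated gradient is divergence free -/
theorem fl_rot (b : ℝ) (D : Finset Pt) (F : Pt → ℝ) {s : Cfg Pt} (hs : ∀ x, x ∉ D → s x = 0) :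
    fl ((xyL b).edT D) (rot F) s = 0 := by
  rw [← pr_dv, pr_of_zero _ _ hs]
  refine sum_eq_zero fun z hz => mul_eq_zero_of_left ?_ _
  have h1 : ∀ (y : Pt), y = (1, 0) ∨ y = (0, 1) → (z, z + y) ∈ (xyL b).edT D ∧
      (z - y, z) ∈ (xyL b).edT D := fun y hy =>
    ⟨Lat.mem_edT.2 ⟨mem_xy.2 (by simpa using hy), Or.inl hz⟩,
      Lat.mem_edT.2 ⟨mem_xy.2 (by simpa using hy), Or.inr hz⟩⟩
  have h2 : ∑ e ∈ (xyL b).edT D, rot F e * ind (e.1 = z) =
      rot F (z, z + (1, 0)) + rot F (z, z + (0, 1)) := by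
    rw [sum_eq_add_of_mem _ _ (h1 _ (Or.inl rfl)).1 (h1 _ (Or.inr rfl)).1 (by simp), ind_pos rfl,
      mul_one, mul_one]
    intro e he hne
    rw [ind_neg, mul_zero]
    rintro rfl
    exact (edge_xy (Lat.mem_edT.1 he).1).elim hne.1 hne.2
  have h3 : ∑ e ∈ (xyL b).edT D, rot F e * ind (e.2 = z) =
      rot F (z - (1, 0), z) + rot F (z - (0, 1), z) := by
    rw [sum_eq_add_of_mem _ _ (h1 _ (Or.inl rfl)).2 (h1 _ (Or.inr rfl)).2 (by simp), ind_pos rfl,
      mul_one, mul_one]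
    intro e he hne
    rw [ind_neg, mul_zero]
    rintro rfl
    exact (mem_xy.1 (Lat.mem_edT.1 he).1).elim (fun h => hne.1 (Prod.ext (by rw [← h]; simp) rfl))
      fun h => hne.2 (Prod.ext (by rw [← h]; simp) rfl)
  have h4 := rot_h F (z - (1, 0))
  have h5 := rot_v F (z - (0, 1))
  rw [sub_add_cancel, show z - (1, 0) + (1, 1) = z + (0, 1) from Prod.ext (by simp) (by simp)] at h4
  rw [sub_add_cancel, show z - (0, 1) + (1, 1) = z + (1, 0) from Prod.ext (by simp) (by simp)] at h5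
  simp only [dv, mul_sub, sum_sub_distrib]
  rw [h2, h3, h4, h5, rot_h, rot_v]
  ring

/-- the seam edges -/
def smE (r : ℕ) : Finset (Pt × Pt) := (range r).image fun k : ℕ => (((k : ℤ), -1), ((k : ℤ), 0))

theorem mem_smE {r : ℕ} {e : Pt × Pt} :
    e ∈ smE r ↔ e.1.2 = -1 ∧ e.2.2 = 0 ∧ e.1.1 = e.2.1 ∧ 0 ≤ e.1.1 ∧ e.1.1 < r := by
  simp only [smE, mem_image, mem_range]
  constructor
  · rintro ⟨k, hk, rfl⟩
    simp [hk]
  · rintro ⟨h1, h2, h3, h4, h5⟩
    exact ⟨e.1.1.toNat, by omega, Prod.ext (Prod.ext (by simp only; omega) h1.symm)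
      (Prod.ext (by simp only; omega) h2.symm)⟩

theorem sum_smE (r : ℕ) (f : Pt × Pt → ℝ) :
    ∑ e ∈ smE r, f e = ∑ k ∈ range r, f (((k : ℤ), -1), ((k : ℤ), 0)) :=
  sum_image fun k _ k' _ h => by simpa using h

theorem seam_eq (r : ℕ) (e : Pt × Pt) : seam r e = if e ∈ smE r then 1 else 0 := by
  simp only [seam, mem_smE]

theorem mem_faces {R : ℕ} {x : Pt} :
    x ∈ faces R ↔ (-(R : ℤ) ≤ x.1 ∧ x.1 < R) ∧ -(R : ℤ) ≤ x.2 ∧ x.2 < R := by
  rw [faces, mem_sq]; push_cast; omega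

theorem smE_subset (b : ℝ) {r R : ℕ} (h : r ≤ R) : smE r ⊆ (xyL b).edT (faces R) := fun e he => by
  rw [mem_smE] at he
  refine Lat.mem_edT.2 ⟨mem_xy.2 (Or.inr (Prod.ext ?_ ?_)), Or.inl (mem_faces.2 ?_)⟩
  · simp only [Prod.fst_sub]; omega
  · simp only [Prod.snd_sub]; omega
  · omega

theorem anch_slit (b : ℝ) (r R : ℕ) :
    (((xyL b).D (faces R)).keep ((xyL b).edT (faces R) \ smE r)).Anch :=
  anch_dir (y := (1, 0)) (by simp) fun x hx => Or.inl (mem_sdiff.2
    ⟨Lat.mem_edT.2 ⟨mem_xy.2 (by simp), Or.inl hx⟩, by simp [mem_smE]⟩)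

/-- the slit lemma for the seam of the two point function -/
theorem slit_seam {b B : ℝ} (hb : 0 < b) (hB : b ≤ B) {r R : ℕ} (h : r ≤ R) (F : Pt → ℝ)
    (hF : ∀ e ∈ smE r, |rot F e| ≤ 1) :
    Real.log (Zs (((xyL b).D (faces R)).Ws 0 (seam r)) / Zs (((xyL b).D (faces R)).W 0)) ≤
      (F (0, 0) - F (r, 0)) / 2 +
      M ((((xyL b).D (faces R)).keep ((xyL b).edT (faces R) \ smE r)).W 0)
        (fl ((xyL b).edT (faces R) \ smE r) (rot F)) / 2 + B * (∑ e ∈ smE r, rot F e ^ 2) / 2 := by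
  have hΛ := xyL_ok hb
  let u : Cfg Pt := cst (rc 0 r R) (-1)
  have hu : ∀ x : Pt, u x = if (0 ≤ x.1 ∧ x.1 < r) ∧ 0 ≤ x.2 ∧ x.2 < R then -1 else 0 := fun x => by
    simp [u, cst_apply, rc]
  let E' := ((xyL b).edT (faces R)).filter fun e => seam r e + dE e u = 0
  have hv : ∀ x ∈ faces R, (x + (0, -1), x) ∈ E' := fun x hx => by
    refine mem_filter.2 ⟨Lat.mem_edT.2 ⟨mem_xy.2 (by simp), Or.inr hx⟩, ?_⟩
    rw [mem_faces] at hx
    simp only [seam, dE, hu, Prod.fst_add, Prod.snd_add]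
    split_ifs <;> omega
  have hA' : (((xyL b).D (faces R)).keep E').Anch :=
    anch_dir (y := (0, -1)) (by simp) fun x hx => Or.inr (hv x hx)
  have hd : ∀ e ∈ smE r, dE e u = -1 := fun e he => by
    rw [mem_smE] at he
    simp only [dE, hu]
    split_ifs <;> omega
  have hS : smE r ⊆ E' := fun e he =>
    mem_filter.2 ⟨smE_subset b h he, by rw [seam_eq, if_pos he, hd e he]; rfl⟩
  have h1 := slit (hΛ.ctr_D (faces R)) (σ := seam r) (u := u) sdiff_subset (filter_subset _ _)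
    (anch_slit b r R) hA' (fun x hx => by
      rw [hu, if_neg]
      rw [Lat.D_A, mem_faces] at hx
      omega) (fun _ _ _ => rfl)
    (fun e he => by rw [seam_eq, if_neg (mem_sdiff.1 he).2]) (fun e he => (mem_filter.1 he).2)
    (f := (1 / 2 : ℝ) • fl ((xyL b).edT (faces R) \ smE r) (rot F))
    (g := (1 / 2 : ℝ) • fl (smE r) (rot F)) (fun s hs => by
      rw [← AddMonoidHom.add_apply, ← smul_add, fl_sdiff (smE_subset b h), AddMonoidHom.smul_apply,
        fl_rot b (faces R) F hs, smul_zero]) two_pos two_pos (by norm_num)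
  rw [smul_smul, smul_smul, show (2 : ℝ) * (1 / 2) = 1 by norm_num, one_smul, one_smul] at h1
  have h2 := bare_sq (ctr_keep (hΛ.ctr_D (faces R)) (filter_subset _ _)) hA' hS
    (len_of hΛ (fun _ _ => rfl) hB) hF
  have h3 : fl (smE r) (rot F) u = F (0, 0) - F (r, 0) := by
    rw [fl_apply, sum_congr rfl fun e he => by rw [hd e he], sum_smE,
      ← Nat.cast_zero (R := ℤ), ← sum_range_sub' (fun k : ℕ => F ((k : ℤ), ((0 : ℕ) : ℤ))) r]
    exact sum_congr rfl fun k _ => by simp [rot]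
  rw [AddMonoidHom.smul_apply, h3, smul_eq_mul, Lat.D_ed] at h1
  rw [Lat.D_ed] at h2
  linarith

/-! ## The profile -/

/-- distance of the interval `[t, t + 1]` to the origin -/
def mm (t : ℤ) : ℕ := (max t (-1 - t)).toNat

/-- sup norm -/
def nm (y : Pt) : ℕ := max y.1.natAbs y.2.natAbs

/-- shell of a face or of a tile -/
def sh (x : Pt) : ℕ := max (mm x.1) (mm x.2)

/-- sign -/
def sg (t : ℤ) : ℝ := if 0 ≤ t then 1 else -1

/-- increases by `c k` between `k l` and `(k + 1) l` -/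
noncomputable def pf (c : ℕ → ℝ) (l t : ℕ) : ℝ := ∑ j ∈ range t, c (j / l) / l

/-- the test function -/
noncomputable def FF (c : ℕ → ℝ) (l : ℕ) (y : Pt) : ℝ := pf c l (nm y)

/-- the constant flow in the tile `i` -/
noncomputable def vv (c : ℕ → ℝ) (l : ℕ) (i : Pt) : ℝ × ℝ :=
  if mm i.2 < mm i.1 then (0, sg i.1 * (c (sh i) / l))
  else if mm i.1 < mm i.2 then (-(sg i.2 * (c (sh i) / l)), 0) else 0

theorem mm_div {l : ℕ} (hl : 0 < l) (t : ℤ) : mm (t / l) = mm t / l ∧ sg (t / l) = sg t := by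
  have hl' : (0 : ℤ) < l := by exact_mod_cast hl
  rcases t with k | k
  · have e : (Int.ofNat k) / (l : ℤ) = ((k / l : ℕ) : ℤ) := (Int.natCast_div k l).symm
    rw [e, show mm (Int.ofNat k) = k by simp only [mm, Int.ofNat_eq_natCast]; omega]
    generalize k / l = q
    exact ⟨by simp only [mm]; omega, by simp [sg]⟩
  · have e : (Int.negSucc k) / (l : ℤ) = -(((k / l : ℕ) : ℤ) + 1) := Int.negSucc_ediv k hl'
    rw [e, show mm (Int.negSucc k) = k by simp only [mm]; omega]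
    generalize k / l = q
    exact ⟨by simp only [mm]; omega, by rw [sg, sg, if_neg (by omega), if_neg (by omega)]⟩

theorem tileOf_zero (l : ℕ) (x : Pt) : tileOf 0 l x = (x.1 / l, x.2 / l) := by simp [tileOf]

theorem sh_tile {l : ℕ} (hl : 0 < l) (x : Pt) : sh (tileOf 0 l x) = sh x / l := by
  rw [tileOf_zero, sh, sh, (mm_div hl _).1, (mm_div hl _).1]
  exact (Monotone.map_max (f := (· / l)) fun _ _ => Nat.div_le_div_right).symm

theorem pf_succ (c : ℕ → ℝ) (l t : ℕ) : pf c l (t + 1) = pf c l t + c (t / l) / l :=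
  sum_range_succ _ _

theorem pf_mul (c : ℕ → ℝ) {l : ℕ} (hl : 0 < l) (n : ℕ) : pf c l (n * l) = ∑ k ∈ range n, c k := by
  induction n with
  | zero => simp [pf]
  | succ n ih =>
    have hl' : (l : ℝ) ≠ 0 := by exact_mod_cast hl.ne'
    rw [Nat.succ_mul, pf, sum_range_add, ← pf, ih, sum_range_succ,
      sum_congr (s₁ := range l) (g := fun _ => c n / l) rfl fun j hj => by
        rw [Nat.mul_comm, Nat.mul_add_div hl, Nat.div_eq_of_lt (mem_range.1 hj), add_zero],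
      sum_const, card_range, nsmul_eq_mul, mul_div_cancel₀ _ hl']

theorem rot_abs {c : ℕ → ℝ} (hc : ∀ k, 0 ≤ c k) (l : ℕ) (x : Pt) {y : Pt}
    (hy : y = (1, 0) ∨ y = (0, 1)) : |rot (FF c l) (x, x + y)| ≤ c (sh x / l) / l := by
  have h0 : 0 ≤ c (sh x / l) / l := div_nonneg (hc _) (Nat.cast_nonneg _)
  have key : ∀ P Q : Pt, (nm P = sh x ∨ nm P = sh x + 1) → (nm Q = sh x ∨ nm Q = sh x + 1) →
      |FF c l P - FF c l Q| ≤ c (sh x / l) / l := fun P Q hP hQ => by
    rcases hP with hP | hP <;> rcases hQ with hQ | hQ <;>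
      simp [FF, hP, hQ, pf_succ, h0, abs_of_nonneg h0]
  rcases hy with rfl | rfl
  · rw [rot_h]
    apply key <;> simp only [nm, sh, mm, Prod.fst_add, Prod.snd_add] <;> omega
  · rw [rot_v]
    apply key <;> simp only [nm, sh, mm, Prod.fst_add, Prod.snd_add] <;> omega

theorem rot_lin (c : ℕ → ℝ) {l : ℕ} (hl : 0 < l) (x : Pt) {y : Pt} (hy : y = (1, 0) ∨ y = (0, 1))
    (hd : mm (tileOf 0 l x).1 ≠ mm (tileOf 0 l x).2) :
    rot (FF c l) (x, x + y) = gd (lin (vv c l (tileOf 0 l x))) (x, x + y) := by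
  have e : ∀ v : ℝ × ℝ, gd (lin v) (x, x + y) = lin v y := fun v => by simp [gd, lin]; ring
  rw [e, vv, sh_tile hl]
  rw [tileOf_zero] at hd ⊢
  simp only [mm_div hl] at hd ⊢
  rcases lt_or_gt_of_ne hd with h | h
  · have h1 : mm x.1 < mm x.2 := Nat.lt_of_div_lt_div h
    rw [if_neg h.not_gt, if_pos h]
    rcases hy with rfl | rfl
    · by_cases h2 : 0 ≤ x.2
      · rw [rot_h, FF, FF, show nm (x + (1, 0)) = sh x from ?_,
          show nm (x + (1, 1)) = sh x + 1 from ?_, pf_succ]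
        · simp [lin, sg, h2]
        all_goals simp only [nm, sh, mm, Prod.fst_add, Prod.snd_add] at *; omega
      · rw [rot_h, FF, FF, show nm (x + (1, 0)) = sh x + 1 from ?_,
          show nm (x + (1, 1)) = sh x from ?_, pf_succ]
        · simp [lin, sg, h2]
        all_goals simp only [nm, sh, mm, Prod.fst_add, Prod.snd_add] at *; omega
    · rw [rot_v, FF, FF, show nm (x + (1, 1)) = nm (x + (0, 1)) from ?_]
      · simp [lin]
      · simp only [nm, mm, Prod.fst_add, Prod.snd_add] at *; omega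
  · have h1 : mm x.2 < mm x.1 := Nat.lt_of_div_lt_div h
    rw [if_pos h]
    rcases hy with rfl | rfl
    · rw [rot_h, FF, FF, show nm (x + (1, 0)) = nm (x + (1, 1)) from ?_]
      · simp [lin]
      · simp only [nm, mm, Prod.fst_add, Prod.snd_add] at *; omega
    · by_cases h2 : 0 ≤ x.1
      · rw [rot_v, FF, FF, show nm (x + (0, 1)) = sh x from ?_,
          show nm (x + (1, 1)) = sh x + 1 from ?_, pf_succ]
        · simp [lin, sg, h2]
        all_goals simp only [nm, sh, mm, Prod.fst_add, Prod.snd_add] at *; omega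
      · rw [rot_v, FF, FF, show nm (x + (0, 1)) = sh x + 1 from ?_,
          show nm (x + (1, 1)) = sh x from ?_, pf_succ]
        · simp [lin, sg, h2]
        all_goals simp only [nm, sh, mm, Prod.fst_add, Prod.snd_add] at *; omega

theorem vv_sq (c : ℕ → ℝ) {l : ℕ} (hl : 0 < l) (i : Pt) :
    ((vv c l i).1 ^ 2 + (vv c l i).2 ^ 2) * (l : ℝ) ^ 2 ≤ c (sh i) ^ 2 := by
  have hl' : (l : ℝ) ≠ 0 := by exact_mod_cast hl.ne'
  have h : ∀ t, (sg t * (c (sh i) / l)) ^ 2 * (l : ℝ) ^ 2 = c (sh i) ^ 2 := fun t => by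
    rw [sg]; split_ifs <;> field_simp
  rw [vv]
  split_ifs
  · simpa using (h _).le
  · simpa using (h _).le
  · simpa using sq_nonneg _

/-- the tiles of the shells `< n` -/
noncomputable def big (n : ℕ) : Finset Pt := sq (-(n : ℤ), -(n : ℤ)) (2 * n)

theorem mem_big {n : ℕ} {i : Pt} : i ∈ big n ↔ sh i < n := by
  rw [big, mem_sq, sh, mm, mm]; push_cast; omega

theorem sum_big (g : ℕ → ℝ) (n : ℕ) :
    ∑ i ∈ big n, g (sh i) = ∑ k ∈ range n, (8 * k + 4) * g k := by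
  induction n with
  | zero => simp [big, sq]
  | succ n ih =>
    have h : big n ⊆ big (n + 1) := fun i hi => mem_big.2 ((mem_big.1 hi).trans n.lt_succ_self)
    have h1 : ((big (n + 1) \ big n).card : ℝ) = 8 * n + 4 := by
      rw [card_sdiff_of_subset h, Nat.cast_sub (card_le_card h), big, big, card_sq, card_sq]
      push_cast; ring
    rw [← sum_sdiff h, ih, sum_range_succ, add_comm, sum_congr (s₁ := big (n + 1) \ big n) rfl
      (g := fun _ => g n) fun i hi => ?_, sum_const, nsmul_eq_mul, h1]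
    simp only [mem_sdiff, mem_big] at hi
    rw [show sh i = n by omega]

theorem sum_diag {g : ℕ → ℝ} (hg : ∀ k, 0 ≤ g k) (n : ℕ) :
    ∑ i ∈ (big n).filter (fun i => mm i.1 = mm i.2), g (sh i) ≤ ∑ k ∈ range n, 4 * g k := by
  rw [← sum_fiberwise_of_maps_to (g := sh) (t := range n) fun i hi =>
    mem_range.2 (mem_big.1 (mem_filter.1 hi).1)]
  refine sum_le_sum fun k _ => ?_
  rw [sum_congr rfl (g := fun _ => g k) fun i hi => by rw [(mem_filter.1 hi).2], sum_const,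
    nsmul_eq_mul]
  refine mul_le_mul_of_nonneg_right ?_ (hg k)
  have h : (((big n).filter fun i => mm i.1 = mm i.2).filter fun i => sh i = k) ⊆
      ({(k : ℤ), -1 - (k : ℤ)} : Finset ℤ) ×ˢ ({(k : ℤ), -1 - (k : ℤ)} : Finset ℤ) := fun i hi => by
    have h1 := (mem_filter.1 hi).2
    have h2 := (mem_filter.1 (mem_filter.1 hi).1).2
    simp only [sh, mm, mem_product, mem_insert, mem_singleton] at h1 h2 ⊢
    omega
  have h1 := (card_le_card h).trans ((card_product _ _).trans_le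
    (Nat.mul_le_mul card_le_two card_le_two))
  exact_mod_cast h1

theorem card_exit (a : Pt) (l : ℕ) {y : Pt} (hy : y = (1, 0) ∨ y = (0, 1)) :
    ((sq a l).filter fun x => x + y ∉ sq a l).card ≤ l := by
  rcases hy with rfl | rfl
  · refine (card_le_card_of_injOn (t := Finset.Ico a.2 (a.2 + l)) Prod.snd (fun x hx => ?_)
      fun x hx x' hx' e => ?_).trans (by simp)
    · simp only [coe_filter, mem_sq, Set.mem_ofPred_eq, coe_Ico, Set.mem_Ico] at hx ⊢
      exact hx.1.2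
    · simp only [coe_filter, mem_sq, Set.mem_ofPred_eq, Prod.fst_add, Prod.snd_add] at hx hx'
      exact Prod.ext (by omega) e
  · refine (card_le_card_of_injOn (t := Finset.Ico a.1 (a.1 + l)) Prod.fst (fun x hx => ?_)
      fun x hx x' hx' e => ?_).trans (by simp)
    · simp only [coe_filter, mem_sq, Set.mem_ofPred_eq, coe_Ico, Set.mem_Ico] at hx ⊢
      exact hx.1.1
    · simp only [coe_filter, mem_sq, Set.mem_ofPred_eq, Prod.fst_add, Prod.snd_add] at hx hx'
      exact Prod.ext e (by omega)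

theorem sum_edges_le {b : ℝ} {E : Finset (Pt × Pt)} (hE : ∀ e ∈ E, e.2 - e.1 ∈ (xyL b).Jp)
    {T : Finset Pt} {g : Pt × Pt → ℝ} (h0 : ∀ e, 0 ≤ g e) (hT : ∀ e ∈ E, e.1 ∉ T → g e = 0) :
    ∑ e ∈ E, g e ≤ ∑ x ∈ T, (g (x, x + (1, 0)) + g (x, x + (0, 1))) := by
  rw [← sum_filter_of_ne (p := fun e => e.1 ∈ T) fun e he h => by_contra fun h' => h (hT e he h')]
  refine (sum_le_sum_of_subset_of_nonneg
    (t := (T ×ˢ (xyL b).Jp).image fun p => (p.1, p.1 + p.2)) (fun e he => ?_) fun e _ _ => h0 e).trans ?_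
  · exact mem_image.2 ⟨(e.1, e.2 - e.1), mem_product.2 ⟨(mem_filter.1 he).2, hE e (mem_filter.1 he).1⟩,
      by simp⟩
  · rw [sum_image fun p _ p' _ h => by
      obtain ⟨h1, h2⟩ := Prod.mk.inj h
      exact Prod.ext h1 (add_left_cancel (h1 ▸ h2 : p.1 + p.2 = p.1 + p'.2)), sum_product, xyL_Jp]
    exact sum_le_sum fun x _ => (sum_pair (by decide)).le

section core
variable {b δ A : ℝ} {c : ℕ → ℝ} {l n : ℕ} (hl : 0 < l) (hc : ∀ k, 0 ≤ c k) (hδ : ∀ k, c k ≤ δ)
  (hA : ∀ k : ℕ, (8 * k + 4) * c k ≤ A) (hn : ∀ k, n ≤ k → c k = 0)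

include hl hc hn in
theorem rst_cases {e : Pt × Pt} (he : e.2 - e.1 ∈ (xyL b).Jp) :
    rst (xyL b) (big n) (tile 0 l) (fun _ => l) (vv c l) (rot (FF c l)) e = 0 ∨
      rst (xyL b) (big n) (tile 0 l) (fun _ => l) (vv c l) (rot (FF c l)) e = rot (FF c l) e ∧
        (mm (tileOf 0 l e.1).1 = mm (tileOf 0 l e.1).2 ∨ e.2 ∉ sq (tile 0 l (tileOf 0 l e.1)) l) := by
  obtain ⟨x, z⟩ := e
  obtain ⟨y, rfl⟩ : ∃ y, z = x + y := ⟨z - x, by simp⟩
  have hy : y = (1, 0) ∨ y = (0, 1) := by simpa using mem_xy.1 he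
  have h1 : ∀ i, (x, x + y) ∈ (xyL b).edI (sq (tile 0 l i) l) → tileOf 0 l x = i := fun i hi =>
    (mem_tile_iff hl).1 (Lat.mem_edI.1 hi).2.1
  rw [rst, sum_eq_single (tileOf 0 l x) (fun i _ hi => if_neg fun h => hi (h1 i h).symm) fun hi => ?_]
  · by_cases h2 : x + y ∈ sq (tile 0 l (tileOf 0 l x)) l
    · rw [if_pos (Lat.mem_edI.2 ⟨he, (mem_tile_iff hl).2 rfl, h2⟩)]
      by_cases h3 : mm (tileOf 0 l x).1 = mm (tileOf 0 l x).2
      · exact Or.inr ⟨by simp [vv, h3, gd, lin], Or.inl h3⟩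
      · exact Or.inl (sub_eq_zero.2 (rot_lin c hl x hy h3))
    · rw [if_neg fun h => h2 (Lat.mem_edI.1 h).2.2]
      exact Or.inr ⟨sub_zero _, Or.inr h2⟩
  · have h2 : vv c l (tileOf 0 l x) = 0 := by
      simp only [vv, hn _ (not_lt.1 (mt mem_big.2 hi)), zero_div, mul_zero, neg_zero]
      split_ifs <;> rfl
    simp [h2, gd, lin]

include hl hc hδ in
theorem rot_le {e : Pt × Pt} (he : e.2 - e.1 ∈ (xyL b).Jp) : |rot (FF c l) e| ≤ δ := by
  have h := rot_abs hc l e.1 (mem_xy.1 he)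
  rw [add_sub_cancel] at h
  exact h.trans ((div_le_self (hc _) (by exact_mod_cast hl)).trans (hδ _))

include hc hA in
theorem sum_big_sq : ∑ i ∈ big n, c (sh i) ^ 2 ≤ A * ∑ k ∈ range n, c k := by
  rw [sum_big (fun k => c k ^ 2), mul_sum]
  exact sum_le_sum fun k _ => by
    rw [pow_two, ← mul_assoc]; exact mul_le_mul_of_nonneg_right (hA k) (hc k)

include hl hc hδ hA hn in
theorem sum_rst {E : Finset (Pt × Pt)} (hE : ∀ e ∈ E, e.2 - e.1 ∈ (xyL b).Jp) (hlδ : 1 / (l : ℝ) ≤ δ) :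
    ∑ e ∈ E, rst (xyL b) (big n) (tile 0 l) (fun _ => l) (vv c l) (rot (FF c l)) e ^ 2 ≤
      (8 + 2 * A) * δ * ∑ k ∈ range n, c k := by
  have hl' : (0 : ℝ) < l := by exact_mod_cast hl
  let g : Pt × Pt → ℝ := fun e => (c (sh (tileOf 0 l e.1)) / l) ^ 2 *
    ((if mm (tileOf 0 l e.1).1 = mm (tileOf 0 l e.1).2 then 1 else 0) +
      if e.2 ∉ sq (tile 0 l (tileOf 0 l e.1)) l then 1 else 0)
  have g0 : ∀ e, 0 ≤ g e := fun e => by positivity
  have h1 : ∀ e ∈ E, rst (xyL b) (big n) (tile 0 l) (fun _ => l) (vv c l) (rot (FF c l)) e ^ 2 ≤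
      g e := fun e he => by
    rcases rst_cases hl hc hn (hE e he) with h | ⟨h, h'⟩
    · rw [h, zero_pow two_ne_zero]; exact g0 e
    · have h2 := rot_abs hc l e.1 (mem_xy.1 (hE e he))
      rw [add_sub_cancel, ← sh_tile hl] at h2
      rw [h]
      refine (sq_le_sq' (abs_le.1 h2).1 (abs_le.1 h2).2).trans (le_mul_of_one_le_right (sq_nonneg _) ?_)
      rcases h' with h' | h'
      · rw [if_pos h']; exact le_add_of_nonneg_right (by positivity)
      · rw [if_pos h']; exact le_add_of_nonneg_left (by positivity)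
  have h2 := sum_edges_le hE (T := (big n).biUnion fun i => sq (tile 0 l i) l) g0 fun e _ he => by
    have h3 : tileOf 0 l e.1 ∉ big n := fun h => he (mem_biUnion.2 ⟨_, h, (mem_tile_iff hl).2 rfl⟩)
    simp [g, hn _ (not_lt.1 (mt mem_big.2 h3))]
  rw [sum_biUnion fun i _ j _ h => tile_disjoint 0 l h] at h2
  have h3 : ∀ i ∈ big n, ∑ x ∈ sq (tile 0 l i) l, (g (x, x + (1, 0)) + g (x, x + (0, 1))) ≤
      2 * (if mm i.1 = mm i.2 then c (sh i) ^ 2 else 0) + 2 * δ * c (sh i) ^ 2 := fun i _ => by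
    have h4 : ∀ y : Pt, y = (1, 0) ∨ y = (0, 1) → ∑ x ∈ sq (tile 0 l i) l, g (x, x + y) ≤
        (if mm i.1 = mm i.2 then c (sh i) ^ 2 else 0) + δ * c (sh i) ^ 2 := fun y hy => by
      have h5 : (((sq (tile 0 l i) l).filter fun x => x + y ∉ sq (tile 0 l i) l).card : ℝ) ≤ l := by
        exact_mod_cast card_exit _ l hy
      rw [sum_congr rfl fun x hx => show g (x, x + y) = (c (sh i) / l) ^ 2 *
          ((if mm i.1 = mm i.2 then 1 else 0) + if x + y ∉ sq (tile 0 l i) l then 1 else 0) by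
            simp only [g, (mem_tile_iff hl).1 hx],
        ← mul_sum, sum_add_distrib, sum_const, card_sq, sum_boole, mul_add]
      refine add_le_add (le_of_eq ?_) ?_
      · split_ifs <;> simp
        field_simp
      · calc _ ≤ (c (sh i) / l) ^ 2 * l := mul_le_mul_of_nonneg_left h5 (sq_nonneg _)
          _ = 1 / l * c (sh i) ^ 2 := by field_simp
          _ ≤ _ := mul_le_mul_of_nonneg_right hlδ (sq_nonneg _)
    rw [sum_add_distrib]
    linarith [h4 _ (Or.inl rfl), h4 _ (Or.inr rfl)]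
  have h4 := sum_diag (g := fun k => c k ^ 2) (fun k => sq_nonneg _) n
  have h5 : ∑ k ∈ range n, 4 * c k ^ 2 ≤ 4 * δ * ∑ k ∈ range n, c k := by
    rw [mul_sum]
    exact sum_le_sum fun k _ => by nlinarith [hc k, hδ k]
  have h6 := mul_le_mul_of_nonneg_left (sum_big_sq (n := n) hc hA) ((hc 0).trans (hδ 0))
  have h7 := sum_le_sum h3
  rw [sum_add_distrib, ← mul_sum, ← mul_sum, ← sum_filter] at h7
  linarith [sum_le_sum h1]

include hl hn in
theorem pf_eq {r : ℕ} (hr : n * l ≤ r) : pf c l r = ∑ k ∈ range n, c k := by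
  rw [← pf_mul c hl, pf, pf, ← sum_subset (range_mono hr) fun j _ hj => ?_]
  rw [hn _ ((Nat.le_div_iff_mul_le hl).2 (not_lt.1 (mt mem_range.2 hj))), zero_div]

include hl hc hδ hA hn in
/-- the main estimate for a general profile -/
theorem core {B : ℝ} (hb : 0 < b) (hB : b ≤ B) (hB1 : 1 ≤ B) {r R : ℕ} (hr : n * l ≤ r) (hR : r ≤ R)
    (hlδ : 1 / (l : ℝ) ≤ δ) (hK : KN (xyL b) l ≤ δ) (hA0 : 0 ≤ A)
    (hs : δ * (A + 24 * B ^ 2 * A + 17 * B + 4 * A * B) ≤ 1 / 2) :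
    Real.log (Zs (((xyL b).D (faces R)).Ws 0 (seam r)) / Zs (((xyL b).D (faces R)).W 0)) ≤
      -(∑ k ∈ range n, c k) / 4 := by
  have hΛ := xyL_ok hb
  have hδ0 : 0 ≤ δ := (hc 0).trans (hδ 0)
  have hδB : δ * B ≤ 1 / 34 := by
    have : 0 ≤ δ * (A + 24 * B ^ 2 * A + 4 * A * B) := by positivity
    linarith
  have hδ1 : δ ≤ 1 / 34 := (le_mul_of_one_le_right hδ0 hB1).trans hδB
  have hH : 0 ≤ ∑ k ∈ range n, c k := sum_nonneg fun k _ => hc k
  have hE : ∀ e ∈ (xyL b).edT (faces R) \ smE r, e.2 - e.1 ∈ (xyL b).Jp := fun e he =>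
    (Lat.mem_edT.1 (mem_sdiff.1 he).1).1
  have h1 := slit_seam hb hB hR (FF c l) fun e he =>
    (rot_le hl hc hδ (Lat.mem_edT.1 (smE_subset b hR he)).1).trans (by linarith)
  have hL : Len (((xyL b).D (faces R)).keep ((xyL b).edT (faces R) \ smE r))
    ((xyL b).edT (faces R) \ smE r) B := len_of hΛ (fun _ _ => rfl) hB
  have hv : ∀ i, ((vv c l i).1 ^ 2 + (vv c l i).2 ^ 2) * (l : ℝ) ^ 2 ≤ δ ^ 2 := fun i =>
    (vv_sq c hl i).trans (pow_le_pow_left₀ (hc _) (hδ _) 2)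
  have h2 := t1q hΛ (ctr_keep (hΛ.ctr_D (faces R)) sdiff_subset) (anch_slit b r R) (I := big n)
    (a := tile 0 l) (l := fun _ => l) (fun _ _ => hl) (fun i _ j _ h => tile_disjoint 0 l h)
    (Subset.refl _) (fun i hi e he => ⟨?_, rfl⟩) hB hB1 hL two_pos two_pos (by norm_num)
    (v := vv c l) (fun _ _ => rfl) (fun i _ => ?_) (rot (FF c l))
  · have h3 : ∑ i ∈ big n, (KN (xyL b) l / 2 + 3 * (B * (xyL b).a) ^ 2 * 2 ^ 2 *
        (((vv c l i).1 ^ 2 + (vv c l i).2 ^ 2) * (l : ℝ) ^ 2)) *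
        (((vv c l i).1 ^ 2 + (vv c l i).2 ^ 2) * (l : ℝ) ^ 2) ≤
        (δ / 2 + 12 * B ^ 2 * δ) * (A * ∑ k ∈ range n, c k) := by
      refine le_trans ?_ (mul_le_mul_of_nonneg_left (sum_big_sq hc hA) (by positivity))
      rw [mul_sum, xyL_a]
      refine sum_le_sum fun i _ => mul_le_mul ?_ (vv_sq c hl i) (by positivity) (by positivity)
      have h4 : δ ^ 2 ≤ δ := by nlinarith
      nlinarith [mul_le_mul_of_nonneg_left ((hv i).trans h4) (sq_nonneg B)]
    have h4 : ∑ e ∈ (xyL b).edT (faces R) \ smE r, B * (Real.cosh (2 *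
        rst (xyL b) (big n) (tile 0 l) (fun _ => l) (vv c l) (rot (FF c l)) e) - 1) ≤
        4 * B * ((8 + 2 * A) * δ * ∑ k ∈ range n, c k) := by
      refine le_trans ?_ (mul_le_mul_of_nonneg_left (sum_rst hl hc hδ hA hn hE hlδ) (by positivity))
      rw [mul_sum]
      refine sum_le_sum fun e he => (mul_le_mul_of_nonneg_left (cosh_le_sq ?_)
        (zero_le_one.trans hB1)).trans_eq (by ring)
      rcases rst_cases hl hc hn (hE e he) with h | ⟨h, -⟩
      · simp [h]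
      · rw [h, abs_mul, abs_two]
        linarith [rot_le hl hc hδ (hE e he)]
    have h5 : ∑ e ∈ smE r, rot (FF c l) e ^ 2 ≤ δ * ∑ k ∈ range n, c k := by
      rw [← pf_eq hl hn hr, pf, sum_smE, mul_sum]
      refine sum_le_sum fun k _ => ?_
      have e : rot (FF c l) (((k : ℤ), -1), ((k : ℤ), 0)) = c (k / l) / l := by
        have e1 : nm ((k : ℤ) + 1, 0) = k + 1 := by simp only [nm]; omega
        have e2 : nm ((k : ℤ), 0) = k := by simp [nm]
        simp [rot, FF, e1, e2, pf_succ]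
      rw [e, pow_two]
      exact mul_le_mul_of_nonneg_right ((div_le_self (hc _) (by exact_mod_cast hl)).trans (hδ _))
        (div_nonneg (hc _) (Nat.cast_nonneg _))
    have e1 : FF c l (0, 0) = 0 := by simp [FF, nm, pf]
    have e2 : FF c l (r, 0) = ∑ k ∈ range n, c k := by
      rw [← pf_eq hl hn hr]; simp [FF, nm]
    have h6 := mul_le_mul_of_nonneg_left h5 (zero_le_one.trans hB1)
    have h7 := mul_le_mul_of_nonneg_right hs hH
    rw [e1, e2] at h1
    simp only [Mdl.keep_ed, Lat.D_ed] at h2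
    linarith
  · have h3 := (mem_tile_iff hl).1 (Lat.mem_edI.1 he).2.1
    have h4 := (mem_tile_iff hl).1 (Lat.mem_edI.1 he).2.2
    refine mem_sdiff.2 ⟨Lat.mem_edT.2 ⟨(Lat.mem_edI.1 he).1, Or.inl ?_⟩, fun h => ?_⟩
    · rw [← h3, mem_big, sh_tile hl, Nat.div_lt_iff_lt_mul hl, sh, mm, mm] at hi
      rw [mem_faces]
      omega
    · have h5 := congrArg (fun i : Pt => sg i.2) (h3.trans h4.symm)
      simp only [tileOf_zero, mm_div hl, (mem_smE.1 h).1, (mem_smE.1 h).2.1] at h5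
      norm_num [sg] at h5
  · rw [xyL_a]
    nlinarith [mul_le_mul_of_nonneg_left (hv i) (zero_le_one.trans hB1)]

end core

theorem log_le_harm {W : ℕ} (hW : 1 ≤ W) {n : ℕ} (hn : W ≤ n) :
    Real.log n - Real.log W ≤ ∑ k ∈ range n, if W ≤ k then 1 / (k : ℝ) else 0 := by
  induction n, hn using Nat.le_induction with
  | base => rw [sub_self]; exact sum_nonneg fun k _ => by positivity
  | succ n hn ih =>
    have h0 : (0 : ℝ) < n := by exact_mod_cast hW.trans hn
    have h1 := Real.log_le_sub_one_of_pos (x := (n + 1) / n) (by positivity)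
    rw [Real.log_div (by positivity) h0.ne', add_div, div_self h0.ne'] at h1
    rw [sum_range_succ, if_pos hn]
    push_cast
    linarith

/-- (U) small stiffness at one scale -/
theorem upper (b₂ η : ℝ) (hη : 0 ≤ η) : ∃ κ : ℝ, 0 < κ ∧ ∃ (l₀ : ℕ) (C : ℝ), 0 < C ∧
    ∀ b : ℝ, 0 < b → b ≤ b₂ → ∀ l : ℕ, l₀ ≤ l → (xyL b).gN l ≤ κ → ∀ r R : ℕ, 1 ≤ r → r ≤ R →
      Zs (((xyL b).D (faces R)).Ws 0 (seam r)) / Zs (((xyL b).D (faces R)).W 0) ≤
        C * ((l : ℝ) / r) ^ η := by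
  obtain ⟨B, hB, hB1⟩ : ∃ B, b₂ ≤ B ∧ 1 ≤ B := ⟨_, le_max_left _ _, le_max_right _ _⟩
  obtain ⟨δ, hδ, hs⟩ : ∃ δ : ℝ, 0 < δ ∧
      δ * (48 * η + 24 * B ^ 2 * (48 * η) + 17 * B + 4 * (48 * η) * B) ≤ 1 / 2 :=
    ⟨1 / 2 / (48 * η + 24 * B ^ 2 * (48 * η) + 17 * B + 4 * (48 * η) * B), by positivity,
      (div_mul_cancel₀ _ (by positivity)).le⟩
  obtain ⟨W, hW⟩ := exists_nat_ge ((4 * η + 1) / δ)
  have hW0 : (0 : ℝ) < W := lt_of_lt_of_le (by positivity) hW
  have hW1 : 1 ≤ W := by exact_mod_cast hW0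
  rw [div_le_iff₀ hδ] at hW
  refine ⟨δ, hδ, W, (2 * W) ^ η, by positivity, fun b hb hb2 l hl hK r R hr hR => ?_⟩
  have hΛ := xyL_ok hb
  have hl0 : 0 < l := hW1.trans hl
  have hl' : (W : ℝ) ≤ l := by exact_mod_cast hl
  have hl1 : (0 : ℝ) < l := hW0.trans_le hl'
  have hr' : (0 : ℝ) < r := by exact_mod_cast hr
  have h1 := core (c := fun k => if W ≤ k ∧ k < r / l then 4 * η / k else 0) (A := 48 * η) hl0
    (fun k => by positivity) (fun k => ?_) (fun k => ?_) (fun k hk => if_neg fun h => h.2.not_ge hk)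
    hb (hb2.trans hB) hB1 (Nat.div_mul_le_self r l) hR ((div_le_iff₀ hl1).2 (by nlinarith))
    ((KN_xy hb l).trans_le hK) (by positivity) hs
  · have h2 : Real.log r - Real.log (2 * W * l) ≤
        ∑ k ∈ range (r / l), if W ≤ k then 1 / (k : ℝ) else 0 := by
      have h3 : (r : ℝ) < ((r / l : ℕ) + 1) * l := by
        exact_mod_cast (Nat.div_lt_iff_lt_mul hl0).1 (Nat.lt_succ_self _)
      by_cases h : W ≤ r / l
      · refine le_trans ?_ (log_le_harm hW1 h)
        have h4 : (1 : ℝ) ≤ (r / l : ℕ) := by exact_mod_cast hW1.trans h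
        rw [← Real.log_div hr'.ne' (by positivity), ← Real.log_div (by positivity) hW0.ne']
        refine Real.log_le_log (by positivity) ?_
        rw [div_le_div_iff₀ (by positivity) hW0]
        nlinarith [mul_le_mul_of_nonneg_right h4 hl1.le]
      · have h4 : ((r / l : ℕ) : ℝ) + 1 ≤ W := by exact_mod_cast not_le.1 h
        refine le_trans (sub_nonpos.2 (Real.log_le_log hr' ?_)) (sum_nonneg fun k _ => by positivity)
        nlinarith [mul_le_mul_of_nonneg_right h4 hl1.le, mul_pos hW0 hl1]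
    have h3 : ∑ k ∈ range (r / l), (if W ≤ k ∧ k < r / l then 4 * η / k else 0) =
        4 * η * ∑ k ∈ range (r / l), if W ≤ k then 1 / (k : ℝ) else 0 := by
      rw [mul_sum]
      exact sum_congr rfl fun k hk => by simp [mem_range.1 hk, div_eq_mul_inv]
    have h4 := div_pos (Md.ctr_wts (hΛ.ctr_D (faces R)) (hΛ.anch_D _) 0 (seam r)).pos
      (hΛ.wt_D (faces R) 0).pos
    rw [← Real.mul_rpow (by positivity) (by positivity), ← Real.log_le_log_iff h4 (by positivity),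
      Real.log_rpow (by positivity), ← mul_div_assoc, Real.log_div (by positivity) hr'.ne']
    rw [h3] at h1
    nlinarith [mul_le_mul_of_nonneg_left h2 hη]
  · split_ifs with h
    · have h5 : (W : ℝ) ≤ k := by exact_mod_cast h.1
      rw [div_le_iff₀ (hW0.trans_le h5)]
      nlinarith
    · exact hδ.le
  · split_ifs with h
    · have h5 : (1 : ℝ) ≤ k := by exact_mod_cast hW1.trans h.1
      rw [← mul_div_assoc, div_le_iff₀ (one_pos.trans_le h5)]
      nlinarith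
    · rw [mul_zero]; positivity

end Crest.Agent.T145.Sl46
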