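import Crest.Agent.T145.MbExit_25
import Crest.Agent.T145.XyD_48
import Crest.Agent.T145.Up_46

/-!
# Row 145, module MB (helper25): P4 and P5 of the TOP frame
-/

set_option autoImplicit false

namespace Crest.Agent.T145.Mb

open Finset Filter Topology Crest.ProbabilityR.SpinModel Crest.ProbabilityR.HeightModel

theorem log_le_rpow {x δ : ℝ} (hx : 0 < x) (hδ : 0 < δ) : Real.log x ≤ x ^ δ / δ := by
  have h1 := Real.log_le_sub_one_of_pos (Real.rpow_pos_of_pos hx δ)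
  rw [Real.log_rpow hx] at h1
  rw [le_div_iff₀ hδ]
  linarith

set_option maxHeartbeats 2000000 in
/-- **P4** -/
theorem massUpStmt (hL : LowStmt) : Top.MassUpStmt := by
  intro b₁ b₂ g₀ δ hb₁ hg hδ
  obtain ⟨K₀, H⟩ := hL
  set K : ℝ := max K₀ 1 with hK
  have hK1 : 1 ≤ K := le_max_right _ _
  set β : ℝ := max b₂ 1 with hβ
  have hβ1 : 1 ≤ β := le_max_right _ _
  set t : ℝ := min (g₀ / (4 * K * β)) 1 with ht
  have ht0 : 0 < t := by positivity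
  have ht1 : t ≤ 1 := min_le_right _ _
  have ht2 : t * (4 * K * β) ≤ g₀ := (le_div_iff₀ (by positivity)).1 (min_le_left _ _)
  obtain ⟨L₁, hL₁⟩ := exists_nat_ge (2 / t ^ 2)
  set D : ℝ := |Real.log (18 * K * β ^ 3 / g₀)| with hD
  refine ⟨2 / t ^ 2 * (D + 4 / δ), L₁ + 1, fun b h1 h2 L hL hgL C m hC hm => ?_⟩
  have hb : 0 < b := hb₁.trans_le h1
  have hbβ : b ≤ β := h2.trans (le_max_left _ _)
  have hL1 : (1 : ℝ) ≤ L := by exact_mod_cast (by omega : 1 ≤ L)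
  have hL0 : (0 : ℝ) < L := by linarith
  have hL2 : 2 ≤ t ^ 2 * L := by
    have : (L₁ : ℝ) ≤ L := by exact_mod_cast (by omega : L₁ ≤ L)
    rw [div_le_iff₀ (by positivity)] at hL₁
    nlinarith [sq_nonneg t]
  set s : ℕ := ⌊t ^ 2 * L⌋₊ with hs
  have hs1 : (s : ℝ) ≤ t ^ 2 * L := Nat.floor_le (by positivity)
  have hs2 : t ^ 2 * L < s + 1 := Nat.lt_floor_add_one _
  have hs3 : t ^ 2 * L / 2 ≤ s := by linarith
  have hs4 : (s : ℝ) ≤ L := hs1.trans (by nlinarith [mul_le_mul ht1 ht1 ht0.le zero_le_one])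
  have h3 := hgL.trans (H b C m hb ⟨hC, hm⟩ L s (by omega))
  have h4 : Real.sqrt (((s : ℝ) + 1) / L) ≤ 2 * t := by
    rw [Real.sqrt_le_left (by positivity), div_le_iff₀ hL0]
    nlinarith
  have hE := Real.exp_pos (-(m * s))
  have h5 : b ^ 3 * (L : ℝ) ^ 2 * (2 * s + 1) ^ 2 * Real.exp (-(m * s)) ≤
      β ^ 3 * (L : ℝ) ^ 2 * (3 * L) ^ 2 * Real.exp (-(m * s)) := by
    gcongr
    linarith
  have h6 : b * Real.sqrt (((s : ℝ) + 1) / L) ≤ β * (2 * t) := by gcongr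
  have h7 : g₀ ≤ K * (β ^ 3 * (L : ℝ) ^ 2 * (3 * L) ^ 2 * Real.exp (-(m * s)) + β * (2 * t)) :=
    h3.trans ((mul_le_mul_of_nonneg_right (le_max_left _ _) (by positivity)).trans
      (mul_le_mul_of_nonneg_left (add_le_add h5 h6) (by positivity)))
  have h8 : Real.exp (m * s) ≤ 18 * K * β ^ 3 / g₀ * (L : ℝ) ^ 4 := by
    rw [Real.exp_neg] at h7
    have hE' := Real.exp_pos (m * s)
    have h9 : g₀ / 2 ≤ K * (β ^ 3 * (L : ℝ) ^ 2 * (3 * L) ^ 2) / Real.exp (m * s) := by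
      rw [div_eq_mul_inv _ (Real.exp (m * s))]
      nlinarith
    rw [le_div_iff₀ hE'] at h9
    rw [div_mul_eq_mul_div, le_div_iff₀ hg]
    nlinarith
  have h9 : m * s ≤ D + 4 * Real.log L := by
    have := Real.log_le_log (Real.exp_pos _) h8
    rw [Real.log_exp, Real.log_mul (by positivity) (by positivity), Real.log_pow] at this
    have h10 := le_abs_self (Real.log (18 * K * β ^ 3 / g₀))
    push_cast at this
    linarith
  have h10 := log_le_rpow hL0 hδ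
  have h11 : 1 ≤ (L : ℝ) ^ δ := Real.one_le_rpow hL1 hδ.le
  have hD0 : 0 ≤ D := abs_nonneg _
  have h12 : m * s ≤ (D + 4 / δ) * (L : ℝ) ^ δ := by
    have : 4 / δ * (L : ℝ) ^ δ = 4 * ((L : ℝ) ^ δ / δ) := by ring
    nlinarith
  have hm0 := Xy48.m_nonneg hb hC hm
  have h13 : m * (t ^ 2 * L / 2) ≤ (D + 4 / δ) * (L : ℝ) ^ δ :=
    (mul_le_mul_of_nonneg_left hs3 hm0).trans h12
  rw [Real.rpow_sub hL0, Real.rpow_one, div_div_eq_mul_div, le_div_iff₀ hL0, mul_assoc,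
    div_mul_eq_mul_div, le_div_iff₀ (by positivity)]
  nlinarith

/-- the family of the XY height models with `b ∈ [b₁, b₂]` -/
noncomputable def xyF (b₁ b₂ : ℝ) (h : 0 < b₁) : Fa := ⟨nn, true, b₁, b₂, admissible_nn, h⟩

theorem xyF_mem {b₁ b₂ b : ℝ} (h : 0 < b₁) (h1 : b₁ ≤ b) (h2 : b ≤ b₂) : (xyF b₁ b₂ h).Mem (xyL b) :=
  ⟨rfl, rfl, h1, h2⟩

set_option maxHeartbeats 2000000 in
/-- from a small stiffness to the mass -/
theorem mass_of_small (hM : MassStmt) (hO : Off2Stmt) (b₂ ε : ℝ) (hε : 0 < ε) :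
    ∃ (κ : ℝ) (l₀ : ℕ) (x₀ : ℝ), 0 < κ ∧ ∀ b, 0 < b → b ≤ b₂ → ∀ l : ℕ, l₀ ≤ l → (xyL b).gN l ≤ κ →
      ∀ x : ℝ, x₀ ≤ x → (l : ℝ) ≤ x → ∀ C m, Top.IsC b C → Top.IsM C m →
        Real.log 2 / (3 * x ^ (1 + ε)) ≤ m := by
  set η : ℝ := 2 * (1 + ε) / ε + 1 with hη
  have hη0 : 0 < η := by positivity
  have hεη : ε * η = 2 * (1 + ε) + ε := by rw [hη]; field_simp
  obtain ⟨κ, hκ, l₀, K, hK, H⟩ := Sl46.upper b₂ η hη0.le
  refine ⟨κ, l₀, max 1 ((400 * b₂ ^ 2 * K) ^ ε⁻¹), hκ, fun b hb h2 l hl hg x hx hlx C m hC hm => ?_⟩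
  have hx1 : 1 ≤ x := (le_max_left _ _).trans hx
  have hx0 : 0 < x := by linarith
  have hxε : 400 * b₂ ^ 2 * K ≤ x ^ ε := by
    have h1 := Real.rpow_le_rpow (by positivity) ((le_max_right _ _).trans hx) hε.le
    rwa [Real.rpow_inv_rpow (by positivity) hε.ne'] at h1
  have hy1 : 1 ≤ x ^ (1 + ε) := Real.one_le_rpow hx1 (by positivity)
  set L : ℕ := ⌈x ^ (1 + ε)⌉₊ with hL
  have hL1 : x ^ (1 + ε) ≤ L := Nat.le_ceil _
  have hL2 : (L : ℝ) < x ^ (1 + ε) + 1 := Nat.ceil_lt_add_one (by positivity)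
  have hL3 : 1 ≤ L := by exact_mod_cast hy1.trans hL1
  have h3 : C (2 * L) ≤ K * ((l : ℝ) / ((2 * L : ℕ) : ℝ)) ^ η :=
    le_of_tendsto (hC (2 * L)) ((eventually_ge_atTop (2 * L)).mono fun R hR => by
      rw [Xy48.xyStmt b R (2 * L) hb hR]
      exact H b hb h2 l hl hg (2 * L) R (by omega) hR)
  have h4 : (l : ℝ) / ((2 * L : ℕ) : ℝ) ≤ x ^ (-ε) := by
    have h5 : x = x ^ (-ε) * x ^ (1 + ε) := by rw [← Real.rpow_add hx0]; simp
    have h6 := Real.rpow_pos_of_pos hx0 (-ε)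
    push_cast
    rw [div_le_iff₀ (by linarith)]
    nlinarith
  have h5 : C (2 * L) ≤ K * x ^ (-(ε * η)) := by
    refine h3.trans (mul_le_mul_of_nonneg_left ?_ hK.le)
    rw [← neg_mul, Real.rpow_mul hx0.le]
    exact Real.rpow_le_rpow (by positivity) h4 hη0.le
  have h6 := hM b C m hb ⟨hC, hm⟩ L (Real.sqrt (K * x ^ (-(ε * η))))
    (fun V u v h => Real.le_sqrt_of_sq_le ((hO b C hb hC V u v L h).trans h5)) (by
      have h7 : x ^ (-(ε * η)) = ((x ^ (1 + ε)) ^ 2 * x ^ ε)⁻¹ := by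
        rw [Real.rpow_neg hx0.le, hεη, Real.rpow_add hx0, mul_comm 2, Real.rpow_mul hx0.le,
          Real.rpow_two]
      have h8 : 0 < 4 * b * (2 * L + 1) := by positivity
      rw [← le_div_iff₀' h8, Real.sqrt_le_left (by positivity), h7, ← div_eq_mul_inv, div_pow,
        div_le_div_iff₀ (by positivity) (by positivity)]
      have h9 : 4 * b * (2 * L + 1) ≤ 20 * b₂ * x ^ (1 + ε) := by
        have : (2 * L + 1 : ℝ) ≤ 5 * x ^ (1 + ε) := by linarith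
        nlinarith
      have h10 := pow_le_pow_left₀ h8.le h9 2
      have h11 := mul_le_mul_of_nonneg_left h10 hK.le
      have h12 := mul_le_mul_of_nonneg_left hxε (sq_nonneg (x ^ (1 + ε)))
      nlinarith)
  refine le_trans ?_ h6
  exact div_le_div_of_nonneg_left (Real.log_pos one_lt_two).le (by positivity) (by linarith)

set_option maxHeartbeats 2000000 in
/-- **P5** -/
theorem massLoStmt (h1 : T1mStmt) (hd : T1dStmt) (hE : ExitGStmt) (hM : MassStmt)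
    (hO : Off2Stmt) : Top.MassLoStmt := by
  intro b₁ b₂ e δ hb₁ h12 hI he hδ
  have hb₂ : 0 < b₂ := hb₁.trans_le h12
  set ε : ℝ := min δ 1 / 4 with hε
  have hε0 : 0 < ε := by positivity
  have hε1 : (1 + ε) * (1 + ε) ≤ 1 + δ := by
    have a1 := min_le_left δ 1
    have a2 := min_le_right δ 1
    nlinarith
  obtain ⟨κ, l₀, x₀, hκ, H⟩ := mass_of_small hM hO b₂ ε hε0
  set F := xyF b₁ b₂ hb₁ with hF
  obtain ⟨ε₁, j₀, hε₁, H1⟩ := hE F (e / 2) ε κ (by positivity) hε0 hκ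
  obtain ⟨δ', hδ', H2⟩ := h1.2.1 F (e / 2 / tm F) (div_pos (by positivity) (tm_pos F))
  have e1 : ∀ᶠ l in atTop, (xyL b₂).gN l ≤ 2 / Real.pi + ε₁ :=
    (T511.tendsto_gN h1 (xyL_ok hb₂)).eventually (ge_mem_nhds (by linarith))
  obtain ⟨j₁, a1, a2, a3⟩ := ((T511.tendsto_pow2.eventually (e1.and (eventually_ge_atTop l₀))).and
    (eventually_ge_atTop j₀)).exists.imp fun _ h => (⟨h.1.1, h.1.2, h.2⟩ : _ ∧ _ ∧ _)
  obtain ⟨j₂, H3⟩ := H1 j₁ a3
  obtain ⟨d, hd'⟩ := T511.exists_pow δ' hδ'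
  obtain ⟨L₁, hL₁⟩ := exists_nat_ge (max x₀ (1 / δ'))
  refine ⟨Real.log 2 / (3 * ((2 : ℝ) ^ (d + 1)) ^ (1 + δ)), L₁ + 2 ^ j₂, by
    have := Real.log_pos one_lt_two
    positivity, fun b hb1 hb2 L hL hg C m hC hm => ?_⟩
  have hb : 0 < b := hb₁.trans_le hb1
  have hmem := xyF_mem hb₁ hb1 hb2
  have hp : 1 ≤ 2 ^ j₂ := Nat.one_le_two_pow
  have hL1 : (1 : ℝ) ≤ L := by exact_mod_cast (by omega : 1 ≤ L)
  have hL2 : max x₀ (1 / δ') ≤ L := hL₁.trans (by exact_mod_cast (by omega : L₁ ≤ L))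
  set j := Nat.log 2 L + 1 + d with hj
  have c1 : L < 2 ^ (Nat.log 2 L + 1) := Nat.lt_pow_succ_log_self one_lt_two L
  have c2 : 2 ^ Nat.log 2 L ≤ L := Nat.pow_log_le_self 2 (by omega)
  have c3 : j₂ ≤ j := by
    have : 2 ^ j₂ < 2 ^ (Nat.log 2 L + 1) := by omega
    have := (Nat.pow_lt_pow_iff_right one_lt_two).1 this
    omega
  have c1' : (L : ℝ) ≤ 2 ^ (Nat.log 2 L + 1) := by exact_mod_cast c1.le
  have c2' : (2 : ℝ) ^ Nat.log 2 L ≤ L := by exact_mod_cast c2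
  have c4 : Sep δ' L (2 ^ j) := by
    constructor
    · have := (le_max_right _ _).trans hL2
      rwa [div_le_iff₀' hδ'] at this
    · push_cast
      rw [hj, pow_add (2 : ℝ) _ d]
      have : (0 : ℝ) < 2 ^ (Nat.log 2 L + 1) := by positivity
      nlinarith
  have g1 := gN_le_of hmem (by positivity) ((H2 _ hmem).1 L (2 ^ j) c4)
  have g2 : (xyL b).gN (2 ^ j₁) ≤ (xyL b₂).gN (2 ^ j₁) :=
    (hd.2.2 (xyL b) (2 ^ j₁) (xyL_ok hb)).2.2 hb hb₂ hb2
  obtain ⟨i, i1, i2, i3⟩ := H3 _ hmem j c3 (g2.trans a1) (by linarith)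
  have c5 : (L : ℝ) ≤ 2 ^ j := c1'.trans (pow_le_pow_right₀ one_le_two (by omega))
  have c6 : (2 : ℝ) ^ j ≤ 2 ^ (d + 1) * L := by
    rw [show j = (d + 1) + Nat.log 2 L by omega, pow_add]
    gcongr
  have hJ : (1 : ℝ) ≤ 2 ^ j := one_le_pow₀ one_le_two
  have c7 : (2 : ℝ) ^ j ≤ ((2 : ℝ) ^ j) ^ (1 + ε) := by
    nth_rewrite 1 [← Real.rpow_one ((2 : ℝ) ^ j)]
    exact Real.rpow_le_rpow_of_exponent_le hJ (by linarith)
  have c8 : ((2 ^ i : ℕ) : ℝ) ≤ ((2 : ℝ) ^ j) ^ (1 + ε) := by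
    push_cast
    rw [← Real.rpow_natCast, ← Real.rpow_natCast, ← Real.rpow_mul two_pos.le]
    exact Real.rpow_le_rpow_of_exponent_le one_le_two (by linarith)
  have h3 := H b hb hb2 (2 ^ i) (a2.trans (Nat.pow_le_pow_right two_pos i1)) i3
    (((2 : ℝ) ^ j) ^ (1 + ε)) (((le_max_left _ _).trans hL2).trans (c5.trans c7)) c8 C m hC hm
  refine le_trans ?_ h3
  rw [div_div]
  refine div_le_div_of_nonneg_left (Real.log_pos one_lt_two).le (by positivity) ?_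
  rw [mul_assoc, ← Real.mul_rpow (by positivity) (by positivity), ← Real.rpow_mul (by positivity)]
  refine mul_le_mul_of_nonneg_left ?_ (by norm_num)
  exact (Real.rpow_le_rpow_of_exponent_le hJ hε1).trans
    (Real.rpow_le_rpow (by positivity) c6 (by positivity))

end Crest.Agent.T145.Mb
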