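import Crest.Agent.T145.MdlA_73

/-!
# Row 145, T0: exploration (strong Markov property), gauge, iso, root (helper73)
-/

set_option autoImplicit false

namespace Crest.Agent.T145

open Finset

namespace Md

section expl
variable {V : Type*} [DecidableEq V]

/-- the data revealed by the exploration of the cluster of `S` -/
noncomputable def dat (S : Finset V) (p : Cfg V × Finset (V × V)) :
    Finset V × Cfg V × Finset (V × V) :=
  (cl S p.2, p.1.filter (· ∈ cl S p.2), inn (cl S p.2) p.2)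

theorem dat_eq_iff {S : Finset V} {p q : Cfg V × Finset (V × V)} : dat S p = dat S q ↔
    cl S p.2 = cl S q.2 ∧ (∀ x ∈ cl S q.2, p.1 x = q.1 x) ∧
      inn (cl S q.2) p.2 = inn (cl S q.2) q.2 := by
  unfold dat
  rw [Prod.mk.injEq, Prod.mk.injEq]
  refine and_congr_right fun h => ?_
  rw [h, filter_mem_eq_iff]

/-- the factor of the explored part -/
noncomputable def eC (m : Mdl V) (h : ℤ) (C : Finset V) (s : Cfg V) (I : Finset (V × V)) : ℝ :=
  (∏ e ∈ m.ed with (e.1 ∈ C ∧ e.2 ∈ C), m.bw h s e (e ∈ I)) *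
    (∏ e ∈ (m.ed.filter fun e => e.1 ∈ C ∧ e.2 ∉ C) with e.2 ∉ m.A \ C,
      m.w e (|s e.1 - h| + |s e.2 - h|)) *
    (∏ e ∈ (m.ed.filter fun e => e.1 ∉ C ∧ e.2 ∈ C) with e.1 ∉ m.A \ C,
      m.w e (|s e.1 - h| + |s e.2 - h|)) * ∏ x ∈ m.A with x ∈ C, m.site x (s x)

theorem prod_split4 (E : Finset (V × V)) (C : Finset V) (g : V × V → ℝ) :
    ∏ e ∈ E, g e = (∏ e ∈ E with (e.1 ∈ C ∧ e.2 ∈ C), g e) *
      (∏ e ∈ E with (e.1 ∈ C ∧ e.2 ∉ C), g e) * (∏ e ∈ E with (e.1 ∉ C ∧ e.2 ∈ C), g e) *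
        ∏ e ∈ E with (e.1 ∉ C ∧ e.2 ∉ C), g e := by
  simp only [Finset.prod_filter, ← Finset.prod_mul_distrib]
  refine Finset.prod_congr rfl fun e _ => ?_
  by_cases h1 : e.1 ∈ C <;> by_cases h2 : e.2 ∈ C <;> simp [h1, h2]

omit [DecidableEq V] in
theorem bw_congr (m : Mdl V) (h : ℤ) {s t : Cfg V} {e : V × V} {o o' : Prop} [Decidable o]
    [Decidable o'] (h1 : s e.1 = t e.1) (h2 : s e.2 = t e.2) (ho : o ↔ o') :
    m.bw h s e o = m.bw h t e o' := by
  unfold Mdl.bw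
  rw [dE_congr h1 h2, h1, h2]
  by_cases h : o
  · rw [if_pos h, if_pos (ho.1 h)]
  · rw [if_neg h, if_neg fun h' => h (ho.2 h')]

omit [DecidableEq V] in
theorem bw_not (m : Mdl V) (h : ℤ) (s : Cfg V) (e : V × V) {o : Prop} [Decidable o] (ho : ¬ o) :
    m.bw h s e o = m.w e (|s e.1 - h| + |s e.2 - h|) := by
  unfold Mdl.bw; rw [if_neg ho]

/-- factorisation of the joint weight into the explored part and the rest -/
theorem J_rest (m : Mdl V) (h : ℤ) {η s s' : Cfg V} {C : Finset V} {I ω' : Finset (V × V)}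
    (hs : ∀ x, x ∉ m.A → s x = η x) (hI : I ⊆ m.ed) (hIC : ∀ e ∈ I, e.1 ∈ C ∧ e.2 ∈ C)
    (hs' : ∀ x, x ∉ m.A \ C → s' x = s x)
    (hω : ω' ⊆ m.ed.filter fun e => e.1 ∉ C ∧ e.2 ∉ C) :
    m.J h η (s', ω' ∪ I) = eC m h C s I * (m.rest h C s).J h s (s', ω') := by
  have hC : ∀ x ∈ C, s' x = s x := fun x hx => hs' x fun h => (Finset.mem_sdiff.1 h).2 hx
  have h1 : ∀ x, x ∉ m.A → s' x = η x := fun x hx => by
    rw [hs' x fun h => hx (Finset.mem_sdiff.1 h).1, hs x hx]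
  have h2 : ω' ∪ I ⊆ m.ed := Finset.union_subset (hω.trans (Finset.filter_subset _ _)) hI
  have hω' : ∀ e ∈ ω', e.1 ∉ C ∧ e.2 ∉ C := fun e he => (Finset.mem_filter.1 (hω he)).2
  have e1 : ∏ e ∈ m.ed with (e.1 ∈ C ∧ e.2 ∈ C), m.bw h s' e (e ∈ ω' ∪ I) =
      ∏ e ∈ m.ed with (e.1 ∈ C ∧ e.2 ∈ C), m.bw h s e (e ∈ I) := by
    refine Finset.prod_congr rfl fun e he => ?_
    obtain ⟨-, ha, hb⟩ := Finset.mem_filter.1 he
    refine bw_congr m h (hC _ ha) (hC _ hb) ⟨fun h => ?_, fun h => Finset.mem_union_right _ h⟩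
    exact (Finset.mem_union.1 h).resolve_left fun h => (hω' e h).1 ha
  have e4 : ∏ e ∈ m.ed with (e.1 ∉ C ∧ e.2 ∉ C), m.bw h s' e (e ∈ ω' ∪ I) =
      ∏ e ∈ m.ed with (e.1 ∉ C ∧ e.2 ∉ C), m.bw h s' e (e ∈ ω') := by
    refine Finset.prod_congr rfl fun e he => ?_
    obtain ⟨-, ha, -⟩ := Finset.mem_filter.1 he
    refine bw_congr m h rfl rfl ⟨fun h => ?_, fun h => Finset.mem_union_left _ h⟩
    exact (Finset.mem_union.1 h).resolve_right fun h => ha (hIC e h).1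
  have e2 : ∏ e ∈ m.ed with (e.1 ∈ C ∧ e.2 ∉ C), m.bw h s' e (e ∈ ω' ∪ I) =
      (∏ y ∈ m.A \ C, ∏ e ∈ m.ed.filter (fun e => e.1 ∈ C ∧ e.2 = y),
        m.w e (|s e.1 - h| + |s' y - h|)) *
      ∏ e ∈ (m.ed.filter fun e => e.1 ∈ C ∧ e.2 ∉ C) with e.2 ∉ m.A \ C,
        m.w e (|s e.1 - h| + |s e.2 - h|) := by
    have : ∏ e ∈ m.ed with (e.1 ∈ C ∧ e.2 ∉ C), m.bw h s' e (e ∈ ω' ∪ I) =
        ∏ e ∈ m.ed with (e.1 ∈ C ∧ e.2 ∉ C), m.w e (|s e.1 - h| + |s' e.2 - h|) := by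
      refine Finset.prod_congr rfl fun e he => ?_
      obtain ⟨-, ha, hb⟩ := Finset.mem_filter.1 he
      rw [bw_not, hC _ ha]
      intro h
      rcases Finset.mem_union.1 h with h | h
      · exact (hω' e h).1 ha
      · exact hb (hIC e h).2
    rw [this, ← Finset.prod_filter_mul_prod_filter_not _ (fun e : V × V => e.2 ∈ m.A \ C)]
    congr 1
    · rw [← Finset.prod_fiberwise_of_maps_to (t := m.A \ C) (g := fun e : V × V => e.2)
        (fun e he => (Finset.mem_filter.1 he).2)]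
      refine Finset.prod_congr rfl fun y hy => Finset.prod_congr ?_ fun e he => ?_
      · ext e
        simp only [Finset.mem_filter]
        constructor
        · rintro ⟨⟨⟨h1, h2, -⟩, -⟩, h3⟩; exact ⟨h1, h2, h3⟩
        · rintro ⟨h1, h2, h3⟩
          exact ⟨⟨⟨h1, h2, h3 ▸ (Finset.mem_sdiff.1 hy).2⟩, h3 ▸ hy⟩, h3⟩
      · rw [(Finset.mem_filter.1 he).2.2]
    · exact Finset.prod_congr rfl fun e he => by rw [hs' _ (Finset.mem_filter.1 he).2]
  have e3 : ∏ e ∈ m.ed with (e.1 ∉ C ∧ e.2 ∈ C), m.bw h s' e (e ∈ ω' ∪ I) =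
      (∏ y ∈ m.A \ C, ∏ e ∈ m.ed.filter (fun e => e.2 ∈ C ∧ e.1 = y),
        m.w e (|s e.2 - h| + |s' y - h|)) *
      ∏ e ∈ (m.ed.filter fun e => e.1 ∉ C ∧ e.2 ∈ C) with e.1 ∉ m.A \ C,
        m.w e (|s e.1 - h| + |s e.2 - h|) := by
    have : ∏ e ∈ m.ed with (e.1 ∉ C ∧ e.2 ∈ C), m.bw h s' e (e ∈ ω' ∪ I) =
        ∏ e ∈ m.ed with (e.1 ∉ C ∧ e.2 ∈ C), m.w e (|s e.2 - h| + |s' e.1 - h|) := by
      refine Finset.prod_congr rfl fun e he => ?_
      obtain ⟨-, ha, hb⟩ := Finset.mem_filter.1 he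
      rw [bw_not, hC _ hb, add_comm]
      intro h
      rcases Finset.mem_union.1 h with h | h
      · exact (hω' e h).2 hb
      · exact ha (hIC e h).1
    rw [this, ← Finset.prod_filter_mul_prod_filter_not _ (fun e : V × V => e.1 ∈ m.A \ C)]
    congr 1
    · rw [← Finset.prod_fiberwise_of_maps_to (t := m.A \ C) (g := fun e : V × V => e.1)
        (fun e he => (Finset.mem_filter.1 he).2)]
      refine Finset.prod_congr rfl fun y hy => Finset.prod_congr ?_ fun e he => ?_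
      · ext e
        simp only [Finset.mem_filter]
        constructor
        · rintro ⟨⟨⟨h1, -, h2⟩, -⟩, h3⟩; exact ⟨h1, h2, h3⟩
        · rintro ⟨h1, h2, h3⟩
          exact ⟨⟨⟨h1, h3 ▸ (Finset.mem_sdiff.1 hy).2, h2⟩, h3 ▸ hy⟩, h3⟩
      · rw [(Finset.mem_filter.1 he).2.2]
    · exact Finset.prod_congr rfl fun e he => by
        rw [hs' _ (Finset.mem_filter.1 he).2, add_comm]
  have e5 : ∏ x ∈ m.A, m.site x (s' x) =
      (∏ x ∈ m.A with x ∈ C, m.site x (s x)) * ∏ x ∈ m.A \ C, m.site x (s' x) := by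
    rw [← Finset.prod_filter_mul_prod_filter_not m.A (· ∈ C)]
    congr 1
    · exact Finset.prod_congr rfl fun x hx => by rw [hC x (Finset.mem_filter.1 hx).2]
    · rw [Finset.sdiff_eq_filter]
  have hb : ∀ e (o : Prop) [Decidable o], (m.rest h C s).bw h s' e o = m.bw h s' e o :=
    fun _ _ _ => rfl
  simp only [Mdl.J, hb]
  simp only [Mdl.rest]
  rw [ind_pos h1, ind_pos h2, ind_pos hs', ind_pos hω, prod_split4 m.ed C, e1, e2, e3, e4, e5,
    Finset.prod_mul_distrib, Finset.prod_mul_distrib]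
  unfold eC
  ring

/-- symmetric difference with a fixed set of bonds -/
def sdE (I : Finset (V × V)) : (Cfg V × Finset (V × V)) ≃ (Cfg V × Finset (V × V)) where
  toFun p := (p.1, symmDiff p.2 I)
  invFun p := (p.1, symmDiff p.2 I)
  left_inv p := by simp [symmDiff_symmDiff_cancel_right]
  right_inv p := by simp [symmDiff_symmDiff_cancel_right]

theorem sd_eq_union {C : Finset V} {I ω' : Finset (V × V)} (hIC : ∀ e ∈ I, e.1 ∈ C ∧ e.2 ∈ C)
    (hω : ∀ e ∈ ω', e.1 ∉ C ∧ e.2 ∉ C) : symmDiff ω' I = ω' ∪ I :=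
  Disjoint.symmDiff_eq_sup (Finset.disjoint_left.2 fun e he he' => (hω e he).1 (hIC e he').1)

/-- conditioning on the explored data -/
theorem J_dat (m : Mdl V) (h : ℤ) {η : Cfg V} (S : Finset V) {p : Cfg V × Finset (V × V)}
    (hp : m.J h η p ≠ 0) (p' : Cfg V × Finset (V × V)) :
    ind (dat S (sdE (inn (cl S p.2) p.2) p') = dat S p) * m.J h η (sdE (inn (cl S p.2) p.2) p') =
      eC m h (cl S p.2) p.1 (inn (cl S p.2) p.2) * (m.rest h (cl S p.2) p.1).J h p.1 p' := by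
  obtain ⟨s, ω⟩ := p
  obtain ⟨s', ω'⟩ := p'
  have hs : ∀ x, x ∉ m.A → s x = η x := J_off hp
  have hω : ω ⊆ m.ed := J_sub hp
  have hIC : ∀ e ∈ inn (cl S ω) ω, e.1 ∈ cl S ω ∧ e.2 ∈ cl S ω := fun e he => (mem_inn.1 he).2
  simp only [sdE, Equiv.coe_fn_mk]
  by_cases hc : (∀ x, x ∉ m.A \ cl S ω → s' x = s x) ∧
      ω' ⊆ m.ed.filter fun e => e.1 ∉ cl S ω ∧ e.2 ∉ cl S ω
  · have hω' : ∀ e ∈ ω', e.1 ∉ cl S ω ∧ e.2 ∉ cl S ω :=
      fun e he => (Finset.mem_filter.1 (hc.2 he)).2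
    rw [sd_eq_union hIC hω', J_rest m h hs ((inn_subset _ _).trans hω) hIC hc.1 hc.2, ind_pos,
      one_mul]
    refine dat_eq_iff.2 ⟨cl_union_inn hω', fun x hx => hc.1 x fun h => (Finset.mem_sdiff.1 h).2 hx,
      ?_⟩
    ext e
    simp only [mem_inn, Finset.mem_union]
    constructor
    · rintro ⟨h | h, h1, h2⟩
      · exact absurd h1 (hω' e h).1
      · exact h
    · intro h; exact ⟨Or.inr h, h.2⟩
  · have hR : (m.rest h (cl S ω) s).J h s (s', ω') = 0 := by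
      by_contra hR
      exact hc ⟨J_off hR, J_sub hR⟩
    rw [hR, mul_zero]
    by_contra hL
    obtain ⟨h1, h2, h3⟩ := dat_eq_iff.1 (of_ind_ne (left_ne_zero_of_mul hL))
    have hJ := right_ne_zero_of_mul hL
    have h4 : ∀ x, x ∉ m.A → s' x = η x := J_off hJ
    have h5 : symmDiff ω' (inn (cl S ω) ω) ⊆ m.ed := J_sub hJ
    simp only at h1 h2 h3
    refine hc ⟨fun x hx => ?_, fun e he => ?_⟩
    · by_cases hxC : x ∈ cl S ω
      · exact h2 x hxC
      · have : x ∉ m.A := fun h => hx (Finset.mem_sdiff.2 ⟨h, hxC⟩)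
        rw [h4 x this, hs x this]
    · have heI : e ∉ inn (cl S ω) ω := by
        intro heI
        have : e ∈ inn (cl S ω) (symmDiff ω' (inn (cl S ω) ω)) := by rw [h3]; exact heI
        rcases Finset.mem_symmDiff.1 (mem_inn.1 this).1 with h | h
        · exact h.2 heI
        · exact h.2 he
      have hes : e ∈ symmDiff ω' (inn (cl S ω) ω) := Finset.mem_symmDiff.2 (Or.inl ⟨he, heI⟩)
      have hcl := cl_closed (S := S) hes
      rw [h1] at hcl
      have hn : e.1 ∉ cl S ω := fun h1' => heI (h3 ▸ mem_inn.2 ⟨hes, h1', hcl.1 h1'⟩)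
      exact Finset.mem_filter.2 ⟨h5 hes, hn, fun h2' => hn (hcl.2 h2')⟩

theorem eC_ne (m : Mdl V) (h : ℤ) {η : Cfg V} (S : Finset V) {p : Cfg V × Finset (V × V)}
    (hp : m.J h η p ≠ 0) : eC m h (cl S p.2) p.1 (inn (cl S p.2) p.2) ≠ 0 := by
  have := J_dat m h S hp ((sdE (inn (cl S p.2) p.2)).symm p)
  rw [Equiv.apply_symm_apply, ind_pos rfl, one_mul] at this
  rw [this] at hp
  exact left_ne_zero_of_mul hp

/-- the conditional expectation given the explored data -/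
theorem cond_rest (m : Mdl V) (h : ℤ) {η : Cfg V} (S : Finset V) {p : Cfg V × Finset (V × V)}
    (hp : m.J h η p ≠ 0) (F : Cfg V × Finset (V × V) → ℝ) :
    (Ex ((m.rest h (cl S p.2) p.1).J h p.1) fun p' => F (p'.1, p'.2 ∪ inn (cl S p.2) p.2)) =
      Ex (fun q => ind (dat S q = dat S p) * m.J h η q) F := by
  rw [← ex_equiv (sdE (inn (cl S p.2) p.2)) (fun q => ind (dat S q = dat S p) * m.J h η q) F]
  rw [funext (J_dat m h S hp), ex_cmul (eC_ne m h S hp)]
  refine ex_congr fun p' hp' => ?_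
  simp only [sdE, Equiv.coe_fn_mk]
  rw [sd_eq_union (fun e he => (mem_inn.1 he).2) fun e he => (Finset.mem_filter.1 (J_sub hp' he)).2]

/-- the rest model seen from a configuration of positive weight is a weight -/
theorem wt_rest (m : Mdl V) (h : ℤ) {η : Cfg V} (S : Finset V) (hW : Wt (m.J h η))
    (h0 : ∀ C ζ p, 0 ≤ (m.rest h C ζ).J h ζ p) {p : Cfg V × Finset (V × V)}
    (hp : m.J h η p ≠ 0) : Wt ((m.rest h (cl S p.2) p.1).J h p.1) := by
  have hc := eC_ne m h S hp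
  have hs : Summable ((m.rest h (cl S p.2) p.1).J h p.1) := by
    have h1 := (sdE (inn (cl S p.2) p.2)).summable_iff.2
      (summable_ind_mul (fun q => dat S q = dat S p) hW.summ)
    have h2 : Summable fun p' => eC m h (cl S p.2) p.1 (inn (cl S p.2) p.2) *
        (m.rest h (cl S p.2) p.1).J h p.1 p' := h1.congr fun p' => J_dat m h S hp p'
    exact (summable_mul_left_iff hc).1 h2
  refine ⟨h0 _ _, hs, hs.tsum_pos (h0 _ _) ((sdE (inn (cl S p.2) p.2)).symm p) ?_⟩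
  have := J_dat m h S hp ((sdE (inn (cl S p.2) p.2)).symm p)
  rw [Equiv.apply_symm_apply, ind_pos rfl, one_mul] at this
  rw [this] at hp
  exact lt_of_le_of_ne (h0 _ _ _) (right_ne_zero_of_mul hp).symm

/-- strong Markov property -/
theorem expl (m : Mdl V) (h : ℤ) (η : Cfg V) (S : Finset V) {F : Cfg V × Finset (V × V) → ℝ}
    (hW : Wt (m.J h η)) (hF : Ig (m.J h η) F) :
    Ig (m.J h η) (fun p => Ex ((m.rest h (cl S p.2) p.1).J h p.1)
        fun p' => F (p'.1, p'.2 ∪ inn (cl S p.2) p.2)) ∧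
      Ex (m.J h η) F = Ex (m.J h η) fun p => Ex ((m.rest h (cl S p.2) p.1).J h p.1)
        fun p' => F (p'.1, p'.2 ∪ inn (cl S p.2) p.2) :=
  tower (dat S) hW.nonneg hW.summ hF fun _ hp => cond_rest m h S hp F

/-- a configuration of the rest model, completed by the explored bonds, has the same data -/
theorem dat_rest (m : Mdl V) (h : ℤ) (S : Finset V) {p p' : Cfg V × Finset (V × V)}
    (hp' : (m.rest h (cl S p.2) p.1).J h p.1 p' ≠ 0) :
    dat S (p'.1, p'.2 ∪ inn (cl S p.2) p.2) = dat S p := by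
  have hω' : ∀ e ∈ p'.2, e.1 ∉ cl S p.2 ∧ e.2 ∉ cl S p.2 :=
    fun e he => (Finset.mem_filter.1 (J_sub hp' he)).2
  refine dat_eq_iff.2 ⟨cl_union_inn hω',
    fun x hx => J_off hp' x fun h => (Finset.mem_sdiff.1 h).2 hx, ?_⟩
  ext e
  simp only [mem_inn, Finset.mem_union]
  constructor
  · rintro ⟨h | h, h1, h2⟩
    · exact absurd h1 (hω' e h).1
    · exact h
  · intro h; exact ⟨Or.inr h, h.2⟩

/-- strong Markov property with a factor `H` that depends only on the explored data -/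
theorem expl_mul (m : Mdl V) (h : ℤ) (η : Cfg V) (S : Finset V)
    {F H : Cfg V × Finset (V × V) → ℝ} (hW : Wt (m.J h η))
    (hH : ∀ p q, dat S p = dat S q → H p = H q) (hF : Ig (m.J h η) fun p => H p * F p) :
    Ig (m.J h η) (fun p => H p * Ex ((m.rest h (cl S p.2) p.1).J h p.1)
        fun p' => F (p'.1, p'.2 ∪ inn (cl S p.2) p.2)) ∧
      Ex (m.J h η) (fun p => H p * F p) =
        Ex (m.J h η) fun p => H p * Ex ((m.rest h (cl S p.2) p.1).J h p.1)
          fun p' => F (p'.1, p'.2 ∪ inn (cl S p.2) p.2) := by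
  have h1 := expl m h η S hW hF
  have e : ∀ p : Cfg V × Finset (V × V), (Ex ((m.rest h (cl S p.2) p.1).J h p.1) fun p' =>
      H (p'.1, p'.2 ∪ inn (cl S p.2) p.2) * F (p'.1, p'.2 ∪ inn (cl S p.2) p.2)) =
      H p * Ex ((m.rest h (cl S p.2) p.1).J h p.1)
        fun p' => F (p'.1, p'.2 ∪ inn (cl S p.2) p.2) := by
    intro p
    rw [← ex_mul_const]
    exact ex_congr fun p' hp' => by rw [hH _ p (dat_rest m h S hp')]
  simpa only [e] using h1

end expl

section gauge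
variable {V : Type*} [DecidableEq V]

theorem dE_cst {U : Finset V} {e : V × V} (h1 : e.1 ∈ U) (h2 : e.2 ∈ U) (s : Cfg V) (h : ℤ) :
    dE e (s + cst U h) = dE e s := by
  simp only [dE, Finsupp.add_apply, cst_mem h1, cst_mem h2]; ring

omit [DecidableEq V] in
theorem off_add (A : Finset V) (η s u : Cfg V) :
    (∀ x, x ∉ A → (s + u) x = (η + u) x) ↔ ∀ x, x ∉ A → s x = η x := by
  simp only [Finsupp.add_apply, add_left_inj]

theorem W_cst (m : Mdl V) {U : Finset V} (h : ℤ) (η s : Cfg V) (hA : m.A ⊆ U)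
    (hE : ∀ e ∈ m.ed, e.1 ∈ U ∧ e.2 ∈ U) :
    m.W (η + cst U h) (s + cst U h) = (m.shift h).W η s := by
  simp only [Mdl.W, Mdl.shift]
  rw [ind_iff (off_add m.A η s _)]
  congr 1
  · congr 1
    exact Finset.prod_congr rfl fun e he => by rw [dE_cst (hE e he).1 (hE e he).2]
  · exact Finset.prod_congr rfl fun x hx => by rw [Finsupp.add_apply, cst_mem (hA hx)]

theorem J_cst (m : Mdl V) {U : Finset V} (h : ℤ) (η s : Cfg V) (hA : m.A ⊆ U)
    (hE : ∀ e ∈ m.ed, e.1 ∈ U ∧ e.2 ∈ U) (h' : ℤ) (ω : Finset (V × V)) :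
    m.J (h' + h) (η + cst U h) (s + cst U h, ω) = (m.shift h).J h' η (s, ω) := by
  simp only [Mdl.J, Mdl.shift, Mdl.bw]
  rw [ind_iff (off_add m.A η s _)]
  congr 1
  · congr 1
    refine Finset.prod_congr rfl fun e he => ?_
    rw [dE_cst (hE e he).1 (hE e he).2, Finsupp.add_apply, Finsupp.add_apply, cst_mem (hE e he).1,
      cst_mem (hE e he).2, add_sub_add_right_eq_sub, add_sub_add_right_eq_sub]
  · exact Finset.prod_congr rfl fun x hx => by rw [Finsupp.add_apply, cst_mem (hA hx)]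

omit [DecidableEq V] in
theorem Ws_gauge (m : Mdl V) (η u s : Cfg V) (σ : V × V → ℤ)
    (hu : ∀ x ∈ m.A, ∀ k, m.site x (k + u x) = m.site x k) :
    m.Ws (η + u) σ (s + u) = m.Ws η (fun e => σ e + dE e u) s := by
  simp only [Mdl.Ws]
  rw [ind_iff (off_add m.A η s _)]
  congr 1
  · congr 1
    exact Finset.prod_congr rfl fun e _ => by rw [dE_add]; congr 1; ring
  · exact Finset.prod_congr rfl fun x hx => by rw [Finsupp.add_apply, hu x hx]

omit [DecidableEq V] in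
theorem W_far (m : Mdl V) (η u s : Cfg V) (hA : ∀ x ∈ m.A, u x = 0)
    (hE : ∀ e ∈ m.ed, u e.1 = 0 ∧ u e.2 = 0) : m.W (η + u) (s + u) = m.W η s := by
  simp only [Mdl.W]
  rw [ind_iff (off_add m.A η s _)]
  congr 1
  · congr 1
    exact Finset.prod_congr rfl fun e he => by
      rw [dE_congr (t := s) (by simp [(hE e he).1]) (by simp [(hE e he).2])]
  · exact Finset.prod_congr rfl fun x hx => by rw [Finsupp.add_apply, hA x hx, add_zero]

theorem J_far (m : Mdl V) (η u s : Cfg V) (hA : ∀ x ∈ m.A, u x = 0)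
    (hE : ∀ e ∈ m.ed, u e.1 = 0 ∧ u e.2 = 0) (h : ℤ) (ω : Finset (V × V)) :
    m.J h (η + u) (s + u, ω) = m.J h η (s, ω) := by
  simp only [Mdl.J]
  rw [ind_iff (off_add m.A η s _)]
  congr 1
  · congr 1
    exact Finset.prod_congr rfl fun e he =>
      bw_congr m h (by simp [(hE e he).1]) (by simp [(hE e he).2]) Iff.rfl
  · exact Finset.prod_congr rfl fun x hx => by rw [Finsupp.add_apply, hA x hx, add_zero]

/-- `Ex` versions -/
theorem ex_cst (m : Mdl V) {U : Finset V} (h : ℤ) (η : Cfg V) (hA : m.A ⊆ U)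
    (hE : ∀ e ∈ m.ed, e.1 ∈ U ∧ e.2 ∈ U) (F : Cfg V → ℝ) :
    Ex (m.W (η + cst U h)) F = Ex ((m.shift h).W η) fun s => F (s + cst U h) := by
  rw [← ex_equiv (Equiv.addRight (cst U h))]
  simp only [Equiv.coe_addRight, W_cst m h η _ hA hE]

theorem ig_cst (m : Mdl V) {U : Finset V} (h : ℤ) (η : Cfg V) (hA : m.A ⊆ U)
    (hE : ∀ e ∈ m.ed, e.1 ∈ U ∧ e.2 ∈ U) (F : Cfg V → ℝ) :
    Ig (m.W (η + cst U h)) F ↔ Ig ((m.shift h).W η) fun s => F (s + cst U h) := by
  rw [← ig_equiv (Equiv.addRight (cst U h))]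
  simp only [Equiv.coe_addRight, W_cst m h η _ hA hE]

theorem zs_cst (m : Mdl V) {U : Finset V} (h : ℤ) (η : Cfg V) (hA : m.A ⊆ U)
    (hE : ∀ e ∈ m.ed, e.1 ∈ U ∧ e.2 ∈ U) :
    Zs (m.W (η + cst U h)) = Zs ((m.shift h).W η) := by
  rw [← zs_equiv (Equiv.addRight (cst U h))]
  simp only [Equiv.coe_addRight, W_cst m h η _ hA hE]

theorem wt_cst (m : Mdl V) {U : Finset V} (h : ℤ) (η : Cfg V) (hA : m.A ⊆ U)
    (hE : ∀ e ∈ m.ed, e.1 ∈ U ∧ e.2 ∈ U) :
    Wt (m.W (η + cst U h)) ↔ Wt ((m.shift h).W η) := by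
  rw [← wt_equiv (Equiv.addRight (cst U h))]
  simp only [Equiv.coe_addRight, W_cst m h η _ hA hE]

/-- translation of the heights of a pair -/
noncomputable def shE (u : Cfg V) : (Cfg V × Finset (V × V)) ≃ (Cfg V × Finset (V × V)) :=
  (Equiv.addRight u).prodCongr (Equiv.refl _)

omit [DecidableEq V] in
theorem shE_apply (u : Cfg V) (p : Cfg V × Finset (V × V)) : shE u p = (p.1 + u, p.2) := rfl

theorem exJ_cst (m : Mdl V) {U : Finset V} (h : ℤ) (η : Cfg V) (hA : m.A ⊆ U)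
    (hE : ∀ e ∈ m.ed, e.1 ∈ U ∧ e.2 ∈ U) (h' : ℤ) (F : Cfg V × Finset (V × V) → ℝ) :
    Ex (m.J (h' + h) (η + cst U h)) F =
      Ex ((m.shift h).J h' η) fun p => F (p.1 + cst U h, p.2) := by
  rw [← ex_equiv (shE (cst U h))]
  simp only [shE_apply, J_cst m h η _ hA hE]

theorem igJ_cst (m : Mdl V) {U : Finset V} (h : ℤ) (η : Cfg V) (hA : m.A ⊆ U)
    (hE : ∀ e ∈ m.ed, e.1 ∈ U ∧ e.2 ∈ U) (h' : ℤ) (F : Cfg V × Finset (V × V) → ℝ) :
    Ig (m.J (h' + h) (η + cst U h)) F ↔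
      Ig ((m.shift h).J h' η) fun p => F (p.1 + cst U h, p.2) := by
  rw [← ig_equiv (shE (cst U h))]
  simp only [shE_apply, J_cst m h η _ hA hE]

theorem wtJ_cst (m : Mdl V) {U : Finset V} (h : ℤ) (η : Cfg V) (hA : m.A ⊆ U)
    (hE : ∀ e ∈ m.ed, e.1 ∈ U ∧ e.2 ∈ U) (h' : ℤ) :
    Wt (m.J (h' + h) (η + cst U h)) ↔ Wt ((m.shift h).J h' η) := by
  rw [← wt_equiv (shE (cst U h))]
  simp only [shE_apply, J_cst m h η _ hA hE]

omit [DecidableEq V] in
theorem zs_gauge (m : Mdl V) (η u : Cfg V) (σ : V × V → ℤ)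
    (hu : ∀ x ∈ m.A, ∀ k, m.site x (k + u x) = m.site x k) :
    Zs (m.Ws (η + u) σ) = Zs (m.Ws η fun e => σ e + dE e u) := by
  rw [← zs_equiv (Equiv.addRight u)]
  simp only [Equiv.coe_addRight, Ws_gauge m η u _ σ hu]

omit [DecidableEq V] in
theorem ex_gauge (m : Mdl V) (η u : Cfg V) (σ : V × V → ℤ)
    (hu : ∀ x ∈ m.A, ∀ k, m.site x (k + u x) = m.site x k) (F : Cfg V → ℝ) :
    Ex (m.Ws (η + u) σ) F = Ex (m.Ws η fun e => σ e + dE e u) fun s => F (s + u) := by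
  rw [← ex_equiv (Equiv.addRight u)]
  simp only [Equiv.coe_addRight, Ws_gauge m η u _ σ hu]

omit [DecidableEq V] in
theorem ex_far (m : Mdl V) (η u : Cfg V) (hA : ∀ x ∈ m.A, u x = 0)
    (hE : ∀ e ∈ m.ed, u e.1 = 0 ∧ u e.2 = 0) (F : Cfg V → ℝ) :
    Ex (m.W (η + u)) F = Ex (m.W η) fun s => F (s + u) := by
  rw [← ex_equiv (Equiv.addRight u)]
  simp only [Equiv.coe_addRight, W_far m η u _ hA hE]

omit [DecidableEq V] in
theorem zs_far (m : Mdl V) (η u : Cfg V) (hA : ∀ x ∈ m.A, u x = 0)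
    (hE : ∀ e ∈ m.ed, u e.1 = 0 ∧ u e.2 = 0) : Zs (m.W (η + u)) = Zs (m.W η) := by
  rw [← zs_equiv (Equiv.addRight u)]
  simp only [Equiv.coe_addRight, W_far m η u _ hA hE]

theorem fam_even {w : ℤ → ℝ} (h : Fam w) (k : ℤ) : w (-k) = w k := by
  obtain ⟨xy, τ, -, rfl⟩ := h
  cases xy <;> simp [kern, gau, bes]

end gauge

section iso
variable {V V' : Type*} [DecidableEq V] [DecidableEq V'] {m : Mdl V} {m' : Mdl V'} {φ : V ≃ V'}
  {ψ : V × V ≃ V' × V'}

omit [DecidableEq V] [DecidableEq V'] in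
theorem iso_off (hI : m.Iso m' φ ψ) (η s : Cfg V) :
    (∀ x, x ∉ m'.A → Finsupp.equivMapDomain φ s x = Finsupp.equivMapDomain φ η x) ↔
      ∀ x, x ∉ m.A → s x = η x := by
  rw [hI.1]
  simp only [Finsupp.equivMapDomain_apply, Finset.mem_map_equiv]
  exact ⟨fun h x hx => by simpa using h (φ x) (by simpa using hx), fun h x hx => h _ hx⟩

omit [DecidableEq V] [DecidableEq V'] in
theorem iso_w (hF : m.Fm) (hI : m.Iso m' φ ψ) (s : Cfg V) {e : V × V} (he : e ∈ m.ed) :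
    m'.w (ψ e) (dE (ψ e) (Finsupp.equivMapDomain φ s)) = m.w e (dE e s) := by
  rw [hI.2.2.2.1 e he]
  rcases hI.2.2.1 e with h | h
  · rw [h]; simp [dE]
  · rw [h, ← fam_even (hF e he)]; simp [dE]

omit [DecidableEq V] [DecidableEq V'] in
theorem iso_site (hI : m.Iso m' φ ψ) (s : Cfg V) :
    ∏ x ∈ m'.A, m'.site x (Finsupp.equivMapDomain φ s x) = ∏ x ∈ m.A, m.site x (s x) := by
  rw [hI.1, Finset.prod_map]
  exact Finset.prod_congr rfl fun x hx => by simp [hI.2.2.2.2 x hx]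

omit [DecidableEq V] [DecidableEq V'] in
theorem W_iso (hF : m.Fm) (hI : m.Iso m' φ ψ) (η s : Cfg V) :
    m'.W (Finsupp.equivMapDomain φ η) (Finsupp.equivMapDomain φ s) = m.W η s := by
  simp only [Mdl.W]
  rw [ind_iff (iso_off hI η s), iso_site hI, hI.2.1, Finset.prod_map]
  congr 2
  exact Finset.prod_congr rfl fun e he => iso_w hF hI s he

theorem J_iso (hF : m.Fm) (hI : m.Iso m' φ ψ) (η s : Cfg V) (h : ℤ) (ω : Finset (V × V)) :
    m'.J h (Finsupp.equivMapDomain φ η) (Finsupp.equivMapDomain φ s, ω.map ψ.toEmbedding) =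
      m.J h η (s, ω) := by
  simp only [Mdl.J]
  rw [ind_iff (iso_off hI η s), iso_site hI, hI.2.1, Finset.prod_map,
    ind_iff Finset.map_subset_map]
  congr 2
  refine Finset.prod_congr rfl fun e he => ?_
  have h1 := iso_w hF hI s he
  have h2 : m'.w (ψ e) (|Finsupp.equivMapDomain φ s (ψ e).1 - h| +
      |Finsupp.equivMapDomain φ s (ψ e).2 - h|) = m.w e (|s e.1 - h| + |s e.2 - h|) := by
    rw [hI.2.2.2.1 e he]
    rcases hI.2.2.1 e with h | h
    · rw [h]; simp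
    · rw [h, add_comm]; simp
  simp only [Mdl.bw, Equiv.coe_toEmbedding, h1, h2, Finset.mem_map_equiv, Equiv.symm_apply_apply]

omit [DecidableEq V] [DecidableEq V'] in
theorem ex_iso (hF : m.Fm) (hI : m.Iso m' φ ψ) (η : Cfg V) (F : Cfg V' → ℝ) :
    Ex (m'.W (Finsupp.equivMapDomain φ η)) F =
      Ex (m.W η) fun s => F (Finsupp.equivMapDomain φ s) := by
  rw [← ex_equiv (Finsupp.equivCongrLeft φ)]
  simp only [Finsupp.equivCongrLeft_apply, W_iso hF hI]

omit [DecidableEq V] [DecidableEq V'] in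
theorem ig_iso (hF : m.Fm) (hI : m.Iso m' φ ψ) (η : Cfg V) (F : Cfg V' → ℝ) :
    Ig (m'.W (Finsupp.equivMapDomain φ η)) F ↔
      Ig (m.W η) fun s => F (Finsupp.equivMapDomain φ s) := by
  rw [← ig_equiv (Finsupp.equivCongrLeft φ)]
  simp only [Finsupp.equivCongrLeft_apply, W_iso hF hI]

omit [DecidableEq V] [DecidableEq V'] in
theorem zs_iso (hF : m.Fm) (hI : m.Iso m' φ ψ) (η : Cfg V) :
    Zs (m'.W (Finsupp.equivMapDomain φ η)) = Zs (m.W η) := by
  rw [← zs_equiv (Finsupp.equivCongrLeft φ)]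
  simp only [Finsupp.equivCongrLeft_apply, W_iso hF hI]

omit [DecidableEq V] [DecidableEq V'] in
theorem wt_iso (hF : m.Fm) (hI : m.Iso m' φ ψ) (η : Cfg V) :
    Wt (m'.W (Finsupp.equivMapDomain φ η)) ↔ Wt (m.W η) := by
  rw [← wt_equiv (Finsupp.equivCongrLeft φ)]
  simp only [Finsupp.equivCongrLeft_apply, W_iso hF hI]

/-- transport of pairs -/
def isoE (φ : V ≃ V') (ψ : V × V ≃ V' × V') :
    (Cfg V × Finset (V × V)) ≃ (Cfg V' × Finset (V' × V')) :=
  (Finsupp.equivCongrLeft φ).prodCongr ψ.finsetCongr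

omit [DecidableEq V] [DecidableEq V'] in
theorem isoE_apply (φ : V ≃ V') (ψ : V × V ≃ V' × V') (p : Cfg V × Finset (V × V)) :
    isoE φ ψ p = (Finsupp.equivMapDomain φ p.1, p.2.map ψ.toEmbedding) := rfl

theorem exJ_iso (hF : m.Fm) (hI : m.Iso m' φ ψ) (η : Cfg V) (h : ℤ)
    (F : Cfg V' × Finset (V' × V') → ℝ) :
    Ex (m'.J h (Finsupp.equivMapDomain φ η)) F =
      Ex (m.J h η) fun p => F (Finsupp.equivMapDomain φ p.1, p.2.map ψ.toEmbedding) := by
  rw [← ex_equiv (isoE φ ψ)]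
  simp only [isoE_apply, J_iso hF hI]

theorem wtJ_iso (hF : m.Fm) (hI : m.Iso m' φ ψ) (η : Cfg V) (h : ℤ) :
    Wt (m'.J h (Finsupp.equivMapDomain φ η)) ↔ Wt (m.J h η) := by
  rw [← wt_equiv (isoE φ ψ)]
  simp only [isoE_apply, J_iso hF hI]

omit [DecidableEq V] [DecidableEq V'] in
theorem conn_iso (hψ : ∀ e, ψ e = (φ e.1, φ e.2) ∨ ψ e = (φ e.2, φ e.1)) {ω : Finset (V × V)}
    {x y : V} (h : Conn ω x y) : Conn (ω.map ψ.toEmbedding) (φ x) (φ y) := by
  induction h with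
  | refl => exact conn_refl _ _
  | tail _ h2 ih =>
    refine conn_trans ih ?_
    have key : ∀ e ∈ ω, Conn (ω.map ψ.toEmbedding) (φ e.1) (φ e.2) := by
      intro e he
      have h1 : ψ e ∈ ω.map ψ.toEmbedding := Finset.mem_map_of_mem ψ.toEmbedding he
      rcases hψ e with h | h
      · rw [h] at h1; exact conn_edge h1
      · rw [h] at h1; exact conn_symm (conn_edge h1)
    rcases h2 with h2 | h2
    · exact key _ h2
    · exact conn_symm (key _ h2)

end iso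

section root
variable {V : Type*} [DecidableEq V]

/-- change of the root -/
noncomputable def rtE {B : Finset V} {r r' : V} (hr : r ∈ B) (hr' : r' ∈ B) : Cfg V ≃ Cfg V where
  toFun s := s + cst B (s r - s r')
  invFun t := t + cst B (t r' - t r)
  left_inv s := by
    ext x
    simp only [Finsupp.add_apply, cst_mem hr, cst_mem hr', cst_apply]
    split_ifs <;> ring
  right_inv s := by
    ext x
    simp only [Finsupp.add_apply, cst_mem hr, cst_mem hr', cst_apply]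
    split_ifs <;> ring

theorem W_root (m : Mdl V) {B : Finset V} {r r' : V} (hr : r ∈ B) (hr' : r' ∈ B)
    (hE : ∀ e ∈ m.ed, e.1 ∈ B ∧ e.2 ∈ B) (h1 : ∀ x k, m.site x k = 1) (s : Cfg V) :
    (m.free (B.erase r')).W 0 (rtE hr hr' s) = (m.free (B.erase r)).W 0 s := by
  simp only [Mdl.W, Mdl.free, h1, Finset.prod_const_one, rtE, Equiv.coe_fn_mk]
  congr 2
  · refine ind_iff ?_
    simp only [Finset.mem_erase, not_and_or, not_not, Finsupp.add_apply, Finsupp.coe_zero,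
      Pi.zero_apply]
    constructor
    · intro h x hx
      rcases hx with rfl | hx
      · have := h r' (Or.inl rfl)
        rw [cst_mem hr'] at this
        linarith
      · have := h x (Or.inr hx)
        rwa [cst_not hx, add_zero] at this
    · intro h x hx
      rcases hx with rfl | hx
      · rw [cst_mem hr', h r (Or.inl rfl)]; ring
      · rw [cst_not hx, h x (Or.inr hx), add_zero]
  · exact Finset.prod_congr rfl fun e he => by rw [dE_cst (hE e he).1 (hE e he).2]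

theorem root (m : Mdl V) {B : Finset V} {r r' : V} (hr : r ∈ B) (hr' : r' ∈ B)
    (hE : ∀ e ∈ m.ed, e.1 ∈ B ∧ e.2 ∈ B) (h1 : ∀ x k, m.site x k = 1) {F : Cfg V → ℝ}
    (hF : ∀ s h, F (s + cst B h) = F s) :
    Zs ((m.free (B.erase r)).W 0) = Zs ((m.free (B.erase r')).W 0) ∧
      (Ig ((m.free (B.erase r)).W 0) F ↔ Ig ((m.free (B.erase r')).W 0) F) ∧
      Ex ((m.free (B.erase r)).W 0) F = Ex ((m.free (B.erase r')).W 0) F := by
  have hF' : ∀ s, F (rtE hr hr' s) = F s := fun s => hF s _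
  rw [← zs_equiv (rtE hr hr') ((m.free (B.erase r')).W 0),
    ← ig_equiv (rtE hr hr') ((m.free (B.erase r')).W 0),
    ← ex_equiv (rtE hr hr') ((m.free (B.erase r')).W 0)]
  simp only [W_root m hr hr' hE h1, hF', and_self]

end root

end Md

theorem explStmt : ExplStmt := fun _ _ m h η S _ _ _ hW hF => Md.expl m h η S hW hF

theorem gaugeStmt : GaugeStmt := fun _ _ m =>
  ⟨fun _ h η s hA hE => ⟨Md.W_cst m h η s hA hE, fun h' ω => Md.J_cst m h η s hA hE h' ω⟩,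
    fun η u s σ hu => Md.Ws_gauge m η u s σ hu,
    fun η u s hA hE => ⟨Md.W_far m η u s hA hE, fun h ω => Md.J_far m η u s hA hE h ω⟩⟩

theorem isoStmt : IsoStmt := fun _ _ _ _ _ _ _ _ hF hI η s =>
  ⟨Md.W_iso hF hI η s, fun h ω => Md.J_iso hF hI η s h ω⟩

theorem rootStmt : RootStmt := fun _ _ m _ _ _ hr hr' hE h1 _ hF => Md.root m hr hr' hE h1 hF

end Crest.Agent.T145
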