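import Crest.Agent.T145.MidDef_97

/-!
# Row 145: the critical flow with the operator product expansion of `J` (helper97; repair #1763 of helper29)

Provider: flow glue (`Fl`, `KT.crit`, window propagation).  Consumer: `Vx` (`Top.CritStmt`).
-/

set_option autoImplicit false

namespace Crest.Agent.T145

open Finset Filter

/-- `CritFlowStmt` and, in addition, `J_z = a sin (2 π (ξ, s)) + O (y ^ (1 + δ))` with a small charged mean -/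
def CritFlow2Stmt : Prop := ∀ Λ : Lat, Λ.Crit → ∃ (W₀ : ℕ) (C δ : ℝ), 0 < δ ∧ ∀ᶠ r : ℕ in atTop,
  (∀ (z : Pt) (c : ℕ), W₀ * r ≤ c →
    Nc.Nm Λ z c (Nc.St Λ z r (Jz z)) ≤ C / ((r : ℝ) ^ 2 * Real.log r)) ∧
  (∃ R : ℕ, ∀ (m : Mdl Pt) (z : Pt), Nc.Amb Λ m (bl z R) →
    |gJ (m.W 0) z r - (2 / Real.pi + 1 / (Real.pi * Real.log r))| ≤ C * Real.log r ^ (-1 - δ)) ∧
  ∃ (a : ℝ) (ξ : Pt → ℝ) (R : ℕ), Sup (bl 0 r) ξ ∧ ∑ x ∈ bl 0 r, ξ x = 1 ∧ ∀ z : Pt,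
    (∀ c : ℕ, W₀ * r ≤ c → Nc.Nm Λ z c (Nc.St Λ z r fun s =>
      Jz z s - a * Real.sin (2 * Real.pi * pr (fun x => ξ (x - z)) s)) ≤
        C * Real.log r ^ (-1 - δ) / (r : ℝ) ^ 2) ∧
    ∀ m : Mdl Pt, Nc.Amb Λ m (bl z R) →
      |a| * Ph (m.W 0) ((2 * Real.pi) • pr fun x => ξ (x - z)) ≤ C * Real.log r ^ (-1 - δ) / (r : ℝ) ^ 2

theorem CritFlow2Stmt.one (h : CritFlow2Stmt) : CritFlowStmt := fun Λ hΛ => by
  obtain ⟨W₀, C, δ, hδ, h⟩ := h Λ hΛ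
  exact ⟨W₀, C, δ, hδ, h.mono fun r hr => ⟨hr.1, hr.2.1⟩⟩

end Crest.Agent.T145
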