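import Crest.Agent.T145.ScB_97
import Crest.Agent.T145.TopDef_76

/-!
# Row 145: what the twisted module consumes from the flow (helper97)

Provider: flow glue (`Fl`, `KT.crit`, window propagation).  Consumer: `Vx` (`Top.CritStmt`).
-/

set_option autoImplicit false

namespace Crest.Agent.T145

open Finset Filter

/-- squared Euclidean length -/
def n2 (x : Pt) : ℝ := (x.1 : ℝ) ^ 2 + (x.2 : ℝ) ^ 2

/-- the running stiffness read on the two-point function of `J` (sharp cut-off, weight `W`) -/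
noncomputable def gJ (W : Cfg Pt → ℝ) (z : Pt) (r : ℕ) : ℝ :=
  -(1 / 4) * ∑ x ∈ bl 0 r, Ex W (fun s => Jz z s * Jz (z + x) s) * n2 x

/-- the critical flow: `y ≲ 1 / log r` in the norm, `g (r) = 2 / π + 1 / (π log r) + O ((log r) ^ (-1 - δ))`
in every ambient model that contains a large enough ball -/
def CritFlowStmt : Prop := ∀ Λ : Lat, Λ.Crit → ∃ (W₀ : ℕ) (C δ : ℝ), 0 < δ ∧ ∀ᶠ r : ℕ in atTop,
  (∀ (z : Pt) (c : ℕ), W₀ * r ≤ c →
    Nc.Nm Λ z c (Nc.St Λ z r (Jz z)) ≤ C / ((r : ℝ) ^ 2 * Real.log r)) ∧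
  ∃ R : ℕ, ∀ (m : Mdl Pt) (z : Pt), Nc.Amb Λ m (bl z R) →
    |gJ (m.W 0) z r - (2 / Real.pi + 1 / (Real.pi * Real.log r))| ≤ C * Real.log r ^ (-1 - δ)

end Crest.Agent.T145
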