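import Crest.Agent.T145.MidDef2_76
import Crest.Agent.T145.Soft_23
import Crest.Agent.T145.KtM_54

/-!
# Row 145 (helper54): windows below the threshold, the ball lemma, uniform limits
-/

set_option autoImplicit false

namespace Crest.Agent.T145.Mid.S54

open Finset Filter Topology

theorem ev_Icc {bc : ℝ} {p : ℝ → Prop} (h : ∀ᶠ b in 𝓝 bc, p b) :
    ∀ᶠ b₀ in 𝓝[<] bc, ∀ b ∈ Set.Icc b₀ bc, p b := by
  obtain ⟨ε, hε, h⟩ := Metric.eventually_nhds_iff.1 h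
  filter_upwards [mem_nhdsWithin_of_mem_nhds (Metric.ball_mem_nhds bc hε)] with b₀ h0 b hb
  rw [Metric.mem_ball, Real.dist_eq, abs_lt] at h0
  refine h ?_
  rw [Real.dist_eq, abs_lt]
  constructor <;> linarith [hb.1, hb.2, h0.1]

/-- limit in the ambient scale, uniformly in the parameter -/
theorem ulim {bc : ℝ} {G : ℝ → ℕ → Prop} {N : ℝ → ℕ} {f : ℝ → ℕ → ℝ}
    (hG : ∀ b n n', G b n → n' ≤ n → G b n') (hc : ∀ n, G bc n) (hN : Tendsto N (𝓝[<] bc) atTop)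
    (hb : ∀ᶠ b₀ in 𝓝[<] bc, ∀ b ∈ Set.Icc b₀ bc, G b (N b₀))
    (h1 : ∀ t, 0 < t → ∃ N₀, ∀ b n n', G b n → G b n' → N₀ ≤ n → n ≤ n' → |f b n - f b n'| ≤ t)
    (h2 : ∀ᶠ n in atTop, ContinuousAt (fun b => f b n) bc) :
    ∃ L, Tendsto (f bc) atTop (𝓝 L) ∧
      ∀ t, 0 < t → ∀ᶠ b₀ in 𝓝[<] bc, ∀ b ∈ Set.Icc b₀ bc, |f b (N b₀) - L| ≤ t := by
  obtain ⟨L, hL⟩ := cauchySeq_tendsto_of_complete (u := f bc) (Metric.cauchySeq_iff'.2 fun t ht => by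
    obtain ⟨N₀, h⟩ := h1 _ (half_pos ht)
    exact ⟨N₀, fun n hn => by
      rw [Real.dist_eq, abs_sub_comm]
      exact (h bc N₀ n (hc _) (hc _) le_rfl hn).trans_lt (half_lt_self ht)⟩)
  refine ⟨L, hL, fun t ht => ?_⟩
  have t3 : 0 < t / 3 := by positivity
  obtain ⟨N₀, h⟩ := h1 _ t3
  obtain ⟨n, n1, n2, n3⟩ := (h2.and ((eventually_ge_atTop N₀).and (KT.ev_abs hL t3))).exists
  filter_upwards [hb, ev_Icc (KT.ev_abs n1 t3), hN.eventually_ge_atTop n] with b₀ k1 k2 k3 b k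
  have := abs_le.1 (h b n _ (hG _ _ _ (k1 b k) k3) (k1 b k) n2 k3)
  have := abs_le.1 (k2 b k)
  have := abs_le.1 n3
  rw [abs_le]; constructor <;> linarith

theorem exists_pow {B θ t : ℝ} (h0 : 0 ≤ θ) (h1 : θ < 1) (ht : 0 < t) :
    ∀ᶠ k : ℕ in atTop, B * θ ^ k ≤ t := by
  have := (tendsto_pow_atTop_nhds_zero_of_lt_one h0 h1).const_mul B
  rw [mul_zero] at this
  exact this.eventually (ge_mem_nhds ht)

theorem mul_gap {w k K : ℕ} (hw : 1 ≤ w) (h : k ≤ K) : w * k + (K - k) ≤ w * K := by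
  obtain ⟨j, rfl⟩ := Nat.exists_eq_add_of_le h
  rw [mul_add, Nat.add_sub_cancel_left]
  exact Nat.add_le_add_left (Nat.le_mul_of_pos_left j hw) _

variable {F : Fa} {θ₀ δ δ' : ℝ} {Λ : Lat} {l a N : ℕ}

theorem cw_mono (h : Cw θ₀ δ Λ l N) (hδ : δ ≤ δ') : Cw θ₀ δ' Λ l N :=
  ⟨⟨h.1.1, h.1.2.1.mono hδ, h.1.2.2.1, h.1.2.2.2.trans hδ⟩, h.2.trans hδ⟩

/-- all the windows with top in `[2 ^ a, 2 ^ N]` -/
def Aw (F : Fa) (θ₀ δ : ℝ) (Λ : Lat) (l a N : ℕ) : Prop :=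
  F.Mem Λ ∧ ∀ n, a ≤ n → n ≤ N → Cw θ₀ δ Λ l n

theorem Aw.anti (h : Aw F θ₀ δ Λ l a N) {n : ℕ} (hn : n ≤ N) : Aw F θ₀ δ Λ l a n :=
  ⟨h.1, fun j h1 h2 => h.2 j h1 (h2.trans hn)⟩

theorem Aw.mono (h : Aw F θ₀ δ Λ l a N) (hδ : δ ≤ δ') : Aw F θ₀ δ' Λ l a N :=
  ⟨h.1, fun j h1 h2 => cw_mono (h.2 j h1 h2) hδ⟩

theorem kappa_pos {φ : Fw} (h : 1 ≤ φ.w) : 0 < φ.κ :=
  mul_pos Real.pi_pos (Real.log_pos (one_lt_pow₀ one_lt_two (by omega)))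

/-- in good windows the orbit is small -/
theorem ball {φ : Fw} {P : Par} (O : Odd F θ₀ φ P) (hθ : 0 < θ₀) (hV : VxStmt) (hD : DnStmt) {ε : ℝ}
    (hε : 0 < ε) : ∃ δ, 0 < δ ∧ δ ≤ P.δ ∧ ∀ l a, ∃ a₂ c, a ≤ a₂ ∧ ∀ Λ N k, Aw F θ₀ δ Λ l a N → a₂ ≤ k →
      φ.w * k + c ≤ N → 0 < φ.y Λ N k ∧ φ.η Λ N k ≤ ε := by
  obtain ⟨C, C0, hv⟩ := hV F θ₀ φ P O
  have κ0 := kappa_pos O.w1
  obtain ⟨Y, Y0, Y1, Y2⟩ : ∃ Y, 0 < Y ∧ Y ≤ ε / 4 ∧ C * Y ^ 2 * 257 ≤ ε / 4 := by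
    refine ⟨min (ε / 4) (1 / (257 * C + 1)), by positivity, min_le_left _ _, ?_⟩
    have a1 := min_le_left (ε / 4) (1 / (257 * C + 1))
    have a2 := (le_div_iff₀ (by positivity)).1 (min_le_right (ε / 4) (1 / (257 * C + 1)))
    have a3 : 0 < min (ε / 4) (1 / (257 * C + 1)) := by positivity
    nlinarith
  obtain ⟨δ₃, m, δ3, he⟩ := O.ent Y Y0
  have e0 : 0 < ε / 8 / φ.κ := by positivity
  obtain ⟨δ₄, δ4, hd⟩ := hD F θ₀ 1 _ hθ le_rfl e0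
  have δ0 := P.δ0
  refine ⟨min (min P.δ δ₃) (min δ₄ (ε / 8 / φ.κ)), by positivity,
    (min_le_left _ _).trans (min_le_left _ _), fun l a => ?_⟩
  obtain ⟨B₁, B1, hv⟩ := hv l
  obtain ⟨a₁, he⟩ := he l
  obtain ⟨a₂, hp⟩ := O.pos l
  obtain ⟨a₃, B, B0, hv⟩ := hv (a + a₁ + a₂)
  have m1 : max P.θ (1 / 2) < 1 := max_lt P.θ1 (by norm_num)
  obtain ⟨k₁, h₁⟩ := eventually_atTop.1 (exists_pow (B := B) (le_max_of_le_left P.θ0.le) m1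
    (show 0 < ε / 8 by positivity))
  obtain ⟨k₂, h₂⟩ := eventually_atTop.1 (exists_pow (B := B₁) P.θ0.le P.θ1 (show 0 < ε / 8 by positivity))
  refine ⟨a + a₁ + a₂ + a₃ + k₁, φ.w + P.s + m + k₂, by omega, fun Λ N k A hk hN => ?_⟩
  have g0 := mul_gap O.w1 (Nat.zero_le k)
  have hV : ∀ j, j ≤ k → φ.V F θ₀ P Λ l N j := fun j hj => by
    have := mul_gap O.w1 hj
    exact ⟨A.1, cw_mono (A.2 N (by omega) le_rfl) ((min_le_left _ _).trans (min_le_left _ _)),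
      by rw [mul_add]; omega⟩
  have hy : ∀ j, a + a₁ + a₂ ≤ j → j ≤ k → 0 < φ.y Λ N j ∧ φ.y Λ N j ≤ Y := fun j j1 j2 => by
    have := mul_gap O.w1 j2
    have := mul_gap O.w1 (Nat.zero_le j)
    obtain ⟨c, c0, hc⟩ := hp j (by omega)
    exact ⟨c0.trans_le (hc Λ N (hV j j2)), he Λ N j (hV j j2) (by omega) (by omega)
      (cw_mono (A.2 _ (by omega) (by omega)) ((min_le_left _ _).trans (min_le_right _ _))).1⟩
  have r1 : φ.r k ≤ 2 ^ N := Nat.pow_le_pow_right two_pos (by omega)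
  have k1 := hv Λ N k (hV k le_rfl) (by omega) Y (fun j j1 j2 => by
    rw [abs_of_pos (hy j j1 j2).1]
    exact (hy j j1 j2).2.trans (le_mul_of_one_le_right Y0.le (one_le_pow₀ (by norm_num))))
    (φ.r k) (16 * 2 ^ N) le_rfl (by omega) le_rfl
  have W := A.2 (φ.w * k) (by omega) (by omega)
  have k2 := hd Λ A.1 l _ (cw_mono W ((min_le_right _ _).trans (min_le_left _ _))).1 (16 * 2 ^ N)
    (Nat.mul_le_mul_left 16 r1)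
  have k3 := W.2.trans ((min_le_right _ _).trans (min_le_right _ _))
  have k4 : |φ.κ * (Vt Λ (16 * 2 ^ N) (φ.r k) - 2 / Real.pi)| ≤ ε / 4 := by
    rw [abs_mul, abs_of_pos κ0, ← le_div_iff₀' κ0]
    refine (abs_sub_le _ (Λ.gN l) _).trans ((add_le_add k2 k3).trans (le_of_eq (by ring)))
  have k5 : (φ.r k : ℝ) / φ.r k * (1 + φ.r k * ((16 * 2 ^ N : ℕ) : ℝ) ^ 2 / (2 ^ N) ^ 3) ≤ 257 := by
    have a1 : (0 : ℝ) < φ.r k := by exact_mod_cast Nat.two_pow_pos _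
    have a2 : (φ.r k : ℝ) ≤ 2 ^ N := by exact_mod_cast r1
    have a3 : (φ.r k : ℝ) * ((16 * 2 ^ N : ℕ) : ℝ) ^ 2 / (2 ^ N) ^ 3 ≤ 256 := by
      rw [div_le_iff₀ (by positivity)]; push_cast
      calc _ ≤ (2 : ℝ) ^ N * (16 * 2 ^ N) ^ 2 := by gcongr
        _ = _ := by ring
    rw [div_self a1.ne']; linarith
  have k6 := mul_le_mul_of_nonneg_left k5 (show 0 ≤ C * Y ^ 2 by positivity)
  have k7 := h₁ k (by omega)
  have k8 := h₂ (N - φ.w * k) (by omega)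
  have k9 := abs_sub (φ.κ * (Vt Λ (16 * 2 ^ N) (φ.r k) - 2 / Real.pi))
    (φ.κ * (Vt Λ (16 * 2 ^ N) (φ.r k) - 2 / Real.pi) - φ.x Λ N k)
  rw [sub_sub_cancel] at k9
  exact ⟨(hy k (by omega) le_rfl).1, by rw [Fw.η]; linarith [(hy k (by omega) le_rfl).2]⟩

theorem aw_of (h : F.Mem Λ) (h1 : δ' ≤ 1 / Real.pi) (h2 : δ' ≤ δ) (h3 : 2 * δ' * (F.base.a / F.τ₁) ≤ δ)
    (h4 : Sep δ l (2 ^ a)) (h5 : |Λ.gN l - 2 / Real.pi| ≤ δ')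
    (h6 : ∀ j, a < j → j ≤ N + 1 → 2 / Real.pi - δ' ≤ Λ.gN (2 ^ j)) :
    Aw F (1 / Real.pi * (1 / F.τ₂)) δ Λ l a N := by
  refine ⟨h, fun n n1 n2 => ⟨⟨⟨n, rfl⟩, h4.mono_right (Nat.pow_le_pow_right two_pos n1), ?_, ?_⟩,
    h5.trans h2⟩⟩ <;> have k := h6 (n + 1) (by omega) (by omega) <;> rw [pow_succ'] at k
  · have := Real.pi_pos
    have := h.tau2_pos
    have e : 2 / Real.pi = 2 * (1 / Real.pi) := by ring
    rw [← h.ok.gN_mul]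
    exact mul_le_mul (by linarith) h.e0_ge (by positivity) (le_trans (by positivity)
      (show 1 / Real.pi ≤ _ by linarith))
  · rw [← h.ok.gN_mul, ← h.ok.gN_mul, ← sub_mul]
    exact (mul_le_mul (by linarith [(abs_le.1 h5).2]) h.e0_le h.e0_pos.le
      (by linarith [(abs_nonneg _).trans h5])).trans h3

/-- the horizon below the threshold -/
theorem horizon (h1 : T1mStmt) (hd : T1dStmt) (hc : Λ.Crit) (hδ : 0 < δ) :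
    ∃ (δ' : ℝ) (l a : ℕ) (N : ℝ → ℕ), 0 < δ' ∧ Tendsto N (𝓝[<] Λ.τ) atTop ∧
      (∀ n, Aw (Λ.fa2 hc.1) (1 / Real.pi * (1 / (2 * Λ.τ))) δ Λ l a n) ∧ ∀ᶠ b₀ in 𝓝[<] Λ.τ,
      (∀ b ∈ Set.Icc b₀ Λ.τ, Aw (Λ.fa2 hc.1) (1 / Real.pi * (1 / (2 * Λ.τ))) δ (Λ.at' b) l a (N b₀)) ∧
      δ' ≤ (Λ.at' b₀).gN (2 ^ (N b₀ + 1)) ∧ (Λ.at' b₀).gN (2 ^ (N b₀ + 2)) ≤ 2 / Real.pi - δ' := by
  obtain ⟨E, hE⟩ : ∃ E, E = (Λ.fa2 hc.1).base.a / (Λ.fa2 hc.1).τ₁ := ⟨_, rfl⟩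
  have E0 : 0 < E := hE ▸ div_pos (Fa.base_ok _).a_pos (Λ.fa2 hc.1).pos
  have π0 := Real.pi_pos
  obtain ⟨δ', d0, d1, d2, d3⟩ : ∃ δ', 0 < δ' ∧ δ' ≤ 1 / Real.pi ∧ δ' ≤ δ ∧ 2 * δ' * E ≤ δ :=
    ⟨min (min (1 / Real.pi) δ) (δ / (2 * E)), by positivity, (min_le_left _ _).trans (min_le_left _ _),
      (min_le_left _ _).trans (min_le_right _ _), by
        have := (le_div_iff₀ (by positivity)).1 (min_le_right (min (1 / Real.pi) δ) (δ / (2 * E)))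
        linarith⟩
  have tg : ∀ Λ' : Lat, Λ'.Ok → Tendsto Λ'.gN atTop (𝓝 Λ'.gI) := fun Λ' h => (h1.1 Λ' h).1.div_const _
  have cg : ∀ L, Tendsto (fun τ => (Λ.at' τ).gN L) (𝓝 Λ.τ) (𝓝 (Λ.gN L)) := fun L =>
    (hd.2.2 Λ L hc.1).1.continuousAt (Ioi_mem_nhds hc.1.2)
  obtain ⟨l, hl⟩ := eventually_atTop.1 ((KT.ev_abs (hc.2.1 ▸ tg Λ hc.1) (half_pos d0)).and
    ((tendsto_natCast_atTop_atTop.const_mul_atTop hδ).eventually_ge_atTop 1))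
  have t2 : Tendsto (fun j : ℕ => 2 ^ j) atTop atTop := tendsto_pow_atTop_atTop_of_one_lt one_lt_two
  obtain ⟨a, ha⟩ := eventually_atTop.1 ((t2.eventually_ge_atTop l).and
    (((tendsto_natCast_atTop_atTop.comp t2).const_mul_atTop hδ).eventually_ge_atTop (l : ℝ)))
  have hS : Sep δ l (2 ^ a) := ⟨(hl l le_rfl).2, (ha a le_rfl).2⟩
  let S : ℝ → Set ℕ := fun b => {j | a < j ∧ (Λ.at' b).gN (2 ^ j) < 2 / Real.pi - δ'}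
  have hpos : ∀ᶠ b₀ in 𝓝[<] Λ.τ, 0 < b₀ ∧ b₀ < Λ.τ :=
    Eventually.and (mem_nhdsWithin_of_mem_nhds (Ioi_mem_nhds hc.1.2)) self_mem_nhdsWithin
  have hne : ∀ᶠ b₀ in 𝓝[<] Λ.τ, sInf (S b₀) ∈ S b₀ := hpos.mono fun b₀ k => Nat.sInf_mem (by
    have t := (tg (Λ.at' b₀) ⟨hc.1.1, k.1⟩).comp t2
    rw [hc.2.2 b₀ k.1 k.2] at t
    have e : 2 / Real.pi = 2 * (1 / Real.pi) := by ring
    have : 0 < 1 / Real.pi := by positivity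
    exact ((eventually_gt_atTop a).and (t.eventually (gt_mem_nhds (by linarith)))).exists)
  have tS : Tendsto (fun b₀ => sInf (S b₀)) (𝓝[<] Λ.τ) atTop := tendsto_atTop.2 fun n => by
    filter_upwards [hne, mem_nhdsWithin_of_mem_nhds ((eventually_all_finset (Ioc a n)).2 fun j hj =>
      (cg (2 ^ j)).eventually (lt_mem_nhds (show 2 / Real.pi - δ' < _ by
        linarith [(abs_le.1 (hl _ (ha j (mem_Ioc.1 hj).1.le).1).1).1])))] with b₀ k1 k2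
    exact not_lt.1 fun k => lt_asymm k1.2 (k2 _ (mem_Ioc.2 ⟨k1.1, k.le⟩))
  refine ⟨δ', l, a, fun b₀ => sInf (S b₀) - 2, d0, (tendsto_sub_atTop_nat 2).comp tS,
    fun n => aw_of (Lat.mem_fa2 hc.1) d1 d2 (hE ▸ d3) hS ((hl l le_rfl).1.trans (by linarith))
      fun j j1 _ => by linarith [(abs_le.1 (hl _ (ha j j1.le).1).1).1], ?_⟩
  filter_upwards [hpos, hne, tS.eventually_ge_atTop (a + 2), ev_Icc (Lat.ev_mem_fa2 hc.1),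
    ev_Icc (KT.ev_abs (cg l) (half_pos d0))] with b₀ k1 k2 k3 k4 k5
  have lo : ∀ j, a < j → j < sInf (S b₀) → 2 / Real.pi - δ' ≤ (Λ.at' b₀).gN (2 ^ j) := fun j j1 j2 =>
    not_lt.1 fun k => Nat.notMem_of_lt_sInf j2 ⟨j1, k⟩
  refine ⟨fun b hb => aw_of (k4 b hb) d1 d2 (hE ▸ d3) hS ?_ fun j j1 j2 => (lo j j1 (by omega)).trans
    ((hd.2.2 Λ _ hc.1).2.2 k1.1 (k1.1.trans_le hb.1) hb.1), ?_, ?_⟩
  · exact (abs_sub_le _ (Λ.gN l) _).trans (by linarith [k5 b hb, (hl l le_rfl).1])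
  · have e : 2 / Real.pi = 2 * (1 / Real.pi) := by ring
    linarith [lo (sInf (S b₀) - 2 + 1) (by omega) (by omega)]
  · rw [show sInf (S b₀) - 2 + 2 = sInf (S b₀) by omega]; exact k2.2.le

theorem er_le {φ : Fw} {P : Par} {C d θ : ℝ} {k K k₀ : ℕ} (hC : P.C ≤ C) (hd0 : 0 ≤ d) (hd : d ≤ P.d)
    (hθ : P.θ ≤ θ) (hθ1 : θ ≤ 1) (h0 : 0 ≤ φ.η Λ N k) (h1 : φ.η Λ N k ≤ 1)
    (hk : k₀ + (K - k) ≤ N - φ.w * k) :
    0 ≤ φ.er P Λ N k ∧ φ.er P Λ N k ≤ KT.er C d θ (C * θ ^ k₀) K (φ.x Λ N) (φ.y Λ N) k := by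
  have := P.θ0
  have := P.C0
  refine ⟨by rw [Fw.er]; positivity, ?_⟩
  rw [KT.er, mul_assoc, ← mul_add, ← pow_add]
  refine mul_le_mul hC (add_le_add (Real.rpow_le_rpow_of_exponent_ge' h0 h1 hd0 hd) ?_) (by positivity)
    (by linarith)
  exact (pow_le_pow_left₀ P.θ0.le hθ _).trans (pow_le_pow_of_le_one (by linarith) hθ1 hk)

theorem Abd_mono {M B θ θ' : ℝ} {K n : ℕ} {x y p q : ℕ → ℝ} (hM : 0 ≤ M) (h0 : 0 ≤ θ) (h : θ ≤ θ') :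
    KT.Abd M B θ a K x y p q n ≤ KT.Abd M B θ' a K x y p q n := by
  unfold KT.Abd; gcongr

end Crest.Agent.T145.Mid.S54
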