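import Mathlib

/-!
# Row 145, XY duality, part A (helper48): the kernel `I_k(b)`

* `besI b k = ∑ j, (b/2)^(2j+|k|) / (j! (j+|k|)!)`, positivity, evenness
* `hasSum_gen` : `∑ k, I_k(b) u^k = exp ((b/2) (u + u⁻¹))` for `u ≠ 0` (complex or real)
* `hasSum_pi`  : products of absolutely convergent series over a finite index type
-/

set_option autoImplicit false

open Finset
open scoped Nat

noncomputable section

namespace Crest.Agent.T145.Xy48

/-- the term of the series of `I_k(b)` -/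
def bt (b : ℝ) (k : ℤ) (j : ℕ) : ℝ :=
  (b / 2) ^ (2 * j + k.natAbs) / ((j ! : ℝ) * ((j + k.natAbs)! : ℝ))

/-- the modified Bessel function `I_k(b)` -/
def besI (b : ℝ) (k : ℤ) : ℝ := ∑' j : ℕ, bt b k j

/-- `(k, j) ↦ (j + k⁺, j + k⁻)` -/
def eqv : ℤ × ℕ ≃ ℕ × ℕ where
  toFun p := (p.2 + p.1.toNat, p.2 + (-p.1).toNat)
  invFun q := ((q.1 : ℤ) - q.2, min q.1 q.2)
  left_inv p := by
    obtain ⟨k, j⟩ := p
    ext <;> simp only <;> omega
  right_inv q := by
    obtain ⟨m, n⟩ := q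
    ext <;> simp only <;> omega

theorem bt_eq (b : ℝ) (k : ℤ) (j : ℕ) :
    bt b k j = (b / 2) ^ (j + k.toNat) / ((j + k.toNat)! : ℝ) *
      ((b / 2) ^ (j + (-k).toNat) / ((j + (-k).toNat)! : ℝ)) := by
  rw [bt, div_mul_div_comm, ← pow_add]
  rcases le_total 0 k with h | h
  · have h1 : (-k).toNat = 0 := by omega
    have h2 : k.toNat = k.natAbs := by omega
    rw [h1, h2, add_zero, mul_comm ((j ! : ℕ) : ℝ)]
    congr 2; ring
  · have h1 : k.toNat = 0 := by omega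
    have h2 : (-k).toNat = k.natAbs := by omega
    rw [h1, h2, add_zero]
    congr 2; ring

theorem bt_neg (b : ℝ) (k : ℤ) : bt b (-k) = bt b k := by
  funext j; simp [bt]

theorem besI_neg (b : ℝ) (k : ℤ) : besI b (-k) = besI b k := by rw [besI, bt_neg, besI]

theorem besI_sub_comm (b : ℝ) (k l : ℤ) : besI b (k - l) = besI b (l - k) := by
  rw [← besI_neg, neg_sub]

theorem bt_nonneg {b : ℝ} (hb : 0 ≤ b) (k : ℤ) (j : ℕ) : 0 ≤ bt b k j := by
  unfold bt; positivity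

theorem bt_pos {b : ℝ} (hb : 0 < b) (k : ℤ) (j : ℕ) : 0 < bt b k j := by
  unfold bt; positivity

theorem besI_nonneg {b : ℝ} (hb : 0 ≤ b) (k : ℤ) : 0 ≤ besI b k :=
  tsum_nonneg (bt_nonneg hb k)

theorem hasSum_exp (x : ℂ) : HasSum (fun n : ℕ => x ^ n / (n ! : ℂ)) (Complex.exp x) := by
  rw [Complex.exp_eq_exp_ℂ]
  exact NormedSpace.expSeries_div_hasSum_exp x

theorem hasSum_pair (b : ℝ) {u : ℂ} (hu : u ≠ 0) :
    HasSum (fun p : ℤ × ℕ => (bt b p.1 p.2 : ℂ) * u ^ p.1)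
      (Complex.exp ((b / 2 : ℂ) * (u + u⁻¹))) := by
  obtain ⟨f, hf⟩ : ∃ f : ℕ → ℂ, f = fun n : ℕ => ((b / 2 : ℂ) * u) ^ n / (n ! : ℂ) := ⟨_, rfl⟩
  obtain ⟨g, hg⟩ : ∃ g : ℕ → ℂ, g = fun n : ℕ => ((b / 2 : ℂ) * u⁻¹) ^ n / (n ! : ℂ) := ⟨_, rfl⟩
  have h1 : HasSum f (Complex.exp ((b / 2 : ℂ) * u)) := hf ▸ hasSum_exp _
  have h2 : HasSum g (Complex.exp ((b / 2 : ℂ) * u⁻¹)) := hg ▸ hasSum_exp _
  have h3 := h1.mul h2 (summable_mul_of_summable_norm h1.summable.norm h2.summable.norm)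
  rw [← Complex.exp_add, ← mul_add, ← eqv.hasSum_iff] at h3
  have e : ((fun x : ℕ × ℕ => f x.1 * g x.2) ∘ eqv) =
      fun p : ℤ × ℕ => (bt b p.1 p.2 : ℂ) * u ^ p.1 := by
    funext p
    obtain ⟨k, j⟩ := p
    have h4 : u ^ (j + k.toNat) * u⁻¹ ^ (j + (-k).toNat) = u ^ k := by
      rw [inv_pow, ← zpow_natCast, ← zpow_natCast, ← zpow_neg, ← zpow_add₀ hu]
      congr 1
      omega
    simp only [Function.comp, eqv, Equiv.coe_fn_mk, hf, hg, bt_eq, mul_pow]
    rw [← h4]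
    push_cast
    ring
  rwa [e] at h3

theorem summable_bt (b : ℝ) (k : ℤ) : Summable (bt b k) := by
  have h1 := (hasSum_pair b one_ne_zero).summable.prod_factor k
  simp only [one_zpow, mul_one] at h1
  exact_mod_cast h1

theorem hasSum_besI (b : ℝ) (k : ℤ) : HasSum (bt b k) (besI b k) := (summable_bt b k).hasSum

theorem besI_pos {b : ℝ} (hb : 0 < b) (k : ℤ) : 0 < besI b k :=
  (summable_bt b k).tsum_pos (bt_nonneg hb.le k) 0 (bt_pos hb k 0)

/-- generating function -/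
theorem hasSum_gen (b : ℝ) {u : ℂ} (hu : u ≠ 0) :
    HasSum (fun k : ℤ => (besI b k : ℂ) * u ^ k) (Complex.exp ((b / 2 : ℂ) * (u + u⁻¹))) :=
  (hasSum_pair b hu).prod_fiberwise fun k =>
    (Complex.hasSum_ofReal.2 (hasSum_besI b k)).mul_right (u ^ k)

theorem hasSum_genR (b : ℝ) {u : ℝ} (hu : u ≠ 0) :
    HasSum (fun k : ℤ => besI b k * u ^ k) (Real.exp (b / 2 * (u + u⁻¹))) := by
  have h1 := hasSum_gen b (u := (u : ℂ)) (by exact_mod_cast hu)
  rw [← Complex.hasSum_ofReal]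
  push_cast
  exact h1

/-- `∑ k, I_k(b) = e^b` -/
theorem hasSum_besI_one (b : ℝ) : HasSum (besI b) (Real.exp b) := by
  have h1 := hasSum_genR b one_ne_zero
  simp only [one_zpow, mul_one, inv_one] at h1
  rwa [show b / 2 * (1 + 1) = b by ring] at h1

/-- `∑ k, I_k(b) e^{tk} = exp (b cosh t)` -/
theorem hasSum_besI_exp (b t : ℝ) :
    HasSum (fun k : ℤ => besI b k * Real.exp (t * k)) (Real.exp (b * Real.cosh t)) := by
  have h1 := hasSum_genR b (Real.exp_pos t).ne'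
  rw [← Real.exp_neg] at h1
  convert h1 using 2
  · rw [Real.exp_mul, Real.rpow_intCast]
  · rw [Real.cosh_eq]; ring

/-- `∑ k, I_k(b) e^{ikt} = exp (b cos t)` -/
theorem hasSum_besI_cexp (b t : ℝ) :
    HasSum (fun k : ℤ => (besI b k : ℂ) * Complex.exp (k * t * Complex.I))
      (Real.exp (b * Real.cos t)) := by
  have h1 := hasSum_gen b (Complex.exp_ne_zero (t * Complex.I))
  rw [← Complex.exp_neg] at h1
  convert h1 using 2
  · rw [mul_assoc, Complex.exp_int_mul]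
  · push_cast
    rw [Complex.cos, neg_mul]; ring

theorem summable_besI (b : ℝ) : Summable (besI b) := (hasSum_besI_one b).summable

/-! ## products of series -/

theorem hasSum_pi_fin {β : Type*} {n : ℕ} (f : Fin n → β → ℂ) (s : Fin n → ℂ)
    (hs : ∀ a, HasSum (f a) (s a)) :
    HasSum (fun m : Fin n → β => ∏ a, f a (m a)) (∏ a, s a) := by
  induction n with
  | zero => simp
  | succ n ih =>
    have h1 := ih (fun a => f a.succ) (fun a => s a.succ) (fun a => hs _)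
    obtain ⟨g, hg⟩ : ∃ g : (Fin n → β) → ℂ, g = fun m => ∏ a : Fin n, f a.succ (m a) := ⟨_, rfl⟩
    rw [← hg] at h1
    have h2 := (hs 0).mul h1 (summable_mul_of_summable_norm (hs 0).summable.norm h1.summable.norm)
    rw [← (Fin.consEquiv fun _ : Fin (n + 1) => β).hasSum_iff, Fin.prod_univ_succ]
    have e : ((fun m : Fin (n + 1) → β => ∏ a, f a (m a)) ∘ Fin.consEquiv fun _ => β) =
        fun p : β × (Fin n → β) => f 0 p.1 * g p.2 := by
      funext p
      simp [Fin.prod_univ_succ, Fin.consEquiv, hg]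
    rw [e]
    exact h2

theorem hasSum_pi {E β : Type*} [Fintype E] (f : E → β → ℂ) (s : E → ℂ)
    (hs : ∀ a, HasSum (f a) (s a)) :
    HasSum (fun m : E → β => ∏ a, f a (m a)) (∏ a, s a) := by
  let e := (Fintype.equivFin E).symm
  have h1 := hasSum_pi_fin (fun a => f (e a)) (fun a => s (e a)) fun a => hs _
  rw [e.prod_comp s] at h1
  rw [← (e.arrowCongr (Equiv.refl β)).hasSum_iff]
  convert h1 using 1
  funext m
  simp only [Function.comp]
  rw [← e.prod_comp]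
  simp [Equiv.arrowCongr]

theorem hasSum_piR {E β : Type*} [Fintype E] (f : E → β → ℝ) (s : E → ℝ)
    (hs : ∀ a, HasSum (f a) (s a)) :
    HasSum (fun m : E → β => ∏ a, f a (m a)) (∏ a, s a) := by
  have h1 := hasSum_pi (fun a m => (f a m : ℂ)) (fun a => (s a : ℂ))
    fun a => Complex.hasSum_ofReal.2 (hs a)
  rw [← Complex.hasSum_ofReal]
  push_cast
  exact h1

end Crest.Agent.T145.Xy48
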