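import Crest.Agent.T145.Def_97
import Crest.Agent.T145.XyA_48

/-!
# Row 145: the cut edge is a mixture of shorter edges (`mixKStmt`) (helper53)

Gaussian family: Cauchy-Schloemilch integral.  Bessel family: first passage decomposition
(ballot numbers and Beta integrals).
-/

set_option autoImplicit false
set_option linter.unusedVariables false

namespace Crest.Agent.T145.Mix53

open MeasureTheory Set Finset
open scoped Nat

/-! ### mixtures from a density -/

theorem mix_of_density (k : ℝ → ℤ → ℝ) (hk : ∀ y, Measurable fun t => k t y) (S D : Set ℝ)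
    (hS : MeasurableSet S) (hD : MeasurableSet D) (g T : ℝ → ℝ) (hg : Measurable g)
    (hT : Measurable T) (hg0 : ∀ x ∈ D, 0 ≤ g x) (hTS : ∀ x ∈ D, T x ∈ S) (v : ℤ → ℝ)
    (hv : ∀ y, v y ≠ 0) (h : ∀ y, v y = ∫ x in D, g x * k (T x) y) :
    ∃ ν : Measure ℝ, ν Sᶜ = 0 ∧ ∀ y, Integrable (fun t => k t y) ν ∧ v y = ∫ t, k t y ∂ν := by
  refine ⟨((volume.restrict D).withDensity fun x => ENNReal.ofReal (g x)).map T, ?_, fun y => ?_⟩
  · rw [Measure.map_apply hT hS.compl]
    refine withDensity_absolutelyContinuous _ _ ?_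
    rw [Measure.restrict_apply (hT hS.compl)]
    convert measure_empty (μ := (volume : Measure ℝ))
    ext x
    simp only [mem_inter_iff, Set.mem_preimage, mem_compl_iff, mem_empty_iff_false, iff_false,
      not_and]
    exact fun h1 h2 => h1 (hTS x h2)
  · have e : ∫ t, k t y ∂(((volume.restrict D).withDensity fun x => ENNReal.ofReal (g x)).map T) =
        v y := by
      rw [integral_map hT.aemeasurable (hk y).aestronglyMeasurable,
        integral_withDensity_eq_integral_toReal_smul hg.ennreal_ofReal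
          (ae_of_all _ fun x => ENNReal.ofReal_lt_top), h y]
      refine setIntegral_congr_fun hD fun x hx => ?_
      simp only [smul_eq_mul]
      rw [ENNReal.toReal_ofReal (hg0 x hx)]
    exact ⟨Integrable.of_integral_ne_zero (by rw [e]; exact hv y), e.symm⟩

/-! ### Cauchy-Schloemilch -/

theorem schl_pos {β : ℝ} (hβ : 0 < β) :
    ∫ u in Ioi (0 : ℝ), Real.exp (-(u - β / u) ^ 2) = Real.sqrt Real.pi / 2 := by
  set ph : ℝ → ℝ := fun u => Real.exp (-(u - β / u) ^ 2) with hph
  have hphm : Measurable ph := by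
    simp only [hph]; fun_prop
  -- the substitution `v = u - β / u`
  have d1 : ∀ u ∈ Ioi (0 : ℝ), HasDerivWithinAt (fun u : ℝ => u - β / u) (1 + β / u ^ 2) (Ioi 0) u := by
    intro u hu
    have hu' : u ≠ 0 := (ne_of_gt hu)
    have := (hasDerivAt_id u).sub ((hasDerivAt_inv hu').const_mul β)
    refine (HasDerivAt.hasDerivWithinAt ?_)
    simp only [div_eq_mul_inv β]
    refine HasDerivAt.congr_deriv this ?_
    ring
  have i1 : InjOn (fun u : ℝ => u - β / u) (Ioi 0) := by
    refine StrictMonoOn.injOn fun a ha b hb hab => ?_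
    have : β / b < β / a := div_lt_div_of_pos_left hβ ha hab
    linarith
  have s1 : (fun u : ℝ => u - β / u) '' Ioi 0 = Set.univ := by
    refine eq_univ_of_forall fun v => ?_
    have h4 : 0 ≤ v ^ 2 + 4 * β := by positivity
    have hs : |v| < Real.sqrt (v ^ 2 + 4 * β) := by
      rw [← Real.sqrt_sq_eq_abs]; exact Real.sqrt_lt_sqrt (sq_nonneg _) (by linarith)
    have hp : 0 < (v + Real.sqrt (v ^ 2 + 4 * β)) / 2 := by
      have := neg_abs_le v; linarith
    refine ⟨(v + Real.sqrt (v ^ 2 + 4 * β)) / 2, hp, ?_⟩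
    have hsq := Real.sq_sqrt h4
    have hne : v + Real.sqrt (v ^ 2 + 4 * β) ≠ 0 := by linarith
    simp only
    field_simp
    nlinarith
  have e1 := integral_image_eq_integral_abs_deriv_smul measurableSet_Ioi d1 i1
    fun v => Real.exp (-v ^ 2)
  have j1 := (integrableOn_image_iff_integrableOn_abs_deriv_smul measurableSet_Ioi d1 i1
    fun v => Real.exp (-v ^ 2)).1 (by
      rw [s1, integrableOn_univ]
      simpa using integrable_exp_neg_mul_sq (b := 1) one_pos)
  rw [s1, Measure.restrict_univ] at e1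
  have g1 : ∫ v : ℝ, Real.exp (-v ^ 2) = Real.sqrt Real.pi := by
    simpa using integral_gaussian 1
  -- the substitution `u ↦ β / u`
  have d2 : ∀ u ∈ Ioi (0 : ℝ), HasDerivWithinAt (fun u : ℝ => β / u) (-(β / u ^ 2)) (Ioi 0) u := by
    intro u hu
    have hu' : u ≠ 0 := (ne_of_gt hu)
    have := (hasDerivAt_inv hu').const_mul β
    refine (HasDerivAt.hasDerivWithinAt ?_)
    simp only [div_eq_mul_inv β]
    refine HasDerivAt.congr_deriv this ?_
    ring
  have i2 : InjOn (fun u : ℝ => β / u) (Ioi 0) := by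
    refine StrictAntiOn.injOn fun a ha b hb hab => div_lt_div_of_pos_left hβ ha hab
  have s2 : (fun u : ℝ => β / u) '' Set.Ioi 0 = Set.Ioi 0 := by
    ext v
    constructor
    · rintro ⟨u, hu, rfl⟩; exact div_pos hβ hu
    · intro hv
      have hv' : v ≠ 0 := ne_of_gt hv
      exact ⟨β / v, div_pos hβ hv, by simp only; field_simp⟩
  have e2 := integral_image_eq_integral_abs_deriv_smul measurableSet_Ioi d2 i2 ph
  rw [s2] at e2
  have e2' : ∫ u in Ioi (0 : ℝ), ph u = ∫ u in Ioi (0 : ℝ), β / u ^ 2 * ph u := by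
    rw [e2]
    refine setIntegral_congr_fun measurableSet_Ioi fun u hu => ?_
    have hu0 : (0 : ℝ) < u := hu
    have hu' : u ≠ 0 := ne_of_gt hu
    simp only [hph, smul_eq_mul]
    rw [abs_neg, abs_of_pos (by positivity)]
    congr 2
    field_simp
    ring
  have j1' : IntegrableOn (fun u => (1 + β / u ^ 2) * ph u) (Ioi 0) := by
    refine j1.congr_fun (fun u hu => ?_) measurableSet_Ioi
    have hu0 : (0 : ℝ) < u := hu
    simp only [hph, smul_eq_mul]
    rw [abs_of_pos (by positivity)]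
  have ja : IntegrableOn ph (Ioi 0) := by
    refine Integrable.mono' j1' hphm.aestronglyMeasurable ?_
    refine (ae_restrict_iff' measurableSet_Ioi).2 (ae_of_all _ fun u hu => ?_)
    have hu0 : (0 : ℝ) < u := hu
    have : 0 < ph u := Real.exp_pos _
    rw [Real.norm_eq_abs, abs_of_pos this]
    have : 0 < β / u ^ 2 * ph u := by positivity
    linarith
  have jb : IntegrableOn (fun u => β / u ^ 2 * ph u) (Ioi 0) := by
    refine (j1'.sub ja).congr_fun (fun u hu => ?_) measurableSet_Ioi
    simp only [Pi.sub_apply]; ring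
  have e3 : ∫ u in Ioi (0 : ℝ), (1 + β / u ^ 2) * ph u = Real.sqrt Real.pi := by
    rw [← g1, e1]
    refine setIntegral_congr_fun measurableSet_Ioi fun u hu => ?_
    have hu0 : (0 : ℝ) < u := hu
    simp only [hph, smul_eq_mul]
    rw [abs_of_pos (by positivity)]
  have e4 : ∫ u in Ioi (0 : ℝ), (1 + β / u ^ 2) * ph u =
      (∫ u in Ioi (0 : ℝ), ph u) + ∫ u in Ioi (0 : ℝ), β / u ^ 2 * ph u := by
    rw [← integral_add ja jb]
    exact integral_congr_ae (ae_of_all _ fun u => by ring)
  rw [← e2'] at e4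
  linarith

theorem schl {β : ℝ} (hβ : 0 ≤ β) :
    ∫ u in Ioi (0 : ℝ), Real.exp (-u ^ 2 - β ^ 2 / u ^ 2) =
      Real.sqrt Real.pi / 2 * Real.exp (-(2 * β)) := by
  rcases hβ.eq_or_lt with rfl | hβ
  · simpa using integral_gaussian_Ioi 1
  · rw [← schl_pos hβ, ← integral_mul_const]
    refine setIntegral_congr_fun measurableSet_Ioi fun u hu => ?_
    have hu' : u ≠ 0 := ne_of_gt hu
    rw [← Real.exp_add]
    congr 1
    field_simp
    ring

theorem mix_gau {τ : ℝ} (hτ : 0 < τ) (c : ℤ) (hc : 0 ≤ c) :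
    ∃ ν : Measure ℝ, ν (Set.Ioc 0 τ)ᶜ = 0 ∧ ∀ y : ℤ,
      Integrable (fun t => gau t y) ν ∧ gau τ (c + |y|) = ∫ t, gau t y ∂ν := by
  have hc' : (0 : ℝ) ≤ c := by exact_mod_cast hc
  have hpi : 0 < Real.sqrt Real.pi := Real.sqrt_pos.2 Real.pi_pos
  refine mix_of_density (fun t y => gau t y) (fun y => by unfold gau; fun_prop) _ (Ioi 0)
    measurableSet_Ioc measurableSet_Ioi
    (fun u => 2 / Real.sqrt Real.pi * Real.exp (-(c : ℝ) ^ 2 / (2 * τ)) * Real.exp (-u ^ 2))
    (fun u => (1 / τ + ((c : ℝ) / τ) ^ 2 / (2 * u ^ 2))⁻¹) (by fun_prop) (by fun_prop)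
    (fun u _ => by positivity) (fun u hu => ?_) (fun y => gau τ (c + |y|))
    (fun y => (Real.exp_pos _).ne') fun y => ?_
  · have hu0 : (0 : ℝ) < u := hu
    refine ⟨by positivity, ?_⟩
    rw [inv_le_comm₀ (by positivity) hτ, ← one_div]
    have : 0 ≤ ((c : ℝ) / τ) ^ 2 / (2 * u ^ 2) := by positivity
    linarith
  · have hβ : 0 ≤ (c : ℝ) / τ * |(y : ℝ)| / 2 := by positivity
    have e : ∫ u in Ioi (0 : ℝ), 2 / Real.sqrt Real.pi * Real.exp (-(c : ℝ) ^ 2 / (2 * τ)) *
          Real.exp (-u ^ 2) * gau (1 / τ + ((c : ℝ) / τ) ^ 2 / (2 * u ^ 2))⁻¹ y =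
        ∫ u in Ioi (0 : ℝ), 2 / Real.sqrt Real.pi * Real.exp (-(c : ℝ) ^ 2 / (2 * τ)) *
          Real.exp (-(y : ℝ) ^ 2 / (2 * τ)) *
          Real.exp (-u ^ 2 - ((c : ℝ) / τ * |(y : ℝ)| / 2) ^ 2 / u ^ 2) := by
      refine setIntegral_congr_fun measurableSet_Ioi fun u hu => ?_
      have hu' : u ≠ 0 := ne_of_gt hu
      simp only [gau, mul_assoc]
      congr 2
      rw [← Real.exp_add, ← Real.exp_add]
      congr 1
      rw [← sq_abs (y : ℝ), mul_comm 2 (_)⁻¹, ← div_div, div_inv_eq_mul]
      field_simp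
      ring
    rw [e, integral_const_mul, schl hβ, gau]
    have : 2 / Real.sqrt Real.pi * Real.exp (-(c : ℝ) ^ 2 / (2 * τ)) *
        Real.exp (-(y : ℝ) ^ 2 / (2 * τ)) * (Real.sqrt Real.pi / 2 *
          Real.exp (-(2 * ((c : ℝ) / τ * |(y : ℝ)| / 2)))) =
        Real.exp (-(c : ℝ) ^ 2 / (2 * τ)) * Real.exp (-(y : ℝ) ^ 2 / (2 * τ)) *
          Real.exp (-(2 * ((c : ℝ) / τ * |(y : ℝ)| / 2))) := by
      field_simp
    rw [this, ← Real.exp_add, ← Real.exp_add]
    congr 1
    push_cast
    rw [← sq_abs (y : ℝ)]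
    field_simp
    ring

/-! ### ballot numbers -/

/-- number of first passage paths to level `c` with `j` down steps -/
def bal : ℕ → ℕ → ℕ
  | _, 0 => 1
  | 0, _ + 1 => 0
  | c + 1, j + 1 => bal c (j + 1) + bal (c + 2) j
termination_by c j => (j, c)

theorem bal_conv (y m : ℕ) : ∀ c : ℕ,
    ∑ p ∈ antidiagonal m, bal c p.1 * (2 * p.2 + y).choose p.2 = (2 * m + c + y).choose m := by
  induction m with
  | zero => intro c; simp [bal]
  | succ m ih =>
    intro c
    induction c with
    | zero =>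
      rw [Finset.Nat.sum_antidiagonal_succ]
      simp [bal]
    | succ c ihc =>
      rw [Finset.Nat.sum_antidiagonal_succ] at ihc ⊢
      simp only [bal, add_mul, sum_add_distrib, one_mul] at ihc ⊢
      rw [ih (c + 2), ← add_assoc, ihc]
      rw [show 2 * (m + 1) + (c + 1) + y = (2 * (m + 1) + c + y) + 1 by ring,
        show 2 * m + (c + 2) + y = 2 * (m + 1) + c + y by ring, Nat.choose_succ_succ', add_comm]

theorem bal_le (c j : ℕ) : bal c j ≤ 2 ^ (2 * j + c) := by
  have h := bal_conv 0 j c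
  have h2 := single_le_sum (f := fun p : ℕ × ℕ => bal c p.1 * (2 * p.2 + 0).choose p.2)
    (fun _ _ => Nat.zero_le _) (show (j, 0) ∈ antidiagonal j by simp)
  rw [h] at h2
  simp only [mul_zero, add_zero, Nat.choose_self, mul_one] at h2
  exact h2.trans (Nat.choose_le_two_pow _ _)

/-! ### Beta integrals -/

/-- Poisson term -/
noncomputable def po (n : ℕ) (t : ℝ) : ℝ := (t / 2) ^ n / (n ! : ℝ)

theorem po_nonneg (n : ℕ) {t : ℝ} (ht : 0 ≤ t) : 0 ≤ po n t := by unfold po; positivity

theorem continuous_po (n : ℕ) : Continuous (po n) := by unfold po; fun_prop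

theorem hasDerivAt_po (n : ℕ) (t : ℝ) : HasDerivAt (po (n + 1)) (po n t / 2) t := by
  have h := (((hasDerivAt_id t).div_const 2).fun_pow (n + 1)).div_const ((n + 1)! : ℝ)
  refine HasDerivAt.congr_deriv h ?_
  simp only [po, Nat.factorial_succ, id, Nat.add_sub_cancel]
  push_cast
  have : (n ! : ℝ) ≠ 0 := by positivity
  field_simp

theorem po_conv (t : ℝ) (q : ℕ) : ∀ p : ℕ,
    ∫ s in (0 : ℝ)..t, po p (t - s) / 2 * po q s = po (p + q + 1) t := by
  induction q with
  | zero =>
    intro p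
    have hd : ∀ s ∈ uIcc (0 : ℝ) t, HasDerivAt (fun s => -po (p + 1) (t - s))
        (po p (t - s) / 2 * po 0 s) s := by
      intro s _
      have := ((hasDerivAt_po p (t - s)).comp s ((hasDerivAt_id s).const_sub t)).neg
      refine HasDerivAt.congr_deriv this ?_
      simp [po]
    rw [intervalIntegral.integral_eq_sub_of_hasDerivAt hd
      (Continuous.intervalIntegrable (by
        have := continuous_po p; have := continuous_po 0; fun_prop) _ _)]
    simp [po]
  | succ q ih =>
    intro p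
    have hd : ∀ s ∈ uIcc (0 : ℝ) t, HasDerivAt (fun s => po (p + 1) (t - s) * po (q + 1) s)
        (po (p + 1) (t - s) / 2 * po q s - po p (t - s) / 2 * po (q + 1) s) s := by
      intro s _
      have := ((hasDerivAt_po p (t - s)).comp s ((hasDerivAt_id s).const_sub t)).mul
        (hasDerivAt_po q s)
      refine HasDerivAt.congr_deriv this ?_
      simp only [Function.comp]
      ring
    have c1 : Continuous fun s => po (p + 1) (t - s) / 2 * po q s := by
      have := continuous_po (p + 1); have := continuous_po q; fun_prop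
    have c2 : Continuous fun s => po p (t - s) / 2 * po (q + 1) s := by
      have := continuous_po (q + 1); have := continuous_po p; fun_prop
    have := intervalIntegral.integral_eq_sub_of_hasDerivAt hd ((c1.sub c2).intervalIntegrable _ _)
    rw [intervalIntegral.integral_sub (c1.intervalIntegrable _ _) (c2.intervalIntegrable _ _),
      ih (p + 1)] at this
    simp only [po, sub_self, zero_div, ne_eq, Nat.add_eq_zero_iff, one_ne_zero, and_false,
      not_false_eq_true, zero_pow, zero_mul, mul_zero] at this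
    rw [show p + (q + 1) + 1 = p + 1 + q + 1 by ring]
    simp only [po]
    linarith

theorem bt_eq_po (t : ℝ) (k : ℤ) (n : ℕ) :
    Xy48.bt t k n = ((2 * n + k.natAbs).choose n : ℝ) * po (2 * n + k.natAbs) t := by
  have h : ((2 * n + k.natAbs).choose n : ℝ) * (n ! : ℝ) * ((n + k.natAbs)! : ℝ) =
      ((2 * n + k.natAbs)! : ℝ) := by
    have := Nat.choose_mul_factorial_mul_factorial (show n ≤ 2 * n + k.natAbs by omega)
    rw [show 2 * n + k.natAbs - n = n + k.natAbs by omega] at this
    exact_mod_cast this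
  have h0 : ((2 * n + k.natAbs).choose n : ℝ) ≠ 0 := by
    exact_mod_cast (Nat.choose_pos (by omega)).ne'
  simp only [Xy48.bt, po]
  rw [← h]
  have : (n ! : ℝ) ≠ 0 := by positivity
  have : ((n + k.natAbs)! : ℝ) ≠ 0 := by positivity
  field_simp

/-- the term of the first passage density to level `c + 1` -/
noncomputable def fp (c j : ℕ) (t : ℝ) : ℝ := (bal (c + 1) j : ℝ) * (po (2 * j + c) t / 2)

theorem fp_nonneg (c j : ℕ) {t : ℝ} (ht : 0 ≤ t) : 0 ≤ fp c j t := by
  have := po_nonneg (2 * j + c) ht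
  unfold fp; positivity

theorem summable_fp (c : ℕ) {t : ℝ} (ht : 0 ≤ t) : Summable fun j => fp c j t := by
  have h1 : Summable fun j : ℕ => t ^ (2 * j + c) / ((2 * j + c)! : ℝ) :=
    (Real.summable_pow_div_factorial t).comp_injective (i := fun j => 2 * j + c)
      fun a b h => by simp only at h; omega
  refine Summable.of_nonneg_of_le (fun j => fp_nonneg c j ht) (fun j => ?_) h1
  have h2 : (bal (c + 1) j : ℝ) ≤ 2 ^ (2 * j + (c + 1)) := by exact_mod_cast bal_le (c + 1) j
  have h3 := po_nonneg (2 * j + c) ht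
  calc fp c j t ≤ 2 ^ (2 * j + (c + 1)) * (po (2 * j + c) t / 2) :=
        mul_le_mul_of_nonneg_right h2 (by positivity)
    _ = _ := by
      simp only [po, div_pow]
      rw [← add_assoc, pow_succ]
      field_simp

theorem bes_eq (t : ℝ) (k : ℤ) : bes t k = Xy48.besI t k := rfl

theorem mix_bes {τ : ℝ} (hτ : 0 < τ) (c : ℤ) (hc : 0 ≤ c) :
    ∃ ν : Measure ℝ, ν (Set.Ioc 0 τ)ᶜ = 0 ∧ ∀ y : ℤ,
      Integrable (fun t => bes t y) ν ∧ bes τ (c + |y|) = ∫ t, bes t y ∂ν := by
  have hm : ∀ y, Measurable fun t => bes t y := fun y => by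
    unfold bes
    exact Measurable.tsum fun n => by fun_prop
  rcases hc.eq_or_lt with rfl | hc
  · refine ⟨Measure.dirac τ, ?_, fun y => ⟨?_, ?_⟩⟩
    · rw [Measure.dirac_apply' _ measurableSet_Ioc.compl]
      simp [hτ]
    · exact integrable_dirac (by simp)
    · rw [integral_dirac, zero_add]
      simp only [bes, Int.natAbs_abs]
  obtain ⟨c, rfl⟩ : ∃ n : ℕ, c = (n : ℤ) + 1 := ⟨(c - 1).toNat, by omega⟩
  refine mix_of_density (fun t y => bes t y) hm _ (Set.Ioc 0 τ) measurableSet_Ioc measurableSet_Ioc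
    (fun s => ∑' j, fp c j (τ - s)) id
    (Measurable.tsum fun j => by
      have := (continuous_po (2 * j + c)).measurable
      unfold fp; fun_prop)
    measurable_id (fun s hs => tsum_nonneg fun j => fp_nonneg c j (sub_nonneg.2 hs.2))
    (fun s hs => hs) (fun y => bes τ (c + 1 + |y|))
    (fun y => (Xy48.besI_pos hτ _).ne') fun y => ?_
  set F : ℕ × ℕ → ℝ → ℝ := fun p s => fp c p.1 (τ - s) * Xy48.bt s y p.2 with hF
  have hFc : ∀ p, Continuous (F p) := fun p => by
    have := continuous_po (2 * p.1 + c)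
    simp only [hF, fp, Xy48.bt]; fun_prop
  have hFi : ∀ p, Integrable (F p) (volume.restrict (Set.Ioc 0 τ)) := fun p =>
    (hFc p).integrableOn_Ioc
  set a : ℕ × ℕ → ℝ := fun p => ((bal (c + 1) p.1 * (2 * p.2 + y.natAbs).choose p.2 : ℕ) : ℝ) *
    po (2 * (p.1 + p.2) + (c + 1 + y.natAbs)) τ with ha
  have hFa : ∀ p, ∫ s in Set.Ioc 0 τ, F p s = a p := fun p => by
    rw [← intervalIntegral.integral_of_le hτ.le]
    have : ∀ s, F p s = ((bal (c + 1) p.1 * (2 * p.2 + y.natAbs).choose p.2 : ℕ) : ℝ) *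
        (po (2 * p.1 + c) (τ - s) / 2 * po (2 * p.2 + y.natAbs) s) := fun s => by
      simp only [hF, fp, bt_eq_po]; push_cast; ring
    simp only [this]
    rw [intervalIntegral.integral_const_mul, po_conv, ha]
    simp only
    congr 2
    ring
  have hFn : ∀ p, ∫ s in Set.Ioc 0 τ, ‖F p s‖ = a p := fun p => by
    rw [← hFa]
    refine setIntegral_congr_fun measurableSet_Ioc fun s hs => ?_
    exact Real.norm_of_nonneg (mul_nonneg (fp_nonneg c _ (sub_nonneg.2 hs.2))
      (Xy48.bt_nonneg hs.1.le _ _))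
  have hk : ((c : ℤ) + 1 + |y|).natAbs = c + 1 + y.natAbs := by
    rw [Int.abs_eq_natAbs]; omega
  have hfib : ∀ m : ℕ, HasSum (fun p : antidiagonal m => a p) (Xy48.bt τ (c + 1 + |y|) m) := by
    intro m
    have := hasSum_fintype fun p : antidiagonal m => a p
    convert this using 1
    rw [Finset.sum_coe_sort (antidiagonal m) a, bt_eq_po, hk,
      show 2 * m + (c + 1 + y.natAbs) = 2 * m + (c + 1) + y.natAbs by ring,
      ← bal_conv y.natAbs m (c + 1), Nat.cast_sum, sum_mul]
    refine sum_congr rfl fun p hp => ?_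
    rw [HasAntidiagonal.mem_antidiagonal] at hp
    simp only [ha, hp]
    congr 2
    ring
  have ha0 : ∀ p, 0 ≤ a p := fun p => mul_nonneg (Nat.cast_nonneg _) (po_nonneg _ hτ.le)
  have hsig : HasSum (fun x : Σ m : ℕ, antidiagonal m => a x.2) (Xy48.besI τ (c + 1 + |y|)) := by
    refine HasSum.sigma_of_hasSum (Xy48.hasSum_besI τ _) hfib ?_
    refine (summable_sigma_of_nonneg fun x => ha0 _).2 ⟨fun m => (hfib m).summable, ?_⟩
    simp only [(hfib _).tsum_eq]
    exact Xy48.summable_bt τ _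
  have hsum : HasSum a (Xy48.besI τ (c + 1 + |y|)) :=
    (Finset.HasAntidiagonal.sigmaAntidiagonalEquivProd.hasSum_iff (f := a)).1 hsig
  have h1 := hasSum_integral_of_summable_integral_norm hFi (by simp only [hFn]; exact hsum.summable)
  simp only [hFa] at h1
  rw [bes_eq, hsum.unique h1]
  refine setIntegral_congr_fun measurableSet_Ioc fun s hs => ?_
  simp only [hF, id, bes_eq, Xy48.besI]
  rw [tsum_mul_tsum_of_summable_norm (summable_fp c (sub_nonneg.2 hs.2)).norm
    (Xy48.summable_bt s y).norm]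

end Crest.Agent.T145.Mix53

namespace Crest.Agent.T145

theorem mixKStmt : MixKStmt := by
  intro xy τ hτ c hc
  cases xy
  · simpa [kern] using Mix53.mix_gau hτ c hc
  · simpa [kern] using Mix53.mix_bes hτ c hc

end Crest.Agent.T145
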