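import Crest.Agent.T145.MixK_53
import Crest.Agent.T145.ApiC_98
import Crest.Agent.T145.BesB_66

/-!
# Row 145: the rest model is a mixture of models with shorter boundary edges (`mixStmt`) (helper53)
-/

set_option autoImplicit false
set_option linter.unusedVariables false

namespace Crest.Agent.T145.Mix53

open MeasureTheory Finset

/-! ### the cone of a class -/
section cone
variable {α : Type*} {P Q : (α → ℝ) → Prop} {W W' : α → ℝ}

theorem cone_mem (h : P W) : InCone P W := fun F hF hP => hP W h hF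

theorem cone_trans (h : InCone Q W') (hQ : ∀ W, Q W → InCone P W) : InCone P W' :=
  fun F hF hP => h F hF fun W hW hI => hQ W hW F hI hP

theorem cone_mono (h : InCone Q W') (hQ : ∀ W, Q W → P W) : InCone P W' :=
  cone_trans h fun W hW => cone_mem (hQ W hW)

theorem cone_smul (h : InCone P W) {K : ℝ} (hK : 0 < K) : InCone P fun a => K * W a := by
  intro F hF hP
  have := h F ((ig_smul_iff hK.ne').1 hF) hP
  simp only [mul_assoc]
  rw [tsum_mul_left]
  exact mul_nonneg hK.le this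

theorem cone_congr (h : InCone P W) (e : ∀ a, W' a = W a) : InCone P W' := by
  rw [funext e]; exact h

/-- a lower bound on means passes to the cone -/
theorem cone_le_ex (h : InCone P W') (hW' : Wt W') {F : α → ℝ} (hF : Ig W' F) {c : ℝ}
    (hP : ∀ W, P W → Wt W ∧ Ig W F ∧ c ≤ Ex W F) : c ≤ Ex W' F := by
  have := h (fun a => F a - c) (hF.sub (hW'.ig_const c)) fun W hW _ => by
    obtain ⟨h1, h2, h3⟩ := hP W hW
    rw [h1.tsum_eq, h1.ex_sub_const h2]
    exact mul_nonneg h1.pos.le (sub_nonneg.2 h3)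
  rw [hW'.tsum_eq, hW'.ex_sub_const hF] at this
  exact sub_nonneg.1 ((mul_nonneg_iff_of_pos_left hW'.pos).1 this)

/-- an upper bound on means passes to the cone -/
theorem cone_ex_le (h : InCone P W') (hW' : Wt W') {F : α → ℝ} (hF : Ig W' F) {c : ℝ}
    (hP : ∀ W, P W → Wt W ∧ Ig W F ∧ Ex W F ≤ c) : Ex W' F ≤ c := by
  have := cone_le_ex h hW' hF.neg (c := -c) fun W hW => by
    obtain ⟨h1, h2, h3⟩ := hP W hW
    exact ⟨h1, h2.neg, by rw [Ex_neg]; exact neg_le_neg h3⟩
  rw [Ex_neg] at this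
  exact neg_le_neg_iff.1 this

/-- one edge -/
theorem cone_one [Countable α] {w : ℤ → ℝ} (hw : Fam w) {c : ℤ} (hc : 0 ≤ c) (k : α → ℤ)
    (R : α → ℝ) : InCone (fun W => ∃ u, Short u w ∧ W = fun a => R a * u (k a))
      fun a => R a * w (c + |k a|) := by
  obtain ⟨xy, τ, hτ, rfl⟩ := hw
  obtain ⟨ν, h0, hν⟩ := mixKStmt xy τ hτ c hc
  have hae : ∀ᵐ t ∂ν, t ∈ Set.Ioc 0 τ := mem_ae_iff.2 h0
  intro F hF hP
  have e1 : ∀ a, ∫ t, R a * kern xy t (k a) * F a ∂ν = R a * kern xy τ (c + |k a|) * F a := by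
    intro a
    rw [integral_mul_const, integral_const_mul, ← (hν _).2]
  have e2 : ∀ a, ∫ t, ‖R a * kern xy t (k a) * F a‖ ∂ν =
      ‖R a * kern xy τ (c + |k a|) * F a‖ := by
    intro a
    have : ∫ t, ‖R a * kern xy t (k a) * F a‖ ∂ν = ∫ t, |R a| * kern xy t (k a) * |F a| ∂ν := by
      refine integral_congr_ae (hae.mono fun t ht => ?_)
      simp only [Real.norm_eq_abs, abs_mul, abs_of_nonneg (kern_nonneg xy ht.1.le _)]
    rw [this, integral_mul_const, integral_const_mul, ← (hν _).2]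
    simp only [Real.norm_eq_abs, abs_mul, abs_of_nonneg (kern_nonneg xy hτ.le _)]
  have h1 := hasSum_integral_of_summable_integral_norm (μ := ν)
    (F := fun a t => R a * kern xy t (k a) * F a)
    (fun a => (((hν (k a)).1.const_mul _).mul_const _)) (by simp only [e2]; exact Summable.norm hF)
  simp only [e1] at h1
  rw [h1.tsum_eq]
  refine integral_nonneg_of_ae (hae.mono fun t ht => ?_)
  by_cases hs : Summable fun a => R a * kern xy t (k a) * F a
  · exact hP _ ⟨kern xy t, ⟨xy, t, τ, ht.1, ht.2, rfl, rfl⟩, rfl⟩ hs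
  · exact (tsum_eq_zero_of_not_summable hs).ge

/-- finitely many edges -/
theorem cone_edges [Countable α] {ι : Type*} [DecidableEq ι] (E : Finset ι) (w : ι → ℤ → ℝ)
    (c : ι → ℤ) (k : ι → α → ℤ) (hw : ∀ e ∈ E, Fam (w e)) (hc : ∀ e ∈ E, 0 ≤ c e) (R : α → ℝ) :
    InCone (fun W => ∃ u : ι → ℤ → ℝ, (∀ e ∈ E, Short (u e) (w e)) ∧
      W = fun a => R a * ∏ e ∈ E, u e (k e a)) fun a => R a * ∏ e ∈ E, w e (c e + |k e a|) := by
  induction E using Finset.induction_on generalizing R with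
  | empty => exact cone_mem ⟨w, by simp, by simp⟩
  | insert e₀ E he ih =>
    have h1 := ih (fun e h => hw e (mem_insert_of_mem h)) (fun e h => hc e (mem_insert_of_mem h))
      fun a => R a * w e₀ (c e₀ + |k e₀ a|)
    refine cone_congr (cone_trans h1 ?_) fun a => by rw [prod_insert he, mul_assoc]
    rintro W ⟨u, hu, rfl⟩
    have h2 := cone_one (hw e₀ (mem_insert_self _ _)) (hc e₀ (mem_insert_self _ _)) (k e₀)
      fun a => R a * ∏ e ∈ E, u e (k e a)
    refine cone_congr (cone_mono h2 ?_) fun a => by ring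
    rintro W ⟨v, hv, rfl⟩
    refine ⟨Function.update u e₀ v, fun e h => ?_, funext fun a => ?_⟩
    · rcases mem_insert.1 h with rfl | h
      · rw [Function.update_self]; exact hv
      · rw [Function.update_of_ne (ne_of_mem_of_not_mem h he)]; exact hu e h
    · have : ∏ e ∈ E, Function.update u e₀ v e (k e a) = ∏ e ∈ E, u e (k e a) :=
        prod_congr rfl fun e h => by rw [Function.update_of_ne (ne_of_mem_of_not_mem h he)]
      rw [prod_insert he, Function.update_self, this]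
      ring

end cone

theorem fam_pos {w : ℤ → ℝ} (h : Fam w) (k : ℤ) : 0 < w k := (kerStmt w h).lc.1 k

section mdl
variable {V : Type*} [DecidableEq V]

/-- edges that do not meet `C` -/
def eo (m : Mdl V) (C : Finset V) : Finset (V × V) := m.ed.filter fun e => e.1 ∉ C ∧ e.2 ∉ C

/-- edges that meet `C` -/
def em (m : Mdl V) (C : Finset V) : Finset (V × V) := m.ed.filter fun e => ¬ (e.1 ∉ C ∧ e.2 ∉ C)

theorem prod_ed (m : Mdl V) (C : Finset V) (g : V × V → ℝ) :
    ∏ e ∈ m.ed, g e = (∏ e ∈ eo m C, g e) * ∏ e ∈ em m C, g e :=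
  (prod_filter_mul_prod_filter_not _ _ _).symm

/-- the site weights of the rest model -/
theorem rest_site (m : Mdl V) (h : ℤ) (C : Finset V) (ζ s : Cfg V) :
    ∏ y ∈ m.A \ C, (m.rest h C ζ).site y (s y) = (∏ y ∈ m.A \ C, m.site y (s y)) *
      ((∏ e ∈ m.ed.filter (fun e => e.1 ∈ C ∧ e.2 ∈ m.A \ C), m.w e (|ζ e.1 - h| + |s e.2 - h|)) *
      ∏ e ∈ m.ed.filter (fun e => e.2 ∈ C ∧ e.1 ∈ m.A \ C), m.w e (|ζ e.2 - h| + |s e.1 - h|)) := by
  simp only [Mdl.rest, prod_mul_distrib, mul_assoc]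
  congr 2
  · rw [← prod_fiberwise_of_maps_to (s := m.ed.filter (fun e => e.1 ∈ C ∧ e.2 ∈ m.A \ C))
      (t := m.A \ C) (g := Prod.snd) fun e he => (mem_filter.1 he).2.2]
    refine prod_congr rfl fun y hy => prod_congr ?_ fun e he => ?_
    · ext e
      simp only [mem_filter]
      constructor
      · rintro ⟨h1, h2, rfl⟩; exact ⟨⟨h1, h2, hy⟩, rfl⟩
      · rintro ⟨⟨h1, h2, -⟩, h3⟩; exact ⟨h1, h2, h3⟩
    · rw [(mem_filter.1 he).2]
  · rw [← prod_fiberwise_of_maps_to (s := m.ed.filter (fun e => e.2 ∈ C ∧ e.1 ∈ m.A \ C))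
      (t := m.A \ C) (g := Prod.fst) fun e he => (mem_filter.1 he).2.2]
    refine prod_congr rfl fun y hy => prod_congr ?_ fun e he => ?_
    · ext e
      simp only [mem_filter]
      constructor
      · rintro ⟨h1, h2, rfl⟩; exact ⟨⟨h1, h2, hy⟩, rfl⟩
      · rintro ⟨⟨h1, h2, -⟩, h3⟩; exact ⟨h1, h2, h3⟩
    · rw [(mem_filter.1 he).2]

/-- the edges between `C` and the free sites outside `C` -/
def eb (m : Mdl V) (C : Finset V) : Finset (V × V) :=
  m.ed.filter fun e => (e.1 ∈ C ∧ e.2 ∈ m.A \ C) ∨ (e.2 ∈ C ∧ e.1 ∈ m.A \ C)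

theorem eb_subset (m : Mdl V) (C : Finset V) : eb m C ⊆ em m C := fun e he => by
  simp only [eb, em, mem_filter] at he ⊢
  refine ⟨he.1, fun h => ?_⟩
  rcases he.2 with h1 | h1
  · exact h.1 h1.1
  · exact h.2 h1.1

theorem rest_site' (m : Mdl V) (h : ℤ) (C : Finset V) (ζ s : Cfg V) :
    ∏ y ∈ m.A \ C, (m.rest h C ζ).site y (s y) = (∏ y ∈ m.A \ C, m.site y (s y)) *
      ∏ e ∈ eb m C, m.w e (|ζ (if e.1 ∈ C then e.1 else e.2) - h| +
        |s (if e.1 ∈ C then e.2 else e.1) - h|) := by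
  rw [rest_site, eb, filter_or, prod_union]
  · congr 2
    · exact prod_congr rfl fun e he => by rw [if_pos (mem_filter.1 he).2.1, if_pos (mem_filter.1 he).2.1]
    · refine prod_congr rfl fun e he => ?_
      have := (mem_sdiff.1 (mem_filter.1 he).2.2).2
      rw [if_neg this, if_neg this]
  · exact disjoint_filter.2 fun e _ h1 h2 => (mem_sdiff.1 h1.2).2 h2.1

theorem cone_rest {α : Type*} [Countable α] (m : Mdl V) (h : ℤ) (C : Finset V) (ζ η : Cfg V)
    (hF : m.Fm) (hη : ∀ x ∈ C, η x = h) (π : α → Cfg V) (B : α → ℝ) :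
    InCone (fun W => ∃ m', m.Shr C m' ∧ W = fun a => ind (∀ x, x ∉ m.A \ C → π a x = η x) * B a *
        (∏ e ∈ em m C, m'.w e (dE e (π a))) * ∏ x ∈ m.A \ C, m.site x (π a x))
      fun a => ind (∀ x, x ∉ m.A \ C → π a x = η x) * B a *
        ∏ y ∈ m.A \ C, (m.rest h C ζ).site y (π a y) := by
  set K : ℝ := ∏ e ∈ em m C \ eb m C, m.w e (dE e η) with hK
  have hK0 : 0 < K := prod_pos fun e he => fam_pos (hF e (mem_filter.1 (mem_sdiff.1 he).1).1) _
  have h1 := cone_edges (eb m C) m.w (fun e => |ζ (if e.1 ∈ C then e.1 else e.2) - h|)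
    (fun e a => π a (if e.1 ∈ C then e.2 else e.1) - h)
    (fun e he => hF e (mem_filter.1 he).1) (fun e _ => abs_nonneg _)
    fun a => K * (ind (∀ x, x ∉ m.A \ C → π a x = η x) * B a * ∏ x ∈ m.A \ C, m.site x (π a x))
  refine cone_congr (cone_smul (cone_mono h1 ?_) (inv_pos.2 hK0)) fun a => ?_
  · rintro W ⟨u, hu, rfl⟩
    refine ⟨⟨m.A \ C, m.ed, fun e => if e ∈ eb m C then u e else m.w e, m.site⟩,
      ⟨rfl, rfl, rfl, fun e he => ⟨?_, fun h1 h2 => ?_⟩⟩, funext fun a => ?_⟩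
    · simp only
      split_ifs with h1
      · exact hu e h1
      · exact (hF e he).short
    · exact if_neg fun h3 => (mem_filter.1 (eb_subset m C h3)).2 ⟨h1, h2⟩
    · by_cases hs : ∀ x, x ∉ m.A \ C → π a x = η x
      swap
      · simp only [ind_neg hs, zero_mul, mul_zero]
      have hC : ∀ x ∈ C, π a x = h := fun x hx => by
        rw [hs x fun h' => (mem_sdiff.1 h').2 hx, hη x hx]
      have e1 : ∏ e ∈ em m C \ eb m C, (if e ∈ eb m C then u e else m.w e) (dE e (π a)) = K := by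
        refine prod_congr rfl fun e he => ?_
        obtain ⟨h1, h2⟩ := mem_sdiff.1 he
        rw [if_neg h2]
        obtain ⟨h3, h4⟩ := mem_filter.1 h1
        have h5 : e.1 ∉ m.A \ C ∧ e.2 ∉ m.A \ C := by
          simp only [eb, mem_filter, h3, true_and, not_or, not_and] at h2
          by_cases c1 : e.1 ∈ C
          · exact ⟨fun h' => (mem_sdiff.1 h').2 c1, h2.1 c1⟩
          · have c2 : e.2 ∈ C := by
              by_contra c2; exact h4 ⟨c1, c2⟩
            exact ⟨h2.2 c2, fun h' => (mem_sdiff.1 h').2 c2⟩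
        simp only [dE, hs _ h5.1, hs _ h5.2]
      have e2 : ∏ e ∈ eb m C, (if e ∈ eb m C then u e else m.w e) (dE e (π a)) =
          ∏ e ∈ eb m C, u e (π a (if e.1 ∈ C then e.2 else e.1) - h) := by
        refine prod_congr rfl fun e he => ?_
        rw [if_pos he]
        by_cases c1 : e.1 ∈ C
        · rw [if_pos c1, dE, hC _ c1]
        · have c2 : e.2 ∈ C := by
            by_contra c2; exact (mem_filter.1 (eb_subset m C he)).2 ⟨c1, c2⟩
          rw [if_neg c1, dE, hC _ c2, ← (hu e he).left.even, neg_sub]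
      simp only
      rw [← prod_sdiff (eb_subset m C), e1, e2]
      ring
  · rw [rest_site']
    field_simp

/-- bonds meeting a set at the level are closed -/
theorem bw_split (m : Mdl V) (h : ℤ) (C : Finset V) (hF : m.Fm) {s : Cfg V} (hs : ∀ x ∈ C, s x = h)
    (ω : Finset (V × V)) :
    ind (ω ⊆ m.ed) * ∏ e ∈ m.ed, m.bw h s e (e ∈ ω) =
      ind (ω ⊆ eo m C) * (∏ e ∈ eo m C, m.bw h s e (e ∈ ω)) * ∏ e ∈ em m C, m.w e (dE e s) := by
  have key : ∀ e ∈ em m C, m.w e (|s e.1 - h| + |s e.2 - h|) = m.w e (dE e s) := by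
    intro e he
    obtain ⟨h1, h2⟩ := mem_filter.1 he
    by_cases c1 : e.1 ∈ C
    · rw [dE, hs _ c1, sub_self, abs_zero, zero_add, (hF e h1).abs]
    · have c2 : e.2 ∈ C := by
        by_contra c2; exact h2 ⟨c1, c2⟩
      rw [dE, hs _ c2, sub_self, abs_zero, add_zero, abs_sub_comm, (hF e h1).abs]
  rw [prod_ed m C]
  by_cases hω : ω ⊆ eo m C
  · rw [ind_pos hω, ind_pos (hω.trans (filter_subset _ _)), one_mul, one_mul]
    congr 1
    refine prod_congr rfl fun e he => ?_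
    have : e ∉ ω := fun h' => (mem_filter.1 he).2 (mem_filter.1 (hω h')).2
    rw [Mdl.bw, if_neg this, key e he]
  · rw [ind_neg hω, zero_mul, zero_mul]
    by_cases h1 : ω ⊆ m.ed
    · obtain ⟨e, he, he'⟩ := not_subset.1 hω
      have h2 : e ∈ em m C := mem_filter.2 ⟨h1 he, fun h' => he' (mem_filter.2 ⟨h1 he, h'⟩)⟩
      rw [prod_eq_zero h2 (by rw [Mdl.bw, if_pos he, key e h2, sub_self]), mul_zero, mul_zero]
    · rw [ind_neg h1, zero_mul]

theorem shr_fm {m m' : Mdl V} {C : Finset V} (h : m.Shr C m') : m'.Fm := fun e he =>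
  (h.2.2.2 e (h.2.1 ▸ he)).1.left

theorem mix_W [Countable V] (m : Mdl V) (h : ℤ) (C : Finset V) (ζ η : Cfg V) (hF : m.Fm)
    (hη : ∀ x ∈ C, η x = h) :
    InCone (fun W => ∃ m', m.Shr C m' ∧ W = m'.W η) ((m.rest h C ζ).W η) := by
  refine cone_mono (cone_rest m h C ζ η hF hη id fun s => ∏ e ∈ eo m C, m.w e (dE e s)) ?_
  rintro W ⟨m', hm, rfl⟩
  refine ⟨m', hm, funext fun s => ?_⟩
  obtain ⟨h1, h2, h3, h4⟩ := hm
  simp only [Mdl.W, h1, h2, h3, id]
  have : ∏ e ∈ eo m C, m'.w e (dE e s) = ∏ e ∈ eo m C, m.w e (dE e s) :=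
    prod_congr rfl fun e he => by
      rw [(h4 e (mem_filter.1 he).1).2 (mem_filter.1 he).2.1 (mem_filter.1 he).2.2]
  rw [prod_ed m C, this]
  ring

theorem mix_J [Countable V] (m : Mdl V) (h : ℤ) (C : Finset V) (ζ η : Cfg V) (hF : m.Fm)
    (hη : ∀ x ∈ C, η x = h) :
    InCone (fun W => ∃ m', m.Shr C m' ∧ W = m'.J h η) ((m.rest h C ζ).J h η) := by
  refine cone_congr (cone_mono (cone_rest m h C ζ η hF hη Prod.fst
    fun p : Cfg V × Finset (V × V) =>
      ind (p.2 ⊆ eo m C) * ∏ e ∈ eo m C, m.bw h p.1 e (e ∈ p.2)) ?_) fun p => ?_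
  · rintro W ⟨m', hm, rfl⟩
    refine ⟨m', hm, funext fun p => ?_⟩
    have hF' := shr_fm hm
    obtain ⟨h1, h2, h3, h4⟩ := hm
    by_cases hs : ∀ x, x ∉ m.A \ C → p.1 x = η x
    swap
    · simp only [Mdl.J, h1, ind_neg hs, zero_mul]
    have hC : ∀ x ∈ C, p.1 x = h := fun x hx => by
      rw [hs x fun h' => (mem_sdiff.1 h').2 hx, hη x hx]
    have e1 := bw_split m' h C hF' hC p.2
    have e2 : eo m' C = eo m C := by simp only [eo, h2]
    have e3 : em m' C = em m C := by simp only [em, h2]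
    have e4 : ∏ e ∈ eo m C, m'.bw h p.1 e (e ∈ p.2) = ∏ e ∈ eo m C, m.bw h p.1 e (e ∈ p.2) :=
      prod_congr rfl fun e he => by
        simp only [Mdl.bw,
          (h4 e (mem_filter.1 he).1).2 (mem_filter.1 he).2.1 (mem_filter.1 he).2.2]
    rw [e2, e3, e4] at e1
    rw [Mdl.J, mul_assoc (ind _) (ind _), e1, h1, h3]
    ring
  · simp only [Mdl.J, mul_assoc]
    rfl

end mdl

end Crest.Agent.T145.Mix53

namespace Crest.Agent.T145

theorem mixStmt : MixStmt := fun _ _ _ m h C ζ η hF _ hη =>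
  ⟨Mix53.mix_W m h C ζ η hF hη, Mix53.mix_J m h C ζ η hF hη⟩

end Crest.Agent.T145
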