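import Crest.Agent.T145.MxDef_9
import Crest.Agent.T145.MxA_9

/-!
# Row 145, module Mx: the abstract assembly of MIX0 (helper9)
-/

set_option autoImplicit false

namespace Crest.Agent.T145.Mx

open Finset Filter

/-- sub-Gaussian tail of the square -/
theorem tl_le {L : Type} [AddCommGroup L] {ρ : L → ℝ} (h : Cen ρ) (f : L →+ ℝ) {C t : ℝ} (hC : 0 < C)
    (ht : 2 * C ≤ t) (hM : ∀ a : ℝ, M ρ (a • f) ≤ C * a ^ 2) :
    tl ρ f (t ^ 2) ≤ 4 * Real.exp (t - t ^ 2 / (4 * C)) := by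
  set b := t / (2 * C) with hb
  have b1 : 1 ≤ b := (one_le_div (by linarith)).2 ht
  have t0 : 0 ≤ t := by linarith
  have e : ∀ a : ℝ, Ex ρ (fun s => Real.exp ((a • f) s)) ≤ Real.exp (C * a ^ 2) := fun a => by
    rw [← h.wt.exp_M h.se]; exact Real.exp_le_exp.2 (hM a)
  have i1 := h.ig (Tame.exp (b • f))
  have i2 := h.ig (Tame.exp ((-b) • f))
  have i0 : Ig ρ fun s => max (f s ^ 2 - t ^ 2) 0 :=
    h.ig (((Tame.hom f).pow 2).of_le fun s => by
      rw [abs_of_nonneg (le_max_right _ _)]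
      exact max_le (by nlinarith [sq_nonneg t]) (sq_nonneg _))
  refine (Ex_mono h.nonneg i0 ((i1.add i2).const_mul (2 * Real.exp (-((b - 1) * t))))
    fun s => ?_).trans ?_
  · simp only [AddMonoidHom.smul_apply, smul_eq_mul]
    have p1 := Real.exp_pos (b * f s)
    have p2 := Real.exp_pos (-b * f s)
    have p3 := Real.exp_pos (-((b - 1) * t))
    refine max_le ?_ (by positivity)
    by_cases hx : |f s| ≤ t
    · have : f s ^ 2 ≤ t ^ 2 := by rw [← sq_abs]; exact pow_le_pow_left₀ (abs_nonneg _) hx 2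
      exact le_trans (by linarith) (by positivity : (0 : ℝ) ≤ _)
    · have h1 : |f s| ^ 2 ≤ 2 * Real.exp |f s| := by
        have := Real.pow_div_factorial_le_exp |f s| (abs_nonneg _) 2
        norm_num at this ⊢
        linarith
      have h2 : Real.exp |f s| ≤ Real.exp (-((b - 1) * t)) * Real.exp (b * |f s|) := by
        rw [← Real.exp_add]
        exact Real.exp_le_exp.2 (by nlinarith [not_le.1 hx])
      have h3 : Real.exp (b * |f s|) ≤ Real.exp (b * f s) + Real.exp (-b * f s) := by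
        rcases abs_cases (f s) with a | a
        · rw [a.1]; linarith
        · rw [a.1, show b * -f s = -b * f s by ring]; linarith
      rw [sq_abs] at h1
      nlinarith [mul_le_mul_of_nonneg_left h3 p3.le, sq_nonneg t]
  · rw [Ex_const_mul, Ex_add i1 i2]
    have e1 := e b
    have e2 := e (-b)
    rw [neg_sq] at e2
    have e3 : Real.exp (-((b - 1) * t)) * Real.exp (C * b ^ 2) = Real.exp (t - t ^ 2 / (4 * C)) := by
      rw [← Real.exp_add]; congr 1; rw [hb]; field_simp; ring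
    rw [← e3]
    nlinarith [Real.exp_pos (-((b - 1) * t))]

theorem exp_half_le : Real.exp (1 / 2) ≤ 2 := by
  have h := Real.exp_one_lt_d9
  have e : Real.exp (1 / 2) * Real.exp (1 / 2) = Real.exp 1 := by rw [← Real.exp_add]; norm_num
  nlinarith [Real.exp_pos (1 / 2)]

section
variable {V ι : Type} [DecidableEq V] {m : Mdl V} {f : ι → V → ℝ} {v : ι → ℝ} {C c η : ℝ}

/-- the gain from the hit cells -/
theorem gain (hc : m.Ctr) (hA : m.Anch) (K : Finset V) {G g : Finset ι} (hg : g ⊆ G) {n : ℕ}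
    (hn : n ≤ #g) (hc0 : 0 < c) (hC : 1 ≤ C) (hη : 0 ≤ η) (hv : ∀ t ∈ G, v t ≤ C)
    (h1 : ∀ t ∈ G, Vr ((m.free (m.A \ K)).W 0) (pr (f t)) (pr (f t)) ≤ v t + η)
    (h2 : ∀ t ∈ g, Vr ((m.free (m.A \ K)).W 0) (pr (f t)) (pr (f t)) ≤ v t - c) :
    (∏ t ∈ G, 1 / Real.sqrt (1 + v t + η)) * Real.sqrt (1 + c / (1 + C)) ^ n ≤
      Ex ((m.free (m.A \ K)).W 0) (gq G fun t => pr (f t)) := by
  classical
  have h : Cen ((m.free (m.A \ K)).W 0) :=
    Md.ctr_cen (Mix53.free_ctr hc sdiff_subset) (Mix53.free_anch hA sdiff_subset)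
  refine le_trans ?_ (gq_prod h G _)
  set l := Real.sqrt (1 + c / (1 + C)) with hl
  have l1 : 1 ≤ l := Real.one_le_sqrt.2 (by have : 0 ≤ c / (1 + C) := by positivity
                                            linarith)
  have e : l ^ #g = ∏ t ∈ G, if t ∈ g then l else 1 := by
    rw [prod_ite_mem, inter_eq_right.2 hg, prod_const]
  refine le_trans (mul_le_mul_of_nonneg_left (pow_le_pow_right₀ l1 hn)
    (prod_nonneg fun _ _ => by positivity)) ?_
  rw [e, ← prod_mul_distrib]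
  refine prod_le_prod (fun t _ => by split_ifs <;> positivity) fun t ht => ?_
  have V0 := h.wt.Vr_nonneg h.se (pr (f t))
  set x := Vr ((m.free (m.A \ K)).W 0) (pr (f t)) (pr (f t))
  have a1 := h1 t ht
  split_ifs with hg'
  · have a2 := h2 t hg'
    have a3 := hv t ht
    rw [one_div_mul_eq_div, div_le_div_iff₀ (Real.sqrt_pos.2 (by linarith))
      (Real.sqrt_pos.2 (by linarith)), one_mul, hl, ← Real.sqrt_mul (by positivity)]
    refine Real.sqrt_le_sqrt ?_
    have : c / (1 + C) * (1 + x) ≤ c := by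
      rw [div_mul_eq_mul_div, div_le_iff₀ (by linarith)]
      exact mul_le_mul_of_nonneg_left (by linarith) hc0.le
    nlinarith
  · rw [mul_one]
    exact one_div_le_one_div_of_le (Real.sqrt_pos.2 (by linarith)) (Real.sqrt_le_sqrt (by linarith))

/-- the products with and without the error `η` -/
theorem prods {G : Finset ι} {N : ℝ} (hG : (#G : ℝ) ≤ N) (hC : 1 ≤ C) (hη : 0 ≤ η) (h1 : η ≤ 1)
    (hN : η * N ≤ 1) (hv : ∀ t ∈ G, 0 ≤ v t ∧ v t ≤ C) :
    Real.exp (-(C * N)) ≤ ∏ t ∈ G, 1 / Real.sqrt (1 + v t + η) ∧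
      ∏ t ∈ G, 1 / Real.sqrt (1 + v t) ≤ 2 * ∏ t ∈ G, 1 / Real.sqrt (1 + v t + η) := by
  constructor
  · calc _ ≤ Real.exp (-C) ^ #G := by
          rw [← Real.exp_nat_mul]; exact Real.exp_le_exp.2 (by nlinarith)
      _ = ∏ _t ∈ G, Real.exp (-C) := (prod_const _).symm
      _ ≤ _ := prod_le_prod (fun _ _ => (Real.exp_pos _).le) fun t ht => by
          obtain ⟨a, b⟩ := hv t ht
          rw [Real.exp_neg, ← one_div]
          refine one_div_le_one_div_of_le (Real.sqrt_pos.2 (by linarith))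
            (Real.sqrt_le_iff.2 ⟨(Real.exp_pos _).le, ?_⟩)
          nlinarith [Real.add_one_le_exp C]
  · calc _ ≤ ∏ t ∈ G, Real.exp (η / 2) * (1 / Real.sqrt (1 + v t + η)) :=
          prod_le_prod (fun _ _ => by positivity) fun t ht => by
            obtain ⟨a, b⟩ := hv t ht
            rw [mul_one_div, div_le_div_iff₀ (Real.sqrt_pos.2 (by linarith))
              (Real.sqrt_pos.2 (by linarith)), one_mul, Real.exp_half,
              ← Real.sqrt_mul (Real.exp_pos _).le]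
            refine Real.sqrt_le_sqrt ?_
            nlinarith [Real.add_one_le_exp η]
      _ ≤ _ := by
          rw [prod_mul_distrib, prod_const, ← Real.exp_nat_mul]
          refine mul_le_mul_of_nonneg_right ?_ (prod_nonneg fun _ _ => by positivity)
          have : Real.exp (#G * (η / 2)) ≤ Real.exp (1 / 2) := Real.exp_le_exp.2 (by nlinarith)
          exact this.trans exp_half_le

end

set_option maxHeartbeats 800000 in
theorem asmStmt : AsmStmt := by
  intro C₀ c α hc0 hα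
  obtain ⟨C, hC, hCC⟩ : ∃ C : ℝ, 1 ≤ C ∧ C₀ ≤ C := ⟨max C₀ 1, le_max_right _ _, le_max_left _ _⟩
  set l := Real.sqrt (1 + c / (1 + C)) with hl
  have l1 : 1 < l := Real.lt_sqrt (by norm_num) |>.2 (by have : 0 < c / (1 + C) := by positivity
                                                         linarith)
  have g0 : 0 < Real.log l := Real.log_pos l1
  set δ := min (Real.log l * α) 1 with hδ
  have δ0 : 0 < δ := lt_min (by positivity) one_pos
  set B : ℝ := 64 + 24 * (12 * C) ^ 2 with hB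
  have hev : ∀ᶠ P : ℕ in atTop, B * ((P : ℝ) ^ 12 * Real.exp (-(δ * P))) ≤ 1 / 2 := by
    have h1 : Tendsto (fun P : ℕ => δ * (P : ℝ)) atTop atTop :=
      tendsto_natCast_atTop_atTop.const_mul_atTop δ0
    have h2 := ((Real.tendsto_pow_mul_exp_neg_atTop_nhds_zero 12).comp h1).const_mul (B / δ ^ 12)
    rw [mul_zero] at h2
    filter_upwards [h2.eventually_le_const (by norm_num : (0 : ℝ) < 1 / 2)] with P hP
    refine le_trans (le_of_eq ?_) hP
    simp only [Function.comp]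
    field_simp
  obtain ⟨P₀, hP₀⟩ := eventually_atTop.1 (hev.and ((tendsto_natCast_atTop_atTop (R := ℝ)).eventually_ge_atTop
    (48 * C)))
  refine ⟨P₀, fun P hP => ?_⟩
  obtain ⟨hP1, hP2⟩ := hP₀ P hP
  have P1 : (1 : ℝ) ≤ P := by linarith
  have P0 : (0 : ℝ) < P := by linarith
  set η := min (1 / (P : ℝ) ^ 2) (Real.exp (-(C * (P : ℝ) ^ 2))) with hη
  have η0 : 0 < η := lt_min (by positivity) (Real.exp_pos _)
  have η1 : η * (P : ℝ) ^ 2 ≤ 1 := by
    rw [← le_div_iff₀ (by positivity)]; exact min_le_left _ _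
  have η2 : η ≤ 1 := by nlinarith [one_le_pow₀ (n := 2) P1]
  refine ⟨η, η0, fun V ι κ _ _ _ m S I Ti To Cs col f ψ v H n hc hA hTi hTo hCs hn h1 h2 h3 h4 h5 => ?_⟩
  classical
  have hW : Cen (m.W 0) := Md.ctr_cen hc hA
  set E := Real.exp (-(δ * P)) with hE
  have E0 : 0 < E := Real.exp_pos _
  set Γ : Finset ι → ℝ := fun G => (∏ t ∈ G, 1 / Real.sqrt (1 + v t + η)) * l ^ n with hΓ
  have ln : 1 ≤ E * l ^ n := by
    rw [← Real.exp_log (show 0 < l by linarith), ← Real.exp_nat_mul, ← Real.exp_add]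
    refine Real.one_le_exp ?_
    nlinarith [mul_le_mul_of_nonneg_right (min_le_left (Real.log l * α) 1) P0.le,
      mul_le_mul_of_nonneg_left hn g0.le]
  have ln1 : 1 ≤ l ^ n := one_le_pow₀ l1.le
  -- the groups
  have grp : ∀ T : Finset ι, #T ≤ P ^ 2 → T ⊆ Ti ∨ T ⊆ To → ∀ k,
      (#(T.filter fun t => col t = k) : ℝ) ≤ (P : ℝ) ^ 2 ∧ 0 < Γ (T.filter fun t => col t = k) ∧
      1 / Γ (T.filter fun t => col t = k) ≤ Real.exp (C * (P : ℝ) ^ 2) ∧
      1 / Γ (T.filter fun t => col t = k) *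
        Ex (m.W 0) (gq (T.filter fun t => col t = k) fun t => pr (f t)) ≤ 3 * E ∧
      ∀ (K : Finset V) (g : Finset ι), g ⊆ T → n ≤ #g → (∀ t ∈ g, col t = k ∧ H K t) →
        Γ (T.filter fun t => col t = k) ≤ Ex ((m.free (m.A \ K)).W 0)
          (gq (T.filter fun t => col t = k) fun t => pr (f t)) := by
    intro T hT hs k
    set G := T.filter fun t => col t = k with hG
    have hm : ∀ t ∈ G, t ∈ Ti ∨ t ∈ To := fun t ht =>
      hs.imp (fun h => h (mem_filter.1 ht).1) fun h => h (mem_filter.1 ht).1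
    have a0 : (#G : ℝ) ≤ (P : ℝ) ^ 2 := by exact_mod_cast (card_filter_le _ _).trans hT
    obtain ⟨a1, a2⟩ := prods a0 hC η0.le η2 η1 fun t ht =>
      ⟨(h1 t (hm t ht)).2.1, (h1 t (hm t ht)).2.2.1.trans hCC⟩
    set p := ∏ t ∈ G, 1 / Real.sqrt (1 + v t + η) with hp
    have p0 : 0 < p := (Real.exp_pos _).trans_le a1
    have a3 : 0 < Γ G := mul_pos p0 (by linarith)
    refine ⟨a0, a3, ?_, ?_, fun K g hg hn' hg' => ?_⟩
    · rw [← inv_inv (Real.exp _), ← Real.exp_neg, ← one_div]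
      exact one_div_le_one_div_of_le (Real.exp_pos _) (a1.trans (le_mul_of_one_le_right p0.le ln1))
    · have a4 := h2 G (hs.imp (filter_subset _ _).trans (filter_subset _ _).trans) fun t ht t' ht' =>
        (mem_filter.1 ht).2.trans (mem_filter.1 ht').2.symm
      have a5 : η ≤ p := (min_le_right _ _).trans a1
      rw [one_div_mul_eq_div, div_le_iff₀ a3]
      simp only [hΓ]
      nlinarith [mul_le_mul_of_nonneg_left ln p0.le]
    · have hg2 : g ⊆ G := fun t ht => mem_filter.2 ⟨hg ht, (hg' t ht).1⟩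
      exact gain hc hA K hg2 hn' hc0 hC η0.le (fun t ht => (h1 t (hm t ht)).2.2.1.trans hCC)
        (fun t ht => ((h1 t (hm t ht)).2.2.2.2 K).1)
        fun t ht => ((h1 t (hm t (hg2 ht))).2.2.2.2 K).2 (hg' t ht).2
  have cs : ∀ (T : Finset ι) (F : Finset ι → ℝ) (b : ℝ), 0 ≤ b →
      (∀ k, F (T.filter fun t => col t = k) ≤ b) →
      ∑ g ∈ Cs.image fun k => T.filter fun t => col t = k, F g ≤ 4 * b := fun T F b hb h => by
    refine (sum_le_card_nsmul _ _ b fun g hg => ?_).trans ?_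
    · obtain ⟨k, -, rfl⟩ := mem_image.1 hg
      exact h k
    · rw [nsmul_eq_mul]
      exact mul_le_mul_of_nonneg_right (by exact_mod_cast card_image_le.trans hCs) hb
  -- tails
  have EP : Real.exp (-(P : ℝ)) ≤ E := Real.exp_le_exp.2 (by
    nlinarith [mul_le_mul_of_nonneg_right (min_le_right (Real.log l * α) 1) P0.le])
  have tail : ∀ t ∈ Ti, tl (m.W 0) (pr (ψ t)) ((12 * C * P) ^ 2) * Real.exp (C * (P : ℝ) ^ 2) ≤ 4 * E := by
    intro t ht
    have a := tl_le hW (pr (ψ t)) (C := C) (t := 12 * C * P) (by linarith) (by nlinarith) fun a =>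
      ((h1 t (Or.inl ht)).2.2.2.1 a).trans (mul_le_mul_of_nonneg_right hCC (sq_nonneg a))
    refine (mul_le_mul_of_nonneg_right a (Real.exp_pos _).le).trans ?_
    rw [mul_assoc, ← Real.exp_add]
    refine mul_le_mul_of_nonneg_left (le_trans (Real.exp_le_exp.2 ?_) EP) (by norm_num)
    have : (12 * C * P) ^ 2 / (4 * C) = 36 * (C * (P : ℝ) ^ 2) := by field_simp; ring
    rw [this]
    nlinarith [mul_le_mul_of_nonneg_left P1 P0.le, mul_le_mul_of_nonneg_right hC P0.le,
      mul_le_mul_of_nonneg_left (mul_le_mul_of_nonneg_left P1 P0.le) (by linarith : 0 ≤ C)]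
  have tl0 : ∀ t a, 0 ≤ tl (m.W 0) (pr (ψ t)) a := fun t a =>
    Ex_nonneg hW.nonneg fun s _ => le_max_right _ _
  -- Palm sums
  have pal : ∀ t ∈ Ti, Ex (m.J 0 0) (pa m.A (ψ t) S) ≤
      24 * C / (P : ℝ) ^ 16 + (40 + 24 * (12 * C) ^ 2 * (P : ℝ) ^ 2) * E := by
    intro t ht
    have a := palm hc hA S (φ := ψ t) (fun y => (abs_nonneg _).trans ((h1 t (Or.inl ht)).1 y)) To
      (fun t' ht' => (h1 t' (Or.inr ht')).1) (Cs.image fun k => To.filter fun t => col t = k)
      (fun g hg => by obtain ⟨k, -, rfl⟩ := mem_image.1 hg; exact filter_subset _ _) (Γ := Γ)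
      (fun g hg => by obtain ⟨k, -, rfl⟩ := mem_image.1 hg; exact (grp To hTo (Or.inr le_rfl) k).2.1)
      (fun x hx hx' ω hω hS => by
        obtain ⟨k, hk, g, hg, hn', hg'⟩ := h5 t ht x hx hx' ω hω hS
        exact ⟨_, mem_image_of_mem _ hk, (grp To hTo (Or.inr le_rfl) k).2.2.2.2 _ g hg hn' hg'⟩)
      (K := Real.sqrt 2 * (12 * C * P)) (ρ := 1 / P) (by positivity) (by positivity) ((12 * C * P) ^ 2)
    rw [show (Real.sqrt 2 * (12 * C * P)) ^ 2 / 2 = (12 * C * P) ^ 2 by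
      rw [mul_pow, Real.sq_sqrt (by norm_num)]; ring] at a
    have b1 : ∑ t' ∈ To, Vr (m.W 0) (pr (ψ t)) (pr (ψ t')) ≤ (P : ℝ) ^ 2 * (1 / (P : ℝ) ^ 20) := by
      refine (sum_le_card_nsmul _ _ _ (h3 t ht)).trans ?_
      rw [nsmul_eq_mul]
      exact mul_le_mul_of_nonneg_right (by exact_mod_cast hTo) (by positivity)
    have s2 : Real.sqrt 2 ≤ 2 := Real.sqrt_le_iff.2 ⟨by norm_num, by norm_num⟩
    have b2 : Real.sqrt 2 * (12 * C * P) / (1 / P) * ∑ t' ∈ To, Vr (m.W 0) (pr (ψ t)) (pr (ψ t')) ≤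
        24 * C / (P : ℝ) ^ 16 := by
      refine (mul_le_mul_of_nonneg_left b1 (by positivity)).trans ?_
      have : Real.sqrt 2 * (12 * C * P) / (1 / P) * ((P : ℝ) ^ 2 * (1 / (P : ℝ) ^ 20)) =
          Real.sqrt 2 * (12 * C) / (P : ℝ) ^ 16 := by field_simp
      rw [this]
      exact div_le_div_of_nonneg_right (by nlinarith) (by positivity)
    have b3 := tail t ht
    have b4 : tl (m.W 0) (pr (ψ t)) ((12 * C * P) ^ 2) ≤ 4 * E :=
      (le_mul_of_one_le_right (tl0 _ _) (Real.one_le_exp (by positivity))).trans b3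
    have b5 := cs To (fun g => Real.exp (#g * (1 / (P : ℝ)) ^ 2 / 2) / Γ g *
      ((12 * C * P) ^ 2 * Ex (m.W 0) (gq g fun c => pr (f c)) +
        tl (m.W 0) (pr (ψ t)) ((12 * C * P) ^ 2))) (2 * ((12 * C * P) ^ 2 * (3 * E) + 4 * E))
      (by positivity) fun k => by
        obtain ⟨c0, c1, c2, c3, -⟩ := grp To hTo (Or.inr le_rfl) k
        set G := To.filter fun t => col t = k
        have d1 : Real.exp (#G * (1 / (P : ℝ)) ^ 2 / 2) ≤ 2 := by
          refine le_trans (Real.exp_le_exp.2 ?_) exp_half_le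
          rw [one_div_pow, mul_one_div]
          have := (div_le_one (by positivity : (0 : ℝ) < (P : ℝ) ^ 2)).2 c0
          linarith
        have d2 := (mul_le_mul_of_nonneg_left c2 (tl0 t ((12 * C * P) ^ 2))).trans b3
        have d3 := mul_le_mul_of_nonneg_left c3 (sq_nonneg (12 * C * P))
        have d4 : 0 ≤ Ex (m.W 0) (gq G fun c => pr (f c)) :=
          Ex_nonneg hW.nonneg fun s _ => (gq_pos _ _ _).le
        have d5 := tl0 t ((12 * C * P) ^ 2)
        rw [div_eq_mul_one_div, mul_assoc]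
        refine mul_le_mul d1 (by linarith) (by positivity) (by norm_num)
    have b6 : 2 * (4 * E) + 4 * (2 * ((12 * C * P) ^ 2 * (3 * E) + 4 * E)) =
        (40 + 24 * (12 * C) ^ 2 * (P : ℝ) ^ 2) * E := by ring
    refine a.trans ((add_le_add (add_le_add b2 (mul_le_mul_of_nonneg_left b4 zero_le_two)) b5).trans ?_)
    rw [add_assoc, b6]
  have a := cross hc hA S I Ti (fun t ht => (h1 t (Or.inl ht)).1)
    (Cs.image fun k => Ti.filter fun t => col t = k)
    (fun g hg => by obtain ⟨k, -, rfl⟩ := mem_image.1 hg; exact filter_subset _ _) (Γ := Γ)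
    (fun g hg => by obtain ⟨k, -, rfl⟩ := mem_image.1 hg; exact (grp Ti hTi (Or.inl le_rfl) k).2.1)
    (fun ω hω hS => by
      obtain ⟨k, hk, g, hg, hn', hg'⟩ := h4 ω hω hS
      exact ⟨_, mem_image_of_mem _ hk, (grp Ti hTi (Or.inl le_rfl) k).2.2.2.2 _ g hg hn' hg'⟩)
    one_pos
  have b1 := cs Ti (fun g => Real.exp (1 / 2) / Γ g * Ex (m.W 0) (gq g fun c => pr (f c)))
    (2 * (3 * E)) (by positivity) fun k => by
      obtain ⟨-, c1, -, c3, -⟩ := grp Ti hTi (Or.inl le_rfl) k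
      have d4 : 0 ≤ Ex (m.W 0) (gq (Ti.filter fun t => col t = k) fun c => pr (f c)) :=
        Ex_nonneg hW.nonneg fun s _ => (gq_pos _ _ _).le
      rw [div_eq_mul_one_div, mul_assoc]
      exact mul_le_mul exp_half_le c3 (by positivity) (by norm_num)
  have b2 : ∑ t ∈ Ti, Ex (m.J 0 0) (pa m.A (ψ t) S) ≤ (P : ℝ) ^ 2 *
      (24 * C / (P : ℝ) ^ 16 + (40 + 24 * (12 * C) ^ 2 * (P : ℝ) ^ 2) * E) := by
    refine (sum_le_card_nsmul _ _ _ pal).trans ?_
    rw [nsmul_eq_mul]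
    exact mul_le_mul_of_nonneg_right (by exact_mod_cast hTi) (by positivity)
  rw [div_one] at a
  refine (a.trans (add_le_add b1 b2)).trans ?_
  rw [le_div_iff₀ (by positivity)]
  have e1 : (4 * (2 * (3 * E)) + (P : ℝ) ^ 2 *
      (24 * C / (P : ℝ) ^ 16 + (40 + 24 * (12 * C) ^ 2 * (P : ℝ) ^ 2) * E)) * (P : ℝ) ^ 8 =
      24 * C / (P : ℝ) ^ 6 + (24 * (P : ℝ) ^ 8 + 40 * (P : ℝ) ^ 10 + 24 * (12 * C) ^ 2 * (P : ℝ) ^ 12) * E := by
    field_simp; ring
  have e2 : 24 * C / (P : ℝ) ^ 6 ≤ 1 / 2 := by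
    rw [div_le_iff₀ (by positivity)]
    have := pow_le_pow_right₀ P1 (by norm_num : 1 ≤ 6)
    linarith [pow_one (P : ℝ)]
  have e3 := mul_le_mul_of_nonneg_right (pow_le_pow_right₀ P1 (by norm_num : 8 ≤ 12)) E0.le
  have e4 := mul_le_mul_of_nonneg_right (pow_le_pow_right₀ P1 (by norm_num : 10 ≤ 12)) E0.le
  rw [e1]
  simp only [hB] at hP1
  nlinarith

end Crest.Agent.T145.Mx
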