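import Crest.Agent.T145.MxC_31
import Crest.Agent.T145.MxDef_9
import Crest.Agent.T145.Dlg_74
import Crest.Agent.T145.BrB_73

/-!
# Row 145, module Mx: DL from MIX0 and the massive free field (helper31, task 279)
-/

set_option autoImplicit false

namespace Crest.Agent.T145

open Finset

namespace Mx31

open Mx

theorem four_of_M {L : Type*} [AddCommGroup L] {W : L → ℝ} (h : Cen W) (f : L →+ ℝ) {t b : ℝ}
    (hb : M W (t • f) ≤ b) : t ^ 4 * Ex W (fun s => f s ^ 4) ≤ 24 * Real.exp b := by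
  rw [← Ex_const_mul]
  calc _ ≤ Ex W (fun s => 24 * Real.cosh ((t • f) s)) :=
        Ex_mono h.nonneg (h.ig (((Tame.hom _).pow 4).const_mul _))
          (h.ig ((Tame.cosh _).const_mul _)) fun s => by
            simpa only [AddMonoidHom.smul_apply, smul_eq_mul, mul_pow] using
              pow_four_le_cosh ((t • f) s)
    _ ≤ _ := by
        rw [Ex_const_mul, h.ex_cosh]
        exact mul_le_mul_of_nonneg_left (Real.exp_le_exp.2 hb) (by norm_num)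

variable {Λ : Lat} {L : ℕ} {θ μ : ℝ} {u : Pt → ℝ}

theorem fu_smul (t : ℝ) : fu Λ L θ μ (t • u) = t • fu Λ L θ μ u := by
  funext x
  simp only [fu, Lat.Au_smul, Pi.smul_apply, smul_eq_mul]
  ring

theorem vu_smul (t : ℝ) : vu Λ L θ μ (t • u) = t ^ 2 * vu Λ L θ μ u := by
  simp only [vu, Lat.En_smul_smul, ip, Pi.smul_apply, smul_eq_mul, mul_add, mul_sum]
  congr 1
  · ring
  · exact sum_congr rfl fun _ _ => by ring

theorem pr_fu : pr (fu Λ L θ μ u) =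
    pr (θ⁻¹ • Λ.Au (sq 0 L) u) + pr fun x => μ * (ind (x ∈ sq 0 L) * u x) := by
  rw [← pr_add]
  congr 1
  funext x
  simp only [fu, Pi.add_apply, Pi.smul_apply, smul_eq_mul]
  ring

theorem Au_off {D U T : Finset Pt} (hu : ∀ x, u x ≠ 0 → x ∈ U) (hT : ∀ x ∈ U, bl x Λ.rg ⊆ T) :
    Sup T (Λ.Au D u) := fun x hx => by
  refine sum_eq_zero fun e he => ?_
  beta_reduce
  have j := (Lat.mem_edI.1 he).1
  have z : ∀ y, x ∈ bl y Λ.rg → u y = 0 := fun y hy => by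
    by_contra k
    exact hx (hT y (hu y k) hy)
  by_cases k2 : e.2 = x
  · rw [z e.2 (k2 ▸ self_mem_bl _ _), z e.1 (k2 ▸ Lat.edge_near j)]; simp
  by_cases k1 : e.1 = x
  · rw [z e.1 (k1 ▸ self_mem_bl _ _), z e.2 (k1 ▸ Lat.edge_near' j)]; simp
  rw [ind_neg k1, ind_neg k2]; simp

/-- the free model pinned on a set that screens the boundary is below the Dirichlet model -/
theorem loc_free_D (h : Λ.Ok) {A B : Finset Pt} (hA : A ⊆ B) (hS : ∀ x ∈ A, bl x Λ.rg ⊆ B) :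
    Loc (((Λ.N B).free A).W 0) ((Λ.D B).W 0) :=
  loc_touch (h.ctr_D B) (h.anch_D B) (h.ctr_N B).1 hA (fun _ he k =>
    ⟨Lat.edT_subset_edI hS (Lat.mem_edT.2 ⟨(Lat.mem_edT.1 he).1, k⟩), rfl⟩) fun _ _ _ => rfl

/-- the comparison at fixed scales -/
theorem dl_core (hS : SiteStmt) (h : Λ.Ok) (hμ : 0 < μ) {w : ℕ} (hw : Λ.rg ≤ w)
    (hu : ∀ x, u x ≠ 0 → x ∈ sq ((7 * w : ℕ), (7 * w : ℕ)) (2 * w)) {q b : ℝ}
    (hq : ∀ S S', Far (4 * w) S S' →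
      (Pr ((ms Λ (sq 0 (16 * w)) μ).J 0 0) fun p => Cross S S' p.2) ≤ q)
    (hb : Ex ((ms Λ (sq 0 (16 * w)) μ).W 0) (fun s => pr (fu Λ (16 * w) θ μ u) s ^ 4) ≤ b) :
    Vr ((ms Λ (sq 0 (16 * w)) μ).W 0) (pr (fu Λ (16 * w) θ μ u)) (pr (fu Λ (16 * w) θ μ u)) ≤
      θ⁻¹ ^ 2 * Vr ((Λ.D (sq 0 (16 * w))).W 0) (Λ.X (16 * w) u) (Λ.X (16 * w) u) +
        μ * ip (sq 0 (16 * w)) u u + Real.sqrt b * Real.sqrt q := by
  have w1 : 1 ≤ w := h.one_le_rg.trans hw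
  obtain ⟨am, -, s2⟩ := hS Λ (sq 0 (16 * w)) μ h hμ
  set S := sq 0 (16 * w) \ sq ((2 * w : ℕ), (2 * w : ℕ)) (12 * w) with hS'
  have hT : Sup (sq ((6 * w : ℕ), (6 * w : ℕ)) (4 * w)) (fu Λ (16 * w) θ μ u) := fun x hx => by
    have a : u x = 0 := by
      by_contra k
      have := hu x k
      simp only [mem_sq] at hx this
      omega
    rw [fu, a, Au_off hu (fun y hy z hz => ?_) x hx]
    · simp
    · simp only [mem_sq, mem_bl] at hy hz ⊢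
      omega
  have z0 : (0 : Pt) ∈ sq 0 (16 * w) := self_mem_sq _ (by omega)
  have an : ((Λ.N (sq 0 (16 * w))).free (sq 0 (16 * w) \ S)).Anch := fun x hx =>
    ⟨0, h.conn_sq (mem_sdiff.1 hx).1 z0, Or.inl fun k => (mem_sdiff.1 k).2 (mem_sdiff.2 ⟨z0, by
      simp only [mem_sq, Prod.fst_zero]; omega⟩)⟩
  refine (vr_le_free am.1 am.2.1 S hT).trans (add_le_add ?_ (mul_le_mul (Real.sqrt_le_sqrt hb)
    (Real.sqrt_le_sqrt (hq _ _ fun x hx y hy => ?_)) (Real.sqrt_nonneg _) (Real.sqrt_nonneg _)))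
  · rw [pr_fu]
    refine (s2 _ _ _ sdiff_subset an).2.trans (add_le_add ?_ (le_of_eq ?_))
    · rw [pr_smul, Vr_smul_smul]
      refine mul_le_mul_of_nonneg_left ((loc_free_D h sdiff_subset fun x hx y hy => ?_).Vr_le
        (((h.ctr_N _).free sdiff_subset).cen an) ((h.ctr_D _).cen (h.anch_D _)) _) (sq_nonneg _)
      simp only [hS', mem_sdiff, mem_sq, mem_bl, Prod.fst_zero, Prod.snd_zero] at hx hy ⊢
      omega
    · rw [div_eq_iff hμ.ne', ip, ip, mul_sum, sum_mul]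
      exact sum_congr rfl fun x hx => by rw [ind_pos hx]; ring
  · have : ((4 * w : ℕ) : ℤ) ≤ |(x - y).1| ∨ ((4 * w : ℕ) : ℤ) ≤ |(x - y).2| := by
      simp only [hS', mem_sdiff, mem_sq, Prod.fst_zero, Prod.snd_zero, Prod.fst_sub, Prod.snd_sub,
        le_abs] at hx hy ⊢
      omega
    simp only [co, Matrix.cons_val_zero, Matrix.cons_val_one]
    exact_mod_cast this

end Mx31

open Mx31 in
/-- **DL** -/
theorem Mx.dlStmt (hM : Mx.Mix0Stmt) (hG : Mx.GmStmt) (hS : Mx.SiteStmt) (ha : T1aStmt)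
    (hm : T1mStmt) : DlStmt := by
  refine Soft.of_ev fun F θ₀ K ε h0 hK hε => ?_
  obtain ⟨C, hC1, hC⟩ := F.exists_bound
  obtain ⟨K₀, hK₀, k1⟩ := hM F θ₀ (1 / 4) h0 (by norm_num)
  obtain ⟨_, k4⟩ := ha F
  obtain ⟨b, hb⟩ : ∃ b : ℝ, b = 2 * (16 * K ^ 2 * C ^ 4) / θ₀ + (3 * K ^ 2) ^ 2 := ⟨_, rfl⟩
  have hK3 : 1 ≤ 3 * K ^ 2 := by nlinarith
  have b1 : 1 ≤ b := by
    have : 0 ≤ 2 * (16 * K ^ 2 * C ^ 4) / θ₀ := by positivity
    nlinarith
  obtain ⟨R, hR1, hR2⟩ : ∃ R : ℝ, K₀ ≤ R ∧ 18 * b / ε ≤ R := ⟨_, le_max_left _ _, le_max_right _ _⟩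
  have R1 : 1 ≤ R := hK₀.trans hR1
  obtain ⟨δ₁, d1, k2⟩ := k1 R
  have k3 := Soft.ev hG F (K := max (3 * K ^ 2) R) (ε := min (ε / 2) (1 / 2)) h0
    (hK3.trans (le_max_left _ _)) (by positivity)
  filter_upwards [k3, ev_win hm F h0 one_pos, ev_le d1, ev_large' (16 * C)] with δ e1 e2 e3 e4
  intro Λ hΛ l L hW u hu hs
  have h := hΛ.ok
  obtain ⟨-, c1, -, -, -, c2, -, c3⟩ := hC Λ hΛ
  obtain ⟨w, rfl⟩ : ∃ w, L = 16 * w := by
    obtain ⟨j, rfl⟩ := hW.dyadic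
    have : (16 : ℝ) ≤ (2 ^ j : ℕ) := le_trans (by linarith) (e4 _ _ hW.sep).2.2
    have : 2 ^ 4 ≤ 2 ^ j := by exact_mod_cast this
    obtain ⟨i, rfl⟩ := Nat.exists_eq_add_of_le ((Nat.pow_le_pow_iff_right one_lt_two).1 this)
    exact ⟨2 ^ i, pow_add _ _ _⟩
  have hw : Λ.rg ≤ w := by
    have := (e4 _ _ hW.sep).2.2
    push_cast at this
    exact_mod_cast (by linarith : (Λ.rg : ℝ) ≤ w)
  have L0 := hW.L_pos'
  have θ1 := (e2 Λ hΛ l _ hW).2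
  have θ2 := (k4 Λ hΛ l hW.one_le_l).2.1
  set θ := Λ.tN l with hθ
  have θ0 : 0 < θ := by linarith
  obtain ⟨μ, hμ⟩ : ∃ μ : ℝ, μ * ((16 * w : ℕ) : ℝ) ^ 2 = R := ⟨R / _, div_mul_cancel₀ _ (by positivity)⟩
  have μ0 : 0 < μ := (mul_pos_iff_of_pos_right (pow_pos L0 2)).1 (by linarith)
  have hs' : ∀ x, u x ≠ 0 → x ∈ sq ((7 * w : ℕ), (7 * w : ℕ)) (2 * w) := fun x hx => by
    have := hs x hx
    simp only [mem_sq] at this ⊢
    omega
  have ub : ∀ x, |u x| ≤ 3 * K ^ 2 := D74.abs_le smStmt hW.one_le_L hK hu (z := 0) fun x hx => by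
    have k : 16 * w ≤ ⌊K * (16 * w : ℕ)⌋₊ := Nat.le_floor (le_mul_of_one_le_left L0.le hK)
    have := hs' x hx
    simp only [mem_sq, mem_bl, Prod.fst_zero, Prod.snd_zero] at this ⊢
    omega
  have hE : Λ.En (sq 0 (16 * w)) u u ≤ 16 * K ^ 2 * C ^ 4 :=
    (D74.En_le smStmt h hW.one_le_L hu (brStmt.2.2.2.2.2.1 0 (16 * w) (16 * w) l (16 * w) 1 le_rfl
      (by rw [one_mul]) (by rw [one_mul])) c1 c2 c3).trans_eq (by ring)
  have hv : Mx.vu Λ (16 * w) θ μ u ≤ b * R := by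
    have a1 : Λ.En (sq 0 (16 * w)) u u / θ ≤ 2 * (16 * K ^ 2 * C ^ 4) / θ₀ := by
      rw [div_le_div_iff₀ θ0 h0]
      have : 0 ≤ 16 * K ^ 2 * C ^ 4 := by positivity
      nlinarith
    have a2 : ip (sq 0 (16 * w)) u u ≤ ((16 * w : ℕ) : ℝ) ^ 2 * (3 * K ^ 2) ^ 2 := by
      refine (sum_le_card_nsmul _ _ _ fun x _ => ?_).trans_eq
        (by rw [card_sq, nsmul_eq_mul, Nat.cast_pow])
      rw [← pow_two, ← sq_abs]
      exact pow_le_pow_left₀ (abs_nonneg _) (ub x) 2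
    have a3 := mul_le_mul_of_nonneg_left a2 μ0.le
    rw [← mul_assoc, hμ] at a3
    have : 0 ≤ 2 * (16 * K ^ 2 * C ^ 4) / θ₀ := by positivity
    rw [Mx.vu, hb]
    nlinarith
  have gm : ∀ t : ℝ, |t| ≤ 1 → Gs3 ((Mx.ms Λ (sq 0 (16 * w)) μ).W 0)
      (t • pr (Mx.fu Λ (16 * w) θ μ u)) (t ^ 2 * Mx.vu Λ (16 * w) θ μ u) (min (ε / 2) (1 / 2)) :=
    fun t ht => by
      have K' : K ≤ max (3 * K ^ 2) R := le_trans (by nlinarith) (le_max_left _ _)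
      have := (e1 Λ hΛ l _ hW μ (t • u) 0 (hμ ▸ R1) (hμ ▸ le_max_right _ _)
        (D74.sm_mono (D74.sm_smul hu t) L0 (le_trans (by nlinarith [abs_nonneg t]) K'))
        (fun x _ => ?_) ?_).1
      · rwa [fu_smul, vu_smul, pr_smul] at this
      · rw [Pi.smul_apply, smul_eq_mul, abs_mul]
        exact le_trans (by nlinarith [abs_nonneg t, abs_nonneg (u x), ub x]) (le_max_left _ _)
      · simp only [ip, Pi.zero_apply, mul_zero, sum_const_zero]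
        positivity
  have cen := (hS Λ (sq 0 (16 * w)) μ h μ0).1.cen
  have bR : 1 ≤ b * R := by nlinarith
  have f4 : Ex ((Mx.ms Λ (sq 0 (16 * w)) μ).W 0) (fun s => pr (Mx.fu Λ (16 * w) θ μ u) s ^ 4) ≤
      (9 * (b * R)) ^ 2 := by
    have t2 : (Real.sqrt (b * R))⁻¹ ^ 2 = (b * R)⁻¹ := by rw [inv_pow, Real.sq_sqrt (by linarith)]
    have g := (abs_le.1 (gm (Real.sqrt (b * R))⁻¹ (by
      rw [abs_of_nonneg (by positivity)]
      exact inv_le_one_of_one_le₀ (Real.one_le_sqrt.2 bR))).2.1).2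
    have a : (b * R)⁻¹ * Mx.vu Λ (16 * w) θ μ u ≤ 1 := by
      rw [inv_mul_le_iff₀ (by linarith), mul_one]; exact hv
    have := four_of_M cen _ (b := 1) (t := (Real.sqrt (b * R))⁻¹) (by
      rw [t2] at g; linarith [min_le_right (ε / 2) (1 / 2)])
    rw [show (Real.sqrt (b * R))⁻¹ ^ 4 = ((Real.sqrt (b * R))⁻¹ ^ 2) ^ 2 by ring, t2, inv_pow,
      inv_mul_le_iff₀ (by positivity)] at this
    nlinarith [Real.exp_one_lt_d9, sq_nonneg (b * R)]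
  have core := dl_core hS h μ0 hw hs' (q := (1 / R ^ 2) ^ 2) (fun S S' k => ?_) f4
  · have g := (abs_le.1 (gm 1 (by simp)).1).1
    rw [one_smul, one_pow, one_mul, Mx.vu] at g
    rw [Real.sqrt_sq (by positivity), Real.sqrt_sq (by positivity)] at core
    have a : 9 * (b * R) * (1 / R ^ 2) ≤ ε / 2 := by
      rw [div_le_iff₀ hε] at hR2
      rw [show 9 * (b * R) * (1 / R ^ 2) = 9 * b / R by field_simp, div_le_iff₀ (by linarith)]
      linarith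
    have k : Λ.En (sq 0 (16 * w)) u u / θ - ε ≤
        θ⁻¹ ^ 2 * Vr ((Λ.D (sq 0 (16 * w))).W 0) (Λ.X (16 * w) u) (Λ.X (16 * w) u) := by
      linarith [min_le_left (ε / 2) (1 / 2)]
    have k' := mul_le_mul_of_nonneg_left k (sq_nonneg θ)
    rw [← mul_assoc, ← mul_pow, mul_inv_cancel₀ θ0.ne', one_pow, one_mul, mul_sub,
      show θ ^ 2 * (Λ.En (sq 0 (16 * w)) u u / θ) = θ * Λ.En (sq 0 (16 * w)) u u by field_simp] at k'
    have : θ ^ 2 ≤ 1 := by nlinarith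
    nlinarith
  · refine (k2 Λ hΛ l _ (hW.mono_d e3) μ 0 S S' (hμ ▸ hR1) hμ.le ?_).trans_eq ?_
    · convert k using 1
      push_cast; ring
    · rw [hμ]; ring

end Crest.Agent.T145
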