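import Mathlib

/-!
# Row 145, Peierls argument, part A: lattice animals, curl-free fields (helper33)
-/

set_option autoImplicit false

namespace Crest.Agent.T145.Pei

open Finset Relation
open scoped ENNReal

abbrev P : Type := ℤ × ℤ

/-- closed `*`-neighbourhood -/
noncomputable def nb (a : P) : Finset P := Icc (a.1 - 1) (a.1 + 1) ×ˢ Icc (a.2 - 1) (a.2 + 1)

theorem mem_nb {a b : P} : b ∈ nb a ↔ a.1 - 1 ≤ b.1 ∧ b.1 ≤ a.1 + 1 ∧ a.2 - 1 ≤ b.2 ∧ b.2 ≤ a.2 + 1 := by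
  simp only [nb, mem_product, mem_Icc]; tauto

theorem card_nb (a : P) : (nb a).card = 9 := by
  simp only [nb, card_product, Int.card_Icc]
  have h1 : a.1 + 1 + 1 - (a.1 - 1) = 3 := by ring
  have h2 : a.2 + 1 + 1 - (a.2 - 1) = 3 := by ring
  rw [h1, h2]; rfl

noncomputable def Nb (γ : Finset P) : Finset P := γ.biUnion nb

theorem card_Nb (γ : Finset P) : (Nb γ).card ≤ 9 * γ.card := by
  refine card_biUnion_le.trans ?_
  simp [card_nb, mul_comm]

theorem sub_Nb {γ : Finset P} {a : P} (h : a ∈ γ) : a ∈ Nb γ :=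
  mem_biUnion.2 ⟨a, h, mem_nb.2 (by omega)⟩

/-- one step inside `A` -/
def St (A : Finset P) (a b : P) : Prop := b ∈ A ∧ b ∈ nb a

/-- `γ` is connected from `x` -/
def Cn (γ : Finset P) (x : P) : Prop := x ∈ γ ∧ ∀ y ∈ γ, ReflTransGen (St γ) x y

/-- `γ` is a union of components of `A` -/
def Cl (A γ : Finset P) : Prop := γ ⊆ A ∧ ∀ a ∈ γ, ∀ b ∈ A, b ∈ nb a → b ∈ γ

open Classical in
/-- the component of `x` in `A` -/
noncomputable def cp (A : Finset P) (x : P) : Finset P := A.filter fun y => ReflTransGen (St A) x y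

theorem mem_cp {A : Finset P} {x y : P} : y ∈ cp A x ↔ y ∈ A ∧ ReflTransGen (St A) x y := by
  simp [cp]

theorem cl_cp (A : Finset P) (x : P) : Cl A (cp A x) :=
  ⟨fun _ h => (mem_cp.1 h).1, fun _ ha _ hb hab =>
    mem_cp.2 ⟨hb, (mem_cp.1 ha).2.tail ⟨hb, hab⟩⟩⟩

theorem cn_cp {A : Finset P} {x : P} (hx : x ∈ A) : Cn (cp A x) x := by
  refine ⟨mem_cp.2 ⟨hx, .refl⟩, fun y hy => ?_⟩
  have h := (mem_cp.1 hy).2
  clear hy
  induction h with
  | refl => exact .refl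
  | tail h1 h2 ih => exact ih.tail ⟨mem_cp.2 ⟨h2.1, h1.tail h2⟩, h2.2⟩

theorem cp_sub {A : Finset P} {x y : P} (h : y ∈ cp A x) : cp A y ⊆ cp A x := fun _ hz =>
  mem_cp.2 ⟨(mem_cp.1 hz).1, (mem_cp.1 h).2.trans (mem_cp.1 hz).2⟩

theorem Cn.sub {γ γ' : Finset P} {x : P} (h : Cn γ x) (hx : x ∈ γ')
    (hc : ∀ a ∈ γ', ∀ b ∈ γ, b ∈ nb a → b ∈ γ') : γ ⊆ γ' := by
  intro y hy
  have h2 := h.2 y hy
  clear hy
  induction h2 with
  | refl => exact hx
  | tail _ h2 ih => exact hc _ ih _ h2.1 h2.2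

/-- a connected set is at least as large as its width -/
theorem Cn.width {γ : Finset P} {x y : P} (h : Cn γ x) (hy : y ∈ γ) :
    |y.1 - x.1| < γ.card := by
  have key : ∀ z, ReflTransGen (St γ) x z → ∀ t, t ∈ uIcc x.1 z.1 → t ∈ γ.image Prod.fst := by
    intro z hz
    induction hz with
    | refl => intro t ht; rw [uIcc_self, mem_singleton] at ht; exact mem_image.2 ⟨x, h.1, ht.symm⟩
    | @tail b c _ h2 ih =>
      intro t ht
      by_cases htc : t = c.1
      · exact mem_image.2 ⟨c, h2.1, htc.symm⟩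
      · refine ih t ?_
        have := mem_nb.1 h2.2
        rw [mem_uIcc] at ht ⊢
        omega
  have h1 : (uIcc x.1 y.1).card ≤ γ.card :=
    (card_le_card fun t ht => key y (h.2 y hy) t ht).trans card_image_le
  rw [Int.card_uIcc] at h1
  have h2 : |y.1 - x.1| = ((y.1 - x.1).natAbs : ℤ) := (Int.natCast_natAbs _).symm
  omega

/-- lattice animals -/
theorem animals (U : Finset P) (x : P) (𝒢 : Finset (Finset P)) (h : ∀ γ ∈ 𝒢, γ ⊆ U ∧ Cn γ x) :
    ∑ γ ∈ 𝒢, (2⁻¹ : ℝ≥0∞) ^ (9 * γ.card) ≤ 1 := by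
  classical
  set fam : Finset P → Finset (Finset P) := fun γ => (U \ Nb γ).powerset.image (γ ∪ ·) with hfam
  have hmem : ∀ γ, ∀ A ∈ fam γ, γ ⊆ A ∧ ∀ b ∈ A, b ∈ Nb γ → b ∈ γ := by
    intro γ A hA
    obtain ⟨T, hT, rfl⟩ := mem_image.1 hA
    refine ⟨subset_union_left, fun b hb hN => ?_⟩
    rcases mem_union.1 hb with h1 | h1
    · exact h1
    · exact absurd hN (mem_sdiff.1 (mem_powerset.1 hT h1)).2
  have hcard : ∀ γ, (fam γ).card = 2 ^ (U \ Nb γ).card := by
    intro γ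
    rw [hfam, card_image_of_injOn, card_powerset]
    intro T hT T' hT' he
    have hd : ∀ S ∈ (U \ Nb γ).powerset, (γ ∪ S) \ γ = S := by
      intro S hS
      ext a
      simp only [mem_sdiff, mem_union]
      constructor
      · tauto
      · intro ha
        exact ⟨Or.inr ha, fun h' => (mem_sdiff.1 (mem_powerset.1 hS ha)).2 (sub_Nb h')⟩
    rw [← hd T (mem_coe.1 hT), ← hd T' (mem_coe.1 hT')]
    simp only at he
    rw [he]
  have hsub : ∀ γ γ', Cn γ x → Cn γ' x → ∀ A ∈ fam γ, A ∈ fam γ' → γ ⊆ γ' := by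
    intro γ γ' h1 h2 A hA hA'
    exact h1.sub h2.1 fun a ha b hb hab =>
      (hmem γ' A hA').2 b ((hmem γ A hA).1 hb) (mem_biUnion.2 ⟨a, ha, hab⟩)
  have hdisj : (𝒢 : Set (Finset P)).PairwiseDisjoint fam := by
    intro γ hγ γ' hγ' hne
    rw [Function.onFun, disjoint_left]
    intro A hA hA'
    exact hne (Subset.antisymm (hsub γ γ' (h γ hγ).2 (h γ' hγ').2 A hA hA')
      (hsub γ' γ (h γ' hγ').2 (h γ hγ).2 A hA' hA))
  have hle : ∑ γ ∈ 𝒢, 2 ^ (U \ Nb γ).card ≤ 2 ^ U.card := by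
    rw [← card_powerset U, ← sum_congr rfl fun γ _ => hcard γ, ← card_biUnion hdisj]
    refine card_le_card fun A hA => ?_
    obtain ⟨γ, hγ, hA⟩ := mem_biUnion.1 hA
    obtain ⟨T, hT, rfl⟩ := mem_image.1 hA
    exact mem_powerset.2 (union_subset (h γ hγ).1 ((mem_powerset.1 hT).trans sdiff_subset))
  have hle' : ∑ γ ∈ 𝒢, (2 : ℝ≥0∞) ^ (U \ Nb γ).card ≤ 2 ^ U.card := by exact_mod_cast hle
  have h2 : (2 : ℝ≥0∞) ^ U.card ≠ 0 := by simp
  have h2' : (2 : ℝ≥0∞) ^ U.card ≠ ⊤ := by simp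
  rw [← ENNReal.mul_le_mul_iff_right h2 h2', mul_one, mul_sum]
  refine le_trans (sum_le_sum fun γ _ => ?_) hle'
  have h3 : U.card ≤ (U \ Nb γ).card + 9 * γ.card := by
    have := card_Nb γ
    have := le_card_sdiff (Nb γ) U
    omega
  calc (2 : ℝ≥0∞) ^ U.card * 2⁻¹ ^ (9 * γ.card)
      ≤ 2 ^ ((U \ Nb γ).card + 9 * γ.card) * 2⁻¹ ^ (9 * γ.card) := by
        gcongr; norm_num
    _ = 2 ^ (U \ Nb γ).card := by
        rw [pow_add, mul_assoc, ← mul_pow, ENNReal.mul_inv_cancel (by simp) (by simp), one_pow,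
          mul_one]

/-! ## fields -/

def e1 : P := (1, 0)
def e2 : P := (0, 1)

/-- gradient: (horizontal, vertical) -/
def grad (n : P → ℤ) (y : P) : ℤ × ℤ := (n (y + e1) - n y, n (y + e2) - n y)

def curl (η : P → ℤ × ℤ) (p : P) : ℤ := (η p).1 + (η (p + e1)).2 - (η (p + e2)).1 - (η p).2

/-- restriction of a field -/
def res (γ : Finset P) (η : P → ℤ × ℤ) (y : P) : ℤ × ℤ := if y ∈ γ then η y else 0

theorem curl_grad (n : P → ℤ) (p : P) : curl (grad n) p = 0 := by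
  have : p + e1 + e2 = p + e2 + e1 := by abel
  simp only [curl, grad, this]; ring

theorem curl_add (η ζ : P → ℤ × ℤ) (p : P) : curl (η + ζ) p = curl η p + curl ζ p := by
  simp only [curl, Pi.add_apply, Prod.fst_add, Prod.snd_add]; ring

theorem curl_sub (η ζ : P → ℤ × ℤ) (p : P) : curl (η - ζ) p = curl η p - curl ζ p := by
  simp only [curl, Pi.sub_apply, Prod.fst_sub, Prod.snd_sub]; ring

theorem curl_res_of {A γ : Finset P} (h : Cl A γ) {η : P → ℤ × ℤ} (hη : ∀ y, y ∉ A → η y = 0)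
    {p : P} (hp : p ∈ γ ∨ p + e1 ∈ γ ∨ p + e2 ∈ γ) : curl (res γ η) p = curl η p := by
  have key : ∀ b, (b = p ∨ b = p + e1 ∨ b = p + e2) → res γ η b = η b := by
    intro b hb
    unfold res
    split_ifs with h1
    · rfl
    · refine (hη b fun hA => h1 ?_).symm
      rcases hp with hp | hp | hp <;> refine h.2 _ hp b hA (mem_nb.2 ?_) <;>
        rcases hb with rfl | rfl | rfl <;> simp [e1, e2] <;> omega
  simp only [curl, key p (by simp), key (p + e1) (by simp), key (p + e2) (by simp)]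

theorem curl_res_not {γ : Finset P} (η : P → ℤ × ℤ) {p : P}
    (hp : ¬(p ∈ γ ∨ p + e1 ∈ γ ∨ p + e2 ∈ γ)) : curl (res γ η) p = 0 := by
  push Not at hp
  simp [curl, res, hp.1, hp.2.1, hp.2.2]

theorem sum_curl (U : Finset P) (ζ : P → ℤ × ℤ) (h : ∀ y, y ∉ U → ζ y = 0) :
    ∑ᶠ p, curl ζ p = 0 := by
  have f1 : (Function.support fun p => (ζ p).1).Finite :=
    U.finite_toSet.subset fun p hp => by
      by_contra h'; exact hp (by simp [h p h'])
  have f2 : (Function.support fun p => (ζ p).2).Finite :=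
    U.finite_toSet.subset fun p hp => by
      by_contra h'; exact hp (by simp [h p h'])
  have g1 : (Function.support fun p => (ζ (p + e2)).1).Finite :=
    f1.preimage (f := fun p => p + e2) (add_left_injective e2).injOn
  have g2 : (Function.support fun p => (ζ (p + e1)).2).Finite :=
    f2.preimage (f := fun p => p + e1) (add_left_injective e1).injOn
  have s1 : ∑ᶠ p, (ζ (p + e2)).1 = ∑ᶠ p, (ζ p).1 :=
    finsum_comp_equiv (Equiv.addRight e2) (f := fun p => (ζ p).1)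
  have s2 : ∑ᶠ p, (ζ (p + e1)).2 = ∑ᶠ p, (ζ p).2 :=
    finsum_comp_equiv (Equiv.addRight e1) (f := fun p => (ζ p).2)
  have e : ∀ p, curl ζ p = ((ζ p).1 - (ζ (p + e2)).1) + ((ζ (p + e1)).2 - (ζ p).2) := by
    intro p; simp only [curl]; ring
  simp only [e]
  rw [finsum_add_distrib, finsum_sub_distrib f1 g1, finsum_sub_distrib g2 f2, s1, s2]
  · simp
  · exact (f1.union g1).subset (Function.support_sub _ _)
  · exact (g2.union f2).subset (Function.support_sub _ _)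

/-- a rectangle -/
def Rect (Λ : Finset P) : Prop := ∃ a b c d : ℤ, ∀ y, y ∈ Λ ↔ a ≤ y.1 ∧ y.1 ≤ b ∧ c ≤ y.2 ∧ y.2 ≤ d

/-- the field vanishes on the bonds with both ends off `Λ` -/
def Off (Λ : Finset P) (η : P → ℤ × ℤ) : Prop :=
  ∀ y, y ∉ Λ → (y + e1 ∉ Λ → (η y).1 = 0) ∧ (y + e2 ∉ Λ → (η y).2 = 0)

theorem off_grad {Λ : Finset P} {n : P → ℤ} (h : ∀ y, y ∉ Λ → n y = 0) : Off Λ (grad n) :=
  fun y hy => ⟨fun h1 => by simp [grad, h y hy, h _ h1], fun h1 => by simp [grad, h y hy, h _ h1]⟩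

theorem Off.add {Λ : Finset P} {η ζ : P → ℤ × ℤ} (h : Off Λ η) (h' : Off Λ ζ) : Off Λ (η + ζ) :=
  fun y hy => ⟨fun h1 => by simp [(h y hy).1 h1, (h' y hy).1 h1],
    fun h1 => by simp [(h y hy).2 h1, (h' y hy).2 h1]⟩

theorem Off.res {Λ : Finset P} {η : P → ℤ × ℤ} (h : Off Λ η) (γ : Finset P) : Off Λ (res γ η) := by
  intro y hy
  unfold Pei.res
  split_ifs
  · exact h y hy
  · simp

theorem Off.sub {Λ : Finset P} {η ζ : P → ℤ × ℤ} (h : Off Λ η) (h' : Off Λ ζ) : Off Λ (η - ζ) :=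
  fun y hy => ⟨fun h1 => by simp [(h y hy).1 h1, (h' y hy).1 h1],
    fun h1 => by simp [(h y hy).2 h1, (h' y hy).2 h1]⟩

/-- curl-free fields are gradients -/
theorem exists_pot {Λ : Finset P} (hΛ : Rect Λ) {η : P → ℤ × ℤ} (ho : Off Λ η)
    (hc : ∀ p, curl η p = 0) : ∃ n : P → ℤ, (∀ y, y ∉ Λ → n y = 0) ∧ grad n = η := by
  obtain ⟨a, b, c, d, hΛ⟩ := hΛ
  set n : P → ℤ := fun y => -∑ i ∈ Icc y.1 b, (η (i, y.2)).1 with hn
  have h0 : ∀ y : P, b < y.1 → n y = 0 := fun y hy => by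
    simp [hn, Icc_eq_empty (not_le.2 hy)]
  have hz1 : ∀ y : P, b < y.1 → (η y).1 = 0 := fun y hy =>
    (ho y (by rw [hΛ]; omega)).1 (by rw [hΛ]; simp [e1]; omega)
  have hz2 : ∀ y : P, b < y.1 → (η y).2 = 0 := fun y hy =>
    (ho y (by rw [hΛ]; omega)).2 (by rw [hΛ]; simp [e2]; omega)
  have g1 : ∀ y : P, n (y + e1) - n y = (η y).1 := by
    intro y
    by_cases hy : b < y.1
    · rw [h0 y hy, h0 _ (by simp [e1]; omega), hz1 y hy]; simp
    · have : Icc y.1 b = insert y.1 (Icc (y.1 + 1) b) := by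
        ext t; simp only [mem_insert, mem_Icc]; omega
      simp only [hn, e1, Prod.fst_add, Prod.snd_add, add_zero]
      rw [this, sum_insert (by simp)]
      simp
  have g2 : ∀ (t : ℤ) (i : ℤ), n ((i, t) + e2) - n (i, t) = (η (i, t)).2 := by
    intro t i
    by_cases hi : b < i
    · rw [h0 (i, t) hi, h0 _ (by simp [e2]; omega), hz2 _ hi]; simp
    · refine Int.leInductionDown (m := b + 1)
        (motive := fun i _ => n ((i, t) + e2) - n (i, t) = (η (i, t)).2) ?_ ?_ i (by omega)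
      · rw [h0 (b + 1, t) (by simp), h0 _ (by simp [e2]), hz2 _ (by simp)]; simp
      · intro k _ ih
        have h1 := g1 (k - 1, t)
        have h2 := g1 ((k - 1, t) + e2)
        have h3 := hc (k - 1, t)
        have e1' : ((k - 1, t) : P) + e1 = (k, t) := by simp [e1]
        have e2' : ((k - 1, t) : P) + e2 + e1 = (k, t) + e2 := by simp [e1, e2]
        simp only [curl, e1'] at h3
        rw [e1'] at h1
        rw [e2'] at h2
        omega
  have hrow : ∀ y : P, (y.2 < c ∨ d < y.2) → n y = 0 := by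
    intro y hy
    simp only [hn, neg_eq_zero]
    refine sum_eq_zero fun i _ => (ho (i, y.2) (by rw [hΛ]; simp; omega)).1 ?_
    rw [hΛ]; simp [e1]; omega
  refine ⟨n, fun y hy => ?_, funext fun y => Prod.ext (g1 y) (g2 y.2 y.1)⟩
  by_cases h1 : b < y.1
  · exact h0 y h1
  by_cases h2 : y.2 < c ∨ d < y.2
  · exact hrow y h2
  have h3 : y.1 < a := by rw [hΛ] at hy; omega
  have key : ∀ t, t ≤ d + 1 → n (y.1, t) = 0 := by
    intro t ht
    refine Int.leInductionDown (m := d + 1) (motive := fun t _ => n (y.1, t) = 0) ?_ ?_ t ht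
    · exact hrow _ (by simp)
    · intro k _ ih
      have h4 := g2 (k - 1) y.1
      have e' : ((y.1, k - 1) : P) + e2 = (y.1, k) := by simp [e2]
      rw [e', ih, (ho (y.1, k - 1) (by rw [hΛ]; simp; omega)).2 (by rw [e', hΛ]; simp; omega)] at h4
      omega
  exact key y.2 (by omega)

/-- telescoping along the ray to the right -/
theorem ray (n : P → ℤ) (x : P) (M : ℕ) :
    n (x.1 + M, x.2) - n x = ∑ j ∈ range M, (grad n (x.1 + j, x.2)).1 := by
  induction M with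
  | zero => simp
  | succ M ih =>
    rw [sum_range_succ, ← ih]
    have : ((x.1 + M, x.2) : P) + e1 = (x.1 + (M + 1 : ℕ), x.2) := by simp [e1, add_assoc]
    simp only [grad, this]; ring

theorem grad_inj {Λ : Finset P} {n n' : P → ℤ} (h : ∀ y, y ∉ Λ → n y = 0)
    (h' : ∀ y, y ∉ Λ → n' y = 0) (he : grad n = grad n') : n = n' := by
  funext x
  obtain ⟨M, hM⟩ : ∃ M : ℕ, (x.1 + M, x.2) ∉ Λ := by
    by_contra hc
    push Not at hc
    refine Set.infinite_of_injective_forall_mem (f := fun M : ℕ => ((x.1 + M, x.2) : P))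
      (s := (Λ : Set P)) (fun i j hij => ?_) hc Λ.finite_toSet
    simpa using hij
  have h1 := ray n x M
  have h2 := ray n' x M
  rw [h _ hM] at h1
  rw [h' _ hM, ← he] at h2
  omega

/-! ## sums -/

theorem tsum_fin_prod {α : Type*} (k : ℕ) (f : Fin k → α → ℝ≥0∞) :
    ∑' x : Fin k → α, ∏ i, f i (x i) = ∏ i, ∑' a, f i a := by
  induction k with
  | zero => simp
  | succ k ih =>
    rw [← (Fin.consEquiv fun _ : Fin (k + 1) => α).tsum_eq, ENNReal.tsum_prod', Fin.prod_univ_succ,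
      ← ih, ← ENNReal.tsum_mul_right]
    refine tsum_congr fun a => ?_
    rw [← ENNReal.tsum_mul_left]
    refine tsum_congr fun x => ?_
    simp [Fin.prod_univ_succ, Fin.consEquiv]

theorem tsum_pi {ι α : Type*} [Fintype ι] (f : ι → α → ℝ≥0∞) :
    ∑' x : ι → α, ∏ i, f i (x i) = ∏ i, ∑' a, f i a := by
  have e := (Fintype.equivFin ι).symm
  rw [← (Equiv.arrowCongr e (Equiv.refl α)).tsum_eq, ← e.prod_comp,
    ← tsum_fin_prod _ fun i => f (e i)]
  refine tsum_congr fun x => ?_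
  rw [← e.prod_comp]
  simp

theorem tsum_le_of_inj {α β : Type*} (Φ : α → ℝ≥0∞) (Ψ : β → ℝ≥0∞) (E : α → Prop) (T : α → β)
    (h0 : ∀ a, ¬E a → Φ a = 0) (h1 : ∀ a, E a → Φ a ≤ Ψ (T a))
    (h2 : ∀ a a', E a → E a' → T a = T a' → a = a') : ∑' a, Φ a ≤ ∑' b, Ψ b := by
  rw [← tsum_subtype_eq_of_support_subset (s := {a | E a})
    (fun a ha => by by_contra h; exact ha (h0 a h))]
  refine le_trans (ENNReal.tsum_le_tsum fun a => h1 a a.2) ?_
  exact ENNReal.tsum_comp_le_tsum_of_injective (f := fun a : {a | E a} => T a)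
    (fun a a' h => Subtype.ext (h2 a a' a.2 a'.2 h)) Ψ

end Crest.Agent.T145.Pei
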