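import Crest.Agent.T145.PeiB_33

/-!
# Row 145, Peierls argument, part C: the block-spring model satisfies the Peierls hypotheses (helper33)
-/

set_option autoImplicit false

namespace Crest.Agent.T145.Pei

open Finset
open scoped ENNReal

/-- properties of the (smeared) spring factor -/
structure Spr (φ : ℝ → ℝ≥0∞) (a δ : ℝ) : Prop where
  le1 : ∀ x, φ x ≤ 1
  ge : ∀ x, |x| ≤ 2 * δ → ENNReal.ofReal (3 / 4) ≤ φ x
  tail : ∀ x, φ x ≤ ENNReal.ofReal (Real.exp (1 - a * |x|))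

/-- sum of the squares of the four side fluctuations; `u true` = upper sides, `u · true` = horizontal -/
def T0 {Ω : Type} (u : Bool → Bool → Ω → ℝ) (ω : Ω) : ℝ :=
  u true true ω ^ 2 + u true false ω ^ 2 + u false true ω ^ 2 + u false false ω ^ 2

open Classical in
/-- the block-spring model -/
noncomputable def mkB {Ω : Type} (Λ Λ' : Finset P) (μ : Ω → ℝ≥0∞) (o : Ω) (q : ℕ)
    (φ : ℝ → ℝ≥0∞) (u : Bool → Bool → Ω → ℝ) (δ : ℝ) (Γ : ℝ≥0∞) : Bm Ω where
  Λ := Λ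
  Λ' := Λ'
  μ := μ
  gd := fun ω => T0 u ω ≤ δ ^ 2
  o := o
  F := fun _ η a b c => φ (-(η.1 : ℝ) / q + u true true a - u false true b) *
    φ (-(η.2 : ℝ) / q + u true false a - u false false c)
  G := fun ω => if T0 u ω ≤ δ ^ 2 then 1 else Γ

noncomputable def SS : ℝ≥0∞ := ∑' m : ℤ, ENNReal.ofReal ((1 + (m : ℝ) ^ 2) * Real.exp (-|(m : ℝ)|))

theorem SS_ne_top : SS ≠ ⊤ := by
  have h1 : Summable fun n : ℕ => (1 + (n : ℝ) ^ 2) * Real.exp (-(n : ℝ)) := by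
    have a0 := Real.summable_pow_mul_exp_neg_nat_mul 0 one_pos
    have a2 := Real.summable_pow_mul_exp_neg_nat_mul 2 one_pos
    refine (a0.add a2).congr fun n => ?_
    simp only [pow_zero, neg_mul, one_mul]; ring
  have h2 : Summable fun m : ℤ => (1 + (m : ℝ) ^ 2) * Real.exp (-|(m : ℝ)|) :=
    summable_int_iff_summable_nat_and_neg.2 ⟨by simpa using h1, by simpa using h1⟩
  rw [SS, ← ENNReal.ofReal_tsum_of_nonneg (fun _ => by positivity) h2]
  exact ENNReal.ofReal_ne_top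

theorem T0_nonneg {Ω : Type} (u : Bool → Bool → Ω → ℝ) (ω : Ω) : 0 ≤ T0 u ω := by
  unfold T0; positivity

theorem sq_le_T0 {Ω : Type} (u : Bool → Bool → Ω → ℝ) (ω : Ω) (i d : Bool) : u i d ω ^ 2 ≤ T0 u ω := by
  unfold T0
  have := sq_nonneg (u true true ω)
  have := sq_nonneg (u true false ω)
  have := sq_nonneg (u false true ω)
  have := sq_nonneg (u false false ω)
  cases i <;> cases d <;> linarith

section
variable {φ : ℝ → ℝ≥0∞} {A δ : ℝ} {q : ℕ}

theorem Spr.tail' (h : Spr φ (q * A) δ) (hq : 0 < q) (η : ℤ) (d : ℝ) :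
    φ (-(η : ℝ) / q + d) ≤ ENNReal.ofReal (Real.exp (1 - A * |(η : ℝ) - q * d|)) := by
  have hq' : (0 : ℝ) < q := by exact_mod_cast hq
  refine (h.tail _).trans (le_of_eq ?_)
  have : (η : ℝ) - q * d = -(q * (-(η : ℝ) / q + d)) := by field_simp; ring
  rw [this, abs_neg, abs_mul, abs_of_pos hq']
  congr 2; ring

theorem Spr.small (h : Spr φ (q * A) δ) (hq : 0 < q) (hA : 4 ≤ A) {d : ℝ} (hd : |q * d| ≤ 1 / 2) :
    ∑' η : ℤ, (if η = 0 then 0 else φ (-(η : ℝ) / q + d)) ≤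
      ENNReal.ofReal (Real.exp (1 - A / 4)) * SS := by
  rw [SS, ← ENNReal.tsum_mul_left]
  refine ENNReal.tsum_le_tsum fun η => ?_
  split_ifs with h0
  · exact zero_le
  refine (h.tail' hq η d).trans ?_
  rw [← ENNReal.ofReal_mul (Real.exp_pos _).le]
  refine ENNReal.ofReal_le_ofReal ?_
  have h1 : (1 : ℝ) ≤ |(η : ℝ)| := by exact_mod_cast Int.one_le_abs h0
  have h2 : |(η : ℝ)| - |q * d| ≤ |(η : ℝ) - q * d| := abs_sub_abs_le_abs_sub _ _
  calc _ ≤ Real.exp (1 - A / 4) * Real.exp (-|(η : ℝ)|) := by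
        rw [← Real.exp_add]
        refine Real.exp_le_exp.2 ?_
        nlinarith
    _ ≤ _ := by
        refine mul_le_mul_of_nonneg_left (le_mul_of_one_le_left (Real.exp_pos _).le ?_)
          (Real.exp_pos _).le
        nlinarith [sq_nonneg (η : ℝ)]

theorem Spr.big (h : Spr φ (q * A) δ) (hq : 0 < q) (hA : 4 ≤ A) (d : ℝ) :
    ∑' η : ℤ, φ (-(η : ℝ) / q + d) ≤ ENNReal.ofReal (Real.exp (1 + A / 2)) * SS ∧
    ∑' η : ℤ, φ (-(η : ℝ) / q + d) * ((η.natAbs ^ 2 : ℕ) : ℝ≥0∞) ≤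
      ENNReal.ofReal (Real.exp (1 + A / 2)) * SS * ENNReal.ofReal (4 * q ^ 2 * (1 + d ^ 2)) := by
  set n := round (q * d) with hn
  have hr : |q * d - n| ≤ 1 / 2 := abs_sub_round _
  have hq' : (1 : ℝ) ≤ q := by exact_mod_cast hq
  have key : ∀ m : ℤ, φ (-((m + n : ℤ) : ℝ) / q + d) ≤
      ENNReal.ofReal (Real.exp (1 + A / 2) * Real.exp (-|(m : ℝ)|)) := by
    intro m
    refine (h.tail' hq _ d).trans (ENNReal.ofReal_le_ofReal ?_)
    rw [← Real.exp_add]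
    refine Real.exp_le_exp.2 ?_
    have h2 : |(m : ℝ)| - |q * d - n| ≤ |(m : ℝ) - (q * d - n)| := abs_sub_abs_le_abs_sub _ _
    have h3 : ((m + n : ℤ) : ℝ) - q * d = m - (q * d - n) := by push_cast; ring
    rw [h3]
    nlinarith [abs_nonneg (m : ℝ)]
  constructor
  · rw [← (Equiv.addRight n).tsum_eq, SS, ← ENNReal.tsum_mul_left]
    refine ENNReal.tsum_le_tsum fun m => (key m).trans ?_
    rw [← ENNReal.ofReal_mul (Real.exp_pos _).le]
    refine ENNReal.ofReal_le_ofReal (mul_le_mul_of_nonneg_left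
      (le_mul_of_one_le_left (Real.exp_pos _).le ?_) (Real.exp_pos _).le)
    nlinarith [sq_nonneg (m : ℝ)]
  · rw [← (Equiv.addRight n).tsum_eq, SS, ← ENNReal.tsum_mul_left, ← ENNReal.tsum_mul_right]
    refine ENNReal.tsum_le_tsum fun m => (mul_le_mul' (key m) le_rfl).trans ?_
    rw [← ENNReal.ofReal_natCast, ← ENNReal.ofReal_mul (by positivity),
      ← ENNReal.ofReal_mul (by positivity), ← ENNReal.ofReal_mul (by positivity)]
    refine ENNReal.ofReal_le_ofReal ?_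
    have e : ((((Equiv.addRight n) m).natAbs ^ 2 : ℕ) : ℝ) = ((m : ℝ) + n) ^ 2 := by
      rw [Nat.cast_pow, Nat.cast_natAbs]; simp
    have h4 : ((m : ℝ) + n) ^ 2 ≤ (1 + (m : ℝ) ^ 2) * (4 * q ^ 2 * (1 + d ^ 2)) := by
      have h5 : (n : ℝ) ^ 2 ≤ 2 * (q * d) ^ 2 + 1 / 2 := by
        have := abs_le.1 hr
        nlinarith [sq_nonneg (q * d - (n - q * d))]
      have h6 : 1 + (n : ℝ) ^ 2 ≤ 2 * q ^ 2 * (1 + d ^ 2) := by nlinarith
      have h7 : ((m : ℝ) + n) ^ 2 ≤ 2 * ((1 + (m : ℝ) ^ 2) * (1 + (n : ℝ) ^ 2)) := by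
        nlinarith [sq_nonneg ((m : ℝ) - n), sq_nonneg ((m : ℝ) * n)]
      nlinarith [sq_nonneg (m : ℝ)]
    rw [e]
    calc _ ≤ Real.exp (1 + A / 2) * Real.exp (-|(m : ℝ)|) *
          ((1 + (m : ℝ) ^ 2) * (4 * q ^ 2 * (1 + d ^ 2))) := by gcongr
      _ = _ := by ring

end

theorem eps_ne_zero : eps ≠ 0 := by simp [eps]
theorem eps_ne_top : eps ≠ ⊤ := by simp [eps]
theorem eps_le_one : eps ≤ 1 := pow_le_one₀ zero_le (by norm_num)

theorem exists_A : ∃ A : ℝ, 4 ≤ A ∧ 4 * (ENNReal.ofReal (Real.exp (1 - A / 4)) * SS) ≤ eps := by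
  have h1 : Filter.Tendsto (fun A : ℝ => 4 * (ENNReal.ofReal (Real.exp (1 - A / 4)) * SS))
      Filter.atTop (nhds (4 * (ENNReal.ofReal 0 * SS))) := by
    refine ENNReal.Tendsto.const_mul (ENNReal.Tendsto.mul_const
      (ENNReal.tendsto_ofReal (Real.tendsto_exp_atBot.comp ?_)) (Or.inr SS_ne_top)) (Or.inr (by simp))
    exact Filter.tendsto_atBot_add_const_left _ _
      (Filter.tendsto_neg_atTop_atBot.comp (Filter.tendsto_id.atTop_div_const (by norm_num)))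
  simp only [ENNReal.ofReal_zero, zero_mul, mul_zero] at h1
  exact ((Filter.eventually_ge_atTop 4).and
    (h1.eventually (eventually_le_nhds (pos_iff_ne_zero.2 eps_ne_zero)))).exists

/-- choice of the parameters -/
theorem exists_par {q : ℕ} (hq : 0 < q) : ∃ a : ℝ, 1 ≤ a ∧ ∀ δ : ℝ, 0 < δ → 4 * q * δ ≤ 1 →
    ∃ δ₃ : ℝ, 0 < δ₃ ∧ ∃ Γ K : ℝ≥0∞, K ≠ ⊤ ∧ ∀ (Ω : Type) (μ : Ω → ℝ≥0∞) (o : Ω) (φ : ℝ → ℝ≥0∞)
      (u : Bool → Bool → Ω → ℝ), Spr φ a δ → ∑' ω, μ ω = 1 → T0 u o = 0 →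
      ∑' ω, μ ω * ENNReal.ofReal (T0 u ω) ≤ ENNReal.ofReal δ₃ → ∀ Λ Λ' : Finset P, Rect Λ →
      (∀ y, (y ∈ Λ ∨ y + e1 ∈ Λ ∨ y + e2 ∈ Λ) → y ∈ Λ') →
      (mkB Λ Λ' μ o q φ u δ Γ).Ok ∧ ∃ H, (mkB Λ Λ' μ o q φ u δ Γ).Mo H K := by
  classical
  obtain ⟨A, hA, hs⟩ := exists_A
  have hq' : (1 : ℝ) ≤ q := by exact_mod_cast hq
  refine ⟨q * A, by nlinarith, fun δ hδ hδq => ?_⟩
  set s := ENNReal.ofReal (Real.exp (1 - A / 4)) * SS with hsdef
  set C := ENNReal.ofReal (Real.exp (1 + A / 2)) * SS with hC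
  have hC' : C ≠ ⊤ := ENNReal.mul_ne_top ENNReal.ofReal_ne_top SS_ne_top
  set Γ := 1 + C * C * eps⁻¹ with hΓ
  have hei : eps⁻¹ ≠ ⊤ := ENNReal.inv_ne_top.2 eps_ne_zero
  have hΓ' : Γ ≠ ⊤ := ENNReal.add_ne_top.2 ⟨by simp, ENNReal.mul_ne_top (ENNReal.mul_ne_top hC' hC') hei⟩
  have hΓ1 : 1 ≤ Γ := le_self_add
  set Γ₂ := 1 + C * C * ENNReal.ofReal (8 * q ^ 2) * eps⁻¹ with hΓ₂
  have hΓ₂' : Γ₂ ≠ ⊤ := ENNReal.add_ne_top.2 ⟨by simp, ENNReal.mul_ne_top
    (ENNReal.mul_ne_top (ENNReal.mul_ne_top hC' hC') ENNReal.ofReal_ne_top) hei⟩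
  set g := (Γ ^ 3).toReal with hg
  have hg3 : Γ ^ 3 = ENNReal.ofReal g := (ENNReal.ofReal_toReal (ENNReal.pow_ne_top hΓ')).symm
  have hg1 : 1 ≤ g := by
    rw [← ENNReal.ofReal_le_ofReal_iff (by rw [hg]; positivity), ← hg3, ENNReal.ofReal_one]
    exact one_le_pow₀ hΓ1
  refine ⟨δ ^ 2 / (2 * g), by positivity, Γ, Γ ^ 3 * Γ₂ * 2,
    ENNReal.mul_ne_top (ENNReal.mul_ne_top (ENNReal.pow_ne_top hΓ') hΓ₂') (by simp), ?_⟩
  intro Ω μ o φ u hφ hμ ho hT Λ Λ' hΛ hΛ'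
  have hee : ∀ x : ℝ≥0∞, x ≤ eps * (1 + x * eps⁻¹) := fun x => by
    rw [mul_add, mul_left_comm, ENNReal.mul_inv_cancel eps_ne_zero eps_ne_top, mul_one x]
    exact le_add_self
  have hδ1 : δ ≤ 1 / 4 := by nlinarith
  have hbad : ∑' ω, μ ω * (if T0 u ω ≤ δ ^ 2 then 0 else 1) ≤ ENNReal.ofReal (1 / (2 * g)) := by
    have h1 : ENNReal.ofReal (δ ^ 2) * ∑' ω, μ ω * (if T0 u ω ≤ δ ^ 2 then 0 else 1) ≤
        ENNReal.ofReal (δ ^ 2) * ENNReal.ofReal (1 / (2 * g)) := by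
      rw [← ENNReal.ofReal_mul (by positivity), mul_one_div, ← ENNReal.tsum_mul_left]
      refine le_trans (ENNReal.tsum_le_tsum fun ω => ?_) hT
      rw [mul_left_comm]
      refine mul_le_mul' le_rfl ?_
      split_ifs with h2
      · simp
      · rw [mul_one]; exact ENNReal.ofReal_le_ofReal (not_le.1 h2).le
    exact (ENNReal.mul_le_mul_iff_right (by simp; positivity) ENNReal.ofReal_ne_top).1 h1
  have hhalf : ENNReal.ofReal (1 / (2 * g)) ≤ 2⁻¹ := by
    rw [← ENNReal.ofReal_ofNat, ← ENNReal.ofReal_inv_of_pos (by norm_num)]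
    refine ENNReal.ofReal_le_ofReal ?_
    rw [one_div]; exact inv_anti₀ (by norm_num) (by linarith)
  have hsm : ∀ {a b : Ω} {i d i' d' : Bool}, T0 u a ≤ δ ^ 2 → T0 u b ≤ δ ^ 2 →
      |u i d a - u i' d' b| ≤ 2 * δ := by
    intro a b i d i' d' ha hb
    have h1 := abs_le_of_sq_le_sq' ((sq_le_T0 u a i d).trans ha) hδ.le
    have h2 := abs_le_of_sq_le_sq' ((sq_le_T0 u b i' d').trans hb) hδ.le
    rw [abs_le]; constructor <;> linarith
  have hG1 : ∀ a, (1 : ℝ≥0∞) ≤ if T0 u a ≤ δ ^ 2 then 1 else Γ := fun a => by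
    split_ifs
    · rfl
    · exact hΓ1
  have hprod : ∀ (f g : ℤ → ℝ≥0∞), ∑' η : ℤ × ℤ, f η.1 * g η.2 = (∑' a, f a) * ∑' b, g b := by
    intro f g
    rw [ENNReal.tsum_prod (f := fun a b => f a * g b)]
    simp only [ENNReal.tsum_mul_left, ENNReal.tsum_mul_right]
  refine ⟨⟨hΛ, hΛ', hμ, ?_, ?_, hG1, ?_, ?_, ?_, ?_, ?_⟩,
    fun ω => Γ₂ * ENNReal.ofReal (1 + T0 u ω), ?_, ?_, ?_⟩
  · have h1 : (∑' ω, μ ω * (if T0 u ω ≤ δ ^ 2 then 1 else 0)) +
        ∑' ω, μ ω * (if T0 u ω ≤ δ ^ 2 then 0 else 1) = 2⁻¹ + 2⁻¹ := by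
      rw [← ENNReal.tsum_add, ENNReal.inv_two_add_inv_two]
      refine (tsum_congr fun ω => ?_).trans hμ
      split_ifs <;> simp
    have h2 : (2⁻¹ : ℝ≥0∞) + 2⁻¹ ≤ (∑' ω, μ ω * (if T0 u ω ≤ δ ^ 2 then 1 else 0)) + 2⁻¹ := by
      rw [← h1]; exact add_le_add le_rfl (hbad.trans hhalf)
    have h3 := (ENNReal.add_le_add_iff_right (by simp)).1 h2
    convert h3 using 4 with ω
    · rfl
    · exact if_congr Iff.rfl rfl rfl
  · show T0 u o ≤ δ ^ 2
    rw [ho]; positivity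
  · show (if T0 u o ≤ δ ^ 2 then 1 else Γ) = 1
    rw [if_pos (by rw [ho]; positivity)]
  · show ∑' a, μ a * (if T0 u a ≤ δ ^ 2 then 1 else Γ) ^ 3 ≤ 2
    calc _ ≤ ∑' a, (μ a + Γ ^ 3 * (μ a * (if T0 u a ≤ δ ^ 2 then 0 else 1))) := by
          refine ENNReal.tsum_le_tsum fun a => ?_
          split_ifs
          · simp
          · rw [mul_one, mul_comm]; exact le_add_self
      _ ≤ 1 + ENNReal.ofReal g * ENNReal.ofReal (1 / (2 * g)) := by
          rw [ENNReal.tsum_add, ENNReal.tsum_mul_left, hμ, hg3]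
          exact add_le_add le_rfl (mul_le_mul' le_rfl hbad)
      _ ≤ 1 + 1 := by
          refine add_le_add le_rfl ?_
          rw [← ENNReal.ofReal_mul (by positivity), ENNReal.ofReal_le_one]
          rw [mul_one_div, div_le_one (by positivity)]; linarith
      _ = 2 := one_add_one_eq_two
  · intro y a b c _ _ _
    exact mul_le_one' (hφ.le1 _) (hφ.le1 _)
  · intro y a b c ha hb hc
    show 2⁻¹ ≤ φ _ * φ _
    simp only [Prod.fst_zero, Prod.snd_zero, Int.cast_zero, neg_zero, zero_div, zero_add]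
    refine le_trans ?_ (mul_le_mul' (hφ.ge _ (hsm ha hb)) (hφ.ge _ (hsm ha hc)))
    rw [← ENNReal.ofReal_mul (by norm_num), ← ENNReal.ofReal_ofNat,
      ← ENNReal.ofReal_inv_of_pos (by norm_num)]
    exact ENNReal.ofReal_le_ofReal (by norm_num)
  · intro y a b c
    have e : ∀ η : ℤ × ℤ, (mkB Λ Λ' μ o q φ u δ Γ).F y η a b c =
        φ (-(η.1 : ℝ) / q + (u true true a - u false true b)) *
          φ (-(η.2 : ℝ) / q + (u true false a - u false false c)) := fun η => by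
      simp only [mkB, add_sub_assoc]
    simp only [e]
    by_cases hg : T0 u a ≤ δ ^ 2 ∧ T0 u b ≤ δ ^ 2 ∧ T0 u c ≤ δ ^ 2
    · set d₁ := u true true a - u false true b
      set d₂ := u true false a - u false false c
      have hd : ∀ {d : ℝ}, |d| ≤ 2 * δ → |q * d| ≤ 1 / 2 := fun {d} h => by
        rw [abs_mul, abs_of_pos (by positivity)]; nlinarith
      have s1 := hφ.small hq hA (hd (hsm hg.1 hg.2.1) : |q * d₁| ≤ 1 / 2)
      have s2 := hφ.small hq hA (hd (hsm hg.1 hg.2.2) : |q * d₂| ≤ 1 / 2)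
      have hs1 : s ≤ 1 := (le_mul_of_one_le_left' (by norm_num)).trans (hs.trans eps_le_one)
      have t : ∀ d : ℝ, ∑' η : ℤ, (if η = 0 then 0 else φ (-(η : ℝ) / q + d)) ≤ s →
          ∑' η : ℤ, φ (-(η : ℝ) / q + d) ≤ 2 := by
        intro d hd
        rw [ENNReal.tsum_eq_add_tsum_ite 0, ← one_add_one_eq_two]
        refine add_le_add (hφ.le1 _) (le_trans (le_of_eq ?_) (hd.trans hs1))
        convert rfl
      calc _ ≤ ∑' η : ℤ × ℤ, ((if η.1 = 0 then 0 else φ (-(η.1 : ℝ) / q + d₁)) *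
            φ (-(η.2 : ℝ) / q + d₂) + φ (-(η.1 : ℝ) / q + d₁) *
              (if η.2 = 0 then 0 else φ (-(η.2 : ℝ) / q + d₂))) := by
            refine ENNReal.tsum_le_tsum fun η => ?_
            by_cases h1 : η.1 = 0
            · by_cases h2 : η.2 = 0
              · rw [if_pos ⟨Prod.ext h1 h2, hg⟩]; exact zero_le
              · rw [if_neg h2]; split_ifs <;> first | exact zero_le | exact le_add_self
            · rw [if_neg h1]; split_ifs <;> first | exact zero_le | exact le_self_add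
        _ ≤ s * 2 + 2 * s := by
            rw [ENNReal.tsum_add,
              hprod (fun η => if η = 0 then 0 else φ (-(η : ℝ) / q + d₁)) fun η => φ (-(η : ℝ) / q + d₂),
              hprod (fun η => φ (-(η : ℝ) / q + d₁)) fun η => if η = 0 then 0 else φ (-(η : ℝ) / q + d₂)]
            exact add_le_add (mul_le_mul' s1 (t _ s2)) (mul_le_mul' (t _ s1) s2)
        _ = 4 * s := by ring
        _ ≤ _ := hs.trans (le_mul_of_one_le_right'
            (one_le_mul (one_le_mul (hG1 _) (hG1 _)) (hG1 _)))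
    · calc _ ≤ ∑' η : ℤ × ℤ, φ (-(η.1 : ℝ) / q + (u true true a - u false true b)) *
            φ (-(η.2 : ℝ) / q + (u true false a - u false false c)) := by
            refine ENNReal.tsum_le_tsum fun η => ?_
            split_ifs
            · exact zero_le
            · rfl
        _ ≤ C * C := by
            rw [hprod (fun η => φ (-(η : ℝ) / q + _)) fun η => φ (-(η : ℝ) / q + _)]
            exact mul_le_mul' (hφ.big hq hA _).1 (hφ.big hq hA _).1
        _ ≤ _ := by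
            refine (hee _).trans (mul_le_mul' le_rfl ?_)
            show Γ ≤ (if T0 u a ≤ δ ^ 2 then 1 else Γ) * (if T0 u b ≤ δ ^ 2 then 1 else Γ) *
              (if T0 u c ≤ δ ^ 2 then 1 else Γ)
            by_cases h1 : T0 u a ≤ δ ^ 2
            · by_cases h2 : T0 u b ≤ δ ^ 2
              · simp [h1, h2, show ¬T0 u c ≤ δ ^ 2 from fun h3 => hg ⟨h1, h2, h3⟩]
              · rw [if_pos h1, if_neg h2, one_mul]; exact le_mul_of_one_le_right' (hG1 _)
            · rw [if_neg h1, mul_assoc]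
              exact le_mul_of_one_le_right' (one_le_mul (hG1 _) (hG1 _))
  · show Γ₂ * ENNReal.ofReal (1 + T0 u o) ≤ _
    rw [ho, add_zero, ENNReal.ofReal_one, mul_one]
    exact (le_mul_of_one_le_left' (one_le_pow₀ hΓ1)).trans (le_mul_of_one_le_right' (by norm_num))
  · show ∑' a, μ a * ((if T0 u a ≤ δ ^ 2 then 1 else Γ) ^ 3 * (Γ₂ * ENNReal.ofReal (1 + T0 u a))) ≤ _
    calc _ ≤ ∑' a, Γ ^ 3 * Γ₂ * (μ a + μ a * ENNReal.ofReal (T0 u a)) := by
          refine ENNReal.tsum_le_tsum fun a => ?_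
          rw [ENNReal.ofReal_add zero_le_one (T0_nonneg u a), ENNReal.ofReal_one]
          have : (if T0 u a ≤ δ ^ 2 then 1 else Γ) ≤ Γ := by
            split_ifs
            · exact hΓ1
            · rfl
          calc _ ≤ μ a * (Γ ^ 3 * (Γ₂ * (1 + ENNReal.ofReal (T0 u a)))) := by gcongr
            _ = _ := by ring
      _ ≤ _ := by
          rw [ENNReal.tsum_mul_left, ENNReal.tsum_add, hμ, ← one_add_one_eq_two]
          refine mul_le_mul' le_rfl (add_le_add le_rfl (hT.trans ?_))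
          rw [ENNReal.ofReal_le_one, div_le_one (by positivity)]
          nlinarith
  · intro y a b c
    have e : ∀ η : ℤ × ℤ, (mkB Λ Λ' μ o q φ u δ Γ).F y η a b c * ((η.1.natAbs ^ 2 : ℕ) : ℝ≥0∞) =
        (φ (-(η.1 : ℝ) / q + (u true true a - u false true b)) * ((η.1.natAbs ^ 2 : ℕ) : ℝ≥0∞)) *
          φ (-(η.2 : ℝ) / q + (u true false a - u false false c)) := fun η => by
      simp only [mkB, add_sub_assoc]; ring
    simp only [e]
    rw [hprod (fun η => φ (-(η : ℝ) / q + _) * ((η.natAbs ^ 2 : ℕ) : ℝ≥0∞))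
      fun η => φ (-(η : ℝ) / q + _)]
    refine (mul_le_mul' (hφ.big hq hA _).2 (hφ.big hq hA _).1).trans ?_
    have h1 : ENNReal.ofReal (4 * q ^ 2 * (1 + (u true true a - u false true b) ^ 2)) ≤
        ENNReal.ofReal (8 * q ^ 2) * (ENNReal.ofReal (1 + T0 u a) * ENNReal.ofReal (1 + T0 u b)) := by
      have a0 := T0_nonneg u a
      have b0 := T0_nonneg u b
      rw [← ENNReal.ofReal_mul (by positivity), ← ENNReal.ofReal_mul (by positivity)]
      refine ENNReal.ofReal_le_ofReal ?_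
      have a1 := sq_le_T0 u a true true
      have b1 := sq_le_T0 u b false true
      have : 1 + (u true true a - u false true b) ^ 2 ≤ 2 * ((1 + T0 u a) * (1 + T0 u b)) := by
        nlinarith [sq_nonneg (u true true a + u false true b), mul_nonneg a0 b0]
      nlinarith [sq_nonneg (q : ℝ)]
    have h2 : ∀ ω, 1 ≤ ENNReal.ofReal (1 + T0 u ω) := fun ω =>
      ENNReal.one_le_ofReal.2 (le_add_of_nonneg_right (T0_nonneg u ω))
    have h3 : 1 ≤ Γ₂ := le_self_add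
    calc _ ≤ (C * C * ENNReal.ofReal (8 * q ^ 2)) *
          (ENNReal.ofReal (1 + T0 u a) * ENNReal.ofReal (1 + T0 u b)) := by
          refine (mul_le_mul' (mul_le_mul' le_rfl h1) le_rfl).trans (le_of_eq ?_)
          ring
      _ ≤ eps * Γ₂ * (ENNReal.ofReal (1 + T0 u a) * ENNReal.ofReal (1 + T0 u b)) :=
          mul_le_mul' (hee _) le_rfl
      _ = eps * (Γ₂ * ENNReal.ofReal (1 + T0 u a) * (1 * ENNReal.ofReal (1 + T0 u b)) * 1) := by ring
      _ ≤ _ := mul_le_mul' le_rfl (mul_le_mul' (mul_le_mul' le_rfl (mul_le_mul' h3 le_rfl))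
          (one_le_mul h3 (h2 _)))

end Crest.Agent.T145.Pei
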