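import Crest.Agent.T145.PeiC_33
import Crest.Agent.T145.GffDef_8
import Crest.Agent.T145.GeoB_51
import Crest.Agent.T145.Cut_7

/-!
# Row 145, Peierls argument, part D: springs, restriction to a subgroup (helper33)
-/

set_option autoImplicit false

namespace Crest.Agent.T145.Pei

open Finset
open scoped ENNReal

theorem ker_mgf (xy : Bool) {τ : ℝ} (hτ : 0 < τ) {a : ℝ} (ha : |a| ≤ 1) :
    ∑' k : ℤ, kern xy τ k * Real.exp (a * k) ≤ Real.exp (τ * a ^ 2) * ∑' k : ℤ, kern xy τ k := by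
  have ha2 : a ^ 2 ≤ 1 := by rw [← sq_abs]; exact pow_le_one₀ (abs_nonneg a) ha
  cases xy
  · refine ((gauStmt τ hτ).2 a).trans (mul_le_mul_of_nonneg_right (Real.exp_le_exp.2 ?_)
      (tsum_nonneg fun k => (Real.exp_pos _).le))
    nlinarith [sq_nonneg a]
  · have h1 := ((besStmt τ hτ).2.1 a).tsum_eq
    have h0 := ((besStmt τ hτ).2.1 0).tsum_eq
    simp only [zero_mul, Real.exp_zero, mul_one, Real.cosh_zero] at h0
    simp only [kern, if_true]
    rw [h1, h0, ← Real.exp_add]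
    refine Real.exp_le_exp.2 ?_
    have h2 := Real.cosh_le_exp_half_sq a
    have h3 := Real.abs_exp_sub_one_le (x := a ^ 2 / 2) (by rw [abs_of_nonneg (by positivity)]; linarith)
    rw [abs_of_nonneg (a := a ^ 2 / 2) (by positivity)] at h3
    have h4 := (abs_le.1 h3).2
    nlinarith

/-- product weight of the noise -/
noncomputable def nu (w : ℤ → ℝ) (n : ℕ) (k : Fin n → ℤ) : ℝ := ∏ j, w (k j)

/-- mean of the noise -/
noncomputable def av (n : ℕ) : (Fin n → ℤ) →+ ℝ :=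
  AddMonoidHom.mk' (fun k => (∑ j, (k j : ℝ)) / n) fun k k' => by
    simp only [Pi.add_apply, Int.cast_add, sum_add_distrib, add_div]

theorem av_apply (n : ℕ) (k : Fin n → ℤ) : av n k = (∑ j, (k j : ℝ)) / n := rfl

theorem cen_nu {w : ℤ → ℝ} (hw : Fam w) (n : ℕ) : Cen (nu w n) :=
  Cut7.cen_pi rsdStmt fun _ => hw.cen

theorem nu_mgf (xy : Bool) {τ : ℝ} (hτ : 0 < τ) {n : ℕ} (hn : 0 < n) {a : ℝ} (ha : |a| ≤ n) :
    Ex (nu (kern xy τ) n) (fun k => Real.exp (a * av n k)) ≤ Real.exp (τ * a ^ 2 / n) := by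
  have hw : Fam (kern xy τ) := ⟨xy, τ, hτ, rfl⟩
  have hn' : (0 : ℝ) < n := by exact_mod_cast hn
  have e1 := (Cut7.hasSum_pi fun _ : Fin n => Cut7.se_int hw.cen.se (a / n)).tsum_eq
  have e2 := (Cut7.hasSum_pi fun _ : Fin n => hw.cen.se.summable).tsum_eq
  have e3 : ∀ k : Fin n → ℤ, nu (kern xy τ) n k * Real.exp (a * av n k) =
      ∏ j, kern xy τ (k j) * Real.exp (a / n * k j) := fun k => by
    rw [nu, prod_mul_distrib, ← Real.exp_sum, ← mul_sum, av_apply]
    congr 2; ring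
  have hZ : 0 < ∑' k, kern xy τ k := hw.cen.wt.pos
  rw [Ex]
  simp only [e3]
  simp only [nu]
  rw [e1, e2, prod_const, prod_const, card_univ, Fintype.card_fin, div_le_iff₀ (by positivity)]
  have h1 := ker_mgf xy hτ (a := a / n) (by rw [abs_div, abs_of_pos hn', div_le_one hn']; exact ha)
  refine (pow_le_pow_left₀ (tsum_nonneg fun k => mul_nonneg (hw.pos k).le (Real.exp_pos _).le) h1
    n).trans (le_of_eq ?_)
  rw [mul_pow, ← Real.exp_nat_mul]
  congr 2; field_simp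

theorem sq_le_exp (x : ℝ) : x ^ 2 ≤ Real.exp x + Real.exp (-x) - 2 := by
  have h1 := sum_le_hasSum (range 2) (fun n _ => by rw [pow_mul]; positivity) (Real.hasSum_cosh x)
  simp only [sum_range_succ, sum_range_zero] at h1
  norm_num [Nat.factorial] at h1
  rw [Real.cosh_eq] at h1
  linarith

theorem spr_eq (w : ℤ → ℝ) (n : ℕ) (κ t : ℝ) :
    spr w n κ t = Ex (nu w n) fun k => Real.exp (-κ * (t - av n k) ^ 2 / 2) := rfl

theorem sp_le (κ y : ℝ) (hκ : 0 ≤ κ) : |Real.exp (-κ * y ^ 2 / 2)| ≤ 1 := by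
  rw [abs_of_pos (Real.exp_pos _), Real.exp_le_one_iff]
  have := mul_nonneg hκ (sq_nonneg y)
  linarith

theorem spr_ok (xy : Bool) {τ a δ : ℝ} (hτ : 0 < τ) {n : ℕ} (ha : 1 ≤ a) (han : a ≤ n)
    (hδ : 32 * a ^ 2 * δ ^ 2 ≤ 1) (hn : 32 * τ * a ^ 2 ≤ n) :
    Spr (fun x => ENNReal.ofReal (spr (kern xy τ) n (a ^ 2) (-x))) a δ := by
  have hw : Fam (kern xy τ) := ⟨xy, τ, hτ, rfl⟩
  have hc := cen_nu hw n
  have hn' : (0 : ℝ) < n := by linarith
  have hn0 : 0 < n := by exact_mod_cast hn'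
  have hig : ∀ t, Ig (nu (kern xy τ) n) fun k => Real.exp (-a ^ 2 * (t - av n k) ^ 2 / 2) :=
    fun t => hc.wt.ig_bdd fun k => sp_le _ _ (sq_nonneg a)
  have hie : ∀ b : ℝ, Ig (nu (kern xy τ) n) fun k => Real.exp (b * av n k) :=
    fun b => hc.se (b • av n)
  refine ⟨fun x => ?_, fun x hx => ENNReal.ofReal_le_ofReal ?_, fun x => ENNReal.ofReal_le_ofReal ?_⟩
  · rw [ENNReal.ofReal_le_one, spr_eq]
    exact hc.wt.ex_le (hig _) fun k _ => (le_abs_self _).trans (sp_le _ _ (sq_nonneg a))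
  · rw [spr_eq]
    have h1 := nu_mgf xy hτ hn0 (a := 1) (by rw [abs_one]; linarith)
    have h2 := nu_mgf xy hτ hn0 (a := -1) (by rw [abs_neg, abs_one]; linarith)
    have h3 : τ / n ≤ 1 / (32 * a ^ 2) := by
      rw [div_le_div_iff₀ hn' (by positivity)]; nlinarith
    have h4 : 1 / (32 * a ^ 2) ≤ 1 := by rw [div_le_one (by positivity)]; nlinarith
    have h5 := (abs_le.1 (Real.abs_exp_sub_one_le (x := τ / n)
      (by rw [abs_of_pos (by positivity)]; linarith))).2
    rw [abs_of_pos (by positivity)] at h5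
    simp only [one_pow, mul_one, even_two, Even.neg_pow] at h1 h2
    have h6 := Ex_mono hc.nonneg ((hc.wt.ig_const (1 - a ^ 2 * x ^ 2 + 2 * a ^ 2)).sub
      (((hie 1).add (hie (-1))).const_mul (a ^ 2))) (hig (-x)) fun k => by
        have a1 := sq_le_exp (av n k)
        have a2 := Real.add_one_le_exp (-a ^ 2 * (-x - av n k) ^ 2 / 2)
        simp only [one_mul, neg_mul] at a2 ⊢
        nlinarith [mul_nonneg (sq_nonneg a) (sq_nonneg (x - av n k)),
          mul_le_mul_of_nonneg_left a1 (sq_nonneg a)]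
    rw [Ex_sub (hc.wt.ig_const _) (((hie 1).add (hie (-1))).const_mul _), hc.wt.ex_const,
      Ex_const_mul, Ex_add (hie 1) (hie (-1))] at h6
    have h7 : x ^ 2 ≤ (2 * δ) ^ 2 := by rw [← sq_abs]; exact pow_le_pow_left₀ (abs_nonneg _) hx 2
    have h8 : a ^ 2 * (τ / n) ≤ 1 / 32 := by
      refine (mul_le_mul_of_nonneg_left h3 (sq_nonneg a)).trans (le_of_eq ?_)
      field_simp
    nlinarith [mul_le_mul_of_nonneg_left h7 (sq_nonneg a), mul_le_mul_of_nonneg_left h1 (sq_nonneg a),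
      mul_le_mul_of_nonneg_left h2 (sq_nonneg a), mul_le_mul_of_nonneg_left h5 (sq_nonneg a)]
  · rw [spr_eq]
    obtain ⟨b, hb, hbx⟩ : ∃ b : ℝ, b ^ 2 = a ^ 2 ∧ b * -x = a * |x| := by
      rcases le_total 0 x with h | h
      · exact ⟨-a, by ring, by rw [abs_of_nonneg h]; ring⟩
      · exact ⟨a, rfl, by rw [abs_of_nonpos h]⟩
    have hb' : |b| ≤ n := by
      rw [← sq_eq_sq₀ (abs_nonneg b) (by linarith : 0 ≤ a) |>.1 (by rw [sq_abs, hb])] at han
      exact han
    have h1 := nu_mgf xy hτ hn0 hb'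
    have h2 := Ex_mono hc.nonneg (hig (-x)) ((hie b).const_mul (Real.exp (1 / 2 - a * |x|)))
      fun k => by
        rw [← Real.exp_add]
        refine Real.exp_le_exp.2 ?_
        rw [← hbx, ← hb]
        nlinarith [sq_nonneg (b * (-x - av n k) - 1)]
    rw [Ex_const_mul] at h2
    refine h2.trans ((mul_le_mul_of_nonneg_left h1 (Real.exp_pos _).le).trans ?_)
    rw [← Real.exp_add]
    refine Real.exp_le_exp.2 ?_
    have : τ * b ^ 2 / n ≤ 1 / 2 := by rw [hb, div_le_iff₀ hn']; nlinarith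
    linarith

theorem tsum_norm {α : Type*} {W F : α → ℝ} (hW : Wt W) (hF : Ig W F) (h0 : ∀ a, 0 ≤ F a) :
    ∑' a, ENNReal.ofReal (W a / Zs W) * ENNReal.ofReal (F a) = ENNReal.ofReal (Ex W F) := by
  have e : ∀ a, ENNReal.ofReal (W a / Zs W) * ENNReal.ofReal (F a) =
      ENNReal.ofReal (W a * F a / Zs W) := fun a => by
    rw [← ENNReal.ofReal_mul (div_nonneg (hW.nonneg a) hW.pos.le)]; congr 1; ring
  simp only [e]
  rw [← ENNReal.ofReal_tsum_of_nonneg (fun a => div_nonneg (mul_nonneg (hW.nonneg a) (h0 a))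
    hW.pos.le) (Summable.div_const hF _), tsum_div_const, Ex_def]

theorem tsum_nu {w : ℤ → ℝ} (hw : Fam w) (n : ℕ) {κ : ℝ} (hκ : 0 ≤ κ) (t : ℝ) :
    ∑' k, ENNReal.ofReal (nu w n k / Zs (nu w n)) *
      ENNReal.ofReal (Real.exp (-κ * (t - av n k) ^ 2 / 2)) = ENNReal.ofReal (spr w n κ t) :=
  tsum_norm (cen_nu hw n).wt ((cen_nu hw n).wt.ig_bdd fun _ => sp_le _ _ hκ)
    fun _ => (Real.exp_pos _).le

theorem tsum_norm_one {α : Type*} {W : α → ℝ} (hW : Wt W) :
    ∑' a, ENNReal.ofReal (W a / Zs W) = 1 := by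
  have := tsum_norm hW (hW.ig_const 1) fun _ => zero_le_one
  simpa [hW.ex_const] using this

/-! ## restriction to a subgroup -/
section restr
variable {L L' : Type} [AddCommGroup L] [AddCommGroup L'] [IsAddTorsionFree L']

omit [IsAddTorsionFree L'] in
theorem tsum_range (a : L →+ L') (ha : Function.Injective a) (b : L') (f : L' → ℝ) :
    ∑' p, f p * ind (QuotientAddGroup.mk' a.range (p - b) = 0) = ∑' s, f (a s + b) := by
  have hinj : Function.Injective fun s => a s + b := fun s t h => ha (add_right_cancel h)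
  rw [← hinj.tsum_eq (f := fun p => f p * ind (QuotientAddGroup.mk' a.range (p - b) = 0))]
  · refine tsum_congr fun s => ?_
    rw [ind_pos, mul_one]
    simp
  · intro p hp
    have h1 : QuotientAddGroup.mk' a.range (p - b) = 0 := by
      by_contra h2
      exact hp (by simp only [ind_neg h2, mul_zero])
    obtain ⟨s, hs⟩ := (QuotientAddGroup.eq_zero_iff _).1 h1
    exact ⟨s, by simp [hs]⟩

theorem restr_seam (a : L →+ L') (ha : Function.Injective a) (b : L') {ρ : L' × ℤ → ℝ} (h : RSD ρ)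
    (h0 : Summable (sl ρ 0)) (h1 : Summable (sl ρ 1)) :
    (∑' s, ρ (a s + b, 1)) * Zs (sl ρ 0) ≤ Zs (sl ρ 1) * ∑' s, ρ (a s, 0) := by
  let ψ : L' × ℤ →+ L' := AddMonoidHom.fst L' ℤ - (zmultiplesHom L' b).comp (AddMonoidHom.snd L' ℤ)
  have h2 := rsdBStmt L' ℤ ρ _ h (pd_ind ((QuotientAddGroup.mk' a.range).comp ψ)) 1 0 h0
    (by rwa [tilt_zero])
  have e : ∀ (p : L') (c : ℤ), (QuotientAddGroup.mk' a.range).comp ψ (p, c) =
      QuotientAddGroup.mk' a.range (p - c • b) := fun p c => rfl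
  simp only [tilt_zero, e, one_smul, zero_smul] at h2
  rw [tsum_range a ha b (sl ρ 1), tsum_range a ha 0 fun p => ρ (p, 0)] at h2
  simp only [add_zero] at h2
  exact (mul_le_mul_of_nonneg_right (le_abs_self _) (tsum_nonneg fun s => h.nonneg _)).trans h2

theorem restr_cos (a : L →+ L') (ha : Function.Injective a) {ρ : L' → ℝ} (h : RSD ρ)
    (h0 : Summable ρ) (X : L' →+ ℝ) :
    (∑' p, ρ p * Real.cos (X p)) * ∑' s, ρ (a s) ≤ Zs ρ * ∑' s, ρ (a s) * Real.cos (X (a s)) := by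
  have h2 := rsdPStmt L' ρ _ _ h h0 (pd_cos X) (pd_ind (QuotientAddGroup.mk' a.range))
  have h3 := tsum_range a ha 0 ρ
  have h4 := tsum_range a ha 0 fun p => ρ p * Real.cos (X p)
  simp only [sub_zero, add_zero, mul_assoc] at h3 h4
  rwa [h3, h4] at h2

end restr

theorem cos_le_quart (x : ℝ) : Real.cos x ≤ 1 - x ^ 2 / 2 + x ^ 4 := by
  by_cases h : |x| ≤ 1
  · have h1 := (abs_le.1 (Real.cos_bound h)).2
    have : |x| ^ 4 = x ^ 4 := by rw [← abs_pow]; exact abs_of_nonneg (by positivity)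
    nlinarith [sq_nonneg (x ^ 2)]
  · have h1 : 1 ≤ x ^ 2 := by rw [← sq_abs]; exact one_le_pow₀ (not_le.1 h).le
    nlinarith [Real.cos_le_one x]

/-- a lower bound on the characteristic function bounds the second moment -/
theorem sq_of_cos {α : Type*} {W Y : α → ℝ} (hW : Wt W) (h2 : Ig W fun a => Y a ^ 2)
    (h4 : Ig W fun a => Y a ^ 4) {B : ℝ}
    (h : ∀ t : ℝ, 1 - t ^ 2 * B / 2 ≤ Ex W fun a => Real.cos (t * Y a)) :
    Ex W (fun a => Y a ^ 2) ≤ B := by
  have key : ∀ t : ℝ, 0 < t → Ex W (fun a => Y a ^ 2) ≤ B + 2 * t ^ 2 * Ex W fun a => Y a ^ 4 := by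
    intro t ht
    have h1 := Ex_mono hW.nonneg (hW.ig_bdd fun a => Real.abs_cos_le_one (t * Y a))
      (((hW.ig_const 1).sub (h2.const_mul (t ^ 2 / 2))).add (h4.const_mul (t ^ 4))) fun a => by
        have := cos_le_quart (t * Y a)
        nlinarith
    rw [Ex_add ((hW.ig_const 1).sub (h2.const_mul _)) (h4.const_mul _),
      Ex_sub (hW.ig_const 1) (h2.const_mul _), hW.ex_const, Ex_const_mul, Ex_const_mul] at h1
    have h3 := (h t).trans h1
    have h5 : 0 < t ^ 2 := by positivity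
    refine le_of_mul_le_mul_left ?_ h5
    nlinarith
  have h5 : Filter.Tendsto (fun t : ℝ => B + 2 * t ^ 2 * Ex W fun a => Y a ^ 4)
      (nhdsWithin 0 (Set.Ioi 0)) (nhds (B + 2 * 0 ^ 2 * Ex W fun a => Y a ^ 4)) :=
    (Continuous.tendsto (by fun_prop) 0).mono_left nhdsWithin_le_nhds
  simp only [ne_eq, OfNat.ofNat_ne_zero, not_false_eq_true, zero_pow, mul_zero, zero_mul,
    add_zero] at h5
  exact ge_of_tendsto h5 (eventually_nhdsWithin_of_forall key)

/-- second moment of a gradient -/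
theorem edge_sq {m : Mdl Pt} (hc : m.Ctr) (ha : m.Anch) {w : ℤ → ℝ} {e : Pt × Pt} (he : e ∈ m.ed)
    (hw : m.w e = w) : Ex (m.W 0) (fun s => (dE e s : ℝ) ^ 2) ≤
      (Ex w fun k => Real.exp (1 * k)) + Ex w fun k => Real.exp (-1 * k) := by
  classical
  have hC := hc.cen ha
  have key : ∀ c : ℝ, Ex (m.W 0) (fun s => Real.exp (c * dE e s)) ≤ Ex w fun k => Real.exp (c * k) := by
    intro c
    have h1 := bareStmt pdStmt rsdStmt kerStmt mdlStmt monoStmt Pt m (fun e' => if e' = e then c else 0)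
      (fun x => (c • dR e) (Finsupp.single x 1)) hc ha fun s _ => by
        rw [← Md.hom_eq]; simp [he]
    rw [← Md.hom_eq, sum_eq_single_of_mem e he] at h1
    · simp only [if_true, hw] at h1
      have hk := (hw ▸ hc.1 e he : Fam w).cen
      have h2 := hC.wt.exp_M hC.se (c • dR e)
      have h3 := Real.exp_le_exp.2 h1
      rw [h2, Real.exp_log (hk.wt.ex_pos' (Cut7.se_int hk.se c) fun _ => Real.exp_pos _)] at h3
      exact h3
    · intro e' he' hne
      simp [hne, (hc.1 e' he').cen.wt.ex_const]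
  have i1 : ∀ c : ℝ, Ig (m.W 0) fun s => Real.exp (c * dE e s) := fun c => hC.se (c • dR e)
  refine le_trans ?_ (add_le_add (key 1) (key (-1)))
  rw [← Ex_add (i1 1) (i1 (-1))]
  refine Ex_mono hC.nonneg (hC.ig ((Tame.dE e).pow 2)) ((i1 1).add (i1 (-1))) fun s => ?_
  have := sq_le_exp (dE e s : ℝ)
  simp only [one_mul, neg_mul]
  linarith

theorem sub_le_of_conn {E : Finset (Pt × Pt)} {x y : Pt} (h : Conn E x y) :
    ∃ n : ℕ, ∀ s : Cfg Pt, |(s x : ℝ) - s y| ≤ n * ∑ e ∈ E, |(dE e s : ℝ)| := by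
  induction h with
  | refl => exact ⟨0, fun s => by simp⟩
  | @tail b c _ h2 ih =>
    obtain ⟨n, hn⟩ := ih
    refine ⟨n + 1, fun s => ?_⟩
    have h3 : |(s b : ℝ) - s c| ≤ ∑ e ∈ E, |(dE e s : ℝ)| := by
      rcases h2 with h2 | h2
      · refine le_trans (le_of_eq ?_) (single_le_sum (f := fun e => |(dE e s : ℝ)|)
          (fun _ _ => abs_nonneg _) h2)
        simp [dE, abs_sub_comm]
      · refine le_trans (le_of_eq ?_) (single_le_sum (f := fun e => |(dE e s : ℝ)|)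
          (fun _ _ => abs_nonneg _) h2)
        simp [dE]
    have := abs_sub_le (s x : ℝ) (s b) (s c)
    have := hn s
    push_cast
    linarith

end Crest.Agent.T145.Pei
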