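import Crest.Agent.T145.PeiD_33

/-!
# Row 145, Peierls argument, part E: the unglued, refined block model (helper33)
-/

set_option autoImplicit false

namespace Crest.Agent.T145.Pei

open Finset
open scoped ENNReal

/-- points of the four sides -/
def pt (L : ℕ) (up d : Bool) (i : Fin L) : Pt :=
  if d then (if up then (L : ℤ) - 1 else 0, (i : ℤ)) else ((i : ℤ), if up then (L : ℤ) - 1 else 0)

theorem pt_mem (L : ℕ) (up d : Bool) (i : Fin L) : pt L up d i ∈ sq 0 L := by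
  have := i.2
  rw [mem_sq]
  cases up <;> cases d <;> simp [pt] <;> omega

/-- side averages -/
noncomputable def ell (L : ℕ) (up d : Bool) : Cfg Pt →+ ℝ :=
  AddMonoidHom.mk' (fun s => (∑ i, (s (pt L up d i) : ℝ)) / L) fun s t => by
    simp only [Finsupp.add_apply, Int.cast_add, sum_add_distrib, add_div]

theorem ell_apply (L : ℕ) (up d : Bool) (s : Cfg Pt) :
    ell L up d s = (∑ i, (s (pt L up d i) : ℝ)) / L := rfl

theorem pr_line {L : ℕ} (p : Fin L → Pt) (hp : Function.Injective p) (f : Pt → ℝ)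
    (hf : ∀ x, f x = ind (∃ i, p i = x) / L) (s : Cfg Pt) : pr f s = (∑ i, (s (p i) : ℝ)) / L := by
  rw [pr_of_fsupp f s (U := univ.image p) fun x hx => by
    rw [hf, ind_neg (by simpa using hx), zero_div], sum_image hp.injOn, sum_div]
  refine sum_congr rfl fun i _ => ?_
  rw [hf, ind_pos ⟨i, rfl⟩]; ring

theorem pr_col (L : ℕ) (c : ℤ) (s : Cfg Pt) :
    pr (col L c) s = (∑ i : Fin L, (s (c, (i : ℤ)) : ℝ)) / L := by
  refine pr_line (fun i : Fin L => ((c, (i : ℤ)) : Pt)) (fun i j h => ?_) _ (fun x => ?_) s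
  · simp only [Prod.mk.injEq, true_and, Nat.cast_inj] at h; exact Fin.ext h
  · rw [col]; congr 1
    refine ind_congr ⟨fun h => ⟨⟨x.2.toNat, by omega⟩, Prod.ext h.1.symm (by simp; omega)⟩, ?_⟩
    rintro ⟨i, rfl⟩
    have := i.2
    simp

theorem pr_row (L : ℕ) (c : ℤ) (s : Cfg Pt) :
    pr (row L c) s = (∑ i : Fin L, (s ((i : ℤ), c) : ℝ)) / L := by
  refine pr_line (fun i : Fin L => (((i : ℤ), c) : Pt)) (fun i j h => ?_) _ (fun x => ?_) s
  · simp only [Prod.mk.injEq, and_true, Nat.cast_inj] at h; exact Fin.ext h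
  · rw [row]; congr 1
    refine ind_congr ⟨fun h => ⟨⟨x.1.toNat, by omega⟩, Prod.ext (by simp; omega) h.1.symm⟩, ?_⟩
    rintro ⟨i, rfl⟩
    have := i.2
    simp

theorem ell_sd (L : ℕ) (up d : Bool) : ∃ k : Fin 4, ∀ s, ell L up d s = pr (sd L k) s := by
  cases up <;> cases d
  · exact ⟨3, fun s => (pr_row L _ s).symm⟩
  · exact ⟨1, fun s => (pr_col L _ s).symm⟩
  · exact ⟨2, fun s => (pr_row L _ s).symm⟩
  · exact ⟨0, fun s => (pr_col L _ s).symm⟩

theorem ell_sd0 (L : ℕ) (s : Cfg Pt) : ell L true true s = pr (sd L 0) s := (pr_col L _ s).symm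

/-- corner of a block -/
def cn (L : ℕ) (y : P) : Pt := (L * y.1, L * y.2)

def dir (d : Bool) : P := if d then e1 else e2

/-- the nearest neighbour edges between two blocks -/
def se (L : ℕ) (y : P) (d : Bool) (i : Fin L) : Pt × Pt :=
  (pt L true d i + cn L y, pt L false d i + cn L (y + dir d))

theorem tile_of {L : ℕ} (hL : 0 < L) {z : Pt} (hz : z ∈ sq 0 L) (y : P) :
    tileOf 0 L (z + cn L y) = y := by
  rw [← mem_tile_iff hL]
  rw [mem_sq] at hz ⊢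
  simp only [tile, cn, Prod.fst_add, Prod.snd_add, Prod.fst_zero, Prod.snd_zero] at hz ⊢
  omega

theorem se_sub (L : ℕ) (y : P) (d : Bool) (i : Fin L) : (se L y d i).2 - (se L y d i).1 = dir d := by
  cases d <;> simp [se, pt, cn, dir, e1, e2, mul_add] <;> ring

theorem dir_ne (d : Bool) : dir d ≠ 0 := by cases d <;> simp [dir, e1, e2]

theorem se_inj {L : ℕ} (hL : 0 < L) :
    Function.Injective fun z : P × (Bool × Fin L) => se L z.1 z.2.1 z.2.2 := by
  rintro ⟨y, d, i⟩ ⟨y', d', i'⟩ h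
  simp only at h
  have h1 : y = y' := by
    have := tile_of hL (pt_mem L true d i) y
    rw [show pt L true d i + cn L y = _ from congrArg Prod.fst h] at this
    exact this.symm.trans (tile_of hL (pt_mem L true d' i') y')
  have h2 : d = d' := by
    have := se_sub L y d i
    rw [h, se_sub] at this
    cases d <;> cases d' <;> simp_all [dir, e1, e2]
  subst h1 h2
  have h3 : pt L true d i = pt L true d i' := add_right_cancel (congrArg Prod.fst h)
  cases d <;> simp [pt] at h3 <;> simp [Fin.ext h3]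

/-- translate of an edge -/
def tr (c : Pt) (e : Pt × Pt) : Pt × Pt := (e.1 + c, e.2 + c)

/-- data of the block decomposition -/
structure Dt where
  Λt : Lat
  L : ℕ
  q : ℕ
  a : ℝ
  Λ : Finset P
  Λ' : Finset P
  D : Finset Pt
  sm : P → Bool → ℤ
  σ : Pt × Pt → ℤ

namespace Dt
variable (X : Dt)

noncomputable def I : Finset (Pt × Pt) :=
  (X.Λ ×ˢ X.Λt.edI (sq 0 X.L)).image fun z => tr (cn X.L z.1) z.2
noncomputable def S : Finset (Pt × Pt) :=
  (X.Λ' ×ˢ (univ : Finset (Bool × Fin X.L))).image fun z => se X.L z.1 z.2.1 z.2.2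
noncomputable def R : Finset (Pt × Pt) := X.Λt.edT X.D \ (X.I ∪ X.S)

structure Ok : Prop where
  ok : X.Λt.Ok
  L0 : 0 < X.L
  q0 : 0 < X.q
  hD : ∀ x ∈ X.D, tileOf 0 X.L x ∈ X.Λ
  σS : ∀ y d i, X.σ (se X.L y d i) = X.sm y d
  σI : ∀ e ∈ X.I, X.σ e = 0
  σR : ∀ e ∈ X.R, X.σ e = 0
  σD : ∀ e : Pt × Pt, e.1 ∉ X.D → e.2 ∉ X.D → X.σ e = 0

abbrev Bl : Type := X.Λ → ℤ × Cfg Pt
abbrev G : Type := (X.Bl × (X.Λ' → Bool → Fin X.L → ℤ)) × (X.R → ℤ)

noncomputable def U (up d : Bool) (y : P) : X.Bl →+ ℝ :=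
  AddMonoidHom.mk' (fun x => xt X.Λ 0 (fun v => ((x v).1 : ℝ) / X.q + ell X.L up d (x v).2) y)
    fun x x' => by
      unfold xt
      split_ifs
      · simp only [Pi.add_apply, Prod.fst_add, Prod.snd_add, Int.cast_add, map_add]; ring
      · simp

theorem U_apply (up d : Bool) (y : P) (x : X.Bl) :
    X.U up d y x = xt X.Λ 0 (fun v => ((x v).1 : ℝ) / X.q + ell X.L up d (x v).2) y := rfl

noncomputable def tt (y : P) (d : Bool) (x : X.Bl) (c : ℤ) : ℝ :=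
  X.U false d (y + dir d) x - X.U true d y x + c * X.sm y d

noncomputable def arg (y : X.Λ') (d : Bool) : X.G × ℤ →+ ℝ :=
  AddMonoidHom.mk' (fun p => X.tt y d p.1.1.1 p.2 - av X.L (p.1.1.2 y d)) fun p p' => by
    simp only [tt, Prod.fst_add, Prod.snd_add, Pi.add_apply, map_add, Int.cast_add]; ring

/-- the unglued, refined weight -/
noncomputable def ρ (p : X.G × ℤ) : ℝ :=
  ((∏ v, X.Λt.WN X.L (p.1.1.1 v).2 / Zs (X.Λt.WN X.L)) *
    ∏ y : X.Λ', ∏ d, nu X.Λt.w X.L (p.1.1.2 y d) / Zs (nu X.Λt.w X.L) *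
      Real.exp (-X.a ^ 2 * X.arg y d p ^ 2 / 2)) * ∏ e, X.Λt.w (p.1.2 e) / Zs X.Λt.w

variable {X}

theorem cenN (h : X.Ok) : Cen (X.Λt.WN X.L) := h.ok.cen_Nr (self_mem_sq 0 h.L0)

theorem rsd_div {L : Type} [AddCommGroup L] {W : L → ℝ} (h : Cen W) : RSD fun s => W s / Zs W :=
  Md.rsd_mul h.toRSD (Md.rsd_const (inv_nonneg.2 h.wt.pos.le))

theorem rsd_sp {L : Type} [AddCommGroup L] (a : ℝ) (ℓ : L →+ ℝ) :
    RSD fun s => Real.exp (-a ^ 2 * ℓ s ^ 2 / 2) := by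
  have := Rsd63.rsd_gq (univ : Finset Unit) fun _ => a • ℓ
  convert this using 2 with s
  simp [gq, mul_pow]

theorem rsd_ρ (h : X.Ok) : RSD X.ρ := by
  refine Md.rsd_mul (Md.rsd_mul (Md.rsd_prod fun v _ => ?_) (Md.rsd_prod fun y _ =>
    Md.rsd_prod fun d _ => Md.rsd_mul ?_ (rsd_sp _ _))) (Md.rsd_prod fun e _ => ?_)
  · exact Md.rsd_comp (rsd_div (cenN h))
      (AddMonoidHom.mk' (fun p : X.G × ℤ => (p.1.1.1 v).2) fun _ _ => rfl)
  · exact Md.rsd_comp (rsd_div (cen_nu h.ok.fam X.L))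
      (AddMonoidHom.mk' (fun p : X.G × ℤ => p.1.1.2 y d) fun _ _ => rfl)
  · exact Md.rsd_comp (rsd_div h.ok.fam.cen)
      (AddMonoidHom.mk' (fun p : X.G × ℤ => p.1.2 e) fun _ _ => rfl)

/-! ### the block-spring model -/

variable (X)
noncomputable def rd (t : Cfg Pt) : ℤ := round (X.q * ell X.L true true t)
noncomputable def u (up d : Bool) (t : Cfg Pt) : ℝ := ell X.L up d t - X.rd t / X.q
noncomputable def μ (t : Cfg Pt) : ℝ≥0∞ := ENNReal.ofReal (X.Λt.WN X.L t / Zs (X.Λt.WN X.L))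
noncomputable def φ (x : ℝ) : ℝ≥0∞ := ENNReal.ofReal (spr X.Λt.w X.L (X.a ^ 2) (-x))
noncomputable def bm (δ : ℝ) (Γ : ℝ≥0∞) : Bm (Cfg Pt) := mkB X.Λ X.Λ' X.μ 0 X.q X.φ X.u δ Γ
def σb (c : ℤ) (y : P) : ℤ × ℤ := (X.q * c * X.sm y true, X.q * c * X.sm y false)

noncomputable def eqv : X.Bl ≃ (X.Λ → ℤ) × (X.Λ → Cfg Pt) where
  toFun x := (fun v => (x v).1 + X.rd (x v).2, fun v => (x v).2)
  invFun z := fun v => (z.1 v - X.rd (z.2 v), z.2 v)
  left_inv x := by funext v; simp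
  right_inv z := by ext v <;> simp

variable {X}

theorem u_zero (up d : Bool) : X.u up d 0 = 0 := by simp [u, rd]

theorem U_eqv (up d : Bool) (y : P) (x : X.Bl) : X.U up d y x =
    (xt X.Λ 0 (X.eqv x).1 y : ℤ) / X.q + X.u up d (xt X.Λ 0 (X.eqv x).2 y) := by
  rw [U_apply]
  unfold xt
  split_ifs
  · simp only [eqv, u, Equiv.coe_fn_mk, Int.cast_add]; ring
  · simp [u_zero]

theorem Wt_eqv (h : X.Ok) (δ : ℝ) (Γ : ℝ≥0∞) (c : ℤ) (x : X.Bl) :
    (X.bm δ Γ).Wt (X.σb c) (X.eqv x) = (∏ v, X.μ (x v).2) *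
      ∏ y : X.Λ', ∏ d, ENNReal.ofReal (spr X.Λt.w X.L (X.a ^ 2) (X.tt y d x c)) := by
  have hq : (X.q : ℝ) ≠ 0 := by exact_mod_cast h.q0.ne'
  show (∏ v, X.μ (x v).2) * ∏ y ∈ X.Λ', (X.bm δ Γ).Fa y
    ((X.bm δ Γ).fld (X.σb c) (X.eqv x).1 y) ((X.bm δ Γ).st (X.eqv x).2) = _
  rw [← prod_coe_sort X.Λ']
  refine congrArg₂ _ rfl (prod_congr rfl fun y _ => ?_)
  rw [Fintype.prod_bool]
  set n := xt X.Λ 0 (X.eqv x).1 with hn
  set w := xt X.Λ 0 (X.eqv x).2 with hw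
  show X.φ (-(((grad n + X.σb c) y).1 : ℝ) / X.q + X.u true true (w y) - X.u false true (w (y + e1))) *
    X.φ (-(((grad n + X.σb c) y).2 : ℝ) / X.q + X.u true false (w y) - X.u false false (w (y + e2))) = _
  have e1' : -(-(((grad n + X.σb c) y).1 : ℝ) / X.q + X.u true true (w y) -
      X.u false true (w (y + e1))) = X.tt y true x c := by
    simp only [tt, U_eqv, ← hn, ← hw, grad, σb, dir, Pi.add_apply, Prod.fst_add, if_true]
    push_cast
    field_simp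
    ring
  have e2' : -(-(((grad n + X.σb c) y).2 : ℝ) / X.q + X.u true false (w y) -
      X.u false false (w (y + e2))) = X.tt y false x c := by
    simp only [tt, U_eqv, ← hn, ← hw, grad, σb, dir, Pi.add_apply, Prod.snd_add,
      Bool.false_eq_true, if_false]
    push_cast
    field_simp
    ring
  rw [φ, φ, e1', e2']

theorem tsum_ρ (h : X.Ok) (δ : ℝ) (Γ : ℝ≥0∞) (c : ℤ) (Φ : X.Bl → ℝ≥0∞) :
    ∑' p : X.G, ENNReal.ofReal (X.ρ (p, c)) * Φ p.1.1 =
      ∑' z, (X.bm δ Γ).Wt (X.σb c) z * Φ (X.eqv.symm z) := by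
  have hN := (cenN h).wt
  have hν := (cen_nu h.ok.fam X.L).wt
  have hw := h.ok.fam.cen.wt
  have e : ∀ p : X.G, ENNReal.ofReal (X.ρ (p, c)) * Φ p.1.1 =
      ((∏ v, X.μ (p.1.1 v).2) * Φ p.1.1 *
        ∏ y : X.Λ', ∏ d, ENNReal.ofReal (nu X.Λt.w X.L (p.1.2 y d) / Zs (nu X.Λt.w X.L)) *
          ENNReal.ofReal (Real.exp (-X.a ^ 2 * (X.tt y d p.1.1 c - av X.L (p.1.2 y d)) ^ 2 / 2))) *
        ∏ e, ENNReal.ofReal (X.Λt.w (p.2 e) / Zs X.Λt.w) := by
    intro p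
    have n1 : ∀ t, 0 ≤ X.Λt.WN X.L t / Zs (X.Λt.WN X.L) := fun t => div_nonneg (hN.nonneg _) hN.pos.le
    have n2 : ∀ k, 0 ≤ nu X.Λt.w X.L k / Zs (nu X.Λt.w X.L) :=
      fun k => div_nonneg (hν.nonneg _) hν.pos.le
    have n3 : ∀ k, 0 ≤ X.Λt.w k / Zs X.Λt.w := fun k => div_nonneg (hw.nonneg _) hw.pos.le
    have n4 : ∀ y d, 0 ≤ nu X.Λt.w X.L (p.1.2 y d) / Zs (nu X.Λt.w X.L) *
        Real.exp (-X.a ^ 2 * X.arg y d (p, c) ^ 2 / 2) :=
      fun y d => mul_nonneg (n2 _) (Real.exp_pos _).le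
    rw [ρ, ENNReal.ofReal_mul (mul_nonneg (prod_nonneg fun _ _ => n1 _)
        (prod_nonneg fun _ _ => prod_nonneg fun _ _ => n4 _ _)),
      ENNReal.ofReal_mul (prod_nonneg fun _ _ => n1 _),
      ENNReal.ofReal_prod_of_nonneg fun _ _ => n1 _, ENNReal.ofReal_prod_of_nonneg fun _ _ => n3 _,
      ENNReal.ofReal_prod_of_nonneg fun _ _ => prod_nonneg fun _ _ => n4 _ _]
    have : ∀ y : X.Λ', ENNReal.ofReal (∏ d, nu X.Λt.w X.L (p.1.2 y d) / Zs (nu X.Λt.w X.L) *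
        Real.exp (-X.a ^ 2 * X.arg y d (p, c) ^ 2 / 2)) =
        ∏ d, ENNReal.ofReal (nu X.Λt.w X.L (p.1.2 y d) / Zs (nu X.Λt.w X.L)) *
          ENNReal.ofReal (Real.exp (-X.a ^ 2 * (X.tt y d p.1.1 c - av X.L (p.1.2 y d)) ^ 2 / 2)) := by
      intro y
      rw [ENNReal.ofReal_prod_of_nonneg fun _ _ => n4 _ _]
      exact prod_congr rfl fun d _ => ENNReal.ofReal_mul (n2 _)
    simp only [this, μ]
    ring
  simp only [e]
  rw [ENNReal.tsum_prod (f := fun (p : X.Bl × (X.Λ' → Bool → Fin X.L → ℤ)) (r : X.R → ℤ) =>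
    ((∏ v, X.μ (p.1 v).2) * Φ p.1 *
        ∏ y : X.Λ', ∏ d, ENNReal.ofReal (nu X.Λt.w X.L (p.2 y d) / Zs (nu X.Λt.w X.L)) *
          ENNReal.ofReal (Real.exp (-X.a ^ 2 * (X.tt y d p.1 c - av X.L (p.2 y d)) ^ 2 / 2))) *
        ∏ e, ENNReal.ofReal (X.Λt.w (r e) / Zs X.Λt.w))]
  simp only [ENNReal.tsum_mul_left]
  rw [tsum_pi fun (_ : X.R) k => ENNReal.ofReal (X.Λt.w k / Zs X.Λt.w)]
  simp only [tsum_norm_one hw, prod_const_one, mul_one]
  rw [ENNReal.tsum_prod (f := fun (x : X.Bl) (j : X.Λ' → Bool → Fin X.L → ℤ) =>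
    (∏ v, X.μ (x v).2) * Φ x *
        ∏ y : X.Λ', ∏ d, ENNReal.ofReal (nu X.Λt.w X.L (j y d) / Zs (nu X.Λt.w X.L)) *
          ENNReal.ofReal (Real.exp (-X.a ^ 2 * (X.tt y d x c - av X.L (j y d)) ^ 2 / 2)))]
  refine Eq.trans ?_ (X.eqv.tsum_eq fun z => (X.bm δ Γ).Wt (X.σb c) z * Φ (X.eqv.symm z))
  refine tsum_congr fun x => ?_
  rw [ENNReal.tsum_mul_left, tsum_pi fun (y : X.Λ') (j : Bool → Fin X.L → ℤ) =>
    ∏ d, ENNReal.ofReal (nu X.Λt.w X.L (j d) / Zs (nu X.Λt.w X.L)) *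
      ENNReal.ofReal (Real.exp (-X.a ^ 2 * (X.tt y d x c - av X.L (j d)) ^ 2 / 2)),
    Wt_eqv h, Equiv.symm_apply_apply, mul_right_comm]
  refine congrArg₂ _ (congrArg₂ _ rfl (prod_congr rfl fun y _ => ?_)) rfl
  rw [tsum_pi fun (d : Bool) (k : Fin X.L → ℤ) =>
    ENNReal.ofReal (nu X.Λt.w X.L k / Zs (nu X.Λt.w X.L)) *
      ENNReal.ofReal (Real.exp (-X.a ^ 2 * (X.tt y d x c - av X.L k) ^ 2 / 2))]
  exact prod_congr rfl fun d _ => tsum_nu h.ok.fam X.L (sq_nonneg _) _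

/-! ### the embedding of the true model -/

/-- the heights of a block, seen from its corner -/
noncomputable def tb (L : ℕ) (c : Pt) (s : Cfg Pt) : Cfg Pt :=
  Finsupp.onFinset (sq 0 L) (fun y => if y ∈ sq 0 L then s (y + c) - s c else 0)
    fun y hy => by by_contra h; exact hy (if_neg h)

theorem tb_apply (L : ℕ) (c : Pt) (s : Cfg Pt) (y : Pt) :
    tb L c s y = if y ∈ sq 0 L then s (y + c) - s c else 0 := rfl

variable (X)
noncomputable def emb : Cfg Pt →+ X.G :=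
  AddMonoidHom.mk' (fun s => ((fun v => (X.q * s (cn X.L v), tb X.L (cn X.L v) s),
    fun y d i => dE (se X.L y d i) s), fun e => dE e s)) fun s t => by
      refine Prod.ext (Prod.ext (funext fun v => Prod.ext ?_ ?_) ?_) ?_
      · simp [mul_add]
      · ext y
        simp only [Pi.add_apply, Prod.fst_add, Prod.snd_add, Finsupp.add_apply, tb_apply]
        split_ifs <;> ring
      · funext y d i; exact dE_add _ _ _
      · funext e; exact dE_add _ _ _

def bb : X.G := ((0, fun y d _ => X.sm y d), 0)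

/-- configurations supported in `D` -/
def K : AddSubgroup (Cfg Pt) where
  carrier := {s | ∀ x, x ∉ X.D → s x = 0}
  add_mem' := fun ha hb x hx => by simp [ha x hx, hb x hx]
  zero_mem' := fun _ _ => rfl
  neg_mem' := fun ha x hx => by simp [ha x hx]

variable {X}

theorem emb_inj (h : X.Ok) : Function.Injective (X.emb.comp X.K.subtype) := by
  refine (injective_iff_map_eq_zero _).2 fun s hs => Subtype.ext ?_
  ext x
  by_cases hx : x ∈ X.D
  swap
  · exact s.2 x hx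
  have h1 := congrFun (congrArg (fun p : X.G => p.1.1) hs) ⟨_, h.hD x hx⟩
  have h2 : (X.q : ℤ) * s.1 (cn X.L (tileOf 0 X.L x)) = 0 := congrArg Prod.fst h1
  have h3 : tb X.L (cn X.L (tileOf 0 X.L x)) s.1 = 0 := congrArg Prod.snd h1
  have h4 : x - cn X.L (tileOf 0 X.L x) ∈ sq 0 X.L := by
    have := (mem_tile_iff (a := 0) (x := x) h.L0).2 rfl
    rw [mem_sq] at this ⊢
    simp only [tile, cn, Prod.fst_sub, Prod.snd_sub, Prod.fst_zero, Prod.snd_zero] at this ⊢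
    omega
  have h5 := DFunLike.congr_fun h3 (x - cn X.L (tileOf 0 X.L x))
  rw [tb_apply, if_pos h4, sub_add_cancel] at h5
  have h6 := (mul_eq_zero.1 h2).resolve_left (by exact_mod_cast h.q0.ne')
  simpa [h6] using h5

theorem U_emb (h : X.Ok) {s : Cfg Pt} (hs : s ∈ X.K) (up d : Bool) (y : P) :
    X.U up d y (X.emb s).1.1 = (∑ i, (s (pt X.L up d i + cn X.L y) : ℝ)) / X.L := by
  have hq : (X.q : ℝ) ≠ 0 := by exact_mod_cast h.q0.ne'
  have hL : (X.L : ℝ) ≠ 0 := by exact_mod_cast h.L0.ne'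
  rw [U_apply]
  unfold xt
  split_ifs with hy
  · show ((X.q * s (cn X.L y) : ℤ) : ℝ) / X.q + ell X.L up d (tb X.L (cn X.L y) s) = _
    simp only [ell_apply, tb_apply, pt_mem, if_true, Int.cast_sub, sum_sub_distrib, sum_const,
      card_univ, Fintype.card_fin, nsmul_eq_mul, Int.cast_mul, Int.cast_natCast]
    field_simp
    ring
  · rw [sum_eq_zero, zero_div]
    intro i _
    rw [hs _ fun hD => hy (tile_of h.L0 (pt_mem _ _ _ _) y ▸ h.hD _ hD), Int.cast_zero]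

theorem prod_edges (h : X.Ok) (f : Pt × Pt → ℝ) :
    (∏ e ∈ X.Λt.edT X.D, f e) * ∏ e ∈ (X.I ∪ X.S) \ X.Λt.edT X.D, f e =
      ((∏ v : X.Λ, ∏ e ∈ X.Λt.edI (sq 0 X.L), f (tr (cn X.L v) e)) *
        ∏ y : X.Λ', ∏ d, ∏ i, f (se X.L y d i)) * ∏ e : X.R, f e := by
  have hI : ∏ e ∈ X.I, f e = ∏ v : X.Λ, ∏ e ∈ X.Λt.edI (sq 0 X.L), f (tr (cn X.L v) e) := by
    rw [I, prod_image, prod_product, prod_coe_sort X.Λ
      fun v => ∏ e ∈ X.Λt.edI (sq 0 X.L), f (tr (cn X.L v) e)]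
    rintro ⟨v, e⟩ h1 ⟨v', e'⟩ h2 he
    have a1 := (Lat.mem_edI.1 (mem_product.1 (mem_coe.1 h1)).2).2.1
    have a2 := (Lat.mem_edI.1 (mem_product.1 (mem_coe.1 h2)).2).2.1
    have h3 : v = v' := by
      have := tile_of h.L0 a1 v
      rw [show e.1 + cn X.L v = _ from congrArg Prod.fst he] at this
      exact this.symm.trans (tile_of h.L0 a2 v')
    subst h3
    exact Prod.ext rfl (Prod.ext (add_right_cancel (congrArg Prod.fst he))
      (add_right_cancel (congrArg Prod.snd he)))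
  have hS : ∏ e ∈ X.S, f e = ∏ y : X.Λ', ∏ d, ∏ i, f (se X.L y d i) := by
    rw [S, prod_image (se_inj h.L0).injOn, prod_product, prod_coe_sort X.Λ'
      fun y => ∏ d, ∏ i, f (se X.L y d i)]
    exact prod_congr rfl fun y _ => Fintype.prod_prod_type _
  have hd : Disjoint X.I X.S := by
    rw [disjoint_left]
    intro e h1 h2
    obtain ⟨⟨v, e'⟩, hv, rfl⟩ := mem_image.1 h1
    obtain ⟨⟨y, d, i⟩, -, he⟩ := mem_image.1 h2
    have a := (Lat.mem_edI.1 (mem_product.1 hv).2).2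
    have b1 := tile_of h.L0 (pt_mem X.L true d i) y
    have b2 := tile_of h.L0 (pt_mem X.L false d i) (y + dir d)
    rw [show pt X.L true d i + cn X.L y = _ from congrArg Prod.fst he] at b1
    rw [show pt X.L false d i + cn X.L (y + dir d) = _ from congrArg Prod.snd he] at b2
    have c1 := (tile_of h.L0 a.1 v).symm.trans b1
    have c2 := (tile_of h.L0 a.2 v).symm.trans b2
    exact dir_ne d (by simpa [c1] using c2)
  rw [← hI, ← hS, ← prod_union hd, prod_coe_sort X.R f, R, ← prod_union disjoint_sdiff,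
    ← prod_union disjoint_sdiff, union_sdiff_self_eq_union, union_sdiff_self_eq_union, union_comm]

theorem ρ_emb (h : X.Ok) : ∃ C : ℝ, 0 < C ∧ ∀ (c : ℤ) (s : Cfg Pt), s ∈ X.K →
    X.ρ (X.emb s + c • X.bb, c) = C * (X.Λt.D X.D).Ws 0 (c • X.σ) s := by
  have hN := (cenN h).wt.pos
  have hν := (cen_nu h.ok.fam X.L).wt.pos
  have hw := h.ok.fam.cen.wt.pos
  have hL : (X.L : ℝ) ≠ 0 := by exact_mod_cast h.L0.ne'
  refine ⟨(∏ _e ∈ (X.I ∪ X.S) \ X.Λt.edT X.D, X.Λt.w 0) /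
    (((∏ _v : X.Λ, Zs (X.Λt.WN X.L)) * ∏ _y : X.Λ', ∏ _d : Bool, Zs (nu X.Λt.w X.L)) *
      ∏ _e : X.R, Zs X.Λt.w), div_pos (prod_pos fun _ _ => h.ok.fam.pos 0) (mul_pos (mul_pos
        (prod_pos fun _ _ => hN) (prod_pos fun _ _ => prod_pos fun _ _ => hν))
        (prod_pos fun _ _ => hw)), fun c s hs => ?_⟩
  set f : Pt × Pt → ℝ := fun e => X.Λt.w (dE e s + (c • X.σ) e) with hf
  have h1 : (X.Λt.D X.D).Ws 0 (c • X.σ) s = ∏ e ∈ X.Λt.edT X.D, f e := by
    rw [Mdl.Ws, ind_pos (p := ∀ x, x ∉ (X.Λt.D X.D).A → s x = (0 : Cfg Pt) x) hs, one_mul]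
    simp [Lat.D, hf]
  have h2 : ∏ _e ∈ (X.I ∪ X.S) \ X.Λt.edT X.D, X.Λt.w 0 =
      ∏ e ∈ (X.I ∪ X.S) \ X.Λt.edT X.D, f e := by
    refine prod_congr rfl fun e he => ?_
    have a1 : e.2 - e.1 ∈ X.Λt.Jp := by
      rcases mem_union.1 (mem_sdiff.1 he).1 with a | a
      · obtain ⟨⟨v, e'⟩, hv, rfl⟩ := mem_image.1 a
        simpa [tr] using (Lat.mem_edI.1 (mem_product.1 hv).2).1
      · obtain ⟨⟨y, d, i⟩, -, rfl⟩ := mem_image.1 a
        rw [se_sub]
        cases d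
        · exact h.ok.e2
        · exact h.ok.e1
    have a2 := (mem_sdiff.1 he).2
    rw [Lat.mem_edT] at a2
    push Not at a2
    have a3 := a2 a1
    simp [hf, dE, hs _ a3.1, hs _ a3.2, h.σD e a3.1 a3.2]
  have h3 : ∀ v : X.Λ, X.Λt.WN X.L ((X.emb s + c • X.bb).1.1 v).2 =
      ∏ e ∈ X.Λt.edI (sq 0 X.L), f (tr (cn X.L v) e) := by
    intro v
    have e0 : ((X.emb s + c • X.bb).1.1 v).2 = tb X.L (cn X.L v) s := by
      simp [bb]; rfl
    rw [e0, Lat.WN, Mdl.W, ind_pos, one_mul]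
    · simp only [Lat.Nr, Lat.N, Mdl.free, prod_const_one, mul_one]
      refine prod_congr rfl fun e he => ?_
      have a := (Lat.mem_edI.1 he).2
      have b := h.σI _ (mem_image.2 ⟨(v, e), mem_product.2 ⟨v.2, he⟩, rfl⟩)
      simp only at b
      simp only [hf, Pi.smul_apply, b, smul_zero, add_zero]
      simp only [dE, tb_apply, a.1, a.2, if_true, tr]
      congr 1; ring
    · intro x hx
      rw [tb_apply]
      split_ifs with h4
      · have : x = 0 := by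
          by_contra h5
          exact hx (mem_erase.2 ⟨h5, h4⟩)
        simp [this]
      · rfl
  have h4 : ∀ (y : X.Λ') d, nu X.Λt.w X.L ((X.emb s + c • X.bb).1.2 y d) = ∏ i, f (se X.L y d i) := by
    intro y d
    refine prod_congr rfl fun i _ => ?_
    simp only [hf, Pi.smul_apply, h.σS]
    rfl
  have h5 : ∀ (y : X.Λ') d, X.arg y d (X.emb s + c • X.bb, c) = 0 := by
    intro y d
    have e0 : (X.emb s + c • X.bb).1.1 = (X.emb s).1.1 := by simp [bb]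
    have e1 : ∀ i, (X.emb s + c • X.bb).1.2 y d i = dE (se X.L y d i) s + c * X.sm y d :=
      fun i => rfl
    show X.tt y d (X.emb s + c • X.bb).1.1 c - av X.L ((X.emb s + c • X.bb).1.2 y d) = 0
    rw [e0, tt, U_emb h hs, U_emb h hs, av_apply]
    simp only [e1, dE, se, Int.cast_add, Int.cast_sub, Int.cast_mul, sum_add_distrib,
      sum_sub_distrib, sum_const, card_univ, Fintype.card_fin, nsmul_eq_mul]
    field_simp
    ring
  have h6 : ∀ e : X.R, X.Λt.w ((X.emb s + c • X.bb).2 e) = f e := by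
    intro e
    have e0 : (X.emb s + c • X.bb).2 e = dE e s := by simp [bb]; rfl
    simp [e0, hf, h.σR e e.2]
  rw [h1, h2, div_mul_eq_mul_div, mul_comm (∏ e ∈ _ \ _, f e), prod_edges h, ρ]
  simp only [h3, h4, h5, h6, prod_div_distrib]
  simp only [ne_eq, OfNat.ofNat_ne_zero, not_false_eq_true, zero_pow, mul_zero, zero_div,
    Real.exp_zero, mul_one, prod_div_distrib]
  rw [div_mul_div_comm, div_mul_div_comm]

end Dt

end Crest.Agent.T145.Pei
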