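import Crest.Agent.T145.PeiE_33

/-!
# Row 145, Peierls argument, part F: transfer to the true model (helper33)
-/

set_option autoImplicit false

namespace Crest.Agent.T145.Pei

open Finset
open scoped ENNReal

namespace Dt
variable {X : Dt} {δ : ℝ} {Γ : ℝ≥0∞}

theorem u_sq (h : X.Ok) (t : Cfg Pt) : X.u true true t ^ 2 ≤ 1 / 4 ∧
    8 * X.u true true t ^ 2 ≤ 1 - Real.cos (2 * Real.pi * X.q * ell X.L true true t) := by
  have hq : (1 : ℝ) ≤ X.q := by exact_mod_cast h.q0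
  set y := X.q * ell X.L true true t - X.rd t with hy
  have h1 : |y| ≤ 1 / 2 := abs_sub_round _
  have h2 : X.q * X.u true true t = y := by rw [u, hy]; field_simp
  have h3 : X.u true true t ^ 2 ≤ y ^ 2 := by
    rw [← h2, mul_pow]
    exact le_mul_of_one_le_left (sq_nonneg _) (one_le_pow₀ hq)
  have h4 : y ^ 2 ≤ 1 / 4 := by have := abs_le.1 h1; nlinarith
  refine ⟨h3.trans h4, ?_⟩
  have h5 : |2 * Real.pi * y| ≤ Real.pi := by
    rw [abs_mul, abs_of_pos (by positivity)]; nlinarith [Real.pi_pos]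
  have h6 := Real.cos_le_one_sub_mul_cos_sq h5
  have h7 : 2 / Real.pi ^ 2 * (2 * Real.pi * y) ^ 2 = 8 * y ^ 2 := by field_simp; ring
  have h8 : 2 * Real.pi * X.q * ell X.L true true t = 2 * Real.pi * y + X.rd t * (2 * Real.pi) := by
    rw [hy]; ring
  rw [h8, Real.cos_add_int_mul_two_pi]
  linarith

theorem T0_mom (h : X.Ok) (hl : X.Λt.Lok X.L X.q δ) :
    ∑' ω, X.μ ω * ENNReal.ofReal (T0 X.u ω) ≤ ENNReal.ofReal (12 * δ) := by
  have hc := cenN h
  have key : ∀ up d, Ig (X.Λt.WN X.L) (fun t => X.u up d t ^ 2) ∧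
      Ex (X.Λt.WN X.L) (fun t => X.u up d t ^ 2) ≤ 3 * δ := by
    intro up d
    obtain ⟨k, hk⟩ := ell_sd X.L up d
    set f := pr (sd X.L 0 - sd X.L k) with hf
    set g := (2 * Real.pi * ((X.q : ℤ) : ℝ)) • pr (sd X.L 0) with hg
    have i1 : Ig (X.Λt.WN X.L) fun t => Real.cos (g t) := hc.ig (Tame.cos _)
    have i2 : Ig (X.Λt.WN X.L) fun t => f t * f t := hc.ig ((Tame.hom f).mul (Tame.hom f))
    have i3 := (((hc.wt.ig_const 1).sub i1).const_mul (1 / 4)).add (i2.const_mul 2)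
    have b : ∀ t, X.u up d t ^ 2 ≤ 1 / 4 * (1 - Real.cos (g t)) + 2 * (f t * f t) := by
      intro t
      have h1 := (u_sq h t).2
      have h2 : X.u up d t = X.u true true t - f t := by
        rw [hf, pr_sub, AddMonoidHom.sub_apply, ← hk, ← ell_sd0, u, u]; ring
      have h3 : g t = 2 * Real.pi * X.q * ell X.L true true t := by
        rw [hg, ell_sd0]; simp
      rw [h2, h3]
      nlinarith [sq_nonneg (X.u true true t + f t)]
    have i4 := Ig.of_le hc.wt.nonneg i3 (fun _ => sq_nonneg _) b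
    refine ⟨i4, (Ex_mono hc.wt.nonneg i4 i3 b).trans ?_⟩
    rw [Ex_add (((hc.wt.ig_const 1).sub i1).const_mul _) (i2.const_mul _), Ex_const_mul, Ex_const_mul,
      Ex_sub (hc.wt.ig_const 1) i1, hc.wt.ex_const, ← hc.Vr_eq]
    have h1 : 1 - δ ≤ Ex (X.Λt.WN X.L) fun t => Real.cos (g t) := hl.1
    have h2 : Vr (X.Λt.WN X.L) f f ≤ δ := hl.2 k
    have h3 := hc.wt.Vr_nonneg hc.se f
    linarith
  have i : Ig (X.Λt.WN X.L) (T0 X.u) :=
    (((key true true).1.add (key true false).1).add (key false true).1).add (key false false).1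
  refine (tsum_norm hc.wt i (T0_nonneg _)).le.trans (ENNReal.ofReal_le_ofReal ?_)
  show Ex _ (fun t => _ + _ + _ + _) ≤ _
  rw [Ex_add (((key true true).1.add (key true false).1).add (key false true).1) (key false false).1,
    Ex_add ((key true true).1.add (key true false).1) (key false true).1,
    Ex_add (key true true).1 (key true false).1]
  linarith [(key true true).2, (key true false).2, (key false true).2, (key false false).2]

theorem σb_zero : X.σb 0 = 0 := by funext y; simp [σb]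

theorem Z_eq (h : X.Ok) (hb : (X.bm δ Γ).Ok) {c : ℤ} (hσ : (X.bm δ Γ).Sm (X.σb c)) :
    Summable (sl X.ρ c) ∧ ENNReal.ofReal (Zs (sl X.ρ c)) = (X.bm δ Γ).Z (X.σb c) := by
  have h0 := (rsd_ρ h).nonneg
  have h1 := tsum_ρ h δ Γ c fun _ => 1
  simp only [mul_one] at h1
  have h2 : Summable (sl X.ρ c) := by
    have := ENNReal.summable_toReal (h1.trans_ne (Bm.Z_ne_top hb hσ))
    simp only [ENNReal.toReal_ofReal (h0 _)] at this
    exact this
  exact ⟨h2, (ENNReal.ofReal_tsum_of_nonneg (fun _ => h0 _) h2).trans h1⟩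

theorem sum_emb (h : X.Ok) : ∃ C : ℝ, 0 < C ∧ 0 < X.ρ (0, 0) ∧ ∀ (c : ℤ) (F : Cfg Pt → ℝ),
    ∑' s : X.K, X.ρ (X.emb s + c • X.bb, c) * F s =
      C * ∑' s, (X.Λt.D X.D).Ws 0 (c • X.σ) s * F s := by
  obtain ⟨C, hC, e⟩ := ρ_emb h
  refine ⟨C, hC, ?_, fun c F => ?_⟩
  · have := e 0 0 X.K.zero_mem
    simp only [map_zero, zero_smul, add_zero, ← Mdl.W_eq_Ws] at this
    rw [this]
    exact mul_pos hC (h.ok.cen_D _).pos0
  · rw [← tsum_mul_left, ← tsum_subtype_eq_of_support_subset (s := X.K)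
      (f := fun s => C * ((X.Λt.D X.D).Ws 0 (c • X.σ) s * F s))]
    · exact tsum_congr fun s => by rw [e c s s.2, mul_assoc]
    · intro s hs x hx
      exact Mdl.Ws_ne_zero (left_ne_zero_of_mul (right_ne_zero_of_mul hs)) hx

theorem wt0 (h : X.Ok) (hb : (X.bm δ Γ).Ok) :
    Wt (sl X.ρ 0) ∧ ENNReal.ofReal (Zs (sl X.ρ 0)) = (X.bm δ Γ).Z 0 := by
  have := Z_eq h hb (c := 0) (by rw [σb_zero]; exact Bm.sm_zero)
  rw [σb_zero] at this
  obtain ⟨C, -, h0, -⟩ := sum_emb h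
  exact ⟨Wt.of_pos (fun _ => (rsd_ρ h).nonneg _) this.1 (a := 0) h0, this.2⟩

theorem seam_le (h : X.Ok) (hb : (X.bm δ Γ).Ok) (hσ : (X.bm δ Γ).Sm (X.σb 1)) {r : ℝ} (hr : 0 ≤ r)
    (hZ : (X.bm δ Γ).Z (X.σb 1) ≤ ENNReal.ofReal r * (X.bm δ Γ).Z 0) :
    Zs ((X.Λt.D X.D).Ws 0 X.σ) ≤ r * Zs ((X.Λt.D X.D).W 0) := by
  obtain ⟨w0, z0⟩ := wt0 h hb
  obtain ⟨s1, z1⟩ := Z_eq h hb hσ
  obtain ⟨C, hC, -, e⟩ := sum_emb h
  have h1 := restr_seam _ (emb_inj h) X.bb (rsd_ρ h) w0.summ s1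
  have e1 := e 1 fun _ => 1
  have e0 := e 0 fun _ => 1
  simp only [mul_one, one_smul, zero_smul, add_zero, ← Mdl.W_eq_Ws] at e1 e0
  rw [← z0, ← z1, ← ENNReal.ofReal_mul hr,
    ENNReal.ofReal_le_ofReal_iff (mul_nonneg hr w0.pos.le)] at hZ
  have h2 : C * Zs ((X.Λt.D X.D).Ws 0 X.σ) * Zs (sl X.ρ 0) ≤
      Zs (sl X.ρ 1) * (C * Zs ((X.Λt.D X.D).W 0)) := by
    unfold Zs; rw [← e1, ← e0]; exact h1
  have h3 := h2.trans (mul_le_mul_of_nonneg_right hZ (mul_nonneg hC.le (h.ok.cen_D _).wt.pos.le))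
  refine le_of_mul_le_mul_left ?_ (mul_pos hC w0.pos)
  linarith

theorem var_le (h : X.Ok) (hb : (X.bm δ Γ).Ok) {H : Cfg Pt → ℝ≥0∞} {K : ℝ≥0∞}
    (hM : (X.bm δ Γ).Mo H K) (hK : K ≠ ⊤) :
    Ex ((X.Λt.D X.D).W 0) (fun s => ell X.L true true s ^ 2) ≤ 2 * K.toReal ^ 3 + 1 := by
  obtain ⟨w0, z0⟩ := wt0 h hb
  obtain ⟨C, hC, -, e⟩ := sum_emb h
  have hq : (1 : ℝ) ≤ X.q := by exact_mod_cast h.q0
  have hc := h.ok.cen_D X.D
  let Y : X.G →+ ℝ := (X.U true true 0).comp ((AddMonoidHom.fst _ _).comp (AddMonoidHom.fst _ _))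
  have h1 : ∑' p : X.G, ENNReal.ofReal (sl X.ρ 0 p * Y p ^ 2) ≤
      ENNReal.ofReal (Zs (sl X.ρ 0) * (2 * K.toReal ^ 3 + 1)) := by
    have a1 := tsum_ρ h δ Γ 0 fun x => ENNReal.ofReal (X.U true true 0 x ^ 2)
    rw [σb_zero] at a1
    simp only [ENNReal.ofReal_mul (w0.nonneg _)]
    refine a1.le.trans ?_
    calc _ ≤ ∑' z, (2 * ((X.bm δ Γ).Wt 0 z *
          ((((X.bm δ Γ).lev z.1 0).natAbs ^ 2 : ℕ) : ℝ≥0∞)) + (X.bm δ Γ).Wt 0 z) := by
          refine ENNReal.tsum_le_tsum fun z => ?_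
          rw [mul_left_comm, ← mul_add_one]
          refine mul_le_mul' le_rfl ?_
          rw [U_eqv, X.eqv.apply_symm_apply z, ← ENNReal.ofReal_natCast, ← ENNReal.ofReal_ofNat,
            ← ENNReal.ofReal_mul (by norm_num), ← ENNReal.ofReal_one,
            ← ENNReal.ofReal_add (by positivity) zero_le_one]
          refine ENNReal.ofReal_le_ofReal ?_
          rw [Nat.cast_pow, Nat.cast_natAbs, Int.cast_abs, sq_abs]
          have b1 := (u_sq h (xt X.Λ 0 z.2 0)).1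
          have b2 : (((xt X.Λ 0 z.1 0 : ℤ) : ℝ) / X.q) ^ 2 ≤ ((xt X.Λ 0 z.1 0 : ℤ) : ℝ) ^ 2 := by
            rw [div_pow]; exact div_le_self (sq_nonneg _) (one_le_pow₀ hq)
          show _ ≤ 2 * ((xt X.Λ 0 z.1 0 : ℤ) : ℝ) ^ 2 + 1
          nlinarith [sq_nonneg (((xt X.Λ 0 z.1 0 : ℤ) : ℝ) / X.q - X.u true true (xt X.Λ 0 z.2 0))]
      _ ≤ 2 * ((X.bm δ Γ).Z 0 * K ^ 3) + (X.bm δ Γ).Z 0 := by
          rw [ENNReal.tsum_add, ENNReal.tsum_mul_left]
          exact add_le_add (mul_le_mul' le_rfl (Bm.var hb hM 0)) le_rfl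
      _ = _ := by
          rw [ENNReal.ofReal_mul w0.pos.le, z0, ENNReal.ofReal_add (by positivity) zero_le_one,
            ENNReal.ofReal_mul (by norm_num), ENNReal.ofReal_pow ENNReal.toReal_nonneg,
            ENNReal.ofReal_toReal hK, ENNReal.ofReal_one, ENNReal.ofReal_ofNat]
          ring
  have n1 : ∀ p, 0 ≤ sl X.ρ 0 p * Y p ^ 2 := fun p => mul_nonneg (w0.nonneg _) (sq_nonneg _)
  have i1 : Ig (sl X.ρ 0) fun p => Y p ^ 2 := by
    have := ENNReal.summable_toReal (ne_top_of_le_ne_top ENNReal.ofReal_ne_top h1)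
    simp only [ENNReal.toReal_ofReal (n1 _)] at this
    exact this
  have h2 : Ex (sl X.ρ 0) (fun p => Y p ^ 2) ≤ 2 * K.toReal ^ 3 + 1 := by
    rw [← ENNReal.ofReal_tsum_of_nonneg n1 i1,
      ENNReal.ofReal_le_ofReal_iff (mul_nonneg w0.pos.le (by positivity)), w0.tsum_eq] at h1
    exact le_of_mul_le_mul_left h1 w0.pos
  refine sq_of_cos hc.wt (hc.ig ((Tame.hom _).pow 2)) (hc.ig ((Tame.hom _).pow 4)) fun t => ?_
  have h3 : 1 - t ^ 2 * (2 * K.toReal ^ 3 + 1) / 2 ≤ Ex (sl X.ρ 0) fun p => Real.cos ((t • Y) p) := by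
    refine le_trans ?_ (Ex_mono w0.nonneg ((w0.ig_const 1).sub (i1.const_mul (t ^ 2 / 2)))
      (w0.ig_bdd fun p => Real.abs_cos_le_one _) fun p => ?_)
    · rw [Ex_sub (w0.ig_const 1) (i1.const_mul _), w0.ex_const, Ex_const_mul]
      nlinarith [sq_nonneg t]
    · refine le_trans (le_of_eq ?_) Real.one_sub_sq_div_two_le_cos
      simp only [AddMonoidHom.smul_apply, smul_eq_mul]; ring
  have h4 := restr_cos _ (emb_inj h) (Md.rsd_comp (rsd_ρ h) (AddMonoidHom.inl X.G ℤ)) w0.summ (t • Y)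
  have e0 := e 0 fun _ => 1
  have e1 := e 0 fun s => Real.cos (t * ell X.L true true s)
  simp only [mul_one, zero_smul, add_zero, ← Mdl.W_eq_Ws] at e1 e0
  have e2 : ∀ s : X.K, (t • Y) (X.emb s) = t * ell X.L true true s := fun s => by
    show t * X.U true true 0 (X.emb s).1.1 = _
    rw [U_emb h s.2, ell_apply, show cn X.L 0 = 0 by simp [cn]]
    simp only [add_zero]
  have h5 : (∑' p, sl X.ρ 0 p * Real.cos ((t • Y) p)) * (C * Zs ((X.Λt.D X.D).W 0)) ≤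
      Zs (sl X.ρ 0) * (C * ∑' s, (X.Λt.D X.D).W 0 s * Real.cos (t * ell X.L true true s)) := by
    unfold Zs
    rw [← e1, ← e0]
    simp only [← e2]
    exact h4
  rw [w0.tsum_eq, hc.wt.tsum_eq] at h5
  refine h3.trans (le_of_mul_le_mul_left ?_ (mul_pos w0.pos (mul_pos hC hc.wt.pos)))
  linarith

end Dt

end Crest.Agent.T145.Pei
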