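import Crest.Agent.T145.PotD_17
import Crest.Agent.T145.PotHl_59
import Crest.Agent.T145.PotPo_44
import Crest.Agent.T145.PotHo_14
import Crest.Agent.T145.PotHa_91

/-!
# Row 145 (helper91): interior estimates for `J`-harmonic functions
-/

set_option autoImplicit false

namespace Crest.Agent.T145.Pot

open Finset

namespace Hj91

open Ha91

variable {Λ : Lat}

theorem sum_dif_le (h : Λ.Ok) {y : Pt} (hy : y ∈ Λ.J) (D : Finset Pt) (u : Pt → ℝ) :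
    ∑ x ∈ D, dif y u x ^ 2 ≤ eD Λ D u u := by
  rw [eD, edF_self]
  rcases h.mem_or.1 hy with h1 | h1
  · refine le_trans (le_of_eq ?_) (sum_le_sum_of_subset_of_nonneg
      (s := D.image fun x => (x, x + y)) (fun e he => ?_) fun _ _ _ => sq_nonneg _)
    · rw [sum_image fun a _ b _ hab => (Prod.ext_iff.1 hab).1]; rfl
    · obtain ⟨x, hx, rfl⟩ := mem_image.1 he
      exact Lat.mem_edT.2 ⟨by simpa using h1, .inl hx⟩
  · refine le_trans (le_of_eq ?_) (sum_le_sum_of_subset_of_nonneg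
      (s := D.image fun x => (x + y, x)) (fun e he => ?_) fun _ _ _ => sq_nonneg _)
    · rw [sum_image fun a _ b _ hab => (Prod.ext_iff.1 hab).2]
      exact sum_congr rfl fun x _ => by simp only [dif]; ring
    · obtain ⟨x, hx, rfl⟩ := mem_image.1 he
      exact Lat.mem_edT.2 ⟨by simpa using h1, .inr hx⟩

/-- the constant of the Caccioppoli inequality -/
def cc (Λ : Lat) : ℕ := Λ.rg * Λ.Jp.card

theorem one_le_cc (h : Λ.Ok) : (1 : ℝ) ≤ cc Λ := by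
  exact_mod_cast Nat.mul_pos h.one_le_rg (card_pos.2 ⟨_, h.e1⟩)

theorem step (h : Λ.Ok) {z y : Pt} {i m : ℕ} {u : Pt → ℝ} (hm : Λ.rg ≤ m) (hy : y ∈ nn)
    (hu : ∀ x ∈ bl z ((i + 3) * m), lapJ Λ.J u x = 0) :
    ∑ x ∈ bl z (i * m), dif y u x ^ 2 ≤ (cc Λ / m) ^ 2 * ∑ x ∈ bl z ((i + 3) * m), u x ^ 2 := by
  have hm0 : 0 < m := h.one_le_rg.trans hm
  have h1 := cacc_le h (D := bl z ((i + 1 + 1) * m)) (D' := bl z (i * m)) (A := bl z ((i + 3) * m))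
    (u := u) (δ := Λ.rg / m) (bl_mono z (by simp only [add_mul]; omega)) (H59.cut_sup z (i + 1) hm0)
    (fun x hx _ _ => hu x (bl_mono z (by simp only [add_mul]; omega) hx))
    (fun e he => by
      have := Lat.mem_edI.1 (Lat.edT_bl_subset z (R := (i + 1) * m) (by simp only [add_mul]; omega) he)
      exact ⟨H59.cut_one hm0 this.2.1, H59.cut_one hm0 this.2.2⟩)
    fun e he _ => by
      have := Lat.mem_edI.1 (Lat.edT_bl_subset z (R := (i + 3) * m) (by simp only [add_mul]; omega) he)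
      exact ⟨this.2.1, this.2.2, H59.cut_lip z _ hm0 (Lat.edge_near this.1)⟩
  refine ((sum_dif_le nL_ok hy _ u).trans (eD_nL_le h _ u)).trans (h1.trans ?_)
  have h2 : (1 : ℝ) ≤ Λ.Jp.card := by exact_mod_cast card_pos.2 ⟨_, h.e1⟩
  rw [cc, Nat.cast_mul, mul_div_right_comm, mul_pow]
  gcongr
  nlinarith

theorem l2 (h : Λ.Ok) {z : Pt} {m : ℕ} (hm : Λ.rg ≤ m) (ys : List Pt) (hys : ∀ y ∈ ys, y ∈ nn)
    {u : Pt → ℝ} {ρ : ℕ} (hρ : (1 + 3 * ys.length) * m ≤ ρ) (hu : ∀ x ∈ bl z ρ, lapJ Λ.J u x = 0) :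
    ∑ x ∈ bl z m, difs ys u x ^ 2 ≤ ((cc Λ / m) ^ ys.length) ^ 2 * ∑ x ∈ bl z ρ, u x ^ 2 := by
  have hm0 : 0 < m := h.one_le_rg.trans hm
  induction ys generalizing u ρ with
  | nil =>
    simpa [difs] using sum_le_sum_of_subset_of_nonneg (bl_mono z (by simpa using hρ))
      fun x _ _ => sq_nonneg (u x)
  | cons y ys ih =>
    have hy := hys y List.mem_cons_self
    have e : (1 + 3 * ys.length + 3) * m ≤ ρ := hρ
    have e' : (1 + 3 * ys.length) * m + 1 ≤ ρ := by rw [add_mul] at e; omega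
    have h1 := ih (fun a ha => hys a (List.mem_cons_of_mem _ ha)) (u := dif y u) le_rfl fun x hx => by
      rw [lapJ_dif, dif, hu x (bl_mono z (by omega) hx), hu _ (bl_subset_bl hx (by omega) (nn_bl hy x)),
        sub_zero]
    have h2 := step h hm hy fun x hx => hu x (bl_mono z e hx)
    have h3 := sum_le_sum_of_subset_of_nonneg (bl_mono z e) fun x _ _ => sq_nonneg (u x)
    rw [difs_cons', List.length_cons, pow_succ _ ys.length, mul_pow, mul_assoc]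
    refine h1.trans (mul_le_mul_of_nonneg_left (h2.trans ?_) (by positivity))
    gcongr

theorem sob1 (f : ℤ → ℝ) (c : ℤ) {m : ℕ} (hm : 1 ≤ m) : m * f c ^ 2 ≤
    2 * ∑ k ∈ Icc (c - m) (c + m), f k ^ 2 +
      18 * (m : ℝ) ^ 2 * ∑ k ∈ Icc (c - m) (c + m), (f (k + 1) - f k) ^ 2 := by
  set T := ∑ k ∈ Icc (c - m) (c + m), (f (k + 1) - f k) ^ 2 with hT
  have hT0 : 0 ≤ T := sum_nonneg fun _ _ => sq_nonneg _
  have hm1 : (1 : ℝ) ≤ m := by exact_mod_cast hm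
  have h1 : ∀ j ∈ Icc (c - m) (c + m), f c ^ 2 ≤ 2 * f j ^ 2 + 6 * m * T := fun j hj => by
    have h2 := Po44.oneD f (p := c - m) (n := 2 * m + 1) (i := c) (j := j)
      (by rw [mem_Ico]; omega) (by rw [mem_Icc] at hj; rw [mem_Ico]; omega)
    have h3 : ∑ k ∈ Ico (c - m) (c - m + (2 * m + 1 : ℕ) - 1), (f (k + 1) - f k) ^ 2 ≤ T :=
      sum_le_sum_of_subset_of_nonneg (fun k hk => by rw [mem_Ico] at hk; rw [mem_Icc]; omega)
        fun _ _ _ => sq_nonneg _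
    have h4 := h2.trans (mul_le_mul (show ((2 * m + 1 : ℕ) : ℝ) ≤ 3 * m by push_cast; linarith) h3
      (sum_nonneg fun _ _ => sq_nonneg _) (by positivity))
    nlinarith [sq_nonneg (f c - 2 * f j)]
  have h2 := sum_le_sum h1
  rw [sum_const, sum_add_distrib, sum_const, ← mul_sum, Int.card_Icc,
    show (c + m + 1 - (c - m)).toNat = 2 * m + 1 by omega, nsmul_eq_mul, nsmul_eq_mul] at h2
  push_cast at h2
  nlinarith [sq_nonneg (f c), mul_nonneg (mul_nonneg (sub_nonneg.2 hm1) hT0) (Nat.cast_nonneg m)]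

theorem sob2 (v : Pt → ℝ) (z : Pt) {m : ℕ} (hm : 1 ≤ m) : (m * v z) ^ 2 ≤
    4 * ∑ x ∈ bl z m, v x ^ 2 + 36 * (m : ℝ) ^ 2 * ∑ x ∈ bl z m, dif (0, 1) v x ^ 2 +
      36 * (m : ℝ) ^ 2 * ∑ x ∈ bl z m, dif (1, 0) v x ^ 2 +
      324 * (m : ℝ) ^ 4 * ∑ x ∈ bl z m, dif (0, 1) (dif (1, 0) v) x ^ 2 := by
  have key : ∀ w : Pt → ℝ, m * ∑ a ∈ Icc (z.1 - m) (z.1 + m), w (a, z.2) ^ 2 ≤
      2 * ∑ x ∈ bl z m, w x ^ 2 + 18 * (m : ℝ) ^ 2 * ∑ x ∈ bl z m, dif (0, 1) w x ^ 2 := fun w => by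
    rw [bl, sum_product, sum_product, mul_sum, mul_sum, mul_sum, ← sum_add_distrib]
    exact sum_le_sum fun a _ => by simpa [dif] using sob1 (fun b => w (a, b)) z.2 hm
  have h1 := sob1 (fun a => v (a, z.2)) z.1 hm
  have h2 := key v
  have h3 := key (dif (1, 0) v)
  have e : ∑ a ∈ Icc (z.1 - m) (z.1 + m), dif (1, 0) v (a, z.2) ^ 2 =
      ∑ a ∈ Icc (z.1 - m) (z.1 + m), (v (a + 1, z.2) - v (a, z.2)) ^ 2 := by simp [dif]
  rw [e] at h3
  have h4 := mul_le_mul_of_nonneg_left h1 (Nat.cast_nonneg m)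
  have h5 := mul_le_mul_of_nonneg_left h3 (show 0 ≤ 18 * (m : ℝ) ^ 2 by positivity)
  simp only [Prod.mk.eta] at h4
  nlinarith

/-- the estimate at the centre -/
theorem centre (h : Λ.Ok) {z : Pt} {m ρ : ℕ} (hm : Λ.rg ≤ m) {ys : List Pt}
    (hys : ∀ y ∈ ys, y ∈ nn) {u : Pt → ℝ} (hρ : (3 * ys.length + 7) * m ≤ ρ)
    (hu : ∀ x ∈ bl z ρ, lapJ Λ.J u x = 0) :
    m * |difs ys u z| ≤ 20 * (cc Λ : ℝ) ^ 2 * (cc Λ / m) ^ ys.length * √(∑ x ∈ bl z ρ, u x ^ 2) := by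
  have hm0 : 0 < m := h.one_le_rg.trans hm
  have hm1 : (0 : ℝ) < m := by exact_mod_cast hm0
  have hc := one_le_cc h
  have a : ∀ j ≤ 2, (1 + 3 * (ys.length + j)) * m ≤ ρ := fun j hj =>
    (Nat.mul_le_mul_right _ (by omega)).trans hρ
  have h0 := l2 h hm ys hys (a 0 (by omega)) hu
  have h1 := l2 h hm ((1, 0) :: ys) (by simpa [e1_nn] using hys) (a 1 (by omega)) hu
  have h2 := l2 h hm ((0, 1) :: ys) (by simpa [e2_nn] using hys) (a 1 (by omega)) hu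
  have h3 := l2 h hm ((0, 1) :: (1, 0) :: ys) (by simpa [e1_nn, e2_nn] using hys) (a 2 le_rfl) hu
  have h4 := sob2 (difs ys u) z hm0
  simp only [List.length_cons, difs, pow_succ _ ys.length, pow_succ _ (ys.length + 1)] at h1 h2 h3
  set U := ∑ x ∈ bl z ρ, u x ^ 2 with hU
  have hU0 : 0 ≤ U := sum_nonneg fun _ _ => sq_nonneg _
  set q := ((cc Λ : ℝ) / m) ^ ys.length with hq
  have e1 : (m : ℝ) ^ 2 * ((q * (cc Λ / m)) ^ 2 * U) = (cc Λ : ℝ) ^ 2 * (q ^ 2 * U) := by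
    field_simp
  have e2 : (m : ℝ) ^ 4 * ((q * (cc Λ / m) * (cc Λ / m)) ^ 2 * U) = (cc Λ : ℝ) ^ 4 * (q ^ 2 * U) := by
    field_simp
  have h5 := mul_le_mul_of_nonneg_left h1 (show 0 ≤ (m : ℝ) ^ 2 by positivity)
  have h6 := mul_le_mul_of_nonneg_left h2 (show 0 ≤ (m : ℝ) ^ 2 by positivity)
  have h7 := mul_le_mul_of_nonneg_left h3 (show 0 ≤ (m : ℝ) ^ 4 by positivity)
  have h8 : 0 ≤ q ^ 2 * U := by positivity
  have h9 := mul_le_mul_of_nonneg_right (pow_le_pow_right₀ hc (show 2 ≤ 4 by omega)) h8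
  have h10 := mul_le_mul_of_nonneg_right (one_le_pow₀ (n := 4) hc) h8
  rw [← Nat.abs_cast, ← abs_mul]
  refine abs_le_of_sq_le_sq' ?_ (by positivity) |> abs_le.2
  rw [mul_pow _ (√U), Real.sq_sqrt hU0]
  nlinarith

theorem hj (h : Λ.Ok) (k : ℕ) (z : Pt) (r : ℕ) (u : Pt → ℝ) (hr : (3 * k + 7) * Λ.rg ≤ r)
    (hu : ∀ x ∈ bl z (2 * r), lapJ Λ.J u x = 0) :
    Sm k (bl z r) (20 * (cc Λ : ℝ) ^ 2 * (2 * (3 * k + 7) * cc Λ) ^ (k + 1) *
      √(∑ x ∈ bl z (2 * r), u x ^ 2) / r) r u := by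
  intro ys h1 h2 x hx
  have hc := one_le_cc h
  have hg := h.one_le_rg
  set m := r / (3 * k + 7) with hm
  have a1 : Λ.rg ≤ m := (Nat.le_div_iff_mul_le (by omega)).2 (by rwa [mul_comm])
  have a2 : (3 * k + 7) * m ≤ r := Nat.mul_div_le _ _
  have a3 : r ≤ 2 * (3 * k + 7) * m := by
    have := Nat.lt_mul_div_succ r (show 0 < 3 * k + 7 by omega)
    nlinarith
  have hs : bl x r ⊆ bl z (2 * r) := bl_subset_bl hx (by omega)
  have h3 := centre h a1 h2 ((Nat.mul_le_mul_right _ (by omega)).trans a2) fun w hw => hu w (hs hw)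
  have h4 := Real.sqrt_le_sqrt (sum_le_sum_of_subset_of_nonneg hs fun w _ _ => sq_nonneg (u w))
  have hm0 : (0 : ℝ) < m := by exact_mod_cast hg.trans a1
  have hr0 : (0 : ℝ) < r := by exact_mod_cast (show 0 < r by nlinarith)
  have a4 : (r : ℝ) ≤ 2 * (3 * k + 7) * m := by exact_mod_cast a3
  set q : ℝ := 2 * (3 * k + 7) * cc Λ with hq
  have hq1 : 1 ≤ q := one_le_mul_of_one_le_of_one_le (by linarith [Nat.cast_nonneg (α := ℝ) k]) hc
  have a5 : (cc Λ : ℝ) / m ≤ q / r := by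
    rw [div_le_div_iff₀ hm0 hr0, hq]; nlinarith
  have a6 : 1 / (m : ℝ) ≤ q / r := le_trans (by gcongr) a5
  rw [← le_div_iff₀' hm0, div_eq_mul_one_div] at h3
  refine h3.trans ?_
  calc _ ≤ 20 * (cc Λ : ℝ) ^ 2 * (q / r) ^ ys.length * √(∑ x ∈ bl z (2 * r), u x ^ 2) * (q / r) := by
        gcongr
    _ = 20 * (cc Λ : ℝ) ^ 2 * q ^ (ys.length + 1) * √(∑ x ∈ bl z (2 * r), u x ^ 2) / r /
        r ^ ys.length := by rw [div_pow]; field_simp; ring
    _ ≤ _ := by gcongr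

/-- energy in a ball from a bound on the gradient -/
theorem en_le {z : Pt} {r : ℕ} (hr : 1 ≤ r) {v : Pt → ℝ} {L : ℝ}
    (h : ∀ y ∈ bl 0 r, |dif (1, 0) v (z + y)| ≤ L ∧ |dif (0, 1) v (z + y)| ≤ L) :
    eN nL (bl z r) v v ≤ 18 * (r : ℝ) ^ 2 * L ^ 2 := by
  have key : ∀ e : Pt, (∀ y ∈ bl 0 r, |dif e v (z + y)| ≤ L) →
      ∑ x ∈ (bl z r).filter (fun x => x + e ∈ bl z r), dif e v x * dif e v x ≤
        9 * (r : ℝ) ^ 2 * L ^ 2 := fun e he => by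
    refine (sum_le_sum_of_subset_of_nonneg (filter_subset _ _) fun _ _ _ => mul_self_nonneg _).trans ?_
    rw [← sum_bl]
    refine (sum_le_card_nsmul _ _ (L ^ 2) fun y hy => ?_).trans ?_
    · rw [← pow_two]; exact sq_le_sq' (abs_le.1 (he y hy)).1 (abs_le.1 (he y hy)).2
    · have : (1 : ℝ) ≤ r := by exact_mod_cast hr
      rw [card_bl, nsmul_eq_mul]
      push_cast
      gcongr
      nlinarith
  rw [eN_apply, nL_Jp, sum_pair (by decide)]
  linarith [key _ fun y hy => (h y hy).1, key _ fun y hy => (h y hy).2]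

/-- a symmetric harmonic function is flat to third order -/
theorem flat (h : Λ.Ok) {z : Pt} {u : Pt → ℝ} {K : ℝ} (hI : Inv z u) (hu : lapJ Λ.J u z = 0)
    (h3 : ∀ x ∈ bl z Λ.rg, ∀ e ∈ nn, ∀ e' ∈ nn, ∀ e'' ∈ nn, |difs [e, e', e''] u x| ≤ K) :
    (|dif (1, 0) u z| ≤ 11 * (Λ.rg : ℝ) ^ 3 * K ∧ |dif (0, 1) u z| ≤ 11 * (Λ.rg : ℝ) ^ 3 * K) ∧
      |difs [(1, 0), (1, 0)] u z| ≤ 23 * (Λ.rg : ℝ) ^ 3 * K ∧
      |difs [(0, 1), (0, 1)] u z| ≤ 23 * (Λ.rg : ℝ) ^ 3 * K ∧ |difs [(1, 0), (0, 1)] u z| ≤ K := by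
  have hg := h.one_le_rg
  have hg' : (1 : ℝ) ≤ Λ.rg := by exact_mod_cast hg
  have hK : 0 ≤ K := (abs_nonneg _).trans (h3 z (self_mem_bl _ _) _ e1_nn _ e1_nn _ e1_nn)
  have r : ∀ a b : ℤ, u (z + (-b, a)) = u (z + (a, b)) := fun a b => by
    rw [← (hI (z + (a, b))).1]; congr 1; ext <;> simp [rotZ, sub_eq_add_neg]
  have b1 := h3 (z + (-1, 0)) (bl_mono z hg (nn_bl (by decide) z)) _ e1_nn _ e1_nn _ e1_nn
  have b2 := h3 (z + (0, -1)) (bl_mono z hg (nn_bl (by decide) z)) _ e2_nn _ e2_nn _ e2_nn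
  have b3 := h3 (z + (-1, 0)) (bl_mono z hg (nn_bl (by decide) z)) _ e1_nn _ e1_nn _ e2_nn
  have r1 : u (z + (0, 1)) = u (z + (1, 0)) := r 1 0
  have r2 : u (z + (-1, 0)) = u (z + (0, 1)) := r 0 1
  have r3 : u (z + (0, -1)) = u (z + (-1, 0)) := r (-1) 0
  have r4 : u (z + (-1, 1)) = u (z + (1, 1)) := r 1 1
  set α := dif (1, 0) u z with hα
  have e0 : dif (0, 1) u z = α := by rw [hα, dif, dif, r1]
  have hz : z + (0, 0) = z := add_zero z
  have e1 : |difs [(1, 0), (1, 0)] u z - 2 * α| ≤ K := by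
    convert b1 using 2
    simp only [hα, difs, dif, add_assoc, Prod.mk_add_mk]
    norm_num [hz, r1, r2]
    ring
  have e2 : |difs [(0, 1), (0, 1)] u z - 2 * α| ≤ K := by
    convert b2 using 2
    simp only [hα, difs, dif, add_assoc, Prod.mk_add_mk]
    norm_num [hz, r1, r2, r3]
    ring
  have e3 : |2 * difs [(1, 0), (0, 1)] u z| ≤ K := by
    convert b3 using 2
    simp only [difs, dif, add_assoc, Prod.mk_add_mk]
    norm_num [hz, r1, r2, r4]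
    ring
  rw [abs_mul, abs_two] at e3
  have key : ∀ y ∈ Λ.J, |u (z + y) - u z - α * ((y.1 : ℝ) ^ 2 + y.2 ^ 2)| ≤
      11 * (Λ.rg : ℝ) ^ 3 * K := fun y hy => by
    have t := tay3 (y := y) (mem_bl_abs.2 (by simpa using Lat.le_rg hy)) h3
    have y1 : |(y.1 : ℝ)| ≤ Λ.rg := by exact_mod_cast (Lat.le_rg hy).1
    have y2 : |(y.2 : ℝ)| ≤ Λ.rg := by exact_mod_cast (Lat.le_rg hy).2
    have c : ∀ t s : ℝ, |t| ≤ Λ.rg → |s| ≤ K → |t * (t - 1) / 2 * s| ≤ (Λ.rg : ℝ) ^ 3 * K :=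
      fun t s ht hs => by
      rw [abs_mul]
      refine mul_le_mul ?_ hs (abs_nonneg _) (by positivity)
      rw [abs_div, abs_two, abs_mul]
      have := mul_le_mul ht ((abs_sub t 1).trans (add_le_add ht (abs_one.trans_le hg')))
        (abs_nonneg _) (by positivity)
      nlinarith [mul_nonneg (sub_nonneg.2 hg') (sq_nonneg (Λ.rg : ℝ))]
    have c1 := c _ _ y1 e1
    have c2 := c _ _ y2 e2
    have c3 : |(y.1 : ℝ) * y.2 * difs [(1, 0), (0, 1)] u z| ≤ (Λ.rg : ℝ) ^ 3 * K := by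
      rw [abs_mul, abs_mul]
      refine mul_le_mul ((mul_le_mul y1 y2 (abs_nonneg _) (by positivity)).trans (by nlinarith))
        (by linarith) (abs_nonneg _) (by positivity)
    rw [e0, ← hα] at t
    rw [abs_le] at t c1 c2 c3 ⊢
    constructor <;> nlinarith
  have hα' : |α| ≤ 11 * (Λ.rg : ℝ) ^ 3 * K := by
    have s1 := (abs_sum_le_sum_abs _ _).trans (sum_le_card_nsmul _ _ _ key)
    rw [sum_sub_distrib, ← mul_sum, show ∑ y ∈ Λ.J, (u (z + y) - u z) = 0 from hu, zero_sub, abs_neg,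
      abs_mul, nsmul_eq_mul] at s1
    have s2 := card_nsmul_le_sum Λ.J (fun y => (y.1 : ℝ) ^ 2 + y.2 ^ 2) 1 fun y hy => by
      rw [← eu_sq]; exact one_le_pow₀ (one_le_eu fun h0 => h.zero_not_mem (h0 ▸ hy))
    rw [nsmul_eq_mul, mul_one] at s2
    have s3 : (0 : ℝ) < Λ.J.card := by exact_mod_cast h.card_pos
    refine le_of_mul_le_mul_left (le_trans ?_ s1) s3
    rw [mul_comm]
    exact mul_le_mul_of_nonneg_left (s2.trans (le_abs_self _)) (abs_nonneg _)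
  have s4 : K ≤ (Λ.rg : ℝ) ^ 3 * K := le_mul_of_one_le_left hK (one_le_pow₀ hg')
  rw [e0]
  rw [abs_le] at hα' e1 e2
  refine ⟨⟨abs_le.2 hα', abs_le.2 hα'⟩, abs_le.2 ⟨?_, ?_⟩, abs_le.2 ⟨?_, ?_⟩, ?_⟩ <;> linarith

end Hj91

open Hj91 Ha91

theorem hjStmt : HjStmt := fun k J hJ => by
  have h0 := ok_of_adm hJ
  have hc := one_le_cc h0
  refine ⟨20 * (cc ⟨J, false, 1⟩ : ℝ) ^ 2 * (2 * (3 * k + 7) * cc ⟨J, false, 1⟩) ^ (k + 1),
    (3 * k + 7) * Lat.rg ⟨J, false, 1⟩, ?_, Nat.mul_pos (by omega) h0.one_le_rg, ?_⟩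
  · exact one_le_mul_of_one_le_of_one_le (by nlinarith) (one_le_pow₀
      (one_le_mul_of_one_le_of_one_le (by linarith [Nat.cast_nonneg (α := ℝ) k]) hc))
  · rintro Λ h rfl z r u hr hu
    exact hj h k z r u hr hu

theorem hStmt (hH : HjStmt) : HStmt := fun J hJ => by
  obtain ⟨C, r₀, hC, hr₀, hH⟩ := hH 3 J hJ
  obtain ⟨C', hC', hE⟩ := Ho14.part1 ⟨J, false, 1⟩
  set g := Lat.rg ⟨J, false, 1⟩ with hg
  have hg1 : (1 : ℝ) ≤ g := by exact_mod_cast (ok_of_adm hJ).one_le_rg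
  have hg3 : (1 : ℝ) ≤ 39 * g ^ 3 := by nlinarith [one_le_pow₀ (n := 3) hg1]
  set c : ℝ := 405 * C with hc
  have hc1 : 1 ≤ c := by linarith
  set A : ℝ := (1 + C') * 18 * (39 * (g : ℝ) ^ 3 * c) ^ 2 with hA
  have hcA : c ≤ A := by
    have : c ≤ 39 * (g : ℝ) ^ 3 * c := le_mul_of_one_le_left (by linarith) hg3
    nlinarith [mul_nonneg hC' (sq_nonneg (39 * (g : ℝ) ^ 3 * c))]
  refine ⟨A, 2 * r₀ + 2 * g, hc1.trans hcA, by omega, ?_⟩
  rintro Λ h rfl z r R u hR hr hrR hu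
  have hgΛ : g = Λ.rg := rfl
  set E := eN Λ (bl z R) u u with hE'
  have hE0 : 0 ≤ E := Po44.eN_nonneg _ _ _
  have hR8 : (8 : ℝ) ≤ R := by exact_mod_cast (show 8 ≤ R by omega)
  have hr1 : (1 : ℝ) ≤ r := by exact_mod_cast hr
  set w : Pt → ℝ := fun x => u x - av (bl z R) u with hw
  have hS : Sm 3 (bl z (R / 2)) (c * √E) R w := by
    have h1 := hH Λ h rfl z (R / 2) w (by omega) fun x hx => by
      rw [← hu x (bl_mono z (by omega) hx)]; simp [hw, lapJ]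
    have h2 : (R : ℝ) / 3 ≤ (R / 2 : ℕ) := by
      rw [div_le_iff₀ (by norm_num)]; exact_mod_cast (show R ≤ R / 2 * 3 by omega)
    have h3 := Po44.poin1 (z.1 - R, z.2 - R) (2 * R + 1) u
    rw [← bl_eq_sq] at h3
    have h4 : √(∑ x ∈ bl z (2 * (R / 2)), w x ^ 2) ≤ 5 * R * √E := by
      rw [Real.sqrt_le_left (by positivity), mul_pow, Real.sq_sqrt hE0]
      refine (sum_le_sum_of_subset_of_nonneg (bl_mono z (by omega)) fun _ _ _ => sq_nonneg _).trans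
        (h3.trans (mul_le_mul ?_ (eN_nL_le h _ u) (Po44.eN_nonneg _ _ _) (by positivity)))
      push_cast; nlinarith
    have h5 := (h1.scale (by positivity) h2).scale' (m := 3) (by positivity) (by norm_num)
    rw [mul_div_cancel₀ _ (by norm_num)] at h5
    refine h5.mono le_rfl Set.Subset.rfl ?_ (by positivity)
    calc _ ≤ C * (5 * R * √E) / (R / 3) * 3 ^ 3 := by gcongr
      _ = _ := by rw [hc]; field_simp; ring
  have hd : ∀ e, dif e w = dif e u := fun e => funext fun x => by simp [hw, dif]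
  have hb : ∀ {ρ : ℕ}, ρ ≤ R / 2 → ∀ x ∈ bl z ρ, x ∈ (bl z (R / 2) : Set Pt) := fun hρ x hx =>
    bl_mono z hρ hx
  have s1 : ∀ x ∈ bl z r, ∀ e ∈ nn, |dif e u x| ≤ c * √E / R := fun x hx e he =>
    hd e ▸ hS.one (by omega) he (hb (by omega) x hx)
  have s2 : ∀ x ∈ bl z r, ∀ e ∈ nn, ∀ e' ∈ nn, |dif e (dif e' u) x| ≤ c * √E / R ^ 2 :=
    fun x hx e he e' he' => hd e' ▸ hS.two (by omega) he he' (hb (by omega) x hx)
  have s3 : ∀ {ρ : ℕ}, ρ ≤ R / 2 → ∀ x ∈ bl z ρ, ∀ e ∈ nn, ∀ e' ∈ nn, ∀ e'' ∈ nn,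
      |difs [e, e', e''] u x| ≤ c * √E / R ^ 3 := fun hρ x hx e he e' he' e'' he'' => by
    simpa [difs, hd] using hS [e, e', e''] le_rfl (by simp [he, he', he'']) x (hb hρ x hx)
  have fin : ∀ (v : Pt → ℝ) (t : ℝ) (j : ℕ), 0 ≤ t → t ≤ 39 * (g : ℝ) ^ 3 →
      (∀ y ∈ bl 0 r, |dif (1, 0) v (z + y)| ≤ t * r ^ j * (c * √E / R ^ (j + 1)) ∧
        |dif (0, 1) v (z + y)| ≤ t * r ^ j * (c * √E / R ^ (j + 1))) →
      eN Λ (bl z r) v v ≤ A * ((r : ℝ) / R) ^ (2 * j + 2) * E := fun v t j t0 t1 hv => by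
    have h1 := hE (z.1 - r, z.2 - r) (2 * r + 1) v
    rw [← bl_eq_sq] at h1
    refine le_trans h1 ((mul_le_mul_of_nonneg_left (en_le hr hv) hC').trans ?_)
    calc _ = C' * 18 * (t * c) ^ 2 * ((r : ℝ) / R) ^ (2 * j + 2) * √E ^ 2 := by
          rw [div_pow]; field_simp; ring
      _ ≤ _ := by rw [Real.sq_sqrt hE0, hA]; gcongr; linarith
  have hz := self_mem_bl z r
  have hK : ∀ j : ℕ, 0 ≤ c * √E / R ^ j := fun j => by positivity
  refine ⟨hS.mono le_rfl Set.Subset.rfl (by gcongr) (by positivity),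
    fin u 1 0 zero_le_one hg3 fun y hy => ?_, fun i => ?_,
    fin _ 3 1 (by norm_num) (by nlinarith [one_le_pow₀ (n := 3) hg1]) fun y hy => ?_,
    fun hI => fin u _ 2 (by positivity) le_rfl fun y hy => ?_⟩
  · simpa using And.intro (s1 _ (add_mem_bl.2 hy) _ e1_nn) (s1 _ (add_mem_bl.2 hy) _ e2_nn)
  · have hi : ev i ∈ nn ∧ -ev i ∈ nn := by fin_cases i <;> decide
    have h1 := abs_le.1 (s1 z hz _ hi.1)
    have h2 := abs_le.1 (s1 z hz _ hi.2)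
    refine le_trans (abs_le.2 ⟨?_, ?_⟩) (show c * √E / R ≤ _ by gcongr) <;>
      simp only [pc, dif, sub_eq_add_neg z] at h1 h2 ⊢ <;> linarith [h1.1, h1.2, h2.1, h2.2]
  · have key : ∀ i, |dif (ev i) u (z + y) - pc z u i| ≤ 3 * r ^ 1 * (c * √E / R ^ (1 + 1)) := fun i => by
      have hi : ev i ∈ nn ∧ -ev i ∈ nn := by fin_cases i <;> decide
      have h1 := abs_le.1 (tay1 (u := dif (ev i) u) hy fun x hx =>
        ⟨s2 _ (add_mem_bl.2 hx) _ e1_nn _ hi.1, s2 _ (add_mem_bl.2 hx) _ e2_nn _ hi.1⟩)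
      have h2 := abs_le.1 (s2 z hz _ hi.2 _ hi.1)
      have h3 := mul_le_mul_of_nonneg_right hr1 (hK 2)
      have e : dif (-ev i) (dif (ev i) u) z = 2 * (pc z u i - dif (ev i) u z) := by
        simp only [pc, dif, sub_eq_add_neg z, neg_add_cancel_right]; ring
      rw [e] at h2
      rw [abs_le, pow_one]
      constructor <;> linarith [h1.1, h1.2, h2.1, h2.2, hK 2]
    refine ⟨le_of_eq_of_le ?_ (key 0), le_of_eq_of_le ?_ (key 1)⟩ <;> congr 1 <;>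
      simp [dif, cx, co, ev] <;> ring
  · obtain ⟨⟨f1, f2⟩, f3, f4, f5⟩ := flat h hI (hu z (self_mem_bl _ _)) (s3 (by omega))
    have y1 : |(y.1 : ℝ)| ≤ r := by exact_mod_cast (by simpa using (mem_bl_abs.1 hy).1 : |y.1| ≤ r)
    have y2 : |(y.2 : ℝ)| ≤ r := by exact_mod_cast (by simpa using (mem_bl_abs.1 hy).2 : |y.2| ≤ r)
    rw [← hgΛ] at f1 f2 f3 f4
    set K := c * √E / R ^ 3 with hK'
    have hK0 : 0 ≤ K := hK 3
    have b1 : K ≤ (g : ℝ) ^ 3 * K := le_mul_of_one_le_left hK0 (one_le_pow₀ hg1)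
    have b2 : (r : ℝ) ≤ r ^ 2 := by nlinarith
    have key : ∀ e ∈ nn, ∀ a b : ℝ, |dif e u z| ≤ 11 * (g : ℝ) ^ 3 * K → |dif (1, 0) (dif e u) z| ≤ a →
        |dif (0, 1) (dif e u) z| ≤ b → a + b ≤ 24 * (g : ℝ) ^ 3 * K →
        |dif e u (z + y)| ≤ 39 * (g : ℝ) ^ 3 * r ^ 2 * K := fun e he a b h1 h2 h3 h4 => by
      have h5 := abs_le.1 (tay2 (u := dif e u) hy fun x hx e' he' e'' he'' =>
        s3 (ρ := r) (by omega) x hx e' he' e'' he'' e he)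
      have h6 := abs_le.1 ((abs_mul _ _).trans_le (mul_le_mul y1 h2 (abs_nonneg _) (by positivity)))
      have h7 := abs_le.1 ((abs_mul _ _).trans_le (mul_le_mul y2 h3 (abs_nonneg _) (by positivity)))
      have h8 := mul_le_mul b2 h4 (add_nonneg ((abs_nonneg _).trans h2) ((abs_nonneg _).trans h3))
        (by positivity)
      have h9 := mul_le_mul_of_nonneg_left b1 (show 0 ≤ (r : ℝ) ^ 2 by positivity)
      have h10 := mul_le_mul_of_nonneg_right (hr1.trans b2) (hK0.trans b1)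
      rw [abs_le] at h1 ⊢
      constructor <;> nlinarith [h1.1, h1.2, h5.1, h5.2, h6.1, h6.2, h7.1, h7.2]
    exact ⟨key _ e1_nn _ K f1 f3 (by rw [dif_comm]; exact f5) (by linarith),
      key _ e2_nn _ _ f2 f5 f4 (by linarith)⟩

end Crest.Agent.T145.Pot
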