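import Crest.Agent.T145.PotD_17
import Crest.Agent.T145.PotHl_59

/-!
# Row 145 (helper59): harmonic measure from the middle of a condenser (`MesStmt`)
-/

set_option autoImplicit false

namespace Crest.Agent.T145.Pot

open Finset Crest.ProbabilityR.HeightModel

namespace Me59

variable {Λ : Lat}

theorem card_an (z : Pt) {r R : ℕ} (h : r ≤ R) :
    ((an z r R).card : ℝ) = (2 * R + 1) ^ 2 - (2 * r + 1) ^ 2 := by
  have := card_sdiff_add_card_eq_card (bl_mono z h)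
  rw [card_bl, card_bl] at this
  rw [eq_sub_iff_add_eq]; exact_mod_cast this

theorem an_mono (z : Pt) {r r' R R' : ℕ} (h : r' ≤ r) (h' : R ≤ R') : an z r R ⊆ an z r' R' :=
  sdiff_subset_sdiff (bl_mono z h') (bl_mono z h)

theorem av_const {S : Finset Pt} (hS : 0 < (S.card : ℝ)) {u : Pt → ℝ} {c : ℝ} (h : ∀ x ∈ S, u x = c) :
    av S u = c := by
  rw [av, sum_congr rfl h, sum_const, nsmul_eq_mul]; field_simp

theorem fat1 (z : Pt) {L : ℕ} (h : 16 ≤ L) : ((2 * L : ℕ) : ℝ) ^ 2 ≤ 4 * (an z L (3 * L / 2)).card := by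
  rw [card_an z (by omega)]
  have : (3 * L : ℝ) ≤ 2 * ((3 * L / 2 : ℕ) : ℝ) + 1 := by exact_mod_cast (by omega)
  have : (16 : ℝ) ≤ L := by exact_mod_cast h
  push_cast; nlinarith

theorem fat2 (z : Pt) {L : ℕ} (h : 1 ≤ L) : ((2 * L : ℕ) : ℝ) ^ 2 ≤ 4 * (an z L (2 * L)).card ∧
    0 < ((an z L (2 * L)).card : ℝ) := by
  rw [card_an z (by omega)]
  have : (1 : ℝ) ≤ L := by exact_mod_cast h
  push_cast; constructor <;> nlinarith

theorem fat3 (z : Pt) {r : ℕ} (h : 2 ≤ r) :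
    ((2 * r : ℕ) : ℝ) ^ 2 ≤ 4 * (an z (r / 2) (2 * (r / 2))).card := by
  rw [card_an z (by omega)]
  have : (r : ℝ) ≤ 3 * ((r / 2 : ℕ) : ℝ) := by exact_mod_cast (by omega)
  have : (2 : ℝ) ≤ r := by exact_mod_cast h
  push_cast; nlinarith

theorem sq2 {a b c x y w : ℝ} (h1 : a ^ 2 ≤ x) (h2 : b ^ 2 ≤ y) (h3 : c = a + b) (h4 : 2 * x + 2 * y ≤ w) :
    c ^ 2 ≤ w := by rw [h3]; nlinarith [sq_nonneg (a - b)]

theorem sq3 {a b c d x y w : ℝ} (h1 : (a - b) ^ 2 ≤ x) (h2 : (b - c) ^ 2 ≤ y) (h3 : (d - c) ^ 2 ≤ w) :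
    (a - d) ^ 2 ≤ 3 * x + 3 * y + 3 * w := by
  nlinarith [sq_nonneg (a - b - (b - c)), sq_nonneg (a - b - (c - d)), sq_nonneg (b - c - (c - d))]

/-- ring Poincaré inequality around the average over a fat subset -/
def Ring (C : ℝ) : Prop := ∀ (z : Pt) (r R : ℕ) (u : Pt → ℝ), 1 ≤ R → R ≤ 2 * (R - r) → ∀ S ⊆ an z r R,
  (R : ℝ) ^ 2 ≤ 4 * S.card → (av S u - av (an z r R) u) ^ 2 ≤ C * eN nL (an z r R) u u ∧
    ∑ x ∈ an z r R, (u x - av S u) ^ 2 ≤ C * (R : ℝ) ^ 2 * eN nL (an z r R) u u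

theorem ring (hA : AnnStmt) : ∃ C, 0 ≤ C ∧ Ring C := by
  obtain ⟨C, hC⟩ := hA.1 2
  refine ⟨74 * |C|, by positivity, fun z r R u hR h2 S hS hc => ?_⟩
  obtain ⟨h3, h4⟩ := hC z r R u h2 S hS
  set E := eN nL (an z r R) u u
  have hE : 0 ≤ E := (sy_eN _).nonneg _
  have hR' : (1 : ℝ) ≤ R := by exact_mod_cast hR
  have hCE : C * (R : ℝ) ^ 2 * E ≤ |C| * (R : ℝ) ^ 2 * E := by gcongr; exact le_abs_self C
  have h5 : (av S u - av (an z r R) u) ^ 2 ≤ 4 * |C| * E := by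
    refine le_of_mul_le_mul_left ?_ (show (0 : ℝ) < (R : ℝ) ^ 2 by positivity)
    nlinarith [mul_le_mul_of_nonneg_right hc (sq_nonneg (av S u - av (an z r R) u))]
  have h0 : 0 ≤ |C| * E := by positivity
  refine ⟨by nlinarith, ?_⟩
  have h6 : ((an z r R).card : ℝ) ≤ 9 * (R : ℝ) ^ 2 := by
    have : ((an z r R).card : ℝ) ≤ (bl z R).card := by exact_mod_cast card_le_card sdiff_subset
    rw [card_bl] at this; push_cast at this; nlinarith
  calc _ ≤ ∑ x ∈ an z r R, (2 * (u x - av (an z r R) u) ^ 2 + 2 * (av S u - av (an z r R) u) ^ 2) :=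
        sum_le_sum fun x _ => by
          nlinarith [sq_nonneg (u x - av (an z r R) u + (av S u - av (an z r R) u))]
    _ = 2 * ∑ x ∈ an z r R, (u x - av (an z r R) u) ^ 2 +
          2 * ((an z r R).card * (av S u - av (an z r R) u) ^ 2) := by
        rw [sum_add_distrib, ← mul_sum, sum_const, nsmul_eq_mul]; ring
    _ ≤ 2 * (|C| * (R : ℝ) ^ 2 * E) + 2 * (9 * (R : ℝ) ^ 2 * (4 * |C| * E)) := by
        gcongr; exact h3.trans hCE
    _ = _ := by ring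

/-- energy of a product with a cut-off that lives in an annulus -/
theorem energy_cut {z : Pt} {p q : ℕ} {O : Finset Pt} {ζ : Pt → ℝ} {δ : ℝ} (h1 : ∀ x, |ζ x| ≤ 1)
    (h2 : ∀ x ∈ bl z (p + Λ.rg), ζ x = 0)
    (h3 : ∀ e ∈ Λ.edT O, ζ e.1 ≠ 0 ∨ ζ e.2 ≠ 0 → e.1 ∈ bl z q ∧ e.2 ∈ bl z q)
    (h4 : ∀ x, ∀ y ∈ bl x Λ.rg, |ζ y - ζ x| ≤ δ) (u : Pt → ℝ) :
    eD Λ O (fun x => ζ x * u x) (fun x => ζ x * u x) ≤
      2 * eN Λ (an z p q) u u + 2 * (Λ.Jp.card * δ ^ 2 * ∑ x ∈ an z p q, u x ^ 2) := by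
  have key : ∀ e ∈ Λ.edT O, ζ e.1 ≠ 0 ∨ ζ e.2 ≠ 0 → e.1 ∈ an z p q ∧ e.2 ∈ an z p q := fun e he h => by
    have hJ := (Lat.mem_edT.1 he).1
    refine ⟨mem_an.2 ⟨(h3 e he h).1, fun h5 => ?_⟩, mem_an.2 ⟨(h3 e he h).2, fun h5 => ?_⟩⟩
    · exact h.elim (fun h => h (h2 _ (bl_mono z (by omega) h5)))
        fun h => h (h2 _ (bl_subset_bl h5 (by omega) (Lat.edge_near hJ)))
    · exact h.elim (fun h => h (h2 _ (bl_subset_bl h5 (by omega) (Lat.edge_near' hJ))))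
        fun h => h (h2 _ (bl_mono z (by omega) h5))
  refine edF_cut_le (fun e he => (Lat.mem_edT.1 he).1) h1 (fun e he h => key e he (Or.inl h))
    (fun e he h => ⟨(key e he ?_).2, h4 _ _ (Lat.edge_near (Lat.mem_edT.1 he).1)⟩) u
  by_contra h5
  push Not at h5
  exact h (h5.2.trans h5.1.symm)

theorem sum_cut_le {z : Pt} {p q : ℕ} {O : Finset Pt} {ζ : Pt → ℝ} (h1 : ∀ x, |ζ x| ≤ 1)
    (h2 : ∀ x ∈ O, ζ x ≠ 0 → x ∈ an z p q) (u : Pt → ℝ) :
    ∑ x ∈ O, (ζ x * u x) ^ 2 ≤ ∑ x ∈ an z p q, u x ^ 2 := by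
  rw [← sum_filter_of_ne (p := fun x => ζ x ≠ 0) fun x _ h h' => h (by simp [h'])]
  refine (sum_le_sum fun x _ => ?_).trans (sum_le_sum_of_subset_of_nonneg (fun x hx' => ?_)
    fun _ _ _ => sq_nonneg _)
  · rw [mul_pow]
    exact mul_le_of_le_one_left (sq_nonneg _) ((sq_le_one_iff_abs_le_one _).2 (h1 _))
  · rw [mem_filter] at hx'; exact h2 x hx'.1 hx'.2

theorem cut_mem (z : Pt) (k m : ℕ) (x : Pt) : 0 ≤ H59.cut z k m x ∧ H59.cut z k m x ≤ 1 :=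
  ⟨le_max_left _ _, max_le zero_le_one (min_le_left _ _)⟩

/-- pointwise bound for a harmonic extension by a competitor -/
theorem point (h : Λ.Ok) {CD CH : ℝ} {z y : Pt} {L ρ : ℕ} {D : Finset Pt} (hCD : 0 ≤ CD)
    (hD : ∀ u : Pt → ℝ, Sup (bl z L) u →
      ∑ x ∈ bl z L, u x ^ 2 ≤ CD * ((L : ℝ) + 1) ^ 2 * eD nL (bl z L) u u)
    (hH : ∀ u : Pt → ℝ, (∀ x ∈ bl y (2 * ρ), lapJ Λ.J u x = 0) →
      Sm 0 (bl y ρ) (CH * √(∑ x ∈ bl y (2 * ρ), u x ^ 2) / ρ) ρ u)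
    (hDO : D ⊆ bl z L) (hy : bl y (2 * ρ) ⊆ D) (hL : 1 ≤ L) (hρ : L ≤ 17 * ρ) (v : Pt → ℝ) {a b : ℝ}
    (ha : eD Λ (bl z L) v v ≤ a) (hb : ∑ x ∈ bl z L, v x ^ 2 ≤ (L : ℝ) ^ 2 * b) :
    hx D (eD Λ (bl z L)) v y ^ 2 ≤ 578 * CH ^ 2 * (4 * CD * a + b) := by
  have hc := (co_eD h (bl z L)).mono hDO
  set w := hx D (eD Λ (bl z L)) v
  have hL' : (1 : ℝ) ≤ L := by exact_mod_cast hL
  have hρ' : (L : ℝ) ≤ 17 * ρ := by exact_mod_cast hρ
  have hρ0 : (0 : ℝ) < ρ := by linarith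
  have h1 : eD nL (bl z L) (v - w) (v - w) ≤ a := by
    have := hc.hx_pyth (η := v) (u := v) fun _ _ => rfl
    linarith [eD_nL_le h (bl z L) (v - w), hc.nonneg w]
  have ha0 : 0 ≤ a := (hc.nonneg v).trans ha
  have h2 := hD (v - w) fun x hx' => by simp [w, hc.hx_off v fun h3 => hx' (hDO h3)]
  have h3 : ∑ x ∈ bl y (2 * ρ), w x ^ 2 ≤ 2 * (L : ℝ) ^ 2 * (4 * CD * a + b) :=
    calc _ ≤ ∑ x ∈ bl z L, w x ^ 2 :=
          sum_le_sum_of_subset_of_nonneg (hy.trans hDO) fun _ _ _ => sq_nonneg _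
      _ ≤ ∑ x ∈ bl z L, (2 * (v - w) x ^ 2 + 2 * v x ^ 2) := sum_le_sum fun x _ => by
          rw [Pi.sub_apply]; nlinarith [sq_nonneg (v x + (v x - w x))]
      _ ≤ 2 * (CD * (2 * (L : ℝ)) ^ 2 * a) + 2 * ((L : ℝ) ^ 2 * b) := by
          rw [sum_add_distrib, ← mul_sum, ← mul_sum]
          gcongr
          refine h2.trans ?_
          gcongr
          · exact (sy_eD _).nonneg _
          · linarith
      _ = _ := by ring
  have h4 := (hH w fun x hx' => (hm_eD h hDO).1 (hc.hx_hm v) x (hy hx')).zero (self_mem_bl y ρ)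
  have h5 := sq_le_sq' (abs_le.1 h4).1 (abs_le.1 h4).2
  rw [div_pow, mul_pow, Real.sq_sqrt (sum_nonneg fun _ _ => sq_nonneg _), le_div_iff₀ (by positivity)] at h5
  have h6 : 0 ≤ 4 * CD * a + b := by
    by_contra h7
    have := (sum_nonneg fun x _ => sq_nonneg (w x)).trans h3
    nlinarith [mul_pos (show 0 < 2 * (L : ℝ) ^ 2 by positivity) (neg_pos.2 (not_le.1 h7))]
  refine le_of_mul_le_mul_right (h5.trans ?_) (show (0 : ℝ) < (ρ : ℝ) ^ 2 by positivity)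
  calc _ ≤ CH ^ 2 * (2 * (17 * (ρ : ℝ)) ^ 2 * (4 * CD * a + b)) := by
        gcongr; exact h3.trans (by gcongr)
    _ = _ := by ring

/-- the outer competitor -/
theorem outer {C : ℝ} (hC : 0 ≤ C) (hR : Ring C) (h : Λ.Ok) (z : Pt) {L : ℕ} (hL : 16 * Λ.rg + 16 ≤ L)
    (u : Pt → ℝ) : ∃ v : Pt → ℝ, (∀ x ∈ bl z (L / 8), v x = 0) ∧
      (∀ x, x ∉ bl z L → v x = u x - av (an z L (3 * L / 2)) u) ∧
      eD Λ (bl z L) v v ≤ (2 + 200 * Λ.Jp.card * Λ.rg ^ 2 * C) * eN Λ (an z (L / 8) (2 * L)) u u ∧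
      ∑ x ∈ bl z L, v x ^ 2 ≤ (L : ℝ) ^ 2 * (4 * C * eN Λ (an z (L / 8) (2 * L)) u u) := by
  set ξ := av (an z L (3 * L / 2)) u
  set m := L / 4 with hm
  have hm0 : 0 < m := by omega
  set ζ : Pt → ℝ := fun x => 1 - H59.cut z 2 m x with hζ
  have h1 : ∀ x, |ζ x| ≤ 1 := fun x => abs_le.2 ⟨by simp only [hζ]; linarith [cut_mem z 2 m x],
    by simp only [hζ]; linarith [cut_mem z 2 m x]⟩
  have h2 : ∀ x ∈ bl z (L / 8 + Λ.rg), ζ x = 0 := fun x hx' => by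
    simp only [hζ]; rw [H59.cut_one hm0 (bl_mono z (by omega) hx'), sub_self]
  have h3 := (hR z (L / 8) (2 * L) u (by omega) (by omega) (an z L (3 * L / 2))
    (an_mono z (by omega) (by omega)) (fat1 z (by omega))).2
  set E := eN Λ (an z (L / 8) (2 * L)) u u
  have hE := eN_nL_le h (an z (L / 8) (2 * L)) u
  have h4 : ∑ x ∈ an z (L / 8) (2 * L), (u x - ξ) ^ 2 ≤ (L : ℝ) ^ 2 * (4 * C * E) :=
    h3.trans ((mul_le_mul_of_nonneg_left hE (by positivity)).trans_eq (by push_cast; ring))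
  refine ⟨fun x => ζ x * (u x - ξ), fun x hx' => mul_eq_zero_of_left (h2 x (bl_mono z (by omega) hx')) _,
    fun x hx' => ?_, ?_, (sum_cut_le h1 (fun x hx' h5 => mem_an.2 ⟨bl_mono z (by omega) hx',
      fun h6 => h5 (h2 x (bl_mono z (by omega) h6))⟩) _).trans h4⟩
  · simp only [hζ]
    rw [H59.cut_sup z 2 hm0 x fun h5 => hx' (bl_mono z (by omega) h5)]; ring
  · refine (energy_cut (p := L / 8) (q := 2 * L) (δ := Λ.rg / m) h1 h2 (fun e he _ => ?_)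
      (fun x y hy => ?_) _).trans ?_
    · obtain ⟨hJ, h5 | h5⟩ := Lat.mem_edT.1 he
      · exact ⟨bl_mono z (by omega) h5, bl_subset_bl h5 (by omega) (Lat.edge_near hJ)⟩
      · exact ⟨bl_subset_bl h5 (by omega) (Lat.edge_near' hJ), bl_mono z (by omega) h5⟩
    · simp only [hζ]
      rw [sub_sub_sub_cancel_left, abs_sub_comm]; exact H59.cut_lip z 2 hm0 hy
    · rw [eN, edF_sub_const', ← eN]
      have h5 : (L : ℝ) ≤ 5 * m := by exact_mod_cast (by omega)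
      have hE0 : 0 ≤ E := (sy_eN _).nonneg _
      have h6 : (Λ.Jp.card : ℝ) * (Λ.rg / m) ^ 2 * ∑ x ∈ an z (L / 8) (2 * L), (u x - ξ) ^ 2 ≤
          Λ.Jp.card * (Λ.rg / m) ^ 2 * ((5 * m) ^ 2 * (4 * C * E)) := by
        gcongr; exact h4.trans (by gcongr)
      have h7 : (Λ.Jp.card : ℝ) * (Λ.rg / m) ^ 2 * ((5 * m) ^ 2 * (4 * C * E)) =
          100 * Λ.Jp.card * Λ.rg ^ 2 * C * E := by field_simp; ring
      linarith

/-- the inner competitor -/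
theorem inner {C : ℝ} (hC : 0 ≤ C) (hR : Ring C) (h : Λ.Ok) (z : Pt) {r : ℕ} (hr : 8 * Λ.rg + 64 ≤ r)
    (O : Finset Pt) (u : Pt → ℝ) : ∃ v : Pt → ℝ, Sup (bl z (2 * r)) v ∧
      (∀ x ∈ bl z r, x ∉ bl z (r - Λ.rg) → v x = u x - av (an z (r / 2) (2 * (r / 2))) u) ∧
      eD Λ O v v ≤ (2 + 2592 * Λ.Jp.card * Λ.rg ^ 2 * C) * eN Λ (an z (r / 2) (2 * r)) u u ∧
      ∑ x ∈ O, v x ^ 2 ≤ (r : ℝ) ^ 2 * (4 * C * eN Λ (an z (r / 2) (2 * r)) u u) := by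
  set ξ := av (an z (r / 2) (2 * (r / 2))) u
  set m := r / 8 with hm
  have hm0 : 0 < m := by omega
  set ζ : Pt → ℝ := fun x => H59.cut z 9 m x - H59.cut z 5 m x with hζ
  have h1 : ∀ x, |ζ x| ≤ 1 := fun x =>
    abs_le.2 ⟨by simp only [hζ]; linarith [cut_mem z 9 m x, cut_mem z 5 m x],
      by simp only [hζ]; linarith [cut_mem z 9 m x, cut_mem z 5 m x]⟩
  have h2 : ∀ x ∈ bl z (r / 2 + Λ.rg), ζ x = 0 := fun x hx' => by
    simp only [hζ]
    rw [H59.cut_one hm0 (bl_mono z (by omega) hx'), H59.cut_one hm0 (bl_mono z (by omega) hx'), sub_self]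
  have h2' : ∀ x, ζ x ≠ 0 → x ∈ bl z (10 * m) := fun x hx' => by
    by_contra h5
    refine hx' ?_
    simp only [hζ]
    rw [H59.cut_sup z 9 hm0 x h5, H59.cut_sup z 5 hm0 x fun h6 => h5 (bl_mono z (by omega) h6), sub_self]
  have h3 := (hR z (r / 2) (2 * r) u (by omega) (by omega) (an z (r / 2) (2 * (r / 2)))
    (an_mono z le_rfl (by omega)) (fat3 z (by omega))).2
  set E := eN Λ (an z (r / 2) (2 * r)) u u
  have hE := eN_nL_le h (an z (r / 2) (2 * r)) u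
  have h4 : ∑ x ∈ an z (r / 2) (2 * r), (u x - ξ) ^ 2 ≤ (r : ℝ) ^ 2 * (4 * C * E) :=
    h3.trans ((mul_le_mul_of_nonneg_left hE (by positivity)).trans_eq (by push_cast; ring))
  refine ⟨fun x => ζ x * (u x - ξ), fun x hx' => ?_, fun x hx' hx'' => ?_, ?_,
    (sum_cut_le h1 (fun x _ h5 => mem_an.2 ⟨bl_mono z (by omega) (h2' x h5),
      fun h6 => h5 (h2 x (bl_mono z (by omega) h6))⟩) _).trans h4⟩
  · exact mul_eq_zero_of_left (by by_contra h5; exact hx' (bl_mono z (by omega) (h2' x h5))) _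
  · simp only [hζ]
    rw [H59.cut_one hm0 (bl_mono z (by omega) hx'),
      H59.cut_sup z 5 hm0 x fun h5 => hx'' (bl_mono z (by omega) h5)]; ring
  · refine (energy_cut (p := r / 2) (q := 2 * r) (δ := 2 * (Λ.rg / m)) h1 h2 (fun e he h5 => ?_)
      (fun x y hy => ?_) _).trans ?_
    · have hJ := (Lat.mem_edT.1 he).1
      rcases h5 with h5 | h5
      · exact ⟨bl_mono z (by omega) (h2' _ h5), bl_subset_bl (h2' _ h5) (by omega) (Lat.edge_near hJ)⟩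
      · exact ⟨bl_subset_bl (h2' _ h5) (by omega) (Lat.edge_near' hJ), bl_mono z (by omega) (h2' _ h5)⟩
    · simp only [hζ]
      have h5 := abs_le.1 (H59.cut_lip z 9 hm0 hy)
      have h6 := abs_le.1 (H59.cut_lip z 5 hm0 hy)
      exact abs_le.2 ⟨by linarith [h5.1, h6.2], by linarith [h5.2, h6.1]⟩
    · rw [eN, edF_sub_const', ← eN]
      have h5 : (r : ℝ) ≤ 9 * m := by exact_mod_cast (by omega)
      have hE0 : 0 ≤ E := (sy_eN _).nonneg _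
      have h6 : (Λ.Jp.card : ℝ) * (2 * (Λ.rg / m)) ^ 2 * ∑ x ∈ an z (r / 2) (2 * r), (u x - ξ) ^ 2 ≤
          Λ.Jp.card * (2 * (Λ.rg / m)) ^ 2 * ((9 * m) ^ 2 * (4 * C * E)) := by
        gcongr; exact h4.trans (by gcongr)
      have h7 : (Λ.Jp.card : ℝ) * (2 * (Λ.rg / m)) ^ 2 * ((9 * m) ^ 2 * (4 * C * E)) =
          1296 * Λ.Jp.card * Λ.rg ^ 2 * C * E := by field_simp; ring
      linarith

/-- only the outer layer of the inner set is seen from outside -/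
theorem ex_layer (h : Λ.Ok) {z : Pt} {r : ℕ} {O : Finset Pt} {g v : Pt → ℝ} (hv : Sup O v)
    (hg : ∀ x ∈ bl z r, x ∉ bl z (r - Λ.rg) → v x = g x) (hr : Λ.rg ≤ r) {x : Pt} (hx' : x ∉ bl z r) :
    ex (bl z r) O (eD Λ O) g x = hx (O \ bl z r) (eD Λ O) v x := by
  have hc := (co_eD h O).sd (bl z r)
  have h0 : ∀ y, y ∉ bl z (r - Λ.rg) → on (bl z r) (g - v) y = 0 := fun y hy => by
    by_cases h1 : y ∈ bl z r
    · rw [on_of_mem h1, Pi.sub_apply, hg y h1 hy, sub_self]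
    · exact on_of_not h1
  have h1 : ex (bl z r) O (eD Λ O) g = hx (O \ bl z r) (eD Λ O) v + on (bl z r) (g - v) := by
    refine hc.hx_unique (fun y hy => ?_) ((hm_eD h sdiff_subset).2 fun y hy => ?_)
    · rw [Pi.add_apply, hc.hx_off _ hy]
      by_cases h1 : y ∈ bl z r
      · simp [on_of_mem h1]
      · rw [on_of_not h1, on_of_not h1, hv y fun h2 => hy (mem_sdiff.2 ⟨h2, h1⟩), add_zero]
    · have hy' := (mem_sdiff.1 hy).2
      rw [lapJ_add, Pi.add_apply, (hm_eD h sdiff_subset).1 (hc.hx_hm v) y hy, zero_add]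
      refine sum_eq_zero fun j hj => ?_
      rw [on_of_not hy', h0, sub_self]
      intro h2
      have h3 : y ∈ bl (y + j) Λ.rg := mem_bl_comm.1 (mem_bl_abs.2 (by simpa using Lat.le_rg hj))
      exact hy' (bl_subset_bl h2 (by omega) h3)
  rw [h1, Pi.add_apply, on_of_not hx', add_zero]

theorem chg_layer (h : Λ.Ok) {z : Pt} {r : ℕ} {O : Finset Pt} (hO : bl z r ⊆ O) (hr : Λ.rg ≤ r) {x : Pt}
    (hx' : x ∈ bl z (r - Λ.rg)) : chg (bl z r) O (eD Λ O) 1 x = 0 := by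
  have h1 := bl_mono z (Nat.sub_le r Λ.rg) hx'
  rw [chg, on_of_mem h1, op_eD h (hO h1), neg_eq_zero]
  refine sum_eq_zero fun j hj => ?_
  have h3 : x + j ∈ bl x Λ.rg := mem_bl_abs.2 (by simpa using Lat.le_rg hj)
  rw [(co_eD h O).ex_on _ h1, (co_eD h O).ex_on _ (bl_subset_bl hx' (by omega) h3)]
  simp

theorem log_le {r L : ℕ} (hr : 2 ≤ r) (hL : r ≤ L) :
    1 + Real.log (((2 * L : ℕ) : ℝ) / ((r / 2 : ℕ) : ℝ)) ≤ 6 * (1 + Real.log (L / r)) ∧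
      0 ≤ Real.log ((L : ℝ) / r) := by
  have h1 : (r : ℝ) ≤ 3 * ((r / 2 : ℕ) : ℝ) := by exact_mod_cast (by omega)
  have h2 : (2 : ℝ) ≤ r := by exact_mod_cast hr
  have h3 : (r : ℝ) ≤ L := by exact_mod_cast hL
  have h4 : 0 ≤ Real.log ((L : ℝ) / r) := Real.log_nonneg (by rwa [one_le_div (by linarith)])
  have h5 : Real.log (((2 * L : ℕ) : ℝ) / ((r / 2 : ℕ) : ℝ)) ≤ Real.log (6 * ((L : ℝ) / r)) := by
    refine Real.log_le_log (div_pos (by push_cast; linarith) (by linarith)) ?_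
    rw [← mul_div_assoc, div_le_div_iff₀ (by linarith) (by linarith)]
    push_cast; nlinarith
  rw [Real.log_mul (by norm_num) (div_pos (by linarith) (by linarith)).ne'] at h5
  exact ⟨by linarith [Real.log_le_sub_one_of_pos (show (0 : ℝ) < 6 by norm_num)], h4⟩

end Me59

open Me59

set_option maxHeartbeats 400000 in
theorem mesStmt (hA : AnnStmt) (hH : HjStmt) : MesStmt := by
  intro J hJ
  obtain ⟨CR, hCR, hR⟩ := ring hA
  obtain ⟨CD, hD⟩ := hA.2.1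
  obtain ⟨CL, hL⟩ := hA.2.2
  obtain ⟨CH, rH, -, -, hH⟩ := hH 0 J hJ
  set Λ₀ : Lat := ⟨J, false, 1⟩
  obtain ⟨K2, hK2⟩ : ∃ K2 : ℝ, K2 = 2 + 2592 * Λ₀.Jp.card * Λ₀.rg ^ 2 * CR := ⟨_, rfl⟩
  obtain ⟨K4, hK4⟩ : ∃ K4 : ℝ, K4 = 578 * CH ^ 2 * (4 * |CD| * K2 + 4 * CR) := ⟨_, rfl⟩
  obtain ⟨K5, hK5⟩ : ∃ K5 : ℝ, K5 = 18 * |CL| + 6 * CR := ⟨_, rfl⟩
  have hK2' : 0 ≤ K2 := by rw [hK2]; positivity
  have hK4' : 0 ≤ K4 := by rw [hK4]; positivity
  have hK5' : 0 ≤ K5 := by rw [hK5]; positivity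
  have hK6 : 0 ≤ K2 * |CL| := by positivity
  refine ⟨1 + 2 * K4 + 2 * K5 + 12 * (K2 * |CL|), 8 * Λ₀.rg + 64 + 2 * rH, by linarith, by omega, ?_⟩
  intro Λ h hJ' z r L hr hrL x hx' u I O ξ
  obtain ⟨-, -, -, -, -, e1, -, e2⟩ := J_congr (Λ := Λ) (Λ' := Λ₀) hJ'
  rw [← e1] at hr hK2
  rw [← e2] at hK2
  have hc := co_eD h O
  have hM : Mk (eD Λ O) := mk_eD O
  have hIO : I ⊆ O := bl_mono z (by omega)
  have hne : I.Nonempty := ⟨z, self_mem_bl _ _⟩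
  have hpt : ∀ (D : Finset Pt) (y : Pt), D ⊆ O → bl y (2 * (L / 16)) ⊆ D → ∀ (v : Pt → ℝ) (E : ℝ),
      eD Λ O v v ≤ K2 * E → ∑ x ∈ O, v x ^ 2 ≤ (L : ℝ) ^ 2 * (4 * CR * E) →
      hx D (eD Λ O) v y ^ 2 ≤ K4 * E := fun D y h1 h2 v E h3 h4 =>
    (point h (abs_nonneg CD) (fun u hu => (hD z L u hu).trans (by
      gcongr
      · exact (sy_eD _).nonneg _
      · exact le_abs_self _)) (fun u hu => hH Λ h hJ' y (L / 16) u (by omega) hu) h1 h2 (by omega)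
      (by omega) v h3 h4).trans_eq (by rw [hK4]; ring)
  have hxD : bl x (2 * (L / 16)) ⊆ O \ I := fun y hy => by
    rw [mem_an] at hx'
    refine mem_sdiff.2 ⟨bl_subset_bl hx'.1 (by omega) hy, fun h1 => hx'.2 ?_⟩
    exact bl_subset_bl h1 (by omega) (mem_bl_comm.1 hy)
  have hxI : x ∉ I := (mem_sdiff.1 (hxD (self_mem_bl _ _))).2
  obtain ⟨v, hv1, hv2, hv3, hv4⟩ := outer hCR hR h z (L := L) (by omega) u
  obtain ⟨v', hw1, hw2, hw3, hw4⟩ := inner hCR hR h z (r := r) (by omega) O u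
  set ξ' := av (an z (r / 2) (2 * (r / 2))) u
  set E₁ := eN Λ (an z (L / 8) (2 * L)) u u
  set E := eN Λ (an z (r / 2) (2 * L)) u u
  have hE₁ : 0 ≤ E₁ := (sy_eN _).nonneg _
  have hE : 0 ≤ E := (sy_eN _).nonneg _
  have hE1 : E₁ ≤ E := eN_mono (an_mono z (by omega) le_rfl) u
  have hE0 : eN Λ (an z (r / 2) (2 * r)) u u ≤ E := eN_mono (an_mono z le_rfl (by omega)) u
  have hv3' : eD Λ O v v ≤ K2 * E₁ := hv3.trans (mul_le_mul_of_nonneg_right (by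
    have : (0 : ℝ) ≤ Λ.Jp.card * Λ.rg ^ 2 * CR := by positivity
    rw [hK2]; linarith) hE₁)
  have hw3' : eD Λ O v' v' ≤ K2 * E :=
    hw3.trans (by rw [← hK2]; exact mul_le_mul_of_nonneg_left hE0 hK2')
  have hw4' : ∑ x ∈ O, v' x ^ 2 ≤ (L : ℝ) ^ 2 * (4 * CR * E) := hw4.trans (mul_le_mul
    (pow_le_pow_left₀ (Nat.cast_nonneg _) (Nat.cast_le.2 (by omega)) 2)
    (mul_le_mul_of_nonneg_left hE0 (by positivity))
    (mul_nonneg (by positivity) ((sy_eN _).nonneg _)) (by positivity))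
  have hw1' : Sup O v' := hw1.mono (bl_mono z (by omega))
  obtain ⟨hl1, hl0⟩ := log_le (r := r) (L := L) (by omega) (by omega)
  set ℓ := 1 + Real.log ((L : ℝ) / r)
  have hℓ : 1 ≤ ℓ := by simp only [ℓ]; linarith
  clear_value ℓ
  have hCL : 0 ≤ 6 * |CL| * ℓ := by positivity
  have hL' : ∀ w : Pt → ℝ, (av (an z (r / 2) (2 * (r / 2))) w - av (an z L (2 * L)) w) ^ 2 ≤
      6 * |CL| * ℓ * eN nL (an z (r / 2) (2 * L)) w w := fun w => by
    have h1 := hL z (r / 2) (2 * L) w (by omega) (by omega)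
    rw [show 2 * L / 2 = L by omega] at h1
    have h2 : 0 ≤ 1 + Real.log (((2 * L : ℕ) : ℝ) / ((r / 2 : ℕ) : ℝ)) := by
      have : ((r / 2 : ℕ) : ℝ) ≤ ((2 * L : ℕ) : ℝ) := by exact_mod_cast (by omega)
      have h3 : (0 : ℝ) < ((r / 2 : ℕ) : ℝ) := by exact_mod_cast (by omega)
      linarith [Real.log_nonneg ((one_le_div h3).2 this)]
    refine h1.trans (mul_le_mul_of_nonneg_right ?_ ((sy_eN _).nonneg _))
    calc _ ≤ |CL| * (6 * ℓ) := mul_le_mul (le_abs_self _) hl1 h2 (abs_nonneg _)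
      _ = _ := by ring
  have hξ : (ξ' - ξ) ^ 2 ≤ K5 * ℓ * E := by
    have h1 := (hL' u).trans (mul_le_mul_of_nonneg_left (eN_nL_le h _ u) hCL)
    have h2 := (hR z (L / 8) (2 * L) u (by omega) (by omega) (an z L (3 * L / 2))
      (an_mono z (by omega) (by omega)) (fat1 z (by omega))).1
    have h3 := (hR z (L / 8) (2 * L) u (by omega) (by omega) (an z L (2 * L))
      (an_mono z (by omega) le_rfl) (fat2 z (by omega)).1).1
    have h4 : CR * eN nL (an z (L / 8) (2 * L)) u u ≤ CR * ℓ * E := by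
      rw [mul_assoc]
      exact mul_le_mul_of_nonneg_left (((eN_nL_le h _ u).trans hE1).trans (le_mul_of_one_le_left hE hℓ)) hCR
    exact (sq3 h1 (h3.trans h4) (h2.trans h4)).trans_eq (by rw [hK5]; ring)
  have hℓE : E ≤ ℓ * E := le_mul_of_one_le_left hE hℓ
  clear_value E E₁ ξ'
  refine ⟨?_, ?_, ?_, ?_⟩
  · have h1 : exo I O (eD Λ O) (u - ξ • 1) = hx (O \ I) (eD Λ O) v :=
      (hc.sd I).hx_congr fun y hy => by
        by_cases h2 : y ∈ I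
        · rw [off_of_mem h2, hv1 y (bl_mono z (by omega) h2)]
        · rw [off_of_not h2, hv2 y fun h3 => hy (mem_sdiff.2 ⟨h3, h2⟩)]; simp [ξ]
    have h2 := hpt _ x sdiff_subset hxD v E₁ hv3' hv4
    rw [← h1, hc.exo_sub, hc.exo_smul, Pi.sub_apply, Pi.smul_apply, smul_eq_mul, mul_comm ξ] at h2
    exact h2.trans (by gcongr; linarith)
  · have h1 := ex_layer h (g := u - ξ' • 1) hw1' (fun y hy hy' => by rw [hw2 y hy hy']; simp)
      (by omega) hxI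
    have h2 := hpt _ x sdiff_subset hxD v' E hw3' hw4'
    rw [← h1, hc.ex_sub, hc.ex_smul, Pi.sub_apply, Pi.smul_apply, smul_eq_mul] at h2
    have h3 := (sq_le_one_iff_abs_le_one _).2
      (hc.abs_ex_le hM (K := I) (φ := 1) zero_le_one (fun _ _ => by simp) x)
    have h4 : (ex I O (eD Λ O) 1 x * (ξ' - ξ)) ^ 2 ≤ K5 * ℓ * E := by
      rw [mul_pow]; exact (mul_le_of_le_one_left (sq_nonneg _) h3).trans hξ
    have h5 : K4 * E ≤ K4 * (ℓ * E) := by gcongr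
    have h6 : 0 ≤ (1 + 12 * (K2 * |CL|)) * (ℓ * E) := by positivity
    exact sq2 h2 h4 (by ring) (by linarith)
  · have hcap := hc.cap_pos hIO hne
    have h1 : ip I (chg I O (eD Λ O) 1) (u - ξ' • 1) = eD Λ O (ex I O (eD Λ O) 1) v' :=
      hc.ip_chg hIO 1 hw1' fun y hy h2 => by
        rw [hw2 y hy fun h3 => h2 (chg_layer h hIO (by omega) h3)]; simp
    have h2 : 1 ≤ 6 * |CL| * ℓ * cap I O (eD Λ O) := by
      have h3 := hL' (ex I O (eD Λ O) 1)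
      have hs := hc.ex_sup hIO 1
      rw [av_const (c := 1) (fat2 z (by omega)).2
          (fun y hy => hc.ex_on 1 (bl_mono z (by omega) (mem_an.1 hy).1)),
        av_const (c := 0) (fat2 z (by omega)).2 (fun y hy => hs y (mem_an.1 hy).2)] at h3
      rw [hc.cap_eq hIO, ← eD_of_sup h (bl_mono z (show L ≤ 2 * L by omega)) _ hs]
      refine (by simpa using h3 : (1 : ℝ) ≤ _).trans (mul_le_mul_of_nonneg_left ?_ hCL)
      exact ((eN_nL_le h _ _).trans (eN_mono sdiff_subset _)).trans (eN_le_eD _ _)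
    have h3 : ip I (eqm I O (eD Λ O)) u - ξ' = (cap I O (eD Λ O))⁻¹ * eD Λ O (ex I O (eD Λ O) 1) v' := by
      rw [← h1, ← ip_smul_left, ← eqm, ip_sub_right, ip_smul_right,
        show ip I (eqm I O (eD Λ O)) 1 = 1 by simpa [ip] using hc.sum_eqm hIO hne, mul_one]
    have h4 := hc.toSy.cs (ex I O (eD Λ O) 1) v'
    rw [← hc.cap_eq hIO] at h4
    have h5 : (ip I (eqm I O (eD Λ O)) u - ξ') ^ 2 ≤ 6 * (K2 * |CL|) * (ℓ * E) := by
      rw [h3, mul_pow]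
      replace h4 := h4.trans (mul_le_mul_of_nonneg_left hw3' hcap.le)
      generalize cap I O (eD Λ O) = c at h2 h4 hcap ⊢
      generalize eD Λ O (ex I O (eD Λ O) 1) v' = a at h4 ⊢
      calc _ ≤ c⁻¹ ^ 2 * (c * (K2 * E)) := by gcongr
        _ = c⁻¹ * 1 * (K2 * E) := by field_simp
        _ ≤ c⁻¹ * (6 * |CL| * ℓ * c) * (K2 * E) := by gcongr
        _ = _ := by field_simp
    have h6 : 0 ≤ (1 + 2 * K4) * (ℓ * E) := by positivity
    exact sq2 h5 hξ (by ring) (by linarith)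
  · have h1 : hx O (eD Λ O) u - ξ • 1 = hx O (eD Λ O) v := by
      refine (hc.hx_unique (fun y hy => ?_) fun w hw => ?_).symm
      · rw [Pi.sub_apply, hc.hx_off _ hy, hv2 y hy]; simp [ξ]
      · rw [map_sub, LinearMap.sub_apply, hc.hx_hm u w hw, map_smul, LinearMap.smul_apply]
        simp [eD, edF_apply]
    have h2 : ip I (eqm I O (eD Λ O)) (hx O (eD Λ O) u) - ξ =
        ip I (eqm I O (eD Λ O)) (hx O (eD Λ O) v) := by
      rw [← h1, ip_sub_right, ip_smul_right,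
        show ip I (eqm I O (eD Λ O)) 1 = 1 by simpa [ip] using hc.sum_eqm hIO hne, mul_one]
    have h3 := hc.abs_ip_eqm_le hM hIO hne (u := hx O (eD Λ O) v) (M := √(K4 * E₁)) fun y hy =>
      Real.abs_le_sqrt (hpt O y Subset.rfl (bl_subset_bl hy (by omega)) v E₁ hv3' hv4)
    rw [h2]
    refine (sq_le_sq' (abs_le.1 h3).1 (abs_le.1 h3).2).trans ?_
    rw [Real.sq_sqrt (by positivity)]
    gcongr; linarith

end Crest.Agent.T145.Pot
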