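import Crest.Agent.T145.PotD_17
import Crest.Agent.T145.PotPo_44
import Crest.Agent.T145.PotHa_91

/-!
# Row 145 (helper14): `ChgStmt`, `MulStmt` (swept charges and multipoles)
-/

set_option autoImplicit false

namespace Crest.Agent.T145.Pot

open Finset Crest.ProbabilityR.HeightModel

namespace Mu14

variable {Λ : Lat}

theorem f2_mono {ed : Finset (Pt × Pt)} {f : Pt → ℝ} {n m : ℝ} (h : F2 ed f n) (hnm : n ≤ m) :
    F2 ed f m := h.imp fun _ h' => ⟨h'.1, h'.2.trans hnm⟩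

theorem edF_lt {ed : Finset (Pt × Pt)} {S : Finset Pt} (hL : Lt Λ ed S) (u : Pt → ℝ) {v : Pt → ℝ}
    (hv : Sup S v) : edF ed u v = eD Λ S u v := by
  rw [eD, edF_apply, edF_apply]
  refine (sum_subset (fun e he => ?_) fun e he he' => ?_).symm
  · rw [Lat.mem_edT] at he; exact (hL e he.2).2 he.1
  · have h1 : ¬(e.1 ∈ S ∨ e.2 ∈ S) := fun h => he' (Lat.mem_edT.2 ⟨(hL e h).1 he, h⟩)
    rw [not_or] at h1
    simp [hv _ h1.1, hv _ h1.2]

theorem cut_en {S T : Finset Pt} {ζ : Pt → ℝ} {L : ℝ} (h1 : ∀ x, |ζ x| ≤ 1)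
    (h2 : ∀ x, ζ x ≠ 0 → bl x Λ.rg ⊆ T)
    (h3 : ∀ e : Pt × Pt, e.2 - e.1 ∈ Λ.Jp → |ζ e.2 - ζ e.1| ≤ L) (u : Pt → ℝ) (c : ℝ) :
    eD Λ S (fun x => ζ x * (u x - c)) (fun x => ζ x * (u x - c)) ≤
      2 * eN Λ T u u + 2 * (Λ.Jp.card * L ^ 2 * ∑ x ∈ T, (u x - c) ^ 2) := by
  have := edF_cut_le (Λ := Λ) (ed := Λ.edT S) (fun e he => (Lat.mem_edT.1 he).1) (S := T) (S' := T)
    h1 (fun e he h => ⟨h2 _ h (self_mem_bl _ _), h2 _ h (Lat.edge_near (Lat.mem_edT.1 he).1)⟩)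
    (fun e he h => ⟨by
      by_cases h4 : ζ e.1 = 0
      · exact h2 _ (by rwa [h4] at h) (self_mem_bl _ _)
      · exact h2 _ h4 (Lat.edge_near (Lat.mem_edT.1 he).1), h3 e (Lat.mem_edT.1 he).1⟩)
    fun x => u x - c
  rwa [eN, edF_sub_const'] at this

theorem cut_lip : ∃ K : ℝ, 0 ≤ K ∧ ∀ (Λ : Lat) (c : Pt) (a b : ℝ), a < b → ∀ e : Pt × Pt,
    e.2 - e.1 ∈ Λ.Jp → |cut c a b e.2 - cut c a b e.1| ≤ 2 * Λ.rg * (K / (b - a)) := by
  obtain ⟨K, hK, h⟩ := sm_cut 1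
  refine ⟨K, hK, fun Λ c a b hab e he => ?_⟩
  have := (tayStmt Λ.rg (cut c a b) e.1 (e.2 - e.1)
    (mem_bl_abs.2 (by simpa using Lat.le_rg (Lat.mem_Jp.1 he).1))).1 (K / (b - a))
    fun x _ e' he' => (h c a b hab).one le_rfl he' trivial
  rwa [add_sub_cancel] at this

theorem ip_sub_const {I : Finset Pt} {q : Pt → ℝ} (h : ∑ x ∈ I, q x = 0) (u : Pt → ℝ) (c : ℝ) :
    ip I q u = ip I q fun x => u x - c := by
  simp only [ip, mul_sub, sum_sub_distrib, ← sum_mul, h]; ring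

end Mu14

set_option maxHeartbeats 1000000 in
open Mu14 in
theorem chgStmt (hA : AnnStmt) : ChgStmt := by
  obtain ⟨K, hK, hlip⟩ := cut_lip
  obtain ⟨Ca, hCa⟩ := hA.1 2
  intro J hJ
  obtain ⟨g, hg⟩ : ∃ g : ℝ, (interactionRange J : ℝ) = g := ⟨_, rfl⟩
  obtain ⟨p, hp⟩ : ∃ p : ℝ, ((J.filter posD).card : ℝ) = p := ⟨_, rfl⟩
  have hg0 : 0 ≤ g := hg ▸ Nat.cast_nonneg _
  have hp0 : 0 ≤ p := hp ▸ Nat.cast_nonneg _
  refine ⟨(2 + 2 * (p * (2 * g * K) ^ 2 * 98)) * (2 + 2 * (p * (10 * g * K) ^ 2 * (9 * |Ca|))),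
    8 * interactionRange J + 1, ?_, by omega, ?_⟩
  · have h1 : 0 ≤ p * (2 * g * K) ^ 2 * 98 := by positivity
    have h2 : 0 ≤ p * (10 * g * K) ^ 2 * (9 * |Ca|) := by positivity
    nlinarith [mul_nonneg h1 h2]
  rintro Λ hΛ rfl z r A ed φ hr hzA hCo hL hφ h0
  change 8 * Λ.rg + 1 ≤ r at hr
  change (Λ.rg : ℝ) = g at hg
  change (Λ.Jp.card : ℝ) = p at hp
  have hr0 : (0 : ℝ) < r := by exact_mod_cast (by omega : 0 < r)
  have hr1 : (1 : ℝ) ≤ r := by exact_mod_cast (by omega : 1 ≤ r)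
  have h3 : bl z r ⊆ bl z (3 * r) := bl_mono z (by omega)
  have hIA := h3.trans hzA
  set q := chg (bl z r) A (edF ed) φ with hq
  set U := an z (r / 2) (3 * r)
  have hq0 : ∀ x, q x ≠ 0 → x ∈ bl z r ∧ x ∉ bl z (r - Λ.rg) := fun x hx => by
    have h1 : x ∈ bl z r := by by_contra h; exact hx (chg_sup φ x h)
    refine ⟨h1, fun h2 => hx ?_⟩
    have h4 : bl x Λ.rg ⊆ bl z r := bl_subset_bl h2 (by omega)
    rw [hq, chg, on_of_mem h1, hL.op hΛ (h3 h1), neg_eq_zero, ← hφ x h4]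
    refine sum_congr rfl fun y hy => ?_
    rw [hCo.ex_on φ h1, hCo.ex_on φ (h4 (mem_bl_abs.2 (by simpa using Lat.le_rg hy)))]
  have hab : (r : ℝ) < 2 * r := by linarith
  have hc1 : ∀ x, cut z r (2 * r) x ≠ 0 → x ∈ bl z (2 * r) := fun x hx => by
    by_contra h; exact hx (cut_zero hab (by push_cast; linarith) h)
  have hl1 : ∀ e : Pt × Pt, e.2 - e.1 ∈ Λ.Jp →
      |cut z r (2 * r) e.2 - cut z r (2 * r) e.1| ≤ 2 * g * K / r := fun e he =>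
    (hlip Λ z _ _ hab e he).trans_eq (by rw [hg, show 2 * (r : ℝ) - r = r by ring]; ring)
  have key : ∀ (ζ u : Pt → ℝ) (c : ℝ), (∀ x, ζ x ≠ 0 → x ∈ bl z (3 * r)) → (∀ x, q x ≠ 0 → ζ x = 1) →
      ip (bl z r) q u ^ 2 ≤ edF ed (ex (bl z r) A (edF ed) φ) (ex (bl z r) A (edF ed) φ) *
        eD Λ (bl z (3 * r)) (fun x => ζ x * (u x - c)) fun x => ζ x * (u x - c) := by
    intro ζ u c h1 h2
    have hs : Sup (bl z (3 * r)) fun x => ζ x * (u x - c) := fun x hx => by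
      have : ζ x = 0 := by by_contra h; exact hx (h1 x h)
      simp [this]
    rw [ip_sub_const h0 u c, hCo.ip_chg hIA φ (hs.mono hzA) fun x _ h => by rw [h2 x h, one_mul],
      ← edF_lt hL _ hs]
    exact hCo.toSy.cs _ _
  set E := edF ed (ex (bl z r) A (edF ed) φ) (ex (bl z r) A (edF ed) φ) with hE
  have hE0 : 0 ≤ E := hCo.nonneg _
  have hN0 := (sy_eN (Λ := Λ) (bl z (3 * r))).nonneg φ
  have hE1 : E ≤ (2 + 2 * (p * (2 * g * K) ^ 2 * 98)) * eN Λ (bl z (3 * r)) φ φ := by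
    have h1 := key (cut z r (2 * r)) φ (av (bl z (3 * r)) φ)
      (fun x hx => bl_mono z (by omega) (hc1 x hx)) fun x hx => cut_one hab le_rfl (hq0 x hx).1
    rw [hCo.ip_chg_ex hIA, ← hE] at h1
    have h2 := cut_en (S := bl z (3 * r)) (T := bl z (3 * r)) (abs_cut_le z r (2 * r))
      (fun x hx => bl_subset_bl (hc1 x hx) (by omega)) hl1 φ (av (bl z (3 * r)) φ)
    have h4 : ∑ x ∈ bl z (3 * r), (φ x - av (bl z (3 * r)) φ) ^ 2 ≤
        98 * (r : ℝ) ^ 2 * eN Λ (bl z (3 * r)) φ φ := by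
      have h5 := eN_nL_le hΛ (bl z (3 * r)) φ
      have h6 := (sy_eN (Λ := nL) (bl z (3 * r))).nonneg φ
      rw [bl_eq_sq] at h5 h6 ⊢
      refine (Po44.poin1 _ _ φ).trans (mul_le_mul ?_ h5 h6 (by positivity))
      push_cast; nlinarith
    have h5 : (Λ.Jp.card : ℝ) * (2 * g * K / r) ^ 2 * ∑ x ∈ bl z (3 * r), (φ x - av (bl z (3 * r)) φ) ^ 2
        ≤ p * (2 * g * K) ^ 2 * 98 * eN Λ (bl z (3 * r)) φ φ :=
      (mul_le_mul_of_nonneg_left h4 (by positivity)).trans_eq (by rw [hp]; field_simp)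
    rcases hE0.eq_or_lt with h6 | h6
    · rw [← h6]; positivity
    · rw [pow_two] at h1
      linarith [le_of_mul_le_mul_left h1 h6]
  have hU : Sup (an z (r / 2) r) q := fun x hx => by
    by_contra h
    exact hx (mem_an.2 ⟨(hq0 x h).1, fun h' => (hq0 x h).2 (bl_mono z (by omega) h')⟩)
  have hUU : an z (r / 2) r ⊆ U := sdiff_subset_sdiff h3 Subset.rfl
  refine f2_of_dual (U := U) (fun e he => (Lat.mem_edI.1 he).2) (hU.mono hUU) (by positivity)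
    fun u => ?_
  have hba : ((r / 2 + Λ.rg : ℕ) : ℝ) + r / 4 ≤ ((r - Λ.rg : ℕ) : ℝ) := by
    have : 4 * (r / 2 + Λ.rg) + r ≤ 4 * (r - Λ.rg) := by omega
    have h' : (4 : ℝ) * ((r / 2 + Λ.rg : ℕ) : ℝ) + r ≤ 4 * ((r - Λ.rg : ℕ) : ℝ) := by exact_mod_cast this
    linarith
  set a : ℝ := ((r / 2 + Λ.rg : ℕ) : ℝ)
  set b : ℝ := ((r - Λ.rg : ℕ) : ℝ)
  have hab' : a < b := by linarith
  set ζ : Pt → ℝ := fun x => cut z r (2 * r) x - cut z a b x with hζ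
  have hζ1 : ∀ x, ζ x ≠ 0 → bl x Λ.rg ⊆ U := fun x hx => by
    have h1 : x ∈ bl z (2 * r) := by
      by_contra h
      exact hx (by
        rw [hζ]; simp only
        rw [cut_zero hab (by push_cast; linarith) h, cut_zero hab' (R := r - Λ.rg) (by linarith)
          fun h' => h (bl_mono z (by omega) h'), sub_zero])
    have h2 : x ∉ bl z (r / 2 + Λ.rg) := fun h => hx (by
      rw [hζ]; simp only
      rw [cut_one hab le_rfl (bl_mono z (by omega) h), cut_one hab' le_rfl h, sub_self])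
    intro w hw
    exact mem_an.2 ⟨bl_subset_bl h1 (by omega) hw,
      fun h => h2 (bl_subset_bl h (by omega) (mem_bl_comm.1 hw))⟩
  have h1 := key ζ u (av U u) (fun x hx => (mem_an.1 (hζ1 x hx (self_mem_bl _ _))).1) fun x hx => by
    rw [hζ]; simp only
    rw [cut_one hab le_rfl (hq0 x hx).1, cut_zero hab' (by linarith) (hq0 x hx).2, sub_zero]
  have h2 := cut_en (S := bl z (3 * r)) (T := U) (ζ := ζ) (L := 10 * g * K / r)
    (fun x => abs_le.2 ⟨by linarith [cut_nonneg z r (2 * r) x, cut_le_one z a b x],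
      by linarith [cut_le_one z r (2 * r) x, cut_nonneg z a b x]⟩) hζ1 (fun e he => by
      have h4 := hlip Λ z _ _ hab' e he
      have h5 : K / (b - a) ≤ K / (r / 4) := by gcongr; linarith
      have h6 : 2 * (Λ.rg : ℝ) * (K / (b - a)) ≤ 2 * g * (K / (r / 4)) := by rw [hg]; gcongr
      calc _ = |(cut z r (2 * r) e.2 - cut z r (2 * r) e.1) - (cut z a b e.2 - cut z a b e.1)| := by
            rw [hζ]; ring_nf
        _ ≤ 2 * g * K / r + 2 * g * (K / (r / 4)) :=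
            (abs_sub _ _).trans (add_le_add (hl1 e he) (h4.trans h6))
        _ = _ := by field_simp; ring) u (av U u)
  have hM0 := (sy_eN (Λ := Λ) U).nonneg u
  have h4 : ∑ x ∈ U, (u x - av U u) ^ 2 ≤ 9 * |Ca| * (r : ℝ) ^ 2 * eN Λ U u u := by
    have h6 := (sy_eN (Λ := nL) U).nonneg u
    refine (hCa z (r / 2) (3 * r) u (by omega) ∅ (empty_subset _)).1.trans
      (mul_le_mul ?_ (eN_nL_le hΛ U u) h6 (by positivity))
    push_cast; nlinarith [le_abs_self Ca, sq_nonneg (r : ℝ)]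
  have h5 : (Λ.Jp.card : ℝ) * (10 * g * K / r) ^ 2 * ∑ x ∈ U, (u x - av U u) ^ 2
      ≤ p * (10 * g * K) ^ 2 * (9 * |Ca|) * eN Λ U u u :=
    (mul_le_mul_of_nonneg_left h4 (by positivity)).trans_eq (by rw [hp]; field_simp)
  rw [ip_comm, ip_of_sup hUU _ hU, ← ip_of_sup (A := bl z r) (A' := an z (r / 2) r) sdiff_subset _ hU,
    ip_comm]
  refine h1.trans ((mul_le_mul hE1 (show _ ≤ (2 + 2 * (p * (10 * g * K) ^ 2 * (9 * |Ca|))) *
    eN Λ U u u by linarith) ((sy_eD _).nonneg _) (by positivity)).trans_eq ?_)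
  rw [eN, eN]; ring

namespace Mu14

variable {Λ : Lat}

theorem edF_ori (σ : Pt ≃ Pt) (ed : Finset (Pt × Pt)) (u v : Pt → ℝ) :
    edF (ed.map (ori σ).toEmbedding) u v = edF ed (u ∘ σ) (v ∘ σ) := by
  rw [edF_apply, edF_apply, sum_map]
  refine sum_congr rfl fun e _ => ?_
  rcases ori_cases σ e with h | h <;> simp only [Equiv.coe_toEmbedding, h, Function.comp_apply]
  ring

theorem eD_sym (hΛ : Λ.Ok) {σ : Pt ≃ Pt} (h : Λ.Sym σ) {D : Finset Pt}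
    (hD : D.map σ.toEmbedding = D) (u v : Pt → ℝ) : eD Λ D u v = eD Λ D (u ∘ σ) (v ∘ σ) := by
  rw [eD, ← edF_ori, ← h.edT_map hΛ, hD]

theorem sym_rot (hΛ : Λ.Ok) (z : Pt) : Λ.Sym (rotZ z) :=
  Lat.sym_of (fun x y h => by
      convert hΛ.rot h using 1; exact Prod.ext (by simp [rotZ]) (by simp [rotZ]))
    fun x y h => by
      convert hΛ.neg (hΛ.rot h) using 1; exact Prod.ext (by simp [rotZ]) (by simp [rotZ])

theorem sym_swp (hΛ : Λ.Ok) (z : Pt) : Λ.Sym (swpZ z) :=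
  Lat.sym_of (fun x y h => by
      convert hΛ.swap h using 1; exact Prod.ext (by simp [swpZ]) (by simp [swpZ]))
    fun x y h => by
      convert hΛ.swap h using 1; exact Prod.ext (by simp [swpZ]) (by simp [swpZ])

theorem map_bl_rot (z : Pt) (n : ℕ) : (bl z n).map (rotZ z).toEmbedding = bl z n := by
  ext x; rw [mem_map_equiv, mem_bl, mem_bl]; simp only [rotZ, Equiv.coe_fn_symm_mk]; omega

theorem map_bl_swp (z : Pt) (n : ℕ) : (bl z n).map (swpZ z).toEmbedding = bl z n := by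
  ext x; rw [mem_map_equiv, mem_bl, mem_bl]; simp only [swpZ, Equiv.coe_fn_symm_mk]; omega

theorem rot4 (z x : Pt) : rotZ z (rotZ z (rotZ z (rotZ z x))) = x := by ext <;> simp [rotZ]

theorem swp_swp (z x : Pt) : swpZ z (swpZ z x) = x := by ext <;> simp [swpZ]

theorem swp_rot (z x : Pt) : swpZ z (rotZ z x) = rotZ z (rotZ z (rotZ z (swpZ z x))) := by
  ext <;> simp [swpZ, rotZ]

theorem ro4_rot (z : Pt) (f : Pt → ℝ) (x : Pt) : ro4 z f (rotZ z x) = ro4 z f x := by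
  simp only [ro4, rot4]; ring

theorem inv_sy8 (z : Pt) (f : Pt → ℝ) : Inv z (sy8 z f) := fun x =>
  ⟨by simp only [sy8, swp_rot, ro4_rot], by simp only [sy8, swp_swp, add_comm]⟩

theorem ro4_eq (z : Pt) (f : Pt → ℝ) : ro4 z f = (4 : ℝ)⁻¹ •
    (f + f ∘ rotZ z + (f ∘ rotZ z) ∘ rotZ z + ((f ∘ rotZ z) ∘ rotZ z) ∘ rotZ z) := by
  funext x; simp [ro4, div_eq_inv_mul]

theorem sy8_eq (z : Pt) (f : Pt → ℝ) : sy8 z f = (2 : ℝ)⁻¹ • (ro4 z f + ro4 z f ∘ swpZ z) := by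
  funext x; simp [sy8, div_eq_inv_mul]

/-- linear equivariant maps commute with the symmetrisation -/
theorem map_sy8 {z : Pt} {T : (Pt → ℝ) → Pt → ℝ} (h1 : ∀ f g, T (f + g) = T f + T g)
    (h2 : ∀ (c : ℝ) f, T (c • f) = c • T f) (h3 : ∀ f, T (f ∘ rotZ z) = T f ∘ rotZ z)
    (h4 : ∀ f, T (f ∘ swpZ z) = T f ∘ swpZ z) (f : Pt → ℝ) : T (sy8 z f) = sy8 z (T f) := by
  simp only [sy8_eq, ro4_eq, h1, h2, h3, h4]

theorem sy_sy8 {z : Pt} {B : Bf Pt} (h : Sy B) (h3 : ∀ f, B (f ∘ rotZ z) (f ∘ rotZ z) = B f f)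
    (h4 : ∀ f, B (f ∘ swpZ z) (f ∘ swpZ z) = B f f) (f : Pt → ℝ) :
    B (sy8 z f) (sy8 z f) ≤ B f f := by
  have h1 : ∀ f g, B (f + g) (f + g) ≤ 2 * B f f + 2 * B g g := fun f g => by
    have := h.add_le f g one_pos
    norm_num at this ⊢; linarith
  have h2 : ∀ (c : ℝ) f, B (c • f) (c • f) = c ^ 2 * B f f := fun c f => by
    simp only [map_smul, LinearMap.smul_apply, smul_eq_mul]; ring
  have h5 : B (ro4 z f) (ro4 z f) ≤ B f f := by
    rw [ro4_eq, h2, add_assoc]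
    have a1 := h1 (f + f ∘ rotZ z) ((f ∘ rotZ z) ∘ rotZ z + ((f ∘ rotZ z) ∘ rotZ z) ∘ rotZ z)
    have a2 := h1 f (f ∘ rotZ z)
    have a3 := h1 ((f ∘ rotZ z) ∘ rotZ z) (((f ∘ rotZ z) ∘ rotZ z) ∘ rotZ z)
    simp only [h3] at a2 a3
    linarith
  have a1 := h1 (ro4 z f) (ro4 z f ∘ swpZ z)
  rw [h4] at a1
  rw [sy8_eq, h2]
  linarith

theorem sum_comp {σ : Pt ≃ Pt} {I : Finset Pt} (h : I.map σ.toEmbedding = I) (f : Pt → ℝ) :
    ∑ x ∈ I, (f ∘ σ) x = ∑ x ∈ I, f x := by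
  conv_rhs => rw [← h, sum_map]
  rfl

theorem sum_sy8 (z : Pt) (n : ℕ) (f : Pt → ℝ) : ∑ x ∈ bl z n, sy8 z f x = ∑ x ∈ bl z n, f x := by
  have := congrFun (map_sy8 (z := z) (T := fun f _ => ∑ x ∈ bl z n, f x)
    (fun f g => by funext; simp [sum_add_distrib]) (fun c f => by funext; simp [mul_sum])
    (fun f => funext fun _ => sum_comp (map_bl_rot z n) f)
    (fun f => funext fun _ => sum_comp (map_bl_swp z n) f) f) z
  rw [this]; simp only [sy8, ro4]; ring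

theorem cx_sub (z : Pt) (i : Fin 2) (x y : Pt) : cx z i y - cx z i x = co i (y - x) := by
  fin_cases i <;> simp [cx, co]

theorem lapJ_cx (hΛ : Λ.Ok) (z : Pt) (i : Fin 2) (x : Pt) : lapJ Λ.J (cx z i) x = 0 := by
  simp only [lapJ, cx_sub, add_sub_cancel_left, hΛ.sum_J]
  exact sum_eq_zero fun y _ => by fin_cases i <;> simp [co]

theorem eN_cx (z w : Pt) (i : Fin 2) (n : ℕ) : eN Λ (bl w n) (cx z i) (cx z i) ≤
    2 * ((2 * n + 1) ^ 2 * Λ.Jp.card) * (Λ.rg : ℝ) ^ 2 := by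
  rw [eN, edF_self]
  refine (sum_le_card_nsmul _ _ ((Λ.rg : ℝ) ^ 2) fun e he => ?_).trans ?_
  · have := Lat.le_rg (Lat.mem_Jp.1 (Lat.mem_edI.1 he).1).1
    have h1 : |((e.2 - e.1).1 : ℝ)| ≤ Λ.rg := by exact_mod_cast this.1
    have h2 : |((e.2 - e.1).2 : ℝ)| ≤ Λ.rg := by exact_mod_cast this.2
    rw [cx_sub]
    refine sq_le_sq.2 ?_
    rw [Nat.abs_cast]
    fin_cases i
    · exact h1
    · exact h2
  · rw [nsmul_eq_mul]
    refine mul_le_mul_of_nonneg_right ?_ (sq_nonneg _)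
    have := (card_le_card (Lat.edI_subset_edT (Λ := Λ) (bl w n))).trans (Lat.card_edT_le _)
    rw [card_bl] at this
    exact_mod_cast this

end Mu14

set_option maxHeartbeats 1000000 in
open Mu14 in
theorem mulStmt (hC : ChgStmt) (hH : HStmt) : MulStmt := by
  intro J hJ
  obtain ⟨C1, r1, a1, b1, h1⟩ := hC J hJ
  obtain ⟨C2, r2, a2, b2, h2⟩ := hH J hJ
  obtain ⟨g, hg⟩ : ∃ g : ℝ, (interactionRange J : ℝ) = g := ⟨_, rfl⟩
  obtain ⟨p, hp⟩ : ∃ p : ℝ, ((J.filter posD).card : ℝ) = p := ⟨_, rfl⟩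
  have hp0 : 0 ≤ p := hp ▸ Nat.cast_nonneg _
  have c1 : 0 ≤ C1 * (98 * p * g ^ 2) := by positivity
  have c2 : C2 ≤ C1 * C2 := le_mul_of_one_le_left (by linarith) a1
  obtain ⟨C, hCC⟩ : ∃ C, C = 729 * (C1 * C2) + C1 * (98 * p * g ^ 2) := ⟨_, rfl⟩
  refine ⟨C, r1 + r2, by linarith, by omega, ?_⟩
  rintro Λ hΛ rfl z r R hr hR I D U ζ
  change (Λ.rg : ℝ) = g at hg
  change (Λ.Jp.card : ℝ) = p at hp
  have hr1 : (1 : ℝ) ≤ r := by exact_mod_cast (by omega : 1 ≤ r)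
  have hCo := co_eD hΛ D
  have hID : I ⊆ D := bl_mono z (by omega)
  have h3D : bl z (3 * r) ⊆ D := bl_mono z (by omega)
  have hch : ∀ φ : Pt → ℝ, (∀ x ∈ D, lapJ Λ.J φ x = 0) → ∑ x ∈ I, chg I D (eD Λ D) φ x = 0 →
      F2 U (chg I D (eD Λ D) φ) (C1 * eN Λ (bl z (3 * r)) φ φ) := fun φ c1 c2 =>
    h1 Λ hΛ rfl z r D (Λ.edT D) φ (by omega) h3D hCo (lt_edT Λ h3D)
      (fun x hx => c1 x (hID (hx (self_mem_bl _ _)))) c2
  have hBr := eD_sym hΛ (sym_rot hΛ z) (map_bl_rot z R)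
  have hBs := eD_sym hΛ (sym_swp hΛ z) (map_bl_swp z R)
  have hcr : ∀ φ, chg I D (eD Λ D) (φ ∘ rotZ z) = chg I D (eD Λ D) φ ∘ rotZ z := fun φ => by
    rw [← hCo.chg_equiv _ hBr, map_bl_rot, map_bl_rot]
  have hcs : ∀ φ, chg I D (eD Λ D) (φ ∘ swpZ z) = chg I D (eD Λ D) φ ∘ swpZ z := fun φ => by
    rw [← hCo.chg_equiv _ hBs, map_bl_swp, map_bl_swp]
  have z1 : ζ 0 ∘ rotZ z = -ζ 1 := by
    rw [← hcr, ← neg_one_smul ℝ, ← hCo.chg_smul]; congr 1; funext x; simp [cx, co, rotZ]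
  have z2 : ζ 1 ∘ rotZ z = ζ 0 := by rw [← hcr]; congr 1; funext x; simp [cx, co, rotZ]
  have z3 : ζ 0 ∘ swpZ z = ζ 1 := by rw [← hcs]; congr 1; funext x; simp [cx, co, swpZ]
  have z4 : ζ 1 ∘ swpZ z = ζ 0 := by rw [← hcs]; congr 1; funext x; simp [cx, co, swpZ]
  have hs : ∀ i, ∑ x ∈ I, ζ i x = 0 := by
    have s1 := sum_comp (I := I) (map_bl_rot z r) (ζ 0)
    have s2 := sum_comp (I := I) (map_bl_rot z r) (ζ 1)
    rw [z1] at s1
    rw [z2] at s2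
    simp only [Pi.neg_apply, sum_neg_distrib] at s1
    exact Fin.forall_fin_two.2 ⟨by linarith, by linarith⟩
  refine ⟨⟨fun i => f2_mono (hch _ (fun x _ => lapJ_cx hΛ z i x) (hs i)) ?_, z1, z2, z3, z4⟩, ?_⟩
  · have := eN_cx (Λ := Λ) z z i (3 * r)
    rw [hg, hp] at this
    have h4 : (2 * ((3 * r : ℕ) : ℝ) + 1) ^ 2 ≤ 49 * (r : ℝ) ^ 2 := by push_cast; nlinarith
    calc _ ≤ C1 * (2 * (49 * (r : ℝ) ^ 2 * p) * g ^ 2) := by gcongr; exact this.trans (by gcongr)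
      _ = C1 * (98 * p * g ^ 2) * (r : ℝ) ^ 2 := by ring
      _ ≤ _ := by gcongr; linarith
  intro ψ p1 p2 p3 P E δ
  have hP : ∀ x ∈ D, lapJ Λ.J P x = 0 := (hm_eD hΛ Subset.rfl).1 (hCo.hx_hm ψ)
  have hδ : δ = chg I D (eD Λ D) P := by
    have e1 : ex I D (eD Λ D) P = P - ψ := hCo.ex_unique (fun x hx => by simp [p1 x hx])
      (fun x hx => by simp [P, hCo.hx_off ψ hx]) ((hm_eD hΛ sdiff_subset).2 fun x hx => by
        rw [lapJ_sub, Pi.sub_apply, hP x (mem_sdiff.1 hx).1, p2 x hx, sub_zero])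
    rw [chg, e1]
    exact on_congr fun x hx => by
      rw [op_eD hΛ (hID hx), lapJ_sub, Pi.sub_apply, hP x (hID hx)]; ring
  have hδ0 : ∑ x ∈ I, δ x = 0 := p3 ▸ sum_congr rfl fun x hx => on_of_mem hx
  have hPE : eD Λ D P P ≤ E := hCo.hx_min fun _ _ => rfl
  have hE0 : 0 ≤ E := hCo.nonneg _
  have hfin : ∀ (φ : Pt → ℝ) (k : ℕ), k ≤ 6 → eD Λ D φ φ ≤ E → ∀ t : ℝ,
      t ≤ C2 * (((3 * r : ℕ) : ℝ) / R) ^ k * eN Λ D φ φ → C1 * t ≤ C * ((r : ℝ) / R) ^ k * E := by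
    intro φ k hk e1 t e2
    have e3 := (eN_le_eD D φ).trans e1
    have e4 : (3 : ℝ) ^ k ≤ 729 := (pow_le_pow_right₀ (by norm_num) hk).trans (by norm_num)
    calc _ ≤ C1 * (C2 * (((3 * r : ℕ) : ℝ) / R) ^ k * E) := by gcongr; exact e2.trans (by gcongr)
      _ = 3 ^ k * (C1 * C2) * ((r : ℝ) / R) ^ k * E := by push_cast; rw [mul_div_assoc, mul_pow]; ring
      _ ≤ 729 * (C1 * C2) * ((r : ℝ) / R) ^ k * E := by gcongr
      _ ≤ _ := by gcongr; linarith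
  obtain ⟨-, H1, H2, H3, -⟩ := h2 Λ hΛ rfl z (3 * r) R P (by omega) (by omega) (by omega) hP
  refine ⟨hδ, fun i => (H2 i).trans ?_, ?_, ?_, ?_⟩
  · have := (eN_le_eD D P).trans hPE
    have : C2 ≤ C := by linarith
    have : 0 ≤ C := by linarith
    gcongr
  · rw [hδ] at hδ0 ⊢
    exact f2_mono (hch P hP hδ0) (hfin P 2 (by norm_num) hPE _ H1)
  · have e1 : δ - ∑ i, pc z P i • ζ i = chg I D (eD Λ D) (P - ∑ i, pc z P i • cx z i) := by
      simp only [Fin.sum_univ_two, hCo.chg_sub, hCo.chg_add, hCo.chg_smul, hδ, ζ]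
    rw [e1]
    refine f2_mono (hch _ (fun x hx => ?_) ?_) (hfin P 4 (by norm_num) hPE _ H3)
    · simp only [Fin.sum_univ_two, lapJ_sub, lapJ_add, lapJ_smul, Pi.sub_apply, Pi.add_apply,
        Pi.smul_apply, lapJ_cx hΛ, hP x hx, smul_zero, add_zero, sub_zero]
    · rw [← e1]
      simp only [Fin.sum_univ_two, Pi.sub_apply, Pi.add_apply, Pi.smul_apply, smul_eq_mul,
        sum_sub_distrib, sum_add_distrib, ← mul_sum, hs, hδ0, mul_zero, add_zero, sub_zero]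
  · have e1 : sy8 z δ = chg I D (eD Λ D) (sy8 z P) := by
      rw [hδ, map_sy8 hCo.chg_add hCo.chg_smul hcr hcs]
    have e2 : ∀ x ∈ D, lapJ Λ.J (sy8 z P) x = 0 := by
      rw [← map_sy8 (T := hx D (eD Λ D)) hCo.hx_add hCo.hx_smul
        (fun f => by rw [← hCo.hx_equiv _ hBr, map_bl_rot])
        (fun f => by rw [← hCo.hx_equiv _ hBs, map_bl_swp])]
      exact (hm_eD hΛ Subset.rfl).1 (hCo.hx_hm _)
    rw [e1]
    refine f2_mono (hch _ e2 (by rw [← e1, sum_sy8, hδ0])) (hfin (sy8 z P) 6 le_rfl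
      ((sy_sy8 hCo.toSy (fun f => (hBr f f).symm) (fun f => (hBs f f).symm) P).trans hPE) _ ?_)
    exact (h2 Λ hΛ rfl z (3 * r) R _ (by omega) (by omega) (by omega) e2).2.2.2.2 (inv_sy8 z P)

end Crest.Agent.T145.Pot
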