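import Crest.Agent.T145.Def_97

/-!
# Row 145: deterministic potential theory, abstract layer (helper17)

`B : Bf V` is a bilinear form on `V → ℝ`, `A` the finite set of free sites.  `Co A B` = symmetric, nonnegative,
definite on functions supported in `A`.  `gr A B f` = Green potential, `G A B f g` = Green form (the covariance of
the Gaussian field with energy `B / 2` pinned off `A`), `hx A B η` = harmonic extension, `Mk B` = Markov property.
-/

set_option autoImplicit false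

namespace Crest.Agent.T145.Pot

open Finset

/-- bilinear forms on real functions -/
abbrev Bf (V : Type*) : Type _ := (V → ℝ) →ₗ[ℝ] (V → ℝ) →ₗ[ℝ] ℝ

section defs
variable {V : Type*}

/-- gradient along an edge -/
def dr (e : V × V) : (V → ℝ) →ₗ[ℝ] ℝ :=
  (LinearMap.proj e.2 : (V → ℝ) →ₗ[ℝ] ℝ) - (LinearMap.proj e.1 : (V → ℝ) →ₗ[ℝ] ℝ)

/-- weighted sum of squares of linear functionals -/
noncomputable def sqF {ι : Type*} (T : Finset ι) (c : ι → ℝ) (ℓ : ι → (V → ℝ) →ₗ[ℝ] ℝ) : Bf V :=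
  ∑ j ∈ T, c j • (LinearMap.mul ℝ ℝ).compl₁₂ (ℓ j) (ℓ j)

/-- Dirichlet form of a set of edges (unit conductances) -/
noncomputable def edF (ed : Finset (V × V)) : Bf V := sqF ed (fun _ => 1) dr

/-- site masses -/
noncomputable def msF (S : Finset V) (κ : V → ℝ) : Bf V :=
  sqF S κ fun x => (LinearMap.proj x : (V → ℝ) →ₗ[ℝ] ℝ)

/-- `u` vanishes off `A` -/
def Sup (A : Finset V) (u : V → ℝ) : Prop := ∀ x, x ∉ A → u x = 0

/-- pairing on `A` -/
def ip (A : Finset V) (f u : V → ℝ) : ℝ := ∑ x ∈ A, f x * u x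

/-- symmetric and nonnegative -/
structure Sy (B : Bf V) : Prop where
  symm : ∀ u v, B u v = B v u
  nonneg : ∀ u, 0 ≤ B u u

/-- symmetric, nonnegative, definite on the functions supported in `A` -/
structure Co (A : Finset V) (B : Bf V) : Prop extends Sy B where
  defn : ∀ u, Sup A u → B u u = 0 → u = 0

/-- Markov (Beurling-Deny) property -/
def Mk (B : Bf V) : Prop := ∀ (u : V → ℝ) (φ ψ : ℝ → ℝ), Monotone φ → Monotone ψ →
  (∀ t, 0 ≤ φ t * ψ t) → 0 ≤ B (fun x => φ (u x)) (fun x => ψ (u x))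

/-- Green potential of the charge `f` -/
noncomputable def gr (A : Finset V) (B : Bf V) (f : V → ℝ) : V → ℝ :=
  Classical.epsilon fun u => Sup A u ∧ ∀ v, Sup A v → B u v = ip A f v

/-- Green form -/
noncomputable def G (A : Finset V) (B : Bf V) (f g : V → ℝ) : ℝ := ip A f (gr A B g)

/-- unit charge at `x` -/
abbrev dl [DecidableEq V] (x : V) : V → ℝ := Pi.single x 1

/-- the operator of the form (`-Δ u` for `edF`) -/
def op [DecidableEq V] (B : Bf V) (u : V → ℝ) : V → ℝ := fun x => B u (dl x)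

/-- harmonic extension into `A` of the values of `η` off `A` -/
noncomputable def hx [DecidableEq V] (A : Finset V) (B : Bf V) (η : V → ℝ) : V → ℝ :=
  η - gr A B (op B η)

/-- `u` is `B`-harmonic in `A` -/
def Hm (A : Finset V) (B : Bf V) (u : V → ℝ) : Prop := ∀ v, Sup A v → B u v = 0

end defs

/-! ## evaluation -/
section ev
variable {V : Type*}

@[simp] theorem dr_apply (e : V × V) (u : V → ℝ) : dr e u = u e.2 - u e.1 := rfl

theorem sqF_apply {ι : Type*} (T : Finset ι) (c : ι → ℝ) (ℓ : ι → (V → ℝ) →ₗ[ℝ] ℝ) (u v : V → ℝ) :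
    sqF T c ℓ u v = ∑ j ∈ T, c j * (ℓ j u * ℓ j v) := by
  simp [sqF, LinearMap.sum_apply]

theorem edF_apply (ed : Finset (V × V)) (u v : V → ℝ) :
    edF ed u v = ∑ e ∈ ed, (u e.2 - u e.1) * (v e.2 - v e.1) := by
  simp [edF, sqF_apply]

theorem edF_self (ed : Finset (V × V)) (u : V → ℝ) :
    edF ed u u = ∑ e ∈ ed, (u e.2 - u e.1) ^ 2 := by
  simp [edF_apply, sq]

theorem msF_apply (S : Finset V) (κ u v : V → ℝ) :
    msF S κ u v = ∑ x ∈ S, κ x * (u x * v x) := by
  simp [msF, sqF_apply]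

theorem sy_sqF {ι : Type*} {T : Finset ι} {c : ι → ℝ} (ℓ : ι → (V → ℝ) →ₗ[ℝ] ℝ)
    (hc : ∀ j ∈ T, 0 ≤ c j) : Sy (sqF T c ℓ) :=
  ⟨fun u v => by simp only [sqF_apply]; exact sum_congr rfl fun j _ => by ring,
   fun u => by
    rw [sqF_apply]; exact sum_nonneg fun j hj => mul_nonneg (hc j hj) (mul_self_nonneg _)⟩

theorem sy_edF (ed : Finset (V × V)) : Sy (edF ed) := sy_sqF _ fun _ _ => zero_le_one

theorem sy_msF {S : Finset V} {κ : V → ℝ} (h : ∀ x ∈ S, 0 ≤ κ x) : Sy (msF S κ) := sy_sqF _ h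

theorem Sy.add {B B' : Bf V} (h : Sy B) (h' : Sy B') : Sy (B + B') :=
  ⟨fun u v => by simp [h.symm u v, h'.symm u v], fun u => by
    simpa using add_nonneg (h.nonneg u) (h'.nonneg u)⟩

theorem Sy.smul {B : Bf V} (h : Sy B) {c : ℝ} (hc : 0 ≤ c) : Sy (c • B) :=
  ⟨fun u v => by simp [h.symm u v], fun u => by simpa using mul_nonneg hc (h.nonneg u)⟩

theorem Co.add {A : Finset V} {B B' : Bf V} (h : Co A B) (h' : Sy B') : Co A (B + B') :=
  ⟨h.toSy.add h', fun u hu h0 => h.defn u hu <| by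
    have := h.nonneg u; have := h'.nonneg u
    simp only [LinearMap.add_apply] at h0; linarith⟩

theorem Co.smul {A : Finset V} {B : Bf V} (h : Co A B) {c : ℝ} (hc : 0 < c) : Co A (c • B) :=
  ⟨h.toSy.smul hc.le, fun u hu h0 => h.defn u hu <| by
    simp only [LinearMap.smul_apply, smul_eq_mul] at h0
    exact (mul_eq_zero.1 h0).resolve_left hc.ne'⟩

theorem Sup.mono {A A' : Finset V} {u : V → ℝ} (h : Sup A' u) (hA : A' ⊆ A) : Sup A u :=
  fun x hx => h x fun hx' => hx (hA hx')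

theorem Co.mono {A A' : Finset V} {B : Bf V} (h : Co A B) (hA : A' ⊆ A) : Co A' B :=
  ⟨h.toSy, fun u hu => h.defn u (hu.mono hA)⟩

/-- a form that dominates a positive multiple of a definite form is definite -/
theorem Co.of_le {A : Finset V} {B B' : Bf V} (h : Co A B) (h' : Sy B') {c : ℝ}
    (hle : ∀ u, Sup A u → B u u ≤ c * B' u u) : Co A B' :=
  ⟨h', fun u hu h0 => h.defn u hu (le_antisymm (by simpa [h0] using hle u hu) (h.nonneg u))⟩

theorem co_of_mass {A : Finset V} {B : Bf V} (h : Sy B) {κ : ℝ} (hκ : 0 < κ)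
    (hm : ∀ u, Sup A u → κ * ∑ x ∈ A, u x ^ 2 ≤ B u u) : Co A B :=
  ⟨h, fun u hu h0 => by
    have h1 : ∑ x ∈ A, u x ^ 2 ≤ 0 := by
      have := hm u hu; rw [h0] at this
      by_contra hc; push Not at hc; have := mul_pos hκ hc; linarith
    have h2 := (sum_eq_zero_iff_of_nonneg fun x (_ : x ∈ A) => sq_nonneg (u x)).1
      (le_antisymm h1 (sum_nonneg fun x _ => sq_nonneg _))
    funext x
    by_cases hx : x ∈ A
    · simpa using h2 x hx
    · exact hu x hx⟩

/-- every site of `A` is joined along `ed` to a site off `A` -/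
theorem co_edF {A : Finset V} {ed : Finset (V × V)}
    (h : ∀ x ∈ A, ∃ y, y ∉ A ∧ Relation.ReflTransGen (fun u v => (u, v) ∈ ed ∨ (v, u) ∈ ed) x y) :
    Co A (edF ed) :=
  ⟨sy_edF ed, fun u hu h0 => by
    rw [edF_self] at h0
    have h2 := (sum_eq_zero_iff_of_nonneg fun e (_ : e ∈ ed) => sq_nonneg (u e.2 - u e.1)).1 h0
    funext x
    by_cases hx : x ∈ A
    · obtain ⟨y, hy, hxy⟩ := h x hx
      have : u x = u y := by
        clear hy hx
        induction hxy with
        | refl => rfl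
        | tail _ hb ih =>
          rw [ih]
          rcases hb with hb | hb
          · have := h2 _ hb; simp only [ne_eq, OfNat.ofNat_ne_zero, not_false_eq_true,
              pow_eq_zero_iff] at this; linarith
          · have := h2 _ hb; simp only [ne_eq, OfNat.ofNat_ne_zero, not_false_eq_true,
              pow_eq_zero_iff] at this; linarith
      rw [this]; exact hu y hy
    · exact hu x hx⟩

theorem sup_zero (A : Finset V) : Sup A 0 := fun _ _ => rfl
theorem Sup.add {A : Finset V} {u v : V → ℝ} (hu : Sup A u) (hv : Sup A v) : Sup A (u + v) :=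
  fun x hx => by simp [hu x hx, hv x hx]
theorem Sup.sub {A : Finset V} {u v : V → ℝ} (hu : Sup A u) (hv : Sup A v) : Sup A (u - v) :=
  fun x hx => by simp [hu x hx, hv x hx]
theorem Sup.neg {A : Finset V} {u : V → ℝ} (hu : Sup A u) : Sup A (-u) :=
  fun x hx => by simp [hu x hx]
theorem Sup.smul {A : Finset V} {u : V → ℝ} (hu : Sup A u) (c : ℝ) : Sup A (c • u) :=
  fun x hx => by simp [hu x hx]
theorem Sup.mul {A : Finset V} {u : V → ℝ} (hu : Sup A u) (w : V → ℝ) :
    Sup A fun x => w x * u x := fun x hx => by simp [hu x hx]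
theorem sup_dl [DecidableEq V] {A : Finset V} {x : V} (hx : x ∈ A) : Sup A (dl x) :=
  fun y hy => Pi.single_eq_of_ne (by rintro rfl; exact hy hx) _

theorem ip_comm (A : Finset V) (f u : V → ℝ) : ip A f u = ip A u f :=
  sum_congr rfl fun _ _ => mul_comm _ _
theorem ip_add_left (A : Finset V) (f g u : V → ℝ) : ip A (f + g) u = ip A f u + ip A g u := by
  simp [ip, add_mul, sum_add_distrib]
theorem ip_sub_left (A : Finset V) (f g u : V → ℝ) : ip A (f - g) u = ip A f u - ip A g u := by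
  simp [ip, sub_mul, sum_sub_distrib]
theorem ip_smul_left (A : Finset V) (c : ℝ) (f u : V → ℝ) : ip A (c • f) u = c * ip A f u := by
  simp [ip, mul_sum, mul_assoc]
theorem ip_neg_left (A : Finset V) (f u : V → ℝ) : ip A (-f) u = -ip A f u := by
  simp [ip]
theorem ip_add_right (A : Finset V) (f u v : V → ℝ) : ip A f (u + v) = ip A f u + ip A f v := by
  simp [ip, mul_add, sum_add_distrib]
theorem ip_sub_right (A : Finset V) (f u v : V → ℝ) : ip A f (u - v) = ip A f u - ip A f v := by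
  simp [ip, mul_sub, sum_sub_distrib]
theorem ip_smul_right (A : Finset V) (c : ℝ) (f u : V → ℝ) : ip A f (c • u) = c * ip A f u := by
  rw [ip_comm, ip_smul_left, ip_comm]
theorem ip_neg_right (A : Finset V) (f u : V → ℝ) : ip A f (-u) = -ip A f u := by
  simp [ip]
@[simp] theorem ip_zero_left (A : Finset V) (u : V → ℝ) : ip A 0 u = 0 := by simp [ip]
@[simp] theorem ip_zero_right (A : Finset V) (u : V → ℝ) : ip A u 0 = 0 := by simp [ip]
theorem ip_congr {A : Finset V} {f g : V → ℝ} (h : ∀ x ∈ A, f x = g x) (u : V → ℝ) :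
    ip A f u = ip A g u := sum_congr rfl fun x hx => by rw [h x hx]
theorem ip_of_sup {A A' : Finset V} (hA : A' ⊆ A) (f : V → ℝ) {u : V → ℝ} (hu : Sup A' u) :
    ip A f u = ip A' f u :=
  (sum_subset hA fun x _ hx => by simp [hu x hx]).symm
theorem ip_dl [DecidableEq V] {A : Finset V} {x : V} (hx : x ∈ A) (u : V → ℝ) :
    ip A (dl x) u = u x := by
  simp [ip, Pi.single_apply, hx]
theorem ip_dl' [DecidableEq V] {A : Finset V} {x : V} (hx : x ∈ A) (u : V → ℝ) :
    ip A u (dl x) = u x := by rw [ip_comm, ip_dl hx]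
theorem ip_dl_sup [DecidableEq V] {A : Finset V} (x : V) {u : V → ℝ} (hu : Sup A u) :
    ip A (dl x) u = u x := by
  by_cases hx : x ∈ A
  · exact ip_dl hx u
  · rw [hu x hx]; simp [ip, Pi.single_apply, hx]

theorem Sup.eq_sum [DecidableEq V] {A : Finset V} {v : V → ℝ} (hv : Sup A v) :
    v = ∑ x ∈ A, v x • dl x := by
  funext y
  by_cases hy : y ∈ A
  · simp [Finset.sum_apply, Pi.single_apply, hy]
  · simp [Finset.sum_apply, Pi.single_apply, hy, hv y hy]

/-- summation by parts, abstract form -/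
theorem ip_op [DecidableEq V] (A : Finset V) (B : Bf V) (u : V → ℝ) {v : V → ℝ} (hv : Sup A v) :
    ip A (op B u) v = B u v := by
  conv_rhs => rw [hv.eq_sum]
  simp [ip, op, map_sum, mul_comm]

theorem op_add [DecidableEq V] (B : Bf V) (u v : V → ℝ) : op B (u + v) = op B u + op B v := by
  funext x; simp [op]
theorem op_sub [DecidableEq V] (B : Bf V) (u v : V → ℝ) : op B (u - v) = op B u - op B v := by
  funext x; simp [op]
theorem op_smul [DecidableEq V] (B : Bf V) (c : ℝ) (u : V → ℝ) : op B (c • u) = c • op B u := by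
  funext x; simp [op]

theorem hm_iff [DecidableEq V] {A : Finset V} {B : Bf V} {u : V → ℝ} :
    Hm A B u ↔ ∀ x ∈ A, op B u x = 0 :=
  ⟨fun h x hx => h _ (sup_dl hx), fun h v hv => by
    rw [← ip_op A B u hv]; exact sum_eq_zero fun x hx => by simp [h x hx]⟩

theorem Hm.mono {A A' : Finset V} {B : Bf V} {u : V → ℝ} (h : Hm A B u) (hA : A' ⊆ A) :
    Hm A' B u := fun v hv => h v (hv.mono hA)

theorem Sy.sq_add {B : Bf V} (h : Sy B) (u v : V → ℝ) :
    B (u + v) (u + v) = B u u + 2 * B u v + B v v := by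
  simp [h.symm v u]; ring

theorem Sy.sq_sub {B : Bf V} (h : Sy B) (u v : V → ℝ) :
    B (u - v) (u - v) = B u u - 2 * B u v + B v v := by
  simp [h.symm v u]; ring

/-- Cauchy-Schwarz -/
theorem Sy.cs {B : Bf V} (h : Sy B) (u v : V → ℝ) : B u v ^ 2 ≤ B u u * B v v := by
  have := discrim_le_zero (a := B v v) (b := 2 * B u v) (c := B u u) fun t => by
    have := h.nonneg (u + t • v)
    rw [h.sq_add] at this
    simp only [map_smul, LinearMap.smul_apply, smul_eq_mul] at this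
    nlinarith
  unfold discrim at this
  nlinarith

theorem Sy.abs_le {B : Bf V} (h : Sy B) (u v : V → ℝ) :
    |B u v| ≤ √(B u u) * √(B v v) := by
  rw [← Real.sqrt_mul (h.nonneg u)]
  exact Real.abs_le_sqrt (h.cs u v)

theorem Sy.sqrt_add {B : Bf V} (h : Sy B) (u v : V → ℝ) :
    √(B (u + v) (u + v)) ≤ √(B u u) + √(B v v) := by
  rw [Real.sqrt_le_left (by positivity), h.sq_add, add_sq, Real.sq_sqrt (h.nonneg u),
    Real.sq_sqrt (h.nonneg v)]
  have := (le_abs_self _).trans (h.abs_le u v)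
  linarith

theorem Sy.add_le {B : Bf V} (h : Sy B) (u v : V → ℝ) {ε : ℝ} (hε : 0 < ε) :
    B (u + v) (u + v) ≤ (1 + ε) * B u u + (1 + ε⁻¹) * B v v := by
  have h1 := h.nonneg (ε • u - v)
  rw [h.sq_sub] at h1
  simp only [map_smul, LinearMap.smul_apply, smul_eq_mul] at h1
  rw [h.sq_add]
  have h2 : 0 ≤ ε⁻¹ * (ε * (ε * B u u) - 2 * (ε * B u v) + B v v) := by positivity
  have h3 : ε⁻¹ * (ε * (ε * B u u) - 2 * (ε * B u v) + B v v) =
      ε * B u u - 2 * B u v + ε⁻¹ * B v v := by field_simp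
  linarith

end ev

/-! ## the Green potential -/
section green
variable {V : Type*} {A A' : Finset V} {B B' : Bf V}

theorem Co.exists_gr (h : Co A B) (f : V → ℝ) :
    ∃ u, Sup A u ∧ ∀ v, Sup A v → B u v = ip A f v := by
  classical
  let ext : (A → ℝ) →ₗ[ℝ] (V → ℝ) :=
    { toFun := fun w x => if hx : x ∈ A then w ⟨x, hx⟩ else 0
      map_add' := fun w w' => by funext x; by_cases hx : x ∈ A <;> simp [hx]
      map_smul' := fun c w => by funext x; by_cases hx : x ∈ A <;> simp [hx] }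
  have hs : ∀ w, Sup A (ext w) := fun w x hx => by simp [ext, hx]
  let L : (A → ℝ) →ₗ[ℝ] (A → ℝ) :=
    { toFun := fun w x => op B (ext w) x
      map_add' := fun w w' => by funext x; simp [op]
      map_smul' := fun c w => by funext x; simp [op] }
  have hinj : Function.Injective L := by
    rw [injective_iff_map_eq_zero]
    intro w hw
    have h0 : Hm A B (ext w) := hm_iff.2 fun x hx => congrFun hw ⟨x, hx⟩
    have h1 := h.defn _ (hs w) (h0 _ (hs w))
    funext x
    have := congrFun h1 x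
    simpa [ext] using this
  obtain ⟨w, hw⟩ := LinearMap.injective_iff_surjective.1 hinj fun x => f x
  refine ⟨ext w, hs w, fun v hv => ?_⟩
  rw [← ip_op A B _ hv]
  exact ip_congr (fun x hx => congrFun hw ⟨x, hx⟩) v

theorem Co.gr_sup (h : Co A B) (f : V → ℝ) : Sup A (gr A B f) :=
  (Classical.epsilon_spec (h.exists_gr f)).1

theorem Co.gr_spec (h : Co A B) (f : V → ℝ) {v : V → ℝ} (hv : Sup A v) :
    B (gr A B f) v = ip A f v :=
  (Classical.epsilon_spec (h.exists_gr f)).2 v hv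

theorem Co.eq_zero (h : Co A B) {u : V → ℝ} (hu : Sup A u) (h0 : Hm A B u) : u = 0 :=
  h.defn u hu (h0 u hu)

theorem Co.gr_unique (h : Co A B) {f u : V → ℝ} (hu : Sup A u)
    (h1 : ∀ v, Sup A v → B u v = ip A f v) : gr A B f = u :=
  sub_eq_zero.1 <| h.eq_zero ((h.gr_sup f).sub hu) fun v hv => by
    simp [h.gr_spec f hv, h1 v hv]

theorem Co.op_gr [DecidableEq V] (h : Co A B) (f : V → ℝ) {x : V} (hx : x ∈ A) :
    op B (gr A B f) x = f x := by
  rw [op, h.gr_spec f (sup_dl hx), ip_dl' hx]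

theorem Co.gr_unique' [DecidableEq V] (h : Co A B) {f u : V → ℝ} (hu : Sup A u)
    (h1 : ∀ x ∈ A, op B u x = f x) : gr A B f = u :=
  h.gr_unique hu fun v hv => by rw [← ip_op A B u hv]; exact ip_congr h1 v

theorem Co.gr_op [DecidableEq V] (h : Co A B) {u : V → ℝ} (hu : Sup A u) : gr A B (op B u) = u :=
  h.gr_unique' hu fun _ _ => rfl

theorem Co.gr_add (h : Co A B) (f g : V → ℝ) : gr A B (f + g) = gr A B f + gr A B g :=
  h.gr_unique ((h.gr_sup f).add (h.gr_sup g)) fun v hv => by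
    simp [h.gr_spec f hv, h.gr_spec g hv, ip_add_left]

theorem Co.gr_smul (h : Co A B) (c : ℝ) (f : V → ℝ) : gr A B (c • f) = c • gr A B f :=
  h.gr_unique ((h.gr_sup f).smul c) fun v hv => by simp [h.gr_spec f hv, ip_smul_left]

theorem Co.gr_neg (h : Co A B) (f : V → ℝ) : gr A B (-f) = -gr A B f := by
  simpa using h.gr_smul (-1) f

theorem Co.gr_sub (h : Co A B) (f g : V → ℝ) : gr A B (f - g) = gr A B f - gr A B g := by
  rw [sub_eq_add_neg, h.gr_add, h.gr_neg, ← sub_eq_add_neg]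

theorem Co.gr_zero (h : Co A B) : gr A B 0 = 0 := by simpa using h.gr_smul 0 0

theorem Co.gr_sum (h : Co A B) {ι : Type*} (T : Finset ι) (f : ι → V → ℝ) :
    gr A B (∑ j ∈ T, f j) = ∑ j ∈ T, gr A B (f j) := by
  classical
  induction T using Finset.induction_on with
  | empty => simpa using h.gr_zero
  | insert j T hj ih => rw [sum_insert hj, sum_insert hj, h.gr_add, ih]

theorem gr_congr {f g : V → ℝ} (h : ∀ x ∈ A, f x = g x) : gr A B f = gr A B g := by
  unfold gr; congr 1; funext u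
  simp only [ip_congr h]

theorem Co.gr_scale (h : Co A B) {c : ℝ} (hc : 0 < c) (f : V → ℝ) :
    gr A (c • B) f = c⁻¹ • gr A B f :=
  (h.smul hc).gr_unique ((h.gr_sup f).smul _) fun v hv => by
    simp only [map_smul, LinearMap.smul_apply, smul_eq_mul, h.gr_spec f hv]; field_simp

theorem Co.G_scale (h : Co A B) {c : ℝ} (hc : 0 < c) (f g : V → ℝ) :
    G A (c • B) f g = c⁻¹ * G A B f g := by
  rw [G, h.gr_scale hc, ip_smul_right, G]

theorem Co.G_eq (h : Co A B) (f g : V → ℝ) : G A B f g = B (gr A B f) (gr A B g) :=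
  (h.gr_spec f (h.gr_sup g)).symm

theorem Co.G_comm (h : Co A B) (f g : V → ℝ) : G A B f g = G A B g f := by
  rw [h.G_eq, h.G_eq, h.symm]

theorem Co.G_nonneg (h : Co A B) (f : V → ℝ) : 0 ≤ G A B f f := by
  rw [h.G_eq]; exact h.nonneg _

theorem G_congr {f f' g g' : V → ℝ} (h : ∀ x ∈ A, f x = f' x) (h' : ∀ x ∈ A, g x = g' x) :
    G A B f g = G A B f' g' := by rw [G, G, gr_congr h', ip_congr h]

/-- the Green form as a bilinear form -/
noncomputable def Co.GF (h : Co A B) : Bf V :=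
  LinearMap.mk₂ ℝ (G A B) (fun f f' g => ip_add_left _ _ _ _) (fun c f g => ip_smul_left _ _ _ _)
    (fun f g g' => by rw [G, h.gr_add, ip_add_right]; rfl)
    (fun c f g => by rw [G, h.gr_smul, ip_smul_right]; rfl)

theorem Co.GF_apply (h : Co A B) (f g : V → ℝ) : h.GF f g = G A B f g := rfl

theorem Co.sy_GF (h : Co A B) : Sy h.GF := ⟨h.G_comm, h.G_nonneg⟩

theorem G_add_left (f f' g : V → ℝ) : G A B (f + f') g = G A B f g + G A B f' g :=
  ip_add_left _ _ _ _
theorem G_sub_left (f f' g : V → ℝ) : G A B (f - f') g = G A B f g - G A B f' g :=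
  ip_sub_left _ _ _ _
theorem G_smul_left (c : ℝ) (f g : V → ℝ) : G A B (c • f) g = c * G A B f g := ip_smul_left _ _ _ _
theorem Co.G_add_right (h : Co A B) (f g g' : V → ℝ) :
    G A B f (g + g') = G A B f g + G A B f g' := map_add (h.GF f) g g'
theorem Co.G_sub_right (h : Co A B) (f g g' : V → ℝ) :
    G A B f (g - g') = G A B f g - G A B f g' := map_sub (h.GF f) g g'
theorem Co.G_smul_right (h : Co A B) (c : ℝ) (f g : V → ℝ) :
    G A B f (c • g) = c * G A B f g := map_smul (h.GF f) c g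
theorem Co.G_smul (h : Co A B) (c : ℝ) (f : V → ℝ) :
    G A B (c • f) (c • f) = c ^ 2 * G A B f f := by rw [G_smul_left, h.G_smul_right]; ring

theorem Co.G_cs (h : Co A B) (f g : V → ℝ) : G A B f g ^ 2 ≤ G A B f f * G A B g g :=
  h.sy_GF.cs f g
theorem Co.G_abs_le (h : Co A B) (f g : V → ℝ) : |G A B f g| ≤ √(G A B f f) * √(G A B g g) :=
  h.sy_GF.abs_le f g
theorem Co.G_sqrt_add (h : Co A B) (f g : V → ℝ) :
    √(G A B (f + g) (f + g)) ≤ √(G A B f f) + √(G A B g g) := h.sy_GF.sqrt_add f g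
theorem Co.G_add_le (h : Co A B) (f g : V → ℝ) {ε : ℝ} (hε : 0 < ε) :
    G A B (f + g) (f + g) ≤ (1 + ε) * G A B f f + (1 + ε⁻¹) * G A B g g := h.sy_GF.add_le f g hε

theorem Co.G_dl [DecidableEq V] (h : Co A B) (x : V) (g : V → ℝ) : G A B (dl x) g = gr A B g x :=
  ip_dl_sup x (h.gr_sup g)

theorem Co.gr_eq_sum [DecidableEq V] (h : Co A B) (f : V → ℝ) (x : V) :
    gr A B f x = ∑ y ∈ A, f y * G A B (dl x) (dl y) := by
  rw [← h.G_dl, h.G_comm, G]
  exact sum_congr rfl fun y _ => by rw [h.G_comm, h.G_dl]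

theorem Co.G_op [DecidableEq V] (h : Co A B) (f : V → ℝ) {u : V → ℝ} (hu : Sup A u) :
    G A B f (op B u) = ip A f u := by rw [G, h.gr_op hu]

theorem Co.G_op_op [DecidableEq V] (h : Co A B) {u v : V → ℝ} (hv : Sup A v) :
    G A B (op B u) (op B v) = B u v := by rw [h.G_op _ hv, ip_op A B u hv]

/-- duality: test functions -/
theorem Co.ip_sq_le (h : Co A B) (f : V → ℝ) {u : V → ℝ} (hu : Sup A u) :
    ip A f u ^ 2 ≤ G A B f f * B u u := by
  rw [← h.gr_spec f hu, h.G_eq]; exact h.toSy.cs _ _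

theorem Co.abs_ip_le (h : Co A B) (f : V → ℝ) {u : V → ℝ} (hu : Sup A u) :
    |ip A f u| ≤ √(G A B f f) * √(B u u) := by
  rw [← h.gr_spec f hu, h.G_eq]; exact h.toSy.abs_le _ _

/-- Dirichlet principle (lower bounds for `G`) -/
theorem Co.dirichlet (h : Co A B) (f : V → ℝ) {u : V → ℝ} (hu : Sup A u) :
    2 * ip A f u - B u u ≤ G A B f f := by
  have := h.nonneg (gr A B f - u)
  rw [h.toSy.sq_sub, h.gr_spec f hu, ← h.G_eq] at this
  linarith

/-- the defect in the Dirichlet principle -/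
theorem Co.dirichlet_eq (h : Co A B) (f : V → ℝ) {u : V → ℝ} (hu : Sup A u) :
    B (gr A B f - u) (gr A B f - u) = G A B f f - (2 * ip A f u - B u u) := by
  rw [h.toSy.sq_sub, h.gr_spec f hu, ← h.G_eq]; ring

/-- upper bounds for `G` by duality -/
theorem Co.G_le_of (h : Co A B) {f : V → ℝ} {C : ℝ} (hC : 0 ≤ C)
    (h1 : ∀ u, Sup A u → ip A f u ^ 2 ≤ C * B u u) : G A B f f ≤ C := by
  have h2 := h1 _ (h.gr_sup f)
  rw [← h.G_eq] at h2
  change G A B f f ^ 2 ≤ _ at h2
  rcases (h.G_nonneg f).eq_or_lt with h0 | h0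
  · linarith
  · nlinarith

theorem Co.G_le_of' (h : Co A B) {f : V → ℝ} {C : ℝ}
    (h1 : ∀ u, Sup A u → 2 * ip A f u - B u u ≤ C) : G A B f f ≤ C := by
  have h2 := h1 _ (h.gr_sup f)
  rw [← h.G_eq] at h2
  change 2 * G A B f f - _ ≤ _ at h2
  linarith

/-- Thomson principle: any flow representing `f` bounds `G` -/
theorem Co.thomson (h : Co A B) {ι : Type*} {T : Finset ι} {c : ι → ℝ} {ℓ : ι → (V → ℝ) →ₗ[ℝ] ℝ}
    (hc : ∀ j ∈ T, 0 < c j) (hB : ∀ u, Sup A u → sqF T c ℓ u u ≤ B u u) {f : V → ℝ} {φ : ι → ℝ}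
    (hφ : ∀ u, Sup A u → ip A f u = ∑ j ∈ T, φ j * ℓ j u) :
    G A B f f ≤ ∑ j ∈ T, φ j ^ 2 / c j :=
  h.G_le_of' fun u hu => by
    have h1 := hB u hu
    rw [sqF_apply] at h1
    rw [hφ u hu, mul_sum]
    have : ∑ j ∈ T, 2 * (φ j * ℓ j u) ≤ ∑ j ∈ T, (φ j ^ 2 / c j + c j * (ℓ j u * ℓ j u)) :=
      sum_le_sum fun j hj => by
        have := hc j hj
        have h2 : 0 ≤ (φ j - c j * ℓ j u) ^ 2 / c j := by positivity
        have h3 : (φ j - c j * ℓ j u) ^ 2 / c j =
            φ j ^ 2 / c j + c j * (ℓ j u * ℓ j u) - 2 * (φ j * ℓ j u) := by field_simp; ring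
        linarith
    rw [sum_add_distrib] at this
    linarith

/-- Thomson principle for unit conductances -/
theorem Co.thomson_ed (h : Co A B) {ed : Finset (V × V)} (hB : ∀ u, Sup A u → edF ed u u ≤ B u u)
    {f : V → ℝ} {φ : V × V → ℝ}
    (hφ : ∀ u, Sup A u → ip A f u = ∑ e ∈ ed, φ e * (u e.2 - u e.1)) :
    G A B f f ≤ ∑ e ∈ ed, φ e ^ 2 := by
  simpa using h.thomson (c := fun _ => 1) (ℓ := dr) (fun _ _ => one_pos) hB (φ := φ)
    (by simpa using hφ)

/-- the current of `gr f` is a flow of `f` of energy `G f f` -/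
theorem Co.current {ed : Finset (V × V)} (h : Co A (edF ed)) (f : V → ℝ) :
    (∀ u, Sup A u → ip A f u = ∑ e ∈ ed, dr e (gr A (edF ed) f) * (u e.2 - u e.1)) ∧
      ∑ e ∈ ed, dr e (gr A (edF ed) f) ^ 2 = G A (edF ed) f f :=
  ⟨fun u hu => by rw [← h.gr_spec f hu, edF_apply]; rfl, by rw [h.G_eq, edF_self]; rfl⟩

/-- Rayleigh monotonicity: more pins, larger form, smaller Green form -/
theorem Co.G_mono (h : Co A B) (h' : Co A' B') (hA : A' ⊆ A) {c : ℝ} (hc : 0 ≤ c)
    (hB : ∀ u, Sup A' u → B u u ≤ c * B' u u) (f : V → ℝ) : G A' B' f f ≤ c * G A B f f :=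
  h'.G_le_of (mul_nonneg hc (h.G_nonneg f)) fun u hu => by
    rw [← ip_of_sup hA f hu]
    calc _ ≤ G A B f f * B u u := h.ip_sq_le f (hu.mono hA)
      _ ≤ G A B f f * (c * B' u u) := mul_le_mul_of_nonneg_left (hB u hu) (h.G_nonneg f)
      _ = _ := by ring

theorem Co.G_mono_set (h : Co A B) (hA : A' ⊆ A) (f : V → ℝ) : G A' B f f ≤ G A B f f := by
  simpa using h.G_mono (h.mono hA) hA zero_le_one (fun u _ => by simp) f

/-- resolvent identity -/
theorem Co.G_sub_G (h : Co A B) (h' : Co A B') (f g : V → ℝ) :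
    G A B f g - G A B' f g = (B' - B) (gr A B' f) (gr A B g) := by
  rw [LinearMap.sub_apply, LinearMap.sub_apply, h'.gr_spec f (h.gr_sup g), h.symm,
    h.gr_spec g (h'.gr_sup f), h'.G_comm f g]
  rfl

/-- a form is only read on the functions supported in `A` -/
theorem gr_congr_form (hB : ∀ u v, Sup A u → Sup A v → B u v = B' u v) (f : V → ℝ) :
    gr A B f = gr A B' f := by
  unfold gr; congr 1; funext u
  exact propext ⟨fun h => ⟨h.1, fun v hv => by rw [← hB u v h.1 hv, h.2 v hv]⟩,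
    fun h => ⟨h.1, fun v hv => by rw [hB u v h.1 hv, h.2 v hv]⟩⟩

end green

/-! ## harmonic extension, pins -/
section harm
variable {V : Type*} [DecidableEq V] {A A' : Finset V} {B : Bf V}

theorem Co.hx_off (h : Co A B) (η : V → ℝ) {x : V} (hx' : x ∉ A) : hx A B η x = η x := by
  simp [hx, h.gr_sup _ x hx']

theorem Co.hx_hm (h : Co A B) (η : V → ℝ) : Hm A B (hx A B η) := fun v hv => by
  simp [hx, h.gr_spec _ hv, ip_op A B η hv]

theorem Co.hx_unique (h : Co A B) {η u : V → ℝ} (h1 : ∀ x, x ∉ A → u x = η x) (h2 : Hm A B u) :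
    hx A B η = u :=
  sub_eq_zero.1 <| h.eq_zero (fun x hx' => by simp [h.hx_off η hx', h1 x hx']) fun v hv => by
    simp [h.hx_hm η v hv, h2 v hv]

theorem Co.hx_congr (h : Co A B) {η η' : V → ℝ} (h1 : ∀ x, x ∉ A → η x = η' x) :
    hx A B η = hx A B η' :=
  h.hx_unique (fun x hx' => by rw [h.hx_off η' hx', h1 x hx']) (h.hx_hm η')

theorem Co.hx_add (h : Co A B) (η η' : V → ℝ) : hx A B (η + η') = hx A B η + hx A B η' := by
  simp only [hx, op_add, h.gr_add]; abel

theorem Co.hx_sub (h : Co A B) (η η' : V → ℝ) : hx A B (η - η') = hx A B η - hx A B η' := by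
  simp only [hx, op_sub, h.gr_sub]; abel

theorem Co.hx_smul (h : Co A B) (c : ℝ) (η : V → ℝ) : hx A B (c • η) = c • hx A B η := by
  simp only [hx, op_smul, h.gr_smul, smul_sub]

/-- decomposition `u = gr (op u) + hx u` -/
theorem gr_op_add_hx (A : Finset V) (B : Bf V) (u : V → ℝ) : gr A B (op B u) + hx A B u = u := by
  simp [hx]

/-- Pythagoras: the harmonic extension minimises the energy -/
theorem Co.hx_pyth (h : Co A B) {η u : V → ℝ} (h1 : ∀ x, x ∉ A → u x = η x) :
    B u u = B (hx A B η) (hx A B η) + B (u - hx A B η) (u - hx A B η) := by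
  have hs : Sup A (u - hx A B η) := fun x hx' => by simp [h.hx_off η hx', h1 x hx']
  have := h.toSy.sq_add (hx A B η) (u - hx A B η)
  rw [add_sub_cancel, h.hx_hm η _ hs] at this
  linarith

theorem Co.hx_min (h : Co A B) {η u : V → ℝ} (h1 : ∀ x, x ∉ A → u x = η x) :
    B (hx A B η) (hx A B η) ≤ B u u := by
  have := h.nonneg (u - hx A B η)
  rw [h.hx_pyth h1]; linarith

/-- `G (op u) (op u)` for `u` not supported in `A` -/
theorem Co.G_op_self (h : Co A B) (u : V → ℝ) :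
    G A B (op B u) (op B u) = B u u - B (hx A B u) (hx A B u) := by
  rw [h.hx_pyth (η := u) (u := u) fun _ _ => rfl, h.G_eq]
  simp [hx]

theorem Co.G_op_le (h : Co A B) (u : V → ℝ) : G A B (op B u) (op B u) ≤ B u u := by
  rw [h.G_op_self]; linarith [h.nonneg (hx A B u)]

/-- domain Markov property -/
theorem Co.gr_pin (h : Co A B) (hA : A' ⊆ A) (f : V → ℝ) :
    gr A B f = gr A' B f + hx A' B (gr A B f) := by
  have h' := h.mono hA
  rw [hx, gr_congr (A := A') (g := f) fun x hx' => h.op_gr f (hA hx')]; abel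

theorem Co.G_pin (h : Co A B) (hA : A' ⊆ A) (f g : V → ℝ) :
    G A B f g = G A' B f g + B (hx A' B (gr A B f)) (hx A' B (gr A B g)) := by
  have h' := h.mono hA
  rw [h.G_eq, h'.G_eq]
  conv_lhs => rw [h.gr_pin hA f, h.gr_pin hA g]
  simp only [map_add, LinearMap.add_apply]
  rw [h'.hx_hm _ _ (h'.gr_sup g), h.symm (gr A' B f) (hx A' B _), h'.hx_hm _ _ (h'.gr_sup f)]
  ring

/-- the loss of `G` under pinning is at most the energy of any function equal to `gr f` on the new pins -/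
theorem Co.G_pin_le (h : Co A B) (hA : A' ⊆ A) (f : V → ℝ) {u : V → ℝ}
    (hu : ∀ x, x ∉ A' → u x = gr A B f x) : G A B f f ≤ G A' B f f + B u u := by
  rw [h.G_pin hA]; linarith [(h.mono hA).hx_min hu]

omit [DecidableEq V] in
/-- balayage: charges on the pins are free -/
theorem Co.G_pin_inf (h : Co A B) (hA : A' ⊆ A) (f ν : V → ℝ) (hν : ∀ x ∈ A', ν x = 0) :
    G A' B f f ≤ G A B (f - ν) (f - ν) := by
  rw [G_congr (A := A') (f' := f - ν) (g' := f - ν) (fun x hx' => by simp [hν x hx'])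
    fun x hx' => by simp [hν x hx']]
  exact h.G_mono_set hA _

/-- pairing of a charge with a harmonic extension: the swept charge -/
theorem Co.ip_hx (h : Co A B) (f η : V → ℝ) :
    ip A f (hx A B η) = ip A f η - B (gr A B f) η := by
  rw [hx, ip_sub_right, ← G, h.G_comm, G, ip_op A B η (h.gr_sup f), h.symm]

end harm

/-! ## maximum principle -/
section mk
variable {V : Type*} {A A' : Finset V} {B B' : Bf V}

theorem Mk.add (h : Mk B) (h' : Mk B') : Mk (B + B') := fun u φ ψ h1 h2 h3 => by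
  simpa using add_nonneg (h u φ ψ h1 h2 h3) (h' u φ ψ h1 h2 h3)

theorem Mk.smul (h : Mk B) {c : ℝ} (hc : 0 ≤ c) : Mk (c • B) := fun u φ ψ h1 h2 h3 => by
  simpa using mul_nonneg hc (h u φ ψ h1 h2 h3)

theorem mk_edc {ed : Finset (V × V)} {c : V × V → ℝ} (hc : ∀ e ∈ ed, 0 ≤ c e) :
    Mk (sqF ed c dr) := fun u φ ψ h1 h2 _ => by
  rw [sqF_apply]
  refine sum_nonneg fun e he => mul_nonneg (hc e he) ?_
  simp only [dr_apply]
  rcases le_total (u e.1) (u e.2) with h | h
  · exact mul_nonneg (sub_nonneg.2 (h1 h)) (sub_nonneg.2 (h2 h))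
  · exact mul_nonneg_of_nonpos_of_nonpos (sub_nonpos.2 (h1 h)) (sub_nonpos.2 (h2 h))

theorem mk_edF (ed : Finset (V × V)) : Mk (edF ed) := mk_edc fun _ _ => zero_le_one

theorem mk_msF {S : Finset V} {κ : V → ℝ} (h : ∀ x ∈ S, 0 ≤ κ x) : Mk (msF S κ) :=
  fun u φ ψ _ _ h3 => by
    rw [msF_apply]; exact sum_nonneg fun x hx => mul_nonneg (h x hx) (h3 _)

/-- subsolutions: `u ≤ M` off `A`, `M ≥ 0` -/
theorem Co.le_of_sub (h : Co A B) (hM : Mk B) {u : V → ℝ} {M : ℝ} (h0 : 0 ≤ M)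
    (h1 : ∀ x, x ∉ A → u x ≤ M) (h2 : ∀ v, Sup A v → 0 ≤ v → B u v ≤ 0) (x : V) : u x ≤ M := by
  set v : V → ℝ := fun x => max (u x - M) 0 with hv
  have hs : Sup A v := fun x hx => max_eq_right (sub_nonpos.2 (h1 x hx))
  have h3 := h2 v hs fun x => le_max_right _ _
  have h4 := hM u (fun t => min t M) (fun t => max (t - M) 0)
    (fun a b hab => min_le_min_right _ hab) (fun a b hab => max_le_max_right _ (by linarith))
    fun t => by
      rcases le_total t M with ht | ht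
      · simp [max_eq_right (sub_nonpos.2 ht)]
      · rw [min_eq_right ht]; exact mul_nonneg h0 (le_max_right _ _)
  have h5 : u = (fun x => min (u x) M) + v := by
    funext x; simp only [Pi.add_apply, hv]
    rcases le_total (u x) M with ht | ht
    · rw [min_eq_left ht, max_eq_right (sub_nonpos.2 ht), add_zero]
    · rw [min_eq_right ht, max_eq_left (sub_nonneg.2 ht)]; ring
  rw [h5, map_add, LinearMap.add_apply] at h3
  have h6 := h.defn v hs (le_antisymm (by linarith) (h.nonneg v))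
  have h7 : max (u x - M) 0 = 0 := congrFun h6 x
  linarith [le_max_left (u x - M) 0]

/-- supersolutions: `u ≥ -M` off `A`, `M ≥ 0` -/
theorem Co.ge_of_super (h : Co A B) (hM : Mk B) {u : V → ℝ} {M : ℝ} (h0 : 0 ≤ M)
    (h1 : ∀ x, x ∉ A → -M ≤ u x) (h2 : ∀ v, Sup A v → 0 ≤ v → 0 ≤ B u v) (x : V) : -M ≤ u x := by
  have := h.le_of_sub hM (u := -u) h0 (fun x hx => by have := h1 x hx; simp; linarith)
    (fun v hv hv' => by simpa using h2 v hv hv') x
  simp at this; linarith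

/-- comparison principle -/
theorem Co.compare [DecidableEq V] (h : Co A B) (hM : Mk B) {u w : V → ℝ}
    (h1 : ∀ x, x ∉ A → u x ≤ w x) (h2 : ∀ x ∈ A, op B u x ≤ op B w x) (x : V) : u x ≤ w x := by
  have := h.le_of_sub hM (u := u - w) le_rfl (fun x hx => by simpa using h1 x hx)
    (fun v hv hv' => by
      rw [← ip_op A B _ hv, op_sub]
      exact sum_nonpos fun x hx => mul_nonpos_of_nonpos_of_nonneg (by simpa using h2 x hx) (hv' x)) x
  simpa using this

theorem Co.gr_mono (h : Co A B) (hM : Mk B) {f g : V → ℝ} (hfg : ∀ x ∈ A, f x ≤ g x) (x : V) :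
    gr A B f x ≤ gr A B g x := by
  classical
  exact h.compare hM (fun x hx => by rw [h.gr_sup f x hx, h.gr_sup g x hx])
    (fun x hx => by rw [h.op_gr f hx, h.op_gr g hx]; exact hfg x hx) x

theorem Co.gr_nonneg (h : Co A B) (hM : Mk B) {f : V → ℝ} (hf : ∀ x ∈ A, 0 ≤ f x) (x : V) :
    0 ≤ gr A B f x := by
  simpa [h.gr_zero] using h.gr_mono hM (f := 0) hf x

theorem Co.abs_gr_le (h : Co A B) (hM : Mk B) {f g : V → ℝ} (hfg : ∀ x ∈ A, |f x| ≤ g x) (x : V) :
    |gr A B f x| ≤ gr A B g x := by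
  refine abs_le.2 ⟨?_, h.gr_mono hM (fun x hx => (le_abs_self _).trans (hfg x hx)) x⟩
  have := h.gr_mono hM (f := -g) (g := f) (fun x hx => (abs_le.1 (hfg x hx)).1) x
  simpa [h.gr_neg] using this

theorem Co.G_nonneg' (h : Co A B) (hM : Mk B) {f g : V → ℝ} (hf : ∀ x ∈ A, 0 ≤ f x)
    (hg : ∀ x ∈ A, 0 ≤ g x) : 0 ≤ G A B f g :=
  sum_nonneg fun x hx => mul_nonneg (hf x hx) (h.gr_nonneg hM hg x)

theorem Co.abs_G_le (h : Co A B) (hM : Mk B) {f f' g g' : V → ℝ} (hf : ∀ x ∈ A, |f x| ≤ f' x)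
    (hg : ∀ x ∈ A, |g x| ≤ g' x) : |G A B f g| ≤ G A B f' g' :=
  (abs_sum_le_sum_abs _ _).trans <| sum_le_sum fun x hx => by
    rw [abs_mul]
    exact mul_le_mul (hf x hx) (h.abs_gr_le hM hg x) (abs_nonneg _) ((abs_nonneg _).trans (hf x hx))

theorem Co.hx_mono [DecidableEq V] (h : Co A B) (hM : Mk B) {η η' : V → ℝ}
    (h1 : ∀ x, x ∉ A → η x ≤ η' x) (x : V) : hx A B η x ≤ hx A B η' x :=
  h.compare hM (fun x hx' => by rw [h.hx_off _ hx', h.hx_off _ hx']; exact h1 x hx')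
    (fun x hx' => by rw [hm_iff.1 (h.hx_hm η) x hx', hm_iff.1 (h.hx_hm η') x hx']) x

theorem Co.abs_le_of_hm (h : Co A B) (hM : Mk B) {u : V → ℝ} {M : ℝ} (h0 : 0 ≤ M) (hu : Hm A B u)
    (h1 : ∀ x, x ∉ A → |u x| ≤ M) (x : V) : |u x| ≤ M :=
  abs_le.2 ⟨h.ge_of_super hM h0 (fun x hx => (abs_le.1 (h1 x hx)).1)
      (fun v hv _ => (hu v hv).ge) x,
    h.le_of_sub hM h0 (fun x hx => (abs_le.1 (h1 x hx)).2) (fun v hv _ => (hu v hv).le) x⟩

theorem Co.abs_hx_le [DecidableEq V] (h : Co A B) (hM : Mk B) {η : V → ℝ} {M : ℝ} (h0 : 0 ≤ M)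
    (h1 : ∀ x, x ∉ A → |η x| ≤ M) (x : V) : |hx A B η x| ≤ M :=
  h.abs_le_of_hm hM h0 (h.hx_hm η) (fun x hx' => by rw [h.hx_off _ hx']; exact h1 x hx') x

/-- pointwise domain monotonicity -/
theorem Co.gr_mono_set (h : Co A B) (hM : Mk B) (hA : A' ⊆ A) {f : V → ℝ} (hf : ∀ x ∈ A, 0 ≤ f x)
    (x : V) : gr A' B f x ≤ gr A B f x := by
  classical
  have h' := h.mono hA
  exact h'.compare hM (fun x hx => by rw [h'.gr_sup f x hx]; exact h.gr_nonneg hM hf x)
    (fun x hx => by rw [h'.op_gr f hx, h.op_gr f (hA hx)]) x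

/-- normal contractions lower the energy -/
theorem Mk.contr (hM : Mk B) (h : Sy B) (u : V → ℝ) {φ : ℝ → ℝ} (h1 : Monotone φ)
    (h2 : Monotone fun t => t - φ t) (h0 : φ 0 = 0) :
    B (fun x => φ (u x)) (fun x => φ (u x)) + B (fun x => u x - φ (u x)) (fun x => u x - φ (u x)) ≤
      B u u := by
  have h3 := hM u φ (fun t => t - φ t) h1 h2 fun t => by
    rcases le_total 0 t with ht | ht
    · exact mul_nonneg (by simpa [h0] using h1 ht) (by simpa [h0] using h2 ht)
    · exact mul_nonneg_of_nonpos_of_nonpos (by simpa [h0] using h1 ht) (by simpa [h0] using h2 ht)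
  have h4 := h.sq_add (fun x => φ (u x)) fun x => u x - φ (u x)
  have h5 : ((fun x => φ (u x)) + fun x => u x - φ (u x)) = u := by funext x; simp
  rw [h5] at h4
  linarith

/-- energy of a Green potential at heights in `[-M, M]` -/
theorem Co.trunc_le (h : Co A B) (hM : Mk B) (f : V → ℝ) {M : ℝ} (h0 : 0 ≤ M) :
    B (fun x => max (-M) (min (gr A B f x) M)) (fun x => max (-M) (min (gr A B f x) M)) ≤
      M * ∑ x ∈ A, |f x| := by
  set u := gr A B f
  set φ : ℝ → ℝ := fun t => max (-M) (min t M)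
  have hφ0 : φ 0 = 0 := by simp [φ, min_eq_left h0, h0]
  have h1 : Monotone φ := fun a b hab => max_le_max_left _ (min_le_min_right _ hab)
  have h2 : Monotone fun t => t - φ t := fun a b hab => by
    simp only [φ, max_def, min_def]; split_ifs <;> linarith
  have h3 := hM u φ (fun t => t - φ t) h1 h2 fun t => by
    rcases le_total 0 t with ht | ht
    · exact mul_nonneg (by simpa [hφ0] using h1 ht) (by simpa [hφ0] using h2 ht)
    · exact mul_nonneg_of_nonpos_of_nonpos (by simpa [hφ0] using h1 ht) (by simpa [hφ0] using h2 ht)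
  have hs : Sup A fun x => φ (u x) := fun x hx => by
    change φ (gr A B f x) = 0; rw [h.gr_sup f x hx, hφ0]
  have h4 := h.gr_spec f hs
  have h5 : u = (fun x => φ (u x)) + fun x => u x - φ (u x) := by funext x; simp
  have h6 : B u (fun x => φ (u x)) = B (fun x => φ (u x)) (fun x => φ (u x)) +
      B (fun x => φ (u x)) fun x => u x - φ (u x) := by
    conv_lhs => rw [h.symm]; enter [2]; rw [h5]
    rw [map_add]
  have h7 : ip A f (fun x => φ (u x)) ≤ M * ∑ x ∈ A, |f x| := by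
    rw [mul_sum]
    refine sum_le_sum fun x _ => (le_abs_self _).trans ?_
    rw [abs_mul, mul_comm]
    refine mul_le_mul_of_nonneg_right (abs_le.2 ⟨le_max_left _ _, max_le (by linarith) ?_⟩)
      (abs_nonneg _)
    exact min_le_right _ _
  change B (fun x => φ (u x)) (fun x => φ (u x)) ≤ _
  linarith

end mk

/-! ## Combes-Thomas -/
section ct
variable {V : Type*} {A : Finset V} {B : Bf V}

theorem Co.ct (h : Co A B) (ρ : V → ℝ) {κ : ℝ} (hκ : 0 < κ)
    (hB : ∀ w, Sup A w → κ * ∑ x ∈ A, w x ^ 2 ≤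
      B (fun x => Real.exp (-ρ x) * w x) fun x => Real.exp (ρ x) * w x) (f : V → ℝ) :
    ∑ x ∈ A, (Real.exp (ρ x) * gr A B f x) ^ 2 ≤ (∑ x ∈ A, (Real.exp (ρ x) * f x) ^ 2) / κ ^ 2 := by
  set u := gr A B f
  have hu : Sup A u := h.gr_sup f
  have h1 := hB (fun x => Real.exp (ρ x) * u x) (hu.mul _)
  have h2 : (fun x => Real.exp (-ρ x) * (Real.exp (ρ x) * u x)) = u := by
    funext x; rw [← mul_assoc, ← Real.exp_add]; simp
  rw [h2, h.gr_spec f ((hu.mul _).mul _)] at h1
  have h3 := sum_mul_sq_le_sq_mul_sq A (fun x => Real.exp (ρ x) * f x) fun x => Real.exp (ρ x) * u x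
  have h4 : ip A f (fun x => Real.exp (ρ x) * (Real.exp (ρ x) * u x)) =
      ∑ x ∈ A, Real.exp (ρ x) * f x * (Real.exp (ρ x) * u x) := sum_congr rfl fun x _ => by ring
  rw [h4] at h1
  set S := ∑ x ∈ A, (Real.exp (ρ x) * u x) ^ 2
  set F := ∑ x ∈ A, (Real.exp (ρ x) * f x) ^ 2
  have hS : 0 ≤ S := sum_nonneg fun _ _ => sq_nonneg _
  have hF : 0 ≤ F := sum_nonneg fun _ _ => sq_nonneg _
  rw [le_div_iff₀ (by positivity)]
  rcases hS.eq_or_lt with h0 | h0
  · rw [← h0]; simpa using hF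
  · have h5 : (κ * S) ^ 2 ≤ F * S := (pow_le_pow_left₀ (by positivity) h1 2).trans h3
    nlinarith

theorem Co.ct_G (h : Co A B) (ρ : V → ℝ) {κ : ℝ} (hκ : 0 < κ)
    (hB : ∀ w, Sup A w → κ * ∑ x ∈ A, w x ^ 2 ≤
      B (fun x => Real.exp (-ρ x) * w x) fun x => Real.exp (ρ x) * w x) (f g : V → ℝ) :
    G A B g f ^ 2 ≤ (∑ x ∈ A, (Real.exp (-ρ x) * g x) ^ 2) *
      (∑ x ∈ A, (Real.exp (ρ x) * f x) ^ 2) / κ ^ 2 := by
  have h3 := sum_mul_sq_le_sq_mul_sq A (fun x => Real.exp (-ρ x) * g x)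
    fun x => Real.exp (ρ x) * gr A B f x
  have h4 : G A B g f = ∑ x ∈ A, Real.exp (-ρ x) * g x * (Real.exp (ρ x) * gr A B f x) :=
    sum_congr rfl fun x _ => by
      rw [mul_mul_mul_comm, ← Real.exp_add]; simp
  rw [h4, mul_div_assoc]
  exact h3.trans (mul_le_mul_of_nonneg_left (h.ct ρ hκ hB f) (sum_nonneg fun _ _ => sq_nonneg _))

/-- the conjugated edge form -/
theorem edF_conj (ed : Finset (V × V)) (ρ w : V → ℝ) :
    edF ed (fun x => Real.exp (-ρ x) * w x) (fun x => Real.exp (ρ x) * w x) =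
      edF ed w w - ∑ e ∈ ed, 2 * (Real.cosh (ρ e.2 - ρ e.1) - 1) * (w e.1 * w e.2) := by
  rw [edF_apply, edF_apply, ← sum_sub_distrib]
  refine sum_congr rfl fun e _ => ?_
  rw [Real.cosh_eq, neg_sub, Real.exp_sub, Real.exp_sub, Real.exp_neg, Real.exp_neg]
  field_simp
  ring

theorem edF_conj_ge (ed : Finset (V × V)) (ρ w : V → ℝ) :
    edF ed w w - ∑ e ∈ ed, (Real.cosh (ρ e.2 - ρ e.1) - 1) * (w e.1 ^ 2 + w e.2 ^ 2) ≤
      edF ed (fun x => Real.exp (-ρ x) * w x) (fun x => Real.exp (ρ x) * w x) := by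
  rw [edF_conj]
  refine sub_le_sub_left (sum_le_sum fun e _ => ?_) _
  have := Real.one_le_cosh (ρ e.2 - ρ e.1)
  nlinarith [mul_nonneg (sub_nonneg.2 this) (sq_nonneg (w e.1 - w e.2))]

theorem msF_conj (S : Finset V) (κ ρ w : V → ℝ) :
    msF S κ (fun x => Real.exp (-ρ x) * w x) (fun x => Real.exp (ρ x) * w x) = msF S κ w w := by
  rw [msF_apply, msF_apply]
  exact sum_congr rfl fun x _ => by rw [mul_mul_mul_comm, ← Real.exp_add]; simp

end ct

/-! ## link with the height models -/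
section link
variable {V : Type*} [DecidableEq V]

theorem pr_eq_ip (A : Finset V) (f : V → ℝ) {s : Cfg V} (hs : ∀ x, x ∉ A → s x = 0) :
    pr f s = ip A f fun x => (s x : ℝ) := by
  unfold pr
  rw [Finsupp.liftAddHom_apply, Finsupp.sum_of_support_subset _ (s := A)]
  · rfl
  · intro x hx; by_contra h; exact (Finsupp.mem_support_iff.1 hx) (hs x h)
  · simp

/-- a flow in the sense of `Co.thomson_ed` is a flow in the sense of `BareStmt` -/
theorem pr_eq_flow {A : Finset V} {ed : Finset (V × V)} {f : V → ℝ} {φ : V × V → ℝ}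
    (hφ : ∀ u, Sup A u → ip A f u = ∑ e ∈ ed, φ e * (u e.2 - u e.1)) (s : Cfg V)
    (hs : ∀ x, x ∉ A → s x = 0) : pr f s = ∑ e ∈ ed, φ e * (dE e s : ℝ) := by
  rw [pr_eq_ip A f hs, hφ _ fun x hx => by simp [hs x hx]]
  simp [dE]

end link

end Crest.Agent.T145.Pot
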