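import Crest.Agent.T145.GfSpr_80
import Crest.Agent.T145.GsR_85

/-!
# Row 145, SDc: Gaussian / Poisson mixtures of the Stein identity, abstract part (helper45)
-/

set_option autoImplicit false

namespace Crest.Agent.T145.Sdc45

open Finset MeasureTheory ProbabilityTheory Matrix

section fub
variable {α ι : Type*} {W : α → ℝ}

theorem hasSum_ex (hW : Wt W) {F : ι → α → ℝ} {G : α → ℝ} (hG : Ig W G)
    (h1 : ∀ a, Summable fun i => |F i a|) (h2 : ∀ a, ∑' i, |F i a| ≤ G a) :
    HasSum (fun i => Ex W (F i)) (Ex W fun a => ∑' i, F i a) := by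
  have hs : Summable fun p : α × ι => W p.1 * F p.2 p.1 := by
    refine Summable.of_abs ((summable_prod_of_nonneg fun p => abs_nonneg _).2 ⟨fun a => ?_, ?_⟩)
    · simpa only [abs_mul] using (h1 a).mul_left |W a|
    · refine Summable.of_nonneg_of_le (fun a => tsum_nonneg fun i => abs_nonneg _) (fun a => ?_) hG
      simp only [abs_mul, tsum_mul_left, abs_of_nonneg (hW.nonneg a)]
      exact mul_le_mul_of_nonneg_left (h2 a) (hW.nonneg a)
  have h3 : HasSum (fun i => ∑' a, W a * F i a) (∑' p : α × ι, W p.1 * F p.2 p.1) :=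
    ((Equiv.prodComm ι α).hasSum_iff.2 hs.hasSum).prod_fiberwise fun i =>
      (hs.prod_symm.prod_factor i).hasSum
  have h4 : ∑' p : α × ι, W p.1 * F p.2 p.1 = ∑' a, W a * ∑' i, F i a := by
    rw [hs.tsum_prod]
    exact tsum_congr fun a => tsum_mul_left (a := W a) (f := fun i => F i a)
  simp only [Ex_def]
  rw [← h4]
  exact h3.div_const _

theorem ex_integral [Countable α] (hW : Wt W) {X : Type*} [MeasurableSpace X] (μ : Measure X)
    {F : α → X → ℝ} {G : α → ℝ} (hG : Ig W G) (hi : ∀ a, Integrable (F a) μ)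
    (hb : ∀ a, ∫ x, |F a x| ∂μ ≤ G a) :
    Ex W (fun a => ∫ x, F a x ∂μ) = ∫ x, Ex W (fun a => F a x) ∂μ := by
  have h := integral_tsum_of_summable_integral_norm (F := fun a x => W a * F a x)
    (fun a => (hi a).const_mul _)
    (Summable.of_nonneg_of_le (fun a => integral_nonneg fun x => norm_nonneg _) (fun a => by
      simp only [Real.norm_eq_abs, abs_mul, abs_of_nonneg (hW.nonneg a), integral_const_mul]
      exact mul_le_mul_of_nonneg_left (hb a) (hW.nonneg a)) hG)
  simp only [Ex_def, integral_div, ← h, integral_const_mul]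

end fub

/-! ## one-dimensional Poisson formula with a linear factor -/

theorem abs_mul_gs_le {κ : ℝ} (hκ : 0 < κ) (y : ℝ) :
    |y| * Real.exp (-κ * y ^ 2 / 2) ≤ (1 + 4 / κ) * Real.exp (-(κ / 2) * y ^ 2 / 2) := by
  have h1 : |y| ≤ (1 + 4 / κ) * Real.exp (κ * y ^ 2 / 4) := by
    have h2 := Real.add_one_le_exp (κ * y ^ 2 / 4)
    have h3 : |y| ≤ 1 + y ^ 2 := by nlinarith [sq_abs y, sq_nonneg (|y| - 1), abs_nonneg y]
    have h4 : 4 / κ * (κ * y ^ 2 / 4) = y ^ 2 := by field_simp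
    have h5 : 0 < 4 / κ := by positivity
    have h6 : 0 ≤ κ * y ^ 2 / 4 := by positivity
    nlinarith [mul_le_mul_of_nonneg_left h2 h5.le]
  calc _ ≤ (1 + 4 / κ) * Real.exp (κ * y ^ 2 / 4) * Real.exp (-κ * y ^ 2 / 2) :=
        mul_le_mul_of_nonneg_right h1 (Real.exp_pos _).le
    _ = _ := by rw [mul_assoc, ← Real.exp_add]; congr 2; ring

theorem summable_gs1 {κ : ℝ} (hκ : 0 < κ) (x : ℝ) :
    Summable fun k : ℤ => |x + k| * Real.exp (-κ * (x + k) ^ 2 / 2) :=
  Summable.of_nonneg_of_le (fun _ => by positivity) (fun k => abs_mul_gs_le hκ _)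
    ((Spr.summable_gs (half_pos hκ) x).mul_left _)

/-- Fourier coefficient of the periodised Gaussian -/
noncomputable def gf (a ω : ℝ) (p : ℤ) : ℝ := Real.exp (-(2 * Real.pi * p - ω) ^ 2 / (2 * a))

theorem gf_pos (a ω : ℝ) (p : ℤ) : 0 < gf a ω p := Real.exp_pos _

theorem gf1_le {a : ℝ} (ha : 0 < a) (ω : ℝ) (p : ℤ) :
    gf a ω p * |2 * Real.pi * p - ω| ≤ (1 + 4 * a) * gf (2 * a) ω p := by
  have := abs_mul_gs_le (inv_pos.2 ha) (2 * Real.pi * p - ω)
  rw [mul_comm, gf, gf]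
  convert this using 3
  · field_simp
  · field_simp
  · field_simp

theorem summable_gf {a : ℝ} (ha : 0 < a) (ω : ℝ) : Summable (gf a ω) := Spr.summable_gf ha ω

theorem summable_gf1 {a : ℝ} (ha : 0 < a) (ω : ℝ) :
    Summable fun p : ℤ => gf a ω p * |2 * Real.pi * p - ω| :=
  Summable.of_nonneg_of_le (fun p => mul_nonneg (gf_pos _ _ _).le (abs_nonneg _)) (gf1_le ha ω)
    ((summable_gf (by positivity) ω).mul_left _)

theorem poisson1 {κ : ℝ} (hκ : 0 < κ) (x α β : ℝ) :
    ∑' k : ℤ, κ * (x + k) * Real.exp (-κ * (x + k) ^ 2 / 2) * Real.cos (α * k + β) =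
      Real.sqrt (2 * Real.pi / κ) * ∑' p : ℤ, gf κ α p *
        ((2 * Real.pi * p - α) * Real.sin ((2 * Real.pi * p - α) * x + β)) := by
  have h1 := hasDerivAt_tsum_mul (W := fun k : ℤ => Real.cos (α * k + β))
    (Φ := fun y k => Real.exp (-κ * (y + k) ^ 2 / 2))
    (Φ' := fun y k => -(κ * (y + k) * Real.exp (-κ * (y + k) ^ 2 / 2)))
    (B := fun k => κ * (1 + 4 / κ) * Real.exp (κ / 4) * Real.exp (-(κ / 4) * (x + k) ^ 2 / 2))
    (t := x) one_pos
    (Summable.of_nonneg_of_le (fun k => by positivity)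
      (fun k => mul_le_of_le_one_left (by positivity) (Real.abs_cos_le_one _))
      ((Spr.summable_gs (by positivity) x).mul_left _))
    (Summable.of_abs (Summable.of_nonneg_of_le (fun k => abs_nonneg _) (fun k => by
      rw [abs_mul, abs_of_pos (Real.exp_pos _)]
      exact mul_le_of_le_one_left (Real.exp_pos _).le (Real.abs_cos_le_one _))
      (Spr.summable_gs hκ x)))
    (fun k y _ => by
      have := ((((hasDerivAt_id' y).add_const (k : ℝ)).fun_pow 2).const_mul (-κ)).div_const 2 |>.exp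
      convert this using 1
      norm_num; ring)
    (fun k y hy => by
      rw [abs_neg, mul_assoc, abs_mul, abs_mul, abs_of_pos hκ, abs_of_pos (Real.exp_pos _),
        mul_assoc, mul_assoc, ← Real.exp_add]
      refine mul_le_mul_of_nonneg_left ((abs_mul_gs_le hκ _).trans
        (mul_le_mul_of_nonneg_left (Real.exp_le_exp.2 ?_) (by positivity))) hκ.le
      have h3 : (y - x) ^ 2 ≤ 1 := by nlinarith [hy.1, hy.2]
      nlinarith [mul_nonneg hκ.le (sq_nonneg (y + k + (y - x))), mul_le_mul_of_nonneg_left h3 hκ.le])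
  have h2 := (hasDerivAt_tsum_mul (W := gf κ α)
    (Φ := fun y p => Real.cos ((2 * Real.pi * p - α) * y + β))
    (Φ' := fun y p => -((2 * Real.pi * p - α) * Real.sin ((2 * Real.pi * p - α) * y + β)))
    (B := fun p => |2 * Real.pi * p - α|) (t := x) one_pos
    ((summable_gf1 hκ α).congr fun p => by rw [abs_of_pos (gf_pos _ _ _)])
    (Spr.summable_abs_cos (summable_gf hκ α) (fun p => (gf_pos _ _ _).le) _).of_abs
    (fun p y _ => by
      have := (((hasDerivAt_id' y).const_mul (2 * Real.pi * p - α)).add_const β).cos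
      convert this using 1
      ring)
    (fun p y _ => by
      rw [abs_neg, abs_mul]
      exact mul_le_of_le_one_right (abs_nonneg _) (Real.abs_sin_le_one _))).const_mul
      (Real.sqrt (2 * Real.pi / κ))
  have e : (fun y : ℝ => ∑' k : ℤ, Real.cos (α * k + β) * Real.exp (-κ * (y + k) ^ 2 / 2)) =
      fun y => Real.sqrt (2 * Real.pi / κ) *
        ∑' p : ℤ, gf κ α p * Real.cos ((2 * Real.pi * p - α) * y + β) := by
    funext y
    rw [← show _ = _ * ∑' p : ℤ, gf κ α p * _ from Spr.poisson hκ y α β]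
    exact tsum_congr fun k => mul_comm _ _
  rw [e] at h1
  have := h1.unique h2
  simp only [mul_neg, tsum_neg, neg_inj] at this
  rw [← this]
  exact tsum_congr fun k => by ring

/-! ## Gaussian integration by parts -/
section ibp
variable {ι : Type*} [Fintype ι] [DecidableEq ι] {C : Matrix ι ι ℝ}

omit [DecidableEq ι] in
theorem abs_dot_le (e z : ι → ℝ) : |z ⬝ᵥ e| ≤ (∑ i, |e i|) * ‖z‖ := by
  rw [dotProduct, sum_mul]
  refine (abs_sum_le_sum_abs _ _).trans (sum_le_sum fun i _ => ?_)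
  rw [abs_mul, mul_comm]
  exact mul_le_mul_of_nonneg_left (norm_le_pi_norm z i) (abs_nonneg _)

theorem int_lin (C : Matrix ι ι ℝ) {F : (ι → ℝ) → ℝ} (hF : Continuous F) (A B : ℝ) (hB : 0 ≤ B)
    (h : ∀ z, |F z| ≤ A + B * ‖z‖) : Integrable F (Gs.gm C) := by
  refine Gs.int_of_le C hF.aestronglyMeasurable (|A| + B) 1 fun z => (h z).trans ?_
  have h1 := Real.add_one_le_exp (1 * ‖z‖)
  have h2 := norm_nonneg z
  nlinarith [le_abs_self A, abs_nonneg A, mul_le_mul_of_nonneg_left h1 hB,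
    mul_le_mul_of_nonneg_left h1 (abs_nonneg A), mul_nonneg (abs_nonneg A) h2]

omit [DecidableEq ι] in
theorem cont_dot' (e : ι → ℝ) : Continuous fun z : ι → ℝ => z ⬝ᵥ e :=
  Continuous.dotProduct continuous_id continuous_const

theorem ibp (hC : C.PosSemidef) (w e : ι → ℝ) (θ : ℝ) :
    ∫ z, (z ⬝ᵥ e) * Real.sin (z ⬝ᵥ w + θ) ∂(Gs.gm C) =
      (e ⬝ᵥ C *ᵥ w) * Real.exp (-(w ⬝ᵥ C *ᵥ w) / 2) * Real.cos θ := by
  have c1 := cont_dot' e
  have c2 := cont_dot' w
  have h1 := (hasDerivAt_integral_of_dominated_loc_of_deriv_le (μ := Gs.gm C)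
    (F := fun (τ : ℝ) z => Real.cos (z ⬝ᵥ w + τ * (z ⬝ᵥ e) + θ))
    (F' := fun (τ : ℝ) z => -((z ⬝ᵥ e) * Real.sin (z ⬝ᵥ w + τ * (z ⬝ᵥ e) + θ))) (x₀ := 0)
    (bound := fun z => |z ⬝ᵥ e|) (s := Set.univ) Filter.univ_mem
    (Filter.Eventually.of_forall fun τ => Continuous.aestronglyMeasurable (by fun_prop))
    (int_lin C (by fun_prop) 1 0 le_rfl fun z => by simpa using Real.abs_cos_le_one _)
    (Continuous.aestronglyMeasurable (by fun_prop))
    (ae_of_all _ fun z τ _ => by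
      rw [norm_neg, Real.norm_eq_abs, abs_mul]
      exact mul_le_of_le_one_right (abs_nonneg _) (Real.abs_sin_le_one _))
    (int_lin C (by fun_prop) 0 _ (sum_nonneg fun i _ => abs_nonneg (e i)) fun z => by
      rw [abs_abs, zero_add]; exact abs_dot_le e z)
    (ae_of_all _ fun z τ _ => by
      have := ((((hasDerivAt_id' τ).mul_const (z ⬝ᵥ e)).const_add (z ⬝ᵥ w)).add_const θ).cos
      exact this.congr_deriv (by ring))).2
  have e1 : (fun τ : ℝ => ∫ z, Real.cos (z ⬝ᵥ w + τ * (z ⬝ᵥ e) + θ) ∂(Gs.gm C)) = fun τ =>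
      Real.exp (-(w ⬝ᵥ C *ᵥ w + 2 * τ * (e ⬝ᵥ C *ᵥ w) + τ ^ 2 * (e ⬝ᵥ C *ᵥ e)) / 2) * Real.cos θ := by
    funext τ
    have := Gs.integral_cos hC (w + τ • e) θ
    simp only [mulVec_add, mulVec_smul, add_dotProduct, dotProduct_add, smul_dotProduct,
      dotProduct_smul, smul_eq_mul, Gs.dot_symm (Gs.psd_transpose hC) w e] at this
    simp only [dotProduct_comm _ w, dotProduct_comm _ e] at this ⊢
    rw [this]; congr 3; ring
  rw [e1] at h1
  have h2 := (((((((hasDerivAt_id (0 : ℝ)).const_mul 2).mul_const (e ⬝ᵥ C *ᵥ w)).const_add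
    (w ⬝ᵥ C *ᵥ w)).add (((hasDerivAt_id (0 : ℝ)).pow 2).mul_const (e ⬝ᵥ C *ᵥ e))).neg.div_const
      2).exp).mul_const (Real.cos θ)
  have := h1.unique h2
  simp only [zero_mul, add_zero, integral_neg] at this
  rw [neg_eq_iff_eq_neg] at this
  rw [this]; simp; ring

end ibp

end Crest.Agent.T145.Sdc45
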