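import Crest.Agent.T145.CutC_7
import Crest.Agent.T145.ApiL_98
import Crest.Agent.T145.CorB_59

/-!
# Row 145, module (b), SEC (helper62), part A: summable RSD weights, restriction to subgroups,
products, the finite Fourier sum, theta bounds
-/

set_option autoImplicit false

namespace Crest.Agent.T145.Sec62

open Finset Real

/-- summable RSD weight, positive at `0` -/
structure RW {L : Type} [AddCommGroup L] (ρ : L → ℝ) : Prop where
  rsd : RSD ρ
  summ : Summable ρ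
  pos0 : 0 < ρ 0

section
variable {L L' L'' : Type} [AddCommGroup L] [AddCommGroup L'] [AddCommGroup L''] {ρ G G' : L → ℝ}

theorem RW.wt (h : RW ρ) : Wt ρ := Wt.of_pos h.rsd.nonneg h.summ h.pos0

theorem RW.of_cen (h : Cen ρ) : RW ρ := ⟨h.toRSD, h.se.summable, h.pos0⟩

theorem RW.comp (h : RW ρ) (ψ : L' →+ L) (hψ : Function.Injective ψ) : RW fun y => ρ (ψ y) :=
  ⟨Rsd63.rsd_comp h.rsd ψ, h.summ.comp_injective hψ, by simpa using h.pos0⟩

theorem RW.prod {ρ' : L' → ℝ} (h : RW ρ) (h' : RW ρ') : RW fun p : L × L' => ρ p.1 * ρ' p.2 :=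
  ⟨Rsd63.rsd_mul (Rsd63.rsd_comp h.rsd (AddMonoidHom.fst L L'))
    (Rsd63.rsd_comp h'.rsd (AddMonoidHom.snd L L')), summable_prod_mul h.summ h'.summ,
    mul_pos h.pos0 h'.pos0⟩

theorem rsd_prod {ι : Type} (T : Finset ι) {F : ι → L → ℝ} (h : ∀ i ∈ T, RSD (F i)) :
    RSD fun s => ∏ i ∈ T, F i s := by
  classical
  induction T using Finset.induction_on with
  | empty => simpa using Rsd63.rsd_one
  | insert a T ha ih =>
    simp only [prod_insert ha]
    exact Rsd63.rsd_mul (h a (mem_insert_self _ _)) (ih fun i hi => h i (mem_insert_of_mem hi))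

theorem RW.pi {ι : Type} [Fintype ι] {u : ι → L → ℝ} (h : ∀ i, RW (u i)) :
    RW fun x : ι → L => ∏ i, u i (x i) :=
  ⟨rsd_prod _ fun i _ => Rsd63.rsd_comp (h i).rsd (Pi.evalAddMonoidHom (fun _ => L) i),
    (hasSum_pi_prod u fun i => (h i).summ).summable, prod_pos fun i _ => (h i).pos0⟩

theorem RW.mul_le (h : RW ρ) (hG : RSD G) (h0 : 0 < G 0) (h1 : ∀ s, G s ≤ 1) :
    RW fun s => ρ s * G s :=
  ⟨Rsd63.rsd_mul h.rsd hG, h.wt.ig_bdd (C := 1) fun s => by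
    rw [abs_of_nonneg (hG.nonneg s)]; exact h1 s, mul_pos h.pos0 h0⟩

variable [IsAddTorsionFree L]

/-- a nonnegative PD factor raises the mean of PD functions -/
theorem RW.ex_mul (h : RW ρ) (hG : PD G) (h0 : ∀ s, 0 ≤ G s) (h1 : 0 < G 0) (hG' : PD G') :
    Ex ρ G' ≤ Ex (fun s => ρ s * G s) G' := by
  have H := rsdPStmt L ρ G G' h.rsd h.summ hG hG'
  have hp : 0 < ∑' s, ρ s * G s :=
    Summable.tsum_pos (h.wt.ig_bdd hG.abs_le) (fun s => mul_nonneg (h.rsd.nonneg s) (h0 s)) 0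
      (mul_pos h.pos0 h1)
  rw [Ex_def, Ex, div_le_div_iff₀ h.wt.pos hp]
  simp only [mul_assoc]
  rw [mul_comm, mul_comm _ (Zs ρ)]
  exact H

/-- restriction to a subgroup raises the mean of PD functions -/
theorem RW.ex_sub (h : RW ρ) (ψ : L' →+ L) (hψ : Function.Injective ψ) (hG : PD G) :
    Ex ρ G ≤ Ex (fun y => ρ (ψ y)) fun y => G (ψ y) := by
  have key : ∀ F : L → ℝ, ∑' s, ρ s * ind (QuotientAddGroup.mk' ψ.range s = 0) * F s =
      ∑' y, ρ (ψ y) * F (ψ y) := fun F => by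
    rw [← hψ.tsum_eq (f := fun s => ρ s * ind (QuotientAddGroup.mk' ψ.range s = 0) * F s)]
    · refine tsum_congr fun y => ?_
      rw [ind_pos (by simp), mul_one]
    · intro s hs
      have := ind_ne_zero.1 (right_ne_zero_of_mul (left_ne_zero_of_mul hs))
      simpa using this
  have H := h.ex_mul (pd_ind (QuotientAddGroup.mk' ψ.range)) (fun _ => ind_nonneg _)
    (by simp [ind_pos]) hG
  have k1 := key fun _ => 1
  simp only [mul_one] at k1
  refine H.trans_eq ?_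
  rw [Ex, key, k1]; rfl

theorem RW.ph_sub (h : RW ρ) (ψ : L' →+ L) (hψ : Function.Injective ψ) (ξ : L →+ ℝ) :
    Ph ρ ξ ≤ Ph (fun y => ρ (ψ y)) (ξ.comp ψ) := h.ex_sub ψ hψ (pd_cos ξ)

omit [IsAddTorsionFree L] in
theorem tsum_ker (φ : L' →+ L'') (F : L' → ℝ) :
    ∑' y : φ.ker, F y = ∑' y, ind (φ y = 0) * F y := by
  rw [← Subtype.val_injective.tsum_eq (f := fun y => ind (φ y = 0) * F y)]
  · exact tsum_congr fun y => by rw [ind_pos (show φ y = 0 from y.2), one_mul]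
  · intro y hy
    exact ⟨⟨y, ind_ne_zero.1 (left_ne_zero_of_mul hy)⟩, rfl⟩

theorem RW.ph_sub2 (h : RW ρ) (ψ : L' →+ L) (φ : L' →+ L'')
    (hψ : ∀ y, ψ y = 0 → φ y = 0 → y = 0) (ξ : L →+ ℝ) :
    RW (fun y => ind (φ y = 0) * ρ (ψ y)) ∧
      Ph ρ ξ ≤ Ph (fun y => ind (φ y = 0) * ρ (ψ y)) (ξ.comp ψ) := by
  have hi : Function.Injective (ψ.comp φ.ker.subtype) :=
    (injective_iff_map_eq_zero _).2 fun y hy => Subtype.ext (hψ y hy y.2)
  refine ⟨⟨Rsd63.rsd_mul (Rsd63.rsd_ind φ) (Rsd63.rsd_comp h.rsd ψ), ?_, ?_⟩, ?_⟩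
  · have := (h.comp _ hi).summ
    refine (Subtype.val_injective (p := (· ∈ φ.ker))).summable_iff
      (f := fun y => ind (φ y = 0) * ρ (ψ y)) (fun y hy => ?_) |>.1 ?_
    · rw [ind_neg (p := φ y = 0) fun h0 => hy ⟨⟨y, h0⟩, rfl⟩, zero_mul]
    · refine this.congr fun y => ?_
      simp only [Function.comp]
      rw [ind_pos (show φ y = 0 from y.2), one_mul]; rfl
  · simpa [ind_pos] using h.pos0
  · refine (h.ph_sub _ hi ξ).trans_eq ?_
    simp only [Ph, Ex, mul_assoc]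
    rw [← tsum_ker φ fun y => ρ (ψ y) * cos (ξ.comp ψ y), ← tsum_ker φ fun y => ρ (ψ y)]
    rfl

theorem pos_of_mul_aux {a b : ℝ} (h : 0 ≤ a * b) (ha : 0 < a) : 0 ≤ b :=
  le_of_mul_le_mul_left (by simpa using h) ha

theorem RW.ph_nonneg (h : RW ρ) (ξ : L →+ ℝ) : 0 ≤ Ph ρ ξ := by
  have e : tilt (sl (fun p : L × PUnit => ρ p.1) 0) 0 = ρ := by funext s; simp [tilt, sl]
  have hG := pd_cos (ξ.comp (AddMonoidHom.fst L PUnit))
  simp only [AddMonoidHom.comp_apply, AddMonoidHom.coe_fst] at hG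
  have hR := Rsd63.rsd_comp h.rsd (AddMonoidHom.fst L PUnit)
  simp only [AddMonoidHom.coe_fst] at hR
  have H := rsdBStmt L PUnit (fun p => ρ p.1) (fun p => cos (ξ p.1)) hR hG 0 0
    h.summ (by rw [e]; exact h.summ)
  rw [e] at H
  have H2 : 0 ≤ Zs ρ * ∑' s, ρ s * cos (ξ s) :=
    (mul_nonneg (abs_nonneg _) (Zs_nonneg h.rsd.nonneg)).trans H
  exact div_nonneg (pos_of_mul_aux H2 h.wt.pos) h.wt.pos.le

omit [IsAddTorsionFree L] in
theorem RW.ph_le (h : RW ρ) (ξ : L →+ ℝ) : Ph ρ ξ ≤ 1 := (le_abs_self _).trans (h.wt.abs_Ph_le ξ)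

end

/-! ### products -/

theorem hasSum_cis {L : Type} [AddCommGroup L] {ρ : L → ℝ} (h : RW ρ) (ξ : L →+ ℝ) :
    HasSum (fun s => (ρ s : ℂ) * Complex.exp (ξ s * Complex.I)) ((Zs ρ * Ph ρ ξ : ℝ) : ℂ) := by
  have hc : Ig ρ fun s => cos (ξ s) := h.wt.ig_bdd fun s => abs_cos_le_one _
  have hs : Ig ρ fun s => sin (ξ s) := h.wt.ig_bdd fun s => abs_sin_le_one _
  have e0 : Ex ρ (fun s => sin (ξ s)) = 0 := Ex_odd h.rsd.even fun s => by simp
  have h1 := hc.hasSum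
  have h2 := hs.hasSum
  rw [h.wt.tsum_eq] at h1 h2
  rw [e0, mul_zero] at h2
  rw [Complex.hasSum_iff]
  constructor
  · simpa [Complex.re_ofReal_mul, Complex.exp_ofReal_mul_I_re, Ph] using h1
  · simpa [Complex.im_ofReal_mul, Complex.exp_ofReal_mul_I_im] using h2

theorem hasSum_prod_c {α β : Type*} {u : α → ℂ} {v : β → ℂ} {a b : ℂ} (hu : HasSum u a)
    (hv : HasSum v b) : HasSum (fun p : α × β => u p.1 * v p.2) (a * b) :=
  hu.mul hv (summable_mul_of_summable_norm hu.summable.norm hv.summable.norm)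

theorem hasSum_pi_c {ι α : Type*} [Fintype ι] (u : ι → α → ℂ) (a : ι → ℂ)
    (hu : ∀ i, HasSum (u i) (a i)) : HasSum (fun x : ι → α => ∏ i, u i (x i)) (∏ i, a i) := by
  have key : ∀ (n : ℕ) (u : Fin n → α → ℂ) (a : Fin n → ℂ), (∀ i, HasSum (u i) (a i)) →
      HasSum (fun x : Fin n → α => ∏ i, u i (x i)) (∏ i, a i) := by
    intro n
    induction n with
    | zero => intro u a _; simp
    | succ n ih =>
      intro u a hu
      have ih' := ih (fun i => u i.succ) (fun i => a i.succ) fun i => hu _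
      have h := hasSum_prod_c (hu 0) ih'
      rw [Fin.prod_univ_succ, ← (Fin.consEquiv fun _ => α).hasSum_iff]
      convert h using 2 with p
      simp [Fin.prod_univ_succ, Fin.consEquiv]
  let e := Fintype.equivFin ι
  have := key _ (fun j => u (e.symm j)) (fun j => a (e.symm j)) fun j => hu _
  rw [e.symm.prod_comp a, ← (Equiv.arrowCongr e (Equiv.refl α)).hasSum_iff] at this
  convert this using 2 with x
  simp only [Function.comp, Equiv.arrowCongr_apply, Equiv.coe_refl, id]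
  exact (e.symm.prod_comp fun i => u i (x i)).symm

theorem ph_prod {L L' : Type} [AddCommGroup L] [AddCommGroup L'] {ρ : L → ℝ} {ρ' : L' → ℝ}
    (h : RW ρ) (h' : RW ρ') (ξ : L →+ ℝ) (ξ' : L' →+ ℝ) :
    Ph (fun p : L × L' => ρ p.1 * ρ' p.2) (ξ.coprod ξ') = Ph ρ ξ * Ph ρ' ξ' := by
  have H := hasSum_prod_c (hasSum_cis h ξ) (hasSum_cis h' ξ')
  have H' := hasSum_cis (h.prod h') (ξ.coprod ξ')
  have e := H'.unique (by
    convert H using 2 with p
    simp only [AddMonoidHom.coprod_apply]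
    push_cast
    rw [add_mul, Complex.exp_add]; ring)
  rw [Zs_prod h.summ h'.summ] at e
  have e' : Zs ρ * Zs ρ' * Ph (fun p : L × L' => ρ p.1 * ρ' p.2) (ξ.coprod ξ') =
      Zs ρ * Ph ρ ξ * (Zs ρ' * Ph ρ' ξ') := by exact_mod_cast e
  have := h.wt.pos; have := h'.wt.pos
  apply mul_left_cancel₀ (a := Zs ρ * Zs ρ') (by positivity)
  rw [e']; ring

/-- `x ↦ ∑ i, ξ i (x i)` -/
noncomputable def piH {ι L : Type} [Fintype ι] [AddCommGroup L] (ξ : ι → L →+ ℝ) : (ι → L) →+ ℝ :=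
  ∑ i, (ξ i).comp (Pi.evalAddMonoidHom (fun _ => L) i)

@[simp] theorem piH_apply {ι L : Type} [Fintype ι] [AddCommGroup L] (ξ : ι → L →+ ℝ) (x : ι → L) :
    piH ξ x = ∑ i, ξ i (x i) := by simp [piH, AddMonoidHom.finsetSum_apply]

theorem ph_pi {ι L : Type} [Fintype ι] [AddCommGroup L] {u : ι → L → ℝ} (h : ∀ i, RW (u i))
    (ξ : ι → L →+ ℝ) : Ph (fun x : ι → L => ∏ i, u i (x i)) (piH ξ) = ∏ i, Ph (u i) (ξ i) := by
  have H := hasSum_pi_c _ _ fun i => hasSum_cis (h i) (ξ i)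
  have H' := hasSum_cis (RW.pi h) (piH ξ)
  have e := H'.unique (by
    convert H using 2 with p
    rw [piH_apply, prod_mul_distrib, ← Complex.exp_sum]
    push_cast
    rw [sum_mul])
  have z : Zs (fun x : ι → L => ∏ i, u i (x i)) = ∏ i, Zs (u i) :=
    (hasSum_pi_prod u fun i => (h i).summ).tsum_eq
  rw [z] at e
  have e' : (∏ i, Zs (u i)) * Ph (fun x : ι → L => ∏ i, u i (x i)) (piH ξ) =
      ∏ i, Zs (u i) * Ph (u i) (ξ i) := by exact_mod_cast e
  rw [prod_mul_distrib] at e'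
  exact mul_left_cancel₀ (prod_pos fun i _ => (h i).wt.pos).ne' e'

/-! ### one integer variable -/

/-- `k ↦ a k` -/
noncomputable def zH (a : ℝ) : ℤ →+ ℝ := (AddMonoidHom.mulLeft a).comp (Int.castAddHom ℝ)

@[simp] theorem zH_apply (a : ℝ) (k : ℤ) : zH a k = a * k := rfl

theorem vr_kern (xy : Bool) {τ : ℝ} (hτ : 0 < τ) (a : ℝ) :
    Vr (kern xy τ) (zH a) (zH a) ≤ τ * a ^ 2 := by
  have hC : Cen (kern xy τ) := Fam.cen ⟨xy, τ, hτ, rfl⟩
  have key : ∀ t : ℝ, 0 < t → Vr (kern xy τ) (zH a) (zH a) ≤ exp ((t * a) ^ 2 / 2) * (τ * a ^ 2) :=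
    fun t ht => by
    have h2 := hC.vr_le_M (t • zH a)
    have h1 : M (kern xy τ) (t • zH a) ≤ τ * (cosh (t * a) - 1) := by
      refine le_of_eq_of_le ?_ (log_ex_kern xy hτ (t * a))
      simp [M, mul_assoc]
    rw [Vr_smul_left, Vr_smul_right] at h2
    have h3 := Real.cosh_le_exp_half_sq (t * a)
    have h4 := Real.add_one_le_exp (-((t * a) ^ 2 / 2))
    have h5 := mul_le_mul_of_nonneg_right h4 (Real.exp_pos ((t * a) ^ 2 / 2)).le
    rw [← Real.exp_add, neg_add_cancel, Real.exp_zero] at h5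
    have h6 : τ * (cosh (t * a) - 1) ≤ τ * ((t * a) ^ 2 / 2 * exp ((t * a) ^ 2 / 2)) :=
      mul_le_mul_of_nonneg_left (by linarith) hτ.le
    refine le_of_mul_le_mul_left (a := t ^ 2 / 2) ?_ (by positivity)
    nlinarith
  have h4 : ContinuousAt (fun t : ℝ => exp ((t * a) ^ 2 / 2) * (τ * a ^ 2)) 0 := by fun_prop
  have h5 := ge_of_tendsto (h4.tendsto.mono_left (nhdsWithin_le_nhds (s := Set.Ioi 0)))
    (eventually_nhdsWithin_of_forall key)
  simpa using h5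

theorem ph_kern (xy : Bool) {τ : ℝ} (hτ : 0 < τ) (a : ℝ) :
    exp (-(τ * a ^ 2) / 2) ≤ Ph (kern xy τ) (zH a) :=
  (exp_le_exp.2 (by linarith [vr_kern xy hτ a])).trans
    ((Fam.cen ⟨xy, τ, hτ, rfl⟩).ph_ge (zH a))

theorem ph_gau {τ : ℝ} (hτ : 0 < τ) (a : ℝ) : exp (-(τ * a ^ 2) / 2) ≤ Ph (gau τ) (zH a) :=
  ph_kern false hτ a

theorem ex_sq_gau {τ : ℝ} (hτ : 0 < τ) : Ex (gau τ) (fun k => (k : ℝ) ^ 2) ≤ τ := by
  have h := vr_kern false hτ 1
  rw [Vr_even (kern_neg false τ)] at h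
  refine le_of_eq_of_le (Ex_congr fun k _ => ?_) (h.trans_eq (by ring))
  rw [zH_apply]; ring

theorem rw_gau {τ : ℝ} (hτ : 0 < τ) : RW (gau τ) := RW.of_cen (gauStmt τ hτ).1.cen

/-! ### theta bounds -/

/-- `∑ exp (-a j²)` -/
noncomputable def Th (a : ℝ) : ℝ := ∑' j : ℤ, exp (-a * (j : ℝ) ^ 2)

theorem summable_Th {a : ℝ} (ha : 0 < a) : Summable fun j : ℤ => exp (-a * (j : ℝ) ^ 2) := by
  refine (rw_gau (τ := 1 / (2 * a)) (by positivity)).summ.congr fun j => ?_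
  rw [gau]; congr 1; field_simp

theorem one_le_Th {a : ℝ} (ha : 0 < a) : 1 ≤ Th a := by
  have := (summable_Th ha).le_tsum 0 fun j _ => (exp_pos _).le
  simpa [Th] using this

theorem sum_le_Th {a : ℝ} (ha : 0 < a) (R : Finset ℤ) : ∑ q ∈ R, exp (-a * (q : ℝ) ^ 2) ≤ Th a :=
  (summable_Th ha).sum_le_tsum R fun _ _ => (exp_pos _).le

/-- Poisson summation: the characteristic function of the discrete Gaussian -/
theorem ph_gau_le {τ : ℝ} (hτ : 0 < τ) (θ : ℝ) :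
    Ph (gau τ) (zH θ) ≤ ∑' p : ℤ, exp (-(τ * (θ - 2 * π * p) ^ 2) / 2) := by
  obtain ⟨α, hα⟩ : ∃ α : ℝ, α = 1 / (2 * π * τ) := ⟨_, rfl⟩
  have hα0 : 0 < α := by rw [hα]; positivity
  have h0 := Real.tsum_exp_neg_mul_int_sq hα0
  have h1 := Complex.tsum_exp_neg_quadratic (a := (α : ℂ)) (by simpa using hα0)
    (((θ / (2 * π) : ℝ) : ℂ) * Complex.I)
  have e0 : ∀ k : ℤ, exp (-π * α * (k : ℝ) ^ 2) = gau τ k := fun k => by
    rw [gau, hα]; congr 1; field_simp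
  have hπ : (π : ℂ) ≠ 0 := by exact_mod_cast pi_ne_zero
  have e1 : ∀ k : ℤ, Complex.exp (-π * α * k ^ 2 + 2 * π * (((θ / (2 * π) : ℝ) : ℂ) * Complex.I) * k) =
      (gau τ k : ℂ) * Complex.exp (zH θ k * Complex.I) := fun k => by
    rw [← e0, Complex.ofReal_exp, ← Complex.exp_add, zH_apply]
    congr 1
    push_cast; field_simp
  have e2 : ∀ k : ℤ, Complex.exp (-π / α * (k + Complex.I * (((θ / (2 * π) : ℝ) : ℂ) * Complex.I)) ^ 2) =
      ((exp (-(τ * (θ - 2 * π * k) ^ 2) / 2) : ℝ) : ℂ) := fun k => by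
    rw [Complex.ofReal_exp, mul_left_comm Complex.I, Complex.I_mul_I, hα]
    congr 1
    have : (τ : ℂ) ≠ 0 := by exact_mod_cast hτ.ne'
    push_cast; field_simp; ring
  simp only [e0] at h0
  simp only [e1, e2, ← Complex.ofReal_tsum] at h1
  rw [(hasSum_cis (rw_gau hτ) (zH θ)).tsum_eq] at h1
  have h3 : (1 / (α : ℂ) ^ (1 / 2 : ℂ)) = ((1 / α ^ (1 / 2 : ℝ) : ℝ) : ℂ) := by
    rw [Complex.ofReal_div, Complex.ofReal_cpow hα0.le]; norm_num
  rw [h3, ← Complex.ofReal_mul, Complex.ofReal_inj] at h1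
  have h4 : 1 / α ^ (1 / 2 : ℝ) ≤ Zs (gau τ) := by
    rw [Zs, h0]
    refine le_mul_of_one_le_right (by positivity) ?_
    have := one_le_Th (a := π / α) (by positivity)
    simpa [Th, neg_div] using this
  have h5 : 0 ≤ ∑' p : ℤ, exp (-(τ * (θ - 2 * π * p) ^ 2) / 2) := tsum_nonneg fun _ => (exp_pos _).le
  have hz := (rw_gau hτ).wt.pos
  refine le_of_mul_le_mul_left ?_ hz
  rw [h1]
  exact mul_le_mul_of_nonneg_right h4 h5

/-- decay of the characteristic function at the frequencies `2 π q / N`, `|q| ≤ N / 2` -/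
theorem ph_gau_decay {a τ : ℝ} (ha : 0 < a) {N : ℕ} (hN : 0 < N) (hτ : a * (N : ℝ) ^ 2 ≤ π ^ 2 * τ)
    {q : ℤ} (hq : 2 * |q| ≤ N) :
    Ph (gau τ) (zH (2 * π * q / N)) ≤ Th a * exp (-a * (q : ℝ) ^ 2) := by
  have hN' : (0 : ℝ) < N := by exact_mod_cast hN
  have hτ0 : 0 < τ := by
    by_contra h
    have : π ^ 2 * τ ≤ 0 := mul_nonpos_of_nonneg_of_nonpos (sq_nonneg _) (not_lt.1 h)
    have : 0 < a * (N : ℝ) ^ 2 := by positivity
    linarith
  have hi : Function.Injective fun p : ℤ => q - N * p := fun p p' h => by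
    have : (N : ℤ) * p = N * p' := by simpa using h
    exact mul_left_cancel₀ (by exact_mod_cast hN.ne') this
  have hS := (summable_Th ha).comp_injective hi
  have hb : ∀ p : ℤ, exp (-(τ * (2 * π * q / N - 2 * π * p) ^ 2) / 2) ≤
      exp (-a * ((q - N * p : ℤ) : ℝ) ^ 2) * exp (-a * (q : ℝ) ^ 2) := fun p => by
    rw [← exp_add, exp_le_exp]
    have h1 : q ^ 2 ≤ (q - N * p) ^ 2 := by
      rcases eq_or_ne p 0 with rfl | hp
      · simp
      · have h2 : (N : ℤ) ≤ |(N : ℤ) * p| := by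
          rw [abs_mul, Nat.abs_cast]
          exact le_mul_of_one_le_right (by positivity) (Int.one_le_abs hp)
        have h3 : |(N : ℤ) * p| ≤ |q - N * p| + |q| := by
          have := abs_sub (q - N * p) q
          rwa [show q - N * p - q = -(N * p) by ring, abs_neg] at this
        exact sq_le_sq.2 (by omega)
    have h1' : (q : ℝ) ^ 2 ≤ ((q - N * p : ℤ) : ℝ) ^ 2 := by exact_mod_cast h1
    have e : 2 * π * q / N - 2 * π * p = 2 * π * ((q - N * p : ℤ) : ℝ) / N := by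
      push_cast; field_simp
    rw [e]
    set j : ℝ := ((q - N * p : ℤ) : ℝ)
    have h4 : a * j ^ 2 ≤ τ * (π * j / N) ^ 2 := by
      rw [div_pow, ← mul_div_assoc, le_div_iff₀ (by positivity)]
      nlinarith [mul_le_mul_of_nonneg_right hτ (sq_nonneg j)]
    have h5 : (2 * π * j / N) ^ 2 = 4 * (π * j / N) ^ 2 := by ring
    rw [h5]
    nlinarith [mul_le_mul_of_nonneg_left h1' ha.le]
  have hS2 := hS.mul_right (exp (-a * (q : ℝ) ^ 2))
  have hS3 := Summable.of_nonneg_of_le (fun _ => (exp_pos _).le) hb hS2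
  refine (ph_gau_le hτ0 _).trans ((hS3.tsum_le_tsum hb hS2).trans ?_)
  rw [tsum_mul_right]
  refine mul_le_mul_of_nonneg_right ?_ (exp_pos _).le
  exact hS.tsum_le_tsum_of_inj _ hi (fun _ _ => (exp_pos _).le) (fun _ => le_rfl) (summable_Th ha)

/-! ### the finite Fourier sum -/

/-- symmetric residues modulo `N` -/
noncomputable def Rs (N : ℕ) : Finset ℤ := Finset.Ico (-((N / 2 : ℕ) : ℤ)) (N - (N / 2 : ℕ))

theorem Rs_abs {N : ℕ} {q : ℤ} (h : q ∈ Rs N) : 2 * |q| ≤ N := by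
  rw [Rs, mem_Ico] at h
  rcases abs_cases q with h1 | h1 <;> omega

theorem zero_mem_Rs {N : ℕ} (h : 2 ≤ N) : (0 : ℤ) ∈ Rs N := by rw [Rs, mem_Ico]; omega

theorem neg_one_mem_Rs {N : ℕ} (h : 2 ≤ N) : (-1 : ℤ) ∈ Rs N := by rw [Rs, mem_Ico]; omega

theorem sum_Rs {N : ℕ} (hN : 0 < N) (n : ℤ) :
    ∑ q ∈ Rs N, Complex.exp ((2 * π * q / N * n : ℝ) * Complex.I) = (N * ind ((N : ℤ) ∣ n) : ℝ) := by
  have hN' : (N : ℂ) ≠ 0 := by exact_mod_cast hN.ne'
  set z := Complex.exp ((2 * π / N * n : ℝ) * Complex.I)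
  have hz : ∀ q : ℤ, Complex.exp ((2 * π * q / N * n : ℝ) * Complex.I) = z ^ q := fun q => by
    rw [← Complex.exp_int_mul]; congr 1; push_cast; ring
  have hz0 : z ≠ 0 := Complex.exp_ne_zero _
  have hzN : z ^ N = 1 := by
    rw [← Complex.exp_nat_mul, Complex.exp_eq_one_iff]
    exact ⟨n, by push_cast; field_simp⟩
  have e : ∑ q ∈ Rs N, z ^ q = z ^ (-((N / 2 : ℕ) : ℤ)) * ∑ j ∈ range N, z ^ j := by
    rw [mul_sum]
    refine sum_bij' (fun q _ => (q + (N / 2 : ℕ)).toNat) (fun j _ => (j : ℤ) - (N / 2 : ℕ)) ?_ ?_ ?_ ?_ ?_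
    · intro q hq; rw [Rs, mem_Ico] at hq; rw [mem_range]; omega
    · intro j hj; rw [mem_range] at hj; rw [Rs, mem_Ico]; omega
    · intro q hq; rw [Rs, mem_Ico] at hq; omega
    · intro j _; simp
    · intro q hq
      rw [Rs, mem_Ico] at hq
      rw [← zpow_natCast, ← zpow_add₀ hz0]
      congr 1; omega
  simp only [hz]
  by_cases h : (N : ℤ) ∣ n
  · obtain ⟨m, rfl⟩ := h
    have : z = 1 := by
      rw [Complex.exp_eq_one_iff]
      exact ⟨m, by push_cast; field_simp⟩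
    rw [e, this, ind_pos (dvd_mul_right _ _)]
    simp
  · have h1 : z ≠ 1 := fun h1 => h (by
      obtain ⟨m, hm⟩ := Complex.exp_eq_one_iff.1 h1
      refine ⟨m, ?_⟩
      have hπ : (π : ℂ) ≠ 0 := by exact_mod_cast pi_ne_zero
      push_cast at hm
      field_simp at hm
      exact_mod_cast hm)
    rw [e, geom_sum_eq h1, hzN, ind_neg h]
    simp

section fourier
variable {L ι : Type} [AddCommGroup L] [Fintype ι] [DecidableEq ι]

/-- the character `2 π Q · n / N` of the levels -/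
noncomputable def ch (L : Type) [AddCommGroup L] (N : ℕ) (Q : ι → ℤ) : L × (ι → ℤ) →+ ℝ :=
  (0 : L →+ ℝ).coprod (piH fun i => zH (2 * π * Q i / N))

omit [DecidableEq ι] in
theorem ch_apply (N : ℕ) (Q : ι → ℤ) (p : L × (ι → ℤ)) :
    ch L N Q p = ∑ i, 2 * π * Q i / N * p.2 i := by simp [ch]

/-- integer levels inside the refined levels -/
def sc (L ι : Type) [AddCommGroup L] (N : ℕ) : L × (ι → ℤ) →+ L × (ι → ℤ) :=
  (AddMonoidHom.id L).prodMap (DistribSMul.toAddMonoidHom _ (N : ℤ))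

omit [Fintype ι] [DecidableEq ι] in
theorem sc_apply (N : ℕ) (p : L × (ι → ℤ)) : sc L ι N p = (p.1, (N : ℤ) • p.2) := rfl

omit [Fintype ι] [DecidableEq ι] in
theorem sc_inj {N : ℕ} (hN : 0 < N) : Function.Injective (sc L ι N) := fun p p' h => by
  rw [sc_apply, sc_apply, Prod.ext_iff] at h
  refine Prod.ext h.1 (funext fun i => ?_)
  exact mul_left_cancel₀ (a := (N : ℤ)) (by exact_mod_cast hN.ne') (congrFun h.2 i)

theorem sum_cos_ch {N : ℕ} (hN : 0 < N) (y : ℝ) (p : L × (ι → ℤ)) :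
    ∑ Q ∈ Fintype.piFinset fun _ : ι => Rs N, cos (y + ch L N Q p) =
      (N : ℝ) ^ Fintype.card ι * (ind (∀ i, (N : ℤ) ∣ p.2 i) * cos y) := by
  have e : ∑ Q ∈ Fintype.piFinset fun _ : ι => Rs N, Complex.exp ((y + ch L N Q p : ℝ) * Complex.I) =
      (((N : ℝ) ^ Fintype.card ι * ind (∀ i, (N : ℤ) ∣ p.2 i) : ℝ) : ℂ) * Complex.exp (y * Complex.I) := by
    have h1 := prod_univ_sum (fun _ : ι => Rs N)
      fun i q => Complex.exp ((2 * π * q / N * p.2 i : ℝ) * Complex.I)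
    simp only [sum_Rs hN] at h1
    have h2 : ind (∀ i, (N : ℤ) ∣ p.2 i) = ∏ i, ind ((N : ℤ) ∣ p.2 i) := by
      rw [← ind_forall]; simp
    rw [h2, ← card_univ, ← prod_const, ← prod_mul_distrib, Complex.ofReal_prod, h1, sum_mul]
    refine sum_congr rfl fun Q _ => ?_
    rw [← Complex.exp_sum, ← Complex.exp_add, ch_apply, Complex.ofReal_add, Complex.ofReal_sum, add_mul,
      sum_mul, add_comm]
  have := congrArg Complex.re e
  rw [Complex.re_sum, Complex.re_ofReal_mul, Complex.exp_ofReal_mul_I_re, mul_assoc] at this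
  simpa only [Complex.exp_ofReal_mul_I_re] using this

theorem fourier {ρ : L × (ι → ℤ) → ℝ} (h : RW ρ) {N : ℕ} (hN : 0 < N) (ξ : L × (ι → ℤ) →+ ℝ) :
    ∑ Q ∈ Fintype.piFinset fun _ : ι => Rs N, Ph ρ (ξ + ch L N Q) =
      (N : ℝ) ^ Fintype.card ι * Zs (fun p => ρ (sc L ι N p)) / Zs ρ *
        Ph (fun p => ρ (sc L ι N p)) (ξ.comp (sc L ι N)) := by
  have hS := (h.comp _ (sc_inj (L := L) (ι := ι) hN)).wt
  simp only [Ph, AddMonoidHom.add_apply]
  rw [← Ex_sum _ fun Q _ => h.wt.ig_bdd fun s => abs_cos_le_one _]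
  simp only [sum_cos_ch hN]
  rw [Ex_const_mul, Ex_def, mul_div_assoc, mul_assoc, div_mul_eq_mul_div, ← hS.tsum_eq,
    ← (sc_inj hN).tsum_eq (f := fun p => ρ p * (ind (∀ i, (N : ℤ) ∣ p.2 i) * cos (ξ p)))]
  · congr 2
    refine tsum_congr fun p => ?_
    rw [ind_pos fun i => by simp [sc_apply], one_mul]; rfl
  · intro p hp
    have := ind_ne_zero.1 (left_ne_zero_of_mul (right_ne_zero_of_mul hp))
    choose m hm using this
    exact ⟨(p.1, m), Prod.ext rfl (funext fun i => (hm i).symm)⟩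

end fourier

end Crest.Agent.T145.Sec62
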