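import Crest.Agent.T145.SecA_62

/-!
# Row 145, module (b), SEC (helper62), part B: one box tied to the ground by springs
-/

set_option autoImplicit false

namespace Crest.Agent.T145.Sec62

open Finset Real MeasureTheory ProbabilityTheory

theorem gauss_cos (a t : ℝ) :
    ∫ ζ, cos (a + ζ * t) ∂gaussianReal 0 1 = exp (-t ^ 2 / 2) * cos a := by
  have h := charFun_gaussianReal (μ := 0) (v := 1) t
  rw [charFun_apply_real] at h
  have hi : Integrable (fun x : ℝ => Complex.exp (a * Complex.I) * Complex.exp (t * x * Complex.I))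
      (gaussianReal 0 1) := by
    refine (integrable_const (1 : ℝ)).mono' (by fun_prop) (.of_forall fun x => ?_)
    rw [norm_mul, Complex.norm_exp_ofReal_mul_I, ← Complex.ofReal_mul, Complex.norm_exp_ofReal_mul_I,
      one_mul]
  have h2 := integral_re hi
  rw [integral_const_mul, h] at h2
  have e : Complex.exp (t * (0 : ℝ) * Complex.I - ((1 : NNReal) : ℝ) * t ^ 2 / 2) =
      ((exp (-t ^ 2 / 2) : ℝ) : ℂ) := by
    rw [Complex.ofReal_exp]; congr 1; push_cast; ring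
  rw [e, mul_comm (Complex.exp _)] at h2
  simp only [RCLike.re_to_complex, Complex.re_ofReal_mul, Complex.exp_ofReal_mul_I_re] at h2
  rw [← h2]
  refine integral_congr_ae (.of_forall fun x => ?_)
  simp only
  rw [← Complex.exp_add, ← Complex.ofReal_mul, ← add_mul, ← Complex.ofReal_add,
    Complex.exp_ofReal_mul_I_re, mul_comm x]

theorem gauss_sq : Integrable (fun ζ : ℝ => ζ ^ 2) (gaussianReal 0 1) ∧
    ∫ ζ, ζ ^ 2 ∂gaussianReal 0 1 = 1 := by
  have h := memLp_id_gaussianReal (μ := 0) (v := 1) 2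
  refine ⟨by simpa using h.integrable_sq, ?_⟩
  have h1 := variance_fun_id_gaussianReal (μ := 0) (v := 1)
  rw [variance_eq_integral (by fun_prop)] at h1
  simpa using h1

section
variable {α : Type} [Countable α] {ρ : α → ℝ}

theorem spring1 (h0 : ∀ s, 0 ≤ ρ s) (hs : Summable ρ) (y t : α → ℝ) {A K : ℝ} (hA : 0 ≤ A)
    (hK : 0 < K) (h : ∀ ζ : ℝ, |ζ| ≤ K → ∑' s, ρ s * cos (y s + ζ * t s) ≤ A) :
    ∑' s, ρ s * exp (-t s ^ 2 / 2) * cos (y s) ≤ A + Zs ρ / K ^ 2 := by
  have hb : ∀ s ζ, ‖ρ s * cos (y s + ζ * t s)‖ ≤ ρ s := fun s ζ => by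
    rw [norm_mul, Real.norm_of_nonneg (h0 s)]
    exact mul_le_of_le_one_right (h0 s) (abs_cos_le_one _)
  have hi : ∀ s, Integrable (fun ζ => ρ s * cos (y s + ζ * t s)) (gaussianReal 0 1) := fun s =>
    (integrable_const (ρ s)).mono' (by fun_prop) (.of_forall (hb s))
  have hS : Summable fun s => ∫ ζ, ‖ρ s * cos (y s + ζ * t s)‖ ∂gaussianReal 0 1 :=
    Summable.of_nonneg_of_le (fun s => integral_nonneg fun _ => norm_nonneg _)
      (fun s => (integral_mono (hi s).norm (integrable_const _) (hb s)).trans_eq (by simp)) hs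
  have H := integral_tsum_of_summable_integral_norm hi hS
  simp only [integral_const_mul, gauss_cos, ← mul_assoc] at H
  have hc : Continuous fun ζ : ℝ => ∑' s, ρ s * cos (y s + ζ * t s) :=
    continuous_tsum (fun s => by fun_prop) hs hb
  have hZ : ∀ ζ, ‖∑' s, ρ s * cos (y s + ζ * t s)‖ ≤ Zs ρ := fun ζ =>
    tsum_of_norm_bounded hs.hasSum fun s => hb s ζ
  have hZ0 : 0 ≤ Zs ρ := Zs_nonneg h0
  rw [H]
  calc _ ≤ ∫ ζ, (A + Zs ρ / K ^ 2 * ζ ^ 2) ∂gaussianReal 0 1 := by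
        refine integral_mono ((integrable_const (Zs ρ)).mono' hc.aestronglyMeasurable (.of_forall hZ))
          ((integrable_const _).add (gauss_sq.1.const_mul _)) fun ζ => ?_
        by_cases hζ : |ζ| ≤ K
        · exact (h ζ hζ).trans (le_add_of_nonneg_right (by positivity))
        · have h1 : K ^ 2 ≤ ζ ^ 2 := by
            rw [← sq_abs ζ]; exact pow_le_pow_left₀ hK.le (not_le.1 hζ).le 2
          have h2 : Zs ρ ≤ Zs ρ / K ^ 2 * ζ ^ 2 := by
            rw [div_mul_eq_mul_div, le_div_iff₀ (by positivity)]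
            exact mul_le_mul_of_nonneg_left h1 hZ0
          exact ((le_abs_self _).trans (hZ ζ)).trans (by linarith)
    _ = _ := by
        rw [integral_add (integrable_const _) (gauss_sq.1.const_mul _), integral_const_mul, gauss_sq.2]
        simp

theorem springs {J : Type} [DecidableEq J] (T : Finset J) (t : J → α → ℝ) {K : ℝ} (hK : 0 < K) :
    ∀ {ρ : α → ℝ} (y : α → ℝ) {A : ℝ}, (∀ s, 0 ≤ ρ s) → Summable ρ → 0 ≤ A →
    (∀ ζ : J → ℝ, (∀ j, |ζ j| ≤ K) → ∑' s, ρ s * cos (y s + ∑ j ∈ T, ζ j * t j s) ≤ A) →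
    ∑' s, ρ s * (∏ j ∈ T, exp (-t j s ^ 2 / 2)) * cos (y s) ≤ A + T.card * (Zs ρ / K ^ 2) := by
  induction T using Finset.induction_on with
  | empty =>
    intro ρ y A _ _ _ h
    simpa using h 0 fun _ => by simpa using hK.le
  | insert a T ha ih =>
    intro ρ y A h0 hs hA h
    have hle : ∀ s, ρ s * exp (-t a s ^ 2 / 2) ≤ ρ s := fun s =>
      mul_le_of_le_one_right (h0 s) (exp_le_one_iff.2 (by nlinarith [sq_nonneg (t a s)]))
    have h0' : ∀ s, 0 ≤ ρ s * exp (-t a s ^ 2 / 2) := fun s => mul_nonneg (h0 s) (exp_pos _).le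
    have hs' := Summable.of_nonneg_of_le h0' hle hs
    have hZ0 : 0 ≤ Zs ρ := Zs_nonneg h0
    have H := ih (ρ := fun s => ρ s * exp (-t a s ^ 2 / 2)) y (A := A + Zs ρ / K ^ 2) h0' hs'
      (by positivity) fun ζ hζ => spring1 h0 hs _ _ hA hK fun z hz => by
        refine le_of_eq_of_le (tsum_congr fun s => ?_) (h (Function.update ζ a z) fun j => ?_)
        · rw [sum_insert ha, Function.update_self, add_comm (z * _), ← add_assoc]
          congr 4
          exact sum_congr rfl fun j hj => by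
            rw [Function.update_of_ne (ne_of_mem_of_not_mem hj ha)]
        · rcases eq_or_ne j a with rfl | hj
          · rwa [Function.update_self]
          · rw [Function.update_of_ne hj]; exact hζ j
    have hZ : Zs (fun s => ρ s * exp (-t a s ^ 2 / 2)) / K ^ 2 ≤ Zs ρ / K ^ 2 :=
      div_le_div_of_nonneg_right (hs'.tsum_le_tsum hle hs) (by positivity)
    simp only [prod_insert ha, ← mul_assoc, card_insert_of_notMem ha]
    push_cast
    nlinarith [mul_le_mul_of_nonneg_left hZ (Nat.cast_nonneg (α := ℝ) T.card)]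

end

/-- real form of an integer functional -/
def cR {L : Type} [AddCommGroup L] (a : L →+ ℤ) : L →+ ℝ := (Int.castAddHom ℝ).comp a

@[simp] theorem cR_apply {L : Type} [AddCommGroup L] (a : L →+ ℤ) (s : L) : cR a s = a s := rfl

section box
variable {L J : Type} [AddCommGroup L] [IsAddTorsionFree L] [DecidableEq J] {W : L → ℝ}
  {a : J → L →+ ℤ} {T : Finset J} {σ : ℝ}

/-- a box with a refined level, tied to the ground by the springs `T` -/
noncomputable def bx (W : L → ℝ) (a : J → L →+ ℤ) (T : Finset J) (σ : ℝ) (p : L × ℤ) : ℝ :=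
  W p.1 * ∏ j ∈ T, gau σ (a j p.1 + p.2)

/-- the level -/
noncomputable def lev (L : Type) [AddCommGroup L] (θ : ℝ) : L × ℤ →+ ℝ := (0 : L →+ ℝ).coprod (zH θ)

omit [IsAddTorsionFree L] in
@[simp] theorem lev_apply (θ : ℝ) (p : L × ℤ) : lev L θ p = θ * p.2 := by simp [lev]

omit [DecidableEq J] in
theorem bx_decay (h : RW (bx W a T σ)) (hW : 0 < W 0) (hσ : 0 < σ) (hT : T.Nonempty) {c : ℝ}
    (hc : 0 < c) {N : ℕ} (hN : 0 < N) (hσ' : c * T.card * (N : ℝ) ^ 2 ≤ π ^ 2 * σ) {q : ℤ}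
    (hq : 2 * |q| ≤ N) : Ph (bx W a T σ) (lev L (2 * π * q / N)) ≤ Th c * exp (-c * (q : ℝ) ^ 2) := by
  have ht : (0 : ℝ) < T.card := by exact_mod_cast hT.card_pos
  refine (h.ph_sub (AddMonoidHom.inr L ℤ) (fun n n' e => (Prod.ext_iff.1 e).2) _).trans ?_
  have e : (fun n : ℤ => bx W a T σ (AddMonoidHom.inr L ℤ n)) = fun n => W 0 * gau (σ / T.card) n := by
    funext n
    simp only [bx, AddMonoidHom.inr_apply, map_zero, zero_add, prod_const, gau, ← exp_nat_mul]
    congr 2; field_simp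
  have e' : (lev L (2 * π * q / N)).comp (AddMonoidHom.inr L ℤ) = zH (2 * π * q / N) := by
    ext; simp
  rw [e, e', Ph, Ex_smul _ _ hW.ne']
  refine ph_gau_decay hc hN ?_ hq
  rw [← mul_div_assoc, le_div_iff₀ ht]
  linarith

/-- shear: the argument of the spring `j₀` is independent of the box -/
def shear (a : L →+ ℤ) : L × ℤ ≃ L × ℤ where
  toFun p := (p.1, p.2 - a p.1)
  invFun p := (p.1, p.2 + a p.1)
  left_inv p := by simp
  right_inv p := by simp

omit [IsAddTorsionFree L] in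
theorem bx_le [Countable L] (hW : Cen W) (hσ : 0 < σ) {j₀ : J} (hj : j₀ ∈ T) {V K A : ℝ} (hK : 0 < K)
    (hA : 0 ≤ A) (hV0 : 0 ≤ V)
    (hV : ∀ j, Vr W (cR (a j) - cR (a j₀)) (cR (a j) - cR (a j₀)) ≤ V * σ) (θ : ℝ)
    (h : ∀ ζ : J → ℝ, (∀ j, |ζ j| ≤ K) →
      Ph W (∑ j ∈ T.erase j₀, (ζ j / √σ) • (cR (a j) - cR (a j₀)) - θ • cR (a j₀)) ≤ A) :
    Ph (bx W a T σ) (lev L θ) ≤ (A + T.card / K ^ 2) * exp (T.card * (1 + V)) := by
  have hs := Real.sqrt_pos.2 hσ
  set t : J → L × ℤ → ℝ := fun j p => ((p.2 : ℝ) + (cR (a j) - cR (a j₀)) p.1) / √σ with ht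
  set ρ : L × ℤ → ℝ := fun p => W p.1 * gau σ p.2 with hρ
  have hR : RW ρ := (RW.of_cen hW).prod (rw_gau hσ)
  have hG := rw_gau hσ
  have e : ∀ p, bx W a T σ (shear (a j₀) p) = ρ p * ∏ j ∈ T.erase j₀, exp (-t j p ^ 2 / 2) := fun p => by
    simp only [bx, shear, Equiv.coe_fn_mk, hρ, ht]
    rw [← mul_prod_erase T _ hj, mul_assoc, add_sub_cancel]
    congr 2
    refine prod_congr rfl fun j _ => ?_
    rw [gau, div_pow, Real.sq_sqrt hσ.le]
    congr 1
    simp only [AddMonoidHom.sub_apply, cR_apply]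
    push_cast; field_simp; ring
  have hcard : ((T.erase j₀).card : ℝ) ≤ T.card := by exact_mod_cast card_erase_le
  -- numerator
  have hN := springs (T.erase j₀) t hK (ρ := ρ) (fun p => θ * (p.2 - a j₀ p.1 : ℤ)) (A := Zs ρ * A)
    hR.rsd.nonneg hR.summ (mul_nonneg hR.wt.pos.le hA) fun ζ hζ => by
      have h1 := ph_prod (RW.of_cen hW) hG
        (∑ j ∈ T.erase j₀, (ζ j / √σ) • (cR (a j) - cR (a j₀)) - θ • cR (a j₀))
        (zH (θ + ∑ j ∈ T.erase j₀, ζ j / √σ))
      have h2 := mul_le_mul (h ζ hζ) (hG.ph_le (zH (θ + ∑ j ∈ T.erase j₀, ζ j / √σ)))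
        (hG.ph_nonneg _) hA
      rw [← h1, mul_one, Ph] at h2
      refine le_of_eq_of_le ?_ (mul_le_mul_of_nonneg_left h2 hR.wt.pos.le)
      rw [← hR.wt.tsum_eq]
      refine tsum_congr fun p => ?_
      congr 2
      simp only [ht, AddMonoidHom.coprod_apply, AddMonoidHom.sub_apply, AddMonoidHom.finsetSum_apply,
        AddMonoidHom.smul_apply, smul_eq_mul, cR_apply, zH_apply, add_mul, sum_mul]
      push_cast
      rw [show ∀ x y z w : ℝ, x - y + (z + w) = (z - y) + (x + w) from fun _ _ _ _ => by ring,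
        ← sum_add_distrib, mul_sub]
      congr 1
      exact sum_congr rfl fun j _ => by ring
  -- denominator
  have hI1 : ∀ j, Ig ρ fun p => (cR (a j) - cR (a j₀)) p.1 ^ 2 := fun j =>
    Ig.prod_fst (hW.ig ((Tame.hom _).pow 2)) hG.summ
  have hI2 : Ig ρ fun p => (p.2 : ℝ) ^ 2 :=
    Ig.prod_snd (Φ := fun k : ℤ => (k : ℝ) ^ 2)
      (((gauStmt σ hσ).1.cen.ig ((Tame.hom (zH 1)).pow 2)).congr fun k _ => by simp) hW.se.summable
  have hb : ∀ j p, t j p ^ 2 / 2 ≤ ((p.2 : ℝ) ^ 2 + (cR (a j) - cR (a j₀)) p.1 ^ 2) / σ := fun j p => by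
    simp only [ht]
    rw [div_pow, Real.sq_sqrt hσ.le, div_div, div_le_div_iff₀ (by positivity) hσ]
    nlinarith [mul_nonneg hσ.le (sq_nonneg ((p.2 : ℝ) - (cR (a j) - cR (a j₀)) p.1))]
  have hI3 : ∀ j, Ig ρ fun p => t j p ^ 2 / 2 := fun j =>
    Ig.of_le hR.rsd.nonneg ((hI2.add (hI1 j)).div_const σ) (fun _ => by positivity) (hb j)
  have hE : ∀ j, Ex ρ (fun p => t j p ^ 2 / 2) ≤ 1 + V := fun j => by
    refine (Ex_mono hR.rsd.nonneg (hI3 j) ((hI2.add (hI1 j)).div_const σ) (hb j)).trans ?_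
    rw [Ex_div_const, Ex_add hI2 (hI1 j), div_le_iff₀ hσ]
    have h1 : Ex ρ (fun p => (p.2 : ℝ) ^ 2) ≤ σ := by
      rw [Ex_prod_snd (Φ := fun k : ℤ => (k : ℝ) ^ 2) hW.wt hG.wt
        (((gauStmt σ hσ).1.cen.ig ((Tame.hom (zH 1)).pow 2)).congr fun k _ => by simp)]
      exact ex_sq_gau hσ
    have h2 : Ex ρ (fun p => (cR (a j) - cR (a j₀)) p.1 ^ 2) ≤ V * σ := by
      rw [Ex_prod_fst (F := fun s => (cR (a j) - cR (a j₀)) s ^ 2) hW.wt hG.wt
        (hW.ig ((Tame.hom _).pow 2))]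
      have := hV j
      rw [hW.Vr_eq] at this
      simpa only [pow_two] using this
    linarith
  have hP : ∀ p, ∏ j ∈ T.erase j₀, exp (-t j p ^ 2 / 2) = exp (-∑ j ∈ T.erase j₀, t j p ^ 2 / 2) :=
    fun p => by rw [← exp_sum, ← sum_neg_distrib]; simp only [neg_div]
  have hD : exp (-(T.card * (1 + V))) ≤ Ex ρ fun p => ∏ j ∈ T.erase j₀, exp (-t j p ^ 2 / 2) := by
    simp only [hP]
    refine le_trans (exp_le_exp.2 ?_) (hR.wt.exp_ex_le (Ig.sum _ fun j _ => hI3 j).neg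
      (hR.wt.ig_bdd (C := 1) fun p => ?_))
    · rw [Ex_neg, Ex_sum _ fun j _ => hI3 j, neg_le_neg_iff]
      refine (sum_le_sum fun j _ => hE j).trans ?_
      rw [sum_const, nsmul_eq_mul]
      exact mul_le_mul_of_nonneg_right hcard (by linarith)
    · rw [abs_of_pos (exp_pos _), exp_le_one_iff, neg_nonpos]
      exact sum_nonneg fun j _ => by positivity
  have hz := hR.wt.pos
  rw [Ph, ← Ex_equiv (shear (a j₀))]
  simp only [e, lev_apply]
  rw [Ex_def, hR.wt.Zs_mul, div_le_iff₀ (mul_pos hz ((exp_pos _).trans_le hD))]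
  refine hN.trans ?_
  have h3 : 1 ≤ exp (T.card * (1 + V)) * Ex ρ fun p => ∏ j ∈ T.erase j₀, exp (-t j p ^ 2 / 2) := by
    have := mul_le_mul_of_nonneg_left hD (exp_pos (T.card * (1 + V))).le
    rwa [← exp_add, add_neg_cancel, exp_zero] at this
  have h4 : Zs ρ * A + (T.erase j₀).card * (Zs ρ / K ^ 2) ≤ (A + T.card / K ^ 2) * Zs ρ := by
    have := mul_le_mul_of_nonneg_right hcard (by positivity : 0 ≤ Zs ρ / K ^ 2)
    have e2 : (T.card : ℝ) / K ^ 2 * Zs ρ = T.card * (Zs ρ / K ^ 2) := by ring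
    rw [add_mul, e2]; linarith
  refine h4.trans ?_
  have h5 : 0 ≤ (A + T.card / K ^ 2) * Zs ρ := by positivity
  nlinarith [mul_le_mul_of_nonneg_left h3 h5]

end box

end Crest.Agent.T145.Sec62
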