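import Crest.Agent.T145.SecB_62

/-!
# Row 145, module (b), SEC (helper62), part C: boxes joined by springs, refined levels
-/

set_option autoImplicit false
set_option linter.unusedSectionVars false

namespace Crest.Agent.T145.Sec62

open Finset Real

theorem RW.smul {L : Type} [AddCommGroup L] {ρ : L → ℝ} (h : RW ρ) {c : ℝ} (hc : 0 < c) :
    RW fun s => c * ρ s :=
  ⟨Rsd63.rsd_mul ⟨fun _ => hc.le, fun _ => rfl, fun _ => psd_const (mul_self_nonneg c)⟩ h.rsd,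
    h.summ.mul_left c, mul_pos hc h.pos0⟩

/-- boxes `ι` (root `o`, weight `W`, sides `A`), springs `β` (noise `V`, `B`), levels in `ℤ / N` -/
structure Sys (ι β L K : Type) [AddCommGroup L] [AddCommGroup K] where
  o : ι
  src : β → ι
  tgt : β → ι
  dp : β → Fin 4
  dm : β → Fin 4
  W : L → ℝ
  V : K → ℝ
  A : Fin 4 → L →+ ℤ
  B : K →+ ℤ
  N : ℕ
  σ : ℝ

namespace Sys
variable {ι β L K : Type} [Fintype ι] [DecidableEq ι] [Fintype β] [DecidableEq β] [AddCommGroup L]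
  [AddCommGroup K] [IsAddTorsionFree L] [IsAddTorsionFree K] (S : Sys ι β L K)

structure Ok : Prop where
  W : Cen S.W
  V : RW S.V
  ne : ∀ b, S.src b ≠ S.tgt b
  conn : ∀ n : ι → ℤ, n S.o = 0 → (∀ b, n (S.tgt b) = n (S.src b)) → n = 0
  N : 2 ≤ S.N
  σ : 0 < S.σ

/-- the boxes with a free level -/
abbrev I : Type := {i // i ≠ S.o}

/-- extension by `0` at the root -/
def ext (n : S.I → ℤ) (i : ι) : ℤ := if h : i = S.o then 0 else n ⟨i, h⟩

theorem ext_o (n : S.I → ℤ) : S.ext n S.o = 0 := dif_pos rfl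
theorem ext_I (n : S.I → ℤ) (i : S.I) : S.ext n i = n i := dif_neg i.2
theorem ext_add (n n' : S.I → ℤ) (i : ι) : S.ext (n + n') i = S.ext n i + S.ext n' i := by
  unfold ext; split_ifs <;> simp

theorem sum_ext (c : ι → ℝ) (n : S.I → ℤ) :
    ∑ i, c i * S.ext n i = ∑ i : S.I, c i * n i := by
  rw [Fintype.sum_eq_add_sum_subtype_ne _ S.o, ext_o]
  simp [ext_I]

/-- the arguments of the springs -/
def ψ : ((ι → L) × (β → K)) × (S.I → ℤ) →+ ((ι → L) × (β → K)) × (β → ℤ) :=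
  AddMonoidHom.mk' (fun p => (p.1, fun b => S.A (S.dm b) (p.1.1 (S.tgt b)) -
    S.A (S.dp b) (p.1.1 (S.src b)) - S.B (p.1.2 b) + (S.ext p.2 (S.tgt b) - S.ext p.2 (S.src b))))
    fun p p' => Prod.ext rfl (funext fun b => by simp [ext_add]; ring)

theorem ψ_apply (p : ((ι → L) × (β → K)) × (S.I → ℤ)) : S.ψ p = (p.1, fun b =>
    S.A (S.dm b) (p.1.1 (S.tgt b)) - S.A (S.dp b) (p.1.1 (S.src b)) - S.B (p.1.2 b) +
      (S.ext p.2 (S.tgt b) - S.ext p.2 (S.src b))) := rfl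

/-- independent boxes, noises and springs -/
noncomputable def U (p : ((ι → L) × (β → K)) × (β → ℤ)) : ℝ :=
  ((∏ i, S.W (p.1.1 i)) * ∏ b, S.V (p.1.2 b)) * ∏ b, gau S.σ (p.2 b)

/-- the spring model with refined levels -/
noncomputable def ρ (p : ((ι → L) × (β → K)) × (S.I → ℤ)) : ℝ := S.U (S.ψ p)

/-- side charges -/
noncomputable def sdF : (Fin 4 → ℝ) →ₗ[ℝ] (L →+ ℝ) :=
  Fintype.linearCombination ℝ fun d => (S.N : ℝ)⁻¹ • cR (S.A d)

theorem sdF_apply (g : Fin 4 → ℝ) (s : L) : S.sdF g s = ∑ d, g d * ((S.N : ℝ)⁻¹ * S.A d s) := by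
  simp [sdF, Fintype.linearCombination_apply, AddMonoidHom.finsetSum_apply]

theorem sdF_single (d : Fin 4) : S.sdF (Pi.single d 1) = (S.N : ℝ)⁻¹ • cR (S.A d) := by
  simp [sdF]

/-- the outer charges -/
noncomputable def Ξ (ξ : ι → Fin 4 → ℝ) : ((ι → L) × (β → K)) × (S.I → ℤ) →+ ℝ :=
  ((piH fun i => S.sdF (ξ i)).coprod 0).coprod (piH fun i : S.I => zH ((∑ d, ξ i d) / S.N))

theorem Ξ_apply (ξ : ι → Fin 4 → ℝ) (p : ((ι → L) × (β → K)) × (S.I → ℤ)) :
    S.Ξ ξ p = ∑ i, ∑ d, ξ i d * ((S.N : ℝ)⁻¹ * (S.A d (p.1.1 i) + S.ext p.2 i)) := by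
  have := S.sum_ext (fun i => (∑ d, ξ i d) / S.N) p.2
  simp only [Ξ, AddMonoidHom.coprod_apply, piH_apply, zH_apply, AddMonoidHom.zero_apply, add_zero]
  rw [← this, ← sum_add_distrib]
  refine sum_congr rfl fun i _ => ?_
  rw [sdF_apply, sum_div, sum_mul, ← sum_add_distrib]
  exact sum_congr rfl fun d _ => by ring

/-- the sector of the box `i₀` -/
def Qd (i₀ : ι) (i : S.I) : ℤ := if i.1 = i₀ then -1 else 0

theorem Qd_inj : Function.Injective S.Qd := fun i j h => by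
  by_contra hij
  by_cases hi : i = S.o
  · have hj : j ≠ S.o := fun e => hij (hi.trans e.symm)
    have := congrFun h ⟨j, hj⟩
    simp [Qd, Ne.symm hij] at this
  · have := congrFun h ⟨i, hi⟩
    simp [Qd, hij] at this

structure Fx (ξ f : ι → Fin 4 → ℝ) (i₀ : ι) : Prop where
  id : ∀ u : ι → Fin 4 → ℝ, ∑ i, ∑ d, f i d * u i d = ∑ i, ∑ d, ξ i d * u i d +
    ∑ b, (f (S.tgt b) (S.dm b) * u (S.tgt b) (S.dm b) + f (S.src b) (S.dp b) * u (S.src b) (S.dp b))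
  opp : ∀ b, f (S.src b) (S.dp b) = -f (S.tgt b) (S.dm b)
  chg : ∀ i, ∑ d, f i d = if i = i₀ then 2 * π else 0
  pos : ∀ i d, 0 ≤ ξ i d * f i d

variable {S}

theorem Ok.inj (h : S.Ok) : Function.Injective S.ψ := (injective_iff_map_eq_zero _).2 fun p hp => by
  rw [ψ_apply, Prod.ext_iff] at hp
  have h1 : p.1 = 0 := hp.1
  have h2 := h.conn (S.ext p.2) (S.ext_o _) fun b => by
    have := congrFun hp.2 b
    simp only [h1, Prod.fst_zero, Prod.snd_zero, Pi.zero_apply, map_zero] at this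
    omega
  exact Prod.ext h1 (funext fun i => by rw [← S.ext_I p.2 i, h2]; rfl)

theorem Ok.rwU (h : S.Ok) : RW S.U :=
  ((RW.pi fun _ => RW.of_cen h.W).prod (RW.pi fun _ => h.V)).prod (RW.pi fun _ => rw_gau h.σ)

theorem Ok.rw (h : S.Ok) : RW S.ρ := h.rwU.comp _ h.inj

theorem Ok.Npos (h : S.Ok) : 0 < S.N := by have := h.N; omega

/-- one sector -/
theorem Ok.num (h : S.Ok) {v : ℝ} (hv0 : 0 ≤ v) (hv : ∀ ζ : ℝ, exp (-(v * ζ ^ 2) / 2) ≤ Ph S.V (ζ • cR S.B))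
    {ξ f : ι → Fin 4 → ℝ} {i₀ : ι} (hf : S.Fx ξ f i₀) :
    (∏ i, Ph S.W (S.sdF (f i))) * exp (-((S.σ + v) / (S.N : ℝ) ^ 2 * (∑ i, ∑ d, f i d ^ 2) / 4)) ≤
      Ph S.ρ (S.Ξ ξ + ch _ S.N (S.Qd i₀)) := by
  have hN : (0 : ℝ) < S.N := by exact_mod_cast h.Npos
  set ζ : β → ℝ := fun b => -(f (S.tgt b) (S.dm b) / S.N) with hζ
  have H := h.rwU.ph_sub _ h.inj (((piH fun i => S.sdF (f i)).coprod
    (piH fun b => ζ b • cR S.B)).coprod (piH fun b => zH (ζ b)))
  have e := ph_prod ((RW.pi fun _ : ι => RW.of_cen h.W).prod (RW.pi fun _ : β => h.V))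
    (RW.pi fun _ : β => rw_gau h.σ) ((piH fun i => S.sdF (f i)).coprod
    (piH fun b => ζ b • cR S.B)) (piH fun b => zH (ζ b))
  rw [ph_prod (RW.pi fun _ : ι => RW.of_cen h.W) (RW.pi fun _ : β => h.V),
    ph_pi (fun _ => RW.of_cen h.W), ph_pi (fun _ => h.V), ph_pi (fun _ => rw_gau h.σ)] at e
  refine le_trans ?_ ((e.symm.trans_le H).trans_eq ?_)
  · rw [mul_assoc, ← prod_mul_distrib]
    refine mul_le_mul_of_nonneg_left ?_ (prod_nonneg fun i _ => (h.W.ph_pos _).le)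
    refine le_trans ?_ (prod_le_prod (f := fun b => exp (-((S.σ + v) * ζ b ^ 2) / 2))
      (fun _ _ => (exp_pos _).le) fun b _ => ?_)
    · rw [← exp_sum, exp_le_exp]
      have h1 := hf.id f
      have h2 : 0 ≤ ∑ i, ∑ d, ξ i d * f i d := sum_nonneg fun i _ => sum_nonneg fun d _ => hf.pos i d
      have h3 : ∑ b, -((S.σ + v) * ζ b ^ 2) / 2 = -((S.σ + v) / (S.N : ℝ) ^ 2 *
          (∑ b, (f (S.tgt b) (S.dm b) * f (S.tgt b) (S.dm b) +
            f (S.src b) (S.dp b) * f (S.src b) (S.dp b))) / 4) := by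
        rw [mul_sum, sum_div, ← sum_neg_distrib]
        refine sum_congr rfl fun b _ => ?_
        rw [hf.opp, hζ]; field_simp; ring
      have h4 : 0 ≤ (S.σ + v) / (S.N : ℝ) ^ 2 := by have := h.σ; positivity
      simp only [pow_two (f _ _)]
      rw [h3, h1]
      nlinarith [mul_nonneg h4 h2]
    · refine le_trans (le_of_eq ?_) (mul_le_mul (hv (ζ b)) (ph_gau h.σ (ζ b)) (exp_pos _).le
        (h.V.ph_nonneg _))
      rw [← exp_add]; congr 1; ring
  · congr 1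
    refine AddMonoidHom.ext fun p => ?_
    have h1 := hf.id fun i d => (S.N : ℝ)⁻¹ * (S.A d (p.1.1 i) + S.ext p.2 i)
    have h2 : ch ((ι → L) × (β → K)) S.N (S.Qd i₀) p =
        -∑ i, (∑ d, f i d) * ((S.N : ℝ)⁻¹ * S.ext p.2 i) := by
      have := S.sum_ext (fun i => -((if i = i₀ then 2 * π else 0) * (S.N : ℝ)⁻¹)) p.2
      simp only [ch_apply, hf.chg, ← sum_neg_distrib, ← mul_assoc, ← neg_mul] at this ⊢
      rw [this]
      refine sum_congr rfl fun i _ => ?_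
      unfold Qd; split_ifs <;> simp [div_eq_mul_inv]
    rw [AddMonoidHom.add_apply, Ξ_apply, h2, ← sub_eq_add_neg, eq_sub_iff_add_eq,
      ← sub_eq_iff_eq_add.2 h1]
    simp only [AddMonoidHom.comp_apply, AddMonoidHom.coprod_apply, ψ_apply, piH_apply, sdF_apply,
      AddMonoidHom.smul_apply, smul_eq_mul, cR_apply, zH_apply, hf.opp, sum_mul]
    have e1 : ∑ i, ∑ d, f i d * ((S.N : ℝ)⁻¹ * (S.A d (p.1.1 i) + S.ext p.2 i)) =
        ∑ i, ∑ d, f i d * ((S.N : ℝ)⁻¹ * S.A d (p.1.1 i)) +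
          ∑ i, ∑ d, f i d * ((S.N : ℝ)⁻¹ * S.ext p.2 i) := by
      simp only [mul_add, sum_add_distrib]
    rw [e1, add_assoc (∑ i, _), ← sum_add_distrib, add_right_comm, sub_eq_add_neg (_ + _),
      ← sum_neg_distrib]
    congr 1
    refine sum_congr rfl fun b _ => ?_
    simp only [hζ]
    push_cast
    field_simp
    ring

/-- the springs of the box `i` -/
def adj (S : Sys ι β L K) (i : ι) : Finset β := univ.filter fun b => S.tgt b = i ∨ S.src b = i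

/-- the side of the box `i` that carries the spring `b` -/
def sid (S : Sys ι β L K) (i : ι) (b : β) : Fin 4 := if S.tgt b = i then S.dm b else S.dp b

theorem Ok.adj_ne (h : S.Ok) (i : S.I) : (S.adj i).Nonempty := by
  by_contra hn
  have h1 : ∀ b, S.tgt b ≠ i ∧ S.src b ≠ i := fun b =>
    not_or.1 fun hb => hn ⟨b, mem_filter.2 ⟨mem_univ _, hb⟩⟩
  have := congrFun (h.conn (Pi.single i.1 1) (Pi.single_eq_of_ne i.2.symm _) fun b => by
    rw [Pi.single_eq_of_ne (h1 b).1, Pi.single_eq_of_ne (h1 b).2]) i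
  simp at this

/-- pin all boxes but one -/
theorem Ok.pin (h : S.Ok) (Q : S.I → ℤ) (i : S.I) :
    RW (bx S.W (fun b => S.A (S.sid i b)) (S.adj i) S.σ) ∧ Ph S.ρ (ch _ S.N Q) ≤
      Ph (bx S.W (fun b => S.A (S.sid i b)) (S.adj i) S.σ) (lev L (2 * π * Q i / S.N)) := by
  let φ : L × ℤ →+ ((ι → L) × (β → K)) × (S.I → ℤ) :=
    AddMonoidHom.mk' (fun p => ((Pi.single i.1 p.1, 0), Pi.single i p.2))
      fun p p' => by simp [Pi.single_add]
  have hφ : Function.Injective φ := fun p p' e => by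
    have e1 := congrFun (congrArg (fun x => x.1.1) e) i.1
    have e2 := congrFun (congrArg (fun x => x.2) e) i
    exact Prod.ext (by simpa [φ] using e1) (by simpa [φ] using e2)
  set c : ℝ := (∏ _j ∈ univ.erase i.1, S.W 0) * ∏ _b : β, S.V 0
  have hc : 0 < c := mul_pos (prod_pos fun _ _ => h.W.pos0) (prod_pos fun _ _ => h.V.pos0)
  have he : ∀ (n : ℤ) (j : ι), S.ext (Pi.single i n) j = (Pi.single i.1 n : ι → ℤ) j := fun n j => by
    unfold ext
    split_ifs with hj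
    · rw [hj, Pi.single_eq_of_ne i.2.symm]
    · simp [Pi.single_apply, Subtype.ext_iff]
  have e : (fun p => S.ρ (φ p)) =
      fun p => c * bx S.W (fun b => S.A (S.sid i b)) (S.adj i) S.σ p := by
    funext p
    have e1 : ∏ j, S.W ((Pi.single i.1 p.1 : ι → L) j) = S.W p.1 * ∏ _j ∈ univ.erase i.1, S.W 0 := by
      rw [← mul_prod_erase univ _ (mem_univ i.1), Pi.single_eq_same]
      exact congrArg _ (prod_congr rfl fun j hj => by rw [Pi.single_eq_of_ne (ne_of_mem_erase hj)])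
    simp only [ρ, U, ψ_apply, φ, AddMonoidHom.mk'_apply, e1, bx, adj, prod_filter, he, Pi.zero_apply,
      map_zero, sub_zero, c]
    rw [show ∀ a b c d e : ℝ, d = e → a * b * c * d = b * c * (a * e) from
      fun _ _ _ _ _ h => by rw [h]; ring]
    refine prod_congr rfl fun b _ => ?_
    have hne := h.ne b
    by_cases h1 : S.tgt b = i
    · have h2 : S.src b ≠ i := fun e => hne (e.trans h1.symm)
      simp [h1, h2, sid]
    · by_cases h2 : S.src b = i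
      · rw [← gau_neg]
        simp [h1, h2, sid, add_comm]
      · simp [h1, h2, gau]
  have hR := h.rw.comp φ hφ
  have H := h.rw.ph_sub φ hφ (ch _ S.N Q)
  rw [e] at hR H
  refine ⟨?_, H.trans_eq ?_⟩
  · have := hR.smul (inv_pos.2 hc)
    simpa only [inv_mul_cancel_left₀ hc.ne'] using this
  · rw [Ph, Ex_smul _ _ hc.ne', Ph]
    refine Ex_congr fun p _ => ?_
    simp [ch_apply, φ, Pi.single_apply]

/-- the sectors add up -/
theorem Ok.main (h : S.Ok) (ξ : ι → Fin 4 → ℝ) (I₀ : Finset ι) {E : ℝ}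
    (hE : ∀ i₀ ∈ I₀, E ≤ Ph S.ρ (S.Ξ ξ + ch _ S.N (S.Qd i₀))) :
    I₀.card * E ≤ (∑ Q ∈ Fintype.piFinset fun _ : S.I => Rs S.N, Ph S.ρ (ch _ S.N Q)) *
      Ph (fun p => S.ρ (sc _ _ S.N p)) ((S.Ξ ξ).comp (sc _ _ S.N)) := by
  have h0 := fourier h.rw h.Npos 0
  rw [AddMonoidHom.zero_comp, (h.rw.comp _ (sc_inj h.Npos)).wt.Ph_zero, mul_one] at h0
  simp only [zero_add] at h0
  rw [h0, ← fourier h.rw h.Npos, ← nsmul_eq_mul]
  refine (card_nsmul_le_sum _ _ _ hE).trans ?_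
  rw [← sum_image (f := fun Q => Ph S.ρ (S.Ξ ξ + ch _ S.N Q)) fun i _ j _ e => S.Qd_inj e]
  refine sum_le_sum_of_subset_of_nonneg (fun Q hQ => ?_) fun Q _ _ => h.rw.ph_nonneg _
  obtain ⟨i₀, -, rfl⟩ := mem_image.1 hQ
  refine Fintype.mem_piFinset.2 fun i => ?_
  unfold Qd
  split_ifs
  exacts [neg_one_mem_Rs h.N, zero_mem_Rs h.N]

end Sys

/-- the sum over the sectors is bounded, and at most `2` unless a charge survives -/
theorem den (κ Vb : ℝ) (hκ : 0 < κ) (hVb : 0 ≤ Vb) (nb m : ℕ) : ∃ c K₀ : ℝ, 0 < c ∧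
    ∀ {ι β L K : Type} [Fintype ι] [DecidableEq ι] [Fintype β] [DecidableEq β] [AddCommGroup L]
      [AddCommGroup K] [IsAddTorsionFree L] [IsAddTorsionFree K] [Countable L] (S : Sys ι β L K),
      S.Ok → S.σ = (S.N : ℝ) ^ 2 / κ → Fintype.card β ≤ nb → Fintype.card S.I ≤ m →
      (∀ d d', Vr S.W (cR (S.A d) - cR (S.A d')) (cR (S.A d) - cR (S.A d')) ≤ Vb * S.σ) →
      ∀ D, D = ∑ Q ∈ Fintype.piFinset fun _ : S.I => Rs S.N,
          Ph S.ρ (ch ((ι → L) × (β → K)) S.N Q) →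
        1 ≤ D ∧ c * D ≤ 1 ∧ (D ≤ 2 ∨ ∃ (q : ℤ) (g : Fin 4 → ℝ), q ≠ 0 ∧ (∀ d, |g d| ≤ K₀) ∧
          ∑ d, g d = 2 * π * q ∧ c ≤ Ph S.W (S.sdF g)) := by
  obtain ⟨a, ha⟩ : ∃ a : ℝ, a = π ^ 2 / (κ * (nb + 1)) := ⟨_, rfl⟩
  have ha0 : 0 < a := by rw [ha]; positivity
  obtain ⟨a', ha'⟩ : ∃ a' : ℝ, a' = a / (2 * (m + 1)) := ⟨_, rfl⟩
  have ha0' : 0 < a' := by rw [ha']; positivity
  have hC := one_le_Th ha0
  have hT := one_le_Th ha0'
  obtain ⟨Sm, hSm⟩ : ∃ Sm : ℝ, Sm = Th a' ^ m := ⟨_, rfl⟩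
  have hS1 : 1 ≤ Sm := hSm ▸ one_le_pow₀ hT
  obtain ⟨ε, hε⟩ : ∃ ε : ℝ, ε = 1 / (Th a * Sm ^ 2) := ⟨_, rfl⟩
  have hε0 : 0 < ε := by rw [hε]; positivity
  obtain ⟨ε', hε'⟩ : ∃ ε' : ℝ, ε' = ε * exp (-(nb * (1 + Vb))) / 2 := ⟨_, rfl⟩
  have hε0' : 0 < ε' := by rw [hε']; positivity
  obtain ⟨K₁, hK₁⟩ : ∃ K₁ : ℝ, K₁ = nb / ε' + 1 := ⟨_, rfl⟩
  have hK1 : 1 ≤ K₁ := by rw [hK₁]; exact le_add_of_nonneg_left (by positivity)
  refine ⟨min (1 / (Th a * Sm)) ε', nb * (K₁ * √κ) + 2 * π * (Th a / (a * ε)),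
    lt_min (by positivity) hε0', ?_⟩
  intro ι β L K _ _ _ _ _ _ _ _ _ S h hσ hb hm hV D hD
  have hN : (0 : ℝ) < S.N := by exact_mod_cast h.Npos
  have hcard : ∀ i, ((S.adj i).card : ℝ) ≤ nb := fun i => by
    exact_mod_cast (card_le_univ _).trans hb
  set x : (S.I → ℤ) → ℝ := fun Q => Ph S.ρ (ch ((ι → L) × (β → K)) S.N Q) with hx
  set P := Fintype.piFinset fun _ : S.I => Rs S.N
  set b : (S.I → ℤ) → ℝ := fun Q => ∏ i, exp (-a' * (Q i : ℝ) ^ 2) with hb'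
  have hx0 : ∀ Q, 0 ≤ x Q := fun Q => h.rw.ph_nonneg _
  have hdec : ∀ Q ∈ P, ∀ i, Ph (bx S.W (fun b => S.A (S.sid i.1 b)) (S.adj i.1) S.σ)
      (lev L (2 * π * Q i / S.N)) ≤ Th a * exp (-a * (Q i : ℝ) ^ 2) := fun Q hQ i => by
    refine bx_decay (h.pin Q i).1 h.W.pos0 h.σ (h.adj_ne i) ha0 h.Npos ?_
      (Rs_abs (Fintype.mem_piFinset.1 hQ i))
    rw [hσ, ← mul_div_assoc, le_div_iff₀ hκ, mul_right_comm]
    refine mul_le_mul_of_nonneg_right ?_ (sq_nonneg _)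
    rw [ha, div_mul_eq_mul_div, div_mul_eq_mul_div, div_le_iff₀ (by positivity)]
    have := hcard i
    have h2 : 0 ≤ π ^ 2 * κ := by positivity
    nlinarith [mul_le_mul_of_nonneg_left this h2]
  have hb0 : ∀ Q, 0 < b Q := fun Q => prod_pos fun _ _ => exp_pos _
  have hb1 : ∀ Q, b Q ≤ 1 := fun Q => prod_le_one (fun _ _ => (exp_pos _).le) fun i _ =>
    exp_le_one_iff.2 (by nlinarith [sq_nonneg (Q i : ℝ)])
  have hxb : ∀ Q ∈ P, x Q ≤ Th a * b Q ^ 2 := fun Q hQ => by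
    rcases isEmpty_or_nonempty S.I with he | he
    · simp only [hb', univ_eq_empty, prod_empty, one_pow, mul_one]
      exact (h.rw.ph_le _).trans hC
    · obtain ⟨i, -, hi⟩ := exists_max_image univ (fun i => (Q i : ℝ) ^ 2) univ_nonempty
      refine ((h.pin Q i).2.trans (hdec Q hQ i)).trans (mul_le_mul_of_nonneg_left ?_ (by linarith))
      simp only [hb']
      rw [← exp_sum, ← exp_nat_mul, exp_le_exp, ← mul_sum]
      have h1 := sum_le_card_nsmul univ _ _ hi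
      have h2 : ((univ : Finset S.I).card : ℝ) ≤ m + 1 := by
        rw [card_univ]; exact_mod_cast hm.trans (Nat.le_succ m)
      rw [nsmul_eq_mul] at h1
      have h3 := h1.trans (mul_le_mul_of_nonneg_right h2 (sq_nonneg _))
      have h4 : a = 2 * a' * (m + 1) := by rw [ha']; field_simp
      push_cast
      nlinarith [mul_le_mul_of_nonneg_left h3 ha0'.le]
  have hsb : ∑ Q ∈ P, b Q ≤ Sm := by
    rw [← prod_univ_sum (fun _ : S.I => Rs S.N) fun _ q => exp (-a' * (q : ℝ) ^ 2), prod_const, card_univ,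
      hSm]
    exact (pow_le_pow_left₀ (sum_nonneg fun _ _ => (exp_pos _).le) (sum_le_Th ha0' _) _).trans
      (pow_le_pow_right₀ hT hm)
  have h0P : (0 : S.I → ℤ) ∈ P := Fintype.mem_piFinset.2 fun _ => zero_mem_Rs h.N
  have hx1 : x 0 = 1 := by
    have : ch ((ι → L) × (β → K)) S.N (0 : S.I → ℤ) = 0 := AddMonoidHom.ext fun p => by
      simp [ch_apply]
    simp only [hx, this, h.rw.wt.Ph_zero]
  refine ⟨hD ▸ hx1 ▸ single_le_sum (fun Q _ => hx0 Q) h0P, ?_, ?_⟩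
  · have h1 : D ≤ Th a * Sm := by
      rw [hD]
      refine (sum_le_sum fun Q hQ => (hxb Q hQ).trans (mul_le_mul_of_nonneg_left
        (pow_le_of_le_one (hb0 Q).le (hb1 Q) two_ne_zero) (by linarith))).trans ?_
      rw [← mul_sum]
      exact mul_le_mul_of_nonneg_left hsb (by linarith)
    have h2 : 0 ≤ D := hD ▸ sum_nonneg fun Q _ => hx0 Q
    refine (mul_le_mul_of_nonneg_right (min_le_left _ _) h2).trans ?_
    rw [one_div, inv_mul_le_iff₀ (by positivity), mul_one]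
    exact h1
  by_cases H : ∀ Q ∈ P, Q ≠ 0 → x Q ≤ ε
  · left
    rw [hD, ← add_sum_erase _ _ h0P]
    change x 0 + ∑ Q ∈ P.erase 0, x Q ≤ 2
    have h1 : ∑ Q ∈ P.erase 0, x Q ≤ ∑ Q ∈ P, b Q / Sm := by
      refine (sum_le_sum fun Q hQ => ?_).trans (sum_le_sum_of_subset_of_nonneg (erase_subset _ _)
        fun Q _ _ => by have := hb0 Q; positivity)
      refine abs_le_of_sq_le_sq' ?_ (by have := hb0 Q; positivity) |>.2
      have h2 := mul_le_mul (H Q (mem_of_mem_erase hQ) (ne_of_mem_erase hQ))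
        (hxb Q (mem_of_mem_erase hQ)) (hx0 Q) hε0.le
      refine (pow_two _).trans_le (h2.trans_eq ?_)
      rw [hε]; field_simp
    rw [← sum_div] at h1
    have h3 := h1.trans ((div_le_one (by linarith)).2 hsb)
    linarith
  right
  push Not at H
  obtain ⟨Q, hQ, hQ0, hε1⟩ := H
  obtain ⟨i, hi⟩ := Function.ne_iff.1 hQ0
  obtain ⟨j₀, hj₀⟩ := h.adj_ne i
  have hlt := hε1.trans_le (h.pin Q i).2
  have hq : |(Q i : ℝ)| ≤ Th a / (a * ε) := by
    have h1 := hlt.trans_le (hdec Q hQ i)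
    have h2 : a * (Q i : ℝ) ^ 2 + 1 ≤ exp (a * (Q i : ℝ) ^ 2) := add_one_le_exp _
    rw [neg_mul, exp_neg, ← div_eq_mul_inv, lt_div_iff₀ (exp_pos _)] at h1
    have h3 : |(Q i : ℝ)| ≤ (Q i : ℝ) ^ 2 := by
      have : (1 : ℝ) ≤ |(Q i : ℝ)| := by exact_mod_cast Int.one_le_abs hi
      rw [← sq_abs]; nlinarith
    rw [le_div_iff₀ (by positivity)]
    nlinarith [mul_le_mul_of_nonneg_left h2 hε0.le, mul_le_mul_of_nonneg_left h3 (mul_pos ha0 hε0).le]
  by_contra hn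
  refine hlt.not_ge ((bx_le h.W h.σ hj₀ (K := K₁) (A := ε') (by linarith) hε0'.le hVb
    (fun j => hV _ _) _ fun ζ hζ => ?_).trans ?_)
  · by_contra hc
    refine hn ⟨-Q i, ∑ j ∈ (S.adj i.1).erase j₀, (ζ j * √κ) •
      (Pi.single (S.sid i.1 j) 1 - Pi.single (S.sid i.1 j₀) 1) -
        (2 * π * Q i) • Pi.single (S.sid i.1 j₀) 1, neg_ne_zero.2 hi, fun d => ?_, ?_, ?_⟩
    · have hs : ∀ d' : Fin 4, 0 ≤ (Pi.single d' 1 : Fin 4 → ℝ) d ∧ (Pi.single d' 1 : Fin 4 → ℝ) d ≤ 1 :=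
        fun d' => by rw [Pi.single_apply]; split_ifs <;> norm_num
      rw [Pi.sub_apply, Finset.sum_apply]
      refine (abs_sub _ _).trans (add_le_add ((abs_sum_le_sum_abs _ _).trans
        ((sum_le_card_nsmul _ _ (K₁ * √κ) fun j _ => ?_).trans ?_)) ?_)
      · rw [Pi.smul_apply, smul_eq_mul, abs_mul, abs_mul, abs_of_nonneg (Real.sqrt_nonneg κ)]
        refine (mul_le_of_le_one_right (by positivity) ?_).trans
          (mul_le_mul_of_nonneg_right (hζ j) (Real.sqrt_nonneg κ))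
        rw [Pi.sub_apply, abs_le]
        constructor <;> linarith [hs (S.sid i.1 j), hs (S.sid i.1 j₀)]
      · rw [nsmul_eq_mul]
        refine mul_le_mul_of_nonneg_right (le_trans ?_ (hcard i)) (by positivity)
        exact_mod_cast card_erase_le
      · rw [Pi.smul_apply, smul_eq_mul, abs_mul, abs_mul, abs_of_pos (by positivity : 0 < 2 * π),
          abs_of_nonneg (hs _).1]
        exact (mul_le_of_le_one_right (by positivity) (hs _).2).trans
          (mul_le_mul_of_nonneg_left hq (by positivity))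
    · simp only [Pi.sub_apply, Finset.sum_apply, Pi.smul_apply, smul_eq_mul, sum_sub_distrib]
      rw [sum_comm]
      simp [← mul_sum]
    · refine (min_le_right _ _).trans ((not_le.1 hc).le.trans_eq ?_)
      congr 1
      have hs : √S.σ = S.N / √κ := by
        rw [hσ, Real.sqrt_div (sq_nonneg _), Real.sqrt_sq hN.le]
      have hk := Real.sqrt_pos.2 hκ
      simp only [map_sub, map_sum, map_smul, S.sdF_single, ← smul_sub, smul_smul, hs]
      congr 2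
      funext j
      congr 1
      field_simp
  · have h1 : ((S.adj i.1).card : ℝ) / K₁ ^ 2 ≤ ε' := by
      rw [div_le_iff₀ (by positivity)]
      have h2 : (nb : ℝ) ≤ ε' * K₁ := by rw [hK₁, mul_add, mul_div_cancel₀ _ hε0'.ne']; linarith
      nlinarith [hcard i, mul_le_mul_of_nonneg_left hK1 (by positivity : 0 ≤ ε' * K₁)]
    have h3 : exp ((S.adj i.1).card * (1 + Vb)) ≤ exp (nb * (1 + Vb)) :=
      exp_le_exp.2 (mul_le_mul_of_nonneg_right (hcard i) (by linarith))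
    refine (mul_le_mul (add_le_add_right h1 ε') h3 (exp_pos _).le (by positivity)).trans_eq ?_
    rw [hε', exp_neg]
    field_simp
    ring

end Crest.Agent.T145.Sec62
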