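import Crest.Agent.T145.T1A_40
import Crest.Agent.T145.Route_51
import Crest.Agent.T145.CutC_7

/-!
# Row 145, module (b) (helper40): T1 in one box, and the average over the shifts of the grid
-/

set_option autoImplicit false

namespace Crest.Agent.T145.T140

open Finset Sl46

/-- one constant that bounds all the parameters of the lattice -/
structure Bd (Λ : Lat) (P : ℝ) : Prop where
  ok : Λ.Ok
  one : 1 ≤ P
  N : (Λ.Jp.card : ℝ) ≤ P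
  r : (Λ.rg : ℝ) ≤ P
  t : Λ.τ ≤ P
  t' : Λ.τ⁻¹ ≤ P

theorem exists_bd (F : Fa) (c c' : ℝ) : ∃ P : ℝ, c ≤ P ∧ c' ≤ P ∧ 1 ≤ P ∧ ∀ Λ, F.Mem Λ → Bd Λ P := by
  obtain ⟨P, hP⟩ := (Set.toFinite ({c, c', 1, ((F.J.filter posD).card : ℝ),
    (ProbabilityR.HeightModel.interactionRange F.J : ℝ), F.τ₂, F.τ₁⁻¹} : Set ℝ)).bddAbove
  refine ⟨P, hP (by simp), hP (by simp), hP (by simp), fun Λ h => ?_⟩
  have h0 := F.pos.trans_le h.2.2.1
  exact ⟨⟨h.1 ▸ F.adm, h0⟩, hP (by simp), hP (by simp [Lat.Jp, h.1]), hP (by simp [Lat.rg, h.1]),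
    h.2.2.2.trans (hP (by simp)), (inv_anti₀ F.pos h.2.2.1).trans (hP (by simp))⟩

variable {Λ : Lat} {P : ℝ} {l : ℕ}

theorem card_filter_edI (D : Finset Pt) (p : Pt → Prop) [DecidablePred p] :
    ((Λ.edI D).filter fun e => p e.1).card ≤ (D.filter p).card * Λ.Jp.card := by
  rw [← card_product]
  refine card_le_card_of_injOn (fun e => (e.1, e.2 - e.1)) (fun e he => ?_) fun e _ e' _ h => ?_
  · rw [mem_coe, mem_filter, Lat.mem_edI] at he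
    exact mem_coe.2 (mem_product.2 ⟨mem_filter.2 ⟨he.1.2.1, he.2⟩, he.1.1⟩)
  · obtain ⟨h1, h2⟩ := Prod.mk.inj h
    rw [h1] at h2
    exact Prod.ext h1 (sub_left_injective h2)

theorem Bd.card_filter (h : Bd Λ P) (D : Finset Pt) (p : Pt → Prop) [DecidablePred p] :
    (((Λ.edI D).filter fun e => p e.1).card : ℝ) ≤ (D.filter p).card * P :=
  (by exact_mod_cast card_filter_edI D p : _ ≤ ((D.filter p).card * Λ.Jp.card : ℝ)).trans
    (mul_le_mul_of_nonneg_left h.N (Nat.cast_nonneg _))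

theorem Bd.card_edI (h : Bd Λ P) (D : Finset Pt) : ((Λ.edI D).card : ℝ) ≤ D.card * P := by
  simpa using h.card_filter D fun _ => True

theorem co_sub (i : Fin 2) (x y : Pt) : co i (x - y) = co i x - co i y := by
  fin_cases i <;> simp [co]

theorem Bd.abs_co (h : Bd Λ P) {y : Pt} (hy : y ∈ Λ.Jp) (i : Fin 2) : |co i y| ≤ P := by
  have h1 := Lat.le_rg (Lat.mem_Jp.1 hy).1
  refine le_trans ?_ h.r
  fin_cases i
  · exact (by exact_mod_cast h1.1 : |(y.1 : ℝ)| ≤ Λ.rg)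
  · exact (by exact_mod_cast h1.2 : |(y.2 : ℝ)| ≤ Λ.rg)

theorem Bd.abs_div (h : Bd Λ P) {x c : ℝ} (hx : |x| ≤ c) : |x / Λ.τ| ≤ c * P := by
  rw [div_eq_mul_inv, abs_mul, abs_of_pos (inv_pos.2 h.ok.pos)]
  exact mul_le_mul hx h.t' (inv_pos.2 h.ok.pos).le ((abs_nonneg _).trans hx)

theorem Bd.abs_vfl (h : Bd Λ P) {a : Fin 2 → Pt → ℝ} {e : Pt × Pt} (he : e.2 - e.1 ∈ Λ.Jp) {κ : ℝ}
    (ha : ∀ i, |a i e.1| ≤ κ) : |vfl a e| ≤ 2 * (κ * P) := by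
  refine (abs_sum_le_sum_abs _ _).trans ((sum_le_card_nsmul _ _ (κ * P) fun i _ => ?_).trans (by simp))
  rw [abs_mul]
  exact mul_le_mul (ha i) (h.abs_co he i) (abs_nonneg _) ((abs_nonneg _).trans (ha i))

theorem Bd.abs_psi (h : Bd Λ P) {a : Fin 2 → Pt → ℝ} {e : Pt × Pt} (he : e.2 - e.1 ∈ Λ.Jp)
    {κ x : ℝ} (ha : ∀ i, |a i e.1| ≤ κ) (hx : |x| ≤ κ) :
    |vfl a e / Λ.τ + x| ≤ 3 * P ^ 2 * κ := by
  have h1 := h.abs_div (h.abs_vfl he ha)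
  have h2 := mul_le_mul_of_nonneg_right (one_le_pow₀ h.one (n := 2)) ((abs_nonneg _).trans hx)
  linarith [abs_add_le (vfl a e / Λ.τ) x]

theorem X_eq (Λ : Lat) (l : ℕ) (i : Fin 2) :
    Λ.X l (co i) = fl (Λ.edI (sq 0 l)) fun e => co i (e.2 - e.1) / Λ.τ := by
  simp only [co_sub]
  exact pr_dv_eq_fl _ _

theorem cenW (hΛ : Λ.Ok) (hl : 0 < l) : Cen (Λ.WN l) := hΛ.cen_Nr (self_mem_sq 0 hl)

theorem Vr_fl_le (hΛ : Λ.Ok) (hl : 0 < l) (ψ : Pt × Pt → ℝ) :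
    Vr (Λ.WN l) (fl (Λ.edI (sq 0 l)) ψ) (fl (Λ.edI (sq 0 l)) ψ) ≤
      Λ.τ * ∑ e ∈ Λ.edI (sq 0 l), ψ e ^ 2 := by
  rw [← pr_dv_eq_fl, mul_sum]
  exact bare_Vr (τ := fun _ => Λ.τ) (hΛ.ctr_Nr _ _) (hΛ.anch_Nr (self_mem_sq 0 hl))
    (fun s _ => pr_dv _ ψ s) fun _ _ => ⟨hΛ.pos, Λ.xy, rfl⟩

theorem Bd.sum_sq (h : Bd Λ P) {ψ : Pt × Pt → ℝ} {p : ℝ} (hp : ∀ e ∈ Λ.edI (sq 0 l), |ψ e| ≤ p) :
    ∑ e ∈ Λ.edI (sq 0 l), ψ e ^ 2 ≤ (l : ℝ) ^ 2 * P * p ^ 2 := by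
  have h1 := h.card_edI (sq 0 l)
  rw [card_sq, Nat.cast_pow] at h1
  refine (sum_le_card_nsmul _ _ (p ^ 2) fun e he =>
    sq_le_sq' (abs_le.1 (hp e he)).1 (abs_le.1 (hp e he)).2).trans ?_
  rw [nsmul_eq_mul]
  exact mul_le_mul_of_nonneg_right h1 (sq_nonneg _)

theorem Bd.abs_Vr (h : Bd Λ P) (hl : 0 < l) {ψ χ : Pt × Pt → ℝ} {p q : ℝ} (hp0 : 0 ≤ p) (hq0 : 0 ≤ q)
    (hp : ∀ e ∈ Λ.edI (sq 0 l), |ψ e| ≤ p) (hq : ∀ e ∈ Λ.edI (sq 0 l), |χ e| ≤ q) :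
    |Vr (Λ.WN l) (fl (Λ.edI (sq 0 l)) ψ) (fl (Λ.edI (sq 0 l)) χ)| ≤ P ^ 2 * (l : ℝ) ^ 2 * (p * q) := by
  have hc := cenW h.ok hl
  have hP := zero_le_one.trans h.one
  have h1 := (Vr_fl_le h.ok hl ψ).trans
    (mul_le_mul h.t (h.sum_sq hp) (sum_nonneg fun _ _ => sq_nonneg _) hP)
  have h2 := (Vr_fl_le h.ok hl χ).trans
    (mul_le_mul h.t (h.sum_sq hq) (sum_nonneg fun _ _ => sq_nonneg _) hP)
  refine abs_le_of_sq_le_sq' ?_ (by positivity) |> abs_le.2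
  exact ((hc.wt.Vr_sq_le hc.se _ _).trans
    (mul_le_mul h1 h2 (hc.wt.Vr_nonneg hc.se _) (by positivity))).trans_eq (by ring)

/-- covariance of the tilt with one gradient -/
noncomputable def cc (Λ : Lat) (l : ℕ) (i : Fin 2) (e : Pt × Pt) : ℝ :=
  Vr (Λ.WN l) (Λ.X l (co i)) (dR e)

theorem Vr_X_fl (hΛ : Λ.Ok) (hl : 0 < l) (i : Fin 2) (S : Finset (Pt × Pt)) (χ : Pt × Pt → ℝ) :
    Vr (Λ.WN l) (Λ.X l (co i)) (fl S χ) = ∑ e ∈ S, χ e * cc Λ l i e := by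
  rw [fl, (cenW hΛ hl).se.Vr_sum_right]
  exact sum_congr rfl fun e _ => Vr_smul_right _ _ _ _

theorem Bd.abs_cc (h : Bd Λ P) (hl : 0 < l) (i : Fin 2) {χ : Pt × Pt → ℝ} {q : ℝ} (hq0 : 0 ≤ q)
    (hq : ∀ e ∈ Λ.edI (sq 0 l), |χ e| ≤ q) :
    |∑ e ∈ Λ.edI (sq 0 l), χ e * cc Λ l i e| ≤ P ^ 4 * (l : ℝ) ^ 2 * q := by
  have hP := zero_le_one.trans h.one
  rw [← Vr_X_fl h.ok hl, X_eq]
  exact (h.abs_Vr hl (by positivity) hq0
    (fun e he => h.abs_div (h.abs_co (Lat.mem_edI.1 he).1 i)) hq).trans_eq (by ring)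

theorem e0_pos (hΛ : Λ.Ok) : 0 < Λ.e0 := div_pos (one_pos.trans_le hΛ.one_le_a) hΛ.pos

/-- T1 in one box -/
theorem Bd.box (h : Bd Λ P) (hl : 0 < l)
    (h01 : Vr (Λ.WN l) (Λ.X l (co 0)) (Λ.X l (co 1)) = 0)
    (h11 : Vr (Λ.WN l) (Λ.X l (co 1)) (Λ.X l (co 1)) = Vr (Λ.WN l) (Λ.X l (co 0)) (Λ.X l (co 0)))
    {a : Fin 2 → Pt → ℝ} {φ : Pt × Pt → ℝ} {κ ω : ℝ} (ha : ∀ i, ∀ x ∈ sq 0 l, |a i x| ≤ κ)
    (ho : ∀ i, ∀ x ∈ sq 0 l, |a i x - a i 0| ≤ ω) (hφ : ∀ e ∈ Λ.edI (sq 0 l), |φ e| ≤ κ)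
    (hs : 9 * P ^ 6 * (l * κ) ^ 2 ≤ 1) :
    M (Λ.WN l) (fl (Λ.edI (sq 0 l)) fun e => vfl a e / Λ.τ + φ e) ≤
      (Λ.tN l * Λ.e0 * (l : ℝ) ^ 2 * ∑ i, a i 0 ^ 2 +
        2 * ∑ e ∈ Λ.edI (sq 0 l), φ e * ∑ i, a i e.1 * cc Λ l i e +
        Λ.τ * ∑ e ∈ Λ.edI (sq 0 l), φ e ^ 2) / 2 +
      (3 * (9 * P ^ 6 * (l * κ) ^ 2) ^ 2 + 8 * P ^ 6 * (l : ℝ) ^ 2 * (ω * κ)) := by
  have h0 : (0 : Pt) ∈ sq 0 l := self_mem_sq 0 hl
  have hc := cenW h.ok hl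
  have hP := zero_le_one.trans h.one
  have hκ : 0 ≤ κ := (abs_nonneg _).trans (ha 0 0 h0)
  have hω : 0 ≤ ω := (abs_nonneg _).trans (ho 0 0 h0)
  have hψ : ∀ e ∈ Λ.edI (sq 0 l), |vfl a e / Λ.τ + φ e| ≤ 3 * P ^ 2 * κ := fun e he =>
    h.abs_psi (Lat.mem_edI.1 he).1 (fun i => ha i _ (Lat.mem_edI.1 he).2.1) (hφ e he)
  have h1 := M_small (h.ok.ctr_Nr (sq 0 l) 0) (h.ok.anch_Nr h0) (Subset.refl _)
    (len_of h.ok (fun _ _ => rfl) h.t) h.one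
    ((mul_le_mul_of_nonneg_left (h.sum_sq hψ) hP).trans_eq
      (show _ = 9 * P ^ 6 * (l * κ) ^ 2 by ring)) hs
  set E := Λ.edI (sq 0 l)
  set A := a 0 0 • Λ.X l (co 0) + a 1 0 • Λ.X l (co 1) with hA
  set R := fl E fun e => vfl (fun i x => a i x - a i 0) e / Λ.τ with hR
  have eA : A = fl E fun e => vfl (fun i _ => a i 0) e / Λ.τ := by
    rw [hA, X_eq, X_eq, ← fl_smul, ← fl_smul, ← fl_add]
    exact fl_congr fun e _ => by simp only [vfl, Fin.sum_univ_two]; ring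
  have e1 : (fl E fun e => vfl a e / Λ.τ + φ e) = A + fl E φ + R := by
    rw [eA, hR, ← fl_add, ← fl_add]
    exact fl_congr fun e _ => by simp only [vfl, Fin.sum_univ_two]; ring
  have h2 := h.abs_Vr hl (ψ := fun e => vfl (fun i x => a i x - a i 0) e / Λ.τ)
    (χ := fun e => (vfl a e / Λ.τ + φ e) + (vfl (fun i _ => a i 0) e / Λ.τ + φ e))
    (p := 2 * (ω * P) * P) (q := 3 * P ^ 2 * κ + 3 * P ^ 2 * κ) (by positivity) (by positivity)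
    (fun e he => h.abs_div (h.abs_vfl (Lat.mem_edI.1 he).1 fun i => ho i _ (Lat.mem_edI.1 he).2.1))
    fun e he => (abs_add_le _ _).trans (add_le_add (hψ e he)
      (h.abs_psi (Lat.mem_edI.1 he).1 (fun i => ha i _ h0) (hφ e he)))
  rw [fl_add, e1, fl_add, ← eA, ← hR] at h2
  have h3 := fun i => h.abs_cc hl i (χ := fun e => φ e * (a i e.1 - a i 0)) (q := κ * ω)
    (by positivity) fun e he => by
      rw [abs_mul]
      exact mul_le_mul (hφ e he) (ho i _ (Lat.mem_edI.1 he).2.1) (abs_nonneg _) hκ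
  have h4 := Vr_fl_le h.ok hl φ
  have e2 : Vr (Λ.WN l) A A = Λ.tN l * Λ.e0 * (l : ℝ) ^ 2 * ∑ i, a i 0 ^ 2 := by
    have hl' : (l : ℝ) ≠ 0 := by exact_mod_cast hl.ne'
    have := (e0_pos h.ok).ne'
    simp only [hA, hc.se.Vr_add_left, hc.se.Vr_add_right, Vr_smul_left, Vr_smul_right, h01, h11,
      Vr_comm _ (Λ.X l (co 1)) (Λ.X l (co 0)), Lat.tN, Fin.sum_univ_two]
    field_simp
    ring
  have e3 : Vr (Λ.WN l) A (fl E φ) = ∑ e ∈ E, φ e * ∑ i, a i e.1 * cc Λ l i e -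
      ∑ i, ∑ e ∈ E, φ e * (a i e.1 - a i 0) * cc Λ l i e := by
    simp only [hA, hc.se.Vr_add_left, Vr_smul_left, Vr_X_fl h.ok hl, Fin.sum_univ_two, mul_sum,
      ← sum_add_distrib, ← sum_sub_distrib]
    exact sum_congr rfl fun e _ => by ring
  have h5 : P ^ 4 * (l : ℝ) ^ 2 * (κ * ω) ≤ P ^ 6 * (l : ℝ) ^ 2 * (ω * κ) := by
    rw [mul_comm κ]
    gcongr
    exacts [h.one, by norm_num]
  change M (Λ.WN l) (fl E _) ≤ Vr (Λ.WN l) (fl E _) (fl E _) / 2 + _ at h1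
  rw [e1] at h1 ⊢
  simp only [hc.se.Vr_add_left, hc.se.Vr_add_right, Vr_comm _ (fl E φ) A, Vr_comm _ A R,
    Vr_comm _ (fl E φ) R] at h1 h2
  rw [Fin.sum_univ_two] at e3
  linarith [(abs_le.1 h2).2, (abs_le.1 (h3 0)).1, (abs_le.1 (h3 1)).1]

/-! ## The average over the shifts -/

/-- corners of the boxes inside `D` -/
noncomputable def Zb (D : Finset Pt) (l : ℕ) : Finset Pt := D.filter fun z => sq z l ⊆ D

/-- positions of the edge `e'` in the boxes inside `D` that contain it -/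
noncomputable def Sb (Λ : Lat) (D : Finset Pt) (l : ℕ) (e' : Pt × Pt) : Finset (Pt × Pt) :=
  (Λ.edI (sq 0 l)).filter fun e => e.2 - e.1 = e'.2 - e'.1 ∧ e'.1 - e.1 ∈ Zb D l

theorem dbl (Λ : Lat) (D : Finset Pt) (l : ℕ) (Φ : Pt × Pt → Pt × Pt → ℝ) :
    ∑ z ∈ Zb D l, ∑ e ∈ Λ.edI (sq 0 l), Φ (sh z e) e =
      ∑ e' ∈ Λ.edI D, ∑ e ∈ Sb Λ D l e', Φ e' e := by
  rw [sum_comm, sum_comm' (t' := Λ.edI (sq 0 l)) (s' := fun e => (Λ.edI D).filter fun e' =>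
    e.2 - e.1 = e'.2 - e'.1 ∧ e'.1 - e.1 ∈ Zb D l) fun e' e => by
      simp only [Sb, mem_filter]; tauto]
  refine sum_congr rfl fun e he => sum_nbij' (fun z => sh z e) (fun e' => e'.1 - e.1)
    (fun z hz => ?_) (fun e' he' => (mem_filter.1 he').2.2) (fun z _ => by simp) (fun e' he' => ?_)
    fun _ _ => rfl
  · exact mem_filter.2 ⟨Lat.edI_mono (mem_filter.1 hz).2 (sh_mem.2 he), by simp, by simpa using hz⟩
  · have h := (mem_filter.1 he').2.1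
    refine Prod.ext (by simp) ?_
    rw [sh_snd]
    linear_combination h

theorem disj_of_mod {z z' : Pt} (h : ((z.1 % l, z.2 % l) : Pt) = (z'.1 % l, z'.2 % l)) (hne : z ≠ z') :
    Disjoint (sq z l) (sq z' l) := by
  refine disjoint_left.2 fun x hx hx' => hne ?_
  rw [mem_sq] at hx hx'
  obtain ⟨h1, h2⟩ := Prod.mk.inj h
  have h3 := Int.eq_zero_of_abs_lt_dvd (Int.ModEq.dvd h1) (abs_lt.2 ⟨by omega, by omega⟩)
  have h4 := Int.eq_zero_of_abs_lt_dvd (Int.ModEq.dvd h2) (abs_lt.2 ⟨by omega, by omega⟩)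
  exact Prod.ext (by omega) (by omega)

variable {G : Type} [AddCommGroup G] {g : Pt × Pt → G →+ ℤ} {ρ : G → ℝ} {D : Finset Pt}

/-- the cut, averaged over the shifts of the grid -/
theorem avg (hΛ : Λ.Ok) (hl : 0 < l) (hG : Λ.GAmb ρ g D l) (ψ : Pt × Pt → ℝ) :
    (l : ℝ) ^ 2 * M ρ (gfl (Λ.edI D) ψ g) ≤
      ∑ z ∈ Zb D l, M (Λ.WN l) (fl (Λ.edI (sq 0 l)) fun e => ψ (sh z e)) +
        ∑ e ∈ Λ.edI D, ((l : ℝ) ^ 2 - (Sb Λ D l e).card) * (Λ.τ * (Real.cosh (ψ e) - 1)) := by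
  have h0 : (0 : ℤ) < l := by exact_mod_cast hl
  have hm : ∀ z ∈ Zb D l, ((z.1 % l, z.2 % l) : Pt) ∈ sq 0 l := fun z _ => by
    simp only [mem_sq, Prod.fst_zero, Prod.snd_zero, zero_add]
    exact ⟨⟨Int.emod_nonneg _ h0.ne', Int.emod_lt_of_pos _ h0⟩, Int.emod_nonneg _ h0.ne',
      Int.emod_lt_of_pos _ h0⟩
  have h := sum_le_sum (s := sq 0 l) fun s _ => gcut hΛ hl hG
    (Z := (Zb D l).filter fun z => ((z.1 % l, z.2 % l) : Pt) = s)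
    (fun z hz => (mem_filter.1 (mem_filter.1 hz).1).2)
    (fun z hz z' hz' => disj_of_mod ((mem_filter.1 hz).2.trans (mem_filter.1 hz').2.symm)) ψ
  rw [sum_add_distrib, sum_add_distrib, sum_fiberwise_of_maps_to hm, sum_fiberwise_of_maps_to hm,
    sum_const, sum_const, card_sq, dbl Λ D l fun e' _ => Λ.τ * (Real.cosh (ψ e') - 1)] at h
  simp only [sum_const, nsmul_eq_mul, Nat.cast_pow] at h
  simp only [sub_mul, sum_sub_distrib, ← mul_sum (a := (l : ℝ) ^ 2)]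
  linarith

theorem card_Sb_le (Λ : Lat) (D : Finset Pt) (l : ℕ) (e' : Pt × Pt) :
    ((Sb Λ D l e').card : ℝ) ≤ (l : ℝ) ^ 2 := by
  have h : (Sb Λ D l e').card ≤ (sq 0 l).card :=
    card_le_card_of_injOn Prod.fst (fun e he => (Lat.mem_edI.1 (mem_filter.1 he).1).2.1)
      fun e he e₁ he₁ h => Prod.ext h (by
        have h1 := (mem_filter.1 he).2.1.trans (mem_filter.1 he₁).2.1.symm
        rw [h] at h1
        exact sub_left_injective h1)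
  rw [card_sq] at h
  exact_mod_cast h

theorem Sb_good (hl : 0 < l) {e' : Pt × Pt} (h : bl e'.1 l ⊆ D) :
    Sb Λ D l e' = (Λ.edI (sq 0 l)).filter fun e => e.2 - e.1 = e'.2 - e'.1 := by
  refine filter_congr fun e he => and_iff_left ?_
  have h1 := mem_sq.1 (Lat.mem_edI.1 he).2.1
  have h2 : sq (e'.1 - e.1) l ⊆ D := fun x hx => h (by
    simp only [mem_sq, mem_bl, Prod.fst_sub, Prod.snd_sub, Prod.fst_zero, Prod.snd_zero] at *
    omega)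
  exact mem_filter.2 ⟨h2 (self_mem_sq _ hl), h2⟩

theorem card_dir {y : Pt} (hy : y ∈ Λ.Jp) (l : ℕ) :
    (l : ℝ) ^ 2 - 4 * Λ.rg * l ≤ ((Λ.edI (sq 0 l)).filter fun e => e.2 - e.1 = y).card := by
  have h1 := Lat.le_rg (Lat.mem_Jp.1 hy).1
  rw [abs_le, abs_le] at h1
  have h : (sq (Λ.rg, Λ.rg) (l - 2 * Λ.rg)).card ≤
      ((Λ.edI (sq 0 l)).filter fun e => e.2 - e.1 = y).card :=
    card_le_card_of_injOn (fun x => (x, x + y)) (fun x hx => by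
      simp only [mem_coe, mem_filter, Lat.mem_edI, add_sub_cancel_left, hy, mem_sq, Prod.fst_add,
        Prod.snd_add, Prod.fst_zero, Prod.snd_zero, true_and, and_true] at hx ⊢
      omega) fun x _ x' _ h => (Prod.mk.inj h).1
  rw [card_sq] at h
  refine le_trans ?_ (Nat.cast_le.2 h)
  have hr : (0 : ℝ) ≤ Λ.rg := Nat.cast_nonneg _
  have hl : (0 : ℝ) ≤ l := Nat.cast_nonneg _
  rcases le_total (2 * Λ.rg) l with h2 | h2
  · rw [Nat.cast_pow, Nat.cast_sub h2]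
    push_cast
    nlinarith
  · have h3 : (l : ℝ) ≤ 2 * Λ.rg := by exact_mod_cast h2
    exact le_trans (by nlinarith) (Nat.cast_nonneg _)

/-- good and bad edges -/
theorem Bd.sum_le (h : Bd Λ P) {L : ℕ} (hD : Reg D P l L) {F : Pt × Pt → ℝ} {c c' : ℝ} (hc : 0 ≤ c)
    (hc' : 0 ≤ c') (h1 : ∀ e ∈ Λ.edI D, bl e.1 l ⊆ D → F e ≤ c) (h2 : ∀ e ∈ Λ.edI D, F e ≤ c') :
    ∑ e ∈ Λ.edI D, F e ≤ P * L ^ 2 * P * c + P * l * L * P * c' := by
  have hP := zero_le_one.trans h.one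
  rw [← sum_filter_add_sum_filter_not _ fun e => bl e.1 l ⊆ D]
  refine add_le_add ((sum_le_card_nsmul _ _ c fun e he =>
    h1 e (mem_filter.1 he).1 (mem_filter.1 he).2).trans ?_)
    ((sum_le_card_nsmul _ _ c' fun e he => h2 e (mem_filter.1 he).1).trans ?_) <;> rw [nsmul_eq_mul]
  · exact mul_le_mul_of_nonneg_right (((Nat.cast_le.2 (card_filter_le _ _)).trans
      (h.card_edI D)).trans (mul_le_mul_of_nonneg_right hD.1 hP)) hc
  · exact mul_le_mul_of_nonneg_right ((h.card_filter D fun x => ¬ bl x l ⊆ D).trans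
      (mul_le_mul_of_nonneg_right hD.2 hP)) hc'

/-- oscillation in a box from bounds on the differences inside the box -/
theorem osc {f : Pt → ℝ} {c : ℝ} {z : Pt}
    (h : ∀ j, ∀ x ∈ sq z l, x + ev j ∈ sq z l → |df j f x| ≤ c) {x : Pt} (hx : x ∈ sq 0 l) (hc : 0 ≤ c) :
    |f (x + z) - f (0 + z)| ≤ 2 * l * c := by
  have key : ∀ (j : Fin 2) (p : Pt) (n : ℕ), (∀ k ≤ n, p + k • ev j ∈ sq z l) →
      |f (p + n • ev j) - f p| ≤ n * c := fun j p n => by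
    induction n with
    | zero => simp
    | succ n ih =>
      intro H
      have h1 := ih fun k hk => H k (hk.trans n.le_succ)
      have h2 := h j _ (H n n.le_succ) (by rw [add_assoc, ← succ_nsmul]; exact H _ le_rfl)
      rw [df, add_assoc, ← succ_nsmul] at h2
      push_cast
      linarith [abs_sub_le (f (p + (n + 1) • ev j)) (f (p + n • ev j)) (f p)]
  simp only [mem_sq, Prod.fst_zero, Prod.snd_zero, zero_add] at hx
  obtain ⟨n, hn⟩ := Int.eq_ofNat_of_zero_le hx.1.1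
  obtain ⟨m, hm⟩ := Int.eq_ofNat_of_zero_le hx.2.1
  have h1 := key 0 z n fun k hk => by simp [mem_sq, ev]; omega
  have h2 := key 1 (z + n • ev 0) m fun k hk => by simp [mem_sq, ev]; omega
  have e : x + z = z + n • ev 0 + m • ev 1 := by
    refine Prod.ext ?_ ?_ <;> simp [ev, hn, hm, add_comm]
  have hn' : (n : ℝ) ≤ l := by exact_mod_cast (by omega : n ≤ l)
  have hm' : (m : ℝ) ≤ l := by exact_mod_cast (by omega : m ≤ l)
  rw [e, zero_add]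
  nlinarith [abs_sub_le (f (z + n • ev 0 + m • ev 1)) (f (z + n • ev 0)) (f z)]

end Crest.Agent.T145.T140
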