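import Crest.Agent.T145.T1B_40

/-!
# Row 145, module (b) (helper40): `t1gStmt`, the upper bound with the cross term in group form
-/

set_option autoImplicit false

namespace Crest.Agent.T145

open Finset Sl46

namespace T140

variable {Λ : Lat} {P : ℝ} {l L : ℕ} {D : Finset Pt}

theorem gam_good (hΛ : Λ.Ok) (hl : 0 < l) {e' : Pt × Pt} (h : bl e'.1 l ⊆ D) (i : Fin 2) :
    ∑ e ∈ Sb Λ D l e', cc Λ l i e = Vr (Λ.WN l) (Λ.X l (co i))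
      (pr (dv (Λ.edI (sq 0 l)) fun e => ind (e.2 - e.1 = e'.2 - e'.1))) := by
  rw [pr_dv_eq_fl, Vr_X_fl hΛ hl, Sb_good hl h, sum_filter]
  simp only [ind_eq_ite, ite_mul, one_mul, zero_mul]

theorem Bd.gam_bad (h : Bd Λ P) (hl : 0 < l) (e' : Pt × Pt) (i : Fin 2) :
    |∑ e ∈ Sb Λ D l e', cc Λ l i e| ≤ P ^ 4 * (l : ℝ) ^ 2 := by
  have h1 := h.abs_cc hl i (χ := fun e => ind (e.2 - e.1 = e'.2 - e'.1 ∧ e'.1 - e.1 ∈ Zb D l))
    zero_le_one fun e _ => abs_ind_le _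
  rw [Sb, sum_filter]
  simpa only [ind_eq_ite, ite_mul, one_mul, zero_mul, mul_one] using h1

/-- the error carried by one edge -/
theorem Bd.edge (h : Bd Λ P) {a : Fin 2 → Pt → ℝ} {e' : Pt × Pt} (he : e'.2 - e'.1 ∈ Λ.Jp)
    {κ x θ c d n : ℝ} {S : Finset (Pt × Pt)} (ha : ∀ i, |a i e'.1| ≤ κ) (hx : |x| ≤ κ)
    (hs : 3 * P ^ 2 * κ ≤ 1) (hd : 0 ≤ d) (hn : n ≤ d)
    (hc : ∀ i, |∑ e ∈ S, cc Λ l i e - co i (e'.2 - e'.1) * θ * (l : ℝ) ^ 2| ≤ c) :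
    ∑ e ∈ S, x * ∑ i, a i e'.1 * cc Λ l i e - (l : ℝ) ^ 2 * θ * (x * vfl a e') +
      n * (Λ.τ * (Real.cosh (vfl a e' / Λ.τ + x) - 1)) ≤ κ ^ 2 * (2 * c + 9 * P ^ 5 * d) := by
  have hP := zero_le_one.trans h.one
  have hκ := (abs_nonneg _).trans hx
  have h1 := h.abs_psi he ha hx
  have h2 := (cosh_le_sq (h1.trans hs)).trans (sq_le_sq' (abs_le.1 h1).1 (abs_le.1 h1).2)
  have h3 := sub_nonneg.2 (Real.one_le_cosh (vfl a e' / Λ.τ + x))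
  have h4 := mul_le_mul hn (mul_le_mul h.t h2 h3 hP) (mul_nonneg h.ok.pos.le h3) hd
  have h5 : ∀ i, x * a i e'.1 * (∑ e ∈ S, cc Λ l i e - co i (e'.2 - e'.1) * θ * (l : ℝ) ^ 2) ≤
      κ * κ * c := fun i => by
    refine (le_abs_self _).trans ?_
    rw [abs_mul, abs_mul]
    exact mul_le_mul (mul_le_mul hx (ha i) (abs_nonneg _) hκ) (hc i) (abs_nonneg _) (by positivity)
  simp only [← mul_sum, Fin.sum_univ_two, sum_add_distrib, vfl] at h4 ⊢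
  linarith [h5 0, h5 1]

theorem nums {P η l L κ : ℝ} (hP1 : 1 ≤ P) (hη : 0 < η) (hη' : 9 * P ^ 8 * η ≤ 1) (hl : 1 ≤ l)
    (hS1 : 1 ≤ η ^ 2 * l) (hS2 : l ≤ η ^ 2 * L) (hκ0 : 0 < κ) (hκL : κ * L = P) :
    l * κ ≤ P * η ∧ (l * κ) ^ 2 ≤ P ^ 2 * η ∧ 9 * P ^ 6 * (l * κ) ^ 2 ≤ 1 ∧ 3 * P ^ 2 * κ ≤ 1 ∧
      l * Real.sqrt l ≤ η * l ^ 2 ∧ l ≤ η * l ^ 2 := by
  have hP : 0 < P := one_pos.trans_le hP1
  have hη1 : η ≤ 1 := by nlinarith [one_le_pow₀ hP1 (n := 8)]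
  have hη2 : η ^ 2 ≤ η := by nlinarith
  have h1 : l * κ ≤ P * η := by
    nlinarith [mul_le_mul_of_nonneg_left hS2 hκ0.le, mul_le_mul_of_nonneg_left hη2 hP.le]
  have h2 : (l * κ) ^ 2 ≤ P ^ 2 * η := by
    nlinarith [pow_le_pow_left₀ (by positivity) h1 2, mul_le_mul_of_nonneg_left hη2 (sq_nonneg P)]
  have h3 : κ ≤ P * η := le_trans (le_mul_of_one_le_left hκ0.le hl) h1
  have h4 : Real.sqrt l ≤ η * l := Real.sqrt_le_iff.2 ⟨by positivity, by nlinarith⟩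
  refine ⟨h1, h2, ?_, ?_, by nlinarith, by nlinarith [mul_le_mul_of_nonneg_right hη2 (zero_le_one.trans hl)]⟩
  · linarith [mul_le_mul_of_nonneg_left h2 (by positivity : 0 ≤ 9 * P ^ 6)]
  · linarith [mul_le_mul_of_nonneg_left h3 (by positivity : 0 ≤ 3 * P ^ 2), mul_pos (pow_pos hP 8) hη,
      mul_le_mul_of_nonneg_right (pow_le_pow_right₀ hP1 (show 3 ≤ 8 by norm_num)) hη.le]

theorem nums2 {P η l L κ : ℝ} (hP1 : 1 ≤ P) (hη : 0 < η) (hL : 0 < L) (hκL : κ * L = P)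
    (h1 : l * κ ≤ P * η) (h2 : (l * κ) ^ 2 ≤ P ^ 2 * η) :
    P * L ^ 2 * (3 * (9 * P ^ 6 * (l * κ) ^ 2) ^ 2 + 8 * P ^ 6 * l ^ 2 * (2 * l * (P / L ^ 2) * κ)) +
      (P * L ^ 2 * P * (κ ^ 2 * (2 * (P * (η * l ^ 2)) + 9 * P ^ 5 * (4 * P * (η * l ^ 2)))) +
        P * l * L * P * (κ ^ 2 * (2 * (P ^ 4 * l ^ 2 + P * l ^ 2) + 9 * P ^ 5 * l ^ 2))) ≤
      l ^ 2 * (310 * P ^ 17 * η) := by
  have hP : 0 < P := one_pos.trans_le hP1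
  have hp : ∀ j ≤ 17, P ^ j * η ≤ P ^ 17 * η := fun j hj =>
    mul_le_mul_of_nonneg_right (pow_le_pow_right₀ hP1 hj) hη.le
  have e : _ = l ^ 2 * (243 * P ^ 15 * (l * κ) ^ 2 + (16 * P ^ 8 + 2 * P ^ 7 + 2 * P ^ 4 + 9 * P ^ 8) *
      (l * κ) + 2 * (P ^ 5 * η) + 36 * (P ^ 10 * η)) := show
    P * L ^ 2 * (3 * (9 * P ^ 6 * (l * κ) ^ 2) ^ 2 + 8 * P ^ 6 * l ^ 2 * (2 * l * (P / L ^ 2) * κ)) +
      (P * L ^ 2 * P * (κ ^ 2 * (2 * (P * (η * l ^ 2)) + 9 * P ^ 5 * (4 * P * (η * l ^ 2)))) +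
        P * l * L * P * (κ ^ 2 * (2 * (P ^ 4 * l ^ 2 + P * l ^ 2) + 9 * P ^ 5 * l ^ 2))) = _ by
    obtain rfl : κ = P / L := by rw [← hκL]; field_simp
    field_simp
    ring
  rw [e]
  refine mul_le_mul_of_nonneg_left ?_ (sq_nonneg _)
  linarith [mul_le_mul_of_nonneg_left h2 (by positivity : 0 ≤ 243 * P ^ 15),
    mul_le_mul_of_nonneg_left h1 (by positivity : 0 ≤ 16 * P ^ 8 + 2 * P ^ 7 + 2 * P ^ 4 + 9 * P ^ 8),
    hp 9 (by norm_num), hp 8 (by norm_num), hp 5 (by norm_num), hp 10 (by norm_num)]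

variable {G : Type} [AddCommGroup G] {g : Pt × Pt → G →+ ℤ} {ρ : G → ℝ}

theorem Bd.main (h : Bd Λ P) {η : ℝ} (hη : 0 < η) (hη' : 9 * P ^ 8 * η ≤ 1) (hS : Sep (η ^ 2) l L)
    (hθ : 0 ≤ Λ.tN l) (hθ' : Λ.tN l ≤ 1) (h01 : Vr (Λ.WN l) (Λ.X l (co 0)) (Λ.X l (co 1)) = 0)
    (h11 : Vr (Λ.WN l) (Λ.X l (co 1)) (Λ.X l (co 1)) = Vr (Λ.WN l) (Λ.X l (co 0)) (Λ.X l (co 0)))
    (hy : ∀ y ∈ Λ.Jp, ∀ i, |Vr (Λ.WN l) (Λ.X l (co i))
      (pr (dv (Λ.edI (sq 0 l)) fun e => ind (e.2 - e.1 = y))) - co i y * Λ.tN l * (l : ℝ) ^ 2| ≤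
        P * (l * Real.sqrt l))
    {a : Fin 2 → Pt → ℝ} {φ : Pt × Pt → ℝ} (hG : Λ.GAmb ρ g D l) (hD : Reg D P l L)
    (ha : ∀ i, ∀ x ∈ D, |a i x| ≤ P / L)
    (hd : ∀ i j, ∀ x ∈ D, x + ev j ∈ D → |df j (a i) x| ≤ P / (L : ℝ) ^ 2)
    (hφ : ∀ e ∈ Λ.edI D, |φ e| ≤ P / L) :
    M ρ (gfl (Λ.edI D) (fun e => vfl a e / Λ.τ + φ e) g) ≤
      (Λ.tN l * Λ.e0 * ∑ x ∈ D, ∑ i, a i x ^ 2 + 2 * Λ.tN l * ∑ e ∈ Λ.edI D, φ e * vfl a e +
        Λ.τ * ∑ e ∈ Λ.edI D, φ e ^ 2) / 2 + 310 * P ^ 17 * η := by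
  obtain ⟨hS1, hS2⟩ := hS
  have hP : 0 < P := one_pos.trans_le h.one
  have hl : 0 < l := Nat.pos_of_ne_zero (by rintro rfl; norm_num at hS1)
  have hl' : (0 : ℝ) < l := by exact_mod_cast hl
  have hL : (0 : ℝ) < L := by
    exact_mod_cast Nat.pos_of_ne_zero (show L ≠ 0 by rintro rfl; norm_num at hS2; omega)
  obtain ⟨κ, hκ⟩ : ∃ κ, κ = P / L := ⟨_, rfl⟩
  have hκ0 : 0 < κ := by rw [hκ]; positivity
  have hκL : κ * L = P := by rw [hκ]; field_simp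
  obtain ⟨n1, n2, hs, hs', hsq, h6⟩ := nums h.one hη hη' (by exact_mod_cast hl) hS1 hS2 hκ0 hκL
  have n3 := nums2 h.one hη hL hκL n1 n2
  rw [← hκ] at ha hφ
  -- the boxes
  have hb := sum_le_sum (s := Zb D l) fun z hz => h.box hl h01 h11 (a := fun i x => a i (x + z))
    (φ := fun e => φ (sh z e)) (κ := κ) (ω := 2 * l * (P / (L : ℝ) ^ 2))
    (fun i x hx => ha i _ ((mem_filter.1 hz).2 (add_mem_sq.2 hx)))
    (fun i x hx => osc (fun j x hx hx' => hd i j x ((mem_filter.1 hz).2 hx) ((mem_filter.1 hz).2 hx'))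
      hx (by positivity))
    (fun e he => hφ _ (Lat.edI_mono (mem_filter.1 hz).2 (sh_mem.2 he))) hs
  have hv := avg h.ok hl hG fun e => vfl a e / Λ.τ + φ e
  have e1 : ∀ z e, vfl a (sh z e) = vfl (fun i x => a i (x + z)) e := fun z e => by
    simp only [vfl, sh_fst, sh_snd, add_sub_add_right_eq_sub]
  have e2 := dbl Λ D l fun e' e => φ e' * ∑ i, a i e'.1 * cc Λ l i e
  have e3 := dbl Λ D l fun e' _ => φ e' ^ 2
  simp only [e1, sh_fst] at hv e2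
  rw [sum_add_distrib, ← sum_div, sum_add_distrib, sum_add_distrib, ← mul_sum, ← mul_sum, ← mul_sum,
    e2, e3, sum_const, nsmul_eq_mul] at hb
  have h1 : ∑ z ∈ Zb D l, ∑ i, a i (0 + z) ^ 2 ≤ ∑ x ∈ D, ∑ i, a i x ^ 2 := by
    simp only [zero_add]
    exact sum_le_sum_of_subset_of_nonneg (filter_subset _ _) fun _ _ _ => by positivity
  have h2 : ∑ e' ∈ Λ.edI D, ∑ _e ∈ Sb Λ D l e', φ e' ^ 2 ≤ (l : ℝ) ^ 2 * ∑ e ∈ Λ.edI D, φ e ^ 2 := by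
    rw [mul_sum]
    refine sum_le_sum fun e _ => ?_
    rw [sum_const, nsmul_eq_mul]
    exact mul_le_mul_of_nonneg_right (card_Sb_le _ _ _ _) (sq_nonneg _)
  have h3 : ((Zb D l).card : ℝ) ≤ P * L ^ 2 := (Nat.cast_le.2 (card_filter_le _ _)).trans hD.1
  -- the edges
  have h4 := h.sum_le hD (F := fun e' => ∑ e ∈ Sb Λ D l e', φ e' * ∑ i, a i e'.1 * cc Λ l i e -
      (l : ℝ) ^ 2 * Λ.tN l * (φ e' * vfl a e') + ((l : ℝ) ^ 2 - (Sb Λ D l e').card) *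
      (Λ.τ * (Real.cosh (vfl a e' / Λ.τ + φ e') - 1)))
    (c := κ ^ 2 * (2 * (P * (η * (l : ℝ) ^ 2)) + 9 * P ^ 5 * (4 * P * (η * (l : ℝ) ^ 2))))
    (c' := κ ^ 2 * (2 * (P ^ 4 * (l : ℝ) ^ 2 + P * (l : ℝ) ^ 2) + 9 * P ^ 5 * (l : ℝ) ^ 2))
    (by positivity) (by positivity)
    (fun e he hg => h.edge (Lat.mem_edI.1 he).1 (fun i => ha i _ (Lat.mem_edI.1 he).2.1) (hφ e he) hs'
      (by positivity) (by
        have h5 := card_dir (Lat.mem_edI.1 he).1 l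
        rw [← Sb_good hl hg] at h5
        exact (sub_le_comm.1 h5).trans (by rw [mul_assoc, mul_assoc 4 P]; gcongr; exact h.r))
      fun i => by
        rw [gam_good h.ok hl hg]
        exact (hy _ (Lat.mem_edI.1 he).1 i).trans (mul_le_mul_of_nonneg_left hsq hP.le))
    fun e he => h.edge (Lat.mem_edI.1 he).1 (fun i => ha i _ (Lat.mem_edI.1 he).2.1) (hφ e he) hs'
      (by positivity) (sub_le_self _ (Nat.cast_nonneg _)) fun i => by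
        refine (abs_sub _ _).trans (add_le_add (h.gam_bad hl e i) ?_)
        rw [abs_mul, abs_mul, abs_of_nonneg hθ, abs_of_nonneg (sq_nonneg (l : ℝ))]
        exact mul_le_mul_of_nonneg_right ((mul_le_of_le_one_right (abs_nonneg _) hθ').trans
          (h.abs_co (Lat.mem_edI.1 he).1 i)) (sq_nonneg _)
  rw [sum_add_distrib, sum_sub_distrib, ← mul_sum] at h4
  have h7 := mul_le_mul_of_nonneg_left h1
    (mul_nonneg (mul_nonneg hθ (e0_pos h.ok).le) (sq_nonneg (l : ℝ)))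
  have h8 := mul_le_mul_of_nonneg_left h2 h.ok.pos.le
  have h9 := mul_le_mul_of_nonneg_right h3 (show 0 ≤ 3 * (9 * P ^ 6 * (l * κ) ^ 2) ^ 2 +
    8 * P ^ 6 * (l : ℝ) ^ 2 * (2 * l * (P / (L : ℝ) ^ 2) * κ) by positivity)
  refine le_of_mul_le_mul_left ?_ (pow_pos hl' 2)
  linear_combination hv + hb + h4 + h7 / 2 + h8 / 2 + h9 + n3

theorem Reg.mono {K K' : ℝ} (h : Reg D K l L) (hK : K ≤ K') : Reg D K' l L :=
  ⟨h.1.trans (by gcongr), h.2.trans (by gcongr)⟩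

theorem exists_eta {P ε c : ℝ} (hP : 1 ≤ P) (hε : 0 < ε) (hc : 9 ≤ c) :
    ∃ η : ℝ, 0 < η ∧ 9 * P ^ 8 * η ≤ 1 ∧ c * P ^ 17 * η ≤ ε := by
  have h0 : 0 < c * P ^ 17 := by positivity
  have h1 : c * P ^ 17 * (min ε 1 / (c * P ^ 17)) = min ε 1 := by field_simp
  refine ⟨min ε 1 / (c * P ^ 17), by positivity, le_trans ?_ (h1.trans_le (min_le_right _ _)),
    h1.trans_le (min_le_left _ _)⟩
  gcongr
  norm_num

end T140

open T140 in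
/-- T1 in group form -/
theorem t1gStmt (hA : T1aStmt) : T1gStmt := by
  intro F K ε hε
  obtain ⟨C, hC⟩ := hA F
  obtain ⟨P, hK, hCP, hP, hB⟩ := exists_bd F K C
  obtain ⟨η, h0, h1, h2⟩ := exists_eta hP hε (c := 310) (by norm_num)
  refine ⟨η ^ 2, by positivity, fun Λ hΛ l L hS G _ ρ g D a φ hG hD ha hd hφ => ?_⟩
  have hl : 0 < l := Nat.pos_of_ne_zero (by rintro rfl; have := hS.1; norm_num at this)
  obtain ⟨t0, t1, t2, t3, t4⟩ := hC Λ hΛ l hl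
  exact ((hB Λ hΛ).main h0 h1 hS t0 t1 t2 t3 (fun y hy i => (t4 y hy i).trans (by gcongr)) hG
    (Reg.mono hD hK) (fun i x hx => (ha i x hx).trans (by gcongr))
    (fun i j x hx hx' => (hd i j x hx hx').trans (by gcongr))
    fun e he => (hφ e he).trans (by gcongr)).trans (by linarith)

end Crest.Agent.T145
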