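import Crest.Agent.T145.T1g_40
import Crest.Agent.T145.Sm_58

/-!
# Row 145, module (b) (helper40): `t1xStmt` as an instance of `t1gStmt`
-/

set_option autoImplicit false

namespace Crest.Agent.T145

open Finset Sl46

namespace T140

variable {Λ : Lat} {P : ℝ} {l L : ℕ} {D : Finset Pt}

/-- an ambient model is a gradient field in group form -/
theorem gamb_of_amb {m : Mdl Pt} (h : Λ.Amb m D) (l : ℕ) : Λ.GAmb (m.W 0) dH D l := by
  obtain ⟨h1, h2, -⟩ := Cut7.rem_pd pdStmt kerStmt h.1 (Λ.edI D)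
  refine ⟨h.1.wt h.2.1 0, h.1.se h.2.1 0, ⟨_, h1, h2, fun s => ?_⟩, fun _ _ s => ⟨s, fun _ _ => rfl⟩⟩
  rw [Cut7.W_eq h.2.2.1, prod_congr rfl fun e he => by rw [h.2.2.2 e he]]
  rfl

theorem gfl_dH (E : Finset (Pt × Pt)) (ψ : Pt × Pt → ℝ) : gfl E ψ dH = fl E ψ := rfl

theorem sum_iso (hΛ : Λ.Ok) (v : Fin 2 → ℝ) :
    ∑ y ∈ Λ.Jp, (∑ i, v i * co i y) ^ 2 = Λ.a * ∑ i, v i ^ 2 := by
  calc _ = v 0 ^ 2 * ∑ y ∈ Λ.Jp, (y.1 : ℝ) ^ 2 + v 1 ^ 2 * ∑ y ∈ Λ.Jp, (y.2 : ℝ) ^ 2 +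
          2 * v 0 * v 1 * ∑ y ∈ Λ.Jp, (y.1 : ℝ) * y.2 := by
        simp only [mul_sum, ← sum_add_distrib, Fin.sum_univ_two]
        exact sum_congr rfl fun y _ => by simp only [S58.co_fst, S58.co_snd]; ring
    _ = _ := by rw [hΛ.sum_mixed, ← hΛ.a_eq_snd, ← Lat.a, Fin.sum_univ_two]; ring

/-- site energy against edge energy of a vector field -/
theorem Bd.site_le (h : Bd Λ P) (hl : Λ.rg ≤ l) {a : Fin 2 → Pt → ℝ} {κ : ℝ}
    (ha : ∀ i, ∀ x ∈ D, |a i x| ≤ κ) :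
    Λ.a * ∑ x ∈ D, ∑ i, a i x ^ 2 ≤ ∑ e ∈ Λ.edI D, vfl a e ^ 2 +
      P * ((D.filter fun x => ¬ bl x l ⊆ D).card * (2 * (κ * P)) ^ 2) := by
  rw [mul_sum, ← sum_congr rfl fun x _ => sum_iso h.ok fun i => a i x, sum_comm, Lat.sum_edI]
  refine le_trans (sum_le_sum fun y hy => ?_) ((sum_add_distrib (g := fun _ =>
    ((D.filter fun x => ¬ bl x l ⊆ D).card * (2 * (κ * P)) ^ 2 : ℝ))).trans_le (add_le_add_right ?_ _))
  · rw [← sum_filter_add_sum_filter_not D fun x => x + y ∈ D]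
    refine add_le_add (le_of_eq (sum_congr rfl fun x _ => by simp [vfl]))
      ((sum_le_card_nsmul _ _ ((2 * (κ * P)) ^ 2) fun x hx => ?_).trans ?_)
    · have h1 := h.abs_vfl (a := a) (e := (x, x + y)) (by simpa using hy)
        fun i => ha i x (mem_filter.1 hx).1
      simp only [vfl, add_sub_cancel_left] at h1
      exact sq_le_sq' (abs_le.1 h1).1 (abs_le.1 h1).2
    · rw [nsmul_eq_mul]
      refine mul_le_mul_of_nonneg_right (Nat.cast_le.2 (card_le_card fun x hx => ?_)) (sq_nonneg _)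
      rw [mem_filter] at hx ⊢
      exact ⟨hx.1, fun H => hx.2 (H (bl_mono x hl
        (Lat.edge_near (e := (x, x + y)) (by simpa using hy))))⟩
  · rw [sum_const, nsmul_eq_mul]
    exact mul_le_mul_of_nonneg_right h.N (by positivity)

theorem Bd.abs_rem (h : Bd Λ P) {u : Pt → ℝ} {L : ℝ} (hu : Sm2 u P L) {e : Pt × Pt}
    (he : e.2 - e.1 ∈ Λ.Jp) : |u e.2 - u e.1 - vfl (fun i => df i u) e| ≤ P / L ^ 2 * (2 * P) ^ 2 := by
  refine (hu.taylor e.1 e.2).trans (mul_le_mul_of_nonneg_left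
    (pow_le_pow_left₀ (sum_nonneg fun _ _ => abs_nonneg _) ?_ 2) ((abs_nonneg _).trans (hu.2 0 0 0)))
  rw [Fin.sum_univ_two]
  linarith [h.abs_co he 0, h.abs_co he 1]

theorem nums3 {P δ l L : ℝ} (hP1 : 1 ≤ P) (hδ : δ ≤ 1) (hl : 1 ≤ l) (hL : 0 < L) (hS : l ≤ δ * L) :
    P * (P * l * L * (2 * (P / L * P)) ^ 2) * P + P * L ^ 2 * P *
      ((P / L ^ 2 * (2 * P) ^ 2) ^ 2 * P + 2 * (P / L * (P / L ^ 2 * (2 * P) ^ 2))) ≤
        28 * P ^ 9 * δ := by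
  have hP : 0 < P := one_pos.trans_le hP1
  have h1 : l / L ≤ δ := (div_le_iff₀ hL).2 hS
  have h2 : 1 / L ≤ δ := le_trans (by gcongr) h1
  have h0 : 0 ≤ 1 / L := by positivity
  have h3 : (1 / L) ^ 2 ≤ δ := by nlinarith
  calc _ = 4 * P ^ 7 * (l / L) + 16 * P ^ 9 * (1 / L) ^ 2 + 8 * P ^ 6 * (1 / L) := by
        field_simp; ring
    _ ≤ 4 * P ^ 9 * δ + 16 * P ^ 9 * δ + 8 * P ^ 9 * δ := by gcongr <;> first | exact hP1 | norm_num
    _ = _ := by ring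

/-- the two quadratic forms differ by a small error -/
theorem Bd.forms (h : Bd Λ P) {δ θ : ℝ} (hδ : P * δ ≤ 1) (hS : Sep δ l L) (hθ : 0 ≤ θ) (hθ' : θ ≤ 1)
    (hD : Reg D P l L) {u : Pt → ℝ} (hu : Sm2 u P L) {φ : Pt × Pt → ℝ}
    (hφ : ∀ e ∈ Λ.edI D, |φ e| ≤ P / L) :
    θ * Λ.e0 * ∑ x ∈ D, ∑ i, df i u x ^ 2 +
      2 * θ * ∑ e ∈ Λ.edI D, (φ e + (u e.2 - u e.1 - vfl (fun i => df i u) e) / Λ.τ) *
        vfl (fun i => df i u) e +
      Λ.τ * ∑ e ∈ Λ.edI D, (φ e + (u e.2 - u e.1 - vfl (fun i => df i u) e) / Λ.τ) ^ 2 ≤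
    θ * Λ.En D u u + 2 * θ * ∑ e ∈ Λ.edI D, φ e * (u e.2 - u e.1) +
      Λ.τ * ∑ e ∈ Λ.edI D, φ e ^ 2 + 28 * P ^ 9 * δ := by
  have hP : 0 < P := one_pos.trans_le h.one
  have hτ := h.ok.pos
  have hl : 0 < l := Nat.pos_of_ne_zero (by rintro rfl; have := hS.1; norm_num at this)
  have hl' : (0 : ℝ) < l := by exact_mod_cast hl
  have hL : (0 : ℝ) < L := by
    exact_mod_cast Nat.pos_of_ne_zero (show L ≠ 0 by rintro rfl; have := hS.2; norm_num at this; omega)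
  have hδ0 : 0 < δ := (mul_pos_iff_of_pos_right hl').1 (one_pos.trans_le hS.1)
  have hr : Λ.rg ≤ l := by
    have : P ≤ l := by nlinarith [hS.1]
    exact_mod_cast h.r.trans this
  have h1 := (h.site_le hr (a := fun i => df i u) fun i x _ => hu.1 i x).trans (add_le_add_right
    (mul_le_mul_of_nonneg_left (mul_le_mul_of_nonneg_right hD.2 (sq_nonneg _)) hP.le) _)
  have h2 := nums3 h.one (by nlinarith [h.one]) (by exact_mod_cast hl) hL hS.2
  have h3 : ∑ e ∈ Λ.edI D, (1 - θ) * ((u e.2 - u e.1 - vfl (fun i => df i u) e) ^ 2 / Λ.τ +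
      2 * (φ e * (u e.2 - u e.1 - vfl (fun i => df i u) e))) ≤ P * L ^ 2 * P *
      ((P / L ^ 2 * (2 * P) ^ 2) ^ 2 * P + 2 * (P / L * (P / L ^ 2 * (2 * P) ^ 2))) := by
    refine (sum_le_card_nsmul _ _ _ fun e he => ?_).trans ((nsmul_eq_mul _ _).trans_le
      (mul_le_mul_of_nonneg_right ((h.card_edI D).trans (mul_le_mul_of_nonneg_right hD.1 hP.le))
        (by positivity)))
    have h4 := h.abs_rem hu (Lat.mem_edI.1 he).1
    refine (le_abs_self _).trans ?_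
    rw [abs_mul, abs_of_nonneg (sub_nonneg.2 hθ')]
    refine (mul_le_of_le_one_left (abs_nonneg _) (sub_le_self _ hθ)).trans ((abs_add_le _ _).trans
      (add_le_add (h.abs_div ?_) ?_))
    · rw [abs_pow]
      exact pow_le_pow_left₀ (abs_nonneg _) h4 2
    · rw [abs_mul, abs_mul, abs_two]
      exact mul_le_mul_of_nonneg_left (mul_le_mul (hφ e he) h4 (abs_nonneg _) (by positivity))
        zero_le_two
  have h5 : θ / Λ.τ * ∑ e ∈ Λ.edI D, vfl (fun i => df i u) e ^ 2 +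
      2 * θ * ∑ e ∈ Λ.edI D, (φ e + (u e.2 - u e.1 - vfl (fun i => df i u) e) / Λ.τ) *
        vfl (fun i => df i u) e +
      Λ.τ * ∑ e ∈ Λ.edI D, (φ e + (u e.2 - u e.1 - vfl (fun i => df i u) e) / Λ.τ) ^ 2 =
      θ * Λ.En D u u + 2 * θ * ∑ e ∈ Λ.edI D, φ e * (u e.2 - u e.1) +
      Λ.τ * ∑ e ∈ Λ.edI D, φ e ^ 2 +
      ∑ e ∈ Λ.edI D, (1 - θ) * ((u e.2 - u e.1 - vfl (fun i => df i u) e) ^ 2 / Λ.τ +
        2 * (φ e * (u e.2 - u e.1 - vfl (fun i => df i u) e))) := by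
    simp only [Lat.En, mul_sum, ← sum_add_distrib]
    refine sum_congr rfl fun e _ => ?_
    field_simp
    ring
  have h6 : θ / Λ.τ ≤ P := by
    rw [div_eq_mul_inv]
    exact (mul_le_of_le_one_left (inv_pos.2 hτ).le hθ').trans h.t'
  have h7 := mul_le_mul_of_nonneg_left h1 (div_nonneg hθ hτ.le)
  have h8 := mul_le_mul_of_nonneg_right h6
    (show 0 ≤ P * (P * l * L * (2 * (P / L * P)) ^ 2) by positivity)
  rw [Lat.e0]
  linear_combination h2 + h3 + h5.le + h7 + h8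

end T140

open T140 in
/-- T1x -/
theorem t1xStmt (hA : T1aStmt) : T1xStmt := by
  intro F K ε hε
  obtain ⟨C, hC⟩ := hA F
  obtain ⟨P, hK, -, hP, hB⟩ := exists_bd F K K
  obtain ⟨δ', h0, H⟩ := t1gStmt hA F (5 * P ^ 4) (ε / 2) (half_pos hε)
  have hP0 : 0 < P := one_pos.trans_le hP
  have hP4 : P ≤ P ^ 4 := le_self_pow₀ hP (by norm_num)
  have hK' : K ≤ 5 * P ^ 4 := by linarith
  refine ⟨min δ' (min ε 1 / (28 * P ^ 9)), by positivity, fun Λ hΛ l L hS m D u φ hm hD hu hφ => ?_⟩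
  set δ := min δ' (min ε 1 / (28 * P ^ 9))
  have h1 : 28 * P ^ 9 * δ ≤ min ε 1 := (le_div_iff₀' (by positivity)).1 (min_le_right _ _)
  have hδ0 : 0 < δ := by positivity
  have h2 : P * δ ≤ 1 := le_trans (mul_le_mul_of_nonneg_right
    (by linarith [le_self_pow₀ hP (show 9 ≠ 0 by norm_num)]) hδ0.le) (h1.trans (min_le_right _ _))
  have hl : 0 < l := Nat.pos_of_ne_zero (by rintro rfl; have := hS.1; norm_num at this)
  have hL : 0 < L := Nat.pos_of_ne_zero (by rintro rfl; have := hS.2; norm_num at this; omega)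
  have hL1 : (1 : ℝ) ≤ L := by exact_mod_cast hL
  have h := hB Λ hΛ
  have hu' : Sm2 u P L := hu.mono (by positivity) hK
  have hφ' : ∀ e ∈ Λ.edI D, |φ e| ≤ P / L := fun e he => (hφ e he).trans (by gcongr)
  obtain ⟨t0, t1, -⟩ := hC Λ hΛ l hl
  have h3 := H Λ hΛ l L ⟨hS.1.trans (by gcongr; exact min_le_left _ _),
    hS.2.trans (by gcongr; exact min_le_left _ _)⟩ _ _ dH D (fun i => df i u)
    (fun e => φ e + (u e.2 - u e.1 - vfl (fun i => df i u) e) / Λ.τ) (gamb_of_amb hm l)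
    (Reg.mono hD hK') (fun i x _ => (hu.1 i x).trans (by gcongr))
    (fun i j x _ _ => (hu.2 i j x).trans (by gcongr)) fun e he => by
      refine (abs_add_le _ _).trans ((add_le_add (hφ' e he)
        (h.abs_div (h.abs_rem hu' (Lat.mem_edI.1 he).1))).trans ?_)
      calc _ = P / L + 4 * P ^ 4 / L ^ 2 := by ring
        _ ≤ P ^ 4 / L + 4 * P ^ 4 / L := by gcongr; exact le_self_pow₀ hL1 two_ne_zero
        _ = _ := by ring
  have h4 := h.forms h2 hS t0 t1 (Reg.mono hD hK) hu' hφ'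
  rw [gfl_dH, fl_congr (φ := fun e => (u e.2 - u e.1) / Λ.τ + φ e) fun e _ => by ring, fl_add] at h3
  rw [Lat.Au, pr_dv_eq_fl, pr_dv_eq_fl]
  linarith [min_le_left ε 1]

end Crest.Agent.T145
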