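import Crest.Agent.T145.GffDef_8
import Crest.Agent.T145.GeoB_51
import Crest.Agent.T145.CorB_59

/-!
# Row 145, T2 (charges vanish in a window), part A: the abstract core and the seam (helper89)
-/

set_option autoImplicit false

namespace Crest.Agent.T145.T289

open Finset Crest.ProbabilityR.HeightModel

theorem pair_ge {P Q G : ℝ} (hP : 0 ≤ P) (hP1 : P ≤ 1) (hQ : 0 ≤ Q) (h : G ^ 2 ≤ P * Q) :
    (P - G) ^ 2 ≤ P + Q - 2 * G := by
  have h0 : 0 ≤ P + Q - 2 * G := by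
    have : (2 * G) ^ 2 ≤ (P + Q) ^ 2 := by nlinarith [sq_nonneg (P - Q)]
    linarith [(abs_le_of_sq_le_sq' this (by linarith)).2]
  nlinarith [mul_nonneg (sub_nonneg.2 hP1) h0]

/-- the abstract core of T2 -/
theorem core {c a P : ℤ → ℝ} {g Ψ : ℝ} (hc0 : ∀ p, 0 ≤ c p) (hce : ∀ p, c (-p) = c p)
    (hcs : Summable c) (ha : ∀ p, a p ^ 2 ≤ 1) (hP0 : ∀ p, 0 ≤ P p) (hP1 : ∀ p, P p ≤ 1)
    (hPP : ∀ p, (g * a p ^ 2) ^ 2 ≤ P p * P (-p))
    (h : ∑' p, c p * P p ≤ Ψ * ∑' p, c p * a p ^ 2) (q : ℤ) :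
    c q * (P q - g * a q ^ 2) ^ 2 ≤ 2 * (Ψ - g) * ∑' p, c p * a p ^ 2 := by
  have s1 : Summable fun p => c p * P p :=
    Summable.of_nonneg_of_le (fun p => mul_nonneg (hc0 p) (hP0 p))
      (fun p => mul_le_of_le_one_right (hc0 p) (hP1 p)) hcs
  have s2 : Summable fun p => c p * P (-p) :=
    Summable.of_nonneg_of_le (fun p => mul_nonneg (hc0 p) (hP0 _))
      (fun p => mul_le_of_le_one_right (hc0 p) (hP1 _)) hcs
  have s3 : Summable fun p => c p * a p ^ 2 :=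
    Summable.of_nonneg_of_le (fun p => mul_nonneg (hc0 p) (sq_nonneg _))
      (fun p => mul_le_of_le_one_right (hc0 p) (ha _)) hcs
  have e2 : ∑' p, c p * P (-p) = ∑' p, c p * P p := by
    rw [← (Equiv.neg ℤ).tsum_eq fun p => c p * P p]
    exact tsum_congr fun p => by simp [hce]
  have hs : HasSum (fun p => c p * (P p + P (-p) - 2 * (g * a p ^ 2)))
      (2 * ∑' p, c p * P p - 2 * g * ∑' p, c p * a p ^ 2) := by
    have := (s1.hasSum.add s2.hasSum).sub (s3.hasSum.mul_left (2 * g))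
    rw [e2] at this
    have e3 : (fun p => c p * (P p + P (-p) - 2 * (g * a p ^ 2))) =
        fun b => c b * P b + c b * P (-b) - 2 * g * (c b * a b ^ 2) := by
      ext p; ring
    rw [e3, two_mul (∑' p, c p * P p)]
    exact this
  have hq := le_hasSum hs q fun p _ => mul_nonneg (hc0 p)
    ((sq_nonneg _).trans (pair_ge (hP0 p) (hP1 p) (hP0 (-p)) (hPP p)))
  have := mul_le_mul_of_nonneg_left (pair_ge (hP0 q) (hP1 q) (hP0 (-q)) (hPP q)) (hc0 q)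
  linarith

theorem prod_ge {A B a η : ℝ} (hA : 0 ≤ A) (hB : 0 ≤ B) (ha : 0 ≤ a) (ha1 : a ≤ 1) (hη : 0 ≤ η)
    (h1 : a - η ≤ A) (h2 : a - η ≤ B) : a ^ 2 - 2 * η ≤ A * B := by
  rcases le_total η a with h | h
  · nlinarith [mul_le_mul h1 h2 (by linarith) hA]
  · nlinarith [mul_nonneg hA hB]

theorem sqrt_step {b y c : ℝ} (hb : 0 ≤ b) (hy : 0 ≤ y) (hc : 0 ≤ c)
    (h : Real.sqrt b ≤ Real.sqrt y + c) : b - 2 * c * Real.sqrt b ≤ y := by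
  have e1 := Real.sq_sqrt hb
  have e2 := Real.sq_sqrt hy
  have p1 := Real.sqrt_nonneg b
  have p2 := Real.sqrt_nonneg y
  rcases le_total (Real.sqrt b) c with h' | h'
  · nlinarith
  · nlinarith

/-! ## flows -/

theorem dv_smul (ed : Finset (Pt × Pt)) (c : ℝ) (φ : Pt × Pt → ℝ) :
    dv ed (fun e => c * φ e) = c • dv ed φ := by
  ext x; simp only [dv, Pi.smul_apply, smul_eq_mul, mul_sum, mul_assoc]

theorem dv_zero (ed : Finset (Pt × Pt)) : dv ed (fun _ => (0 : ℝ)) = 0 := by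
  ext x; simp [dv]

theorem sup_dv {Λ : Lat} (D : Finset Pt) (φ : Pt × Pt → ℝ) : Sup D (dv (Λ.edI D) φ) := by
  intro x hx
  refine sum_eq_zero fun e he => ?_
  obtain ⟨-, h1, h2⟩ := Lat.mem_edI.1 he
  rw [ind_neg fun h : e.2 = x => hx (h ▸ h2), ind_neg fun h : e.1 = x => hx (h ▸ h1)]
  simp

theorem sum_dv {Λ : Lat} (D : Finset Pt) (φ : Pt × Pt → ℝ) :
    ∑ x ∈ D, dv (Λ.edI D) φ x = 0 := by
  unfold dv
  rw [sum_comm]
  refine sum_eq_zero fun e he => ?_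
  obtain ⟨-, h1, h2⟩ := Lat.mem_edI.1 he
  rw [← mul_sum, sum_sub_distrib]
  have k : ∀ y ∈ D, ∑ x ∈ D, ind (y = x) = 1 := fun y hy => by
    rw [sum_eq_single_of_mem y hy fun x _ hx => ind_neg fun h => hx h.symm, ind_pos rfl]
  rw [k _ h1, k _ h2]; simp

theorem Au_smul (Λ : Lat) (D : Finset Pt) (c : ℝ) (u : Pt → ℝ) :
    Λ.Au D (fun x => c * u x) = c • Λ.Au D u := by
  unfold Lat.Au
  rw [← dv_smul]
  congr 1; ext e; ring

theorem En_smul (Λ : Lat) (D : Finset Pt) (c : ℝ) (u : Pt → ℝ) :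
    Λ.En D (fun x => c * u x) (fun x => c * u x) = c ^ 2 * Λ.En D u u := by
  unfold Lat.En
  rw [mul_sum]
  exact sum_congr rfl fun e _ => by ring

theorem co0 (x : Pt) : co 0 x = x.1 := rfl

theorem En_le {Λ : Lat} (h : Λ.Ok) (D : Finset Pt) : Λ.En D (co 0) (co 0) ≤ D.card * Λ.e0 := by
  unfold Lat.En Lat.e0 Lat.a
  rw [Lat.sum_edI, sum_div, mul_sum]
  refine sum_le_sum fun y _ => ?_
  have e : ∀ x : Pt, (co 0 (x + y) - co 0 x) * (co 0 (x + y) - co 0 x) / Λ.τ =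
      (y.1 : ℝ) ^ 2 / Λ.τ := fun x => by
    simp only [co0, Prod.fst_add, Int.cast_add]; ring
  simp only [e, sum_const, nsmul_eq_mul]
  have := h.pos
  gcongr
  exact filter_subset _ _

theorem sm2_co {c K L : ℝ} (hL : 0 < L) (h : |c| ≤ K) :
    Sm2 (fun x => c / L * co 0 x) K L := by
  have hK : 0 ≤ K := (abs_nonneg _).trans h
  have e : ∀ i x, df i (fun x => c / L * co 0 x) x = c / L * co 0 (ev i) := fun i x => by
    simp only [df, co0, Prod.fst_add, Int.cast_add]; ring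
  refine ⟨fun i x => ?_, fun i j x => ?_⟩
  · rw [e, abs_mul, abs_div, abs_of_pos hL]
    have : |co 0 (ev i)| ≤ 1 := by fin_cases i <;> simp [co0, ev]
    calc |c| / L * |co 0 (ev i)| ≤ |c| / L * 1 := by gcongr
      _ ≤ K / L := by rw [mul_one]; gcongr
  · have : df j (df i fun x => c / L * co 0 x) x = 0 := by
      unfold df at e ⊢; rw [e, e, sub_self]
    rw [this, abs_zero]; positivity

theorem mem_rc {a x : Pt} {n₁ n₂ : ℕ} :
    x ∈ rc a n₁ n₂ ↔ (a.1 ≤ x.1 ∧ x.1 < a.1 + n₁) ∧ a.2 ≤ x.2 ∧ x.2 < a.2 + n₂ := by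
  simp [rc]

theorem card_rc (a : Pt) (n₁ n₂ : ℕ) : (rc a n₁ n₂).card = n₁ * n₂ := by
  simp [rc]

/-- translation of a divergence -/
theorem dv_shift {Λ : Lat} (n₁ n₂ : ℕ) (v x : Pt) :
    Λ.Au (rc 0 n₁ n₂) (co 0) (x - v) = Λ.Au (rc v n₁ n₂) (co 0) x := by
  unfold Lat.Au dv
  refine sum_bij' (fun e _ => (e.1 + v, e.2 + v)) (fun e _ => (e.1 - v, e.2 - v)) ?_ ?_ ?_ ?_ ?_
  · intro e he
    simp only [Lat.mem_edI, mem_rc, Prod.fst_add, Prod.snd_add, Prod.fst_zero, Prod.snd_zero,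
      add_sub_add_right_eq_sub] at he ⊢
    refine ⟨he.1, ?_, ?_⟩ <;> omega
  · intro e he
    simp only [Lat.mem_edI, mem_rc, Prod.fst_sub, Prod.snd_sub, Prod.fst_zero, Prod.snd_zero,
      sub_sub_sub_cancel_right] at he ⊢
    refine ⟨he.1, ?_, ?_⟩ <;> omega
  · intro e _; simp
  · intro e _; simp
  · intro e _
    simp only [co0, Prod.fst_add, Int.cast_add, eq_sub_iff_add_eq]
    ring

/-- the edges across the seam -/
noncomputable def cr (Λ : Lat) (n₁ n₂ : ℕ) : Finset (Pt × Pt) :=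
  (Λ.edI (rc 0 (2 * n₁) n₂)).filter fun e => ¬ (e.1.1 < n₁ ↔ e.2.1 < n₁)

theorem card_cr (Λ : Lat) (n₁ n₂ : ℕ) : (cr Λ n₁ n₂).card ≤ 2 * (2 * Λ.rg * n₂ * Λ.Jp.card) := by
  have : cr Λ n₁ n₂ ⊆ Λ.edT (rc ((n₁ : ℤ) - Λ.rg, 0) (2 * Λ.rg) n₂) := by
    intro e he
    obtain ⟨he, h⟩ := mem_filter.1 he
    obtain ⟨h0, h1, h2⟩ := Lat.mem_edI.1 he
    have hn := mem_bl.1 (Lat.edge_near h0)
    refine Lat.mem_edT.2 ⟨h0, Or.inl ?_⟩
    simp only [mem_rc, Prod.fst_zero, Prod.snd_zero] at h1 h2 ⊢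
    push_cast
    omega
  refine (card_le_card this).trans ((Lat.card_edT_le _).trans ?_)
  rw [card_rc]

/-- the tilt of the double rectangle is the sum of the two tilts and of the seam -/
theorem seam_eq (Λ : Lat) (n₁ n₂ : ℕ) :
    Λ.Au (rc 0 (2 * n₁) n₂) (co 0) =
      (fun x => Λ.Au (rc 0 n₁ n₂) (co 0) x + Λ.Au (rc 0 n₁ n₂) (co 0) (x - ((n₁ : ℤ), 0))) +
        dv (cr Λ n₁ n₂) fun e => (co 0 e.2 - co 0 e.1) / Λ.τ := by
  ext x
  rw [Pi.add_apply, dv_shift]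
  unfold Lat.Au dv
  have e1 : Λ.edI (rc 0 n₁ n₂) =
      (Λ.edI (rc 0 (2 * n₁) n₂)).filter fun e : Pt × Pt => e.1.1 < n₁ ∧ e.2.1 < n₁ := by
    ext e
    simp only [mem_filter, Lat.mem_edI, mem_rc, Prod.fst_zero, Prod.snd_zero]
    push_cast
    constructor
    · rintro ⟨h0, h1, h2⟩; refine ⟨⟨h0, ?_, ?_⟩, ?_⟩ <;> omega
    · rintro ⟨⟨h0, h1, h2⟩, h3⟩; refine ⟨h0, ?_, ?_⟩ <;> omega
  have e2 : Λ.edI (rc ((n₁ : ℤ), 0) n₁ n₂) =
      (Λ.edI (rc 0 (2 * n₁) n₂)).filter fun e : Pt × Pt => ¬ e.1.1 < n₁ ∧ ¬ e.2.1 < n₁ := by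
    ext e
    simp only [mem_filter, Lat.mem_edI, mem_rc, Prod.fst_zero, Prod.snd_zero]
    push_cast
    constructor
    · rintro ⟨h0, h1, h2⟩; refine ⟨⟨h0, ?_, ?_⟩, ?_⟩ <;> omega
    · rintro ⟨⟨h0, h1, h2⟩, h3⟩; refine ⟨h0, ?_, ?_⟩ <;> omega
  rw [e1, e2, cr, sum_filter, sum_filter, sum_filter, ← sum_add_distrib, ← sum_add_distrib]
  refine sum_congr rfl fun e _ => ?_
  by_cases h1 : e.1.1 < n₁ <;> by_cases h2 : e.2.1 < n₁ <;> simp [h1, h2]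

theorem seam_sq {Λ : Lat} (h : Λ.Ok) (n₁ n₂ : ℕ) :
    ∑ e ∈ cr Λ n₁ n₂, ((co 0 e.2 - co 0 e.1) / Λ.τ) ^ 2 ≤
      4 * (Λ.rg : ℝ) ^ 3 * Λ.Jp.card / Λ.τ ^ 2 * n₂ := by
  have hτ := h.pos
  have k : ∀ e ∈ cr Λ n₁ n₂, ((co 0 e.2 - co 0 e.1) / Λ.τ) ^ 2 ≤ (Λ.rg : ℝ) ^ 2 / Λ.τ ^ 2 := by
    intro e he
    obtain ⟨h0, -, -⟩ := Lat.mem_edI.1 (mem_filter.1 he).1
    have := (Lat.le_rg (Lat.mem_Jp.1 h0).1).1
    have h' : |co 0 e.2 - co 0 e.1| ≤ (Λ.rg : ℝ) := by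
      simp only [co0]; rw [Prod.fst_sub] at this; exact_mod_cast this
    rw [div_pow, ← sq_abs]
    gcongr
  refine (sum_le_card_nsmul _ _ _ k).trans ?_
  rw [nsmul_eq_mul]
  have : ((cr Λ n₁ n₂).card : ℝ) ≤ 2 * (2 * Λ.rg * n₂ * Λ.Jp.card) := by
    exact_mod_cast card_cr Λ n₁ n₂
  calc _ ≤ 2 * (2 * Λ.rg * n₂ * Λ.Jp.card) * ((Λ.rg : ℝ) ^ 2 / Λ.τ ^ 2) := by gcongr
    _ = _ := by ring

end Crest.Agent.T145.T289
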