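import Crest.Agent.T145.GffDef_8
import Crest.Agent.T145.GeoA_51

/-!
# Row 145, module (b): T3b, the kernel algebra (helper50)

A kernel with nonpositive off-diagonal entries is a Dirichlet form plus a potential.  The smooth function
`u` is completed by localised plane waves to an almost conformal family; the upper bound for the
coordinates and the lower bound for the plane waves give the upper bound for `u`.
-/

set_option autoImplicit false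
set_option linter.unusedVariables false

namespace Crest.Agent.T145.T3b50

open Finset

/-! ## kernels -/
section ker
variable {B : Finset Pt} {J : B → B → ℝ} {μ : ℝ}

/-- `J (1, φ)` -/
noncomputable def r1 (J : B → B → ℝ) (φ : Pt → ℝ) : ℝ := ∑ x : B, ∑ y : B, J x y * φ x

theorem r1_swap (hs : ∀ x y, J x y = J y x) (φ : Pt → ℝ) :
    ∑ x : B, ∑ y : B, J x y * φ y = r1 J φ := by
  rw [sum_comm]; exact sum_congr rfl fun x _ => sum_congr rfl fun y _ => by rw [hs]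

theorem qf_eq (hs : ∀ x y, J x y = J y x) (m : Pt → ℝ) :
    qf J m = ∑ x : B, ∑ y : B, (-J x y * (m x - m y) ^ 2 / 2 + J x y * m x ^ 2) := by
  have h := r1_swap hs fun x => m x ^ 2
  have e : ∑ x : B, ∑ y : B, (-J x y * (m x - m y) ^ 2 / 2 + J x y * m x ^ 2) =
      qf J m + (r1 J (fun x => m x ^ 2) - ∑ x : B, ∑ y : B, J x y * m y ^ 2) / 2 := by
    simp only [qf, r1, ← sum_sub_distrib, sum_div, ← sum_add_distrib]
    exact sum_congr rfl fun x _ => sum_congr rfl fun y _ => by ring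
  rw [e, h]; ring

theorem qf_one_add (hs : ∀ x y, J x y = J y x) (φ : Pt → ℝ) (s : ℝ) :
    qf J (fun x => 1 + s * φ x) = qf J (fun _ => 1) + 2 * s * r1 J φ + s ^ 2 * qf J φ := by
  have h := r1_swap hs φ
  have e : qf J (fun x => 1 + s * φ x) = qf J (fun _ => 1) +
      s * (r1 J φ + ∑ x : B, ∑ y : B, J x y * φ y) + s ^ 2 * qf J φ := by
    simp only [qf, r1, mul_sum, ← sum_add_distrib]
    exact sum_congr rfl fun x _ => sum_congr rfl fun y _ => by ring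
  rw [e, h]; ring

theorem r1_le (hK : Ker J μ) (hμ : 0 ≤ μ) (φ : Pt → ℝ) {M t : ℝ} (ht : 0 < t)
    (hφ : ∀ x ∈ B, |φ x| ≤ M) :
    r1 J φ ≤ qf J (fun _ => 1) / (2 * t) + t * (μ * B.card * M ^ 2) / 2 := by
  have h1 := (hK.2.2 fun x => 1 + (-t) * φ x).1
  rw [qf_one_add hK.1] at h1
  have h2 : ip B φ φ ≤ B.card * M ^ 2 := by
    rw [ip, ← nsmul_eq_mul]
    refine sum_le_card_nsmul _ _ _ fun x hx => ?_
    rw [← pow_two, ← sq_abs]; exact pow_le_pow_left₀ (abs_nonneg _) (hφ x hx) 2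
  have h3 : qf J φ ≤ μ * B.card * M ^ 2 := by
    refine (hK.2.2 φ).2.trans ?_
    rw [mul_assoc]; exact mul_le_mul_of_nonneg_left h2 hμ
  have h4 : t ^ 2 * qf J φ ≤ t ^ 2 * (μ * B.card * M ^ 2) :=
    mul_le_mul_of_nonneg_left h3 (sq_nonneg t)
  have h5 : 2 * t * r1 J φ ≤ qf J (fun _ => 1) + t ^ 2 * (μ * B.card * M ^ 2) := by
    have : (-t) ^ 2 = t ^ 2 := by ring
    rw [this] at h1; linarith
  have e : qf J (fun _ => 1) / (2 * t) + t * (μ * B.card * M ^ 2) / 2 =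
      (qf J (fun _ => 1) + t ^ 2 * (μ * B.card * M ^ 2)) / (2 * t) := by field_simp
  rw [e, le_div_iff₀ (by positivity)]; linarith

theorem comb (hK : Ker J μ) {ι : Type*} (I : Finset ι) (p Λ : ℝ) (m : ι → Pt → ℝ)
    (u a b : Pt → ℝ) (h : ∀ x y : Pt, (u x - u y) ^ 2 + p * ∑ i ∈ I, (m i x - m i y) ^ 2 ≤
      Λ * ((a x - a y) ^ 2 + (b x - b y) ^ 2)) :
    qf J u + p * ∑ i ∈ I, qf J (m i) ≤ Λ * (qf J a + qf J b) +
      r1 J fun x => u x ^ 2 + p * ∑ i ∈ I, m i x ^ 2 - Λ * (a x ^ 2 + b x ^ 2) := by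
  have e : ∑ i ∈ I, qf J (m i) = ∑ x : B, ∑ y : B,
      (-J x y * (∑ i ∈ I, (m i x - m i y) ^ 2) / 2 + J x y * ∑ i ∈ I, m i x ^ 2) := by
    simp only [qf_eq hK.1 (m _)]
    rw [sum_comm]
    refine sum_congr rfl fun x _ => ?_
    rw [sum_comm]
    refine sum_congr rfl fun y _ => ?_
    simp only [mul_sum, sum_div, ← sum_add_distrib]
  rw [e, qf_eq hK.1 u, qf_eq hK.1 a, qf_eq hK.1 b, r1]
  simp only [mul_sum, ← sum_add_distrib]
  refine sum_le_sum fun x _ => sum_le_sum fun y _ => ?_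
  simp only [← mul_sum]
  by_cases hxy : x = y
  · subst hxy; simp; ring_nf; rfl
  · have h1 := hK.2.1 x y hxy
    have h2 := mul_le_mul_of_nonneg_left (h x y) (neg_nonneg.2 h1)
    linarith

end ker

/-! ## Lipschitz bounds on the lattice -/

theorem lip1 (h : ℤ → ℝ) (c : ℝ) (a : ℤ) : ∀ n : ℕ, (∀ t, a ≤ t → t < a + n → |h (t + 1) - h t| ≤ c) →
    |h (a + n) - h a| ≤ c * n
  | 0, _ => by simp
  | n + 1, H => by
    have h1 := lip1 h c a n fun t h1 h2 => H t h1 (by push_cast; omega)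
    have h2 := H (a + n) (by omega) (by push_cast; omega)
    have h3 := abs_sub_le (h (a + n + 1)) (h (a + n)) (h a)
    push_cast
    rw [← add_assoc]; linarith

theorem lip1' (h : ℤ → ℝ) (c : ℝ) (lo hi a b : ℤ) (ha : lo ≤ a ∧ a ≤ hi) (hb : lo ≤ b ∧ b ≤ hi)
    (H : ∀ t, lo ≤ t → t ≤ hi → |h (t + 1) - h t| ≤ c) : |h b - h a| ≤ c * |(b : ℝ) - a| := by
  wlog hab : a ≤ b generalizing a b
  · rw [abs_sub_comm, abs_sub_comm (b : ℝ)]; exact this b a hb ha (by omega)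
  obtain ⟨n, rfl⟩ := Int.le.dest hab
  have := lip1 h c a n fun t h1 h2 => H t (by omega) (by omega)
  simpa using this

theorem lipB (f : Pt → ℝ) (c : ℝ) (z : Pt) (R : ℕ) (H : ∀ i, ∀ w ∈ bl z R, |df i f w| ≤ c)
    {x y : Pt} (hx : x ∈ bl z R) (hy : y ∈ bl z R) :
    |f x - f y| ≤ c * (|(x.1 : ℝ) - y.1| + |(x.2 : ℝ) - y.2|) := by
  rw [mem_bl] at hx hy
  have h1 := lip1' (fun t => f (t, y.2)) c _ _ y.1 x.1 hy.1 hx.1 fun t h1 h2 => by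
    have := H 0 (t, y.2) (mem_bl.2 ⟨⟨h1, h2⟩, hy.2⟩)
    simpa [df, ev] using this
  have h2 := lip1' (fun t => f (x.1, t)) c _ _ y.2 x.2 hy.2 hx.2 fun t h1 h2 => by
    have := H 1 (x.1, t) (mem_bl.2 ⟨hx.1, h1, h2⟩)
    simpa [df, ev] using this
  have h3 := abs_sub_le (f x) (f (x.1, y.2)) (f y)
  simp only [Prod.mk.eta] at h1 h2
  linarith

theorem lipG (f : Pt → ℝ) (c : ℝ) (H : ∀ i w, |df i f w| ≤ c) (x y : Pt) :
    |f x - f y| ≤ c * (|(x.1 : ℝ) - y.1| + |(x.2 : ℝ) - y.2|) := by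
  obtain ⟨R, hR⟩ := exists_subset_bl {x, y} 0
  exact lipB f c 0 R (fun i w _ => H i w) (hR (by simp)) (hR (by simp))

theorem l1_le {z x : Pt} {R : ℕ} (hx : x ∈ bl z R) :
    |(x.1 : ℝ) - z.1| + |(x.2 : ℝ) - z.2| ≤ 2 * R := by
  rw [mem_bl_abs] at hx
  have h1 : |(x.1 : ℝ) - z.1| ≤ R := by exact_mod_cast hx.1
  have h2 : |(x.2 : ℝ) - z.2| ≤ R := by exact_mod_cast hx.2
  linarith

theorem df_near {u : Pt → ℝ} {K L : ℝ} (hu : Sm2 u K L) {z x : Pt} {R : ℕ} (hx : x ∈ bl z R)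
    (i : Fin 2) : |df i u x - df i u z| ≤ K / L ^ 2 * (2 * R) := by
  refine (lipG (df i u) _ (fun j w => hu.2 i j w) x z).trans ?_
  exact mul_le_mul_of_nonneg_left (l1_le hx) ((abs_nonneg _).trans (hu.2 0 0 0))

theorem taylor {u : Pt → ℝ} {K L : ℝ} (hu : Sm2 u K L) {z x y : Pt} {R : ℕ} (hx : x ∈ bl z R)
    (hy : y ∈ bl z R) :
    |u x - u y - (df 0 u z * ((x.1 : ℝ) - y.1) + df 1 u z * ((x.2 : ℝ) - y.2))| ≤
      K / L ^ 2 * (2 * R) * (|(x.1 : ℝ) - y.1| + |(x.2 : ℝ) - y.2|) := by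
  have := lipB (fun w => u w - (df 0 u z * w.1 + df 1 u z * w.2)) _ z R (fun i w hw => by
    have h := df_near hu hw i
    have e : df i (fun w : Pt => u w - (df 0 u z * w.1 + df 1 u z * w.2)) w =
        df i u w - df i u z := by
      fin_cases i <;> simp [df, ev] <;> ring
    rwa [e]) hx hy
  convert this using 2
  ring

/-- sums over translates -/
theorem sum_tr_le (F : Pt → ℝ) (S Z : Finset Pt) (h0 : ∀ v, 0 ≤ F v) (hS : ∀ v, F v ≠ 0 → v ∈ S)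
    (x : Pt) : ∑ z ∈ Z, F (x - z) ≤ ∑ v ∈ S, F v := by
  rw [← sum_image (s := Z) (g := fun z => x - z) (f := F)
    (fun a _ b _ h => sub_right_injective h)]
  rw [← sum_filter_ne_zero]
  exact sum_le_sum_of_subset_of_nonneg (fun v hv => hS v (mem_filter.1 hv).2) fun v _ _ => h0 v

/-! ## the bump and the plane waves -/

structure Bump (χ : Pt → ℝ) (C : ℝ) (r : ℕ) : Prop where
  nn : ∀ v, 0 ≤ χ v
  le : ∀ v, χ v ≤ 1
  sup : ∀ v, χ v ≠ 0 → v ∈ bl 0 (2 * r)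
  one : ∀ v ∈ bl 0 r, χ v = 1
  sm : Sm2 χ C r

theorem exists_bump (h : SmStmt) : ∀ r : ℕ, 1 ≤ r → ∃ χ, Bump χ 640000 r := by
  obtain ⟨h1, h2, -, ⟨g, gd, g1, g2, g3, g4, g5, -⟩, -⟩ := h
  intro r hr
  have hr' : (0 : ℝ) < r := by exact_mod_cast hr
  have A := fun k hk => h1 g 10 r 2 k hr' gd g1 g2 hk
  have b10 : ∀ t, |g t| ≤ 10 := fun t => by rw [abs_of_nonneg (g3 t).1]; linarith [(g3 t).2]
  have b400 : ∀ t t', |g t * g t'| ≤ 4 * 10 * 10 := fun t t' => by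
    rw [abs_mul]; nlinarith [b10 t, b10 t', abs_nonneg (g t), abs_nonneg (g t')]
  have a1 := A ![1, 0] (fun i => by fin_cases i <;> simp)
  have a2 := A ![-1, 0] (fun i => by fin_cases i <;> simp)
  have a3 := A ![0, 1] (fun i => by fin_cases i <;> simp)
  have a4 := A ![0, -1] (fun i => by fin_cases i <;> simp)
  have p1 := h2 _ _ _ _ _ hr' a1 a2 (fun x => b10 _) (fun x y _ _ => b10 _)
  have p2 := h2 _ _ _ _ _ hr' a3 a4 (fun x => b10 _) (fun x y _ _ => b10 _)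
  have p3 := h2 _ _ _ _ _ hr' p1 p2 (fun x => b400 _ _) (fun x y _ _ => b400 _ _)
  have key : ∀ s : ℝ, g (s / r + 2) ≠ 0 → -(2 * r) ≤ s := fun s hs => by
    by_contra hc
    refine hs (g4 _ ?_)
    have : s / r ≤ -2 := by rw [div_le_iff₀ hr']; linarith
    linarith
  have key1 : ∀ s : ℝ, -(r : ℝ) ≤ s → g (s / r + 2) = 1 := fun s hs => g5 _ (by
    have : -1 ≤ s / r := by rw [le_div_iff₀ hr']; linarith
    linarith)
  refine ⟨_, fun v => ?_, fun v => ?_, fun v hv => ?_, fun v hv => ?_, by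
    convert p3 using 1; norm_num⟩
  · exact mul_nonneg (mul_nonneg (g3 _).1 (g3 _).1) (mul_nonneg (g3 _).1 (g3 _).1)
  · exact mul_le_one₀ (mul_le_one₀ (g3 _).2 (g3 _).1 (g3 _).2) (mul_nonneg (g3 _).1 (g3 _).1)
      (mul_le_one₀ (g3 _).2 (g3 _).1 (g3 _).2)
  · simp only [Pi.mul_apply, mul_ne_zero_iff] at hv
    have q1 := key _ hv.1.1
    have q2 := key _ hv.1.2
    have q3 := key _ hv.2.1
    have q4 := key _ hv.2.2
    simp [co] at q1 q2 q3 q4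
    rw [mem_bl_abs]
    have e1 : |(v.1 : ℝ)| ≤ 2 * r := abs_le.2 ⟨q1, q2⟩
    have e2 : |(v.2 : ℝ)| ≤ 2 * r := abs_le.2 ⟨q3, q4⟩
    simp only [Prod.fst_zero, Prod.snd_zero, sub_zero]
    exact ⟨by exact_mod_cast e1, by exact_mod_cast e2⟩
  · rw [mem_bl_abs] at hv
    simp only [Prod.fst_zero, Prod.snd_zero, sub_zero] at hv
    have e1 : |(v.1 : ℝ)| ≤ r := by exact_mod_cast hv.1
    have e2 : |(v.2 : ℝ)| ≤ r := by exact_mod_cast hv.2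
    rw [abs_le] at e1 e2
    simp only [Pi.mul_apply]
    rw [key1, key1, key1, key1] <;> simp [co] <;> linarith

/-- phase -/
noncomputable def ph (κ L : ℝ) (w : ℝ × ℝ) (x : Pt) : ℝ := κ * ((w.1 * x.1 + w.2 * x.2) / L)

/-- localised plane wave -/
noncomputable def tf (χ : Pt → ℝ) (κ L : ℝ) (z : Pt) (w : ℝ × ℝ) (b : Bool) (x : Pt) : ℝ :=
  (if b then Real.cos (ph κ L w x) else Real.sin (ph κ L w x)) / κ * χ (x - z)

theorem tf_pair (χ : Pt → ℝ) (κ L : ℝ) (z : Pt) (w : ℝ × ℝ) (x y : Pt) :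
    ∑ b, (tf χ κ L z w b x - tf χ κ L z w b y) ^ 2 = ((χ (x - z) - χ (y - z)) ^ 2 +
      χ (x - z) * χ (y - z) * (2 * (1 - Real.cos (ph κ L w x - ph κ L w y)))) / κ ^ 2 := by
  have h1 := Real.cos_sq_add_sin_sq (ph κ L w x)
  have h2 := Real.cos_sq_add_sin_sq (ph κ L w y)
  simp only [Fintype.sum_bool, tf, Real.cos_sub, if_true, Bool.false_eq_true, if_false]
  simp only [div_eq_mul_inv, ← inv_pow]
  linear_combination (κ⁻¹ ^ 2 * χ (x - z) ^ 2) * h1 + (κ⁻¹ ^ 2 * χ (y - z) ^ 2) * h2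

theorem tf_sq (χ : Pt → ℝ) (κ L : ℝ) (z : Pt) (w : ℝ × ℝ) (x : Pt) :
    ∑ b, tf χ κ L z w b x ^ 2 = χ (x - z) ^ 2 / κ ^ 2 := by
  have h1 := Real.cos_sq_add_sin_sq (ph κ L w x)
  simp only [Fintype.sum_bool, tf, if_true, Bool.false_eq_true, if_false]
  simp only [div_eq_mul_inv, ← inv_pow]
  linear_combination (κ⁻¹ ^ 2 * χ (x - z) ^ 2) * h1

theorem wave_sm (h : SmStmt) {κ Λ L : ℝ} (hκ : 1 ≤ κ) (hΛ : 1 ≤ Λ) (hL : 0 < L) {w : ℝ × ℝ}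
    (h1 : |w.1| ≤ Λ) (h2 : |w.2| ≤ Λ) (b : Bool) :
    Sm2 (fun x => (if b then Real.cos (ph κ L w x) else Real.sin (ph κ L w x)) / κ)
      (κ * Λ ^ 2) L := by
  have hκ0 : 0 < κ := by linarith
  have hΛ0 : 0 < Λ := by linarith
  have hk : ∀ i, |(![w.1 / Λ, w.2 / Λ] : Fin 2 → ℝ) i| ≤ 1 := fun i => by
    fin_cases i <;> simp [abs_div, abs_of_pos hΛ0, div_le_one hΛ0, h1, h2]
  have hb : Λ ≤ κ * Λ ^ 2 := by nlinarith [mul_nonneg (sub_nonneg.2 hκ) (sq_nonneg Λ)]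
  have e : ∀ x : Pt, κ * Λ * ((∑ i, (![w.1 / Λ, w.2 / Λ] : Fin 2 → ℝ) i * co i x) / L + 0) =
      ph κ L w x := fun x => by
    simp [ph, co]; field_simp
  have el : ∀ t t' : ℝ, Λ * |κ * Λ * t - κ * Λ * t'| = κ * Λ ^ 2 * |t - t'| := fun t t' => by
    rw [← mul_sub, abs_mul, abs_of_pos (mul_pos hκ0 hΛ0)]; ring
  cases b
  · have d : ∀ t, HasDerivAt (fun t => Real.sin (κ * Λ * t) / κ) (Λ * Real.cos (κ * Λ * t)) t :=
      fun t => by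
        refine (((hasDerivAt_id t).const_mul (κ * Λ)).sin.div_const κ).congr_deriv ?_
        simp only [id]; field_simp
    have := h.1 (fun t => Real.sin (κ * Λ * t) / κ) (κ * Λ ^ 2) L 0 _ hL
      (fun t => (d t).differentiableAt) (fun t => by
        rw [(d t).deriv, abs_mul, abs_of_pos hΛ0]
        nlinarith [Real.abs_cos_le_one (κ * Λ * t)]) (fun t t' => by
        rw [(d t).deriv, (d t').deriv, ← mul_sub, abs_mul, abs_of_pos hΛ0, ← el]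
        exact mul_le_mul_of_nonneg_left (Real.abs_cos_sub_cos_le _ _) hΛ0.le) hk
    simpa only [e, Bool.false_eq_true, if_false] using this
  · have d : ∀ t, HasDerivAt (fun t => Real.cos (κ * Λ * t) / κ) (-Λ * Real.sin (κ * Λ * t)) t :=
      fun t => by
        refine (((hasDerivAt_id t).const_mul (κ * Λ)).cos.div_const κ).congr_deriv ?_
        simp only [id]; field_simp
    have := h.1 (fun t => Real.cos (κ * Λ * t) / κ) (κ * Λ ^ 2) L 0 _ hL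
      (fun t => (d t).differentiableAt) (fun t => by
        rw [(d t).deriv, abs_mul, abs_neg, abs_of_pos hΛ0]
        nlinarith [Real.abs_sin_le_one (κ * Λ * t)]) (fun t t' => by
        rw [(d t).deriv, (d t').deriv, ← mul_sub, abs_mul, abs_neg, abs_of_pos hΛ0, ← el]
        exact mul_le_mul_of_nonneg_left (Real.abs_sin_sub_sin_le _ _) hΛ0.le) hk
    simpa only [e, if_true] using this

theorem Bump.tr {χ : Pt → ℝ} {C : ℝ} {r : ℕ} (h : Bump χ C r) (hr : 1 ≤ r) {L N : ℝ} (hL : 0 < L)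
    (hN : 1 ≤ N) (hLN : L ≤ N * r) (z : Pt) : Sm2 (fun x => χ (x - z)) (C * N ^ 2) L := by
  have hr' : (0 : ℝ) < r := by exact_mod_cast hr
  have hC : 0 ≤ C := by
    have := (abs_nonneg _).trans (h.sm.1 0 0)
    exact (div_nonneg_iff.1 this).elim (fun h => h.1) fun h => absurd h.2 (not_le.2 hr')
  have e : ∀ (i : Fin 2) (f : Pt → ℝ), df i (fun x => f (x - z)) = fun x => df i f (x - z) :=
    fun i f => by funext x; simp only [df]; rw [add_sub_right_comm]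
  refine ⟨fun i x => ?_, fun i j x => ?_⟩
  · rw [e]; refine (h.sm.1 i _).trans ?_
    rw [div_le_div_iff₀ hr' hL]
    have : L ≤ N ^ 2 * r := hLN.trans (mul_le_mul_of_nonneg_right (by nlinarith) hr'.le)
    nlinarith [mul_le_mul_of_nonneg_left this hC]
  · rw [e, e]; refine (h.sm.2 i j _).trans ?_
    rw [div_le_div_iff₀ (by positivity) (by positivity)]
    have : L ^ 2 ≤ (N * r) ^ 2 := pow_le_pow_left₀ hL.le hLN 2
    nlinarith [mul_le_mul_of_nonneg_left this hC]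

theorem tf_sm (h : SmStmt) {χ : Pt → ℝ} {C : ℝ} {r : ℕ} (hχ : Bump χ C r) (hC : 1 ≤ C) (hr : 1 ≤ r)
    {κ Λ L N : ℝ} (hκ : 1 ≤ κ) (hΛ : 1 ≤ Λ) (hL : 0 < L) (hN : 1 ≤ N) (hLN : L ≤ N * r) (z : Pt)
    {w : ℝ × ℝ} (h1 : |w.1| ≤ Λ) (h2 : |w.2| ≤ Λ) (b : Bool) :
    Sm2 (tf χ κ L z w b) (4 * (κ * Λ ^ 2) * (C * N ^ 2)) L ∧ ∀ x, |tf χ κ L z w b x| ≤ 1 := by
  have hw : ∀ x, |(if b then Real.cos (ph κ L w x) else Real.sin (ph κ L w x)) / κ| ≤ 1 := fun x => by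
    rw [abs_div, abs_of_pos (by linarith : 0 < κ), div_le_one (by linarith)]
    split_ifs
    exacts [(Real.abs_cos_le_one _).trans hκ, (Real.abs_sin_le_one _).trans hκ]
  have hc : ∀ x, |χ x| ≤ 1 := fun x => by rw [abs_of_nonneg (hχ.nn x)]; exact hχ.le x
  have a1 : 1 ≤ C * N ^ 2 := one_le_mul_of_one_le_of_one_le hC (one_le_pow₀ hN)
  have a2 : 1 ≤ κ * Λ ^ 2 := one_le_mul_of_one_le_of_one_le hκ (one_le_pow₀ hΛ)
  refine ⟨h.2.1 _ _ _ _ _ hL (wave_sm h hκ hΛ hL h1 h2 b) (hχ.tr hr hL hN hLN z)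
    (fun x => (hc _).trans a1) (fun x y _ _ => (hw y).trans a2), fun x => ?_⟩
  rw [tf, abs_mul]; exact mul_le_one₀ (hw x) (abs_nonneg _) (hc _)

/-! ## the completing family -/

/-- vectors completing `g` to a conformal frame of size `Λ` -/
noncomputable def wv (Λ : ℝ) (g : ℝ × ℝ) : Fin 3 → ℝ × ℝ :=
  ![(-g.2, g.1), (Real.sqrt (Λ - g.1 ^ 2 - g.2 ^ 2), 0), (0, Real.sqrt (Λ - g.1 ^ 2 - g.2 ^ 2))]

theorem wv_id {Λ : ℝ} {g : ℝ × ℝ} (h : g.1 ^ 2 + g.2 ^ 2 ≤ Λ) (a b : ℝ) :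
    (g.1 * a + g.2 * b) ^ 2 + ∑ j, ((wv Λ g j).1 * a + (wv Λ g j).2 * b) ^ 2 =
      Λ * (a ^ 2 + b ^ 2) := by
  have h1 := Real.sq_sqrt (show 0 ≤ Λ - g.1 ^ 2 - g.2 ^ 2 by linarith)
  simp only [wv, Fin.sum_univ_three, Matrix.cons_val_zero, Matrix.cons_val_one, Matrix.cons_val]
  linear_combination (a ^ 2 + b ^ 2) * h1

theorem wv_le {Λ : ℝ} {g : ℝ × ℝ} (h : g.1 ^ 2 + g.2 ^ 2 ≤ Λ) (hΛ : 1 ≤ Λ) (j : Fin 3) :
    |(wv Λ g j).1| ≤ Λ ∧ |(wv Λ g j).2| ≤ Λ := by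
  have hΛ2 : Λ ≤ Λ ^ 2 := by nlinarith
  have h1 := wv_id h 1 0
  have h2 := wv_id h 0 1
  have h3 := single_le_sum (f := fun j => ((wv Λ g j).1 * 1 + (wv Λ g j).2 * 0) ^ 2)
    (fun j _ => sq_nonneg _) (mem_univ j)
  have h4 := single_le_sum (f := fun j => ((wv Λ g j).1 * 0 + (wv Λ g j).2 * 1) ^ 2)
    (fun j _ => sq_nonneg _) (mem_univ j)
  simp only [mul_one, mul_zero, add_zero, zero_add] at h1 h2 h3 h4
  exact ⟨abs_le_of_sq_le_sq' (by nlinarith [sq_nonneg g.1]) (by linarith) |> abs_le.2,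
    abs_le_of_sq_le_sq' (by nlinarith [sq_nonneg g.2]) (by linarith) |> abs_le.2⟩

/-- the rescaled gradient -/
noncomputable def gr (u : Pt → ℝ) (L : ℝ) (z : Pt) : ℝ × ℝ := (L * df 0 u z, L * df 1 u z)

theorem gr_le {u : Pt → ℝ} {K L : ℝ} (hL : 0 < L) (hu : Sm2 u K L) (z : Pt) (i : Fin 2) :
    |L * df i u z| ≤ K := by
  have := hu.1 i z
  rw [le_div_iff₀ hL] at this
  rw [abs_mul, abs_of_pos hL]; linarith

theorem gr_sq {u : Pt → ℝ} {K L : ℝ} (hL : 0 < L) (hu : Sm2 u K L) (z : Pt) :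
    (gr u L z).1 ^ 2 + (gr u L z).2 ^ 2 ≤ 2 * K ^ 2 + 1 := by
  have h1 := pow_le_pow_left₀ (abs_nonneg _) (gr_le hL hu z 0) 2
  have h2 := pow_le_pow_left₀ (abs_nonneg _) (gr_le hL hu z 1) 2
  rw [sq_abs] at h1 h2
  simp only [gr]; linarith

/-- the family, indexed by centre, vector, `cos`/`sin` -/
noncomputable def fam (χ u : Pt → ℝ) (Λ κ L : ℝ) (a : Pt × Fin 3 × Bool) : Pt → ℝ :=
  tf χ κ L a.1 (wv Λ (gr u L a.1) a.2.1) a.2.2

theorem sum_fam (Z : Finset Pt) (F : Pt × Fin 3 × Bool → ℝ) :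
    ∑ a ∈ Z ×ˢ (univ : Finset (Fin 3 × Bool)), F a = ∑ z ∈ Z, ∑ j, ∑ b, F (z, j, b) := by
  rw [sum_product]; simp only [Fintype.sum_prod_type]

/-- `∑ χ²` -/
noncomputable def PP (χ : Pt → ℝ) (r : ℕ) : ℝ := ∑ v ∈ bl 0 (2 * r), χ v ^ 2

section
variable {χ u : Pt → ℝ} {C K L κ : ℝ} {r : ℕ}

theorem PP_ge (hχ : Bump χ C r) : (r : ℝ) ^ 2 ≤ PP χ r := by
  have h1 : ∑ v ∈ bl 0 r, χ v ^ 2 = ((2 * r + 1 : ℝ)) ^ 2 := by
    rw [sum_congr rfl fun v hv => by rw [hχ.one v hv]]; simp [card_bl]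
  have h2 : ∑ v ∈ bl 0 r, χ v ^ 2 ≤ PP χ r :=
    sum_le_sum_of_subset_of_nonneg (bl_mono 0 (by omega)) fun _ _ _ => sq_nonneg _
  have : (0 : ℝ) ≤ r := Nat.cast_nonneg r
  nlinarith

theorem sum_sq_le (hχ : Bump χ C r) (Z : Finset Pt) (x : Pt) : ∑ z ∈ Z, χ (x - z) ^ 2 ≤ PP χ r :=
  sum_tr_le (fun v => χ v ^ 2) _ Z (fun _ => sq_nonneg _)
    (fun v hv => hχ.sup v fun h => hv (by simp [h])) x

theorem sum_aa_le (hχ : Bump χ C r) (Z : Finset Pt) (x y : Pt) :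
    ∑ z ∈ Z, χ (x - z) * χ (y - z) ≤ PP χ r := by
  have h1 := sum_sq_le hχ Z x
  have h2 := sum_sq_le hχ Z y
  have h3 : ∑ z ∈ Z, χ (x - z) * χ (y - z) ≤ ∑ z ∈ Z, (χ (x - z) ^ 2 + χ (y - z) ^ 2) / 2 :=
    sum_le_sum fun z _ => by nlinarith [sq_nonneg (χ (x - z) - χ (y - z))]
  rw [← sum_div, sum_add_distrib] at h3
  linarith

theorem mem_of_ne (hχ : Bump χ C r) {x z : Pt} (h : χ (x - z) ≠ 0) : x ∈ bl z (2 * r) := by
  have := hχ.sup _ h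
  rw [mem_bl_abs] at this ⊢
  simpa using this

theorem card_le (hr : 1 ≤ r) : ((bl (0 : Pt) (2 * r)).card : ℝ) ≤ 25 * (r : ℝ) ^ 2 := by
  have : (1 : ℝ) ≤ r := by exact_mod_cast hr
  rw [card_bl]; push_cast; nlinarith

theorem l1_sq (a b : ℝ) : (|a| + |b|) ^ 2 ≤ 2 * (a ^ 2 + b ^ 2) := by
  nlinarith [sq_abs a, sq_abs b, sq_nonneg (|a| - |b|)]

theorem ind0 (p : Prop) : 0 ≤ ind p := by unfold ind; split_ifs <;> norm_num

theorem ind1 {p : Prop} (h : p) : ind p = 1 := if_pos h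

theorem sum_ind_le (hr : 1 ≤ r) (Z : Finset Pt) (w : Pt) :
    ∑ z ∈ Z, ind (w - z ∈ bl 0 (2 * r)) ≤ 25 * (r : ℝ) ^ 2 := by
  refine (sum_tr_le (fun v => ind (v ∈ bl 0 (2 * r))) (bl 0 (2 * r)) Z (fun _ => ind0 _)
    (fun v hv => ?_) w).trans ?_
  · by_contra hc; exact hv (if_neg hc)
  · rw [sum_congr rfl fun v hv => ind1 hv, sum_const, nsmul_eq_mul, mul_one]; exact card_le hr

theorem dchi (hχ : Bump χ C r) (x y z : Pt) : (χ (x - z) - χ (y - z)) ^ 2 ≤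
    (C / r) ^ 2 * (2 * (((x.1 : ℝ) - y.1) ^ 2 + ((x.2 : ℝ) - y.2) ^ 2)) *
      (ind (x - z ∈ bl 0 (2 * r)) + ind (y - z ∈ bl 0 (2 * r))) := by
  have i1 := ind0 (x - z ∈ bl 0 (2 * r))
  have i2 := ind0 (y - z ∈ bl 0 (2 * r))
  by_cases h : χ (x - z) = 0 ∧ χ (y - z) = 0
  · rw [h.1, h.2, sub_self, zero_pow two_ne_zero]; positivity
  have h2 : 1 ≤ ind (x - z ∈ bl 0 (2 * r)) + ind (y - z ∈ bl 0 (2 * r)) := by
    rcases not_and_or.1 h with h | h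
    · rw [ind1 (hχ.sup _ h)]; linarith
    · rw [ind1 (hχ.sup _ h)]; linarith
  have h3 := pow_le_pow_left₀ (abs_nonneg _) (lipG χ _ hχ.sm.1 (x - z) (y - z)) 2
  simp only [Prod.fst_sub, Prod.snd_sub, Int.cast_sub, sub_sub_sub_cancel_right] at h3
  rw [sq_abs, mul_pow] at h3
  exact (h3.trans (mul_le_mul_of_nonneg_left (l1_sq _ _) (sq_nonneg _))).trans
    (le_mul_of_one_le_right (by positivity) h2)

theorem sum_dchi (hχ : Bump χ C r) (hr : 1 ≤ r) (Z : Finset Pt) (x y : Pt) :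
    ∑ z ∈ Z, (χ (x - z) - χ (y - z)) ^ 2 ≤
      100 * C ^ 2 * (((x.1 : ℝ) - y.1) ^ 2 + ((x.2 : ℝ) - y.2) ^ 2) := by
  have hr' : (0 : ℝ) < r := by exact_mod_cast hr
  refine (sum_le_sum fun z _ => dchi hχ x y z).trans ?_
  rw [← mul_sum, sum_add_distrib]
  refine (mul_le_mul_of_nonneg_left (add_le_add (sum_ind_le hr Z x) (sum_ind_le hr Z y))
    (by positivity)).trans_eq ?_
  field_simp; ring

theorem sq_le_of {t G K ρ a b : ℝ} (hK : 0 ≤ K) (h0 : 0 ≤ ρ) (h1 : ρ ≤ 1)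
    (hG : |G| ≤ K * (|a| + |b|)) (ht : |t - G| ≤ 4 * K * ρ * (|a| + |b|)) :
    t ^ 2 ≤ G ^ 2 + 48 * K ^ 2 * ρ * (a ^ 2 + b ^ 2) := by
  have hab := l1_sq a b
  have hS : 0 ≤ |a| + |b| := by positivity
  generalize |a| + |b| = S at *
  have q1 : G * (t - G) ≤ K * S * (4 * K * ρ * S) :=
    (le_abs_self _).trans (by rw [abs_mul]; exact mul_le_mul hG ht (abs_nonneg _) (by positivity))
  have q2 : (t - G) ^ 2 ≤ (4 * K * ρ * S) ^ 2 := by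
    rw [← sq_abs]; exact pow_le_pow_left₀ (abs_nonneg _) ht 2
  have q3 : K ^ 2 * ρ * S ^ 2 ≤ K ^ 2 * ρ * (2 * (a ^ 2 + b ^ 2)) :=
    mul_le_mul_of_nonneg_left hab (by positivity)
  have q4 : ρ * (K ^ 2 * ρ * S ^ 2) ≤ K ^ 2 * ρ * S ^ 2 :=
    mul_le_of_le_one_left (by positivity) h1
  linarith

theorem tay_sq (hL : 0 < L) (hu : Sm2 u K L) (hK : 0 ≤ K) (hrL : (r : ℝ) ≤ L) {x y z : Pt} {a b : ℝ}
    (ha : (x.1 : ℝ) - y.1 = L * a) (hb : (x.2 : ℝ) - y.2 = L * b) (hx : x ∈ bl z (2 * r))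
    (hy : y ∈ bl z (2 * r)) : (u x - u y) ^ 2 ≤
      ((gr u L z).1 * a + (gr u L z).2 * b) ^ 2 + 48 * K ^ 2 * (r / L) * (a ^ 2 + b ^ 2) := by
  have ht := taylor hu hx hy
  rw [ha, hb, abs_mul L, abs_mul L, abs_of_pos hL] at ht
  refine sq_le_of hK (by positivity) ((div_le_one hL).2 hrL) ?_ ?_
  · refine (abs_add_le _ _).trans ?_
    rw [abs_mul, abs_mul, mul_add]
    exact add_le_add (mul_le_mul_of_nonneg_right (gr_le hL hu z 0) (abs_nonneg _))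
      (mul_le_mul_of_nonneg_right (gr_le hL hu z 1) (abs_nonneg _))
  · convert ht using 1
    · simp only [gr]; congr 1; ring
    · push_cast; field_simp; ring

theorem ph_sub (hL : 0 < L) (w : ℝ × ℝ) {x y : Pt} {a b : ℝ} (ha : (x.1 : ℝ) - y.1 = L * a)
    (hb : (x.2 : ℝ) - y.2 = L * b) : ph κ L w x - ph κ L w y = κ * (w.1 * a + w.2 * b) := by
  have e : ph κ L w x - ph κ L w y = κ * ((w.1 * (x.1 - y.1) + w.2 * (x.2 - y.2)) / L) := by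
    simp only [ph]; ring
  rw [e, ha, hb]; field_simp

theorem tf_pair_le (hχ : Bump χ C r) (hL : 0 < L) (hκ : 0 < κ) (z : Pt) (w : ℝ × ℝ) {x y : Pt}
    {a b : ℝ} (ha : (x.1 : ℝ) - y.1 = L * a) (hb : (x.2 : ℝ) - y.2 = L * b) :
    ∑ b', (tf χ κ L z w b' x - tf χ κ L z w b' y) ^ 2 ≤ (χ (x - z) - χ (y - z)) ^ 2 / κ ^ 2 +
      χ (x - z) * χ (y - z) * (w.1 * a + w.2 * b) ^ 2 := by
  rw [tf_pair, add_div, mul_div_assoc, ph_sub hL w ha hb]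
  refine add_le_add le_rfl (mul_le_mul_of_nonneg_left ?_ (mul_nonneg (hχ.nn _) (hχ.nn _)))
  rw [div_le_iff₀ (by positivity)]
  have := Real.one_sub_sq_div_two_le_cos (x := κ * (w.1 * a + w.2 * b))
  linarith [mul_pow κ (w.1 * a + w.2 * b) 2]

theorem pair_z (hχ : Bump χ C r) (hL : 0 < L) (hκ : 0 < κ) (hu : Sm2 u K L) (hK : 0 ≤ K)
    (hrL : (r : ℝ) ≤ L) {x y : Pt} {a b : ℝ} (ha : (x.1 : ℝ) - y.1 = L * a)
    (hb : (x.2 : ℝ) - y.2 = L * b) (z : Pt) :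
    χ (x - z) * χ (y - z) * (u x - u y) ^ 2 + ∑ j, ∑ b',
      (fam χ u (2 * K ^ 2 + 1) κ L (z, j, b') x - fam χ u (2 * K ^ 2 + 1) κ L (z, j, b') y) ^ 2 ≤
      χ (x - z) * χ (y - z) * ((2 * K ^ 2 + 1 + 48 * K ^ 2 * (r / L)) * (a ^ 2 + b ^ 2)) +
        3 / κ ^ 2 * (χ (x - z) - χ (y - z)) ^ 2 := by
  have hA : 0 ≤ χ (x - z) * χ (y - z) := mul_nonneg (hχ.nn _) (hχ.nn _)
  have h3 := sum_le_sum fun j (_ : j ∈ univ) =>
    tf_pair_le hχ hL hκ z (wv (2 * K ^ 2 + 1) (gr u L z) j) ha hb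
  rw [sum_add_distrib, ← mul_sum, sum_const, card_univ, Fintype.card_fin, nsmul_eq_mul,
    Nat.cast_ofNat, eq_sub_of_add_eq' (wv_id (gr_sq hL hu z) a b)] at h3
  have h5 : χ (x - z) * χ (y - z) * (u x - u y) ^ 2 ≤ χ (x - z) * χ (y - z) *
      (((gr u L z).1 * a + (gr u L z).2 * b) ^ 2 + 48 * K ^ 2 * (r / L) * (a ^ 2 + b ^ 2)) := by
    by_cases h0 : χ (x - z) * χ (y - z) = 0
    · rw [h0, zero_mul, zero_mul]
    exact mul_le_mul_of_nonneg_left (tay_sq hL hu hK hrL ha hb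
      (mem_of_ne hχ (left_ne_zero_of_mul h0)) (mem_of_ne hχ (right_ne_zero_of_mul h0))) hA
  refine (add_le_add h5 h3).trans_eq ?_
  ring

theorem fin_le {P ρ2 s T t X D c q : ℝ} (hρ : 0 < ρ2) (hP : ρ2 ≤ P) (hs : s ≤ P) (ht : t ≤ X)
    (hcD : 0 ≤ c * D) (h : s * t + T ≤ s * X + q) (hq : q ≤ ρ2 * (c * D)) :
    t + P⁻¹ * T ≤ X + c * D := by
  have hP0 : 0 < P := hρ.trans_le hP
  have h1 := mul_le_mul_of_nonneg_right hs (sub_nonneg.2 ht)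
  have h2 := mul_le_mul_of_nonneg_right hP hcD
  have : P⁻¹ * T ≤ X - t + c * D := by rw [inv_mul_le_iff₀ hP0]; linarith
  linarith

/-- the upper bound, pair by pair -/
theorem pair_le (hχ : Bump χ C r) (hr : 1 ≤ r) (hL : 0 < L) (hκ : 0 < κ) (hu : Sm2 u K L)
    (hK : 0 ≤ K) (hrL : (r : ℝ) ≤ L) (Z : Finset Pt) (x y : Pt) :
    (u x - u y) ^ 2 + (PP χ r)⁻¹ * ∑ a ∈ Z ×ˢ univ,
      (fam χ u (2 * K ^ 2 + 1) κ L a x - fam χ u (2 * K ^ 2 + 1) κ L a y) ^ 2 ≤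
      (2 * K ^ 2 + 1 + (48 * K ^ 2 * (r / L) + 300 * C ^ 2 * (L / r) ^ 2 / κ ^ 2)) *
        ((co 0 x / L - co 0 y / L) ^ 2 + (co 1 x / L - co 1 y / L) ^ 2) := by
  have hr' : (0 : ℝ) < r := by exact_mod_cast hr
  have ha : (x.1 : ℝ) - y.1 = L * (co 0 x / L - co 0 y / L) := by simp [co]; field_simp
  have hb : (x.2 : ℝ) - y.2 = L * (co 1 x / L - co 1 y / L) := by simp [co]; field_simp
  generalize co 0 x / L - co 0 y / L = a at *
  generalize co 1 x / L - co 1 y / L = b at *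
  have hlip : (u x - u y) ^ 2 ≤ (2 * K ^ 2 + 1 + 48 * K ^ 2 * (r / L)) * (a ^ 2 + b ^ 2) := by
    have h := lipG u _ hu.1 x y
    rw [ha, hb, abs_mul L, abs_mul L, abs_of_pos hL, ← mul_add, ← mul_assoc,
      div_mul_cancel₀ _ hL.ne'] at h
    have h2 := pow_le_pow_left₀ (abs_nonneg _) h 2
    rw [sq_abs, mul_pow] at h2
    have h3 := mul_le_mul_of_nonneg_left (l1_sq a b) (sq_nonneg K)
    have h4 : 0 ≤ (1 + 48 * K ^ 2 * (r / L)) * (a ^ 2 + b ^ 2) := by positivity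
    linarith
  have h7 := sum_le_sum fun z (_ : z ∈ Z) => pair_z hχ hL hκ hu hK hrL ha hb z
  rw [sum_add_distrib, sum_add_distrib, ← sum_mul, ← sum_mul, ← mul_sum] at h7
  have h8 := mul_le_mul_of_nonneg_left (sum_dchi hχ hr Z x y) (show 0 ≤ 3 / κ ^ 2 by positivity)
  rw [ha, hb] at h8
  rw [sum_fam]
  refine (fin_le (c := 300 * C ^ 2 * (L / r) ^ 2 / κ ^ 2) (D := a ^ 2 + b ^ 2) (by positivity)
    (PP_ge hχ) (sum_aa_le hχ Z x y) hlip (by positivity) h7 (h8.trans_eq ?_)).trans_eq (by ring)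
  field_simp; ring

theorem tf_pair_ge (hχ : Bump χ C r) (hL : 0 < L) (hκ : 0 < κ) (z : Pt) (w : ℝ × ℝ) {x y : Pt}
    {a b : ℝ} (ha : (x.1 : ℝ) - y.1 = L * a) (hb : (x.2 : ℝ) - y.2 = L * b)
    (h1 : (κ * (w.1 * a + w.2 * b)) ^ 2 ≤ 1) :
    χ (x - z) * χ (y - z) * ((w.1 * a + w.2 * b) ^ 2 - κ ^ 2 * ((w.1 * a + w.2 * b) ^ 2) ^ 2) ≤
      ∑ b', (tf χ κ L z w b' x - tf χ κ L z w b' y) ^ 2 := by
  rw [tf_pair, add_div, mul_div_assoc, ph_sub hL w ha hb]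
  refine le_add_of_nonneg_of_le (by positivity)
    (mul_le_mul_of_nonneg_left ?_ (mul_nonneg (hχ.nn _) (hχ.nn _)))
  rw [le_div_iff₀ (by positivity)]
  generalize w.1 * a + w.2 * b = t at *
  have h2 := (abs_le.1 (Real.cos_bound ((sq_le_one_iff_abs_le_one _).1 h1))).2
  have e : |κ * t| ^ 4 = κ ^ 4 * t ^ 4 := by
    rw [show (4 : ℕ) = 2 * 2 from rfl, pow_mul, sq_abs]; ring
  have h3 : 0 ≤ κ ^ 4 * t ^ 4 := by positivity
  rw [e] at h2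
  linarith

theorem edge_z (hχ : Bump χ C r) (hL : 0 < L) (hκ : 0 < κ) (hu : Sm2 u K L)
    (hκL : κ * (2 * K ^ 2 + 1) / L ≤ 1) {x y : Pt} {a b : ℝ} (ha : (x.1 : ℝ) - y.1 = L * a)
    (hb : (x.2 : ℝ) - y.2 = L * b) (hD : a ^ 2 + b ^ 2 = 1 / L ^ 2) (z : Pt)
    (hdu : y ∈ bl z (2 * r) → ((gr u L z).1 * a + (gr u L z).2 * b) ^ 2 -
      8 * K ^ 2 * (r / L) / L ^ 2 ≤ (u x - u y) ^ 2) :
    χ (x - z) * χ (y - z) *
      ((2 * K ^ 2 + 1 - (8 * K ^ 2 * (r / L) + (κ * (2 * K ^ 2 + 1) / L) ^ 2)) / L ^ 2) ≤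
    χ (x - z) * χ (y - z) * (u x - u y) ^ 2 + ∑ j, ∑ b',
      (fam χ u (2 * K ^ 2 + 1) κ L (z, j, b') x - fam χ u (2 * K ^ 2 + 1) κ L (z, j, b') y) ^ 2 := by
  have hA : 0 ≤ χ (x - z) * χ (y - z) := mul_nonneg (hχ.nn _) (hχ.nn _)
  have hid := wv_id (gr_sq hL hu z) a b
  rw [hD] at hid
  have hΛ : 1 ≤ 2 * K ^ 2 + 1 := by linarith [sq_nonneg K]
  generalize 2 * K ^ 2 + 1 = Λ at *
  set t : Fin 3 → ℝ := fun j => ((wv Λ (gr u L z) j).1 * a + (wv Λ (gr u L z) j).2 * b) ^ 2 with ht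
  have t0 : ∀ j, 0 ≤ t j := fun j => sq_nonneg _
  have hs : ∑ j, t j ≤ Λ * (1 / L ^ 2) := by
    linarith [sq_nonneg ((gr u L z).1 * a + (gr u L z).2 * b)]
  have h1 : ∀ j, κ ^ 2 * t j ≤ 1 := fun j => by
    have q1 : t j ≤ Λ ^ 2 * (1 / L ^ 2) :=
      ((single_le_sum (fun j _ => t0 j) (mem_univ j)).trans hs).trans
        (mul_le_mul_of_nonneg_right (by nlinarith) (by positivity))
    have q2 : (κ * Λ / L) ^ 2 ≤ 1 := pow_le_one₀ (by positivity) hκL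
    refine (mul_le_mul_of_nonneg_left q1 (sq_nonneg κ)).trans (le_of_eq_of_le ?_ q2)
    ring
  have h2 := sum_le_sum fun j (_ : j ∈ univ) =>
    tf_pair_ge hχ hL hκ z (wv Λ (gr u L z) j) ha hb (by rw [mul_pow]; exact h1 j)
  rw [← mul_sum, sum_sub_distrib, ← mul_sum] at h2
  have h3 : ∑ j, t j ^ 2 ≤ (Λ * (1 / L ^ 2)) ^ 2 :=
    (sum_sq_le_sq_sum_of_nonneg fun j _ => t0 j).trans
      (pow_le_pow_left₀ (sum_nonneg fun j _ => t0 j) hs 2)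
  by_cases h0 : χ (x - z) * χ (y - z) = 0
  · rw [h0, zero_mul, zero_mul, zero_add]; positivity
  refine le_trans ?_ (add_le_add le_rfl h2)
  rw [← mul_add]
  refine mul_le_mul_of_nonneg_left ?_ hA
  have h4 := hdu (mem_of_ne hχ (right_ne_zero_of_mul h0))
  have h5 := mul_le_mul_of_nonneg_left h3 (sq_nonneg κ)
  have e : (Λ - (8 * K ^ 2 * (r / L) + (κ * Λ / L) ^ 2)) / L ^ 2 =
      Λ * (1 / L ^ 2) - 8 * K ^ 2 * (r / L) / L ^ 2 - κ ^ 2 * (Λ * (1 / L ^ 2)) ^ 2 := by ring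
  rw [e]; linarith

theorem df_sq (hu : Sm2 u K L) {x z : Pt} (hx : x ∈ bl z (2 * r)) (i : Fin 2) :
    df i u z ^ 2 - 8 * K ^ 2 * (r / L) / L ^ 2 ≤ df i u x ^ 2 := by
  have h1 := df_near hu hx i
  have h2 : |df i u x + df i u z| ≤ K / L + K / L :=
    (abs_add_le _ _).trans (add_le_add (hu.1 i x) (hu.1 i z))
  have h3 := mul_le_mul h1 h2 (abs_nonneg _) ((abs_nonneg _).trans h1)
  rw [← abs_mul] at h3
  have h4 := (abs_le.1 h3).1
  have e : K / L ^ 2 * (2 * ((2 * r : ℕ) : ℝ)) * (K / L + K / L) = 8 * K ^ 2 * (r / L) / L ^ 2 := by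
    push_cast; ring
  rw [e] at h4; linarith

/-- the lower bound, edge by edge -/
theorem edge_ge (hχ : Bump χ C r) (hr : 1 ≤ r) (hL : 0 < L) (hκ : 0 < κ) (hu : Sm2 u K L)
    (hκL : κ * (2 * K ^ 2 + 1) / L ≤ 1) (Z : Finset Pt) (x : Pt) (i : Fin 2) :
    (PP χ r)⁻¹ * ((∑ z ∈ Z, χ (x + ev i - z) * χ (x - z)) *
      ((2 * K ^ 2 + 1 - (8 * K ^ 2 * (r / L) + (κ * (2 * K ^ 2 + 1) / L) ^ 2)) / L ^ 2)) ≤
    (u (x + ev i) - u x) ^ 2 + (PP χ r)⁻¹ * ∑ a ∈ Z ×ˢ univ,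
      (fam χ u (2 * K ^ 2 + 1) κ L a (x + ev i) - fam χ u (2 * K ^ 2 + 1) κ L a x) ^ 2 := by
  have hr' : (0 : ℝ) < r := by exact_mod_cast hr
  have hP0 : 0 < PP χ r := lt_of_lt_of_le (by positivity) (PP_ge hχ)
  have h1 := sum_le_sum fun z (_ : z ∈ Z) => edge_z (x := x + ev i) (y := x)
    (a := co 0 (ev i) / L) (b := co 1 (ev i) / L) hχ hL hκ hu hκL
    (by simp [co]; field_simp) (by simp [co]; field_simp)
    (by fin_cases i <;> simp [co, ev]) z fun hx => by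
      have e : (gr u L z).1 * (co 0 (ev i) / L) + (gr u L z).2 * (co 1 (ev i) / L) = df i u z := by
        fin_cases i <;> simp [co, ev, gr] <;> field_simp
      rw [e]; exact df_sq hu hx i
  rw [sum_add_distrib, ← sum_mul, ← sum_mul] at h1
  have h2 := mul_le_mul_of_nonneg_right (sum_aa_le hχ Z (x + ev i) x)
    (sq_nonneg (u (x + ev i) - u x))
  rw [sum_fam, inv_mul_le_iff₀ hP0, mul_add (PP χ r), mul_inv_cancel_left₀ hP0.ne']
  linarith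

theorem sum_nn (B : Finset Pt) (f : Pt × Pt → ℝ) : ∑ e ∈ nnL.edI B, f e =
    ∑ i, ∑ x ∈ B.filter (fun x => x + ev i ∈ B), f (x, x + ev i) := by
  have e : nnL.Jp = {(1, 0), (0, 1)} := xyL_Jp 1
  rw [Lat.sum_edI, e, sum_pair (by decide), Fin.sum_univ_two]; rfl

theorem En_eq (B : Finset Pt) (m : Pt → ℝ) : nnL.En B m m =
    ∑ i, ∑ x ∈ B.filter (fun x => x + ev i ∈ B), (m (x + ev i) - m x) ^ 2 := by
  rw [Lat.En, sum_nn]
  exact sum_congr rfl fun i _ => sum_congr rfl fun x _ => by simp [nnL, pow_two]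

theorem sum_edge_ge (hχ : Bump χ C r) (hr : 1 ≤ r) {B : Finset Pt} {z : Pt}
    (hz : bl z (3 * r) ⊆ B) (i : Fin 2) :
    PP χ r - 25 * C * r ≤ ∑ x ∈ B.filter (fun x => x + ev i ∈ B), χ (x + ev i - z) * χ (x - z) := by
  have hr' : (0 : ℝ) < r := by exact_mod_cast hr
  have hC : 0 ≤ C / r := (abs_nonneg _).trans (hχ.sm.1 0 0)
  have h1 : (bl 0 (2 * r)).map (Equiv.addRight z).toEmbedding ⊆
      B.filter (fun x => x + ev i ∈ B) := fun x hx => by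
    rw [map_bl_add, zero_add, mem_bl] at hx
    refine mem_filter.2 ⟨hz ?_, hz ?_⟩
    · rw [mem_bl]; omega
    · rw [mem_bl]; fin_cases i <;> simp [ev] <;> omega
  refine le_trans ?_ (sum_le_sum_of_subset_of_nonneg h1
    fun x _ _ => mul_nonneg (hχ.nn _) (hχ.nn _))
  rw [sum_map]
  have h2 : ∀ v, χ v ^ 2 - C / r ≤ χ (v + z + ev i - z) * χ (v + z - z) := fun v => by
    rw [add_sub_right_comm, add_sub_cancel_right]
    have q1 := (abs_le.1 (hχ.sm.1 i v)).1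
    have q2 := mul_le_mul_of_nonneg_right q1 (hχ.nn v)
    have q3 := mul_le_of_le_one_right hC (hχ.le v)
    simp only [df] at q2
    linarith
  refine le_trans ?_ (sum_le_sum fun v _ => h2 v)
  rw [sum_sub_distrib, sum_const, nsmul_eq_mul]
  have h3 := mul_le_mul_of_nonneg_right (card_le hr) hC
  have e : 25 * (r : ℝ) ^ 2 * (C / r) = 25 * C * r := by field_simp
  rw [e] at h3
  exact sub_le_sub_left h3 _

/-- the total energy of the completed family -/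
theorem en_ge (hχ : Bump χ C r) (hr : 1 ≤ r) (hL : 0 < L) (hκ : 0 < κ) (hu : Sm2 u K L)
    (hκL : κ * (2 * K ^ 2 + 1) / L ≤ 1) {B Z : Finset Pt} (hZ : ∀ z ∈ Z, bl z (3 * r) ⊆ B)
    (hη : 8 * K ^ 2 * (r / L) + (κ * (2 * K ^ 2 + 1) / L) ^ 2 ≤ 1) :
    2 * (Z.card / L ^ 2) * (1 - 25 * C / r) *
      (2 * K ^ 2 + 1 - (8 * K ^ 2 * (r / L) + (κ * (2 * K ^ 2 + 1) / L) ^ 2)) ≤
    nnL.En B u u + (PP χ r)⁻¹ * ∑ a ∈ Z ×ˢ univ,
      nnL.En B (fam χ u (2 * K ^ 2 + 1) κ L a) (fam χ u (2 * K ^ 2 + 1) κ L a) := by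
  have hr' : (0 : ℝ) < r := by exact_mod_cast hr
  have hP := PP_ge hχ
  have hP0 : 0 < PP χ r := lt_of_lt_of_le (by positivity) hP
  have hC : 0 ≤ C := by
    have := (abs_nonneg _).trans (hχ.sm.1 0 0)
    exact (div_nonneg_iff.1 this).elim (fun h => h.1) fun h => absurd h.2 (not_le.2 hr')
  have h1 := sum_le_sum fun i (_ : i ∈ univ) => sum_le_sum
    fun x (_ : x ∈ B.filter (fun x => x + ev i ∈ B)) => edge_ge hχ hr hL hκ hu hκL Z x i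
  have hE : 0 ≤ 2 * K ^ 2 + 1 - (8 * K ^ 2 * (r / L) + (κ * (2 * K ^ 2 + 1) / L) ^ 2) := by
    linarith [sq_nonneg K]
  generalize 2 * K ^ 2 + 1 - (8 * K ^ 2 * (r / L) + (κ * (2 * K ^ 2 + 1) / L) ^ 2) = E at *
  have h2 : ∀ i, Z.card * (PP χ r - 25 * C * r) ≤ ∑ x ∈ B.filter (fun x => x + ev i ∈ B),
      ∑ z ∈ Z, χ (x + ev i - z) * χ (x - z) := fun i => by
    rw [sum_comm, ← nsmul_eq_mul]
    exact card_nsmul_le_sum _ _ _ fun z hz => sum_edge_ge hχ hr (hZ z hz) i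
  have h3 : 1 - 25 * C / r ≤ (PP χ r)⁻¹ * (PP χ r - 25 * C * r) := by
    rw [mul_sub, inv_mul_cancel₀ hP0.ne']
    refine sub_le_sub_left ?_ _
    rw [inv_mul_le_iff₀ hP0]
    refine le_trans (le_of_eq ?_) (mul_le_mul_of_nonneg_right hP (by positivity))
    field_simp
  refine le_trans ?_ (h1.trans_eq ?_)
  · simp only [← mul_sum, ← sum_mul]
    have h4 := sum_le_sum fun i (_ : i ∈ univ) => h2 i
    rw [sum_const, card_univ, Fintype.card_fin, nsmul_eq_mul, Nat.cast_ofNat] at h4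
    refine le_trans ?_ (mul_le_mul_of_nonneg_left (mul_le_mul_of_nonneg_right h4
      (by positivity)) (by positivity))
    refine le_trans (le_of_eq ?_) ((mul_le_mul_of_nonneg_left h3
      (show 0 ≤ 2 * (Z.card / L ^ 2) * E by positivity)).trans_eq ?_) <;> ring
  · simp only [En_eq, sum_add_distrib, ← mul_sum]
    congr 2
    rw [sum_comm (s := Z ×ˢ univ)]
    exact sum_congr rfl fun i _ => sum_comm

theorem phi_le (hχ : Bump χ C r) (hr : 1 ≤ r) (hκ : 1 ≤ κ) (Λ : ℝ) (Z : Finset Pt) (x : Pt) :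
    (PP χ r)⁻¹ * ∑ a ∈ Z ×ˢ univ, fam χ u Λ κ L a x ^ 2 ≤ 3 := by
  have hr' : (0 : ℝ) < r := by exact_mod_cast hr
  have hP0 : 0 < PP χ r := lt_of_lt_of_le (by positivity) (PP_ge hχ)
  rw [sum_fam, inv_mul_le_iff₀ hP0]
  simp only [fam, tf_sq, sum_const, card_univ, Fintype.card_fin, nsmul_eq_mul, Nat.cast_ofNat]
  rw [← mul_sum, mul_comm]
  refine mul_le_mul_of_nonneg_right (le_trans (sum_le_sum fun z _ => ?_) (sum_sq_le hχ Z x))
    (by norm_num)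
  exact div_le_self (sq_nonneg _) (one_le_pow₀ hκ)

theorem co_sq {L : ℕ} {x : Pt} (hx : x ∈ sq 0 L) (i : Fin 2) : (co i x / L) ^ 2 ≤ 1 := by
  rw [mem_sq] at hx
  have h : |co i x| ≤ L := by
    fin_cases i
    · show |(x.1 : ℝ)| ≤ L
      exact_mod_cast (show |x.1| ≤ (L : ℤ) from abs_le.2 (by simp at hx; omega))
    · show |(x.2 : ℝ)| ≤ L
      exact_mod_cast (show |x.2| ≤ (L : ℤ) from abs_le.2 (by simp at hx; omega))
  rw [sq_le_one_iff_abs_le_one, abs_div, Nat.abs_cast]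
  exact div_le_one_of_le₀ h (Nat.cast_nonneg _)

theorem phi_abs (hχ : Bump χ C r) (hr : 1 ≤ r) (hκ : 1 ≤ κ) (Z : Finset Pt) {L : ℕ} {x : Pt}
    {η₁ : ℝ} (hx : x ∈ sq 0 L) (hu : |u x| ≤ K) (h0 : 0 ≤ η₁) (h1 : η₁ ≤ 1) :
    |u x ^ 2 + (PP χ r)⁻¹ * ∑ a ∈ Z ×ˢ univ, fam χ u (2 * K ^ 2 + 1) κ L a x ^ 2 -
      (2 * K ^ 2 + 1 + η₁) * ((co 0 x / L) ^ 2 + (co 1 x / L) ^ 2)| ≤ 5 * K ^ 2 + 7 := by
  have hr' : (0 : ℝ) < r := by exact_mod_cast hr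
  have hP0 : 0 < PP χ r := lt_of_lt_of_le (by positivity) (PP_ge hχ)
  have q1 := phi_le (u := u) (L := L) hχ hr hκ (2 * K ^ 2 + 1) Z x
  have q2 : 0 ≤ (PP χ r)⁻¹ * ∑ a ∈ Z ×ˢ univ, fam χ u (2 * K ^ 2 + 1) κ L a x ^ 2 := by
    positivity
  have q3 : u x ^ 2 ≤ K ^ 2 := sq_le_sq' (abs_le.1 hu).1 (abs_le.1 hu).2
  have q4 : (2 * K ^ 2 + 1 + η₁) * ((co 0 x / L) ^ 2 + (co 1 x / L) ^ 2) ≤ (2 * K ^ 2 + 2) * 2 :=
    mul_le_mul (by linarith) (by linarith [co_sq hx 0, co_sq hx 1]) (by positivity)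
      (by positivity)
  have q5 : 0 ≤ (2 * K ^ 2 + 1 + η₁) * ((co 0 x / L) ^ 2 + (co 1 x / L) ^ 2) := by positivity
  exact abs_le.2 ⟨by linarith [sq_nonneg (u x), sq_nonneg K], by linarith [sq_nonneg K]⟩

theorem cnt_le (hχ : Bump χ C r) (hr : 1 ≤ r) {n e : ℝ} {Z : Finset Pt} (h1 : 12 * (r : ℝ) ≤ L)
    (h2 : L ≤ 2 * n * r) (hZ : (Z.card : ℝ) = (L - 6 * r) ^ 2) (he : 0 ≤ e) :
    (PP χ r)⁻¹ * (((Z.card * (univ : Finset (Fin 3 × Bool)).card : ℕ) : ℝ) * e) ≤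
      24 * n ^ 2 * e := by
  have hr' : (0 : ℝ) < r := by exact_mod_cast hr
  have hP := PP_ge hχ
  have hP0 : 0 < PP χ r := lt_of_lt_of_le (by positivity) hP
  rw [← mul_assoc]
  refine mul_le_mul_of_nonneg_right ?_ he
  rw [inv_mul_le_iff₀ hP0, Nat.cast_mul, hZ]
  have q1 : (L - 6 * r) ^ 2 ≤ (2 * n * r) ^ 2 := pow_le_pow_left₀ (by linarith) (by linarith) 2
  have q2 := mul_le_mul_of_nonneg_right hP (show (0 : ℝ) ≤ 24 * n ^ 2 by positivity)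
  simp only [card_univ, Fintype.card_prod, Fintype.card_fin, Fintype.card_bool]
  push_cast; linarith

theorem cnt_ge {z ρ c : ℝ} (hL : 0 < L) (h0 : 0 ≤ ρ / L) (hZ : z = (L - 6 * ρ) ^ 2) (c0 : 0 ≤ c)
    (c1 : c ≤ 1) : 1 - (12 * (ρ / L) + c) ≤ z / L ^ 2 * (1 - c) := by
  have q1 : z / L ^ 2 = (1 - 6 * (ρ / L)) ^ 2 := by rw [hZ]; field_simp
  have q3 : 1 - 12 * (ρ / L) ≤ (1 - 6 * (ρ / L)) ^ 2 := by nlinarith [sq_nonneg (ρ / L)]
  have q4 := mul_le_mul_of_nonneg_right q3 (sub_nonneg.2 c1)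
  have q5 := mul_nonneg h0 c0
  rw [q1]; linarith

theorem fin2 {q S T a b E R γ Λ η η₁ η' η'' X ε₁ e K : ℝ} (h0 : 0 ≤ γ) (hγ : γ ≤ K) (hK : K ≤ Λ)
    (hΛ : 1 ≤ Λ) (hε : 0 ≤ ε₁) (η0 : 0 ≤ η₁) (η1 : η₁ ≤ η) (η2 : η' ≤ η) (η3 : η'' ≤ η) (η4 : η ≤ 1)
    (h1 : q + S ≤ (Λ + η₁) * (a + b) + R) (ha : a ≤ γ + ε₁) (hb : b ≤ γ + ε₁)
    (h2 : γ * T - e ≤ S) (h3 : 2 * X * (Λ - η') ≤ E + T) (h4 : 1 - η'' ≤ X) (h5 : 0 ≤ η') :
    q ≤ γ * E + (Λ * (4 + 2 * Λ) * η + 2 * (Λ + 1) * ε₁ + R + e) := by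
  have k1 : (Λ + η₁) * (a + b) ≤ (Λ + η) * (2 * γ + 2 * ε₁) :=
    (mul_le_mul_of_nonneg_left (by linarith) (by linarith)).trans
      (mul_le_mul_of_nonneg_right (by linarith) (by linarith))
  have k2 : (1 - η) * (Λ - η) ≤ X * (Λ - η') :=
    mul_le_mul (by linarith) (by linarith) (by linarith) (by linarith)
  have k3 : 2 * Λ - (2 + 2 * Λ) * η ≤ E + T := by nlinarith [sq_nonneg η]
  have k4 := mul_le_mul_of_nonneg_left k3 h0
  have k5 : γ * ((4 + 2 * Λ) * η) ≤ Λ * ((4 + 2 * Λ) * η) :=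
    mul_le_mul_of_nonneg_right (by linarith) (mul_nonneg (by linarith) (by linarith))
  have k6 : η * ε₁ ≤ ε₁ := mul_le_of_le_one_left hε η4
  linarith

end

/-- the estimate at fixed parameters -/
theorem core (h : SmStmt) {K κ η W t ε₁ ε₂ γ : ℝ} {n r L : ℕ} {J : sq 0 L → sq 0 L → ℝ}
    (hκ : 1 ≤ κ) (η1 : η ≤ 1) (ht : 0 < t) (hε₂ : 0 ≤ ε₂) (hr : 1 ≤ r) (hn : 12 ≤ n)
    (h1 : n * r ≤ L) (h2 : L ≤ 2 * n * r) (hnη : (48 * K ^ 2 + 12) / n ≤ η / 2)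
    (hκη : 300 * 640000 ^ 2 * (2 * n) ^ 2 / κ ^ 2 ≤ η / 2) (hrη : 25 * 640000 / (r : ℝ) ≤ η / 2)
    (hLη : κ * (2 * K ^ 2 + 1) / L ≤ η / 2) (hγ0 : 0 ≤ γ) (hγ : γ ≤ K) (hJ : Ker J ((W / L) ^ 2))
    (hJ1 : qf J (fun _ => 1) ≤ ε₁) (hJ2 : ∀ i, qf J (fun x => co i x / L) ≤ γ + ε₁)
    (hJ3 : ∀ m : Pt → ℝ, Sm2 m (4 * (κ * (2 * K ^ 2 + 1) ^ 2) * (640000 * (2 * n) ^ 2)) L →
      (∀ x, |m x| ≤ 1) → (∀ x, m x ≠ 0 → bl x r ⊆ sq 0 L) →
      γ * nnL.En (sq 0 L) m m - ε₂ ≤ qf J m) {u : Pt → ℝ} (hu : Sm2 u K L)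
    (hu' : ∀ x ∈ sq 0 L, |u x| ≤ K) :
    qf J u ≤ γ * nnL.En (sq 0 L) u u + ((2 * K ^ 2 + 1) * (4 + 2 * (2 * K ^ 2 + 1)) * η +
      2 * (2 * K ^ 2 + 1 + 1) * ε₁ + (ε₁ / (2 * t) + t * (W ^ 2 * (5 * K ^ 2 + 7) ^ 2) / 2) +
      24 * n ^ 2 * ε₂) := by
  obtain ⟨χ, hχ⟩ := exists_bump h r hr
  have hK : 0 ≤ K := hγ0.trans hγ
  have hr' : (1 : ℝ) ≤ r := by exact_mod_cast hr
  have hn' : (12 : ℝ) ≤ n := by exact_mod_cast hn
  have h1' : (n : ℝ) * r ≤ L := by exact_mod_cast h1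
  have h2' : (L : ℝ) ≤ 2 * n * r := by exact_mod_cast h2
  have h12 : 12 * r ≤ L := (Nat.mul_le_mul_right r hn).trans h1
  have h12' : 12 * (r : ℝ) ≤ L := by exact_mod_cast h12
  have hL : (0 : ℝ) < L := by linarith
  have hκ0 : 0 < κ := by linarith
  have η0 : 0 ≤ η := by linarith [show 0 ≤ 25 * 640000 / (r : ℝ) by positivity]
  have hΛ : 1 ≤ 2 * K ^ 2 + 1 := by linarith [sq_nonneg K]
  have hP0 : 0 < PP χ r := lt_of_lt_of_le (by positivity) (PP_ge hχ)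
  have hρ : (r : ℝ) / L ≤ 1 / n := by rw [div_le_div_iff₀ hL (by linarith)]; linarith
  have hρ1 : 48 * K ^ 2 * (r / L) + 12 * (r / L) ≤ η / 2 := by
    rw [← add_mul]
    exact (mul_le_mul_of_nonneg_left hρ (by positivity)).trans (by rwa [mul_one_div])
  have hρ2 : 0 ≤ K ^ 2 * (r / L) := by positivity
  have hρ3 : 0 ≤ (r : ℝ) / L := by positivity
  have hZ : ∀ z ∈ sq ((3 * r : ℕ), (3 * r : ℕ)) (L - 6 * r), bl z (3 * r) ⊆ sq 0 L :=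
    fun z hz x hx => by
      rw [mem_sq] at hz ⊢; rw [mem_bl] at hx
      simp only [Prod.fst_zero, Prod.snd_zero] at hz ⊢; omega
  have hZc : ((sq ((3 * r : ℕ), (3 * r : ℕ)) (L - 6 * r)).card : ℝ) = (L - 6 * r) ^ 2 := by
    rw [card_sq, Nat.cast_pow, Nat.cast_sub (by omega)]; push_cast; ring
  generalize sq ((3 * r : ℕ), (3 * r : ℕ)) (L - 6 * r) = Z at hZ hZc
  have e1 : 300 * 640000 ^ 2 * ((L : ℝ) / r) ^ 2 / κ ^ 2 ≤ η / 2 := by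
    refine le_trans ?_ hκη
    have : (L : ℝ) / r ≤ 2 * n := by rw [div_le_iff₀ (by linarith)]; exact h2'
    gcongr
  have e2 : (κ * (2 * K ^ 2 + 1) / L) ^ 2 ≤ η / 2 := by
    rw [pow_two]
    exact (mul_le_of_le_one_left (by positivity) (by linarith only [hLη, η1, η0])).trans hLη
  have c1 := comb hJ (Z ×ˢ univ) _ _ _ u (fun x => co 0 x / L) (fun x => co 1 x / L)
    (pair_le hχ hr hL hκ0 hu hK (by linarith only [h12', hr']) Z)
  have c2 := en_ge hχ hr hL hκ0 hu (by linarith only [hLη, η1, η0]) hZ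
    (by linarith only [hρ1, hρ2, hρ3, e2, η1])
  have c3 := r1_le (M := 5 * K ^ 2 + 7) hJ (sq_nonneg _) _ ht fun x hx =>
    phi_abs (η₁ := 48 * K ^ 2 * (r / L) + 300 * 640000 ^ 2 * (L / r) ^ 2 / κ ^ 2)
      hχ hr hκ Z hx (hu' x hx) (by positivity) (by linarith only [hρ1, hρ3, e1, η1, η0])
  have e4 : (W / L) ^ 2 * ((sq (0 : Pt) L).card : ℝ) = W ^ 2 := by
    rw [card_sq]; push_cast; field_simp
  rw [e4] at c3
  have c4 : qf J (fun _ => 1) / (2 * t) ≤ ε₁ / (2 * t) := by gcongr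
  have c5 := sum_le_sum fun a (ha : a ∈ Z ×ˢ (univ : Finset (Fin 3 × Bool))) => by
    have w := wv_le (gr_sq hL hu a.1) hΛ a.2.1
    have s := tf_sm h hχ (by norm_num) hr hκ hΛ hL (by linarith only [hn']) h2' a.1 w.1 w.2 a.2.2
    exact hJ3 (fam χ u (2 * K ^ 2 + 1) κ L a) s.1 s.2 fun x hx =>
      (bl_subset_bl (mem_of_ne hχ (right_ne_zero_of_mul hx)) (by omega)).trans
        (hZ _ (mem_product.1 ha).1)
  rw [sum_sub_distrib, ← mul_sum, sum_const, card_product, nsmul_eq_mul] at c5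
  have c6 := mul_le_mul_of_nonneg_left c5 (inv_nonneg.2 hP0.le)
  have c7 := cnt_le hχ hr h12' h2' hZc hε₂
  have c8 := cnt_ge (c := 25 * 640000 / r) hL hρ3 hZc (by positivity)
    (by linarith only [hrη, η1, η0])
  refine fin2 (η₁ := 48 * K ^ 2 * (r / L) + 300 * 640000 ^ 2 * (L / r) ^ 2 / κ ^ 2)
    (η' := 8 * K ^ 2 * (r / L) + (κ * (2 * K ^ 2 + 1) / L) ^ 2) hγ0 hγ
    (by nlinarith only [sq_nonneg (K - 1)]) hΛ
    ((hJ.2.2 _).1.trans hJ1) (by positivity) (by linarith only [hρ1, hρ3, e1])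
    (by linarith only [hρ1, hρ2, hρ3, e2]) (by linarith only [hρ1, hρ2, hrη]) η1
    (c1.trans (add_le_add le_rfl (c3.trans (add_le_add c4 le_rfl)))) (hJ2 0) (hJ2 1)
    (le_trans ?_ c6) (le_of_eq_of_le (by rw [← mul_assoc]) c2) c8 (by positivity)
  rw [mul_sub, mul_left_comm]
  exact sub_le_sub_left c7 _

end T3b50

open T3b50 in
/-- T3b -/
theorem t3bStmt (h : SmStmt) : T3bStmt := by
  intro K ε hε
  have hΛ : 1 ≤ 2 * K ^ 2 + 1 := by linarith [sq_nonneg K]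
  obtain ⟨η, η0, η1, η2⟩ : ∃ η : ℝ, 0 < η ∧ η ≤ 1 ∧
      (2 * K ^ 2 + 1) * (4 + 2 * (2 * K ^ 2 + 1)) * η ≤ ε / 4 := by
    refine ⟨min 1 (ε / 4 / ((2 * K ^ 2 + 1) * (4 + 2 * (2 * K ^ 2 + 1)))), by positivity,
      min_le_left _ _, ?_⟩
    rw [← le_div_iff₀' (by positivity)]; exact min_le_right _ _
  obtain ⟨n, hn⟩ := exists_nat_ge ((48 * K ^ 2 + 12) / (η / 2))
  have hn1 : (48 * K ^ 2 + 12) ≤ n * (η / 2) := by rwa [div_le_iff₀ (by positivity)] at hn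
  have hn2 : (12 : ℝ) ≤ n := by nlinarith [sq_nonneg K, (Nat.cast_nonneg n : (0 : ℝ) ≤ n)]
  obtain ⟨κ, hκ, hκη⟩ : ∃ κ : ℝ, 1 ≤ κ ∧ 300 * 640000 ^ 2 * (2 * n) ^ 2 / κ ^ 2 ≤ η / 2 := by
    refine ⟨1 + 300 * 640000 ^ 2 * (2 * n) ^ 2 / (η / 2), le_add_of_nonneg_right (by positivity), ?_⟩
    rw [div_le_iff₀ (by positivity), ← div_le_iff₀' (by positivity)]
    have : 0 ≤ 300 * 640000 ^ 2 * (2 * (n : ℝ)) ^ 2 / (η / 2) := by positivity
    generalize 300 * 640000 ^ 2 * (2 * (n : ℝ)) ^ 2 / (η / 2) = A at *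
    nlinarith
  have hK' : 2 * (n : ℝ) ≤ 4 * (κ * (2 * K ^ 2 + 1) ^ 2) * (640000 * (2 * n) ^ 2) := by
    have a2 : 1 ≤ κ * (2 * K ^ 2 + 1) ^ 2 := one_le_mul_of_one_le_of_one_le hκ (one_le_pow₀ hΛ)
    exact le_trans (by nlinarith) (le_mul_of_one_le_left (by positivity) (by linarith))
  refine ⟨_, ε / (96 * n ^ 2), le_trans (by linarith) hK', by positivity, fun W hW => ?_⟩
  obtain ⟨t, ht, ht'⟩ : ∃ t : ℝ, 0 < t ∧ t * (W ^ 2 * (5 * K ^ 2 + 7) ^ 2) / 2 ≤ ε / 8 :=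
    ⟨ε / 4 / (W ^ 2 * (5 * K ^ 2 + 7) ^ 2), by positivity, by
      rw [div_mul_cancel₀ _ (by positivity)]; linarith⟩
  obtain ⟨R, hR⟩ := exists_nat_ge (25 * 640000 / (η / 2))
  obtain ⟨N, hN⟩ := exists_nat_ge (κ * (2 * K ^ 2 + 1) / (η / 2))
  refine ⟨min (t * ε / 4) (ε / (8 * (2 * K ^ 2 + 2))), n * (R + 1) + N, by positivity,
    fun L hL γ J hγ0 hγ hJ hJ1 hJ2 hJ3 u hu hu' => ?_⟩
  have hn3 : 12 ≤ n := by exact_mod_cast hn2
  have hr : R + 1 ≤ L / n := (Nat.le_div_iff_mul_le (by omega)).2 (by rw [mul_comm]; omega)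
  have h1 : n * (L / n) ≤ L := Nat.mul_div_le L n
  have h2 : L ≤ 2 * n * (L / n) := by
    have := Nat.lt_mul_div_succ L (show 0 < n by omega)
    have h3 : n * (L / n + 1) ≤ n * (2 * (L / n)) := Nat.mul_le_mul_left n (by omega)
    calc L ≤ n * (2 * (L / n)) := by omega
      _ = 2 * n * (L / n) := by ring
  generalize L / n = r at hr h1 h2
  have hr' : (R : ℝ) + 1 ≤ r := by exact_mod_cast hr
  have hR0 : (0 : ℝ) ≤ R := Nat.cast_nonneg R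
  have hL0 : 0 < L := lt_of_lt_of_le (Nat.mul_pos (by omega) (by omega)) h1
  have hL1 : (0 : ℝ) < L := by exact_mod_cast hL0
  have hL2 : (N : ℝ) ≤ L := by exact_mod_cast (show N ≤ L by omega)
  refine (core h hκ η1 ht (by positivity) (by omega) hn3 h1 h2 ?_ hκη ?_ ?_ hγ0 hγ hJ hJ1 hJ2
    (fun m m1 m2 m3 => hJ3 m m1 (fun x => (m2 x).trans (le_trans (by linarith) hK'))
      fun x hx => (bl_mono x ?_).trans (m3 x hx)) hu hu').trans (add_le_add le_rfl ?_)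
  · rw [div_le_iff₀ (by linarith)]; linarith
  · rw [div_le_iff₀ (by linarith), ← div_le_iff₀' (by positivity)]; linarith
  · rw [div_le_iff₀ hL1, ← div_le_iff₀' (by positivity)]; linarith
  · refine Nat.floor_le_of_le ?_
    rw [div_le_iff₀ (by linarith)]
    have h2' : (L : ℝ) ≤ 2 * n * r := by exact_mod_cast h2
    have := mul_le_mul_of_nonneg_left hK' (Nat.cast_nonneg r : (0 : ℝ) ≤ r)
    linarith
  · have q1 : min (t * ε / 4) (ε / (8 * (2 * K ^ 2 + 2))) / (2 * t) ≤ ε / 8 := by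
      rw [div_le_iff₀ (by positivity)]; linarith [min_le_left (t * ε / 4) (ε / (8 * (2 * K ^ 2 + 2)))]
    have q2 : 2 * (2 * K ^ 2 + 1 + 1) * min (t * ε / 4) (ε / (8 * (2 * K ^ 2 + 2))) ≤ ε / 4 := by
      refine (mul_le_mul_of_nonneg_left (min_le_right _ _) (by positivity)).trans_eq ?_
      field_simp; ring
    have q3 : 24 * (n : ℝ) ^ 2 * (ε / (96 * n ^ 2)) = ε / 4 := by
      have : (n : ℝ) ≠ 0 := by linarith [hn2] |> fun (h : (0 : ℝ) < n) => h.ne'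
      field_simp; ring
    linarith

end Crest.Agent.T145
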