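import Crest.Agent.T145.Brg_14
import Crest.Agent.T145.Tor_27

/-!
# Row 145 (helper27): the bridge for tori, `TorStmt`
-/

set_option autoImplicit false

noncomputable section

namespace Crest.Agent.T145

open Finset hiding box
open Crest.ProbabilityR.HeightModel

namespace Tor27

variable {n : ℕ} [NeZero n]

/-- reduction modulo `n` -/
def cz (n : ℕ) (x : Pt) : ZMod n × ZMod n := ((x.1 : ZMod n), (x.2 : ZMod n))

/-- the representative in `[0, n)²` -/
def lf (x : ZMod n × ZMod n) : Pt := ((x.1.val : ℤ), (x.2.val : ℤ))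

omit [NeZero n] in
theorem mem_sq0 {x : Pt} : x ∈ sq 0 n ↔ (0 ≤ x.1 ∧ x.1 < n) ∧ 0 ≤ x.2 ∧ x.2 < n := by
  simp [sq]

@[simp] theorem cz_lf (x : ZMod n × ZMod n) : cz n (lf x) = x := by simp [cz, lf]

theorem lf_mem (x : ZMod n × ZMod n) : lf x ∈ sq 0 n :=
  mem_sq0.2 ⟨⟨Int.natCast_nonneg _, Int.ofNat_lt.2 x.1.val_lt⟩, Int.natCast_nonneg _,
    Int.ofNat_lt.2 x.2.val_lt⟩

theorem lf_cz' (x : Pt) : lf (cz n x) = (x.1 % n, x.2 % n) :=
  Prod.ext (ZMod.val_intCast _) (ZMod.val_intCast _)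

theorem lf_cz {x : Pt} (hx : x ∈ sq 0 n) : lf (cz n x) = x := by
  obtain ⟨⟨h1, h2⟩, h3, h4⟩ := mem_sq0.1 hx
  rw [lf_cz', Int.emod_eq_of_lt h1 h2, Int.emod_eq_of_lt h3 h4]

omit [NeZero n] in
theorem cz_add (x y : Pt) : cz n (x + y) = cz n x + cz n y := by simp [cz]

/-- sums over the representatives -/
theorem sum_sq0 (g : Pt → ℝ) : ∑ x ∈ sq 0 n, g x = ∑ x : ZMod n × ZMod n, g (lf x) :=
  sum_nbij' (cz n) lf (fun _ _ => mem_univ _) (fun x _ => lf_mem x) (fun _ hx => lf_cz hx)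
    (fun x _ => cz_lf x) fun x hx => by rw [lf_cz hx]

theorem torF_lf (f : ℝ × ℝ → ℝ) (x : ZMod n × ZMod n) :
    torF n f (lf x) = 2 * Real.pi * fn f x := by
  rw [torF, sum_sq0, fn]
  simp only [lf, pt, Int.cast_natCast]
  ring

theorem pr_eq_sum {V : Type*} [DecidableEq V] (f : V → ℝ) {s : Cfg V} {U : Finset V}
    (h : s.support ⊆ U) : pr f s = ∑ x ∈ U, f x * s x := by
  rw [pr, Finsupp.liftAddHom_apply, Finsupp.sum_of_support_subset _ h _ (by simp)]
  rfl

/-- products and sums over the edges of the torus -/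
theorem sum_edges {Λ : Lat} (h : 2 * Λ.rg < n) (g : Pt × Pt → ℝ) :
    ∑ e ∈ (Λ.T n).ed, g e = ∑ x : ZMod n × ZMod n, ∑ y ∈ Λ.Jp, g (lf x, lf (x + cz n y)) := by
  have key : ∀ {a b c : ℤ}, b.natAbs ≤ Λ.rg → c.natAbs ≤ Λ.rg → (a + b) % n = (a + c) % n →
      b = c := fun {a b c} hb hc e => by
    have h1 : (n : ℤ) ∣ c - b := by
      simpa using (Int.emod_emod_eq_zero_iff_dvd' e)
    exact (sub_eq_zero.1 (Int.eq_zero_of_abs_lt_dvd h1 (by rw [Int.abs_eq_natAbs]; omega))).symm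
  rw [Lat.T, sum_image, sum_product, sum_sq0]
  · refine sum_congr rfl fun x _ => sum_congr rfl fun y _ => ?_
    rw [show x + cz n y = cz n (lf x + y) by rw [cz_add, cz_lf], lf_cz']
    rfl
  · rintro ⟨p, y⟩ hp ⟨q, z⟩ hq e
    obtain ⟨rfl, e2⟩ := Prod.mk.inj e
    obtain ⟨e3, e4⟩ := Prod.mk.inj e2
    have h1 := B14.le_range (mem_filter.1 (mem_product.1 hp).2).1
    have h2 := B14.le_range (mem_filter.1 (mem_product.1 hq).2).1
    exact Prod.ext rfl (Prod.ext (key h1.1 h2.1 e3) (key h1.2 h2.2 e4))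
where Int.emod_emod_eq_zero_iff_dvd' {a b c m : ℤ} (e : (a + b) % m = (a + c) % m) :
    m ∣ (a + c) - (a + b) := Int.ModEq.dvd e

/-- a torus configuration as a finitely supported one -/
def emb (h : TorusConfig n) : Cfg Pt :=
  Finsupp.onFinset (sq 0 n) (fun x => if x ∈ sq 0 n then h.1 (cz n x) else 0) fun x hx => by
    by_contra hc
    exact hx (if_neg hc)

omit [NeZero n] in
theorem emb_apply (h : TorusConfig n) (x : Pt) :
    emb h x = if x ∈ sq 0 n then h.1 (cz n x) else 0 := rfl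

@[simp] theorem emb_lf (h : TorusConfig n) (x : ZMod n × ZMod n) : emb h (lf x) = h.1 x := by
  rw [emb_apply, if_pos (lf_mem x), cz_lf]

theorem emb_inj : Function.Injective (emb (n := n)) := fun h h' e =>
  Subtype.ext (funext fun x => by rw [← emb_lf, e, emb_lf])

omit [NeZero n] in
theorem emb_off (h : TorusConfig n) (x : Pt) (hx : x ∉ (sq 0 n).erase 0) : emb h x = 0 := by
  rw [emb_apply]
  split_ifs with h1
  · obtain rfl : x = 0 := by simpa [h1] using hx
    exact (congrArg h.1 (by simp [cz, Prod.ext_iff])).trans h.2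
  · rfl

theorem mem_range_emb {s : Cfg Pt} (hs : ∀ x, x ∉ (sq 0 n).erase 0 → s x = 0) :
    s ∈ Set.range (emb (n := n)) :=
  ⟨⟨fun x => s (lf x), hs _ (by simp [lf, Prod.ext_iff])⟩, Finsupp.ext fun x => by
    rw [emb_apply]
    split_ifs with hx
    · exact congrArg s (lf_cz hx)
    · exact (hs x fun h => hx (mem_of_mem_erase h)).symm⟩

theorem pr_emb (h : TorusConfig n) (f : ℝ × ℝ → ℝ) : pr (torF n f) (emb h) = fieldPairing h f := by
  rw [pr_eq_sum _ (s := emb h) (U := sq 0 n) Finsupp.support_onFinset_subset, sum_sq0, pairing_eq, mul_sum]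
  exact sum_congr rfl fun x _ => by rw [torF_lf, emb_lf]; ring

theorem W_emb {J : Finset Pt} {β : ℝ} (hJ : IsAdmissible J) (hβ : 0 < β)
    (hn : 2 * interactionRange J < n) (h : TorusConfig n) :
    ((dg J β).T n).W 0 (emb h) = torusWeight J β h := by
  have hc := card_J_pos hJ
  have e1 : ind (∀ x, x ∉ ((dg J β).T n).A → emb h x = (0 : Cfg Pt) x) = 1 := if_pos (emb_off h)
  have e2 : torusEnergy J h = 2 * ∑ x : ZMod n × ZMod n, ∑ y ∈ (dg J β).Jp,
      (2 * Real.pi * ((h.1 (x + cz n y) : ℝ) - h.1 x)) ^ 2 := by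
    refine (sum_congr rfl fun x _ => B14.sum_J (Λ := dg J β) hJ fun y =>
      (2 * Real.pi * ((h.1 (x + cz n y) : ℝ) - h.1 x)) ^ 2).trans ?_
    rw [two_mul (∑ x, _), sum_add_distrib]
    congr 1
    rw [sum_comm, sum_comm (s := univ)]
    refine sum_congr rfl fun y _ => (Fintype.sum_equiv (Equiv.addRight (cz n y)) _ _ fun x => ?_).symm
    simp only [Equiv.coe_addRight, add_assoc, ← cz_add, add_neg_cancel,
      show cz n 0 = 0 by simp [cz, Prod.ext_iff], add_zero]
    ring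
  rw [Mdl.W, e1, one_mul, torusWeight, e2]
  have e3 : ∀ e, ((dg J β).T n).w e (dE e (emb h)) =
      Real.exp (-((dE e (emb h) : ℤ) : ℝ) ^ 2 / (2 * (β * J.card / (4 * Real.pi ^ 2)))) :=
    fun e => rfl
  have e4 : ∏ x ∈ ((dg J β).T n).A, ((dg J β).T n).site x (emb h x) = 1 := prod_const_one
  simp only [e3, e4, mul_one, ← Real.exp_sum]
  rw [sum_edges (Λ := dg J β) hn]
  simp only [dE, emb_lf, mul_sum, ← sum_neg_distrib, sum_div]
  refine congrArg _ (sum_congr rfl fun x _ => sum_congr rfl fun y _ => ?_)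
  have := Real.pi_pos
  push_cast
  field_simp
  ring

theorem tsum_emb (Λ : Lat) (F : Cfg Pt → ℝ) :
    ∑' h : TorusConfig n, (Λ.T n).W 0 (emb h) * F (emb h) = ∑' s, (Λ.T n).W 0 s * F s := by
  refine emb_inj.tsum_eq (f := fun s => (Λ.T n).W 0 s * F s) fun s hs => mem_range_emb ?_
  by_contra hc
  refine hs ?_
  have : ind (∀ x, x ∉ (Λ.T n).A → s x = (0 : Cfg Pt) x) = 0 := if_neg hc
  simp only [Mdl.W, this, zero_mul]

end Tor27

open Tor27

/-- **bridge for tori** -/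
theorem torStmt (hM : MdlStmt) (hG : GeoStmt) : TorStmt := by
  intro J β hJ hβ n f hn
  have : NeZero n := ⟨by omega⟩
  have hπ : 0 < 4 * Real.pi ^ 2 := by have := Real.pi_pos; positivity
  obtain ⟨g1, g2⟩ := (hG (dg J β) ⟨hJ, div_pos (mul_pos hβ (card_J_pos hJ)) hπ⟩).2.2.1 n
  have hC := (hM Pt _).2.2 g1 g2
  have s1 : Summable (((dg J β).T n).W 0) := by simpa using hC.se 0
  have z1 := tsum_emb (n := n) (dg J β) fun _ => 1
  have z2 := tsum_emb (n := n) (dg J β) fun s => Real.exp (pr (torF n f) s)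
  have t1 := s1.comp_injective (emb_inj (n := n))
  have t2 := (hC.se (pr (torF n f))).comp_injective (emb_inj (n := n))
  simp only [mul_one, Function.comp_def, W_emb hJ hβ hn, pr_emb] at z1 z2 t1 t2
  have hb : ∀ h : TorusConfig n, 0 ≤ torusWeight J β h := fun h => (Real.exp_pos _).le
  rw [torusLaplace, dif_pos (NeZero.ne n), torusLaplaceENN]
  simp only [mul_comm (Real.exp _)]
  rw [← ENNReal.ofReal_tsum_of_nonneg (fun h => by have := hb h; positivity) t2,
    ← ENNReal.ofReal_tsum_of_nonneg hb t1, ENNReal.toReal_div,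
    ENNReal.toReal_ofReal (tsum_nonneg fun h => by have := hb h; positivity),
    ENNReal.toReal_ofReal (tsum_nonneg hb), z1, z2]
  rfl

end Crest.Agent.T145
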