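import Crest.Agent.T145.Br_73
import Crest.Agent.T145.CorB_59
import Crest.Agent.T145.TorB_27

/-!
# Row 145, module (b): the torus limit, part A (helper87)

Asymptotic upper and lower bounds `Up`, `Lo`; rescaled smooth periodic functions on the lattice torus.
-/

set_option autoImplicit false

noncomputable section

namespace Crest.Agent.T145.TL87

open Finset Filter Topology Crest.ProbabilityR.HeightModel Tor27

section abs
variable {ι L : Type} [AddCommGroup L] [IsAddTorsionFree L] {𝓕 : Filter ι} {W : ι → L → ℝ}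
  {X ν : ι → L →+ ℝ} {v : ι → ℝ} {C : ℝ}

/-- asymptotic Gaussian upper bound -/
def Up (𝓕 : Filter ι) (W : ι → L → ℝ) (X : ι → L →+ ℝ) (v : ι → ℝ) : Prop :=
  ∀ t ε : ℝ, 0 < ε → ∀ᶠ i in 𝓕, M (W i) (t • X i) ≤ t ^ 2 * v i / 2 + ε

/-- asymptotic lower bound of the variance -/
def Lo (𝓕 : Filter ι) (W : ι → L → ℝ) (X : ι → L →+ ℝ) (v : ι → ℝ) : Prop :=
  ∀ ε : ℝ, 0 < ε → ∀ᶠ i in 𝓕, v i - ε ≤ Vr (W i) (X i) (X i)

omit [IsAddTorsionFree L] in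
theorem Up.mono {𝓖 : Filter ι} (h : Up 𝓕 W X v) (hle : 𝓖 ≤ 𝓕) : Up 𝓖 W X v :=
  fun t ε hε => (h t ε hε).filter_mono hle

omit [IsAddTorsionFree L] in
theorem Up.add (hW : ∀ i, Cen (W i)) (hv : ∀ᶠ i in 𝓕, v i ≤ C) (hX : Up 𝓕 W X v)
    (hν : Up 𝓕 W ν fun _ => 0) : Up 𝓕 W (fun i => X i + ν i) v := fun t ε hε => by
  obtain ⟨s, hs, hsε⟩ : ∃ s : ℝ, 0 < s ∧ s * (t ^ 2 * |C|) ≤ ε :=
    ⟨ε / (t ^ 2 * |C| + 1), by positivity, by
      rw [div_mul_eq_mul_div, div_le_iff₀ (by positivity)]; nlinarith⟩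
  filter_upwards [hv, hX (t * (1 + s)) (ε / 2) (half_pos hε),
    hν (t * (1 + s) / s) (ε / 2) (half_pos hε)] with i h0 h1 h2
  have h3 := ((hW i).wt.convexOn_M (hW i).se).2 (Set.mem_univ ((t * (1 + s)) • X i))
    (Set.mem_univ ((t * (1 + s) / s) • ν i)) (by positivity : 0 ≤ 1 / (1 + s))
    (by positivity : 0 ≤ s / (1 + s)) (by field_simp)
  rw [smul_smul, smul_smul, show 1 / (1 + s) * (t * (1 + s)) = t by field_simp,
    show s / (1 + s) * (t * (1 + s) / s) = t by field_simp, ← smul_add, smul_eq_mul,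
    smul_eq_mul] at h3
  have h4 : 1 / (1 + s) * ((t * (1 + s)) ^ 2 * v i / 2 + ε / 2) +
      s / (1 + s) * ((t * (1 + s) / s) ^ 2 * 0 / 2 + ε / 2) =
      t ^ 2 * v i / 2 + s * (t ^ 2 * v i) / 2 + ε / 2 := by field_simp; ring
  have h5 := mul_le_mul_of_nonneg_left
    (mul_le_mul_of_nonneg_left (h0.trans (le_abs_self C)) (sq_nonneg t)) hs.le
  have h6 := add_le_add (mul_le_mul_of_nonneg_left h1 (by positivity : 0 ≤ 1 / (1 + s)))
    (mul_le_mul_of_nonneg_left h2 (by positivity : 0 ≤ s / (1 + s)))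
  linarith

theorem Up.vr (hW : ∀ i, Cen (W i)) (hX : Up 𝓕 W X v) {ε : ℝ} (hε : 0 < ε) :
    ∀ᶠ i in 𝓕, Vr (W i) (X i) (X i) ≤ v i + ε := by
  filter_upwards [hX 1 (ε / 2) (half_pos hε)] with i h
  have := (hW i).vr_le_M (X i)
  rw [one_smul] at h
  linarith

theorem Lo.add (hW : ∀ i, Cen (W i)) (hv : ∀ᶠ i in 𝓕, v i ≤ C) (hX : Lo 𝓕 W X v)
    (hν : Up 𝓕 W ν fun _ => 0) : Lo 𝓕 W (fun i => X i + ν i) v := fun ε hε => by
  obtain ⟨s, hs, hs1, hsε⟩ : ∃ s : ℝ, 0 < s ∧ s ≤ 1 ∧ s * |C| ≤ ε / 3 :=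
    ⟨ε / 3 / (|C| + ε / 3), by positivity, by
      rw [div_le_one (by positivity)]; linarith [abs_nonneg C], by
      rw [div_mul_eq_mul_div, div_le_iff₀ (by positivity)]; nlinarith⟩
  filter_upwards [hv, hX (ε / 3) (by positivity), hν.vr hW (ε := s * (ε / 3)) (by positivity)]
    with i h0 h1 h2
  have hs' := (hW i).se
  have h3 := (hW i).wt.Vr_nonneg hs' (s • X i + ν i)
  have h4 := (hW i).wt.Vr_nonneg hs' (ν i)
  simp only [hs'.Vr_add_left, hs'.Vr_add_right, Vr_smul_left, Vr_smul_right,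
    Vr_comm (W i) (ν i) (X i)] at h3 ⊢
  have h5 := mul_le_mul_of_nonneg_left (h0.trans (le_abs_self C)) hs.le
  have h6 := mul_le_mul_of_nonneg_left h1 (sub_nonneg.2 hs1)
  have h7 : -(s * Vr (W i) (X i) (X i)) - ε / 3 ≤ 2 * Vr (W i) (X i) (ν i) :=
    le_of_mul_le_mul_left (by nlinarith) hs
  nlinarith

theorem tendsto_M (hW : ∀ i, Cen (W i)) (hU : Up 𝓕 W X v) (hL : Lo 𝓕 W X v) {a : ℝ}
    (hv : Tendsto v 𝓕 (𝓝 a)) : Tendsto (fun i => M (W i) (X i)) 𝓕 (𝓝 (a / 2)) := by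
  refine Metric.tendsto_nhds.2 fun ε hε => ?_
  filter_upwards [hU 1 (ε / 2) (half_pos hε), hL (ε / 2) (half_pos hε),
    Metric.tendsto_nhds.1 hv (ε / 2) (half_pos hε)] with i h1 h2 h3
  have := (hW i).vr_le_M (X i)
  rw [one_smul] at h1
  rw [Real.dist_eq, abs_lt] at h3 ⊢
  constructor <;> linarith [h3.1, h3.2]

end abs

variable {Λ : Lat} {n : ℕ} {w : ℝ × ℝ → ℝ}

/-- the pinned torus -/
def WT (Λ : Lat) (n : ℕ) : Cfg Pt → ℝ := (Λ.T n).W 0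

theorem small (hΛ : Λ.Ok) {f : ℕ → Pt → ℝ} {c : ℕ → ℝ} (hc : Tendsto c atTop (𝓝 0))
    (h : ∀ᶠ n in atTop, F2A (Λ.T n).ed (Λ.T n).A (f n) (c n)) :
    Up atTop (WT Λ) (fun n => pr (f n)) fun _ => 0 := fun t ε hε => by
  have hg : Continuous fun x : ℝ => Λ.τ * (t ^ 2 * x) * Real.cosh (|t| * Real.sqrt x) / 2 := by
    fun_prop
  have h1 := (hg.tendsto 0).comp hc
  simp only [mul_zero, zero_mul, zero_div] at h1
  filter_upwards [h, h1.eventually (gt_mem_nhds hε)] with n h2 h3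
  have := h2.M_smul_le hΛ.pos (hΛ.ctr_T n) (hΛ.anch_T n) Subset.rfl (fun _ _ => rfl) t
  simp only [Function.comp] at h3
  simp only [WT, mul_zero, zero_div, zero_add]
  exact this.trans h3.le

/-- `A v` on the torus -/
def AT (Λ : Lat) (n : ℕ) (v : Pt → ℝ) : Pt → ℝ := dv (Λ.T n).ed fun e => (v e.2 - v e.1) / Λ.τ

/-- energy on the torus -/
def ET (Λ : Lat) (n : ℕ) (v : Pt → ℝ) : ℝ :=
  ∑ e ∈ (Λ.T n).ed, (v e.2 - v e.1) * (v e.2 - v e.1) / Λ.τ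

/-- the rescaled function `w (x / n)` -/
def sc (n : ℕ) (w : ℝ × ℝ → ℝ) (x : Pt) : ℝ := w ((x.1 : ℝ) / n, (x.2 : ℝ) / n)

theorem AT_lin (a b : ℝ) (u v : Pt → ℝ) :
    AT Λ n (fun x => a * u x + b * v x) = a • AT Λ n u + b • AT Λ n v := by
  rw [AT, AT, AT, ← dv_smul, ← dv_smul, ← dv_add]
  exact dv_congr fun e _ => by ring

theorem AT_smul (a : ℝ) (u : Pt → ℝ) : AT Λ n (fun x => a * u x) = a • AT Λ n u := by
  rw [AT, AT, ← dv_smul]
  exact dv_congr fun e _ => by ring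

theorem ET_smul (a : ℝ) (u : Pt → ℝ) : ET Λ n (fun x => a * u x) = a ^ 2 * ET Λ n u := by
  rw [ET, ET, mul_sum]
  exact sum_congr rfl fun e _ => by ring

theorem ET_par (u v : Pt → ℝ) : ET Λ n (fun x => 1 * u x + 1 * v x) +
    ET Λ n (fun x => 1 * u x + -1 * v x) = 2 * ET Λ n u + 2 * ET Λ n v := by
  simp only [ET, mul_sum, ← sum_add_distrib]
  exact sum_congr rfl fun e _ => by ring

theorem sum_AT (u : Pt → ℝ) : ∑ x ∈ sq 0 n, AT Λ n u x = 0 := sum_dv _ fun _ => Lat.T_ed_mem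

theorem sum_T_tsh (v : Pt) (F : Pt × Pt → ℝ) :
    ∑ e ∈ (Λ.T n).ed, F e = ∑ e ∈ (Λ.T n).ed, F (tsh n v e.1, tsh n v e.2) := by
  have h : (Λ.T n).ed = (Λ.T n).ed.map ((tsh n v).prodCongr (tsh n v)).toEmbedding :=
    (Lat.iso_T (Λ := Λ) n v ∅).2.1
  conv_lhs => rw [h, sum_map]
  rfl

theorem tsh_inv (hΛ : Λ.Ok) (hn : 0 < n) (v : Pt) {g g' : Pt → ℝ}
    (h : ∀ x ∈ sq 0 n, g' x = g (tsh n v x)) :
    Vr (WT Λ n) (pr (AT Λ n g')) (pr (AT Λ n g')) = Vr (WT Λ n) (pr (AT Λ n g)) (pr (AT Λ n g)) ∧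
      ET Λ n g' = ET Λ n g := by
  have h1 : AT Λ n g' = fun x => AT Λ n g (tsh n v x) := funext fun x => by
    simp only [AT, dv]
    rw [sum_T_tsh v fun e => (g e.2 - g e.1) / Λ.τ * (ind (e.2 = tsh n v x) - ind (e.1 = tsh n v x))]
    refine sum_congr rfl fun e he => ?_
    simp only [EmbeddingLike.apply_eq_iff_eq, h _ (Lat.T_ed_mem he).1, h _ (Lat.T_ed_mem he).2]
  refine ⟨by rw [h1]; exact hΛ.Vr_T hn v (sum_AT g) (sum_AT g), ?_⟩
  rw [ET, ET, sum_T_tsh v fun e => (g e.2 - g e.1) * (g e.2 - g e.1) / Λ.τ]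
  exact sum_congr rfl fun e he => by rw [h _ (Lat.T_ed_mem he).1, h _ (Lat.T_ed_mem he).2]

theorem sc_add (x y : Pt) : sc n w (x + y) =
    w (((x.1 : ℝ) / n, (x.2 : ℝ) / n) + (1 / n : ℝ) • ((y.1 : ℝ), (y.2 : ℝ))) := by
  rw [sc]; congr 1; ext <;> simp <;> ring

theorem sc_tsh (h : IsPeriodic w) (y : Pt) {x : Pt} (hx : x ∈ sq 0 n) :
    sc n w (tsh n y x) = sc n w (x + y) := by
  have hn : (n : ℝ) ≠ 0 := Nat.cast_ne_zero.2 (pos_of_mem_sq hx).ne'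
  have key : ∀ a : ℤ, (a : ℝ) / n = ((a % n : ℤ) : ℝ) / n + ((a / n : ℤ) : ℝ) := fun a => by
    have : ((a % n : ℤ) : ℝ) + n * ((a / n : ℤ) : ℝ) = a := by
      exact_mod_cast Int.emod_add_mul_ediv a n
    field_simp
    linarith
  rw [tsh_apply, tshF_mem y hx, sc, sc, ← per_int h ((x.1 + y.1) / n) ((x.2 + y.2) / n)]
  congr 1
  exact Prod.ext (key _).symm (key _).symm

theorem sc_lf [NeZero n] (z : ZMod n × ZMod n) : sc n w (lf z) = w (pt z) := by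
  simp [sc, lf, pt]

theorem tay11 (h : IsSmoothPeriodic w) (v v' : ℝ × ℝ) : ∃ K, 0 ≤ K ∧ ∀ p (s t : ℝ),
    |w (p + s • v + t • v') - w (p + t • v') - (w (p + s • v) - w p)| ≤ K * |s| * |t| := by
  obtain ⟨K, h0, hK⟩ := tay0 (sp_Dv h v') v
  refine ⟨K, h0, fun p s t => mvt
    (φ := fun t => w (p + s • v + t • v') - w (p + t • v') - (w (p + s • v) - w p))
    (fun t => ((hasDerivAt_line h _ v' t).sub (hasDerivAt_line h p v' t)).sub_const _) (by simp)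
    fun r _ => ?_⟩
  rw [add_right_comm]
  exact hK _ s

theorem sm2_sc (h : IsSmoothPeriodic w) : ∃ K : ℝ, 1 ≤ K ∧ ∀ n : ℕ, 0 < n → Sm2 (sc n w) K n := by
  choose K0 h0 hK0 using fun i : Fin 2 => tay0 h (((ev i).1 : ℝ), ((ev i).2 : ℝ))
  choose K1 h1 hK1 using fun i j : Fin 2 =>
    tay11 h (((ev i).1 : ℝ), ((ev i).2 : ℝ)) (((ev j).1 : ℝ), ((ev j).2 : ℝ))
  have a0 : 0 ≤ ∑ i, K0 i := sum_nonneg fun i _ => h0 i
  have a1 : 0 ≤ ∑ p : Fin 2 × Fin 2, K1 p.1 p.2 := sum_nonneg fun p _ => h1 _ _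
  refine ⟨1 + ∑ i, K0 i + ∑ p : Fin 2 × Fin 2, K1 p.1 p.2, by linarith, fun n hn => ?_⟩
  have hn' : (0 : ℝ) < n := by exact_mod_cast hn
  have e : |(1 / n : ℝ)| = 1 / n := abs_of_pos (by positivity)
  refine ⟨fun i x => ?_, fun i j x => ?_⟩
  · have := hK0 i ((x.1 : ℝ) / n, (x.2 : ℝ) / n) (1 / n)
    rw [e, mul_one_div] at this
    rw [df, sc_add]
    refine this.trans (div_le_div_of_nonneg_right ?_ hn'.le)
    linarith [single_le_sum (fun i _ => h0 i) (mem_univ i)]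
  · have := hK1 i j ((x.1 : ℝ) / n, (x.2 : ℝ) / n) (1 / n) (1 / n)
    rw [e, mul_assoc, div_mul_div_comm, mul_one, mul_one_div, ← pow_two] at this
    have e2 : sc n w (x + ev j + ev i) = w (((x.1 : ℝ) / n, (x.2 : ℝ) / n) +
        (1 / n : ℝ) • (((ev i).1 : ℝ), ((ev i).2 : ℝ)) +
        (1 / n : ℝ) • (((ev j).1 : ℝ), ((ev j).2 : ℝ))) := by
      rw [sc]; congr 1; ext <;> simp <;> ring
    rw [df, df, df, e2, sc_add, sc_add]
    refine this.trans (div_le_div_of_nonneg_right ?_ (by positivity))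
    linarith [single_le_sum (f := fun p : Fin 2 × Fin 2 => K1 p.1 p.2) (fun p _ => h1 _ _)
      (mem_univ (i, j))]

theorem Sm2.mono' {u : Pt → ℝ} {K K' L : ℝ} (h : Sm2 u K L) (hK : K ≤ K') (hL : 0 ≤ L) :
    Sm2 u K' L :=
  ⟨fun i x => (h.1 i x).trans (div_le_div_of_nonneg_right hK hL),
    fun i j x => (h.2 i j x).trans (div_le_div_of_nonneg_right hK (sq_nonneg L))⟩

/-- the energy converges -/
theorem tendsto_ET (hΛ : Λ.Ok) (h : IsSmoothPeriodic w) :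
    Tendsto (fun n => ET Λ n (sc n w)) atTop (𝓝 (Λ.e0 * en w)) := by
  obtain ⟨K, -, hK⟩ := energy_J hΛ.1 h
  rw [tendsto_iff_norm_sub_tendsto_zero]
  refine squeeze_zero' (Eventually.of_forall fun _ => norm_nonneg _)
    (eventually_atTop.2 ⟨2 * Λ.rg + 1, fun n hn => ?_⟩)
    (tendsto_const_div_atTop_nhds_zero_nat (K / (2 * Λ.τ)))
  have : NeZero n := ⟨by omega⟩
  have hτ := hΛ.pos
  have e : ∑ x : ZMod n × ZMod n, ∑ y ∈ Λ.J, gr w ((y.1 : ZMod n), (y.2 : ZMod n)) x ^ 2 =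
      2 * ∑ x : ZMod n × ZMod n, ∑ y ∈ Λ.Jp, gr w (cz n y) x ^ 2 := by
    refine (sum_congr rfl fun x _ => hΛ.sum_J fun y => gr w (cz n y) x ^ 2).trans ?_
    simp only [sum_add_distrib]
    rw [two_mul]
    congr 1
    rw [sum_comm, sum_comm (s := univ)]
    refine sum_congr rfl fun y _ => (Fintype.sum_equiv (Equiv.addRight (cz n y)) _ _ fun x => ?_).symm
    simp only [gr, Equiv.coe_addRight, add_assoc, ← cz_add, add_neg_cancel,
      show cz n 0 = 0 by simp [cz, Prod.ext_iff], add_zero]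
    ring
  have e2 : ET Λ n (sc n w) = (∑ x : ZMod n × ZMod n, ∑ y ∈ Λ.Jp, gr w (cz n y) x ^ 2) / Λ.τ := by
    rw [ET, sum_edges (by omega)]
    simp only [sc_lf, sum_div, gr, pow_two]
  have h1 := hK n
  rw [e, mul_assoc 2, ← hΛ.a_eq, mul_assoc, ← mul_sub, abs_mul, abs_two] at h1
  rw [Real.norm_eq_abs, e2, Lat.e0, div_mul_eq_mul_div, ← sub_div, abs_div, abs_of_pos hτ,
    div_le_iff₀ hτ]
  calc _ ≤ K / n / 2 := by linarith
    _ = _ := by field_simp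

theorem ET_bdd (hΛ : Λ.Ok) (h : IsSmoothPeriodic w) :
    ∀ᶠ n in atTop, ET Λ n (sc n w) ≤ |Λ.e0 * en w| + 1 :=
  ((tendsto_ET hΛ h).eventually (gt_mem_nhds (by linarith [le_abs_self (Λ.e0 * en w)]))).mono
    fun _ => le_of_lt

/-- the edges across the seam carry little energy -/
theorem wrap (hΛ : Λ.Ok) (h : IsSmoothPeriodic w) : ∃ C : ℝ, ∀ n : ℕ, 0 < n →
    F2 (Λ.T n).ed (AT Λ n (sc n w) - Λ.Au (sq 0 n) (sc n w)) (C / n) := by
  obtain ⟨K, h0, hK⟩ := lip h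
  have hτ := hΛ.pos
  refine ⟨4 * Λ.rg * Λ.Jp.card * (2 * K * Λ.rg / Λ.τ) ^ 2, fun n hn => ?_⟩
  have hn' : (0 : ℝ) < n := by exact_mod_cast hn
  have e : AT Λ n (sc n w) - Λ.Au (sq 0 n) (sc n w) =
      dv ((Λ.T n).ed \ Λ.edI (sq 0 n)) fun e => (sc n w e.2 - sc n w e.1) / Λ.τ := by
    rw [AT, Lat.Au, sub_eq_iff_eq_add, dv_sdiff (Lat.edI_subset_T n)]
  have hf : Fs ((Λ.T n).ed \ Λ.edI (sq 0 n)) (AT Λ n (sc n w) - Λ.Au (sq 0 n) (sc n w))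
      (2 * K * Λ.rg / Λ.τ / n) := ⟨_, e, fun e he => by
    obtain ⟨h1, y, hy, h2⟩ := Lat.mem_T_ed'.1 (mem_sdiff.1 he).1
    have h3 := Lat.le_rg (Lat.mem_Jp.1 hy).1
    have h4 : |(y.1 : ℝ)| ≤ Λ.rg := by exact_mod_cast h3.1
    have h5 : |(y.2 : ℝ)| ≤ Λ.rg := by exact_mod_cast h3.2
    rw [h2, sc_tsh h.1 y h1, sc_add, abs_div, abs_of_pos hτ, div_right_comm]
    refine div_le_div_of_nonneg_right ((hK _ _).trans ?_) hτ.le
    simp only [Prod.fst_add, Prod.snd_add, Prod.smul_fst, Prod.smul_snd, add_sub_cancel_left,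
      smul_eq_mul, abs_mul, abs_of_pos (one_div_pos.2 hn')]
    calc _ ≤ K * (1 / n * Λ.rg + 1 / n * Λ.rg) := by gcongr
      _ = _ := by ring⟩
  refine (hf.f2.subset sdiff_subset).mono ?_
  have hs : (Λ.T n).ed \ Λ.edI (sq 0 n) ⊆
      (((sq 0 n).filter fun x => ¬ bl x Λ.rg ⊆ sq 0 n) ×ˢ Λ.Jp).image
        fun p => (p.1, tsh n p.2 p.1) := fun e he => by
    obtain ⟨he1, he2⟩ := mem_sdiff.1 he
    obtain ⟨h1, y, hy, h2⟩ := Lat.mem_T_ed'.1 he1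
    refine mem_image.2 ⟨(e.1, y), mem_product.2 ⟨mem_filter.2 ⟨h1, fun hb => he2 ?_⟩, hy⟩,
      Prod.ext rfl h2.symm⟩
    have hD : ∀ x ∈ ({e.1} : Finset Pt), bl x Λ.rg ⊆ sq 0 n := fun x hx => mem_singleton.1 hx ▸ hb
    exact Lat.edT_subset_edI hD (Lat.T_ed_touch hD he1 (Or.inl (mem_singleton_self _)))
  have h1 := (card_le_card hs).trans card_image_le
  rw [card_product] at h1
  have h2 := (Nat.cast_le (α := ℝ)).2 h1
  have h3 := (reg_rc 0 Λ.rg n (n₁ := n) (n₂ := n) (K := 1) le_rfl (by simp) (by simp)).2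
  rw [← sq_eq_rc] at h3
  push_cast at h2
  calc _ ≤ (4 * 1 ^ 2 * Λ.rg * n * Λ.Jp.card) * (2 * K * Λ.rg / Λ.τ / n) ^ 2 := by
        gcongr
        exact h2.trans (by gcongr)
    _ = _ := by field_simp

end Crest.Agent.T145.TL87
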