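import Crest.Agent.T145.KsB_68
import Crest.Agent.T145.Rsd_63

/-!
# Row 145, twisted module (helper63): (D1) on blocks only, with a seam and a force

No hypothesis on the rest of the model; roots may lie on the rims; the constant is the centred cross ratio.
-/

set_option autoImplicit false

namespace Crest.Agent.T145.Tw

open Finset Nc Cut7 Ks68

variable {V : Type} [DecidableEq V] {m : Mdl V}

/-- passing to a submodel without site weights, with data, seam and force -/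
theorem proj_dat {R : Type} [AddCommGroup R] {m' : Mdl V} (hm : m.Ctr) (hA : m.Anch) (hA' : m'.Anch)
    (π : Cfg V →+ Cfg V) (hE : m'.ed ⊆ m.ed) (hw : ∀ e ∈ m'.ed, m'.w e = m.w e)
    (hs : ∀ x ∈ m'.A, ∀ k, m'.site x k = 1)
    (hπ : ∀ s : Cfg V, (∀ x, x ∉ m'.A → π s x = 0) ∧ ∀ e ∈ m'.ed, dE e (π s) = dE e s)
    (φ : Cfg V →+ R) (σ : V × V → ℤ) (f : Cfg V →+ ℝ) {F : Cfg V → ℝ} (F0 : ∀ t, 0 ≤ F t)
    (hF : ∀ s t, φ s = φ t → F s = F t) (hi : Ig (m'.Ws 0 σ) fun t => Real.exp (f t) * F t) :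
    Ig (m.Ws 0 σ) (fun s => Real.exp (f (π s)) * F (π s)) ∧
      (∑' s, m.Ws 0 σ s * (Real.exp (f (π s)) * F (π s))) * (∑' t, m'.W 0 t * ind (φ t = 0)) ≤
        (∑' t, m'.Ws 0 σ t * (Real.exp (f t) * F t)) * ∑' s, m.W 0 s * ind (φ (π s) = 0) := by
  have hc : m'.Ctr := ⟨fun e he => hw e he ▸ hm.1 e (hE he), fun x hx => by
    rw [show m'.site x = fun _ => 1 from funext (hs x hx)]
    exact ⟨Md.rsd_one, T145.pd_one, one_pos⟩⟩
  have hH : PD fun p : Cfg V × (V × V → ℤ) => (m.keep (m.ed \ m'.ed)).Ws 0 p.2 p.1 := by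
    have a1 := (Cut7.pd_off pdStmt m.A).comp (AddMonoidHom.fst (Cfg V) (V × V → ℤ))
    have a2 := Sl46.pd_seam hm.1 (sdiff_subset (t := m'.ed))
    have a3 : PD fun p : Cfg V × (V × V → ℤ) => ∏ x ∈ m.A, m.site x (p.1 x) :=
      PD.prod fun x hx => (hm.2 x hx).2.1.comp
        ((evZ x).comp (AddMonoidHom.fst (Cfg V) (V × V → ℤ)))
    exact (a1.mul a2).mul a3
  have h1 : ∀ q s, m'.Ws 0 q (π s) = ∏ e ∈ m'.ed, m.w e (dE e s + q e) := fun q s => by
    rw [Mdl.Ws, ind_pos (p := ∀ x, x ∉ m'.A → π s x = (0 : Cfg V) x) (hπ s).1, one_mul,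
      prod_eq_one fun x hx => hs x hx _, mul_one]
    exact prod_congr rfl fun e he => by rw [hw e he, (hπ s).2 e he]
  have h2 : ∀ q s, m.Ws 0 q s = (m.keep (m.ed \ m'.ed)).Ws 0 q s * m'.Ws 0 q (π s) := fun q s => by
    rw [h1 q s, Sl46.Ws_keep m (sdiff_subset (t := m'.ed)), Finset.sdiff_sdiff_eq_self hE]
  have b1 := Md.rsd_comp (Md.ctr_rsd_seam hc) ((AddMonoidHom.id (Cfg V)).prodMap
    (AddMonoidHom.fst (V × V → ℤ) (Cfg V →+ ℝ)))
  have b2 := Md.rsd_comp (Rsd63.rsd_exp (L := Cfg V)) ((AddMonoidHom.id (Cfg V)).prodMap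
    (AddMonoidHom.snd (V × V → ℤ) (Cfg V →+ ℝ)))
  have b3 := hH.comp ((AddMonoidHom.id (Cfg V)).prodMap (AddMonoidHom.fst (V × V → ℤ) (Cfg V →+ ℝ)))
  have h := cut_dat π φ (Q := (V × V → ℤ) × (Cfg V →+ ℝ))
    (ρ := fun q t => m'.Ws 0 q.1 t * Real.exp (q.2 t))
    (H := fun q s => (m.keep (m.ed \ m'.ed)).Ws 0 q.1 s)
    (W := fun q s => m.Ws 0 q.1 s * Real.exp (q.2 (π s)))
    (Md.rsd_mul b1 b2) b3
    (fun q t => ?_) (fun q s => by rw [h2]; ring)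
    (fun q s => mul_nonneg (Md.Ws_nonneg hm.1 hm.nn _ _ _) (Real.exp_pos _).le)
    (fun q => Md.ctr_ses hm hA 0 q.1 (q.2.comp π)) (fun q => Md.ctr_ses hc hA' 0 q.1 q.2)
    (by
      simp only [Prod.fst_zero, Prod.snd_zero, AddMonoidHom.zero_apply, Real.exp_zero, mul_one]
      rw [← Mdl.W_eq_Ws]; exact (hc.cen hA').pos0)
    (σ, f) F0 hF (by simpa only [Ig, mul_assoc] using hi)
  · simpa only [Ig, mul_assoc, Prod.fst_zero, Prod.snd_zero, AddMonoidHom.zero_apply, Real.exp_zero,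
      one_mul, ← Mdl.W_eq_Ws] using h
  by_cases ht : ∃ s, π s = t
  swap
  · refine summable_zero.congr fun s => ?_
    rw [ind_neg fun k => ht ⟨s, k⟩, zero_mul]
  obtain ⟨s₀, rfl⟩ := ht
  have p0 : 0 < m'.Ws 0 q.1 (π s₀) := by
    rw [h1]; exact prod_pos fun e he => (hm.1 e (hE he)).pos _
  refine (Md.summable_ind_mul (fun s => π s = π s₀)
    ((Md.ctr_wts hm hA 0 q.1).summ.mul_right (m'.Ws 0 q.1 (π s₀))⁻¹)).congr fun s => ?_
  by_cases k : π s = π s₀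
  · rw [h2, k, mul_inv_cancel_right₀ p0.ne']
  · rw [ind_neg k, zero_mul, zero_mul]

/-- **(D1) on blocks, with a seam and a force** -/
theorem td1b {ι : Type} {I : Finset ι} {N C S : ι → Finset V} (hc : m.Ctr) (ha : m.Anch)
    (hB : ∀ i ∈ I, ∀ j ∈ I, i ≠ j → Disjoint (N i) (N j))
    (h : ∀ i ∈ I, Box m (N i) (S i) ∧ C i ⊆ N i) (σ : V × V → ℤ) {F : ι → Cfg V → ℝ}
    {f : ι → Cfg V →+ ℝ} (hF : ∀ i ∈ I, DepG (C i) (F i) ∧ (∀ s, 0 ≤ F i s) ∧ DepG (N i) (f i) ∧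
      Ig (rWs m (N i) σ) fun s => F i s * Real.exp (f i s)) :
    Ig (m.Ws 0 σ) (fun s => ∏ i ∈ I, F i s * Real.exp (f i s)) ∧
      zx m σ (fun s => ∏ i ∈ I, F i s * Real.exp (f i s)) ≤
        ∏ i ∈ I, cr m (N i) (C i) (S i) * zx (fr m (N i)) σ fun s => F i s * Real.exp (f i s) := by
  rcases I.eq_empty_or_nonempty with rfl | ⟨i₀, hi₀⟩
  · simp only [prod_empty, zx_one]
    exact ⟨(Md.ctr_wts hc ha 0 σ).ig_const 1, zr_le_one hc ha σ⟩
  have hn : ∀ i ∈ I, (N i).Nonempty := fun i hi => (h i hi).1.ne.mono (h i hi).1.sub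
  have : Nonempty V := ⟨(hn i₀ hi₀).choose⟩
  choose! r hr hrs using fun i hi => rs_spec (hn i hi)
  have hP : ∀ (q : V × V → ℤ) (G : ι → Cfg V → ℝ), (∀ i ∈ I, Dep (N i) (G i)) →
      (∀ i ∈ I, Ig (rWs m (N i) q) (G i)) →
      HasSum (fun s => (m.ncut I N r).Ws 0 q s * ∏ i ∈ I, G i s)
        (∏ i ∈ I, ∑' s, rWs m (N i) q s * G i s) := fun q G hG hI => by
    let m₁ : Mdl V := { tw m q with site := fun _ _ => 1 }
    have e1 : ∀ i ∈ I, (sb m₁ ((N i).erase (r i)) (inn (N i) m.ed)).W 0 = rWs m (N i) q :=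
      fun i hi => by rw [rWs, fr, hrs i hi, ← sdiff_singleton_eq_erase]; rfl
    have h1 := prod_hasSum m₁ 0 (ind_ncut m hB (r := r)) (F := G) fun i hi => by
      rw [e1 i hi]; exact hI i hi
    rw [prod_congr rfl fun i hi => by rw [e1 i hi]] at h1
    refine h1.congr_fun fun s => ?_
    change _ = (m.ncut I N r).Ws 0 q s * _
    by_cases hW : (m.ncut I N r).Ws 0 q s = 0
    · rw [hW, zero_mul, zero_mul]
    congr 1
    refine prod_congr rfl fun i hi => hG i hi _ _ fun x hx => ?_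
    by_cases hx' : x ∈ (N i).erase (r i)
    · exact (pw_of_mem _ _ hx').symm
    · rw [pw_of_notMem _ _ hx']
      refine Mdl.Ws_ne_zero hW fun k => ?_
      obtain ⟨j, hj, k⟩ := mem_biUnion.1 k
      by_cases hij : i = j
      · exact hx' (hij ▸ k)
      · exact disjoint_left.1 (hB i hi j hj hij) hx (mem_of_mem_erase k)
  let φ : Cfg V →+ (I → V × V → ℤ) := AddMonoidHom.pi fun i => flH (C i.1)
  have hφ : ∀ s t, φ s = φ t ↔ ∀ i ∈ I, flH (C i) s = flH (C i) t := fun s t =>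
    ⟨fun k i hi => congrFun k ⟨i, hi⟩, fun k => funext fun i => k i.1 i.2⟩
  have hφ0 : ∀ s, ind (φ s = 0) = ∏ i ∈ I, ind (Fl (C i) s) := fun s => by
    rw [← ind_forall, ← map_zero φ]
    exact ind_congr ((hφ s 0).trans (by simp only [map_zero, fl_iff]))
  have hpr : ∀ (K : ι → Cfg V → ℝ), (∀ i ∈ I, DepG (N i) (K i)) → ∀ s,
      ∏ i ∈ I, K i (prj I N r s) = ∏ i ∈ I, K i s := fun K hK s => prod_congr rfl fun i hi =>
    (hK i hi s _ (-s (r i)) fun x hx => by rw [Cut7.prj_mem hB hi hx]; ring).symm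
  have e0 : ∀ s, Real.exp ((∑ i ∈ I, f i) s) * ∏ i ∈ I, F i s =
      ∏ i ∈ I, F i s * Real.exp (f i s) := fun s => by
    rw [AddMonoidHom.finsetSum_apply, Real.exp_sum, prod_mul_distrib, mul_comm]
  have dK : ∀ i ∈ I, DepG (N i) fun s => F i s * Real.exp (f i s) := fun i hi s t k hk => by
    simp only [((hF i hi).1.mono (h i hi).2) s t k hk, (hF i hi).2.2.1 s t k hk]
  have dL : ∀ i ∈ I, DepG (N i) fun s => ind (Fl (C i) s) := fun i hi =>
    (depG_fl _).mono (h i hi).2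
  have wi : ∀ i ∈ I, Wt (rW m (N i)) := fun i hi => (rW_cen hc.1 (h i hi).1.cn (hn i hi)).wt
  have r0 : ∀ U : Finset V, rWs m U 0 = rW m U := fun U => (Mdl.W_eq_Ws _ _).symm
  have p1 := hP σ _ (fun i hi => (dK i hi).dep) fun i hi => (hF i hi).2.2.2
  have p2 := hP 0 _ (fun i hi => (dL i hi).dep) fun i hi => by rw [r0]; exact (wi i hi).ig_ind _
  simp only [r0, ← Mdl.W_eq_Ws] at p2
  obtain ⟨k1, k2⟩ := proj_dat (m' := m.ncut I N r) hc ha
    (anch_ncut hB fun i hi => anch_nbox fun x hx => (h i hi).1.cn x hx _ (hr i hi))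
    (Cut7.prjH I N r) (ncut_sub m) (fun _ _ => rfl) (fun _ _ _ => rfl)
    (fun s => ⟨prj_off hB m s, fun e he => by
      obtain ⟨i, hi, he⟩ := mem_biUnion.1 he
      rw [Cut7.prjH_apply, dE, dE, Cut7.prj_mem hB hi (mem_filter.1 he).2.1,
        Cut7.prj_mem hB hi (mem_filter.1 he).2.2, sub_sub_sub_cancel_right]⟩)
    φ σ (∑ i ∈ I, f i) (F := fun s => ∏ i ∈ I, F i s)
    (fun t => prod_nonneg fun i hi => (hF i hi).2.1 t)
    (fun s t k => prod_congr rfl fun i hi => depG_of_flH (hF i hi).1 ((hφ s t).1 k i hi))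
    (by simp only [e0]; exact p1.summable)
  simp only [e0, hφ0, Cut7.prjH_apply, hpr _ dK, hpr _ dL] at k1 k2
  refine ⟨k1, ?_⟩
  have w0 := Md.ctr_wt hc ha 0
  rw [p1.tsum_eq, p2.tsum_eq, w0.tsum_eq fun s => ∏ i ∈ I, ind (Fl (C i) s)] at k2
  have d := (d1Stmt V ι m I N C S (fun i s => ind (Fl (C i) s)) hc ha hB fun i hi =>
    ⟨(h i hi).1, (h i hi).2, depG_fl _, fun _ => ind_nonneg _, (wi i hi).ig_ind _⟩).2
  have p0 : 0 < ∏ i ∈ I, Pr (rW m (N i)) (Fl (C i)) :=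
    prod_pos fun i hi => pr_fl_pos hc.1 (h i hi).1.cn (hn i hi) _
  have z1 : ∏ i ∈ I, ∑' s, rW m (N i) s * ind (Fl (C i) s) =
      (∏ i ∈ I, Pr (rW m (N i)) (Fl (C i))) * ∏ i ∈ I, Zs (rW m (N i)) := by
    rw [← prod_mul_distrib]
    exact prod_congr rfl fun i hi => by rw [(wi i hi).tsum_eq, mul_comm]; rfl
  have z2 : ∏ i ∈ I, ∑' s, rWs m (N i) σ s * (F i s * Real.exp (f i s)) =
      (∏ i ∈ I, zx (fr m (N i)) σ fun s => F i s * Real.exp (f i s)) * ∏ i ∈ I, Zs (rW m (N i)) := by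
    rw [← prod_mul_distrib]
    exact prod_congr rfl fun i hi => (div_mul_cancel₀ _ (wi i hi).pos.ne').symm
  have P0 : 0 < ∏ i ∈ I, Zs (rW m (N i)) := prod_pos fun i hi => (wi i hi).pos
  have X0 : 0 ≤ ∏ i ∈ I, zx (fr m (N i)) σ fun s => F i s * Real.exp (f i s) :=
    prod_nonneg fun i hi => zx_nonneg (fr_ctr hc.1 _) σ fun s =>
      mul_nonneg ((hF i hi).2.1 s) (Real.exp_pos _).le
  rw [z1, z2] at k2
  simp only [prod_mul_distrib (f := fun i => cr m (N i) (C i) (S i)), nE] at d ⊢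
  rw [zx, div_le_iff₀ w0.pos]
  refine le_of_mul_le_mul_right (k2.trans ?_) (mul_pos p0 P0)
  have := mul_le_mul_of_nonneg_left d (mul_nonneg (mul_nonneg X0 P0.le) w0.pos.le)
  simp only [Pr] at this ⊢
  linarith

/-- without a force -/
theorem td1c {ι : Type} {I : Finset ι} {N C S : ι → Finset V} (hc : m.Ctr) (ha : m.Anch)
    (hB : ∀ i ∈ I, ∀ j ∈ I, i ≠ j → Disjoint (N i) (N j))
    (h : ∀ i ∈ I, Box m (N i) (S i) ∧ C i ⊆ N i) (σ : V × V → ℤ) {F : ι → Cfg V → ℝ}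
    (hF : ∀ i ∈ I, DepG (C i) (F i) ∧ (∀ s, 0 ≤ F i s) ∧ Ig (rWs m (N i) σ) (F i)) :
    Ig (m.Ws 0 σ) (fun s => ∏ i ∈ I, F i s) ∧ zx m σ (fun s => ∏ i ∈ I, F i s) ≤
      ∏ i ∈ I, cr m (N i) (C i) (S i) * zx (fr m (N i)) σ (F i) := by
  simpa using td1b hc ha hB h σ (F := F) (f := fun _ => 0) fun i hi =>
    ⟨(hF i hi).1, (hF i hi).2.1, fun _ _ _ _ => rfl, by simpa using (hF i hi).2.2⟩

/-- a connected set is a block with empty interior -/
theorem box_self {N : Finset V} (hN : Cn m N) (hn : N.Nonempty) : Box m N N :=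
  ⟨hN, Subset.rfl, hn, by rw [sdiff_self]; exact ⟨empty_subset _, fun _ h => absurd h (notMem_empty _)⟩,
    by rw [sdiff_self]; intro x hx; simp [Mdl.bd, Mdl.edM] at hx⟩

end Crest.Agent.T145.Tw
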