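import Crest.Agent.T145.VxCal_48
import Crest.Agent.T145.VdNe_27

/-!
# Row 145, twisted module (helper63): the diagonal symmetry of a free box with one vortex core

Swap + negation maps the seam `ray z` to a gauge transform of itself.
-/

set_option autoImplicit false

open Finset

noncomputable section

namespace Crest.Agent.T145.Tw

open Vd (ray)

/-- the swapped edge -/
def swE (z : Pt) (e : Pt × Pt) : Pt × Pt := (swpZ z e.1, swpZ z e.2)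

theorem swpZ_swpZ (z x : Pt) : swpZ z (swpZ z x) = x := (swpZ z).left_inv x

theorem swE_swE (z : Pt) (e : Pt × Pt) : swE z (swE z e) = e := by simp [swE, swpZ_swpZ]

theorem swpZ_self (z : Pt) : swpZ z z = z := by ext <;> simp [swpZ]

theorem swpZ_bl {z x : Pt} {R : ℕ} (hx : x ∈ bl z R) : swpZ z x ∈ bl z R := by
  rw [mem_bl] at hx ⊢
  simp only [swpZ, Equiv.coe_fn_mk]
  omega

/-- the part of `B` outside the quadrant at `z` -/
def qd (z : Pt) (B : Finset Pt) : Cfg Pt := cst (B.filter fun x => ¬ (z.1 ≤ x.1 ∧ z.2 ≤ x.2)) 1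

/-- swap, negate, gauge -/
def sw (z : Pt) (B : Finset Pt) (s : Cfg Pt) : Cfg Pt := qd z B - mapH (swpZ z).symm s

variable {Λ : Lat} {z : Pt} {B : Finset Pt}

theorem sw_apply (s : Cfg Pt) (x : Pt) : sw z B s x =
    (if x ∈ B ∧ ¬ (z.1 ≤ x.1 ∧ z.2 ≤ x.2) then 1 else 0) - s (swpZ z x) := by
  simp only [sw, qd, Finsupp.sub_apply, cst_apply, mem_filter, mapH_apply, Equiv.symm_symm]

theorem mem_sw (hB : ∀ x ∈ B, swpZ z x ∈ B) {x : Pt} : swpZ z x ∈ B ↔ x ∈ B :=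
  ⟨fun h => swpZ_swpZ z x ▸ hB _ h, hB x⟩

theorem sw_sw (hB : ∀ x ∈ B, swpZ z x ∈ B) (s : Cfg Pt) : sw z B (sw z B s) = s := by
  ext x
  rw [sw_apply, sw_apply, swpZ_swpZ]
  have : (z.1 ≤ (swpZ z x).1 ∧ z.2 ≤ (swpZ z x).2) ↔ (z.1 ≤ x.1 ∧ z.2 ≤ x.2) := by
    simp only [swpZ, Equiv.coe_fn_mk]; omega
  simp only [this, mem_sw hB]
  ring

theorem mem_Jp_nn (hJ : Λ.J = nn) {y : Pt} : y ∈ Λ.Jp ↔ y = (1, 0) ∨ y = (0, 1) := by
  obtain ⟨a, b⟩ := y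
  simp only [Lat.Jp, hJ, nn, mem_filter, mem_insert, mem_singleton, posD, Prod.mk.injEq]
  omega

theorem swE_mem (hJ : Λ.J = nn) (hB : ∀ x ∈ B, swpZ z x ∈ B) {e : Pt × Pt} (he : e ∈ Λ.edI B) :
    swE z e ∈ Λ.edI B := by
  rw [Lat.mem_edI, mem_Jp_nn hJ] at he ⊢
  refine ⟨?_, hB _ he.2.1, hB _ he.2.2⟩
  have h := he.1
  simp only [swE, swpZ, Equiv.coe_fn_mk, Prod.ext_iff, Prod.fst_sub, Prod.snd_sub] at h ⊢
  omega

theorem nE_sw (hJ : Λ.J = nn) {e : Pt × Pt} (he : e ∈ Λ.edI B) (s : Cfg Pt) :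
    nE (ray z) e (sw z B s) = -nE (ray z) (swE z e) s := by
  rw [Lat.mem_edI, mem_Jp_nn hJ] at he
  obtain ⟨h, h1, h2⟩ := he
  simp only [nE, dE, sw_apply, h1, h2, true_and, swE]
  have : (ray z e : ℤ) + ray z (swpZ z e.1, swpZ z e.2) =
      (if ¬ (z.1 ≤ e.1.1 ∧ z.2 ≤ e.1.2) then 1 else 0) -
        if ¬ (z.1 ≤ e.2.1 ∧ z.2 ≤ e.2.2) then 1 else 0 := by
    simp only [ray, swpZ, Equiv.coe_fn_mk, Prod.ext_iff, Prod.fst_sub, Prod.snd_sub] at h ⊢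
    split_ifs <;> omega
  linarith

theorem Ws_sw (h : Λ.Ok) (hJ : Λ.J = nn) (hB : ∀ x ∈ B, swpZ z x ∈ B) (s : Cfg Pt) :
    (Λ.Nr B z).Ws 0 (ray z) (sw z B s) = (Λ.Nr B z).Ws 0 (ray z) s := by
  have h1 : ∀ s : Cfg Pt, (∀ x, x ∉ B.erase z → s x = (0 : Cfg Pt) x) →
      ∀ x, x ∉ B.erase z → sw z B s x = (0 : Cfg Pt) x := fun s hs x hx => by
    have a1 : swpZ z x ∉ B.erase z := fun hh => hx (by
      rw [mem_erase] at hh ⊢
      exact ⟨fun e => hh.1 (by rw [e, swpZ_self]), (mem_sw hB).1 hh.2⟩)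
    rw [sw_apply, hs _ a1, if_neg]
    · simp
    · rintro ⟨a2, a3⟩
      by_cases e : x = z
      · exact a3 (by simp [e])
      · exact hx (mem_erase.2 ⟨e, a2⟩)
  change ind (∀ x, x ∉ B.erase z → _) * (∏ e ∈ Λ.edI B, Λ.w (nE (ray z) e (sw z B s))) * _ =
    ind (∀ x, x ∉ B.erase z → _) * (∏ e ∈ Λ.edI B, Λ.w (nE (ray z) e s)) * _
  rw [ind_congr ⟨fun hs => sw_sw hB s ▸ h1 _ hs, h1 s⟩]
  congr 2
  refine prod_bij' (fun e _ => swE z e) (fun e _ => swE z e) (fun e he => swE_mem hJ hB he)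
    (fun e he => swE_mem hJ hB he) (fun e _ => swE_swE z e) (fun e _ => swE_swE z e) fun e he => ?_
  rw [nE_sw hJ he, h.fam.even]

/-- invariance of the twisted free box under `sw` -/
theorem ex_sw (h : Λ.Ok) (hJ : Λ.J = nn) (hB : ∀ x ∈ B, swpZ z x ∈ B) (F : Cfg Pt → ℝ) :
    Ex ((Λ.Nr B z).Ws 0 (ray z)) (fun s => F (sw z B s)) = Ex ((Λ.Nr B z).Ws 0 (ray z)) F := by
  unfold Ex
  congr 1
  rw [← (Function.Involutive.toPerm _ (sw_sw hB)).tsum_eq fun s => (Λ.Nr B z).Ws 0 (ray z) s * F s]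
  simp only [Function.Involutive.coe_toPerm, Ws_sw h hJ hB]

/-- a swap symmetric linear functional of the currents has mean zero -/
theorem ex_Yf (h : Λ.Ok) (hJ : Λ.J = nn) (hB : ∀ x ∈ B, swpZ z x ∈ B) {T : Finset (Pt × Pt)}
    (hT : T ⊆ Λ.edI B) (hT' : ∀ e ∈ T, swE z e ∈ T) {ψ : Pt × Pt → ℝ} (hψ : ∀ e ∈ T, ψ (swE z e) = ψ e) :
    Ex ((Λ.Nr B z).Ws 0 (ray z)) (Inf48.Yf T ψ (ray z)) = 0 := by
  have h1 := ex_sw h hJ hB (Inf48.Yf T ψ (ray z))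
  have h2 : (fun s => Inf48.Yf T ψ (ray z) (sw z B s)) = fun s => -Inf48.Yf T ψ (ray z) s := by
    funext s
    simp only [Inf48.Yf, ← sum_neg_distrib]
    refine sum_bij' (fun e _ => swE z e) (fun e _ => swE z e) (fun e he => hT' e he)
      (fun e he => hT' e he) (fun e _ => swE_swE z e) (fun e _ => swE_swE z e) fun e he => ?_
    rw [nE_sw hJ (hT he), hψ e he]
    push_cast
    ring
  rw [h2, Ex_neg] at h1
  linarith

end Crest.Agent.T145.Tw
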