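import Crest.Agent.T145.ApiL_98
import Crest.Agent.T145.MdlD_73
import Crest.Agent.T145.CorB_59
import Crest.Agent.T145.Def2_97

/-!
# Row 145, UV lemma, abstract part (helper49): Hölder over colours, Dirichlet decoupling, second order
-/

set_option autoImplicit false

namespace Crest.Agent.T145.Uv

open Finset

theorem exp_neg_le {x : ℝ} (hx : 0 ≤ x) : Real.exp (-x) ≤ 1 - x + x ^ 2 / 2 := by
  have h1 := Real.quadratic_le_exp_of_nonneg hx
  have h2 : 0 < 1 + x + x ^ 2 / 2 := by positivity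
  rw [Real.exp_neg, inv_le_comm₀ (Real.exp_pos _) (by nlinarith [sq_nonneg (x - 1)])]
  refine le_trans ?_ h1
  rw [inv_le_iff_one_le_mul₀ (by nlinarith [sq_nonneg (x - 1)])]
  nlinarith [sq_nonneg (x ^ 2)]

section grp
variable {L : Type} [AddCommGroup L] {ρ : L → ℝ}

/-- second order upper bound for one Gaussian factor -/
theorem log_one (h : Cen ρ) (f : L →+ ℝ) {p : ℝ} (hp : 0 ≤ p) :
    Real.log (Ex ρ fun s => Real.exp (-(p * f s ^ 2 / 2))) ≤
      -(p * Vr ρ f f / 2) + p ^ 2 * Ex ρ (fun s => f s ^ 4) / 8 := by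
  have b : ∀ s, |Real.exp (-(p * f s ^ 2 / 2))| ≤ 1 := fun s => by
    rw [abs_of_pos (Real.exp_pos _), Real.exp_le_one_iff]
    have : 0 ≤ p * f s ^ 2 / 2 := by positivity
    linarith
  have i2 := h.ig ((Tame.hom f).pow 2)
  have i4 := h.ig ((Tame.hom f).pow 4)
  refine (Real.log_le_sub_one_of_pos (h.wt.ex_pos' (h.wt.ig_bdd b) fun s => Real.exp_pos _)).trans ?_
  have : Ex ρ (fun s => Real.exp (-(p * f s ^ 2 / 2))) ≤
      Ex ρ fun s => (1 - p / 2 * f s ^ 2) + p ^ 2 / 8 * f s ^ 4 :=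
    Ex_mono h.nonneg (h.wt.ig_bdd b) (((h.wt.ig_const 1).sub (i2.const_mul _)).add (i4.const_mul _))
      fun s => (exp_neg_le (by positivity)).trans_eq (by ring)
  rw [Ex_add ((h.wt.ig_const 1).sub (i2.const_mul _)) (i4.const_mul _),
    Ex_sub (h.wt.ig_const 1) (i2.const_mul _), h.wt.ex_const, Ex_const_mul, Ex_const_mul] at this
  have e : Vr ρ f f = Ex ρ fun s => f s ^ 2 := by rw [h.Vr_eq]; simp only [sq]
  rw [e]; linarith

/-- Jensen -/
theorem le_log_gq (h : Cen ρ) {ι : Type*} (T : Finset ι) (ℓ : ι → L →+ ℝ) :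
    -(∑ c ∈ T, Vr ρ (ℓ c) (ℓ c)) / 2 ≤ Real.log (Ex ρ (gq T ℓ)) := by
  have i : ∀ c ∈ T, Ig ρ fun s => ℓ c s ^ 2 := fun c _ => h.ig ((Tame.hom _).pow 2)
  have := h.wt.ex_le_log (F := fun s => -(∑ j ∈ T, ℓ j s ^ 2) / 2) ((Ig.sum T i).neg.div_const 2)
    (h.ig (Tame.gq T ℓ))
  rw [Ex_div_const, Ex_neg, Ex_sum T i] at this
  refine le_of_eq_of_le ?_ this
  congr 2
  exact sum_congr rfl fun c _ => by rw [h.Vr_eq]; simp only [sq]

theorem gq_smul {ι : Type*} (T : Finset ι) (ℓ : ι → L →+ ℝ) {p : ℝ} (hp : 0 ≤ p) (s : L) :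
    gq T (fun c => Real.sqrt p • ℓ c) s = Real.exp (-(p * ∑ c ∈ T, ℓ c s ^ 2) / 2) := by
  simp only [gq, AddMonoidHom.smul_apply, smul_eq_mul, mul_pow, Real.sq_sqrt hp, mul_sum]

theorem gq_mono {ι : Type*} {T T' : Finset ι} (hT : T ⊆ T') (ℓ : ι → L →+ ℝ) (s : L) :
    gq T' ℓ s ≤ gq T ℓ s := by
  unfold gq
  have := sum_le_sum_of_subset_of_nonneg (f := fun j => ℓ j s ^ 2) hT fun _ _ _ => sq_nonneg _
  exact Real.exp_le_exp.2 (by linarith)

end grp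

variable {V : Type} [DecidableEq V] {m : Mdl V}

/-- one colour: Dirichlet decoupling -/
theorem one_colour (hc : m.Ctr) (ha : m.Anch) {C : Type} (T : Finset C) (ℓ : C → Cfg V →+ ℝ)
    (B : C → Finset V) (hB : ∀ c ∈ T, B c ⊆ m.A) (hdep : ∀ c ∈ T, Dep (B c) (ℓ c))
    (hsep : ∀ c ∈ T, ∀ c' ∈ T, c ≠ c' → Md.Sep m (B c) (B c')) {p : ℝ} (hp : 0 ≤ p) :
    Real.log (Ex (m.W 0) fun s => Real.exp (-(p * ∑ c ∈ T, ℓ c s ^ 2) / 2)) ≤
      ∑ c ∈ T, (-(p * Vr ((m.free (B c)).W 0) (ℓ c) (ℓ c) / 2) +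
        p ^ 2 * Ex ((m.free (B c)).W 0) (fun s => ℓ c s ^ 4) / 8) := by
  have cen : ∀ c ∈ T, Cen ((m.free (B c)).W 0) := fun c hc' =>
    Md.ctr_cen (Md.ctr_free hc (hB c hc')) (Md.anch_free ha (hB c hc'))
  have b : ∀ c s, |Real.exp (-(p * ℓ c s ^ 2 / 2))| ≤ 1 := fun c s => by
    rw [abs_of_pos (Real.exp_pos _), Real.exp_le_one_iff]
    have : 0 ≤ p * ℓ c s ^ 2 / 2 := by positivity
    linarith
  have hU : T.biUnion B ⊆ m.A := biUnion_subset.2 hB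
  have h1 := (Md.loc_free hc ha hU).ex_gq T fun c => Real.sqrt p • ℓ c
  have h2 := (Md.ex_prod hc.1 T B 0 (F := fun c s => Real.exp (-(p * ℓ c s ^ 2 / 2))) hsep
    (fun c hc' s t h => by
      rw [hdep c hc' s t fun x hx => h x fun j hj hjc hxj =>
        disjoint_left.1 (hsep c hc' j hj hjc.symm).1 hx hxj])
    (fun c hc' => (cen c hc').wt.summ) fun c hc' => (cen c hc').wt.ig_bdd (b c)).2.2
  have e : ∀ s, ∏ c ∈ T, Real.exp (-(p * ℓ c s ^ 2 / 2)) = gq T (fun c => Real.sqrt p • ℓ c) s :=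
    fun s => by
      rw [gq_smul T ℓ hp, ← Real.exp_sum, mul_sum, ← sum_neg_distrib, sum_div]
      exact congrArg _ (sum_congr rfl fun c _ => by ring)
  simp only [e] at h2
  have hpos : ∀ c ∈ T, 0 < Ex ((m.free (B c)).W 0) fun s => Real.exp (-(p * ℓ c s ^ 2 / 2)) :=
    fun c hc' => (cen c hc').wt.ex_pos' ((cen c hc').wt.ig_bdd (b c)) fun s => Real.exp_pos _
  have cm := Md.ctr_cen hc ha
  simp only [← gq_smul T ℓ hp]
  refine (Real.log_le_log (cm.wt.ex_pos' (cm.ig (Tame.gq _ _)) fun s => gq_pos _ _ s)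
    (h1.trans_eq h2)).trans ?_
  rw [Real.log_prod fun c hc' => (hpos c hc').ne']
  exact sum_le_sum fun c hc' => log_one (cen c hc') (ℓ c) hp

/-- **UVA**: Hölder over the colours -/
theorem uva (hc : m.Ctr) (ha : m.Anch) {C κ : Type} [DecidableEq κ] (T : Finset C)
    (ℓ : C → Cfg V →+ ℝ) (B : C → Finset V) (col : C → κ) (K : Finset κ) (θ : κ → ℝ)
    (hθ : ∀ k ∈ K, 0 < θ k) (h1 : ∑ k ∈ K, θ k ≤ 1) (hcol : ∀ c ∈ T, col c ∈ K)
    (hB : ∀ c ∈ T, B c ⊆ m.A) (hdep : ∀ c ∈ T, Dep (B c) (ℓ c))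
    (hsep : ∀ c ∈ T, ∀ c' ∈ T, c ≠ c' → col c = col c' → Md.Sep m (B c) (B c')) :
    Real.log (Ex (m.W 0) (gq T ℓ)) ≤
      ∑ c ∈ T, (-(Vr ((m.free (B c)).W 0) (ℓ c) (ℓ c) / 2) +
        Ex ((m.free (B c)).W 0) (fun s => ℓ c s ^ 4) / (8 * θ (col c))) := by
  have cm := Md.ctr_cen hc ha
  set Φ : κ → Cfg V → ℝ := fun k s => -((θ k)⁻¹ * ∑ c ∈ T with col c = k, ℓ c s ^ 2) / 2 with hΦ
  have bΦ : ∀ k ∈ K, ∀ s, |Real.exp (Φ k s)| ≤ 1 := fun k hk s => by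
    rw [abs_of_pos (Real.exp_pos _), Real.exp_le_one_iff]
    have : 0 ≤ (θ k)⁻¹ * ∑ c ∈ T with col c = k, ℓ c s ^ 2 :=
      mul_nonneg (inv_pos.2 (hθ k hk)).le (sum_nonneg fun _ _ => sq_nonneg _)
    simp only [hΦ]; linarith
  have H := (cm.wt.holder_exp (insertNone K) (fun o => o.elim (1 - ∑ k ∈ K, θ k) θ)
    (fun o => o.elim (fun _ => 0) Φ)
    (by
      rintro (_ | k) hk
      · exact sub_nonneg.2 h1
      · exact (hθ k (by simpa using hk)).le)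
    (by simp [sum_insertNone])
    (by
      rintro (_ | k) hk
      · exact cm.wt.ig_const (Real.exp 0)
      · exact cm.wt.ig_bdd (bΦ k (by simpa using hk)))).2
  simp only [sum_insertNone, Option.elim, mul_zero, zero_add, Real.exp_zero, cm.wt.ex_const,
    Real.log_one] at H
  have e : ∀ s, Real.exp (∑ k ∈ K, θ k * Φ k s) = gq T ℓ s := fun s => by
    rw [gq, ← sum_fiberwise_of_maps_to hcol, ← sum_neg_distrib, sum_div]
    refine congrArg _ (sum_congr rfl fun k hk => ?_)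
    have := (hθ k hk).ne'
    simp only [hΦ]; field_simp
  simp only [e] at H
  refine H.trans ?_
  rw [← sum_fiberwise_of_maps_to hcol]
  refine sum_le_sum fun k hk => ?_
  have h0 := hθ k hk
  have := one_colour hc ha (T.filter fun c => col c = k) ℓ B (fun c h => hB c (mem_filter.1 h).1)
    (fun c h => hdep c (mem_filter.1 h).1) (fun c h c' h' hn => hsep c (mem_filter.1 h).1 c'
      (mem_filter.1 h').1 hn ((mem_filter.1 h).2.trans (mem_filter.1 h').2.symm)) (inv_pos.2 h0).le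
  refine (mul_le_mul_of_nonneg_left this h0.le).trans_eq ?_
  rw [mul_sum]
  refine sum_congr rfl fun c h => ?_
  rw [(mem_filter.1 h).2]
  field_simp

end Crest.Agent.T145.Uv
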