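import Crest.Agent.T145.UvC_49

/-!
# Row 145, UV lemma: concentration of the band energy for a general ambient weight (helper49)
-/

set_option autoImplicit false

namespace Crest.Agent.T145.Uv

open Finset

variable {Λ : Lat} {G : Type} [AddCommGroup G] {ρ : G → ℝ} {π : G →+ Cfg Pt} {Ω Ω' : Finset Pt}

/-- UVA for an ambient weight -/
theorem GA.uva (hA : GA Λ ρ π Ω Ω') (hΛ : Λ.Ok) {C κ : Type} [DecidableEq κ] (T : Finset C)
    (ℓ : C → Cfg Pt →+ ℝ) (B : C → Finset Pt) (col : C → κ) (K : Finset κ) (θ : κ → ℝ)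
    (hθ : ∀ k ∈ K, 0 < θ k) (h1 : ∑ k ∈ K, θ k ≤ 1) (hcol : ∀ c ∈ T, col c ∈ K)
    (hB : ∀ c ∈ T, B c ⊆ Ω) (hdep : ∀ c ∈ T, Dep (B c) (ℓ c))
    (hsep : ∀ c ∈ T, ∀ c' ∈ T, c ≠ c' → col c = col c' → ∀ x ∈ B c, ∀ y ∈ B c', y ∉ bl x Λ.rg) :
    Real.log (Ex ρ (gq T fun c => (ℓ c).comp π)) ≤
      ∑ c ∈ T, (-(Vr ((Λ.D (B c)).W 0) (ℓ c) (ℓ c) / 2) +
        Ex ((Λ.D (B c)).W 0) (fun s => ℓ c s ^ 4) / (8 * θ (col c))) := by
  classical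
  refine (holder_col hA.cen.wt T (fun c a => ℓ c (π a) ^ 2) (fun _ _ => sq_nonneg _) col K θ hθ h1
    hcol).trans ?_
  rw [← sum_fiberwise_of_maps_to hcol]
  refine sum_le_sum fun k hk => ?_
  have hk0 := hθ k hk
  have hp : 0 ≤ (θ k)⁻¹ := (inv_pos.2 hk0).le
  set S := T.filter fun c => col c = k with hS
  have hT : ∀ c ∈ S, c ∈ T := fun c hc => (mem_filter.1 hc).1
  have hU : ∀ c ∈ S, B c ⊆ S.biUnion B := fun c hc => subset_biUnion_of_mem B hc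
  have h2 := hA.up (S.biUnion B) (biUnion_subset.2 fun c hc => hB c (hT c hc))
    (gq S fun c => Real.sqrt (θ k)⁻¹ • ℓ c) (pd_gq _ _) fun s s' h => by
      rw [gq_smul S ℓ hp, gq_smul S ℓ hp, sum_congr rfl fun c hc => by
        rw [hdep c (hT c hc) s s' fun x hx => h x (hU c hc hx)]]
  have h3 := one_colour (hΛ.ctr_D (S.biUnion B)) (hΛ.anch_D _) S ℓ B hU (fun c hc => hdep c (hT c hc))
    (fun c hc c' hc' hne => by
      have H := hsep c (hT c hc) c' (hT c' hc') hne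
        ((mem_filter.1 hc).2.trans (mem_filter.1 hc').2.symm)
      refine ⟨disjoint_left.2 fun x hx hx' => H x hx x hx' (self_mem_bl _ _), fun e he => ?_⟩
      have := (Lat.mem_edT.1 he).1
      exact ⟨fun h h' => H _ h _ h' (Lat.edge_near this), fun h h' => H _ h _ h' (Lat.edge_near' this)⟩) hp
  simp only [funext (gq_smul S ℓ hp)] at h2
  have h4 := (Real.log_le_log (hA.cen.wt.ex_pos' (hA.cen.wt.ig_bdd (C := 1) fun a => by
    rw [abs_of_pos (Real.exp_pos _), Real.exp_le_one_iff]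
    have : 0 ≤ (θ k)⁻¹ * ∑ c ∈ S, ℓ c (π a) ^ 2 := mul_nonneg hp (sum_nonneg fun _ _ => sq_nonneg _)
    linarith) fun _ => Real.exp_pos _) h2).trans h3
  refine (mul_le_mul_of_nonneg_left h4 hk0.le).trans_eq ?_
  rw [mul_sum]
  refine sum_congr rfl fun c hc => ?_
  have pp := (Lat.near_D (hU c hc)).pp hΛ (hΛ.ctr_D _).1 0
  rw [pp.Vr, pp.ex, (mem_filter.1 hc).2]
  field_simp

/-- the constant of the UV lemma -/
noncomputable def cU (Λ : Lat) : ℝ := 10 ^ 5 * Real.exp Λ.τ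

theorem sep_col {I : Finset Pt} {c : ℕ} {Jv : Finset ℕ} (hJ : ∀ j ∈ Jv, j < c)
    (hd : ∀ a ∈ I, ∀ b ∈ I, a ≠ b → Disjoint (sq a (2 ^ c)) (sq b (2 ^ c))) {t t' : Ix}
    (ht : t ∈ terms I c Jv) (ht' : t' ∈ terms I c Jv) (hne : t ≠ t') (hj : t.2.1 = t'.2.1) :
    Disjoint (sq (cor t) (2 ^ t.2.1)) (sq (cor t') (2 ^ t.2.1)) := by
  obtain ⟨a, j, i⟩ := t
  obtain ⟨a', j', i'⟩ := t'
  obtain rfl : j = j' := hj
  obtain ⟨h1, h2, h3⟩ := mem_terms.1 ht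
  obtain ⟨h1', -, h3'⟩ := mem_terms.1 ht'
  by_cases h : a = a'
  · subst h
    refine disjoint_left.2 fun x hx hx' => hne ?_
    rw [cor, mem_tile_iff (by positivity)] at hx hx'
    obtain rfl : i = i' := hx.symm.trans hx'
    rfl
  · exact (hd a h1 a' h1' h).mono (child_sub_top (hJ _ h2).le h3) (child_sub_top (hJ _ h2).le h3')

/-- one good term -/
theorem GA.term (hA : GA Λ ρ π Ω Ω') (hR : R1Stmt) (hD : Nc.LD1Stmt) (hΛ : Λ.Ok) {μ η θ : ℝ}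
    (hμ : 0 ≤ μ) {t : Ix} {r R : ℕ} (h1 : 2 ^ (t.2.1 + 1) ≤ r) (h2 : r + 2 * Λ.rg ≤ R) (hη : 0 < η)
    (hg : Nc.gam Λ r R ≤ 1 + η ^ 2) (hθ : 0 < θ) (hB : bl (cor t) R ⊆ Ω) :
    -(Vr ((Λ.D (bl (cor t) R)).W 0) (hl μ t) (hl μ t) / 2) +
        Ex ((Λ.D (bl (cor t) R)).W 0) (fun s => hl μ t s ^ 4) / (8 * θ) ≤
      -(Vr ρ ((hl μ t).comp π) ((hl μ t).comp π) / 2) + ((2 : ℝ) ^ t.2.1) ^ 2 *
        (cU Λ * (μ * η + μ ^ 2 * (((2 : ℝ) ^ t.2.1) ^ 2 / (16 * θ)))) := by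
  have hs : sq (tile t.1 (2 ^ (t.2.1 + 1)) (par t.2.2)) (2 ^ (t.2.1 + 1)) ⊆ bl (cor t) r :=
    (par_sub_bl t.1 t.2.1 t.2.2).trans (bl_mono _ h1)
  have hs' : bl (cor t) r ⊆ bl (cor t) R := bl_mono _ (by omega)
  have hf : F2 (Λ.edI (bl (cor t) R)) (hf t.1 t.2.1 t.2.2) 32 :=
    (hf_flow hR hΛ _ _ _).subset (Lat.edI_mono (hs.trans hs'))
  have g := gap hD hΛ h2 (fun x hx => hf_off fun h => hx (hs h)) (sum_hf hs) hf hη hg
  have hs2 := hs.trans (hs'.trans (bl_eq_sq _ _).subset)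
  have l := hA.lo ((cor t).1 - R, (cor t).2 - R) (2 * R + 1) (by omega)
    ((bl_eq_sq _ _).superset.trans (hB.trans hA.sub)) (Uv.hf t.1 t.2.1 t.2.2)
    (fun x hx => hf_off fun h => hx (hs2 h)) (sum_hf hs2)
  have z : pr (Uv.hf t.1 t.2.1 t.2.2) (cst (bl (cor t) R) 1) = 0 := by
    rw [pr_cst_one, sum_hf (hs.trans hs')]
  rw [← bl_eq_sq, Lat.Vr_Nr_root ((bl_eq_sq _ _).superset (self_mem_sq _ (by omega))) (self_mem_bl _ _) z z] at l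
  have q := (hf.f2a _).four_le hΛ.pos (hΛ.ctr_D (bl (cor t) R)) (hΛ.anch_D _)
    (Lat.edI_subset_edT _) fun _ _ => rfl
  have e1 := vr_hl ((Λ.D (bl (cor t) R)).W 0) (AddMonoidHom.id _) hμ t
  simp only [AddMonoidHom.comp_id] at e1
  have e2 : Ex ((Λ.D (bl (cor t) R)).W 0) (fun s => hl μ t s ^ 4) = (μ * ((2 : ℝ) ^ t.2.1) ^ 2) ^ 2 *
      Ex ((Λ.D (bl (cor t) R)).W 0) fun s => pr (Uv.hf t.1 t.2.1 t.2.2) s ^ 4 := by
    rw [← Ex_const_mul]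
    refine congrArg _ (funext fun s => ?_)
    have : Real.sqrt μ ^ 4 = μ ^ 2 := by rw [show 4 = 2 * 2 from rfl, pow_mul, Real.sq_sqrt hμ]
    simp only [hl, AddMonoidHom.smul_apply, smul_eq_mul, mul_pow, this]; ring
  rw [e1, e2, vr_hl _ _ hμ, cU]
  have hE : 1 ≤ Real.exp Λ.τ := Real.one_le_exp hΛ.pos.le
  set P := ((2 : ℝ) ^ t.2.1) ^ 2
  have hP : 0 ≤ μ * P := by positivity
  have a1 := mul_le_mul_of_nonneg_left (l.trans g) hP
  have a2 := div_le_div_of_nonneg_right (mul_le_mul_of_nonneg_left q (sq_nonneg (μ * P)))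
    (show 0 ≤ 8 * θ by positivity)
  have a3 : (μ * P) ^ 2 * (24 * Real.exp Λ.τ * 32 ^ 2) / (8 * θ) =
      49152 * (P * (Real.exp Λ.τ * (μ ^ 2 * (P / (16 * θ))))) := by field_simp; ring
  have a4 : 0 ≤ P * (Real.exp Λ.τ * (μ ^ 2 * (P / (16 * θ)))) := by positivity
  have a5 := mul_le_mul_of_nonneg_left hE (mul_nonneg hP hη.le)
  have a6 := mul_nonneg hP hη.le
  nlinarith

/-- **UV**, general form -/
theorem GA.uvg (hA : GA Λ ρ π Ω Ω') (hR : R1Stmt) (hD : Nc.LD1Stmt) (hΛ : Λ.Ok) {I : Finset Pt} {c : ℕ}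
    {Jv : Finset ℕ} (hJ : ∀ j ∈ Jv, j < c) (hv : ∀ t ∈ terms I c Jv,
      Vr ρ ((pr (hf t.1 t.2.1 t.2.2)).comp π) ((pr (hf t.1 t.2.1 t.2.2)).comp π) ≤ Λ.τ * 32)
    (hd : ∀ a ∈ I, ∀ b ∈ I, a ≠ b → Disjoint (sq a (2 ^ c)) (sq b (2 ^ c))) {μ : ℝ} (hμ : 0 ≤ μ)
    {r R : ℕ → ℕ} {η w : ℕ → ℝ} (h : ∀ j ∈ Jv, 2 ^ (j + 1) ≤ r j ∧ r j + 2 * Λ.rg ≤ R j ∧ 0 < η j ∧
      Nc.gam Λ (r j) (R j) ≤ 1 + η j ^ 2 ∧ 0 < w j) (hw : ∑ j ∈ Jv, w j ≤ 1) :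
    Real.log (Ex ρ (gq (terms I c Jv) fun t => (hl μ t).comp π)) ≤
      -(∑ t ∈ terms I c Jv, Vr ρ ((hl μ t).comp π) ((hl μ t).comp π)) / 2 +
        cU Λ * (μ * ∑ j ∈ Jv, bad I c Ω (2 * R j) + I.card * ((2 : ℝ) ^ c) ^ 2 *
          ∑ j ∈ Jv, (μ * η j + μ ^ 2 * ((R j : ℝ) ^ 2 / w j))) := by
  classical
  set M : ℕ → ℕ := fun j => (2 * R j + Λ.rg) / 2 ^ j + 2 with hM
  have M0 : ∀ j, (0 : ℝ) < M j := fun j => by simp only [hM]; positivity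
  set T := (terms I c Jv).filter fun t => bl (cor t) (R t.2.1) ⊆ Ω with hT
  have hJ' : ∀ t ∈ T, t.2.1 ∈ Jv := fun t ht => (mem_terms.1 (mem_filter.1 ht).1).2.1
  have hs : ∀ t ∈ T, sq (tile t.1 (2 ^ (t.2.1 + 1)) (par t.2.2)) (2 ^ (t.2.1 + 1)) ⊆
      bl (cor t) (R t.2.1) := fun t ht => (par_sub_bl _ _ _).trans (bl_mono _ (by
        have := h _ (hJ' t ht); omega))
  have H := hA.uva hΛ (κ := Σ _ : ℕ, ℤ × ℤ) T (hl μ) (fun t => bl (cor t) (R t.2.1))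
    (fun t => ⟨t.2.1, (cor t).1 / (2 ^ t.2.1 : ℕ) % M t.2.1, (cor t).2 / (2 ^ t.2.1 : ℕ) % M t.2.1⟩)
    (Jv.sigma fun j => sq 0 (M j)) (fun k => w k.1 / (M k.1 : ℝ) ^ 2)
    (fun k hk => div_pos (h _ (mem_sigma.1 hk).1).2.2.2.2 (pow_pos (M0 _) 2))
    (by
      simp only [sum_sigma, sum_const, card_sq, nsmul_eq_mul]
      refine le_of_eq_of_le (sum_congr rfl fun j _ => ?_) hw
      have := M0 j
      push_cast; field_simp)
    (fun t ht => mem_sigma.2 ⟨hJ' t ht, by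
      have : (0 : ℤ) < M t.2.1 := by exact_mod_cast M0 t.2.1
      simpa only [mem_sq, Prod.fst_zero, Prod.snd_zero, zero_add] using
        ⟨⟨Int.emod_nonneg _ this.ne', Int.emod_lt_of_pos _ this⟩, Int.emod_nonneg _ this.ne',
          Int.emod_lt_of_pos _ this⟩⟩)
    (fun t ht => (mem_filter.1 ht).2)
    (fun t ht s s' hss => by
      simp only [hl, AddMonoidHom.smul_apply,
        dep_pr (fun x hx => hf_off fun h => hx (hs t ht h)) s s' hss])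
    (fun t ht t' ht' hne hc x hx y hy hxy => by
      have hj : t.2.1 = t'.2.1 := (Sigma.mk.inj_iff.1 hc).1
      have h2 := eq_of_heq (Sigma.mk.inj_iff.1 hc).2
      rw [← hj] at h2 hy
      have h3 := far_of_col (by positivity) (sep_col hJ hd (mem_filter.1 ht).1 (mem_filter.1 ht').1
        hne hj) (congrArg Prod.fst h2) (congrArg Prod.snd h2)
      have h4 : 2 * R t.2.1 + Λ.rg < ((2 * R t.2.1 + Λ.rg) / 2 ^ t.2.1 + 1) * 2 ^ t.2.1 := by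
        rw [mul_comm (_ + 1)]; exact Nat.lt_mul_div_succ _ (by positivity)
      have h5 : ((M t.2.1 : ℤ) - 1) * (2 ^ t.2.1 : ℕ) =
          (((2 * R t.2.1 + Λ.rg) / 2 ^ t.2.1 + 1) * 2 ^ t.2.1 : ℕ) := by
        simp only [hM, Nat.cast_add, Nat.cast_mul]; push_cast; ring
      rw [h5, lt_abs, lt_abs] at h3
      rw [mem_bl] at hx hy hxy
      omega)
  have cen := hA.cen
  refine (Real.log_le_log (cen.wt.ex_pos' (cen.ig (Tame.gq _ _)) fun s => gq_pos _ _ s)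
    (Ex_mono cen.nonneg (cen.ig (Tame.gq _ _)) (cen.ig (Tame.gq T _)) fun s =>
      gq_mono (filter_subset _ _) _ s)).trans (H.trans ?_)
  have hC : 0 ≤ cU Λ := by unfold cU; positivity
  have b1 := mul_le_mul_of_nonneg_left (sum_bad I (fun j hj => (hJ j hj).le) Ω (R := R) fun j hj => by
    have := h j hj; rw [pow_succ] at this; omega) (mul_nonneg hC hμ)
  have b2 := sum_terms I (fun j hj => (hJ j hj).le) fun j => μ * η j + μ ^ 2 * ((R j : ℝ) ^ 2 / w j)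
  rw [← b2, mul_add, ← mul_assoc]
  refine le_trans ?_ (add_le_add_right (add_le_add_left b1 _) _)
  rw [neg_div, sum_div, ← sum_neg_distrib, mul_sum, mul_sum, ← sum_add_distrib, ← sum_add_distrib, hT,
    sum_filter]
  refine sum_le_sum fun t ht => ?_
  obtain ⟨-, t2, -⟩ := mem_terms.1 ht
  obtain ⟨k1, k2, k3, k4, k5⟩ := h _ t2
  split_ifs with hb
  · refine (hA.term hR hD hΛ hμ k1 k2 k3 k4 (div_pos k5 (pow_pos (M0 _) 2)) hb).trans ?_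
    rw [ind_neg (not_not.2 hb)]
    have m1 : M t.2.1 * 2 ^ t.2.1 ≤ 4 * R t.2.1 := by
      have := Nat.div_mul_le_self (2 * R t.2.1 + Λ.rg) (2 ^ t.2.1)
      simp only [hM, add_mul]; rw [pow_succ] at k1; omega
    have m2 : (M t.2.1 : ℝ) * 2 ^ t.2.1 ≤ 4 * R t.2.1 := by exact_mod_cast m1
    have m3 : ((2 : ℝ) ^ t.2.1) ^ 2 / (16 * (w t.2.1 / (M t.2.1 : ℝ) ^ 2)) ≤ (R t.2.1 : ℝ) ^ 2 / w t.2.1 := by
      have := M0 t.2.1
      have m4 := pow_le_pow_left₀ (by positivity) m2 2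
      rw [div_le_div_iff₀ (by positivity) k5, ← mul_div_assoc, ← mul_div_assoc, le_div_iff₀ (by positivity)]
      nlinarith [mul_le_mul_of_nonneg_left m4 k5.le]
    nlinarith [mul_le_mul_of_nonneg_left m3
      (show 0 ≤ ((2 : ℝ) ^ t.2.1) ^ 2 * (cU Λ * μ ^ 2) by positivity)]
  · rw [ind_pos hb, vr_hl _ _ hμ]
    have v := hv t ht
    have e : Λ.τ * 32 ≤ cU Λ := by
      unfold cU; nlinarith [Real.add_one_le_exp Λ.τ, hΛ.pos]
    have p : 0 ≤ cU Λ * (((2 : ℝ) ^ t.2.1) ^ 2 * (μ * η t.2.1 + μ ^ 2 * ((R t.2.1 : ℝ) ^ 2 / w t.2.1))) := by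
      positivity
    nlinarith [mul_le_mul_of_nonneg_left (v.trans e) (show 0 ≤ μ * ((2 : ℝ) ^ t.2.1) ^ 2 by positivity),
      mul_nonneg hC (show 0 ≤ μ * ((2 : ℝ) ^ t.2.1) ^ 2 by positivity)]

end Crest.Agent.T145.Uv
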