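import Crest.Agent.T145.VdNe_27
import Crest.Agent.T145.ApiL_98

/-!
# Row 145 (helper27): domination in a twisted sector and the cost of a core (L3.2), any centred model
-/

set_option autoImplicit false

namespace Crest.Agent.T145.Vd

open Finset
open Sl46 (fl fl_apply)

variable {Λ : Lat} {m : Mdl Pt} {E₁ E₂ : Finset (Pt × Pt)}

theorem NE_Ws_pj (E : Finset (Pt × Pt)) (σ : Pt × Pt → ℤ) (s : Cfg Pt) :
    (NE Λ E).Ws 0 σ (pj Λ E s) = ∏ e ∈ E, Λ.w (dE e s + σ e) := by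
  rw [Mdl.Ws, ind_pos (p := ∀ x, x ∉ (NE Λ E).A → pj Λ E s x = (0 : Cfg Pt) x) fun x hx => pj_off s hx]
  simp only [NE_ed, NE_w, NE_site, prod_const_one, mul_one, one_mul]
  exact prod_congr rfl fun e he => by rw [dE_pj s he]

theorem pd_Ws (hm : m.Ctr) {E : Finset (Pt × Pt)} (hE : E ⊆ m.ed) :
    PD fun p : Cfg Pt × (Pt × Pt → ℤ) => (m.keep E).Ws 0 p.2 p.1 :=
  (((Cut7.pd_off pdStmt m.A).comp (AddMonoidHom.fst (Cfg Pt) (Pt × Pt → ℤ))).mul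
    (Sl46.pd_seam hm.1 hE)).mul (PD.prod fun x hx => (hm.2 x hx).2.1.comp
      ((Md.evH x).comp (AddMonoidHom.fst (Cfg Pt) (Pt × Pt → ℤ))))

/-- (D1v) the law of the gradients on `E₁` in the sector `σ` is dominated by the free law -/
theorem dom (h : Λ.Ok) (hm : m.Ctr) (hA : m.Anch) (h₁ : E₁ ⊆ m.ed) (h₂ : E₂ ⊆ m.ed)
    (hd : Disjoint E₁ E₂) (hw : ∀ e ∈ E₁ ∪ E₂, m.w e = Λ.w) (σ : Pt × Pt → ℤ) (η : Cfg Pt) :
    push (m.Ws 0 σ) (pj Λ E₁) η * (NE Λ E₁).W 0 0 ≤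
      (NE Λ E₁).Ws 0 σ η * rat (NE Λ E₂) σ * push (m.W 0) (pj Λ E₁) 0 := by
  have hp : ∀ (q : Pt × Pt → ℤ) (s : Cfg Pt), 0 < ∏ e ∈ E₁, Λ.w (dE e s + q e) := fun q s =>
    prod_pos fun e he => Md.fm_pos (NE_ctr h E₁).1 he _
  by_cases hη : pj Λ E₁ η = η
  swap
  · have : push (m.Ws 0 σ) (pj Λ E₁) η = 0 := by
      rw [push]
      refine (tsum_congr fun s => ?_).trans tsum_zero
      rw [ind_neg, zero_mul]
      rintro rfl
      exact hη (pj_self fun x hx => pj_off s hx)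
    rw [this, zero_mul]
    exact mul_nonneg (mul_nonneg ((Md.ctr_wts (NE_ctr h _) (NE_anch _ _) 0 σ).nonneg _)
      (rat_pos (NE_ctr h _) (NE_anch _ _) σ).le) (push_nonneg (hm.cen hA).nonneg _ _)
  have hsub : E₂ ⊆ m.ed \ E₁ := fun e he => mem_sdiff.2 ⟨h₂ he, disjoint_right.1 hd he⟩
  let W : (Pt × Pt → ℤ) × Cfg Pt → Cfg Pt → ℝ := fun q s =>
    ind (pj Λ E₁ s = q.2) * (m.keep (m.ed \ E₁)).Ws 0 q.1 s
  have hW : ∀ q s, W q s * ∏ e ∈ E₁, Λ.w (dE e q.2 + q.1 e) = ind (pj Λ E₁ s = q.2) * m.Ws 0 q.1 s := by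
    intro q s
    by_cases h3 : pj Λ E₁ s = q.2
    · rw [Sl46.Ws_keep m (sdiff_subset (t := E₁)), Finset.sdiff_sdiff_eq_self h₁, mul_assoc]
      congr 2
      exact prod_congr rfl fun e he => by rw [hw e (mem_union_left _ he), ← h3, dE_pj s he]
    · simp only [W, ind_neg h3, zero_mul]
  have hS : ∀ q, Summable (W q) := fun q => by
    refine ((summable_ind_mul (Md.ctr_ses hm hA 0 q.1).summable fun s => pj Λ E₁ s = q.2).mul_right
      (∏ e ∈ E₁, Λ.w (dE e q.2 + q.1 e))⁻¹).congr fun s => ?_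
    rw [← hW, mul_inv_cancel_right₀ (hp _ _).ne']
  have c2 := NE_ctr h E₂
  have a2 := NE_anch Λ E₂
  have key := Sl46.cut_gen (pj Λ E₂) (Q := (Pt × Pt → ℤ) × Cfg Pt)
    (ρ := fun q t => (NE Λ E₂).Ws 0 q.1 t)
    (H := fun q s => ind (pj Λ E₁ s = q.2) * (m.keep ((m.ed \ E₁) \ E₂)).Ws 0 q.1 s) (W := W)
    (Md.rsd_comp (Md.ctr_rsd_seam c2)
      ((AddMonoidHom.fst (Cfg Pt) ((Pt × Pt → ℤ) × Cfg Pt)).prod
        ((AddMonoidHom.fst _ _).comp (AddMonoidHom.snd _ _))))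
    (by
      have a1 := pd_ind ((pj Λ E₁).comp (AddMonoidHom.fst (Cfg Pt) ((Pt × Pt → ℤ) × Cfg Pt)) -
        (AddMonoidHom.snd _ _).comp (AddMonoidHom.snd _ _))
      have a3 := (pd_Ws hm (E := (m.ed \ E₁) \ E₂) (sdiff_subset.trans sdiff_subset)).comp
        ((AddMonoidHom.fst (Cfg Pt) ((Pt × Pt → ℤ) × Cfg Pt)).prod
          ((AddMonoidHom.fst _ _).comp (AddMonoidHom.snd _ _)))
      simpa [sub_eq_zero] using a1.mul a3)
    (fun q s _ => by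
      rw [NE_Ws_pj]; exact (prod_pos fun e he => Md.fm_pos c2.1 he _).ne')
    (fun q s => by
      simp only [W]
      rw [NE_Ws_pj, mul_assoc, Sl46.Ws_keep (m.keep (m.ed \ E₁)) (sdiff_subset (t := E₂))]
      congr 2
      rw [show (m.keep (m.ed \ E₁)).ed = m.ed \ E₁ from rfl, Finset.sdiff_sdiff_eq_self hsub]
      exact prod_congr rfl fun e he => by rw [← hw e (mem_union_right _ he)]; rfl)
    hS (σ, η) 0 (Md.ctr_ses c2 a2 0 0).summable (Md.ctr_ses c2 a2 0 σ 0)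
    (by rw [AddMonoidHom.zero_comp, tilt_zero']; exact hS _)
  rw [AddMonoidHom.zero_comp, tilt_zero', tilt_zero'] at key
  have e1 : push (m.Ws 0 σ) (pj Λ E₁) η = Zs (W (σ, η)) * (NE Λ E₁).Ws 0 σ η := by
    rw [push, Zs, ← tsum_mul_right]
    exact tsum_congr fun s => by rw [← hW (σ, η), ← hη, NE_Ws_pj, hη]
  have e2 : push (m.W 0) (pj Λ E₁) 0 = Zs (W 0) * (NE Λ E₁).W 0 0 := by
    rw [push, Zs, ← tsum_mul_right, Mdl.W_eq_Ws, Mdl.W_eq_Ws]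
    have e3 := NE_Ws_pj (Λ := Λ) E₁ 0 0
    rw [map_zero] at e3
    exact tsum_congr fun s => by rw [e3]; exact (hW 0 s).symm
  have z2 := Z0_pos c2 a2
  have n1 := (Md.ctr_wts (NE_ctr h E₁) (NE_anch _ _) 0 σ).nonneg η
  have n2 := ((NE_ctr h E₁).cen (NE_anch _ _)).nonneg 0
  have k2 : Zs (W (σ, η)) ≤ rat (NE Λ E₂) σ * Zs (W 0) := by
    rw [rat, div_mul_eq_mul_div, le_div_iff₀ z2, Mdl.W_eq_Ws]; exact key
  rw [e1, e2]
  calc _ ≤ rat (NE Λ E₂) σ * Zs (W 0) * (NE Λ E₁).Ws 0 σ η * (NE Λ E₁).W 0 0 := by gcongr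
    _ = _ := by ring

/-- integrated form of `dom` -/
theorem dom_sum (h : Λ.Ok) (hm : m.Ctr) (hA : m.Anch) (h₁ : E₁ ⊆ m.ed) (h₂ : E₂ ⊆ m.ed)
    (hd : Disjoint E₁ E₂) (hw : ∀ e ∈ E₁ ∪ E₂, m.w e = Λ.w) (σ : Pt × Pt → ℤ) {F : Cfg Pt → ℝ}
    (hF : ∀ η, 0 ≤ F η) (hi : Ig ((NE Λ E₁).Ws 0 σ) F) :
    Ig (m.Ws 0 σ) (fun s => F (pj Λ E₁ s)) ∧
    (∑' s, m.Ws 0 σ s * F (pj Λ E₁ s)) * (NE Λ E₁).W 0 0 ≤
      (∑' η, (NE Λ E₁).Ws 0 σ η * F η) * rat (NE Λ E₂) σ * push (m.W 0) (pj Λ E₁) 0 := by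
  have hw0 := Md.ctr_wts hm hA 0 σ
  have p0 := ((NE_ctr h E₁).cen (NE_anch _ _)).pos0
  set K := rat (NE Λ E₂) σ * push (m.W 0) (pj Λ E₁) 0 with hK
  have hle : ∀ η, push (m.Ws 0 σ) (pj Λ E₁) η * F η * (NE Λ E₁).W 0 0 ≤
      (NE Λ E₁).Ws 0 σ η * F η * K := fun η => by
    have := mul_le_mul_of_nonneg_right (dom h hm hA h₁ h₂ hd hw σ η) (hF η)
    rw [hK]; linarith
  have hs : Summable fun η => push (m.Ws 0 σ) (pj Λ E₁) η * F η * (NE Λ E₁).W 0 0 :=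
    (hi.mul_right K).of_nonneg_of_le
      (fun η => mul_nonneg (mul_nonneg (push_nonneg hw0.nonneg _ _) (hF η)) p0.le) hle
  have hi' : Ig (m.Ws 0 σ) fun s => F (pj Λ E₁ s) :=
    Ig.of_push hw0.nonneg hw0.summ ((summable_mul_right_iff p0.ne').1 hs)
  refine ⟨hi', ?_⟩
  rw [← tsum_push hi', ← tsum_mul_right, mul_assoc, ← hK, ← tsum_mul_right]
  exact hs.tsum_le_tsum hle (hi.mul_right K)

/-- the free sites `I` with the edges `E`, everything else pinned -/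
noncomputable def inM (Λ : Lat) (I : Finset Pt) (E : Finset (Pt × Pt)) : Mdl Pt :=
  ⟨I, E, fun _ => Λ.w, fun _ _ => 1⟩

theorem inM_ctr (h : Λ.Ok) (I : Finset Pt) (E : Finset (Pt × Pt)) : (inM Λ I E).Ctr :=
  ⟨fun _ _ => ⟨Λ.xy, Λ.τ, h.2, rfl⟩, fun _ _ => ⟨Md.rsd_one, pd_one, one_pos⟩⟩

/-- weight of the filling `(I, E)` for the outer heights `s` -/
noncomputable def fill (Λ : Lat) (I : Finset Pt) (E : Finset (Pt × Pt)) (σ : Pt × Pt → ℤ)
    (s : Cfg Pt) : ℝ := Zs ((inM Λ I E).Ws 0 fun e => σ e + dE e s)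

/-- `m'` is `m` with the hole `(I, E)` filled -/
structure Fill (Λ : Lat) (m m' : Mdl Pt) (I : Finset Pt) (E : Finset (Pt × Pt)) : Prop where
  A : m'.A = m.A ∪ I
  ed : m'.ed = m.ed ∪ E
  dA : Disjoint m.A I
  dEd : Disjoint m.ed E
  far : ∀ e ∈ m.ed, e.1 ∉ I ∧ e.2 ∉ I
  w : ∀ e ∈ m.ed, m'.w e = m.w e
  w' : ∀ e ∈ E, m'.w e = Λ.w
  site : ∀ x ∈ m.A, m'.site x = m.site x
  site' : ∀ x ∈ I, ∀ k, m'.site x k = 1

variable {m' : Mdl Pt} {I : Finset Pt} {E : Finset (Pt × Pt)}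

theorem fill_pos (h : Λ.Ok) (hI : (inM Λ I E).Anch) (σ : Pt × Pt → ℤ) (s : Cfg Pt) :
    0 < fill Λ I E σ s := (Md.ctr_wts (inM_ctr h I E) hI 0 _).pos

theorem fill_le (h : Λ.Ok) (hI : (inM Λ I E).Anch) (σ : Pt × Pt → ℤ) (s : Cfg Pt) :
    fill Λ I E σ s ≤ Zs ((inM Λ I E).W 0) :=
  (div_le_one (Z0_pos (inM_ctr h I E) hI)).1 (rat_le_one (inM_ctr h I E) hI _)

/-- the filling weight only reads the heights off `I` at the ends of `E`, up to a constant -/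
theorem fill_congr {σ σ' : Pt × Pt → ℤ} {s s' : Cfg Pt} (c : ℤ) (hσ : ∀ e ∈ E, σ e = σ' e)
    (hs : ∀ x ∈ vx E, x ∉ I → s x = s' x + c) : fill Λ I E σ s = fill Λ I E σ' s' := by
  classical
  let u : Cfg Pt := (s - s').filter (· ∈ I) - cst I c
  have hu : ∀ x, u x = if x ∈ I then s x - s' x - c else 0 := fun x => by
    simp only [u, Finsupp.sub_apply, Finsupp.filter_apply, cst_apply]
    split_ifs <;> simp
  have hv : ∀ x ∈ vx E, s x = u x + s' x + c := fun x hx => by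
    rw [hu]
    split_ifs with h1
    · ring
    · rw [hs x hx h1, zero_add]
  rw [fill, fill, Zs, Zs, ← (Equiv.addRight u).tsum_eq ((inM Λ I E).Ws 0 fun e => σ' e + dE e s')]
  refine tsum_congr fun t => ?_
  simp only [Mdl.Ws, inM, Equiv.coe_addRight, prod_const_one, mul_one]
  congr 1
  · exact Md.ind_iff (forall₂_congr fun x hx => by rw [Finsupp.add_apply, hu, if_neg hx, add_zero])
  · refine prod_congr rfl fun e he => ?_
    congr 1
    simp only [dE, Finsupp.add_apply, hσ e he, hv _ (mem_vx.2 ⟨e, he, .inl rfl⟩),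
      hv _ (mem_vx.2 ⟨e, he, .inr rfl⟩)]
    ring

/-- Fubini for a filled hole -/
theorem Fill.hasSum (hf : Fill Λ m m' I E) (σ : Pt × Pt → ℤ) {F : Cfg Pt → ℝ}
    (hF : ∀ s t : Cfg Pt, (∀ x, x ∉ I → t x = 0) → F (t + s) = F s) (hi : Ig (m'.Ws 0 σ) F) :
    HasSum (fun s => m.Ws 0 σ s * (fill Λ I E σ s * F s)) (∑' s, m'.Ws 0 σ s * F s) := by
  classical
  let π : Cfg Pt → Cfg Pt := fun u => u.filter (· ∉ I)
  refine (hasSum_push hi π).congr_fun fun s => ?_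
  rw [push, ← (Equiv.addRight s).tsum_eq, fill, Zs, ← tsum_mul_right, ← tsum_mul_left]
  refine tsum_congr fun t => ?_
  simp only [Equiv.coe_addRight]
  by_cases h1 : (∀ x, x ∉ m.A → s x = 0) ∧ ∀ x, x ∉ I → t x = 0
  · have h2 : π (t + s) = s := by
      ext x
      simp only [π, Finsupp.filter_apply, Finsupp.add_apply]
      split_ifs with hx
      · exact (h1.1 x (disjoint_right.1 hf.dA hx)).symm
      · rw [h1.2 x hx, zero_add]
    rw [ind_pos h2, one_mul, hF s t h1.2]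
    simp only [Mdl.Ws, inM, hf.A, hf.ed, prod_union hf.dA, prod_union hf.dEd, Finsupp.coe_zero,
      Pi.zero_apply, ind_pos h1.1, ind_pos h1.2, one_mul, prod_const_one, mul_one]
    rw [ind_pos (p := ∀ x, x ∉ m.A ∪ I → (t + s) x = 0) fun x hx => by
        rw [Finsupp.add_apply, h1.1 x fun h => hx (mem_union_left _ h),
          h1.2 x fun h => hx (mem_union_right _ h), add_zero],
      prod_congr (s₁ := I) rfl fun x hx => hf.site' x hx _,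
      prod_congr (s₁ := m.A) (f := fun x => m'.site x ((t + s) x)) rfl fun x hx => by
        rw [hf.site x hx, Finsupp.add_apply, h1.2 x (disjoint_left.1 hf.dA hx), zero_add],
      prod_congr (s₁ := m.ed) (f := fun e => m'.w e (dE e (t + s) + σ e)) rfl fun e he => by
        rw [hf.w e he, dE_add', dE, h1.2 _ (hf.far e he).1, h1.2 _ (hf.far e he).2, sub_self,
          zero_add],
      prod_congr (s₁ := E) (f := fun e => m'.w e (dE e (t + s) + σ e)) rfl fun e he => by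
        rw [hf.w' e he, dE_add', add_assoc, add_comm (dE e s)]]
    simp only [prod_const_one]
    ring
  · have h2 : ind (π (t + s) = s) * (m'.Ws 0 σ (t + s) * F (t + s)) = 0 := by
      by_contra h3
      have h4 := Md.of_ind_ne (left_ne_zero_of_mul h3)
      have h5 := left_ne_zero_of_mul (right_ne_zero_of_mul h3)
      have h6 : ∀ x, (if x ∉ I then t x + s x else 0) = s x := fun x => by
        simpa only [π, Finsupp.filter_apply, Finsupp.add_apply] using DFunLike.congr_fun h4 x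
      have h7 : ∀ x, x ∉ I → t x = 0 := fun x hx => by simpa [hx] using h6 x
      refine h1 ⟨fun x hx => ?_, h7⟩
      by_cases hx' : x ∈ I
      · simpa [hx'] using (h6 x).symm
      · have := Mdl.Ws_ne_zero h5 (x := x) (by rw [hf.A]; simp [hx, hx'])
        simpa [h7 x hx'] using this
    rw [h2]
    rcases not_and_or.1 h1 with h3 | h3
    · simp only [Mdl.Ws, Finsupp.coe_zero, Pi.zero_apply, ind_neg h3, zero_mul]
    · simp only [Mdl.Ws, inM, Finsupp.coe_zero, Pi.zero_apply, ind_neg h3, zero_mul, mul_zero]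

theorem Fill.Zs_eq (hf : Fill Λ m m' I E) (σ : Pt × Pt → ℤ) (hs : Summable (m'.Ws 0 σ)) :
    HasSum (fun s => m.Ws 0 σ s * fill Λ I E σ s) (Zs (m'.Ws 0 σ)) := by
  simpa only [mul_one, Zs] using hf.hasSum σ (F := fun _ => 1) (fun _ _ _ => rfl) (Ig.const hs 1)

/-- L3.2: filling a hole costs a constant that does not depend on the far part of the model -/
theorem core (h : Λ.Ok) (hI : (inM Λ I E).Anch) (E₁ : Finset (Pt × Pt)) (r₀ : Pt)
    (hc : ∀ x ∈ vx E, x ∉ I → Conn E₁ x r₀) (σ₀ : Pt × Pt → ℤ) {c : ℝ} (hc0 : 0 < c) :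
    ∃ c' : ℝ, 0 < c' ∧ ∀ (m m' : Mdl Pt) (E₂ : Finset (Pt × Pt)) (σ : Pt × Pt → ℤ),
      m.Ctr → m.Anch → m'.Ctr → m'.Anch → Fill Λ m m' I E → E₁ ⊆ m.ed → E₂ ⊆ m.ed →
      Disjoint E₁ E₂ → (∀ e ∈ E₁ ∪ E₂, m.w e = Λ.w) → (∀ e ∈ E₁ ∪ E, σ e = σ₀ e) →
      c * rat (NE Λ E₂) σ ≤ rat m σ → c' * rat m σ ≤ rat m' σ := by
  classical
  have c1 := NE_ctr h E₁
  have a1 := NE_anch Λ E₁
  have p0 := (c1.cen a1).pos0
  have w1 := Md.ctr_wts c1 a1 0 σ₀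
  obtain ⟨T, hT⟩ : ∃ T : Finset (Cfg Pt), ∑' η, (NE Λ E₁).Ws 0 σ₀ η * ind (η ∉ T) ≤
      c * (NE Λ E₁).W 0 0 / 2 := by
    obtain ⟨T, hT⟩ := ((tendsto_order.1 (tendsto_tsum_compl_atTop_zero ((NE Λ E₁).Ws 0 σ₀))).2 _
      (by positivity : 0 < c * (NE Λ E₁).W 0 0 / 2)).exists
    refine ⟨T, le_trans (le_of_eq ?_) hT.le⟩
    refine Eq.trans (tsum_congr fun η => ?_) (tsum_subtype {η | η ∉ T} ((NE Λ E₁).Ws 0 σ₀)).symm
    by_cases h1 : η ∈ T <;> simp [ind, h1]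
  obtain ⟨d, hd0, hd⟩ : ∃ d : ℝ, 0 < d ∧ ∀ η ∈ T, d ≤ fill Λ I E σ₀ η := by
    rcases T.eq_empty_or_nonempty with rfl | hne
    · exact ⟨1, one_pos, by simp⟩
    · obtain ⟨η, _, h2⟩ := exists_min_image T (fill Λ I E σ₀) hne
      exact ⟨_, fill_pos h hI σ₀ η, h2⟩
  have zI := Z0_pos (inM_ctr h I E) hI
  refine ⟨d / (2 * Zs ((inM Λ I E).W 0)), by positivity,
    fun m m' E₂ σ hm hA hm' hA' hf h₁ h₂ hdj hw hσ hr => ?_⟩
  have hw0 := Md.ctr_wts hm hA 0 σ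
  have z0 := Z0_pos hm hA
  have e1 : (NE Λ E₁).Ws 0 σ = (NE Λ E₁).Ws 0 σ₀ :=
    Sl46.Ws_congr _ 0 fun e he => hσ e (mem_union_left _ he)
  obtain ⟨i1, k1⟩ := dom_sum h hm hA h₁ h₂ hdj hw σ (F := fun η => ind (η ∉ T))
    (fun _ => ind_nonneg _) (by rw [e1]; exact (summable_ind_mul w1.summ _).congr fun _ => mul_comm _ _)
  rw [e1] at k1
  have k2 : push (m.W 0) (pj Λ E₁) 0 ≤ Zs (m.W 0) := by
    rw [← Zs_push (hm.cen hA).wt.summ (pj Λ E₁)]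
    exact (summable_push (hm.cen hA).wt.summ _).le_tsum 0 fun b _ =>
      push_nonneg (hm.cen hA).nonneg _ _
  have r2 := rat_pos (NE_ctr h E₂) (NE_anch _ _) σ
  have k3 : ∑' s, m.Ws 0 σ s * ind (pj Λ E₁ s ∉ T) ≤ Zs (m.Ws 0 σ) / 2 := by
    refine le_of_mul_le_mul_right (k1.trans ?_) p0
    rw [rat.eq_def m, le_div_iff₀ z0] at hr
    calc _ ≤ c * (NE Λ E₁).W 0 0 / 2 * rat (NE Λ E₂) σ * Zs (m.W 0) := by
          gcongr
          exact push_nonneg (hm.cen hA).nonneg _ _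
      _ = c * rat (NE Λ E₂) σ * Zs (m.W 0) * ((NE Λ E₁).W 0 0 / 2) := by ring
      _ ≤ Zs (m.Ws 0 σ) * ((NE Λ E₁).W 0 0 / 2) := by gcongr
      _ = _ := by ring
  have s1 := hf.Zs_eq σ (Md.ctr_wts hm' hA' 0 σ).summ
  have s0 := hf.Zs_eq 0 (Md.ctr_wts hm' hA' 0 0).summ
  simp only [← Mdl.W_eq_Ws] at s0
  have k4 : Zs (m'.W 0) ≤ Zs (m.W 0) * Zs ((inM Λ I E).W 0) :=
    hasSum_le (fun s => mul_le_mul_of_nonneg_left (fill_le h hI 0 s) ((hm.cen hA).nonneg s)) s0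
      ((hm.cen hA).wt.summ.hasSum.mul_right _)
  have k5 : d * (Zs (m.Ws 0 σ) - ∑' s, m.Ws 0 σ s * ind (pj Λ E₁ s ∉ T)) ≤ Zs (m'.Ws 0 σ) := by
    refine hasSum_le (fun s => ?_) ((hw0.summ.hasSum.sub i1.hasSum).mul_left d) s1
    beta_reduce
    by_cases h3 : pj Λ E₁ s ∈ T
    · rw [ind_neg (not_not.2 h3), mul_zero, sub_zero, mul_comm]
      refine mul_le_mul_of_nonneg_left ((hd _ h3).trans_eq ?_) (hw0.nonneg s)
      refine (fill_congr (s (rt E₁ r₀) + (if r₀ ∈ vx E₁ then 0 else s r₀ - s (rt E₁ r₀)))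
        (fun e he => hσ e (mem_union_right _ he)) fun x hx hx' => ?_).symm
      by_cases h4 : x ∈ vx E₁
      · rw [pj_vx s h4, rt_eq (hc x hx hx'), if_pos]
        · ring
        · exact (conn_vx (hc x hx hx')).elim (fun h5 => h5 ▸ h4) id
      · have h5 : x = r₀ := (conn_vx (hc x hx hx').symm).resolve_right h4
        rw [pj_off s fun h6 => h4 (NE_A_subset h6), if_neg (h5 ▸ h4), h5]
        ring
    · rw [ind_pos h3, mul_one, sub_self, mul_zero]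
      exact mul_nonneg (hw0.nonneg s) (fill_pos h hI σ s).le
  rw [rat, rat, div_mul_div_comm, div_le_div_iff₀ (by positivity) (Z0_pos hm' hA')]
  have k6 : d * Zs (m.Ws 0 σ) ≤ 2 * Zs (m'.Ws 0 σ) := by nlinarith
  calc _ ≤ 2 * Zs (m'.Ws 0 σ) * (Zs (m.W 0) * Zs ((inM Λ I E).W 0)) :=
        mul_le_mul k6 k4 (Z0_pos hm' hA').le (by have := (Md.ctr_wts hm' hA' 0 σ).pos; positivity)
    _ = _ := by ring

end Crest.Agent.T145.Vd
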