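import Mathlib

/-!
# Row 145, S0198 (helper35): from second differences (cross ratios) to the asymptotics

* `conv_of_dd` : `H r / r → 0`, dyadically summable second differences of ratio `1`, `2` and vanishing
  second differences of every ratio `j` imply that `H` converges;
* `asym_of_cross` : the form used for S0198.
-/

set_option autoImplicit false

open Filter Topology

namespace Crest.Agent.T145.Vx35

/-- second difference with base point `j t` and step `t` -/
def dd (H : ℕ → ℝ) (j t : ℕ) : ℝ := H ((j + 2) * t) - 2 * H ((j + 1) * t) + H (j * t)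

theorem tendsto_pow_mul {t : ℕ} (ht : 1 ≤ t) : Tendsto (fun i : ℕ => 2 ^ i * t) atTop atTop := by
  refine tendsto_atTop_mono (fun i => ?_) tendsto_id
  have h : i < 2 ^ i := Nat.lt_two_pow_self
  simp only [id]
  nlinarith

/-- the dyadic increment is bounded by the second differences above it -/
theorem incr_le (H e : ℕ → ℝ) (t0 : ℕ) (h0 : Tendsto (fun r : ℕ => H r / r) atTop (𝓝 0))
    (he : ∀ s t, t0 ≤ s → s ≤ t → e t ≤ e s)
    (h1 : ∀ t, t0 ≤ t → |dd H 1 t| ≤ e t ∧ |dd H 2 t| ≤ e t) (t : ℕ) (ht : t0 ≤ t) (ht1 : 1 ≤ t) :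
    |H (2 * t) - H t| ≤ 3 * e t := by
  set D : ℕ → ℝ := fun u => H (2 * u) - H u with hD
  have hrec : ∀ u, D (2 * u) = 2 * D u + (2 * dd H 1 u + dd H 2 u) := by
    intro u
    simp only [hD, dd]
    rw [show 2 * (2 * u) = (2 + 2) * u by ring, show (1 + 2) * u = (2 + 1) * u by ring,
      show (1 + 1) * u = 2 * u by ring, one_mul]
    ring
  have hstep : ∀ i : ℕ, |D t| ≤ |D (2 ^ i * t)| / 2 ^ i + 3 * e t * (1 - 1 / 2 ^ i) := by
    intro i
    induction i with
    | zero => simp
    | succ i ih =>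
      have hu : t ≤ 2 ^ i * t := Nat.le_mul_of_pos_left _ (by positivity)
      obtain ⟨a1, a2⟩ := h1 (2 ^ i * t) (ht.trans hu)
      have a3 := he t (2 ^ i * t) ht hu
      have a4 := hrec (2 ^ i * t)
      rw [show 2 * (2 ^ i * t) = 2 ^ (i + 1) * t by ring] at a4
      have a5 : |D (2 ^ i * t)| ≤ |D (2 ^ (i + 1) * t)| / 2 + 3 * e t / 2 := by
        rw [abs_le] at a1 a2 ⊢
        have b1 := le_abs_self (D (2 ^ (i + 1) * t))
        have b2 := neg_abs_le (D (2 ^ (i + 1) * t))
        constructor <;> linarith [a1.1, a1.2, a2.1, a2.2]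
      have hp : (0 : ℝ) < 2 ^ i := by positivity
      have a6 : |D (2 ^ i * t)| / 2 ^ i ≤
          (|D (2 ^ (i + 1) * t)| / 2 + 3 * e t / 2) / 2 ^ i := by gcongr
      refine ih.trans ((add_le_add_left a6 _).trans (le_of_eq ?_))
      rw [pow_succ (2 : ℝ) i]
      field_simp
      ring
  have hlim : Tendsto (fun i : ℕ => |D (2 ^ i * t)| / 2 ^ i + 3 * e t * (1 - 1 / 2 ^ i)) atTop
      (𝓝 (|(0 : ℝ) * (2 * t) - 0 * t| + 3 * e t * (1 - 0))) := by
    refine Tendsto.add ?_ (Tendsto.const_mul _ (tendsto_const_nhds.sub ?_))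
    · have c1 := (h0.comp (tendsto_pow_mul (t := 2 * t) (by omega))).mul_const (2 * t : ℝ)
      have c2 := (h0.comp (tendsto_pow_mul ht1)).mul_const (t : ℝ)
      refine ((c1.sub c2).abs).congr fun i => ?_
      have hp : (0 : ℝ) < 2 ^ i := by positivity
      have htp : (0 : ℝ) < t := by exact_mod_cast ht1
      simp only [hD, Function.comp]
      rw [show 2 * (2 ^ i * t) = 2 ^ i * (2 * t) by ring, ← abs_of_pos hp, ← abs_div]
      congr 1
      push_cast
      field_simp
    · simpa [one_div, ← inv_pow] using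
        tendsto_pow_atTop_nhds_zero_of_lt_one (r := (2 : ℝ)⁻¹) (by norm_num) (by norm_num)
  have := ge_of_tendsto' hlim hstep
  simpa using this

theorem conv_of_dd (H e : ℕ → ℝ) (t0 : ℕ) (h0 : Tendsto (fun r : ℕ => H r / r) atTop (𝓝 0))
    (he : ∀ s t, t0 ≤ s → s ≤ t → e t ≤ e s) (hs : Summable fun i : ℕ => e (2 ^ i))
    (h1 : ∀ t, t0 ≤ t → |dd H 1 t| ≤ e t ∧ |dd H 2 t| ≤ e t)
    (h2 : ∀ j, 1 ≤ j → Tendsto (dd H j) atTop (𝓝 0)) : ∃ l, Tendsto H atTop (𝓝 l) := by
  have e0 : ∀ t, t0 ≤ t → 0 ≤ e t := fun t ht => (abs_nonneg _).trans (h1 t ht).1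
  -- the increments along `2 ^ i * t`
  have hinc : ∀ t k i : ℕ, t0 ≤ 2 ^ k → 2 ^ k ≤ t →
      dist (H (2 ^ i * t)) (H (2 ^ (i + 1) * t)) ≤ 3 * e (2 ^ (i + k)) := by
    intro t k i hk ht
    have hp : 1 ≤ 2 ^ i := Nat.one_le_two_pow
    have hk1 : 1 ≤ 2 ^ k := Nat.one_le_two_pow
    have a1 : 2 ^ (i + k) ≤ 2 ^ i * t := by rw [pow_add]; exact Nat.mul_le_mul_left _ ht
    have a2 : 2 ^ k ≤ 2 ^ (i + k) := by rw [pow_add]; exact Nat.le_mul_of_pos_left _ hp
    have a3 := incr_le H e t0 h0 he h1 (2 ^ i * t) (by omega) (by omega)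
    rw [Real.dist_eq, abs_sub_comm, show 2 ^ (i + 1) * t = 2 * (2 ^ i * t) by ring]
    have a4 := he _ _ (hk.trans a2) a1
    linarith
  have hsk : ∀ k : ℕ, Summable fun i : ℕ => 3 * e (2 ^ (i + k)) := fun k =>
    ((summable_nat_add_iff (f := fun i : ℕ => e (2 ^ i)) k).2 hs).mul_left 3
  obtain ⟨k0, hk0⟩ : ∃ k0 : ℕ, t0 ≤ 2 ^ k0 := ⟨t0, Nat.lt_two_pow_self.le⟩
  have hlim : ∀ t, 2 ^ k0 ≤ t → ∃ l, Tendsto (fun i : ℕ => H (2 ^ i * t)) atTop (𝓝 l) := by
    intro t ht
    exact cauchySeq_tendsto_of_complete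
      (cauchySeq_of_dist_le_of_summable _ (fun i => hinc t k0 i hk0 ht) (hsk k0))
  choose! lam hlam using hlim
  -- the limit does not depend on `t`
  have hsucc : ∀ r, 2 ^ k0 ≤ r → lam (r + 1) = lam r := by
    intro r hr
    have hr1 : 1 ≤ r := Nat.one_le_two_pow.trans hr
    have hu : Tendsto (fun i : ℕ => 2 ^ i) atTop atTop := by
      simpa using tendsto_pow_mul (le_refl 1)
    have hA : ∀ q : ℕ, Tendsto (fun i : ℕ => H (2 ^ i * (r + q + 1)) - H (2 ^ i * (r + q))) atTop
        (𝓝 (lam (r + 1) - lam r)) := by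
      intro q
      induction q with
      | zero => exact (hlam (r + 1) (by omega)).sub (hlam r hr)
      | succ q ih =>
        have := ih.add ((h2 (r + q) (by omega)).comp hu)
        rw [add_zero] at this
        refine this.congr fun i => ?_
        simp only [Function.comp, dd]
        rw [show (r + q + 2) * 2 ^ i = 2 ^ i * (r + (q + 1) + 1) by ring,
          show (r + q + 1) * 2 ^ i = 2 ^ i * (r + q + 1) by ring,
          show (r + q) * 2 ^ i = 2 ^ i * (r + q) by ring,
          show r + (q + 1) = r + q + 1 by ring]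
        ring
    have hB : ∀ q : ℕ, lam (r + q) = lam r + q * (lam (r + 1) - lam r) := by
      intro q
      induction q with
      | zero => simp
      | succ q ih =>
        have b1 := (hlam (r + q + 1) (by omega)).sub (hlam (r + q) (by omega))
        have b2 := tendsto_nhds_unique b1 (hA q)
        rw [← add_assoc]
        push_cast
        linarith
    have hC : lam (r + r) = lam r := by
      have b1 := hlam (r + r) (by omega)
      have b2 := (tendsto_add_atTop_iff_nat (f := fun i : ℕ => H (2 ^ i * r)) 1).2 (hlam r hr)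
      refine tendsto_nhds_unique b1 (b2.congr fun i => ?_)
      congr 1
      ring
    have b3 := hB r
    rw [hC] at b3
    have b4 : (0 : ℝ) < r := by exact_mod_cast hr1
    have b5 : (r : ℝ) * (lam (r + 1) - lam r) = 0 := by linarith
    rcases mul_eq_zero.1 b5 with b6 | b6
    · linarith
    · linarith
  have hconst : ∀ r, 2 ^ k0 ≤ r → lam r = lam (2 ^ k0) := by
    intro r hr
    induction r, hr using Nat.le_induction with
    | base => rfl
    | succ r hr ih => rw [hsucc r hr, ih]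
  refine ⟨lam (2 ^ k0), Metric.tendsto_atTop.2 fun ε hε => ?_⟩
  have htail : Tendsto (fun k : ℕ => 3 * ∑' i : ℕ, e (2 ^ (i + k))) atTop (𝓝 (3 * 0)) :=
    (tendsto_sum_nat_add (fun i : ℕ => e (2 ^ i))).const_mul 3
  rw [mul_zero] at htail
  obtain ⟨k, hk1, hk2⟩ := ((htail.eventually (gt_mem_nhds hε)).and (eventually_ge_atTop k0)).exists
  have hkk : 2 ^ k0 ≤ 2 ^ k := Nat.pow_le_pow_right (by norm_num) hk2
  refine ⟨2 ^ k, fun r hr => ?_⟩
  have b1 := dist_le_tsum_of_dist_le_of_tendsto₀ _ (fun i => hinc r k i (hk0.trans hkk) hr) (hsk k)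
    (hlam r (hkk.trans hr))
  rw [tsum_mul_left, hconst r (hkk.trans hr)] at b1
  simp only [pow_zero, one_mul] at b1
  exact b1.trans_lt hk1

theorem log_add_sub {u a : ℝ} (hu : 0 < u) (ha : 0 ≤ a) :
    |Real.log (u + a) - Real.log u - a / u| ≤ (a / u) ^ 2 := by
  have hx : 0 ≤ a / u := by positivity
  have h1 : Real.log (u + a) - Real.log u = Real.log (1 + a / u) := by
    rw [← Real.log_div (by positivity) hu.ne']
    congr 1
    field_simp
  rw [h1]
  have h2 := Real.log_le_sub_one_of_pos (show 0 < 1 + a / u by positivity)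
  have h3 := Real.one_sub_inv_le_log_of_pos (show 0 < 1 + a / u by positivity)
  have h4 : a / u - (a / u) ^ 2 ≤ 1 - (1 + a / u)⁻¹ := by
    set x := a / u
    have : 1 - (1 + x)⁻¹ = x / (1 + x) := by field_simp; ring
    rw [this, le_div_iff₀ (by positivity)]
    nlinarith [pow_nonneg hx 3]
  rw [abs_le]
  constructor <;> nlinarith [sq_nonneg (a / u)]

/-- the normalised logarithm -/
noncomputable def HH (C : ℕ → ℝ) (r : ℕ) : ℝ :=
  Real.log (C r) + Real.log r / 4 - Real.log (Real.log r) / 8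

/-- the Gaussian cross ratio of the four points -/
noncomputable def xr (j : ℕ) : ℝ := Real.log (((j : ℝ) + 2) * j / ((j : ℝ) + 1) ^ 2)

theorem dd_HH (C : ℕ → ℝ) {j t : ℕ} (hj : 1 ≤ j) (ht : 2 ≤ t) :
    |dd (HH C) j t - (dd (fun r => Real.log (C r)) j t + (1 / 4 - 1 / (8 * Real.log t)) * xr j)| ≤
      Real.log (j + 2) ^ 2 / Real.log t ^ 2 := by
  have hj' : (1 : ℝ) ≤ j := by exact_mod_cast hj
  have ht' : (2 : ℝ) ≤ t := by exact_mod_cast ht
  have hu : 0 < Real.log t := Real.log_pos (by linarith)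
  set u := Real.log t
  have l0 : Real.log ((j * t : ℕ) : ℝ) = u + Real.log j := by
    push_cast; rw [Real.log_mul (by positivity) (by positivity)]; ring
  have l1 : Real.log (((j + 1) * t : ℕ) : ℝ) = u + Real.log (j + 1) := by
    push_cast; rw [Real.log_mul (by positivity) (by positivity)]; ring
  have l2 : Real.log (((j + 2) * t : ℕ) : ℝ) = u + Real.log (j + 2) := by
    push_cast; rw [Real.log_mul (by positivity) (by positivity)]; ring
  have hx : xr j = Real.log (j + 2) - 2 * Real.log (j + 1) + Real.log j := by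
    unfold xr
    rw [Real.log_div (by positivity) (by positivity), Real.log_mul (by positivity) (by positivity),
      Real.log_pow]
    push_cast
    ring
  have p0 : 0 ≤ Real.log j := Real.log_nonneg hj'
  have p1 : Real.log j ≤ Real.log (j + 1) := Real.log_le_log (by linarith) (by linarith)
  have p2 : Real.log (j + 1) ≤ Real.log (j + 2) := Real.log_le_log (by linarith) (by linarith)
  have q0 := log_add_sub hu p0
  have q1 := log_add_sub hu (p0.trans p1)
  have q2 := log_add_sub hu ((p0.trans p1).trans p2)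
  have r0 : (Real.log j / u) ^ 2 ≤ (Real.log (j + 2) / u) ^ 2 := by gcongr; linarith
  have r1 : (Real.log (j + 1) / u) ^ 2 ≤ (Real.log (j + 2) / u) ^ 2 := by
    have := p0.trans p1
    gcongr
  simp only [dd, HH]
  rw [l0, l1, l2, hx, ← div_pow]
  have e1 : (1 / 4 - 1 / (8 * u)) * (Real.log (j + 2) - 2 * Real.log (j + 1) + Real.log j) =
      (Real.log (j + 2) - 2 * Real.log (j + 1) + Real.log j) / 4 -
        (Real.log (j + 2) / u - 2 * (Real.log (j + 1) / u) + Real.log j / u) / 8 := by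
    field_simp
  rw [e1]
  rw [abs_le] at q0 q1 q2 ⊢
  have := sq_nonneg (Real.log (j + 2) / u)
  constructor <;> linarith [q0.1, q0.2, q1.1, q1.2, q2.1, q2.2]

theorem tendsto_log_rpow {p : ℝ} (hp : 0 < p) :
    Tendsto (fun t : ℕ => Real.log t ^ (-p)) atTop (𝓝 0) :=
  (tendsto_rpow_neg_atTop hp).comp (Real.tendsto_log_atTop.comp tendsto_natCast_atTop_atTop)

theorem summable_log_rpow {p : ℝ} (hp : 1 < p) :
    Summable fun i : ℕ => Real.log ((2 ^ i : ℕ) : ℝ) ^ (-p) := by
  have h := (Real.summable_nat_rpow.2 (show -p < -1 by linarith)).mul_right (Real.log 2 ^ (-p))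
  refine h.congr fun i => ?_
  push_cast
  rw [Real.log_pow, Real.mul_rpow (Nat.cast_nonneg i) (Real.log_nonneg (by norm_num))]

/-- **cross ratios give the asymptotics of S0198** -/
theorem asym_of_cross (C : ℕ → ℝ) (δ : ℝ) (hδ : 0 < δ) (hpos : ∀ᶠ r in atTop, 0 < C r)
    (h0 : Tendsto (fun r : ℕ => -Real.log (C r) / r) atTop (𝓝 0))
    (hX : ∀ j, 1 ≤ j → ∃ K : ℝ, ∀ᶠ t : ℕ in atTop,
      |dd (fun r => Real.log (C r)) j t + (1 / 4 - 1 / (8 * Real.log t)) * xr j| ≤
        K * Real.log t ^ (-(1 + δ))) :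
    ∃ B : ℝ, 0 < B ∧ Tendsto (fun r : ℕ => C r * (r : ℝ) ^ ((1 : ℝ) / 4) /
      Real.log r ^ ((1 : ℝ) / 8)) atTop (𝓝 B) := by
  have hb : ∀ j, 1 ≤ j → ∃ K : ℝ, 0 ≤ K ∧ ∀ᶠ t : ℕ in atTop, |dd (HH C) j t| ≤
      K * (Real.log t ^ (-(1 + δ)) + Real.log t ^ (-(2 : ℝ))) := by
    intro j hj
    obtain ⟨K, hK⟩ := hX j hj
    refine ⟨|K| + Real.log (j + 2) ^ 2, by positivity, ?_⟩
    filter_upwards [hK, eventually_ge_atTop 2] with t a1 a2
    have a3 := dd_HH C hj a2
    have ht' : (2 : ℝ) ≤ t := by exact_mod_cast a2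
    have hu : 0 < Real.log t := Real.log_pos (by linarith)
    have a4 : Real.log t ^ (-(2 : ℝ)) = (Real.log t ^ 2)⁻¹ := by
      rw [Real.rpow_neg hu.le, Real.rpow_two]
    have a5 : 0 ≤ Real.log t ^ (-(1 + δ)) := Real.rpow_nonneg hu.le _
    have a6 : 0 ≤ (Real.log t ^ 2)⁻¹ := by positivity
    have a7 : K * Real.log t ^ (-(1 + δ)) ≤ |K| * Real.log t ^ (-(1 + δ)) := by
      gcongr; exact le_abs_self K
    rw [a4]
    rw [div_eq_mul_inv (Real.log (j + 2) ^ 2)] at a3
    have a8 := mul_nonneg (abs_nonneg K) a6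
    have a9 := mul_nonneg (sq_nonneg (Real.log (j + 2))) a5
    rw [abs_le] at a1 a3 ⊢
    constructor <;> nlinarith [a1.1, a1.2, a3.1, a3.2]
  have hz : Tendsto (fun t : ℕ => Real.log t ^ (-(1 + δ)) + Real.log t ^ (-(2 : ℝ))) atTop (𝓝 0) := by
    simpa using (tendsto_log_rpow (show 0 < 1 + δ by linarith)).add
      (tendsto_log_rpow (show (0 : ℝ) < 2 by norm_num))
  obtain ⟨K1, hK1, b1⟩ := hb 1 le_rfl
  obtain ⟨K2, hK2, b2⟩ := hb 2 (by norm_num)
  obtain ⟨t0, ht0⟩ := eventually_atTop.1 (b1.and (b2.and (eventually_ge_atTop 2)))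
  have hH0 : Tendsto (fun r : ℕ => HH C r / r) atTop (𝓝 0) := by
    have c1 : Tendsto (fun r : ℕ => Real.log r / r) atTop (𝓝 0) := by
      simpa [Function.comp_def] using (Real.isLittleO_log_id_atTop.tendsto_div_nhds_zero).comp
        tendsto_natCast_atTop_atTop
    have c2 : Tendsto (fun r : ℕ => Real.log (Real.log r) / Real.log r) atTop (𝓝 0) := by
      simpa [Function.comp_def] using (Real.isLittleO_log_id_atTop.tendsto_div_nhds_zero).comp
        (Real.tendsto_log_atTop.comp tendsto_natCast_atTop_atTop)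
    have c3 := ((h0.neg).add (c1.div_const 4)).sub ((c2.mul c1).div_const 8)
    simp only [neg_zero, zero_div, add_zero, mul_zero, sub_zero] at c3
    refine c3.congr' ?_
    filter_upwards [eventually_ge_atTop 2] with r hr
    have hr' : (2 : ℝ) ≤ r := by exact_mod_cast hr
    have hu : 0 < Real.log r := Real.log_pos (by linarith)
    unfold HH
    field_simp
  obtain ⟨l, hl⟩ := conv_of_dd (HH C)
    (fun t => (K1 + K2) * (Real.log t ^ (-(1 + δ)) + Real.log t ^ (-(2 : ℝ)))) t0 hH0
    (fun s t hs hst => by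
      have hs' : (2 : ℝ) ≤ s := by exact_mod_cast (ht0 s hs).2.2
      have hst' : (s : ℝ) ≤ t := by exact_mod_cast hst
      have hu : 0 < Real.log s := Real.log_pos (by linarith)
      have hv : Real.log s ≤ Real.log t := Real.log_le_log (by linarith) hst'
      have d1 := Real.rpow_le_rpow_of_nonpos hu hv (show -(1 + δ) ≤ 0 by linarith)
      have d2 := Real.rpow_le_rpow_of_nonpos hu hv (show -(2 : ℝ) ≤ 0 by norm_num)
      have d3 : 0 ≤ K1 + K2 := by positivity
      exact mul_le_mul_of_nonneg_left (add_le_add d1 d2) d3)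
    (((summable_log_rpow (show 1 < 1 + δ by linarith)).add
      (summable_log_rpow (show (1 : ℝ) < 2 by norm_num))).mul_left _)
    (fun t ht => by
      obtain ⟨d1, d2, d3⟩ := ht0 t ht
      have ht' : (2 : ℝ) ≤ t := by exact_mod_cast d3
      have hu : 0 < Real.log t := Real.log_pos (by linarith)
      have d4 : 0 ≤ Real.log t ^ (-(1 + δ)) + Real.log t ^ (-(2 : ℝ)) :=
        add_nonneg (Real.rpow_nonneg hu.le _) (Real.rpow_nonneg hu.le _)
      constructor <;> nlinarith)
    (fun j hj => by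
      obtain ⟨K, _, hK⟩ := hb j hj
      have d1 := hz.const_mul K
      rw [mul_zero] at d1
      exact squeeze_zero_norm' hK d1)
  refine ⟨Real.exp l, Real.exp_pos l, ((Real.continuous_exp.tendsto l).comp hl).congr' ?_⟩
  filter_upwards [hpos, eventually_ge_atTop 2] with r a1 a2
  have hr' : (2 : ℝ) ≤ r := by exact_mod_cast a2
  have hu : 0 < Real.log r := Real.log_pos (by linarith)
  simp only [Function.comp, HH]
  rw [Real.exp_sub, Real.exp_add, Real.exp_log a1, Real.rpow_def_of_pos (by linarith),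
    Real.rpow_def_of_pos hu]
  simp only [div_eq_mul_inv, one_mul]

end Crest.Agent.T145.Vx35
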