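import Crest.Agent.T145.VxBas_30
import Crest.Agent.T145.VxCal_48

/-!
# Row 145, twisted module: the a priori bound for the micro move (helper15)

`ν` at a core does not depend on the length of the seam, so the other core is put at the distance
`Λ ×` (the scale); Lasota-Yorke and the calibration then give `M ↦ A + M / 2` along the scales `W ^ k ρ₁`.
-/

set_option autoImplicit false

namespace Crest.Agent.T145.Vx

open Finset Filter Topology B30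
open Nc (an Amb)
open Vd (ray)

namespace A15

/-- the same core, another length -/
def rl (V : Vp) (r : ℕ) : Vp := ⟨if V.sd then V.a else V.a + V.r - r, r, V.sd⟩

theorem rl_r (V : Vp) (r : ℕ) : (rl V r).r = r := rfl

theorem rl_p (V : Vp) (r : ℕ) : (rl V r).p = V.p := by
  obtain ⟨a, n, sd⟩ := V
  cases sd <;> simp [rl, Vp.p]

theorem rl_e (V : Vp) (r : ℕ) : (rl V r).e = V.e := by
  obtain ⟨a, n, sd⟩ := V
  cases sd <;> simp [rl, Vp.e]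

theorem rl_σ (V : Vp) {r c : ℕ} (h : c < V.r) (h' : c < r) {e : Pt × Pt}
    (he : e.1 ∈ bl V.p c ∨ e.2 ∈ bl V.p c) : (rl V r).σ e = V.σ e := by
  obtain ⟨a, n, sd⟩ := V
  cases sd <;>
    simp only [rl, Vp.p, Vp.σ, sm, ray, mem_bl, Bool.false_eq_true, if_false, if_true] at h he ⊢ <;>
    split_ifs <;> omega

theorem e_mem (V : Vp) : V.e.1 ∈ bl V.p 1 ∧ V.e.2 ∈ bl V.p 1 := by
  obtain ⟨a, n, sd⟩ := V
  cases sd <;> simp only [Vp.p, Vp.e, mem_bl, Bool.false_eq_true, if_false, if_true] <;> omega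

theorem ins_Dv {b : ℝ} (hb : 0 < b) (V : Vp) : Ins V.p 1 (Dv b V) :=
  ⟨Inf48.depG_mv (xyL b) V.σ (e_mem V).1 (e_mem V).2, Inf48.tame_mv hb V.σ V.e⟩

theorem Dv_rl (b : ℝ) (V : Vp) {r : ℕ} (h : 1 < V.r) (h' : 1 < r) : Dv b (rl V r) = Dv b V := by
  funext s
  simp only [Dv, nE, rl_e, rl_σ V h h' (Or.inl (e_mem V).1)]

theorem Ws_congr (m : Mdl Pt) (η : Cfg Pt) {σ σ' : Pt × Pt → ℤ} (h : ∀ e ∈ m.ed, σ e = σ' e) :
    m.Ws η σ = m.Ws η σ' := by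
  funext s
  simp only [Mdl.Ws]
  rw [prod_congr rfl fun e he => by rw [h e he]]

theorem ν_rl {P : Par} (hP : P.Ok) (V : Vp) {r ρ : ℕ} (h : P.W₀ * ρ < V.r) (h' : P.W₀ * ρ < r)
    (F : Cfg Pt → ℝ) : P.ν (rl V r) ρ F = P.ν V ρ F := by
  have h4 := four_le (ρ := ρ) hP
  have h1 : (P.L.Nr (bl V.p (P.W₀ * ρ)) V.p).Ws 0 (rl V r).σ =
      (P.L.Nr (bl V.p (P.W₀ * ρ)) V.p).Ws 0 V.σ :=
    Ws_congr _ _ fun e he => rl_σ V h h' (Or.inl (Lat.mem_edI.1 he).2.1)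
  have h2 : ∀ s, (P.L.D (bl V.p ρ)).Ws s (rl V r).σ = (P.L.D (bl V.p ρ)).Ws s V.σ := fun s =>
    Ws_congr _ _ fun e he => rl_σ V (c := ρ) (by omega) (by omega) (Lat.mem_edT.1 he).2
  simp only [Par.ν, Par.N, Lat.nrm, Lat.exN, Lat.tr, rl_p, h1, h2]

theorem amb_ev {P : Par} (hP : P.Ok) (U : Finset Pt) :
    ∀ᶠ R : ℕ in atTop, Amb P.L (P.L.D (faces R)) U :=
  (Inf48.tendsto_faces.eventually (eventually_ge_atTop U)).mono fun _ h =>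
    ⟨(lok hP).ctr_D _, (lok hP).anch_D _, h, Lat.near_D h⟩

theorem ins_pr {p : Pt} {D Λc : ℕ} {A : ℝ} {g : Pt → ℝ} (h : Chg p D Λc A g) :
    Ins p (Λc * D) (pr g) :=
  ⟨DepG.pr (fun x hx => by_contra fun h0 => hx (mem_bl_ds.2 (h.1 x h0).2)) h.2.1, Tame.hom _⟩

theorem half_le {x ε : ℝ} (hε : 0 ≤ ε) (h : x ≤ ε ^ 2) : x ^ (1 - 1 / 2 : ℝ) ≤ ε := by
  rw [show (1 - 1 / 2 : ℝ) = 1 / 2 by norm_num, ← Real.sqrt_eq_rpow]
  exact Real.sqrt_le_iff.2 ⟨hε, h⟩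

theorem th_le {W : ℕ} (hW : 16 ≤ W) : (W : ℝ) ^ (-(3 / 4 : ℝ)) ≤ 1 / 4 := by
  have h16 : (16 : ℝ) ≤ W := by exact_mod_cast hW
  calc (W : ℝ) ^ (-(3 / 4 : ℝ)) ≤ (16 : ℝ) ^ (-(3 / 4 : ℝ)) :=
        Real.rpow_le_rpow_of_nonpos (by norm_num) h16 (by norm_num)
    _ ≤ (16 : ℝ) ^ (-(1 / 2 : ℝ)) := Real.rpow_le_rpow_of_exponent_le (by norm_num) (by norm_num)
    _ = 1 / 4 := by
        rw [Real.rpow_neg (by norm_num), ← Real.sqrt_eq_rpow, show (16 : ℝ) = 4 ^ 2 by norm_num,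
          Real.sqrt_sq (by norm_num)]
        norm_num

/-- the contraction, with the gain `ε` -/
theorem nu' (hN : NuStmt) {P : Par} (hP : P.Ok) : ∃ C : ℝ, 0 ≤ C ∧ ∀ (V : Vp) (ρ ρ' : ℕ)
    (F : Cfg Pt → ℝ) (ε : ℝ), P.r₀ ≤ ρ → ρ ≤ ρ' → 2 * (P.W₀ * ρ') ≤ V.r → Ins V.p (ρ + 1) F → 0 ≤ ε →
      (ρ : ℝ) ≤ ε ^ 2 * ρ' → P.ν V ρ' F ≤ C * ε * P.ν V ρ F := by
  obtain ⟨C, hC⟩ := hN P hP (1 / 2) (by norm_num)
  refine ⟨|C|, abs_nonneg _, fun V ρ ρ' F ε h1 h2 h3 hF hε h4 => (hC V ρ ρ' F h1 h2 h3 hF).trans ?_⟩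
  have h0 : (0 : ℝ) < ρ' := by have := hP.r2; exact_mod_cast (by omega : 0 < ρ')
  have h5 := half_le (x := (ρ : ℝ) / ρ') hε ((div_le_iff₀ h0).2 h4)
  exact mul_le_mul_of_nonneg_right (mul_le_mul (le_abs_self _) h5 (by positivity) (abs_nonneg _))
    (ν_nonneg hP _ _ _)

/-- the left functional does not see the other core -/
theorem far (hN : NuStmt) (hC : CovStmt) (hL : LinStmt) (hU : UcStmt) (hY : YStmt) {P : Par}
    (hP : P.Ok) : ∃ (K : ℝ) (r₁ : ℕ), 0 ≤ K ∧ ∀ (V : Vp) (m : Mdl Pt) (ρ s n : ℕ) (F : Cfg Pt → ℝ),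
      r₁ ≤ ρ → ρ < s → 1 ≤ n → V.r = 4 * (P.W₀ * (3 * n ^ 2 * s)) → Amb P.L m (bl V.p (4 * V.r)) →
      Ins V.q (ρ + 1) F → ∀ i, |lf V m s F i| ≤ K / n * s * P.ν V.sw ρ F := by
  obtain ⟨CN, hCN, hN⟩ := nu' hN hP
  obtain ⟨CV, hC⟩ := hC P hP 1
  obtain ⟨CL, rL, hL⟩ := hL P hP 3 (by norm_num)
  obtain ⟨CU, hU⟩ := hU
  refine ⟨|CV| * (CN * (|CL| * |CU|)) * CN, max rL P.r₀, by positivity,
    fun V m ρ s n F hρ hs hn hr hm hF i => ?_⟩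
  have h16 := hP.r2
  have hW := hP.W2
  obtain ⟨hρ1, hρ2⟩ := max_le_iff.1 hρ
  obtain ⟨u1, u2, -⟩ := hU V.p s i (by omega)
  have hI := ins_pr u2
  obtain ⟨-, y2, -⟩ := hY V.σ _ _ u1
  have hn2 : 1 ≤ n ^ 2 := Nat.one_le_pow _ _ hn
  set t := 3 * n ^ 2 * s with ht
  have hst : 3 * s ≤ t := by rw [ht]; nlinarith
  have h4 := four_le (ρ := t) hP
  have hle : P.W₀ * (3 * (s - 1)) ≤ P.W₀ * t := Nat.mul_le_mul_left _ (by omega)
  have e : lf V m s F i = Cv (m.Ws 0 V.σ) (pr (A0 (uc V.p s i))) F := by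
    rw [lf, funext y2, Cv_comm, cv_add_left (amb_se hm _) hI.2 (Tame.const _) hF.2,
      (amb_wt hm _).cv_const_left, add_zero]
  have c1 := (hC V m t t _ F (by omega) (by omega) (by omega) (by omega) hm (ins_le hI (by omega))
    (ins_le hF (by omega))).2.1
  have hn0 : (0 : ℝ) < n := by exact_mod_cast hn
  have hs0 : ((s - 1 : ℕ) : ℝ) ≤ s := by exact_mod_cast Nat.sub_le _ _
  have c2 := hN V (3 * (s - 1)) t _ (1 / n) (by omega) (by omega) (by omega) (ins_le hI (by omega))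
    (by positivity) (by
      rw [ht]; push_cast
      have : (1 / (n : ℝ)) ^ 2 * (3 * n ^ 2 * s) = 3 * s := by field_simp
      rw [this]; linarith)
  have c3 := (hL V (s - 1) CU _ (by omega) (by omega) u2 (Or.inl (by omega))).2 (3 * (s - 1)) le_rfl
    (by omega) (by omega)
  have c4 := hN V.sw ρ t F 1 hρ2 (by omega) (by rw [sw_r]; omega) hF zero_le_one
    (by rw [one_pow, one_mul]; exact_mod_cast (by omega : ρ ≤ t))
  have c5 : P.ν V (3 * (s - 1)) (pr (A0 (uc V.p s i))) ≤ |CL| * |CU| * s := by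
    refine c3.trans (mul_le_mul ?_ hs0 (Nat.cast_nonneg _) (by positivity))
    rw [← abs_mul]; exact le_abs_self _
  have p1 := ν_nonneg hP V t (pr (A0 (uc V.p s i)))
  have p2 := ν_nonneg hP V.sw t F
  have p3 := ν_nonneg hP V.sw ρ F
  rw [e]
  calc _ ≤ |CV| * P.ν V t (pr (A0 (uc V.p s i))) * P.ν V.sw t F :=
        c1.trans (by gcongr; exact le_abs_self _)
    _ ≤ |CV| * (CN * (1 / n) * (|CL| * |CU| * s)) * (CN * 1 * P.ν V.sw ρ F) := by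
        gcongr
        exact c2.trans (by gcongr)
    _ = _ := by ring

/-- one step -/
theorem step {P : Par} (hP : P.Ok) {W : ℕ} (hW : 16 ≤ W) (hLy : Ly P W) (hK : CalStmt) (hM : MicStmt)
    (hN : NuStmt) (hC : CovStmt) (hL : LinStmt) (hU : UcStmt) (hY : YStmt) :
    ∃ (A : ℝ) (ρ₁ : ℕ), P.r₀ ≤ ρ₁ ∧ ∀ (ρ : ℕ) (M : ℝ), ρ₁ ≤ ρ →
      (∀ V : Vp, 2 * (P.W₀ * ρ) ≤ V.r → ρ * P.ν V ρ (Dv P.b V) ≤ M) →
      ∀ V : Vp, 2 * (P.W₀ * (W * ρ)) ≤ V.r → (W * ρ : ℕ) * P.ν V (W * ρ) (Dv P.b V) ≤ A + M / 2 := by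
  obtain ⟨CL, rL, hLy⟩ := hLy
  obtain ⟨CK, rK, hK⟩ := hK P hP
  obtain ⟨-, c₀, CM, rM, hc₀, hM⟩ := hM P hP
  obtain ⟨K, rF, hK0, hF⟩ := far hN hC hL hU hY hP
  obtain ⟨n, hn⟩ := exists_nat_ge (4 * (|CL| * |CM| * (K * (8 * (P.W₀ * W) : ℕ)) / c₀) + 1)
  have hq : 0 ≤ |CL| * |CM| * (K * (8 * (P.W₀ * W) : ℕ)) / c₀ := by positivity
  have hn1 : (1 : ℝ) ≤ n := by linarith
  have hn1' : 1 ≤ n := by exact_mod_cast hn1
  set B := 4 * (P.W₀ * (3 * n ^ 2 * (8 * (P.W₀ * W)))) with hB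
  obtain ⟨E, hE⟩ := exists_nat_ge (Real.exp (B + 1))
  refine ⟨|CL| * (|CM| * (|CK| + 1)), P.r₀ + rL + rK + rM + rF + E, by omega,
    fun ρ M hρ hM' V₀ hV₀ => ?_⟩
  have h16 := hP.r2
  have hW₀ := hP.W2
  have hb := b_pos hP
  have hρ0 : (0 : ℝ) < ρ := by exact_mod_cast (by omega : 0 < ρ)
  have w1 : 16 * ρ ≤ W * ρ := Nat.mul_le_mul_right _ hW
  have w2 := four_le (ρ := W * ρ) hP
  have w3 : P.W₀ * ρ ≤ P.W₀ * (W * ρ) := Nat.mul_le_mul_left _ (by omega)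
  set s := 8 * (P.W₀ * (W * ρ)) with hs
  have hn2 : 1 ≤ n ^ 2 := Nat.one_le_pow _ _ hn1'
  have w4 : 3 * s ≤ 3 * n ^ 2 * s := by nlinarith
  have w5 := four_le (ρ := 3 * n ^ 2 * s) hP
  set r := 4 * (P.W₀ * (3 * n ^ 2 * s)) with hr
  have hrB : r = B * ρ := by rw [hr, hs, hB]; ring
  rw [← ν_rl hP V₀ (r := r) (by omega) (by omega), ← Dv_rl P.b V₀ (r := r) (by omega) (by omega)]
  have hVr := rl_r V₀ r
  generalize rl V₀ r = V at hVr ⊢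
  obtain ⟨R₀, hLy⟩ := hLy V (by omega)
  obtain ⟨R, ⟨k0, k1⟩, a1, a2, a3⟩ := ((hK V s (by omega) (by omega)).and ((amb_ev hP (bl V.p R₀)).and
    ((amb_ev hP (bl V.p (4 * V.r))).and (amb_ev hP (bl V.q (4 * V.r)))))).exists
  generalize P.L.D (faces R) = m at k0 k1 a1 a2 a3
  have lρ : (B : ℝ) + 1 ≤ Real.log ρ := by
    rw [Real.le_log_iff_exp_le hρ0]
    exact hE.trans (by exact_mod_cast (by omega : E ≤ ρ))
  have hB0 : (0 : ℝ) ≤ B := Nat.cast_nonneg _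
  have lg : ∀ k : ℕ, ρ ≤ k → (B : ℝ) + 1 ≤ Real.log k := fun k hk =>
    lρ.trans (Real.log_le_log hρ0 (by exact_mod_cast hk))
  have hwin : (V.r : ℝ) ≤ ρ * V.t ^ 3 := by
    have h1 := lg V.r (by omega)
    have h2 : V.t ^ 1 ≤ V.t ^ 3 := pow_le_pow_right₀ (by rw [Vp.t]; linarith) (by norm_num)
    rw [pow_one] at h2
    have h3 : (B : ℝ) ≤ V.t ^ 3 := le_trans (by rw [Vp.t]; linarith) h2
    calc (V.r : ℝ) = ρ * B := by rw [hVr, hrB]; push_cast; ring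
      _ ≤ _ := by gcongr
  have l1 := hLy m ρ _ a1 hwin (by omega) (ins_le (ins_Dv hb V) (by omega))
  obtain ⟨m1, m2, -⟩ := hM V m (by omega) a2
  obtain ⟨m3, -⟩ := hM V.sw m (by rw [sw_r]; omega) a3
  have f1 := hF V m ρ s n _ (by omega) (by omega) hn1' hVr a2 (ins_le (ins_Dv hb V.sw) (by omega)) 1
  have g1 := hM' V (by omega)
  have g2 := hM' V.sw (by rw [sw_r]; omega)
  have p1 := mul_nonneg hρ0.le (ν_nonneg hP V ρ (Dv P.b V))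
  have hM0 : 0 ≤ M := p1.trans g1
  rw [sw_σ] at m3
  rw [Fin.sum_univ_two, ← hs, k0, abs_zero, zero_add] at l1
  have l2 : Real.log s ^ (-1 - P.δ) ≤ 1 :=
    Real.rpow_le_one_of_one_le_of_nonpos (by linarith [lg s (by omega)]) (by linarith [hP.δ0])
  have l3 : CK * Real.log s ^ (-1 - P.δ) ≤ |CK| :=
    (mul_le_mul (le_abs_self _) l2 (Real.rpow_nonneg (Real.log_natCast_nonneg _) _)
      (abs_nonneg _)).trans_eq (mul_one _)
  generalize lf V m s (Dv P.b V) 1 = x at k1 l1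
  generalize lf V m s (Dv P.b V.sw) 1 = y at k1 f1
  generalize Ex (m.Ws 0 V.σ) (Dv P.b V) = a at k1 m1 m2
  generalize Ex (m.Ws 0 V.σ) (Dv P.b V.sw) = a' at k1 m3
  have ha : 0 < a := hc₀.trans_le m1
  have ha' : 0 < a' := hc₀.trans_le m3
  have f2 : |y| ≤ K * (8 * (P.W₀ * W) : ℕ) / n * M := by
    refine f1.trans ?_
    calc K / n * s * P.ν V.sw ρ (Dv P.b V.sw)
        = K * (8 * (P.W₀ * W) : ℕ) / n * (ρ * P.ν V.sw ρ (Dv P.b V.sw)) := by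
          rw [hs]; push_cast; ring
      _ ≤ _ := by gcongr
  have f3 : |y / a'| ≤ K * (8 * (P.W₀ * W) : ℕ) / n * M / c₀ := by
    rw [abs_div, abs_of_pos ha']; gcongr
  have f4 : |x / a| ≤ |CK| + 1 + K * (8 * (P.W₀ * W) : ℕ) / n * M / c₀ := by
    have h1 := abs_le.1 (k1.trans l3)
    have h2 := abs_le.1 f3
    rw [abs_le]; constructor <;> linarith [h1.1, h1.2, h2.1, h2.2]
  have f5 : |x| ≤ |CM| * (|CK| + 1 + K * (8 * (P.W₀ * W) : ℕ) / n * M / c₀) := by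
    rw [abs_div, abs_of_pos ha, div_le_iff₀ ha] at f4
    refine f4.trans ?_
    rw [mul_comm]
    exact mul_le_mul_of_nonneg_right (m2.trans (le_abs_self _)) (by positivity)
  have f6 : |CL| * |CM| * (K * (8 * (P.W₀ * W) : ℕ)) / c₀ / n ≤ 1 / 4 := by
    rw [div_le_iff₀ (by linarith)]; linarith
  have f7 := mul_le_mul (th_le hW) g1 p1 (by norm_num)
  calc _ ≤ CL * |x| + _ := l1
    _ ≤ |CL| * (|CM| * (|CK| + 1 + K * (8 * (P.W₀ * W) : ℕ) / n * M / c₀)) + 1 / 4 * M :=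
        add_le_add (mul_le_mul (le_abs_self _) f5 (abs_nonneg _) (abs_nonneg _)) f7
    _ = |CL| * (|CM| * (|CK| + 1)) + |CL| * |CM| * (K * (8 * (P.W₀ * W) : ℕ)) / c₀ / n * M +
          1 / 4 * M := by ring
    _ ≤ _ := by linarith [mul_le_mul_of_nonneg_right f6 hM0]

end A15

open A15

theorem aprStmt (hLy : LyStmt) (hK : CalStmt) (hM : MicStmt) (hN : NuStmt) (hC : CovStmt) (hL : LinStmt)
    (hU : UcStmt) (hY : YStmt) (hT : TrStmt) : AprStmt := by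
  intro P hP
  obtain ⟨W, hW, hLy⟩ := hLy P hP
  obtain ⟨A, ρ₁, hρ₁, hS⟩ := step hP hW hLy hK hM hN hC hL hU hY
  obtain ⟨CN, hCN, hN⟩ := nu' hN hP
  obtain ⟨C, hC⟩ := (hM P hP).1 (P.W₀ * P.r₀)
  have h16 := hP.r2
  have hb := b_pos hP
  have h4 := four_le (ρ := P.r₀) hP
  have mono : ∀ (V : Vp) (ρ ρ' : ℕ), P.r₀ ≤ ρ → ρ ≤ ρ' → 2 * (P.W₀ * ρ') ≤ V.r →
      P.ν V ρ' (Dv P.b V) ≤ CN * P.ν V ρ (Dv P.b V) := fun V ρ ρ' h1 h2 h3 => by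
    simpa only [mul_one] using hN V ρ ρ' _ 1 h1 h2 h3 (ins_le (ins_Dv hb V) (by omega)) zero_le_one
      (by rw [one_pow, one_mul]; exact_mod_cast h2)
  have base : ∀ (V : Vp) (ρ : ℕ), P.r₀ ≤ ρ → ρ ≤ ρ₁ → 2 * (P.W₀ * ρ) ≤ V.r →
      ρ * P.ν V ρ (Dv P.b V) ≤ ρ₁ * (CN * (2 * C)) := fun V ρ h1 h2 h3 => by
    have h5 : P.W₀ * P.r₀ ≤ P.W₀ * ρ := Nat.mul_le_mul_left _ h1
    have h6 := (hC V V.p V.p (by omega) (by rw [ds_self]; omega) (by rw [ds_self]; omega) (by omega)).2.2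
    have h7 := ν_le_N' hP hT (ins_le (ins_Dv hb V) (by omega : 1 ≤ P.r₀ + 1)) (by omega)
    have h8 : P.ν V ρ (Dv P.b V) ≤ CN * (2 * C) := (mono V _ _ le_rfl h1 h3).trans
      (mul_le_mul_of_nonneg_left (h7.trans (mul_le_mul_of_nonneg_left h6 zero_le_two)) hCN)
    exact mul_le_mul (by exact_mod_cast h2) h8 (ν_nonneg hP _ _ _) (Nat.cast_nonneg _)
  set M := max (ρ₁ * (CN * (2 * C))) (2 * A) with hM
  have ind : ∀ (k : ℕ) (V : Vp), 2 * (P.W₀ * (W ^ k * ρ₁)) ≤ V.r →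
      (W ^ k * ρ₁ : ℕ) * P.ν V (W ^ k * ρ₁) (Dv P.b V) ≤ M := fun k => by
    induction k with
    | zero =>
      intro V hV
      rw [pow_zero, one_mul] at hV ⊢
      exact (base V ρ₁ hρ₁ le_rfl hV).trans (le_max_left _ _)
    | succ k ih =>
      intro V hV
      rw [pow_succ', mul_assoc] at hV ⊢
      have h1 := hS _ M (Nat.le_mul_of_pos_left _ (Nat.pow_pos (by omega))) ih V hV
      linarith [le_max_right (ρ₁ * (CN * (2 * C))) (2 * A)]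
  refine ⟨max M (W * CN * M), fun V ρ h1 h2 => ?_⟩
  rcases le_total ρ ρ₁ with h3 | h3
  · exact (base V ρ h1 h3 h2).trans ((le_max_left _ _).trans (le_max_left _ _))
  · have q1 : 1 ≤ ρ / ρ₁ := (Nat.one_le_div_iff (by omega)).2 h3
    set k := Nat.log W (ρ / ρ₁)
    have q2 : W ^ k * ρ₁ ≤ ρ := (Nat.mul_le_mul_right _ (Nat.pow_log_le_self W (by omega))).trans
      (Nat.div_mul_le_self _ _)
    have q3 : ρ ≤ W * (W ^ k * ρ₁) := by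
      have := (Nat.div_lt_iff_lt_mul (by omega)).1 (Nat.lt_pow_succ_log_self (by omega : 1 < W) (ρ / ρ₁))
      rw [pow_succ', mul_assoc] at this
      exact this.le
    have q4 : ρ₁ ≤ W ^ k * ρ₁ := Nat.le_mul_of_pos_left _ (Nat.pow_pos (by omega))
    have q5 : P.W₀ * (W ^ k * ρ₁) ≤ P.W₀ * ρ := Nat.mul_le_mul_left _ q2
    have q6 := ind k V (by omega)
    have q7 := mono V _ ρ (hρ₁.trans q4) q2 h2
    refine le_trans ?_ (le_max_right _ _)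
    calc ρ * P.ν V ρ (Dv P.b V)
        ≤ (W * (W ^ k * ρ₁) : ℕ) * (CN * P.ν V (W ^ k * ρ₁) (Dv P.b V)) :=
          mul_le_mul (by exact_mod_cast q3) q7 (ν_nonneg hP _ _ _) (Nat.cast_nonneg _)
      _ = W * CN * ((W ^ k * ρ₁ : ℕ) * P.ν V (W ^ k * ρ₁) (Dv P.b V)) := by
          rw [Nat.cast_mul W]; ring
      _ ≤ _ := by gcongr

end Crest.Agent.T145.Vx
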