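import Crest.Agent.T145.T3b_50
import Crest.Agent.T145.PotL_17
import Crest.Agent.T145.MidDef_97

/-!
# Row 145, twisted module: the deterministic half of Lemma B (helper27)
-/

set_option autoImplicit false

namespace Crest.Agent.T145.Vb27

open Finset Pot

/-- the weight of the pair `(z, w)` -/
def Ph (u u' : Pt → ℝ) (z w : Pt) : ℝ := (u z - u w) * (u' z - u' w)

theorem Ph_comm (u u' : Pt → ℝ) (z w : Pt) : Ph u u' z w = Ph u u' w z := by unfold Ph; ring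

theorem Ph_self (u u' : Pt → ℝ) (z : Pt) : Ph u u' z z = 0 := by simp [Ph]

/-- (B0) -/
theorem alg (D : Finset Pt) (χ u u' : Pt → ℝ) (c : Pt → Pt → ℝ) (hc : ∀ z w, c z w = c w z) :
    ∑ z ∈ D, ∑ w ∈ D, χ z * χ w * Ph u u' z w * c z w =
      2 * ∑ z ∈ D, ∑ w ∈ D, χ z * u z * u' z * χ w * c z w -
        2 * ∑ z ∈ D, ∑ w ∈ D, χ z * u z * (χ w * u' w) * c z w := by
  have h1 : ∑ z ∈ D, ∑ w ∈ D, χ w * u w * u' w * χ z * c z w =
      ∑ z ∈ D, ∑ w ∈ D, χ z * u z * u' z * χ w * c z w := by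
    rw [sum_comm]; exact sum_congr rfl fun z _ => sum_congr rfl fun w _ => by rw [hc]
  have h2 : ∑ z ∈ D, ∑ w ∈ D, χ w * u w * (χ z * u' z) * c z w =
      ∑ z ∈ D, ∑ w ∈ D, χ z * u z * (χ w * u' w) * c z w := by
    rw [sum_comm]; exact sum_congr rfl fun z _ => sum_congr rfl fun w _ => by rw [hc]
  rw [two_mul, two_mul]
  nth_rewrite 1 [← h1, ← h2]
  simp only [← sum_add_distrib, ← sum_sub_distrib]
  exact sum_congr rfl fun z _ => sum_congr rfl fun w _ => by unfold Ph; ring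

theorem n2_eq (x : Pt) : n2 x = eu x ^ 2 := (eu_sq x).symm

theorem n2_nonneg (x : Pt) : 0 ≤ n2 x := by unfold n2; positivity

/-- shell summation -/
theorem sum_shell (z : Pt) (f : Pt → ℝ) (g : ℕ → ℝ) (l : ℕ) : ∀ n : ℕ,
    (∀ k, l ≤ k → k < n → ∀ x, x ∈ bl z (k + 1) → x ∉ bl z k → f x ≤ g k) →
    ∑ x ∈ bl z n \ bl z l, f x ≤ ∑ k ∈ Ico l n, 8 * ((k : ℝ) + 1) * g k
  | 0, _ => by
    rw [sdiff_eq_empty_iff_subset.2 (bl_mono z l.zero_le)]; simp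
  | n + 1, h => by
    by_cases hl : l ≤ n
    · have ih := sum_shell z f g l n fun k h1 h2 => h k h1 (by omega)
      have hs : bl z n ⊆ bl z (n + 1) := bl_mono z n.le_succ
      have e : bl z (n + 1) \ bl z l = (bl z (n + 1) \ bl z n) ∪ (bl z n \ bl z l) :=
        (sdiff_union_sdiff_cancel hs (bl_mono z hl)).symm
      have hd : Disjoint (bl z (n + 1) \ bl z n) (bl z n \ bl z l) :=
        disjoint_left.2 fun x h1 h2 => (mem_sdiff.1 h1).2 (mem_sdiff.1 h2).1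
      rw [e, sum_union hd, sum_Ico_succ_top hl]
      have h1 : ∑ x ∈ bl z (n + 1) \ bl z n, f x ≤ (bl z (n + 1) \ bl z n).card • g n :=
        sum_le_card_nsmul _ _ _ fun y hy =>
          h n hl n.lt_succ_self y (mem_sdiff.1 hy).1 (mem_sdiff.1 hy).2
      have h2 : (bl z (n + 1) \ bl z n).card = 8 * (n + 1) := by
        rw [card_sdiff_of_subset hs, card_bl, card_bl]
        exact Nat.sub_eq_of_eq_add (by ring)
      rw [h2, nsmul_eq_mul] at h1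
      push_cast at h1
      linarith
    · rw [sdiff_eq_empty_iff_subset.2 (bl_mono z (by omega)), Ico_eq_empty (by omega)]; simp

theorem sum_inv_le (l : ℕ) (hl : 1 ≤ l) : ∀ n : ℕ, l ≤ n →
    ∑ k ∈ Ico l n, ((k : ℝ) + 1)⁻¹ ≤ Real.log (n / l)
  | 0, h => by omega
  | n + 1, h => by
    have hl' : (0 : ℝ) < l := by exact_mod_cast hl
    rcases h.eq_or_lt with h1 | h1
    · rw [← h1, div_self hl'.ne']; simp
    have h2 : l ≤ n := by omega
    have hn : (0 : ℝ) < n := by exact_mod_cast hl.trans h2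
    rw [sum_Ico_succ_top h2]
    have ih := sum_inv_le l hl n h2
    have h3 := Real.one_sub_inv_le_log_of_pos (x := ((n : ℝ) + 1) / n) (by positivity)
    have h4 : Real.log (((n + 1 : ℕ) : ℝ) / l) = Real.log (n / l) + Real.log (((n : ℝ) + 1) / n) := by
      rw [← Real.log_mul (by positivity) (by positivity)]; congr 1; push_cast; field_simp
    have h5 : 1 - (((n : ℝ) + 1) / n)⁻¹ = ((n : ℝ) + 1)⁻¹ := by field_simp; ring
    linarith

/-- `∑ 1 / |x|²` over an annulus -/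
theorem sum_inv_sq (z : Pt) {l n : ℕ} (hl : 1 ≤ l) (hn : l ≤ n) :
    ∑ x ∈ bl z n \ bl z l, (eu (x - z) ^ 2)⁻¹ ≤ 8 * Real.log (n / l) := by
  refine (sum_shell z _ (fun k => (((k : ℝ) + 1) ^ 2)⁻¹) l n fun k _ _ x _ hx => ?_).trans ?_
  · exact inv_anti₀ (by positivity) (pow_le_pow_left₀ (by positivity) (le_eu_of_not_bl hx) 2)
  · refine le_trans (le_of_eq ?_) (mul_le_mul_of_nonneg_left (sum_inv_le l hl n hn) (by norm_num))
    rw [mul_sum]
    exact sum_congr rfl fun k _ => by field_simp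

/-- (B1) a set of pairs with a product bound -/
theorem pairs (D : Finset Pt) (P : Pt → Finset Pt) (f : Pt → Pt → ℝ) (B ψ ω : Pt → ℝ) (y β L : ℝ)
    (hP : ∀ z ∈ D, P z ⊆ D) (hy : 0 ≤ y) (hB : ∀ z, 0 ≤ B z ∧ B z ≤ β) (hψ : ∀ z, 0 ≤ ψ z)
    (hω : ∀ z, 0 ≤ ω z) (hL : ∀ z ∈ D, ∑ w ∈ P z, (eu (w - z) ^ 2)⁻¹ ≤ L)
    (h : ∀ z ∈ D, ∀ w ∈ P z, |f z w| ≤
      B z * B w * (y ^ 2 * (eu (w - z) ^ 2)⁻¹ + y * (ψ z + ψ w) + ω z * ω w)) :
    |∑ z ∈ D, ∑ w ∈ P z, f z w| ≤ y ^ 2 * β * L * ∑ z ∈ D, B z +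
      2 * y * (∑ z ∈ D, B z * ψ z) * ∑ z ∈ D, B z + (∑ z ∈ D, B z * ω z) ^ 2 := by
  have key : ∀ z ∈ D, |∑ w ∈ P z, f z w| ≤ y ^ 2 * β * L * B z +
      ∑ w ∈ D, (y * (B z * ψ z * B w) + y * (B z * (B w * ψ w)) + B z * ω z * (B w * ω w)) := by
    intro z hz
    have hz0 := (hB z).1
    refine (abs_sum_le_sum_abs _ _).trans ((sum_le_sum (h z hz)).trans ?_)
    have h1 : ∑ w ∈ P z, B z * B w * (y ^ 2 * (eu (w - z) ^ 2)⁻¹) ≤ y ^ 2 * β * L * B z := by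
      calc _ ≤ ∑ w ∈ P z, y ^ 2 * β * B z * (eu (w - z) ^ 2)⁻¹ := sum_le_sum fun w _ => by
            have : 0 ≤ y ^ 2 * B z * (eu (w - z) ^ 2)⁻¹ := by positivity
            nlinarith [(hB w).2]
        _ ≤ y ^ 2 * β * B z * L := by
            rw [← mul_sum]
            exact mul_le_mul_of_nonneg_left (hL z hz) (by have := hz0.trans (hB z).2; positivity)
        _ = _ := by ring
    have h2 : ∑ w ∈ P z, (y * (B z * ψ z * B w) + y * (B z * (B w * ψ w)) + B z * ω z * (B w * ω w)) ≤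
        ∑ w ∈ D, (y * (B z * ψ z * B w) + y * (B z * (B w * ψ w)) + B z * ω z * (B w * ω w)) :=
      sum_le_sum_of_subset_of_nonneg (hP z hz) fun w _ _ => by
        have := (hB w).1; have := hψ z; have := hψ w; have := hω z; have := hω w; positivity
    refine le_trans (le_of_eq ?_) (add_le_add h1 h2)
    rw [← sum_add_distrib]
    exact sum_congr rfl fun w _ => by ring
  refine (abs_sum_le_sum_abs _ _).trans ((sum_le_sum key).trans (le_of_eq ?_))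
  simp only [sum_add_distrib, ← mul_sum, ← sum_mul]
  ring

/-- second moments of a symmetric kernel -/
theorem moments (k : Pt → ℝ) (l : ℕ) (h1 : ∀ x : Pt, k x.swap = k x) (h2 : ∀ x : Pt, k (-x.1, x.2) = k x) :
    ∑ x ∈ bl 0 l, k x * ((x.1 : ℝ) * x.2) = 0 ∧
      ∑ x ∈ bl 0 l, k x * (x.1 : ℝ) ^ 2 = (∑ x ∈ bl 0 l, k x * n2 x) / 2 ∧
      ∑ x ∈ bl 0 l, k x * (x.2 : ℝ) ^ 2 = (∑ x ∈ bl 0 l, k x * n2 x) / 2 := by
  have a1 : ∑ x ∈ bl 0 l, k x * ((x.1 : ℝ) * x.2) = ∑ x ∈ bl 0 l, -(k x * ((x.1 : ℝ) * x.2)) :=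
    sum_bij' (fun x _ => (-x.1, x.2)) (fun x _ => (-x.1, x.2))
      (fun x hx => by rw [mem_bl] at hx ⊢; simp at hx ⊢; omega)
      (fun x hx => by rw [mem_bl] at hx ⊢; simp at hx ⊢; omega)
      (fun x _ => by simp) (fun x _ => by simp) fun x _ => by rw [h2]; push_cast; ring
  have a2 : ∑ x ∈ bl 0 l, k x * (x.1 : ℝ) ^ 2 = ∑ x ∈ bl 0 l, k x * (x.2 : ℝ) ^ 2 :=
    sum_bij' (fun x _ => x.swap) (fun x _ => x.swap)
      (fun x hx => by rw [mem_bl] at hx ⊢; simp at hx ⊢; omega)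
      (fun x hx => by rw [mem_bl] at hx ⊢; simp at hx ⊢; omega)
      (fun x _ => by simp) (fun x _ => by simp) fun x _ => by rw [h1]; simp
  have a3 : ∑ x ∈ bl 0 l, k x * n2 x =
      ∑ x ∈ bl 0 l, k x * (x.1 : ℝ) ^ 2 + ∑ x ∈ bl 0 l, k x * (x.2 : ℝ) ^ 2 := by
    rw [← sum_add_distrib]; exact sum_congr rfl fun x _ => by unfold n2; ring
  rw [sum_neg_distrib] at a1
  exact ⟨by linarith, by linarith, by linarith⟩

/-- the Dirichlet density -/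
def gg (u u' : Pt → ℝ) (z : Pt) : ℝ := df 0 u z * df 0 u' z + df 1 u z * df 1 u' z

theorem tay {u : Pt → ℝ} {K L : ℝ} (hu : Sm2 u K L) (z : Pt) {l : ℕ} {x : Pt} (hx : x ∈ bl 0 l) :
    |u (z + x) - u z - (df 0 u z * x.1 + df 1 u z * x.2)| ≤ K / L ^ 2 * (4 * l) * eu x ∧
      |df 0 u z * x.1 + df 1 u z * x.2| ≤ K / L * (2 * eu x) ∧
      |u (z + x) - u z| ≤ K / L * (2 * eu x) := by
  have hm : z + x ∈ bl z l := by rw [mem_bl] at hx ⊢; simp at hx ⊢; omega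
  have a1 := abs_fst_le_eu x
  have a2 := abs_snd_le_eu x
  have k1 : 0 ≤ K / L := (abs_nonneg _).trans (hu.1 0 0)
  have k2 : 0 ≤ K / L ^ 2 := (abs_nonneg _).trans (hu.2 0 0 0)
  refine ⟨?_, ?_, ?_⟩
  · have := T3b50.taylor hu hm (self_mem_bl z l)
    simp only [Prod.fst_add, Prod.snd_add, Int.cast_add, add_sub_cancel_left] at this
    refine this.trans ?_
    have : 0 ≤ K / L ^ 2 * (2 * l) := by positivity
    nlinarith
  · refine (abs_add_le _ _).trans ?_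
    rw [abs_mul, abs_mul]
    have b1 := mul_le_mul (hu.1 0 z) a1 (abs_nonneg _) k1
    have b2 := mul_le_mul (hu.1 1 z) a2 (abs_nonneg _) k1
    linarith
  · have := T3b50.lipG u _ hu.1 (z + x) z
    simp only [Prod.fst_add, Prod.snd_add, Int.cast_add, add_sub_cancel_left] at this
    exact this.trans (mul_le_mul_of_nonneg_left (by linarith) k1)

/-- (B2) near pairs against a symmetric kernel -/
theorem near {u u' : Pt → ℝ} {K L K' L' : ℝ} (hu : Sm2 u K L) (hu' : Sm2 u' K' L') (k : Pt → ℝ) (l : ℕ)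
    (h1 : ∀ x : Pt, k x.swap = k x) (h2 : ∀ x : Pt, k (-x.1, x.2) = k x) (z : Pt) :
    |∑ x ∈ bl 0 l, Ph u u' z (z + x) * k x - gg u u' z * ((∑ x ∈ bl 0 l, k x * n2 x) / 2)| ≤
      8 * l * (K / L ^ 2 * (K' / L') + K / L * (K' / L' ^ 2)) * ∑ x ∈ bl 0 l, |k x| * n2 x := by
  obtain ⟨m1, m2, m3⟩ := moments k l h1 h2
  have e : gg u u' z * ((∑ x ∈ bl 0 l, k x * n2 x) / 2) = ∑ x ∈ bl 0 l,
      (df 0 u z * x.1 + df 1 u z * x.2) * (df 0 u' z * x.1 + df 1 u' z * x.2) * k x := by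
    have : ∀ x : Pt, (df 0 u z * x.1 + df 1 u z * x.2) * (df 0 u' z * x.1 + df 1 u' z * x.2) * k x =
        df 0 u z * df 0 u' z * (k x * (x.1 : ℝ) ^ 2) + df 1 u z * df 1 u' z * (k x * (x.2 : ℝ) ^ 2) +
          (df 0 u z * df 1 u' z + df 1 u z * df 0 u' z) * (k x * ((x.1 : ℝ) * x.2)) := fun x => by ring
    simp only [this, sum_add_distrib, ← mul_sum, m1, m2, m3, gg]
    ring
  rw [e, ← sum_sub_distrib, mul_sum]
  refine (abs_sum_le_sum_abs _ _).trans (sum_le_sum fun x hx => ?_)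
  obtain ⟨a1, a2, -⟩ := tay hu z hx
  obtain ⟨b1, -, b3⟩ := tay hu' z hx
  set p := df 0 u z * x.1 + df 1 u z * x.2
  set p' := df 0 u' z * x.1 + df 1 u' z * x.2
  have e2 : Ph u u' z (z + x) * k x - p * p' * k x =
      ((u (z + x) - u z - p) * (u' (z + x) - u' z) + p * (u' (z + x) - u' z - p')) * k x := by
    unfold Ph; ring
  rw [e2, abs_mul, n2_eq]
  have c1 := mul_le_mul a1 b3 (abs_nonneg _) ((abs_nonneg _).trans a1)
  have c2 := mul_le_mul a2 b1 (abs_nonneg _) ((abs_nonneg _).trans a2)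
  have c3 := abs_add_le ((u (z + x) - u z - p) * (u' (z + x) - u' z)) (p * (u' (z + x) - u' z - p'))
  rw [abs_mul, abs_mul] at c3
  refine (mul_le_mul_of_nonneg_right (c3.trans (add_le_add c1 c2)) (abs_nonneg _)).trans (le_of_eq ?_)
  ring

theorem sum_bl_shift (z : Pt) (l : ℕ) (f : Pt → ℝ) : ∑ w ∈ bl z l, f w = ∑ x ∈ bl 0 l, f (z + x) :=
  (sum_bij' (fun x _ => z + x) (fun w _ => w - z)
    (fun x hx => by rw [mem_bl] at hx ⊢; simp at hx ⊢; omega)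
    (fun x hx => by rw [mem_bl] at hx ⊢; simp at hx ⊢; omega)
    (fun x _ => by simp) (fun x _ => by simp) fun x _ => rfl).symm

theorem abs_Ph_le {u u' : Pt → ℝ} {K L K' L' : ℝ} (hu : Sm2 u K L) (hu' : Sm2 u' K' L') (z x : Pt) :
    |Ph u u' z (z + x)| ≤ 4 * (K / L * (K' / L')) * n2 x := by
  obtain ⟨l, hl⟩ := exists_subset_bl {x} 0
  have hx := hl (mem_singleton_self x)
  obtain ⟨-, -, a⟩ := tay hu z hx
  obtain ⟨-, -, b⟩ := tay hu' z hx
  rw [Ph_comm, Ph, abs_mul, n2_eq]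
  refine (mul_le_mul a b (abs_nonneg _) ((abs_nonneg _).trans a)).trans (le_of_eq ?_)
  ring

/-- the deterministic Lemma B -/
theorem master {D S : Finset Pt} {l : ℕ} {χ u u' k : Pt → ℝ} {c : Pt → Pt → ℝ} {K L K' L' E₀ E₁ : ℝ}
    (hc : ∀ z w, c z w = c w z) (hSD : S ⊆ D) (hS : ∀ z ∈ S, ∀ w ∈ bl z l, w ∈ D ∧ χ w = 1)
    (hS' : ∀ z ∈ D, z ∉ S → ∀ w ∈ bl z l, Ph u u' z w = 0) (hu : Sm2 u K L) (hu' : Sm2 u' K' L')
    (h1 : ∀ x : Pt, k x.swap = k x) (h2 : ∀ x : Pt, k (-x.1, x.2) = k x)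
    (h0 : |∑ z ∈ D, ∑ w ∈ D \ bl z l, χ z * χ w * Ph u u' z w * c z w| ≤ E₀)
    (hE : ∑ z ∈ S, ∑ x ∈ bl 0 l, |c z (z + x) - k x| * n2 x ≤ E₁) :
    |∑ z ∈ D, ∑ w ∈ D, χ z * u z * (χ w * u' w) * c z w -
        (-(1 / 4) * ∑ x ∈ bl 0 l, k x * n2 x) * ∑ z ∈ S, gg u u' z| ≤
      |∑ z ∈ D, ∑ w ∈ D, χ z * u z * u' z * χ w * c z w| + E₀ / 2 + 2 * (K / L * (K' / L')) * E₁ +
        4 * l * (K / L ^ 2 * (K' / L') + K / L * (K' / L' ^ 2)) * S.card * ∑ x ∈ bl 0 l, |k x| * n2 x := by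
  have e1 : ∑ z ∈ D, ∑ w ∈ D, χ z * χ w * Ph u u' z w * c z w =
      ∑ z ∈ D, ∑ w ∈ D \ bl z l, χ z * χ w * Ph u u' z w * c z w +
        ∑ z ∈ S, ∑ x ∈ bl 0 l, Ph u u' z (z + x) * c z (z + x) := by
    have a1 : ∀ z ∈ D, ∑ w ∈ D, χ z * χ w * Ph u u' z w * c z w =
        ∑ w ∈ D \ bl z l, χ z * χ w * Ph u u' z w * c z w +
          ∑ w ∈ D ∩ bl z l, χ z * χ w * Ph u u' z w * c z w := fun z _ => by
      rw [← sum_sdiff (inter_subset_left (s₁ := D) (s₂ := bl z l)), sdiff_inter_self_left]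
    rw [sum_congr rfl a1, sum_add_distrib]
    congr 1
    rw [← sum_subset hSD fun z hz hz' => sum_eq_zero fun w hw => by
      rw [hS' z hz hz' w (mem_inter.1 hw).2]; ring]
    refine sum_congr rfl fun z hz => ?_
    rw [inter_eq_right.2 fun w hw => (hS z hz w hw).1, ← sum_bl_shift z l fun w => Ph u u' z w * c z w]
    exact sum_congr rfl fun w hw => by
      rw [(hS z hz w hw).2, (hS z hz z (self_mem_bl z l)).2]; ring
  have k1 : 0 ≤ K / L := (abs_nonneg _).trans (hu.1 0 0)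
  have k1' : 0 ≤ K' / L' := (abs_nonneg _).trans (hu'.1 0 0)
  have e2 : |∑ z ∈ S, ∑ x ∈ bl 0 l, Ph u u' z (z + x) * c z (z + x) -
      ∑ z ∈ S, ∑ x ∈ bl 0 l, Ph u u' z (z + x) * k x| ≤ 4 * (K / L * (K' / L')) * E₁ := by
    refine le_trans ?_ (mul_le_mul_of_nonneg_left hE (by positivity))
    rw [← sum_sub_distrib, mul_sum]
    refine (abs_sum_le_sum_abs _ _).trans (sum_le_sum fun z _ => ?_)
    rw [← sum_sub_distrib, mul_sum]
    refine (abs_sum_le_sum_abs _ _).trans (sum_le_sum fun x _ => ?_)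
    rw [← mul_sub, abs_mul]
    refine (mul_le_mul_of_nonneg_right (abs_Ph_le hu hu' z x) (abs_nonneg _)).trans (le_of_eq ?_)
    ring
  have e3 : |∑ z ∈ S, ∑ x ∈ bl 0 l, Ph u u' z (z + x) * k x -
      (∑ z ∈ S, gg u u' z) * ((∑ x ∈ bl 0 l, k x * n2 x) / 2)| ≤ S.card *
        (8 * l * (K / L ^ 2 * (K' / L') + K / L * (K' / L' ^ 2)) * ∑ x ∈ bl 0 l, |k x| * n2 x) := by
    rw [sum_mul, ← sum_sub_distrib, ← nsmul_eq_mul]
    exact (abs_sum_le_sum_abs _ _).trans (sum_le_card_nsmul _ _ _ fun z _ => near hu hu' k l h1 h2 z)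
  have e4 := alg D χ u u' c hc
  rw [e1] at e4
  obtain ⟨a1, a2⟩ := abs_le.1 h0
  obtain ⟨b1, b2⟩ := abs_le.1 e2
  obtain ⟨c1, c2⟩ := abs_le.1 e3
  have d1 := le_abs_self (∑ z ∈ D, ∑ w ∈ D, χ z * u z * u' z * χ w * c z w)
  have d2 := neg_abs_le (∑ z ∈ D, ∑ w ∈ D, χ z * u z * u' z * χ w * c z w)
  rw [abs_le]
  constructor <;> nlinarith

end Crest.Agent.T145.Vb27
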