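import Crest.Agent.T145.VxBs_27

/-!
# Row 145, twisted module: Lemma B from bounds on the kernel (helper27)
-/

set_option autoImplicit false

namespace Crest.Agent.T145.Vb27

open Finset Pot

/-- (B1), symmetric sets of pairs -/
theorem pairs2 (D : Finset Pt) (p : Pt → Pt → Prop) [∀ z w, Decidable (p z w)] (f : Pt → Pt → ℝ)
    (B ψ ω ω' : Pt → ℝ) (κ y L : ℝ) (hp : ∀ z w, p z w → p w z) (hκ : 0 ≤ κ) (hy : 0 ≤ y)
    (hB : ∀ z, 0 ≤ B z) (hψ : ∀ z, 0 ≤ ψ z) (hω : ∀ z, 0 ≤ ω z) (hω' : ∀ z, 0 ≤ ω' z)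
    (hL : ∀ z ∈ D, ∑ w ∈ D.filter (p z), (eu (w - z) ^ 2)⁻¹ ≤ L)
    (h : ∀ z ∈ D, ∀ w ∈ D, p z w → |f z w| ≤ κ * (B z * B w *
      (y ^ 2 * (eu (w - z) ^ 2)⁻¹ + y * (ψ z + ψ w) + (ω z * ω' w + ω' z * ω w)))) :
    ∑ z ∈ D, ∑ w ∈ D.filter (p z), |f z w| ≤ κ * (y ^ 2 * L * ∑ z ∈ D, B z ^ 2 +
      2 * y * (∑ z ∈ D, B z * ψ z) * ∑ z ∈ D, B z +
      2 * (∑ z ∈ D, B z * ω z) * ∑ z ∈ D, B z * ω' z) := by
  have a1 : ∑ z ∈ D, ∑ w ∈ D.filter (p z), B z ^ 2 * (eu (w - z) ^ 2)⁻¹ ≤ L * ∑ z ∈ D, B z ^ 2 := by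
    rw [mul_sum]
    refine sum_le_sum fun z hz => ?_
    rw [← mul_sum, mul_comm]
    exact mul_le_mul_of_nonneg_right (hL z hz) (sq_nonneg _)
  have a2 : ∑ z ∈ D, ∑ w ∈ D.filter (p z), B w ^ 2 * (eu (w - z) ^ 2)⁻¹ =
      ∑ z ∈ D, ∑ w ∈ D.filter (p z), B z ^ 2 * (eu (w - z) ^ 2)⁻¹ := by
    simp only [sum_filter]
    rw [sum_comm]
    refine sum_congr rfl fun z _ => sum_congr rfl fun w _ => ?_
    rw [eu_sub_comm z w]
    exact if_congr ⟨hp _ _, hp _ _⟩ rfl rfl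
  have a3 : ∑ z ∈ D, ∑ w ∈ D.filter (p z), (y * (B z * ψ z * B w) + y * (B z * (B w * ψ w)) +
      (B z * ω z * (B w * ω' w) + B z * ω' z * (B w * ω w))) ≤
      2 * y * (∑ z ∈ D, B z * ψ z) * ∑ z ∈ D, B z + 2 * (∑ z ∈ D, B z * ω z) * ∑ z ∈ D, B z * ω' z := by
    refine (sum_le_sum fun z _ => sum_le_sum_of_subset_of_nonneg (filter_subset _ D) fun w _ _ => by
      have := hB z; have := hB w; have := hψ z; have := hψ w; have := hω z; have := hω w
      have := hω' z; have := hω' w; positivity).trans (le_of_eq ?_)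
    simp only [sum_add_distrib, ← mul_sum, ← sum_mul]
    ring
  have a4 : ∑ z ∈ D, ∑ w ∈ D.filter (p z), |f z w| ≤ ∑ z ∈ D, ∑ w ∈ D.filter (p z),
      κ * (y ^ 2 / 2 * (B z ^ 2 * (eu (w - z) ^ 2)⁻¹) + y ^ 2 / 2 * (B w ^ 2 * (eu (w - z) ^ 2)⁻¹) +
        (y * (B z * ψ z * B w) + y * (B z * (B w * ψ w)) +
          (B z * ω z * (B w * ω' w) + B z * ω' z * (B w * ω w)))) :=
    sum_le_sum fun z hz => sum_le_sum fun w hw => by
      refine (h z hz w (mem_filter.1 hw).1 (mem_filter.1 hw).2).trans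
        (mul_le_mul_of_nonneg_left ?_ hκ)
      have : 0 ≤ y ^ 2 * (eu (w - z) ^ 2)⁻¹ * (B z - B w) ^ 2 := by positivity
      nlinarith
  have a5 : y ^ 2 / 2 * ∑ z ∈ D, ∑ w ∈ D.filter (p z), B z ^ 2 * (eu (w - z) ^ 2)⁻¹ +
      y ^ 2 / 2 * ∑ z ∈ D, ∑ w ∈ D.filter (p z), B w ^ 2 * (eu (w - z) ^ 2)⁻¹ ≤
      y ^ 2 * L * ∑ z ∈ D, B z ^ 2 := by
    rw [a2]; nlinarith [mul_le_mul_of_nonneg_left a1 (sq_nonneg y)]
  refine a4.trans (le_trans (le_of_eq ?_) (mul_le_mul_of_nonneg_left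
    ((add_le_add a5 a3).trans (le_of_eq (by ring))) hκ))
  simp only [mul_sum, ← sum_add_distrib]

/-- distance to the nearer core -/
def dd (a b z : Pt) : ℕ := min (sn (z - a)) (sn (z - b))

/-- the gain of the contraction from scale `s` to scale `t` -/
noncomputable def mn (s : ℕ) (t : ℝ) : ℝ := min 1 √(((s : ℝ) + 1) / t)

/-- the size of `J_z` seen from the distance `ℓ` -/
noncomputable def fi (y : ℝ) (a b z : Pt) (ℓ : ℕ) : ℝ :=
  if ℓ ≤ 4 * dd a b z then y / (ℓ : ℝ) ^ 2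
  else y * mn (dd a b z) (min ℓ (sn (b - a)) : ℕ) / ((dd a b z : ℝ) + 1) ^ 2

theorem mn_nonneg (s : ℕ) (t : ℝ) : 0 ≤ mn s t := le_min zero_le_one (Real.sqrt_nonneg _)

theorem mn_anti (s : ℕ) {t t' : ℝ} (h0 : 0 < t) (h : t ≤ t') : mn s t' ≤ mn s t :=
  min_le_min le_rfl (Real.sqrt_le_sqrt (div_le_div_of_nonneg_left (by positivity) h0 h))

/-- profile around one core -/
noncomputable def ps (p : Pt) (t : ℝ) (z : Pt) : ℝ := mn (sn (z - p)) t / ((sn (z - p) : ℝ) + 1) ^ 2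

theorem ps_nonneg (p : Pt) (t : ℝ) (z : Pt) : 0 ≤ ps p t z := div_nonneg (mn_nonneg _ _) (by positivity)

/-- the same inside the half distance -/
noncomputable def pw (p : Pt) (r : ℕ) (z : Pt) : ℝ := if 2 * sn (z - p) ≤ r then ps p (r / 2) z else 0

theorem pw_nonneg (p : Pt) (r : ℕ) (z : Pt) : 0 ≤ pw p r z := by
  unfold pw; split_ifs; exacts [ps_nonneg _ _ _, le_rfl]

theorem dd_cases (a b z : Pt) : dd a b z = sn (z - a) ∨ dd a b z = sn (z - b) := min_choice _ _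

theorem fi_nonneg {y : ℝ} (hy : 0 ≤ y) (a b z : Pt) (ℓ : ℕ) : 0 ≤ fi y a b z ℓ := by
  have := mn_nonneg (dd a b z) (min ℓ (sn (b - a)) : ℕ)
  unfold fi; split_ifs <;> positivity

theorem fi_core {y : ℝ} (hy : 0 ≤ y) {a b z : Pt} {ℓ : ℕ} (h : ¬ ℓ ≤ 4 * dd a b z) {t : ℝ} (h0 : 0 < t)
    (h1 : t ≤ ℓ) (h2 : t ≤ sn (b - a)) {p : Pt} (hp : dd a b z = sn (z - p)) :
    fi y a b z ℓ ≤ y * ps p t z := by
  rw [fi, if_neg h, ps, ← hp, mul_div_assoc]
  exact mul_le_mul_of_nonneg_left (div_le_div_of_nonneg_right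
    (mn_anti _ h0 (by rw [Nat.cast_min]; exact le_min h1 h2)) (by positivity)) hy

set_option maxHeartbeats 800000 in
/-- the product bound for far pairs -/
theorem far_prod {y : ℝ} (hy : 0 ≤ y) (a b z w : Pt) {l : ℕ} (hl : 1 ≤ l) (hlr : l ≤ sn (b - a))
    (h : l < sn (w - z)) :
    eu (w - z) ^ 2 * (fi y a b z (sn (w - z)) * fi y a b w (sn (w - z))) ≤
      (4 * y) ^ 2 * (eu (w - z) ^ 2)⁻¹ + 4 * y * (y * (ps a l z + ps b l z) + y * (ps a l w + ps b l w)) +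
        (4 * sn (b - a) * y * pw a (sn (b - a)) z * (4 * sn (b - a) * y * pw b (sn (b - a)) w) +
          4 * sn (b - a) * y * pw b (sn (b - a)) z * (4 * sn (b - a) * y * pw a (sn (b - a)) w)) := by
  set ℓ := sn (w - z) with hℓ
  set r := sn (b - a) with hr
  have l0 : (0 : ℝ) < l := by exact_mod_cast hl
  have l1 : (l : ℝ) ≤ ℓ := by exact_mod_cast h.le
  have l2 : (l : ℝ) ≤ r := by exact_mod_cast hlr
  have e1 : eu (w - z) ≤ 2 * ℓ := eu_le_sn _
  have e2 : (ℓ : ℝ) ≤ eu (w - z) := sn_le_eu _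
  have e0 : 0 < eu (w - z) := by linarith
  have e3 : eu (w - z) ^ 2 ≤ 4 * (ℓ : ℝ) ^ 2 := by nlinarith
  have p1 := ps_nonneg a l z
  have p2 := ps_nonneg b l z
  have p3 := ps_nonneg a l w
  have p4 := ps_nonneg b l w
  have q1 := pw_nonneg a r z
  have q2 := pw_nonneg b r z
  have q3 := pw_nonneg a r w
  have q4 := pw_nonneg b r w
  have t1 : 0 ≤ (4 * y) ^ 2 * (eu (w - z) ^ 2)⁻¹ := by positivity
  have t2 : 0 ≤ 4 * y * (y * (ps a l z + ps b l z)) := by positivity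
  have t3 : 0 ≤ 4 * y * (y * (ps a l w + ps b l w)) := by positivity
  have t4 : 0 ≤ 4 * r * y * pw a r z * (4 * r * y * pw b r w) := by positivity
  have t5 : 0 ≤ 4 * r * y * pw b r z * (4 * r * y * pw a r w) := by positivity
  have core : ∀ v, ¬ ℓ ≤ 4 * dd a b v → fi y a b v ℓ ≤ y * (ps a l v + ps b l v) := fun v hv => by
    have := ps_nonneg a l v
    have := ps_nonneg b l v
    rcases dd_cases a b v with k | k
    · exact (fi_core hy hv l0 l1 l2 k).trans (mul_le_mul_of_nonneg_left (by linarith) hy)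
    · exact (fi_core hy hv l0 l1 l2 k).trans (mul_le_mul_of_nonneg_left (by linarith) hy)
  have bulk : ∀ v, ℓ ≤ 4 * dd a b v → eu (w - z) ^ 2 * fi y a b v ℓ ≤ 4 * y := fun v hv => by
    rw [fi, if_pos hv, ← mul_div_assoc, div_le_iff₀ (pow_pos (l0.trans_le l1) 2)]
    linarith [mul_le_mul_of_nonneg_right e3 hy]
  have fz := fi_nonneg hy a b z ℓ
  have fw := fi_nonneg hy a b w ℓ
  by_cases hz : ℓ ≤ 4 * dd a b z <;> by_cases hw : ℓ ≤ 4 * dd a b w
  · have := mul_le_mul (bulk z hz) (bulk w hw) (by positivity) (by positivity)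
    have k : eu (w - z) ^ 2 * (fi y a b z ℓ * fi y a b w ℓ) ≤ (4 * y) ^ 2 * (eu (w - z) ^ 2)⁻¹ := by
      rw [← div_eq_mul_inv, le_div_iff₀ (by positivity)]; linarith
    linarith
  · have := mul_le_mul (bulk z hz) (core w hw) fw (by positivity)
    rw [mul_assoc] at this
    linarith
  · have := mul_le_mul (bulk w hw) (core z hz) fz (by positivity)
    rw [mul_assoc, mul_comm (fi y a b w ℓ)] at this
    linarith
  · have tri := sn_tri w a z
    have tri' := sn_tri w b z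
    have s1 := sn_comm a z
    have s2 := sn_comm b z
    have two : ∀ p p' : Pt, sn (p' - p) = r → dd a b z = sn (z - p) → dd a b w = sn (w - p') →
        eu (w - z) ^ 2 * (fi y a b z ℓ * fi y a b w ℓ) ≤
          4 * r * y * pw p r z * (4 * r * y * pw p' r w) := fun p p' hpp k k' => by
      have u1 := sn_tri w p' z
      have u2 := sn_tri p' p z
      have u3 := sn_tri p' w p
      have u4 := sn_tri w z p
      have u5 := sn_comm p z
      have u6 := sn_comm p' w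
      have v1 : ℓ ≤ 2 * r := by omega
      have v2 : r ≤ 2 * ℓ := by omega
      have v3 : (r : ℝ) / 2 ≤ ℓ := by
        have : (r : ℝ) ≤ 2 * ℓ := by exact_mod_cast v2
        linarith
      have v4 : (ℓ : ℝ) ≤ 2 * r := by exact_mod_cast v1
      have f1 := fi_core hy hz (t := r / 2) (by linarith) v3 (by linarith) k
      have f2 := fi_core hy hw (t := r / 2) (by linarith) v3 (by linarith) k'
      rw [pw, pw, if_pos (by omega), if_pos (by omega)]
      have g1 := mul_le_mul f1 f2 fw (fz.trans f1)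
      have g2 : eu (w - z) ^ 2 ≤ 16 * (r : ℝ) ^ 2 := by
        linarith [pow_le_pow_left₀ (Nat.cast_nonneg ℓ) v4 2, (by ring : (2 * (r : ℝ)) ^ 2 = 4 * r ^ 2)]
      exact (mul_le_mul g2 g1 (by positivity) (by positivity)).trans (le_of_eq (by ring))
    rcases dd_cases a b z with k | k <;> rcases dd_cases a b w with k' | k'
    · omega
    · linarith [two a b hr.symm k k']
    · linarith [two b a (by rw [sn_comm]) k k']
    · omega

/-- crude profile -/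
noncomputable def qq (a b z : Pt) : ℝ := (((sn (z - a) : ℝ) + 1) ^ 2)⁻¹ + (((sn (z - b) : ℝ) + 1) ^ 2)⁻¹

theorem qq_nonneg (a b z : Pt) : 0 ≤ qq a b z := by unfold qq; positivity

theorem sum_one (p : Pt) {D : Finset Pt} {n : ℕ} (h : D ⊆ bl p n) {T : ℝ} (hT : 1 + Real.log (1 + n) ≤ T) :
    ∑ z ∈ D, (((sn (z - p) : ℝ) + 1) ^ 2)⁻¹ ≤ 8 * T := by
  have := sum_rho p le_rfl n
  simp only [Nat.cast_one, div_one, add_comm (1 : ℝ) (sn _)] at this
  exact (sum_le_sum_of_subset_of_nonneg h fun _ _ _ => by positivity).trans (by linarith)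

theorem min_le_qq (a b z : Pt) (ℓ : ℕ) :
    ((((min ℓ (dd a b z) : ℕ) : ℝ) + 1) ^ 2)⁻¹ ≤ (((ℓ : ℝ) + 1) ^ 2)⁻¹ + qq a b z := by
  have h1 : 0 ≤ (((ℓ : ℝ) + 1) ^ 2)⁻¹ := by positivity
  have h2 : 0 ≤ (((sn (z - a) : ℝ) + 1) ^ 2)⁻¹ := by positivity
  have h3 : 0 ≤ (((sn (z - b) : ℝ) + 1) ^ 2)⁻¹ := by positivity
  unfold qq
  rcases min_choice ℓ (dd a b z) with k | k
  · rw [k]; linarith
  · rcases dd_cases a b z with k' | k' <;> rw [k, k'] <;> linarith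

theorem log_mono {m n : ℕ} (h : m ≤ n) : Real.log (1 + m) ≤ Real.log (1 + n) :=
  Real.log_le_log (by positivity) (by exact_mod_cast Nat.add_le_add_left h 1)

/-- near pairs close to a core -/
theorem bad {a b : Pt} {l l₁ : ℕ} {c : Pt → Pt → ℝ} {K T : ℝ} (hl : 1 ≤ l) (hl₁ : l ≤ l₁) (hK : 0 ≤ K)
    (hT : 1 + Real.log (1 + (sn (b - a) + 2 * l₁ : ℕ)) ≤ T)
    (h : ∀ z w, dd a b z ≤ l₁ → w ∈ bl z l → w ≠ z → |c z w| ≤
      K * ((((min (sn (w - z)) (dd a b z) : ℕ) : ℝ) + 1) ^ 2)⁻¹ *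
        ((((min (sn (w - z)) (dd a b w) : ℕ) : ℝ) + 1) ^ 2)⁻¹) :
    ∑ z ∈ bl a l₁ ∪ bl b l₁, ∑ x ∈ bl 0 l, |c z (z + x)| * n2 x ≤ 40000 * K * T ^ 2 * (l₁ : ℝ) ^ 2 := by
  classical
  set D := bl a (l₁ + l) ∪ bl b (l₁ + l)
  have Da : D ⊆ bl a (sn (b - a) + 2 * l₁) := union_subset (bl_mono a (by omega)) (bl_sub (by omega))
  have Db : D ⊆ bl b (sn (b - a) + 2 * l₁) :=
    union_subset (bl_sub (by rw [sn_comm]; omega)) (bl_mono b (by omega))
  have T1 : 1 ≤ T := by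
    have := Real.log_nonneg (x := 1 + (sn (b - a) + 2 * l₁ : ℕ)) (le_add_of_nonneg_right (by positivity))
    linarith
  have hq : ∑ z ∈ D, qq a b z ≤ 16 * T := by
    simp only [qq, sum_add_distrib]; linarith [sum_one a Da hT, sum_one b Db hT]
  have l1 : (1 : ℝ) ≤ l := by exact_mod_cast hl
  have l2 : (l : ℝ) ≤ l₁ := by exact_mod_cast hl₁
  have hD : (D.card : ℝ) ≤ 50 * (l₁ : ℝ) ^ 2 := by
    have : D.card ≤ (2 * (l₁ + l) + 1) ^ 2 + (2 * (l₁ + l) + 1) ^ 2 :=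
      (card_union_le _ _).trans (by rw [card_bl, card_bl])
    have h2 : (D.card : ℝ) ≤ (2 * (l₁ + l) + 1) ^ 2 + (2 * (l₁ + l) + 1) ^ 2 := by exact_mod_cast this
    nlinarith
  have key := pairs2 D (fun z w => w ∈ bl z l ∧ w ≠ z)
    (fun z w => if dd a b z ≤ l₁ then |c z w| * n2 (w - z) else 0) (fun _ => 1) (qq a b)
    (fun z => 2 * l * qq a b z) (fun z => 2 * l * qq a b z) K 4 (32 * T)
    (fun z w h => ⟨mem_bl_comm.1 h.1, h.2.symm⟩) hK (by norm_num) (fun _ => zero_le_one) (qq_nonneg a b)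
    (fun z => by have := qq_nonneg a b z; positivity) (fun z => by have := qq_nonneg a b z; positivity)
    (fun z _ => by
      have := sum_one z (D := D.filter fun w => w ∈ bl z l ∧ w ≠ z) (n := l)
        (fun w hw => (mem_filter.1 hw).2.1) (T := T) (by linarith [log_mono (by omega :
          l ≤ sn (b - a) + 2 * l₁)])
      refine le_trans (sum_le_sum fun w hw => ?_) ((le_of_eq (mul_sum _ _ 4).symm).trans (by linarith))
      have e1 := sn_le_eu (w - z)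
      have e2 := one_le_eu (sub_ne_zero.2 (mem_filter.1 hw).2.2)
      rw [← div_eq_mul_inv, inv_eq_one_div, div_le_div_iff₀ (by positivity) (by positivity)]
      nlinarith [Nat.cast_nonneg (α := ℝ) (sn (w - z))])
    (fun z _ w _ hp => by
      have q1 := qq_nonneg a b z
      have q2 := qq_nonneg a b w
      split_ifs with hz
      swap
      · rw [abs_zero]; positivity
      have e0 := one_le_eu (sub_ne_zero.2 hp.2)
      have e1 := eu_le_sn (w - z)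
      have e2 : (sn (w - z) : ℝ) ≤ l := by exact_mod_cast mem_bl_sn.1 hp.1
      set t := (((sn (w - z) : ℝ) + 1) ^ 2)⁻¹
      have t0 : 0 ≤ t := by positivity
      have t1 : eu (w - z) ^ 2 * t ≤ 4 := by
        rw [← div_eq_mul_inv, div_le_iff₀ (by positivity)]; nlinarith
      have t2 : eu (w - z) ^ 2 * (t * t) ≤ 4 ^ 2 * (eu (w - z) ^ 2)⁻¹ := by
        rw [← div_eq_mul_inv (4 ^ 2 : ℝ), le_div_iff₀ (by positivity)]
        linarith [mul_le_mul t1 t1 (by positivity) (by norm_num)]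
      have t3 : eu (w - z) ^ 2 ≤ 4 * (l : ℝ) ^ 2 := by nlinarith
      have a1 := (h z w hz hp.1 hp.2).trans (mul_le_mul (mul_le_mul_of_nonneg_left
        (min_le_qq a b z _) hK) (min_le_qq a b w _) (by positivity) (by positivity))
      rw [abs_of_nonneg (mul_nonneg (abs_nonneg _) (n2_nonneg _)), n2_eq]
      refine (mul_le_mul_of_nonneg_right a1 (sq_nonneg _)).trans ?_
      rw [mul_assoc, mul_assoc]
      refine mul_le_mul_of_nonneg_left ?_ hK
      have b1 := mul_le_mul_of_nonneg_right t1 q1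
      have b2 := mul_le_mul_of_nonneg_right t1 q2
      have b3 := mul_le_mul_of_nonneg_right t3 (mul_nonneg q1 q2)
      have b4 : 0 ≤ (l : ℝ) ^ 2 * (qq a b z * qq a b w) := by positivity
      linarith)
  have k1 : ∑ z ∈ bl a l₁ ∪ bl b l₁, ∑ x ∈ bl 0 l, |c z (z + x)| * n2 x ≤ ∑ z ∈ D,
      ∑ w ∈ D.filter (fun w => w ∈ bl z l ∧ w ≠ z),
        |if dd a b z ≤ l₁ then |c z w| * n2 (w - z) else 0| := by
    refine le_trans (sum_le_sum fun z hz => ?_) (sum_le_sum_of_subset_of_nonneg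
      (union_subset_union (bl_mono a (by omega)) (bl_mono b (by omega))) fun _ _ _ =>
        sum_nonneg fun _ _ => abs_nonneg _)
    have hz' : dd a b z ≤ l₁ ∧ bl z l ⊆ D := by
      rcases mem_union.1 hz with k | k <;> rw [mem_bl_sn] at k
      · exact ⟨(min_le_left _ _).trans k, (bl_sub (by omega)).trans subset_union_left⟩
      · exact ⟨(min_le_right _ _).trans k, (bl_sub (by omega)).trans subset_union_right⟩
    have e := sum_bl_shift z l fun w => |c z w| * n2 (w - z)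
    simp only [add_sub_cancel_left] at e
    rw [← e, ← sum_subset (s₁ := D.filter fun w => w ∈ bl z l ∧ w ≠ z)
      (fun w hw => (mem_filter.1 hw).2.1) fun w hw hw' => by
        have : w = z := by_contra fun k => hw' (mem_filter.2 ⟨hz'.2 hw, hw, k⟩)
        simp [this, n2]]
    exact sum_le_sum fun w _ => by rw [if_pos hz'.1]; exact le_abs_self _
  refine (k1.trans key).trans ?_
  simp only [one_pow, one_mul, sum_const, nsmul_eq_mul, mul_one, ← mul_sum]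
  have q0 : 0 ≤ ∑ z ∈ D, qq a b z := sum_nonneg fun z _ => qq_nonneg a b z
  set Q := ∑ z ∈ D, qq a b z
  have T2 : T ≤ T ^ 2 := by nlinarith
  have c1 : T * D.card ≤ T ^ 2 * (50 * (l₁ : ℝ) ^ 2) := mul_le_mul T2 hD (by positivity) (by positivity)
  have c2 : Q * D.card ≤ 16 * T ^ 2 * (50 * (l₁ : ℝ) ^ 2) :=
    mul_le_mul (by linarith) hD (by positivity) (by positivity)
  have c3 : l * Q ≤ l₁ * (16 * T) := mul_le_mul l2 hq q0 (by positivity)
  have c4 := mul_le_mul c3 c3 (by positivity) (by positivity)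
  rw [show 40000 * K * T ^ 2 * (l₁ : ℝ) ^ 2 = K * (40000 * (T ^ 2 * (l₁ : ℝ) ^ 2)) by ring]
  refine mul_le_mul_of_nonneg_left ?_ hK
  have : 0 ≤ T ^ 2 * (l₁ : ℝ) ^ 2 := by positivity
  linarith

/-- all near pairs -/
theorem nearE {a b : Pt} {l l₁ : ℕ} {c : Pt → Pt → ℝ} {k : Pt → ℝ} {K K₁ ε T : ℝ} {S : Finset Pt}
    (hl : 1 ≤ l) (hl₁ : l ≤ l₁) (hK : 0 ≤ K) (hK₁ : 0 ≤ K₁) (hε : 0 ≤ ε)
    (hT : 1 + Real.log (1 + (sn (b - a) + 2 * l₁ : ℕ)) ≤ T)
    (h : ∀ z w, dd a b z ≤ l₁ → w ∈ bl z l → w ≠ z → |c z w| ≤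
      K * ((((min (sn (w - z)) (dd a b z) : ℕ) : ℝ) + 1) ^ 2)⁻¹ *
        ((((min (sn (w - z)) (dd a b w) : ℕ) : ℝ) + 1) ^ 2)⁻¹)
    (hk : ∀ x ∈ bl 0 l, |k x| ≤ K₁ / ((sn x : ℝ) + 1) ^ 4)
    (hg : ∀ z ∈ S, l₁ < dd a b z → ∀ x ∈ bl 0 l, |c z (z + x) - k x| ≤ ε / ((sn x : ℝ) + 1) ^ 4) :
    ∑ x ∈ bl 0 l, |k x| * n2 x ≤ 32 * K₁ * T ∧
    ∑ z ∈ S, ∑ x ∈ bl 0 l, |c z (z + x) - k x| * n2 x ≤
      32 * ε * T * S.card + (40000 * K * T ^ 2 + 576 * K₁ * T) * (l₁ : ℝ) ^ 2 := by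
  classical
  have s1 : ∑ x ∈ bl 0 l, n2 x / ((sn x : ℝ) + 1) ^ 4 ≤ 32 * T :=
    (sum_n2 l).trans (by linarith [log_mono (by omega : l ≤ sn (b - a) + 2 * l₁)])
  have s2 : ∀ (f : Pt → ℝ) (e : ℝ), 0 ≤ e → (∀ x ∈ bl 0 l, |f x| ≤ e / ((sn x : ℝ) + 1) ^ 4) →
      ∑ x ∈ bl 0 l, |f x| * n2 x ≤ 32 * e * T := fun f e he hf => by
    refine le_trans (sum_le_sum fun x hx => ?_) ((le_of_eq (mul_sum _ _ e).symm).trans
      ((mul_le_mul_of_nonneg_left s1 he).trans (le_of_eq (by ring))))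
    exact (mul_le_mul_of_nonneg_right (hf x hx) (n2_nonneg x)).trans (le_of_eq (by ring))
  have T0 : 0 ≤ T := by
    linarith [(sum_nonneg fun x _ => div_nonneg (n2_nonneg x) (by positivity)).trans s1]
  refine ⟨s2 k K₁ hK₁ hk, ?_⟩
  set Bd := bl a l₁ ∪ bl b l₁
  rw [← sum_filter_add_sum_filter_not S (fun z => l₁ < dd a b z)]
  refine add_le_add ?_ ?_
  · refine (sum_le_card_nsmul _ _ _ fun z hz =>
      s2 _ ε hε (hg z (mem_filter.1 hz).1 (mem_filter.1 hz).2)).trans ?_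
    rw [nsmul_eq_mul, mul_comm]
    exact mul_le_mul_of_nonneg_left (by exact_mod_cast card_filter_le _ _) (by positivity)
  · have sub : S.filter (fun z => ¬ l₁ < dd a b z) ⊆ Bd := fun z hz => by
      have := (mem_filter.1 hz).2
      rw [mem_union, mem_bl_sn, mem_bl_sn]
      rcases dd_cases a b z with k | k <;> omega
    have l1 : (1 : ℝ) ≤ l₁ := by exact_mod_cast hl.trans hl₁
    have cB : (Bd.card : ℝ) ≤ 18 * (l₁ : ℝ) ^ 2 := by
      have : Bd.card ≤ (2 * l₁ + 1) ^ 2 + (2 * l₁ + 1) ^ 2 :=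
        (card_union_le _ _).trans (by rw [card_bl, card_bl])
      have h2 : (Bd.card : ℝ) ≤ (2 * l₁ + 1) ^ 2 + (2 * l₁ + 1) ^ 2 := by exact_mod_cast this
      nlinarith
    have b1 := bad hl hl₁ hK hT h
    have b2 : ∑ _z ∈ Bd, ∑ x ∈ bl 0 l, |k x| * n2 x ≤ 18 * (l₁ : ℝ) ^ 2 * (32 * K₁ * T) := by
      rw [sum_const, nsmul_eq_mul]
      exact mul_le_mul cB (s2 k K₁ hK₁ hk) (sum_nonneg fun x _ => mul_nonneg (abs_nonneg _) (n2_nonneg x))
        (by positivity)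
    refine (sum_le_sum_of_subset_of_nonneg sub fun _ _ _ => sum_nonneg fun x _ =>
      mul_nonneg (abs_nonneg _) (n2_nonneg x)).trans (le_trans ?_ ((add_le_add b1 b2).trans
        (le_of_eq (by ring))))
    rw [← sum_add_distrib]
    refine sum_le_sum fun z _ => ?_
    rw [← sum_add_distrib]
    exact sum_le_sum fun x _ => by
      rw [← add_mul]; exact mul_le_mul_of_nonneg_right (abs_sub _ _) (n2_nonneg x)

end Crest.Agent.T145.Vb27
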