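import Crest.Agent.T145.VxBd_27
import Crest.Agent.T145.VxDip_34

/-!
# Row 145, twisted module: Lemma B for two dipole classes from bounds on the kernel (helper27)
-/

set_option autoImplicit false

namespace Crest.Agent.T145.Vb27

open Finset Pot Vx34

/-- the envelope -/
noncomputable def BB (a b : Pt) (ρ : ℝ) (z : Pt) : ℝ := ((ρ + eu (z - a)) * (ρ + eu (z - b)))⁻¹

theorem BB_comm (a b : Pt) (ρ : ℝ) (z : Pt) : BB a b ρ z = BB b a ρ z := by rw [BB, BB, mul_comm]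

theorem BB_nonneg (a b : Pt) {ρ : ℝ} (h : 0 < ρ) (z : Pt) : 0 ≤ BB a b ρ z := by
  have := sc_pos h (z - a); have := sc_pos h (z - b); unfold BB; positivity

theorem BB_near {a b z : Pt} {ρ : ℝ} (h : 0 < ρ) (hr : 1 ≤ sn (b - a)) (hz : sn (b - a) ≤ 2 * sn (z - b)) :
    BB a b ρ z ≤ 2 / (sn (b - a) * (ρ + sn (z - a))) := by
  have e1 := sn_le_eu (z - a)
  have e2 := sn_le_eu (z - b)
  have e3 : (sn (b - a) : ℝ) ≤ 2 * sn (z - b) := by exact_mod_cast hz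
  have e4 : (1 : ℝ) ≤ sn (b - a) := by exact_mod_cast hr
  have := sc_pos h (z - a); have := sc_pos h (z - b)
  rw [BB, inv_eq_one_div, div_le_div_iff₀ (by positivity) (by positivity)]
  nlinarith [mul_le_mul (by linarith : (sn (b - a) : ℝ) ≤ 2 * (ρ + eu (z - b)))
    (by linarith : ρ + sn (z - a) ≤ ρ + eu (z - a)) (by positivity) (by positivity)]

theorem BB_le {a b : Pt} {ρ : ℝ} (h : 0 < ρ) (hr : 1 ≤ sn (b - a)) (z : Pt) :
    BB a b ρ z ≤ 2 / (sn (b - a) * ρ) := by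
  have e4 : (0 : ℝ) < sn (b - a) := by exact_mod_cast hr
  have t := sn_tri b z a
  rw [sn_comm b z] at t
  by_cases hz : sn (b - a) ≤ 2 * sn (z - b)
  · exact (BB_near h hr hz).trans (by gcongr; exact le_add_of_nonneg_right (by positivity))
  · rw [BB_comm]
    refine (BB_near h (by rwa [sn_comm]) (by rw [sn_comm]; omega)).trans ?_
    rw [sn_comm]; gcongr; exact le_add_of_nonneg_right (by positivity)

theorem abs_Ph_dip {a b : Pt} {ρ K K' : ℝ} {u u' : Pt → ℝ} (h : 0 < ρ) (hu : Dip a ρ K u)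
    (hu' : Dip b ρ K' u') (z w : Pt) :
    |Ph u u' z w| ≤ 289 * (K * K') * (BB a b ρ z * BB a b ρ w * eu (w - z) ^ 2) := by
  have a1 := hu.lip (by norm_num) h z w
  have a2 := hu'.lip (by norm_num) h z w
  have := sc_pos h (z - a); have := sc_pos h (z - b); have := sc_pos h (w - a); have := sc_pos h (w - b)
  rw [Ph, abs_mul, eu_sub_comm w z]
  refine (mul_le_mul a1 a2 (abs_nonneg _) ((abs_nonneg _).trans a1)).trans (le_of_eq ?_)
  unfold BB; field_simp; ring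

theorem sm2_dip {a : Pt} {ρ K : ℝ} {u : Pt → ℝ} (h : 0 < ρ) (hu : Dip a ρ K u) : Sm2 u (K / ρ) ρ := by
  have k := hu.nonneg h
  refine ⟨fun i x => (hu.one (by norm_num) (Xi.ev_nn i) x).trans ?_,
    fun i j x => (hu.two le_rfl (Xi.ev_nn j) (Xi.ev_nn i) x).trans ?_⟩
  · rw [div_div, ← pow_two]; gcongr; exact le_add_of_nonneg_right (eu_nonneg _)
  · rw [div_div, ← pow_succ']; gcongr; exact le_add_of_nonneg_right (eu_nonneg _)

theorem sum_BB {a b : Pt} {ρ n : ℕ} (hρ : 1 ≤ ρ) {D : Finset Pt} (ha : D ⊆ bl a n) (hb : D ⊆ bl b n) :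
    ∑ z ∈ D, BB a b ρ z ≤ 1 + 8 * Real.log (((ρ : ℝ) + n) / ρ) := by
  have r0 : (0 : ℝ) < ρ := by exact_mod_cast hρ
  have k : ∀ p, D ⊆ bl p n → ∑ z ∈ D, (((ρ : ℝ) + sn (z - p)) ^ 2)⁻¹ ≤ _ := fun p hp =>
    (sum_le_sum_of_subset_of_nonneg hp fun _ _ _ => by positivity).trans (sum_rho p hρ n)
  refine le_trans (sum_le_sum fun z _ => ?_) ((le_of_eq (by rw [← sum_div, sum_add_distrib])).trans
    (by linarith [k a ha, k b hb] : (∑ z ∈ D, (((ρ : ℝ) + sn (z - a)) ^ 2)⁻¹ +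
      ∑ z ∈ D, (((ρ : ℝ) + sn (z - b)) ^ 2)⁻¹) / 2 ≤ _))
  have e1 : (ρ + eu (z - a))⁻¹ ≤ ((ρ : ℝ) + sn (z - a))⁻¹ :=
    inv_anti₀ (by positivity) (by linarith [sn_le_eu (z - a)])
  have e2 : (ρ + eu (z - b))⁻¹ ≤ ((ρ : ℝ) + sn (z - b))⁻¹ :=
    inv_anti₀ (by positivity) (by linarith [sn_le_eu (z - b)])
  have := sc_pos r0 (z - b)
  rw [BB, mul_inv, ← inv_pow, ← inv_pow]
  nlinarith [mul_le_mul e1 e2 (by positivity) (by positivity),
    sq_nonneg (((ρ : ℝ) + sn (z - a))⁻¹ - ((ρ : ℝ) + sn (z - b))⁻¹)]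

theorem sum_pw {a b : Pt} {ρ : ℝ} (hρ : 1 ≤ ρ) (hr : 1 ≤ sn (b - a)) (D : Finset Pt) :
    ∑ z ∈ D, BB a b ρ z * pw a (sn (b - a)) z ≤ 66 / sn (b - a) * √(2 / (sn (b - a) * ρ)) := by
  obtain ⟨n, hn⟩ := exists_subset_bl D a
  set r := sn (b - a) with hr'
  have r0 : (0 : ℝ) < r := by exact_mod_cast hr
  have h0 : 0 < ρ := by linarith
  have k := mul_le_mul_of_nonneg_left (sum_core a hρ n) (by positivity : 0 ≤ 2 / r * √(2 / (r : ℝ)))
  rw [mul_sum] at k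
  refine le_trans ((sum_le_sum_of_subset_of_nonneg hn fun z _ _ =>
    mul_nonneg (BB_nonneg a b h0 z) (pw_nonneg _ _ _)).trans (sum_le_sum fun z _ => ?_)) (k.trans
      (le_of_eq ?_))
  · unfold pw
    split_ifs with hz
    · have t := sn_tri b z a
      rw [sn_comm b z] at t
      refine (mul_le_mul (BB_near h0 hr (by omega)) (div_le_div_of_nonneg_right (min_le_right _ _)
        (by positivity)) (ps_nonneg _ _ _) (by positivity)).trans (le_of_eq ?_)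
      rw [show ((sn (z - a) : ℝ) + 1) / (r / 2) = 2 / r * (sn (z - a) + 1) by field_simp,
        Real.sqrt_mul (by positivity), ← hr']
      field_simp
    · rw [mul_zero]; positivity
  · rw [← div_div, Real.sqrt_div' _ h0.le]; ring

/-- far pairs -/
theorem farE {a b : Pt} {ρ l N : ℕ} {K K' y T : ℝ} {u u' χ : Pt → ℝ} {c : Pt → Pt → ℝ} (hl : 1 ≤ l)
    (hρ : l ≤ ρ) (hr : ρ ≤ sn (b - a)) (hN : l ≤ N) (hy : 0 ≤ y) (hu : Dip a ρ K u) (hu' : Dip b ρ K' u')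
    (hχ : ∀ z, |χ z| ≤ 1) (hT : 1 + Real.log (2 * (N + sn (b - a) : ℕ) / l) ≤ T)
    (h : ∀ z ∈ bl a N, ∀ w ∈ bl a N, l < sn (w - z) →
      |c z w| ≤ fi y a b z (sn (w - z)) * fi y a b w (sn (w - z))) :
    |∑ z ∈ bl a N, ∑ w ∈ bl a N \ bl z l, χ z * χ w * Ph u u' z w * c z w| ≤
      10 ^ 8 * (K * K') * y ^ 2 * T ^ 2 / (sn (b - a) * ρ) := by
  classical
  set r := sn (b - a) with hr'
  have l0 : (1 : ℝ) ≤ l := by exact_mod_cast hl
  have l1 : (l : ℝ) ≤ ρ := by exact_mod_cast hρ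
  have l2 : (ρ : ℝ) ≤ r := by exact_mod_cast hr
  have l3 : (l : ℝ) ≤ N := by exact_mod_cast hN
  have r0 : (0 : ℝ) < ρ := by linarith
  have r1 : 1 ≤ r := by omega
  have kk : 0 ≤ K * K' := mul_nonneg (hu.nonneg r0) (hu'.nonneg r0)
  have lg : ∀ x : ℝ, 0 < x → x ≤ 2 * (N + r : ℕ) / l → Real.log x ≤ T - 1 := fun x h0 h1 => by
    linarith [Real.log_le_log h0 h1]
  have n0 : ((N + r : ℕ) : ℝ) = N + r := by push_cast; rfl
  have T1 : 0 ≤ T - 1 := by
    have := lg 1 one_pos (by rw [n0, le_div_iff₀ (by linarith)]; linarith); simpa using this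
  have Da : bl a N ⊆ bl a (N + r) := bl_mono a (by omega)
  have Db : bl a N ⊆ bl b (N + r) := bl_sub (by rw [sn_comm])
  have key := pairs2 (bl a N) (fun z w => w ∉ bl z l) (fun z w => χ z * χ w * Ph u u' z w * c z w)
    (BB a b ρ) (fun z => y * (ps a l z + ps b l z)) (fun z => 4 * r * y * pw a r z)
    (fun z => 4 * r * y * pw b r z) (289 * (K * K')) (4 * y) (8 * T)
    (fun z w h1 h2 => h1 (mem_bl_comm.1 h2)) (by positivity) (by positivity) (BB_nonneg a b r0)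
    (fun z => by have := ps_nonneg a l z; have := ps_nonneg b l z; positivity)
    (fun z => by have := pw_nonneg a r z; positivity) (fun z => by have := pw_nonneg b r z; positivity)
    (fun z hz => by
      refine (sum_le_sum_of_subset_of_nonneg (t := bl z (2 * N) \ bl z l) (fun w hw => mem_sdiff.2
        ⟨bl_sub (by rw [sn_comm]; have := mem_bl_sn.1 hz; omega) (mem_filter.1 hw).1,
          (mem_filter.1 hw).2⟩) fun _ _ _ => by positivity).trans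
        ((sum_inv_sq z hl (by omega)).trans ?_)
      have := lg (((2 * N : ℕ) : ℝ) / l) (by push_cast; exact div_pos (by linarith) (by linarith))
        (by rw [n0]; push_cast; gcongr; linarith)
      linarith)
    (fun z hz w hw hp => by
      have hp' : l < sn (w - z) := by rw [mem_bl_sn] at hp; omega
      have a1 := far_prod hy a b z w hl (by omega) hp'
      have a2 := abs_Ph_dip r0 hu hu' z w
      have a3 := mul_le_mul a2 (h z hz w hw hp') (abs_nonneg _) ((abs_nonneg _).trans a2)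
      have a4 : |χ z| * |χ w| ≤ 1 := mul_le_one₀ (hχ z) (abs_nonneg _) (hχ w)
      have b0 := mul_nonneg (BB_nonneg a b r0 z) (BB_nonneg a b r0 w)
      rw [mul_assoc, abs_mul, abs_mul, abs_mul]
      refine (mul_le_of_le_one_left (by positivity) a4).trans (a3.trans ?_)
      rw [mul_assoc, mul_assoc (BB a b ρ z * _)]
      exact mul_le_mul_of_nonneg_left (mul_le_mul_of_nonneg_left a1 b0) (by positivity))
  refine (abs_sum_le_sum_abs _ _).trans ((sum_le_sum fun z _ => (abs_sum_le_sum_abs _ _).trans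
    (le_of_eq (by rw [sdiff_eq_filter]))).trans (key.trans ?_))
  set β := 2 / (r * (ρ : ℝ)) with hβ
  have β0 : 0 ≤ β := by positivity
  have s1 : ∑ z ∈ bl a N, BB a b ρ z ≤ 8 * T := by
    have := lg (((ρ : ℝ) + (N + r : ℕ)) / ρ) (by positivity) (by
      rw [n0]; exact div_le_div₀ (by positivity) (by linarith) (by linarith) l1)
    linarith [sum_BB (hl.trans hρ) Da Db]
  have s0 : 0 ≤ ∑ z ∈ bl a N, BB a b ρ z := sum_nonneg fun z _ => BB_nonneg a b r0 z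
  have s2 : ∑ z ∈ bl a N, BB a b ρ z ^ 2 ≤ β * (8 * T) :=
    (sum_le_sum fun z _ => by
      rw [pow_two]; exact mul_le_mul_of_nonneg_right (BB_le r0 r1 z) (BB_nonneg a b r0 z)).trans
      ((le_of_eq (mul_sum _ _ _).symm).trans (mul_le_mul_of_nonneg_left s1 β0))
  have sp : ∀ p, bl a N ⊆ bl p (N + r) → ∑ z ∈ bl a N, ps p l z ≤ 17 * T := fun p hp => by
    have := lg (((N + r : ℕ) : ℝ) / l) (by rw [n0]; exact div_pos (by linarith) (by linarith))
      (by gcongr; rw [n0]; linarith)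
    exact ((sum_le_sum_of_subset_of_nonneg hp fun _ _ _ => ps_nonneg _ _ _).trans
      (sum_psi p hl (by omega))).trans (by linarith)
  have s3 : ∑ z ∈ bl a N, BB a b ρ z * (y * (ps a l z + ps b l z)) ≤ β * (y * (34 * T)) := by
    refine (sum_le_sum fun z _ => mul_le_mul_of_nonneg_right (BB_le r0 r1 z) (by
      have := ps_nonneg a l z; have := ps_nonneg b l z; positivity)).trans ?_
    rw [← mul_sum, ← mul_sum, sum_add_distrib]
    exact mul_le_mul_of_nonneg_left (mul_le_mul_of_nonneg_left (by linarith [sp a Da, sp b Db]) hy) β0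
  have s4 : ∀ p, ∑ z ∈ bl a N, BB a b ρ z * pw p r z ≤ 66 / r * √β →
      ∑ z ∈ bl a N, BB a b ρ z * (4 * r * y * pw p r z) ≤ 264 * y * √β := fun p hp => by
    simp only [mul_left_comm (BB a b ρ _), ← mul_sum]
    refine (mul_le_mul_of_nonneg_left hp (by positivity)).trans (le_of_eq ?_)
    have : (r : ℝ) ≠ 0 := by linarith
    field_simp; ring
  have s5 := s4 a (sum_pw (by linarith) r1 _)
  have s6 := s4 b (by
    have := sum_pw (a := b) (b := a) (ρ := ρ) (by linarith) (by rwa [sn_comm]) (bl a N)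
    simpa only [sn_comm a b, BB_comm b a] using this)
  have s7 := mul_le_mul s5 s6 (sum_nonneg fun z _ => mul_nonneg (BB_nonneg a b r0 z)
    (by have := pw_nonneg b r z; positivity)) (by positivity)
  have s8 := mul_le_mul s3 s1 s0 (by have : 0 ≤ T := by linarith
                                     positivity)
  have s9 : 264 * y * √β * (264 * y * √β) = 264 ^ 2 * (y ^ 2 * β) := by
    have := Real.mul_self_sqrt β0
    linear_combination (264 * y) ^ 2 * this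
  have t1 := mul_le_mul_of_nonneg_left s2 (by have : 0 ≤ T := by linarith
                                              positivity : 0 ≤ (4 * y) ^ 2 * (8 * T))
  have t2 := mul_le_mul_of_nonneg_left s8 (by positivity : 0 ≤ 2 * (4 * y))
  have t3 : y ^ 2 * β ≤ y ^ 2 * β * T ^ 2 := le_mul_of_one_le_right (by positivity) (by nlinarith)
  have t4 : 0 ≤ y ^ 2 * β * T ^ 2 := by positivity
  rw [show 10 ^ 8 * (K * K') * y ^ 2 * T ^ 2 / (r * (ρ : ℝ)) =
    289 * (K * K') * (10 ^ 8 / 578 * (y ^ 2 * β * T ^ 2)) by rw [hβ]; ring]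
  refine mul_le_mul_of_nonneg_left ?_ (by positivity)
  rw [s9] at s7
  linarith

theorem cv_A0 {W : Cfg Pt → ℝ} (hW : SE W) {D : Finset Pt} {u v : Pt → ℝ} (hu : Pot.Sup D u)
    (hv : Pot.Sup D v) : Cv W (pr (A0 u)) (pr (A0 v)) =
      ∑ z ∈ D, ∑ w ∈ D, u z * v w * Cv W (Jz z) (Jz w) := by
  have t : ∀ (f : Pt → ℝ) z, Tame fun s => f z * Jz z s := fun f z => (Om.tame_Jz z).const_mul _
  rw [show (pr (A0 u) : Cfg Pt → ℝ) = fun s => ∑ z ∈ D, u z * Jz z s from funext (Xi.pr_A0 hu),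
    Cv_sum_left D (fun z _ => hW.ig (t u z)) fun z _ => hW.ig ((t u z).mul (Tame.hom _))]
  refine sum_congr rfl fun z _ => ?_
  rw [Cv_const_mul_left, Cv_comm,
    show (pr (A0 v) : Cfg Pt → ℝ) = fun s => ∑ z ∈ D, v z * Jz z s from funext (Xi.pr_A0 hv),
    Cv_sum_left D (fun z _ => hW.ig (t v z)) fun w _ => hW.ig ((t v w).mul (Om.tame_Jz z)), mul_sum]
  exact sum_congr rfl fun w _ => by rw [Cv_const_mul_left, Cv_comm, mul_assoc]

/-- **Lemma B from the kernel bounds** -/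
theorem det {W : Cfg Pt → ℝ} (hW : SE W) {a b : Pt} {ρ l l₁ M N : ℕ} {K K' y T T' K₀ K₁ ε : ℝ}
    {u u' χ k : Pt → ℝ} (hl : 1 ≤ l) (hρ : l ≤ ρ) (hl₁ : l ≤ l₁) (hr : ρ ≤ sn (b - a)) (hl₂ : l₁ ≤ N)
    (hN : M + 2 * l ≤ N) (hy : 0 ≤ y) (hK₀ : 0 ≤ K₀) (hK₁ : 0 ≤ K₁) (hε : 0 ≤ ε)
    (hu : Dip a ρ K u) (hu' : Dip b ρ K' u') (su : Pot.Sup (bl a M) u) (su' : Pot.Sup (bl a M) u')
    (hχ : ∀ z, |χ z| ≤ 1) (sχ : Pot.Sup (bl a N) χ) (χ1 : ∀ z ∈ bl a (M + 2 * l), χ z = 1)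
    (hT : 1 + Real.log (2 * (N + sn (b - a) : ℕ) / l) ≤ T)
    (hT' : 1 + Real.log (1 + (sn (b - a) + 2 * l₁ : ℕ)) ≤ T')
    (k1 : ∀ x : Pt, k x.swap = k x) (k2 : ∀ x : Pt, k (-x.1, x.2) = k x)
    (hk : ∀ x ∈ bl 0 l, |k x| ≤ K₁ / ((sn x : ℝ) + 1) ^ 4)
    (far : ∀ z ∈ bl a N, ∀ w ∈ bl a N, l < sn (w - z) →
      |Cv W (Jz z) (Jz w)| ≤ fi y a b z (sn (w - z)) * fi y a b w (sn (w - z)))
    (cru : ∀ z w, dd a b z ≤ l₁ → w ∈ bl z l → w ≠ z → |Cv W (Jz z) (Jz w)| ≤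
      K₀ * ((((min (sn (w - z)) (dd a b z) : ℕ) : ℝ) + 1) ^ 2)⁻¹ *
        ((((min (sn (w - z)) (dd a b w) : ℕ) : ℝ) + 1) ^ 2)⁻¹)
    (good : ∀ z ∈ bl a (M + l), l₁ < dd a b z → ∀ x ∈ bl 0 l,
      |Cv W (Jz z) (Jz (z + x)) - k x| ≤ ε / ((sn x : ℝ) + 1) ^ 4) :
    |Cv W (pr (A0 u)) (pr (A0 u')) -
        (-(1 / 4) * ∑ x ∈ bl 0 l, k x * n2 x) * ∑ z ∈ bl a (M + 1), A0 u z * u' z| ≤
      |Cv W (pr (A0 fun z => u z * u' z)) (pr (A0 χ))| + K * K' *
        (10 ^ 8 * y ^ 2 * T ^ 2 / (sn (b - a) * ρ) +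
          (64 * ε * T' * (2 * (M + l) + 1) ^ 2 + (80000 * K₀ * T' ^ 2 + 1152 * K₁ * T') * (l₁ : ℝ) ^ 2) /
            (ρ : ℝ) ^ 4 + 256 * K₁ * T' * l * (2 * (M + l) + 1) ^ 2 / (ρ : ℝ) ^ 5) := by
  have r0 : (0 : ℝ) < ρ := by exact_mod_cast hl.trans hρ
  have f := farE hl hρ hr (by omega) hy hu hu' hχ hT far
  obtain ⟨n1, n2'⟩ := nearE hl hl₁ hK₀ hK₁ hε hT' cru hk good
  have m := master (D := bl a N) (S := bl a (M + l)) (c := fun z w => Cv W (Jz z) (Jz w))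
    (fun z w => Cv_comm _ _ _) (bl_mono a (by omega)) (fun z hz w hw => by
      have : w ∈ bl a (M + 2 * l) := bl_subset_bl hz (by omega) hw
      exact ⟨bl_mono a hN this, χ1 w this⟩)
    (fun z _ hz w hw => by
      have h1 : z ∉ bl a M := fun h => hz (bl_mono a (by omega) h)
      have h2 : w ∉ bl a M := fun h => hz (bl_subset_bl h (by omega) (mem_bl_comm.1 hw))
      rw [Ph, su z h1, su w h2, sub_self, zero_mul])
    (sm2_dip r0 hu) (sm2_dip r0 hu') k1 k2 f n2'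
  have one : ∀ {v : Pt → ℝ}, Pot.Sup (bl a M) v → ∀ z, χ z * v z = v z := fun hv z => by
    by_cases h : z ∈ bl a M
    · rw [χ1 z (bl_mono a (by omega) h), one_mul]
    · rw [hv z h, mul_zero]
  have MN : bl a M ⊆ bl a N := bl_mono a (by omega)
  have suu : Pot.Sup (bl a M) fun z => u z * u' z := fun z hz => by simp only [su z hz, zero_mul]
  simp only [one su, one su'] at m
  rw [← cv_A0 hW (su.mono MN) (su'.mono MN), ← cv_A0 hW (suu.mono MN) sχ] at m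
  have e : ∑ z ∈ bl a (M + l), gg u u' z = ∑ z ∈ bl a (M + 1), A0 u z * u' z := by
    rw [sum_subset (bl_mono a (by omega : M + 1 ≤ M + l)) fun z _ hz => by
      rw [Xi.sup_A0 su z hz, zero_mul], ← en_eq (by omega : M + 1 ≤ M + l) su u']
    rfl
  rw [e, card_bl] at m
  refine m.trans ?_
  have kk : 0 ≤ K * K' := mul_nonneg (hu.nonneg r0) (hu'.nonneg r0)
  rw [card_bl] at n2'
  push_cast
  have b1 : 4 * l * (K / ρ / ρ ^ 2 * (K' / ρ / ρ) + K / ρ / ρ * (K' / ρ / ρ ^ 2)) *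
      (2 * ((M : ℝ) + l) + 1) ^ 2 * ∑ x ∈ bl 0 l, |k x| * n2 x ≤
      K * K' * (256 * K₁ * T' * l * (2 * (M + l) + 1) ^ 2 / (ρ : ℝ) ^ 5) := by
    have e2 : K / ρ / ρ ^ 2 * (K' / ρ / ρ) + K / ρ / ρ * (K' / ρ / ρ ^ 2) = 2 * (K * K') / (ρ : ℝ) ^ 5 := by
      field_simp; ring
    rw [e2]
    exact (mul_le_mul_of_nonneg_left n1 (by positivity)).trans (le_of_eq (by ring))
  have b2 : 0 ≤ K * K' * (10 ^ 8 * y ^ 2 * T ^ 2 / (sn (b - a) * ρ)) := by positivity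
  have b3 : 2 * (K / ρ / ρ * (K' / ρ / ρ)) * (32 * ε * T' * (2 * ((M : ℝ) + l) + 1) ^ 2 +
      (40000 * K₀ * T' ^ 2 + 576 * K₁ * T') * (l₁ : ℝ) ^ 2) = K * K' * ((64 * ε * T' *
        (2 * (M + l) + 1) ^ 2 + (80000 * K₀ * T' ^ 2 + 1152 * K₁ * T') * (l₁ : ℝ) ^ 2) / (ρ : ℝ) ^ 4) := by
    field_simp; ring
  have b4 : 10 ^ 8 * (K * K') * y ^ 2 * T ^ 2 / (sn (b - a) * ρ) / 2 =
      K * K' * (10 ^ 8 * y ^ 2 * T ^ 2 / (sn (b - a) * ρ)) / 2 := by ring
  rw [b3, b4, mul_add (K * K'), mul_add (K * K')]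
  linarith

end Crest.Agent.T145.Vb27
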