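import Crest.Agent.T145.VxBc_27

/-!
# Row 145, twisted module: lattice sums for Lemma B (helper27)
-/

set_option autoImplicit false

namespace Crest.Agent.T145.Vb27

open Finset Pot

/-- radial sums -/
theorem sum_rad (z : Pt) (f : Pt → ℝ) (g : ℕ → ℝ) (n : ℕ) (h : ∀ x ∈ bl z n, f x ≤ g (sn (x - z))) :
    ∑ x ∈ bl z n, f x ≤ g 0 + ∑ k ∈ range n, 8 * ((k : ℝ) + 1) * g (k + 1) := by
  have h0 : bl z 0 = {z} := by ext y; rw [mem_bl, mem_singleton, Prod.ext_iff]; omega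
  rw [← sum_sdiff (bl_mono z n.zero_le), range_eq_Ico, add_comm]
  refine add_le_add ?_ (sum_shell z f (fun k => g (k + 1)) 0 n fun k _ hk x h1 h2 => ?_)
  · rw [h0, sum_singleton]
    simpa [sn] using h z (self_mem_bl z n)
  · have := h x (bl_mono z hk h1)
    rw [mem_bl_sn] at h1 h2
    rwa [show sn (x - z) = k + 1 by omega] at this

theorem sum_inv_range (ρ : ℕ) (hρ : 1 ≤ ρ) (n : ℕ) :
    ∑ k ∈ range n, ((ρ : ℝ) + k + 1)⁻¹ ≤ Real.log (((ρ : ℝ) + n) / ρ) := by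
  have := sum_inv_le ρ hρ (ρ + n) (by omega)
  rw [sum_Ico_eq_sum_range, Nat.add_sub_cancel_left] at this
  push_cast at this
  exact this

/-- `∑ 1 / (ρ + |x|)²` -/
theorem sum_rho (z : Pt) {ρ : ℕ} (hρ : 1 ≤ ρ) (n : ℕ) :
    ∑ x ∈ bl z n, (((ρ : ℝ) + sn (x - z)) ^ 2)⁻¹ ≤ 1 + 8 * Real.log (((ρ : ℝ) + n) / ρ) := by
  have r1 : (1 : ℝ) ≤ ρ := by exact_mod_cast hρ
  refine (sum_rad z _ (fun k => (((ρ : ℝ) + k) ^ 2)⁻¹) n fun _ _ => le_rfl).trans (add_le_add ?_ ?_)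
  · exact inv_le_one_of_one_le₀ (by simp; nlinarith)
  · refine le_trans ?_ (mul_le_mul_of_nonneg_left (sum_inv_range ρ hρ n) (by norm_num))
    rw [mul_sum]
    refine sum_le_sum fun k _ => ?_
    push_cast
    rw [← add_assoc, mul_assoc]
    refine mul_le_mul_of_nonneg_left ?_ (by norm_num)
    rw [← div_eq_mul_inv, div_le_iff₀ (by positivity), pow_two, inv_mul_cancel_left₀ (by positivity)]
    linarith

/-- `∑ |x|² / (1 + |x|)⁴` -/
theorem sum_n2 (l : ℕ) : ∑ x ∈ bl 0 l, n2 x / ((sn x : ℝ) + 1) ^ 4 ≤ 4 + 32 * Real.log (1 + l) := by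
  have := sum_rho 0 le_rfl l
  simp only [Nat.cast_one, div_one, sub_zero] at this
  refine le_trans ?_ ((mul_le_mul_of_nonneg_left this (by norm_num : (0 : ℝ) ≤ 4)).trans (le_of_eq (by ring)))
  rw [mul_sum]
  refine sum_le_sum fun x _ => ?_
  have a := eu_le_sn x
  have b := eu_nonneg x
  rw [n2_eq, div_le_iff₀ (by positivity), add_comm (1 : ℝ)]
  have : (4 : ℝ) * (((sn x : ℝ) + 1) ^ 2)⁻¹ * ((sn x : ℝ) + 1) ^ 4 = 4 * ((sn x : ℝ) + 1) ^ 2 := by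
    field_simp
  rw [this]
  nlinarith

theorem sum_sqrt (ρ : ℝ) (hρ : 0 < ρ) : ∀ n : ℕ,
    ∑ k ∈ range n, (√((k : ℝ) + 1) * (ρ + k + 1))⁻¹ ≤ 4 / √ρ - 4 / (√ρ + √n)
  | 0 => by simp
  | n + 1 => by
    rw [sum_range_succ]
    have ih := sum_sqrt ρ hρ n
    have a0 := Real.sqrt_pos.2 hρ
    have a1 := Real.sq_sqrt hρ.le
    have b0 := Real.sqrt_nonneg (n : ℝ)
    have b1 := Real.sq_sqrt (Nat.cast_nonneg (α := ℝ) n)
    have c0 : 0 < √((n : ℝ) + 1) := Real.sqrt_pos.2 (by positivity)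
    have c1 : √((n : ℝ) + 1) ^ 2 = n + 1 := Real.sq_sqrt (by positivity)
    have bc : √(n : ℝ) ≤ √((n : ℝ) + 1) := Real.sqrt_le_sqrt (by linarith)
    push_cast
    set p := √ρ
    set q := √(n : ℝ)
    set q' := √((n : ℝ) + 1)
    have key : (q' * (ρ + n + 1))⁻¹ ≤ 4 / (p + q) - 4 / (p + q') := by
      rw [div_sub_div _ _ (by positivity) (by positivity), inv_eq_one_div,
        div_le_div_iff₀ (by positivity) (by positivity)]
      have e1 : ρ + n + 1 = p ^ 2 + q' ^ 2 := by linarith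
      have e2 : (q' - q) * (q' + q) = 1 := by nlinarith
      have e3 : 1 ≤ 2 * q' * (q' - q) := by nlinarith
      have e4 : (p + q) * (p + q') ≤ 2 * (p ^ 2 + q' ^ 2) := by nlinarith [sq_nonneg (p - q')]
      rw [e1]
      nlinarith [mul_le_mul_of_nonneg_left e3 (by positivity : 0 ≤ 2 * (p ^ 2 + q' ^ 2))]
    linarith

/-- `∑ (1 + |x|)^(-3/2) / (ρ + |x|)` -/
theorem sum_core (z : Pt) {ρ : ℝ} (hρ : 1 ≤ ρ) (n : ℕ) : ∑ x ∈ bl z n,
    √((sn (x - z) : ℝ) + 1) / (((sn (x - z) : ℝ) + 1) ^ 2 * (ρ + sn (x - z))) ≤ 33 / √ρ := by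
  have a0 : 0 < √ρ := Real.sqrt_pos.2 (by linarith)
  refine (sum_rad z _ (fun k => √((k : ℝ) + 1) / (((k : ℝ) + 1) ^ 2 * (ρ + k))) n
    fun _ _ => le_rfl).trans ?_
  have h1 : √(((0 : ℕ) : ℝ) + 1) / ((((0 : ℕ) : ℝ) + 1) ^ 2 * (ρ + (0 : ℕ))) ≤ 1 / √ρ := by
    simp only [Nat.cast_zero, zero_add, Real.sqrt_one, one_pow, add_zero, one_mul]
    exact one_div_le_one_div_of_le a0 (Real.sqrt_le_iff.2 ⟨by linarith, by nlinarith⟩)
  have h2 : ∑ k ∈ range n, 8 * ((k : ℝ) + 1) * (√(((k + 1 : ℕ) : ℝ) + 1) /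
      ((((k + 1 : ℕ) : ℝ) + 1) ^ 2 * (ρ + (k + 1 : ℕ)))) ≤
      8 * ∑ k ∈ range n, (√((k : ℝ) + 1) * (ρ + k + 1))⁻¹ := by
    rw [mul_sum]
    refine sum_le_sum fun k _ => ?_
    push_cast
    have c0 : 0 < √((k : ℝ) + 1) := Real.sqrt_pos.2 (by positivity)
    have d0 : 0 < √((k : ℝ) + 1 + 1) := Real.sqrt_pos.2 (by positivity)
    have c1 : √((k : ℝ) + 1) * √((k : ℝ) + 1 + 1) ≤ k + 1 + 1 := by
      rw [← Real.sqrt_mul (by positivity)]
      exact Real.sqrt_le_iff.2 ⟨by positivity, by nlinarith⟩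
    rw [mul_assoc, ← add_assoc ρ]
    refine mul_le_mul_of_nonneg_left ?_ (by norm_num)
    rw [← mul_div_assoc, inv_eq_one_div, div_le_div_iff₀ (by positivity) (by positivity)]
    have : 0 ≤ (ρ + k + 1) := by positivity
    have e : ((k : ℝ) + 1) * (√((k : ℝ) + 1) * √((k : ℝ) + 1 + 1)) ≤ (k + 1 + 1) ^ 2 := by nlinarith
    nlinarith [mul_le_mul_of_nonneg_right e this]
  have h3 := sum_sqrt ρ (by linarith) n
  have h4 : 0 ≤ 4 / (√ρ + √n) := by positivity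
  have : 33 / √ρ = 1 / √ρ + 8 * (4 / √ρ) := by ring
  linarith

theorem sum_sqrt' : ∀ n : ℕ, ∑ k ∈ range n, (√((k : ℝ) + 1))⁻¹ ≤ 2 * √n
  | 0 => by simp
  | n + 1 => by
    rw [sum_range_succ]
    have ih := sum_sqrt' n
    have b0 := Real.sqrt_nonneg (n : ℝ)
    have b1 := Real.sq_sqrt (Nat.cast_nonneg (α := ℝ) n)
    have c0 : 0 < √((n : ℝ) + 1) := Real.sqrt_pos.2 (by positivity)
    have c1 : √((n : ℝ) + 1) ^ 2 = n + 1 := Real.sq_sqrt (by positivity)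
    have : (√((n : ℝ) + 1))⁻¹ ≤ 2 * √((n : ℝ) + 1) - 2 * √n := by
      rw [inv_eq_one_div, div_le_iff₀ c0]; nlinarith [sq_nonneg (√((n : ℝ) + 1) - √n)]
    push_cast
    linarith

/-- `∑ (1 + |x|)^(-2) min (1, √((1 + |x|) / l))` -/
theorem sum_psi (z : Pt) {l n : ℕ} (hl : 1 ≤ l) (hn : l ≤ n) : ∑ x ∈ bl z n,
    min 1 (√(((sn (x - z) : ℝ) + 1) / l)) / ((sn (x - z) : ℝ) + 1) ^ 2 ≤ 17 + 8 * Real.log (n / l) := by
  have l1 : (1 : ℝ) ≤ l := by exact_mod_cast hl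
  have a0 : 1 ≤ √(l : ℝ) := Real.le_sqrt_of_sq_le (by linarith)
  rw [← sum_sdiff (bl_mono z hn), add_comm]
  refine add_le_add ?_ (le_trans (sum_le_sum fun x _ => ?_) ((sum_shell z
    (fun x => (((sn (x - z) : ℝ) + 1) ^ 2)⁻¹) (fun k => (((k : ℝ) + 1) ^ 2)⁻¹) l n
      fun k _ _ x _ hx => ?_).trans ?_))
  · refine (sum_rad z _ (fun k => √(((k : ℝ) + 1) / l) / ((k : ℝ) + 1) ^ 2) l fun x _ =>
      div_le_div_of_nonneg_right (min_le_right _ _) (by positivity)).trans ?_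
    have h1 : √((((0 : ℕ) : ℝ) + 1) / l) / (((0 : ℕ) : ℝ) + 1) ^ 2 ≤ 1 := by
      simp only [Nat.cast_zero, zero_add, one_pow, div_one]
      exact Real.sqrt_le_one.2 ((div_le_one (by linarith)).2 l1)
    have h2 : ∑ k ∈ range l, 8 * ((k : ℝ) + 1) * (√((((k + 1 : ℕ) : ℝ) + 1) / l) /
        (((k + 1 : ℕ) : ℝ) + 1) ^ 2) ≤ 8 / √l * ∑ k ∈ range l, (√((k : ℝ) + 1))⁻¹ := by
      rw [mul_sum]
      refine sum_le_sum fun k _ => ?_
      push_cast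
      have c0 : 0 < √((k : ℝ) + 1) := Real.sqrt_pos.2 (by positivity)
      have c1 : √((k : ℝ) + 1) * √((k : ℝ) + 1 + 1) ≤ k + 1 + 1 := by
        rw [← Real.sqrt_mul (by positivity)]
        exact Real.sqrt_le_iff.2 ⟨by positivity, by nlinarith⟩
      have e : ((k : ℝ) + 1) * (√((k : ℝ) + 1) * √((k : ℝ) + 1 + 1)) ≤ (k + 1 + 1) ^ 2 := by nlinarith
      rw [Real.sqrt_div (by positivity), ← div_eq_mul_inv, div_div, div_div, ← mul_div_assoc,
        div_le_div_iff₀ (by positivity) (by positivity)]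
      nlinarith [mul_le_mul_of_nonneg_right e (by positivity : 0 ≤ 8 * √(l : ℝ))]
    have h3 : 8 / √l * ∑ k ∈ range l, (√((k : ℝ) + 1))⁻¹ ≤ 16 :=
      (mul_le_mul_of_nonneg_left (sum_sqrt' l) (by positivity)).trans (le_of_eq (by field_simp; ring))
    linarith
  · rw [← one_div]; exact div_le_div_of_nonneg_right (min_le_left _ _) (by positivity)
  · rw [mem_bl_sn] at hx
    have : (k : ℝ) ≤ sn (x - z) := by exact_mod_cast (by omega : k ≤ sn (x - z))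
    exact inv_anti₀ (by positivity) (pow_le_pow_left₀ (by positivity) (by linarith) 2)
  · refine le_trans (le_of_eq ?_) (mul_le_mul_of_nonneg_left (sum_inv_le l hl n hn) (by norm_num))
    rw [mul_sum]
    exact sum_congr rfl fun k _ => by field_simp

end Crest.Agent.T145.Vb27
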