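import Crest.Agent.T145.VxInf_48
import Crest.Agent.T145.VxSum_34
import Crest.Agent.T145.TopDef_76
import Crest.Agent.T145.XyD_48
import Crest.Agent.T145.XyH_48

/-!
# Row 145 (helper48): the micro cross ratio of the XY two point function as a vortex-sector covariance
-/

set_option autoImplicit false

open Finset Filter Topology

noncomputable section

namespace Crest.Agent.T145.Inf48

variable {b : ℝ} {C : ℕ → ℝ} {Λ : Lat} {σ : Pt × Pt → ℤ}

theorem finS_seam (r : ℕ) : FinS (seam r) :=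
  ⟨(range r).image fun i : ℕ => (((i : ℤ), -1), ((i : ℤ), 0)), fun e he => if_neg fun h => he
    (mem_image.2 ⟨e.1.1.toNat, mem_range.2 (by omega), by
      ext <;> simp only <;> omega⟩)⟩

theorem ratI_seam (hb : 0 < b) (hC : Top.IsC b C) (r : ℕ) : ratI (xyL b) (seam r) = C r :=
  tendsto_nhds_unique ((tendsto_ratI (xyL_ok hb) (finS_seam r)).comp tendsto_faces)
    ((hC r).congr' ((eventually_ge_atTop r).mono fun R hR => Xy48.xyStmt b R r hb hR))

theorem ratI_seam_sh (hb : 0 < b) (hC : Top.IsC b C) (r : ℕ) (t : Pt) :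
    ratI (xyL b) (shS t (seam r)) = C r := by
  rw [ratI_shS (xyL_ok hb) (finS_seam r), ratI_seam hb hC]

/-- the vertical edge crossing the axis at `i` -/
def eV (i : ℤ) : Pt × Pt := ((i, -1), (i, 0))

theorem eV_Jp (b : ℝ) (i : ℤ) : (eV i).2 - (eV i).1 ∈ (xyL b).Jp := by
  rw [Xy48.Jp_xyL]; simp [eV]

theorem seam_right (r : ℕ) : seam r + Pi.single (eV r) 1 = seam (r + 1) := by
  funext ⟨⟨x, y⟩, x', y'⟩
  simp only [Pi.add_apply, seam, Pi.single_apply, eV, Prod.mk.injEq]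
  push_cast
  split_ifs <;> omega

theorem seam_left (r : ℕ) : seam r + Pi.single (eV (-1)) 1 = shS (-1, 0) (seam (r + 1)) := by
  funext ⟨⟨x, y⟩, x', y'⟩
  simp only [Pi.add_apply, seam, shS, Pi.single_apply, eV, Prod.mk.injEq, Prod.fst_sub, Prod.snd_sub]
  push_cast
  split_ifs <;> omega

theorem seam_both (r : ℕ) : seam r + Pi.single (eV (-1)) 1 + Pi.single (eV r) 1 =
    shS (-1, 0) (seam (r + 2)) := by
  funext ⟨⟨x, y⟩, x', y'⟩
  simp only [Pi.add_apply, seam, shS, Pi.single_apply, eV, Prod.mk.injEq, Prod.fst_sub, Prod.snd_sub]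
  push_cast
  split_ifs <;> omega

/-- the micro move `w (k + 1) / w k` -/
def mv (Λ : Lat) (σ : Pt × Pt → ℤ) (e : Pt × Pt) (s : Cfg Pt) : ℝ :=
  Λ.w (nE σ e s + 1) / Λ.w (nE σ e s)

theorem dens_one (e : Pt × Pt) : dens Λ {e} σ (σ + Pi.single e 1) = mv Λ σ e := by
  funext s
  simp [dens, mv, nE, add_assoc]

theorem dens_two {e e' : Pt × Pt} (h : e ≠ e') (s : Cfg Pt) :
    dens Λ {e, e'} σ (σ + Pi.single e 1 + Pi.single e' 1) s = mv Λ σ e s * mv Λ σ e' s := by
  simp [dens, mv, nE, add_assoc, prod_pair h, Pi.single_eq_of_ne h, Pi.single_eq_of_ne h.symm]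

theorem tendsto_mv (h : Λ.Ok) (hσ : FinS σ) {e : Pt × Pt} (he : e.2 - e.1 ∈ Λ.Jp) :
    Tendsto (fun D => Ex ((Λ.D D).Ws 0 σ) (mv Λ σ e)) atTop
      (𝓝 (ratI Λ (σ + Pi.single e 1) / ratI Λ σ)) := by
  have h1 := hσ.add (finS_single e 1)
  have h2 := (exI_dens h (S := {e}) (by simpa using he) (fun e' he' => by
    rw [Pi.add_apply, Pi.single_eq_of_ne (notMem_singleton.1 he'), add_zero]) hσ h1 (Lo.const 1)).1
  simpa only [mul_one, dens_one, exI_const h h1] using h2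

theorem tendsto_mv₂ (h : Λ.Ok) (hσ : FinS σ) {e e' : Pt × Pt} (he : e.2 - e.1 ∈ Λ.Jp)
    (he' : e'.2 - e'.1 ∈ Λ.Jp) (hne : e ≠ e') :
    Tendsto (fun D => Ex ((Λ.D D).Ws 0 σ) fun s => mv Λ σ e s * mv Λ σ e' s) atTop
      (𝓝 (ratI Λ (σ + Pi.single e 1 + Pi.single e' 1) / ratI Λ σ)) := by
  have h1 := (hσ.add (finS_single e 1)).add (finS_single e' 1)
  have h2 := (exI_dens h (S := {e, e'}) (by simpa using ⟨he, he'⟩) (fun e'' he'' => by
    simp only [mem_insert, mem_singleton, not_or] at he''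
    rw [Pi.add_apply, Pi.add_apply, Pi.single_eq_of_ne he''.1, Pi.single_eq_of_ne he''.2, add_zero,
      add_zero]) hσ h1 (Lo.const 1)).1
  simpa only [mul_one, dens_two hne, exI_const h h1] using h2

/-- the finite-volume micro cross ratio minus one: `Cov (D, D') / (E D · E D')` -/
def crossD (b : ℝ) (r : ℕ) (D : Finset Pt) : ℝ :=
  Cv (((xyL b).D D).Ws 0 (seam r)) (mv (xyL b) (seam r) (eV (-1))) (mv (xyL b) (seam r) (eV r)) /
    (Ex (((xyL b).D D).Ws 0 (seam r)) (mv (xyL b) (seam r) (eV (-1))) *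
      Ex (((xyL b).D D).Ws 0 (seam r)) (mv (xyL b) (seam r) (eV r)))

theorem tendsto_mv_left (hb : 0 < b) (hC : Top.IsC b C) (r : ℕ) :
    Tendsto (fun D => Ex (((xyL b).D D).Ws 0 (seam r)) (mv (xyL b) (seam r) (eV (-1)))) atTop
      (𝓝 (C (r + 1) / C r)) := by
  simpa only [seam_left, ratI_seam hb hC, ratI_seam_sh hb hC] using
    tendsto_mv (xyL_ok hb) (finS_seam r) (eV_Jp b (-1))

theorem tendsto_mv_right (hb : 0 < b) (hC : Top.IsC b C) (r : ℕ) :
    Tendsto (fun D => Ex (((xyL b).D D).Ws 0 (seam r)) (mv (xyL b) (seam r) (eV r))) atTop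
      (𝓝 (C (r + 1) / C r)) := by
  simpa only [seam_right, ratI_seam hb hC] using tendsto_mv (xyL_ok hb) (finS_seam r) (eV_Jp b r)

/-- CROSS -/
theorem tendsto_crossD (hb : 0 < b) (hC : Top.IsC b C) (r : ℕ) :
    Tendsto (crossD b r) atTop (𝓝 (Real.exp (Vx34.d2 (fun r => Real.log (C r)) r) - 1)) := by
  have h1 := tendsto_mv_left hb hC r
  have h2 := tendsto_mv_right hb hC r
  have h3 := tendsto_mv₂ (xyL_ok hb) (finS_seam r) (eV_Jp b (-1)) (eV_Jp b r)
    (by simp only [eV, ne_eq, Prod.mk.injEq]; omega)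
  rw [seam_both, ratI_seam hb hC, ratI_seam_sh hb hC] at h3
  have hp := Xy48.C_pos hb hC
  have h4 := (h3.sub (h1.mul h2)).div (h1.mul h2)
    (mul_pos (div_pos (hp _) (hp _)) (div_pos (hp _) (hp _))).ne'
  refine Tendsto.congr (fun _ => rfl) (h4.trans_eq (congrArg _ (Eq.symm ?_)))
  rw [Vx34.d2, Real.exp_add, Real.exp_sub, two_mul, Real.exp_add, Real.exp_log (hp _),
    Real.exp_log (hp _), Real.exp_log (hp _)]
  have h5 := (hp r).ne'
  have h6 := (hp (r + 1)).ne'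
  field_simp

end Crest.Agent.T145.Inf48
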