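import Crest.Agent.T145.Sc_97
import Crest.Agent.T145.Slit_46
import Crest.Agent.T145.CE_56
import Crest.Agent.T145.ApiP_98

/-!
# Row 145 (helper48): the infinite-volume state in every seam sector

`exI Λ σ F`, `ratI Λ σ` are the limits of the Dirichlet expectations and of `Z(σ)/Z(0)` along `D ↑ ℤ²`.
-/

set_option autoImplicit false

open Finset Filter Topology

noncomputable section

namespace Crest.Agent.T145.Inf48

/-- a seam of finite support -/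
def FinS (σ : Pt × Pt → ℤ) : Prop := ∃ S : Finset (Pt × Pt), ∀ e, e ∉ S → σ e = 0

/-- a local shift invariant observable of exponential growth -/
def Lo (F : Cfg Pt → ℝ) : Prop := (∃ B, DepG B F) ∧ Tame F

/-- `Z(σ) / Z(0)` in the Dirichlet model on `D` -/
def ratD (Λ : Lat) (σ : Pt × Pt → ℤ) (D : Finset Pt) : ℝ :=
  Zs ((Λ.D D).Ws 0 σ) / Zs ((Λ.D D).W 0)

/-- its limit -/
def ratI (Λ : Lat) (σ : Pt × Pt → ℤ) : ℝ := limUnder atTop (ratD Λ σ)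

/-- the infinite-volume expectation in the sector `σ` -/
def exI (Λ : Lat) (σ : Pt × Pt → ℤ) (F : Cfg Pt → ℝ) : ℝ :=
  limUnder atTop fun D : Finset Pt => Ex ((Λ.D D).Ws 0 σ) F

theorem tend_of_mono {f : Finset Pt → ℝ} (D₀ : Finset Pt)
    (hm : ∀ D D', D₀ ⊆ D → D ⊆ D' → f D ≤ f D') {C : ℝ} (hb : ∀ D, D₀ ⊆ D → f D ≤ C) :
    ∃ l, Tendsto f atTop (𝓝 l) := by
  have h1 : Monotone fun D => f (D ∪ D₀) := fun D D' h =>
    hm _ _ subset_union_right (union_subset_union h subset_rfl)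
  refine ⟨_, (tendsto_atTop_ciSup h1 ⟨C, ?_⟩).congr' ((eventually_ge_atTop D₀).mono fun D hD => ?_)⟩
  · rintro _ ⟨D, rfl⟩
    exact hb _ subset_union_right
  · simp only [union_eq_left.2 hD]

/-- projection to the gradients on `B` -/
def pj (B : Finset Pt) (z : Pt) : Cfg Pt →+ Cfg Pt :=
  AddMonoidHom.mk' (fun s => s.filter (· ∈ B) - cst B (s z)) fun s t => by
    ext x
    simp only [Finsupp.sub_apply, Finsupp.add_apply, Finsupp.filter_apply, cst_apply]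
    split_ifs <;> ring

theorem pj_apply (B : Finset Pt) (z : Pt) (s : Cfg Pt) (x : Pt) :
    pj B z s x = if x ∈ B then s x - s z else 0 := by
  change (s.filter (· ∈ B) - cst B (s z)) x = _
  simp only [Finsupp.sub_apply, Finsupp.filter_apply, cst_apply]
  split_ifs <;> ring

variable {Λ : Lat} {B D D' : Finset Pt} {z : Pt} {σ σ' : Pt × Pt → ℤ} {F G : Cfg Pt → ℝ}

theorem dE_pj {e : Pt × Pt} (he : e ∈ Λ.edI B) (s : Cfg Pt) : dE e (pj B z s) = dE e s := by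
  have h := Lat.mem_edI.1 he
  simp only [dE, pj_apply, if_pos h.2.1, if_pos h.2.2]
  ring

theorem DepG_pj (hF : DepG B F) (z : Pt) (s : Cfg Pt) : F (pj B z s) = F s :=
  (hF s _ (-s z) fun x hx => by rw [pj_apply, if_pos hx]; ring).symm

/-- the weight outside `B` given the gradients in `B` -/
def rho (Λ : Lat) (B : Finset Pt) (z : Pt) (D : Finset Pt) (q : (Pt × Pt → ℤ) × Cfg Pt)
    (s : Cfg Pt) : ℝ :=
  ((Λ.D D).keep (Λ.edT D \ Λ.edI B)).Ws 0 q.1 s * ind (pj B z s - q.2 = 0)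

/-- the weight inside `B` -/
def cc (Λ : Lat) (B : Finset Pt) (σ : Pt × Pt → ℤ) (t : Cfg Pt) : ℝ :=
  ∏ e ∈ Λ.edI B, Λ.w (dE e t + σ e)

theorem cc_pos (h : Λ.Ok) (σ : Pt × Pt → ℤ) (t : Cfg Pt) : 0 < cc Λ B σ t :=
  prod_pos fun _ _ => h.fam.pos _

theorem key (hB : B ⊆ D) (σ : Pt × Pt → ℤ) (t s : Cfg Pt) :
    ind (pj B z s = t) * (Λ.D D).Ws 0 σ s = cc Λ B σ t * rho Λ B z D (σ, t) s := by
  have h1 : Λ.edI B ⊆ Λ.edT D := (Lat.edI_subset_edT B).trans (Lat.edT_mono hB)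
  rw [rho, ind_congr sub_eq_zero, Sl46.Ws_keep (Λ.D D) (E := Λ.edT D \ Λ.edI B) sdiff_subset]
  by_cases hs : pj B z s = t
  · have h2 : ∏ e ∈ (Λ.D D).ed \ (Λ.edT D \ Λ.edI B), (Λ.D D).w e (dE e s + σ e) = cc Λ B σ t := by
      rw [show (Λ.D D).ed = Λ.edT D from rfl, Finset.sdiff_sdiff_eq_self h1, ← hs]
      exact prod_congr rfl fun e he => by rw [dE_pj he]; rfl
    rw [h2]
    ring
  · simp [ind_neg hs]

theorem wts (h : Λ.Ok) (D : Finset Pt) (σ : Pt × Pt → ℤ) : Wt ((Λ.D D).Ws 0 σ) :=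
  Md.ctr_wts (h.ctr_D D) (h.anch_D D) 0 σ

theorem ses (h : Λ.Ok) (D : Finset Pt) (σ : Pt × Pt → ℤ) : SE ((Λ.D D).Ws 0 σ) :=
  Md.ctr_ses (h.ctr_D D) (h.anch_D D) 0 σ

theorem summable_rho (h : Λ.Ok) (hB : B ⊆ D) (q : (Pt × Pt → ℤ) × Cfg Pt) :
    Summable (rho Λ B z D q) := by
  have h1 := (summable_ind_mul (wts h D q.1).summ fun s => pj B z s = q.2).div_const (cc Λ B q.1 q.2)
  exact h1.congr fun s => by rw [key hB, mul_div_cancel_left₀ _ (cc_pos h _ _).ne']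

theorem push_eq (hB : B ⊆ D) (σ : Pt × Pt → ℤ) (t : Cfg Pt) :
    push ((Λ.D D).Ws 0 σ) (pj B z) t = cc Λ B σ t * Zs (rho Λ B z D (σ, t)) := by
  rw [push, Zs, ← tsum_mul_left]
  exact tsum_congr fun s => key hB σ t s

/-- the datum as a homomorphism -/
def dat (B : Finset Pt) (z : Pt) : Cfg Pt × ((Pt × Pt → ℤ) × Cfg Pt) →+ Cfg Pt :=
  (pj B z).comp (AddMonoidHom.fst _ _) - (AddMonoidHom.snd _ _).comp (AddMonoidHom.snd _ _)

/-- forget the datum -/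
def fgt : Cfg Pt × ((Pt × Pt → ℤ) × Cfg Pt) →+ Cfg Pt × (Pt × Pt → ℤ) :=
  (AddMonoidHom.id _).prodMap (AddMonoidHom.fst _ _)

theorem rsd_rho (h : Λ.Ok) :
    RSD fun p : Cfg Pt × ((Pt × Pt → ℤ) × Cfg Pt) => rho Λ B z D p.2 p.1 :=
  Md.rsd_mul (Md.rsd_comp (Md.ctr_rsd_seam (Sl46.ctr_keep (h.ctr_D D)
    (E := Λ.edT D \ Λ.edI B) sdiff_subset)) fgt) (Md.rsd_ind (dat B z))

theorem rho_nonneg (h : Λ.Ok) (q : (Pt × Pt → ℤ) × Cfg Pt) (s : Cfg Pt) : 0 ≤ rho Λ B z D q s :=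
  (rsd_rho h).nonneg (s, q)

theorem pd_rho (h : Λ.Ok) :
    PD fun p : Cfg Pt × ((Pt × Pt → ℤ) × Cfg Pt) => rho Λ B z D p.2 p.1 := by
  have h1 := (((T145.pd_off D).comp
    (AddMonoidHom.fst (Cfg Pt) ((Pt × Pt → ℤ) × Cfg Pt))).mul ((Sl46.pd_seam (h.ctr_D D).1
      (E := Λ.edT D \ Λ.edI B) sdiff_subset).comp fgt)).mul (pd_ind (dat B z))
  convert h1 using 2 with p
  simp only [rho, Mdl.Ws]
  rw [prod_eq_one (f := fun x => ((Λ.D D).keep _).site x (p.1 x)) fun _ _ => rfl, mul_one]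
  rfl

theorem Z_nonneg (h : Λ.Ok) (q : (Pt × Pt → ℤ) × Cfg Pt) : 0 ≤ Zs (rho Λ B z D q) :=
  Zs_nonneg (rho_nonneg h q)

theorem Z_le (h : Λ.Ok) (hB : B ⊆ D) (q : (Pt × Pt → ℤ) × Cfg Pt) :
    Zs (rho Λ B z D q) ≤ Zs (rho Λ B z D 0) :=
  ((pd_rho (z := z) (D := D) h).mg fun q => summable_rho h hB q).le q

theorem Z_pos (h : Λ.Ok) (hB : B ⊆ D) : 0 < Zs (rho Λ B z D 0) := by
  have h1 := le_push (wts h D 0).nonneg (wts h D 0).summ (pj B z) 0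
  rw [map_zero, push_eq hB] at h1
  have h2 : 0 < (Λ.D D).Ws 0 0 0 :=
    Md.Ws_pos (h.ctr_D D).1 (fun _ _ => rfl) (fun _ _ => one_pos) 0
  exact (mul_pos_iff_of_pos_left (cc_pos h 0 0)).1 (h2.trans_le h1)

theorem rho_res (hD : D ⊆ D') (hB : B ⊆ D) {q : (Pt × Pt → ℤ) × Cfg Pt}
    (hq : ∀ e ∈ Λ.edT D', e ∉ Λ.edT D → q.1 e = 0) (s : Cfg Pt) :
    rho Λ B z D' q s * ind (∀ x, x ∉ D → s x = 0) =
      Λ.w 0 ^ (Λ.edT D' \ Λ.edT D).card * rho Λ B z D q s := by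
  by_cases hs : ∀ x, x ∉ D → s x = 0
  · have h1 : Λ.edI B ⊆ Λ.edT D := (Lat.edI_subset_edT B).trans (Lat.edT_mono hB)
    have h2 : Λ.edT D' \ Λ.edI B = (Λ.edT D' \ Λ.edT D) ∪ (Λ.edT D \ Λ.edI B) :=
      (sdiff_union_sdiff_cancel (Lat.edT_mono hD) h1).symm
    have h3 : ∏ e ∈ Λ.edT D' \ Λ.edT D, Λ.w (dE e s + q.1 e) =
        Λ.w 0 ^ (Λ.edT D' \ Λ.edT D).card := by
      rw [← prod_const]
      refine prod_congr rfl fun e he => ?_
      have h4 := mem_sdiff.1 he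
      have h5 := mt (fun h5 => Lat.mem_edT.2 ⟨(Lat.mem_edT.1 h4.1).1, h5⟩) h4.2
      rw [not_or] at h5
      rw [hq e h4.1 h4.2, dE, hs _ h5.1, hs _ h5.2]
      rfl
    have h4 : ∀ x, x ∉ D' → s x = 0 := fun x hx => hs x fun h => hx (hD h)
    change (ind (∀ x, x ∉ D' → s x = 0) * (∏ e ∈ Λ.edT D' \ Λ.edI B, Λ.w (dE e s + q.1 e)) *
      ∏ _x ∈ D', (1 : ℝ)) * _ * _ = _ * ((ind (∀ x, x ∉ D → s x = 0) *
        (∏ e ∈ Λ.edT D \ Λ.edI B, Λ.w (dE e s + q.1 e)) * ∏ _x ∈ D, (1 : ℝ)) * _)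
    rw [h2, prod_union (disjoint_sdiff_self_left.mono_right sdiff_subset), h3, ind_pos hs, ind_pos h4]
    simp only [prod_const_one]
    ring
  · have h1 : rho Λ B z D q s = 0 := by
      change (ind (∀ x, x ∉ D → s x = 0) * _ * _) * _ = 0
      rw [ind_neg hs, zero_mul, zero_mul, zero_mul]
    rw [ind_neg hs, h1, mul_zero, mul_zero]

theorem Z_mono (h : Λ.Ok) (hD : D ⊆ D') (hB : B ⊆ D) {q : (Pt × Pt → ℤ) × Cfg Pt}
    (hq : ∀ e ∈ Λ.edT D', e ∉ Λ.edT D → q.1 e = 0) :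
    Zs (rho Λ B z D q) / Zs (rho Λ B z D 0) ≤ Zs (rho Λ B z D' q) / Zs (rho Λ B z D' 0) := by
  have e : ∀ W : Cfg Pt → ℝ, tilt W 0 = W := fun W => funext fun s => by simp [tilt]
  have h0 : PD fun p : Cfg Pt × ((Pt × Pt → ℤ) × Cfg Pt) => ind (∀ x, x ∉ D → p.1 x = 0) :=
    (T145.pd_off D).comp (AddMonoidHom.fst (Cfg Pt) ((Pt × Pt → ℤ) × Cfg Pt))
  have h1 := Sl46.bp2 (ρ := rho Λ B z D') (G := fun _ s => ind (∀ x, x ∉ D → s x = 0)) (rsd_rho h)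
    h0 q 0 (summable_rho h (hB.trans hD) 0) (by rw [e]; exact summable_rho h (hB.trans hD) q)
  rw [e, tsum_congr (rho_res hD hB hq), tsum_congr (rho_res hD hB (q := 0) fun _ _ _ => rfl),
    tsum_mul_left, tsum_mul_left] at h1
  rw [div_le_div_iff₀ (Z_pos h hB) (Z_pos h (hB.trans hD))]
  refine le_of_mul_le_mul_left ?_ (pow_pos (h.fam.pos 0) (Λ.edT D' \ Λ.edT D).card)
  rw [← mul_assoc, mul_left_comm]
  exact h1

theorem FinS.exists (hσ : FinS σ) (Λ : Lat) :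
    ∃ D₀ : Finset Pt, ∀ D D', D₀ ⊆ D → ∀ e ∈ Λ.edT D', e ∉ Λ.edT D → σ e = 0 := by
  obtain ⟨S, hS⟩ := hσ
  exact ⟨S.image Prod.fst, fun D D' hD e he he' => hS e fun h =>
    he' (Lat.mem_edT.2 ⟨(Lat.mem_edT.1 he).1, Or.inl (hD (mem_image_of_mem _ h))⟩)⟩

theorem rho_empty (σ : Pt × Pt → ℤ) : rho Λ ∅ z D (σ, 0) = (Λ.D D).Ws 0 σ := by
  funext s
  have h1 := key (Λ := Λ) (z := z) (empty_subset D) σ 0 s
  have h2 : Λ.edI ∅ = ∅ := eq_empty_of_forall_notMem fun e he => by simpa using Lat.mem_edI.1 he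
  rw [cc, h2, prod_empty, one_mul, ind_pos (by ext x; simp [pj_apply]), one_mul] at h1
  exact h1.symm

theorem ratD_eq (σ : Pt × Pt → ℤ) (D : Finset Pt) :
    ratD Λ σ D = Zs (rho Λ ∅ 0 D (σ, 0)) / Zs (rho Λ ∅ 0 D 0) := by
  rw [ratD, rho_empty, Mdl.W_eq_Ws, show (0 : (Pt × Pt → ℤ) × Cfg Pt) = (0, 0) from rfl, rho_empty]

theorem ratD_pos (h : Λ.Ok) (σ : Pt × Pt → ℤ) (D : Finset Pt) : 0 < ratD Λ σ D :=
  div_pos (wts h D σ).pos (h.wt_D D 0).pos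

theorem ratD_le_one (h : Λ.Ok) (σ : Pt × Pt → ℤ) (D : Finset Pt) : ratD Λ σ D ≤ 1 := by
  rw [ratD_eq, div_le_one (Z_pos h (empty_subset D))]
  exact Z_le h (empty_subset D) _

theorem ratD_mono (h : Λ.Ok) (hD : D ⊆ D') (hσ : ∀ e ∈ Λ.edT D', e ∉ Λ.edT D → σ e = 0) :
    ratD Λ σ D ≤ ratD Λ σ D' := by
  rw [ratD_eq, ratD_eq]
  exact Z_mono h hD (empty_subset D) hσ

theorem tendsto_ratI (h : Λ.Ok) (hσ : FinS σ) : Tendsto (ratD Λ σ) atTop (𝓝 (ratI Λ σ)) := by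
  obtain ⟨D₀, h0⟩ := hσ.exists Λ
  exact tendsto_nhds_limUnder (tend_of_mono D₀ (fun D D' h1 h2 => ratD_mono h h2 (h0 D D' h1))
    fun D _ => ratD_le_one h σ D)

theorem ratD_le_ratI (h : Λ.Ok) (hσ : FinS σ) (hD : ∀ D', ∀ e ∈ Λ.edT D', e ∉ Λ.edT D → σ e = 0) :
    ratD Λ σ D ≤ ratI Λ σ :=
  ge_of_tendsto (tendsto_ratI h hσ) ((eventually_ge_atTop D).mono fun D' h1 => ratD_mono h h1 (hD D'))

theorem ratI_pos (h : Λ.Ok) (hσ : FinS σ) : 0 < ratI Λ σ := by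
  obtain ⟨D₀, h0⟩ := hσ.exists Λ
  exact (ratD_pos h σ D₀).trans_le (ratD_le_ratI h hσ fun D' => h0 D₀ D' subset_rfl)

theorem ratI_le_one (h : Λ.Ok) (hσ : FinS σ) : ratI Λ σ ≤ 1 :=
  le_of_tendsto' (tendsto_ratI h hσ) (ratD_le_one h σ)

/-- probability of the datum `t` -/
def pp (Λ : Lat) (B : Finset Pt) (z : Pt) (σ : Pt × Pt → ℤ) (D : Finset Pt) (t : Cfg Pt) : ℝ :=
  push ((Λ.D D).Ws 0 σ) (pj B z) t / Zs ((Λ.D D).Ws 0 σ)

theorem pp_eq (h : Λ.Ok) (hB : B ⊆ D) (t : Cfg Pt) : pp Λ B z σ D t =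
    cc Λ B σ t / cc Λ B 0 0 * (Zs (rho Λ B z D (σ, t)) / Zs (rho Λ B z D 0)) *
      Ex ((Λ.D D).W 0) (fun s => ind (pj B z s = 0)) / ratD Λ σ D := by
  have h1 := (wts h D 0).push_eq (pj B z) 0
  rw [push_eq hB, ← Mdl.W_eq_Ws, Pr] at h1
  have h2 := (h.wt_D D 0).ne
  have h3 := (wts h D σ).ne
  have h4 := (Z_pos (z := z) h hB).ne'
  have h5 := (cc_pos (B := B) h 0 0).ne'
  rw [pp, push_eq hB, ratD, ← mul_div_cancel_left₀ (Ex _ _) h2, ← h1]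
  change _ = _ * _ * (_ * Zs (rho Λ B z D 0) / _) / _
  field_simp

theorem pp_le (h : Λ.Ok) (hB : B ⊆ D) (t : Cfg Pt) :
    pp Λ B z σ D t ≤ (Λ.Nr B z).Ws 0 σ t / cc Λ B 0 0 / ratD Λ σ D := by
  by_cases ht : ∀ x, x ∉ B.erase z → t x = 0
  · have h1 : (Λ.Nr B z).Ws 0 σ t = cc Λ B σ t := by
      change ind (∀ x, x ∉ B.erase z → t x = 0) * cc Λ B σ t * ∏ _x ∈ B.erase z, (1 : ℝ) = _
      rw [ind_pos ht, prod_const_one, one_mul, mul_one]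
    rw [pp_eq h hB, h1]
    refine div_le_div_of_nonneg_right ?_ (ratD_pos h σ D).le
    have h2 := div_pos (cc_pos (B := B) h σ t) (cc_pos (B := B) h 0 0)
    have h3 := div_le_one_of_le₀ (Z_le (z := z) h hB (σ, t)) (Z_nonneg h 0)
    have h4 := div_nonneg (Z_nonneg (B := B) (z := z) (D := D) h (σ, t))
      (Z_nonneg (B := B) (z := z) (D := D) h 0)
    exact (mul_le_of_le_one_right (mul_nonneg h2.le h4) ((h.wt_D D 0).pr_le_one _)).trans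
      (mul_le_of_le_one_right h2.le h3)
  · have h1 : push ((Λ.D D).Ws 0 σ) (pj B z) t = 0 := by
      refine (tsum_congr fun s => ?_).trans tsum_zero
      rw [ind_neg, zero_mul]
      rintro rfl
      refine ht fun x hx => ?_
      rw [pj_apply]
      split_ifs with h2
      · rw [show x = z from by_contra fun h3 => hx (mem_erase.2 ⟨h3, h2⟩), sub_self]
      · rfl
    rw [pp, h1, zero_div]
    exact div_nonneg (div_nonneg (Md.Ws_nonneg (h.ctr_Nr B z).1 (Md.ctr_nn (h.ctr_Nr B z)) _ _ _)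
      (cc_pos h _ _).le) (ratD_pos h σ D).le

theorem pp_nonneg (h : Λ.Ok) (t : Cfg Pt) : 0 ≤ pp Λ B z σ D t :=
  div_nonneg (push_nonneg (wts h D σ).nonneg _ _) (wts h D σ).pos.le

theorem ex_eq (h : Λ.Ok) (hF : DepG B F) :
    Ex ((Λ.D D).Ws 0 σ) F = ∑' t, pp Λ B z σ D t * F t := by
  have h1 := (wts h D σ).ex_push (pj B z) F
  simp only [DepG_pj hF] at h1
  rw [← h1, Ex_def, Zs_push (wts h D σ).summ, ← tsum_div_const]
  exact tsum_congr fun t => by rw [pp]; ring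

theorem tendsto_pp (h : Λ.Ok) (hσ : FinS σ) (t : Cfg Pt) :
    ∃ l, Tendsto (fun D => pp Λ B z σ D t) atTop (𝓝 l) := by
  obtain ⟨D₀, h0⟩ := hσ.exists Λ
  obtain ⟨a, ha⟩ := tend_of_mono (f := fun D => Zs (rho Λ B z D (σ, t)) / Zs (rho Λ B z D 0)) (D₀ ∪ B)
    (fun D D' h1 h2 => Z_mono h h2 (subset_union_right.trans h1)
      (h0 D D' (subset_union_left.trans h1)))
    fun D h1 => div_le_one_of_le₀ (Z_le h (subset_union_right.trans h1) _) (Z_nonneg h 0)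
  obtain ⟨p, hp⟩ := tend_of_mono (f := fun D => -Ex ((Λ.D D).W 0) fun s => ind (pj B z s = 0)) ∅
    (fun D D' _ h2 => neg_le_neg ((h.loc_D_D h2).2 _ (pd_ind (pj B z))))
    (C := 0) fun D _ => neg_nonpos.2 (Pr_nonneg (h.wt_D D 0).nonneg _)
  have h1 := ((ha.const_mul (cc Λ B σ t / cc Λ B 0 0)).mul hp.neg).div (tendsto_ratI h hσ)
    (ratI_pos h hσ).ne'
  refine ⟨_, h1.congr' ((eventually_ge_atTop B).mono fun D hD => ?_)⟩
  simp only [Pi.div_apply, neg_neg]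
  exact (pp_eq h hD t).symm

/-- existence of the infinite-volume limit -/
theorem tendsto_exI' (h : Λ.Ok) (hσ : FinS σ) (hF : DepG B F)
    (hI : Ig ((Λ.Nr B z).Ws 0 σ) F) :
    Tendsto (fun D => Ex ((Λ.D D).Ws 0 σ) F) atTop (𝓝 (exI Λ σ F)) := by
  refine tendsto_nhds_limUnder ?_
  obtain ⟨D₀, h0⟩ := hσ.exists Λ
  choose l hl using tendsto_pp (B := B) (z := z) h hσ
  have h1 := (hI.abs (Md.Ws_nonneg (h.ctr_Nr B z).1 (Md.ctr_nn (h.ctr_Nr B z)) _ _))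
  simp only [ex_eq (z := z) h hF]
  refine ⟨_, tendsto_tsum_of_dominated_convergence ((h1.div_const (cc Λ B 0 0)).div_const
    (ratD Λ σ D₀)) (fun t => (hl t).mul_const (F t))
    ((eventually_ge_atTop (D₀ ∪ B)).mono fun D hD t => ?_)⟩
  have h2 := (pp_le (σ := σ) (z := z) h (subset_union_right.trans hD) t).trans
    (div_le_div_of_nonneg_left (div_nonneg
      (Md.Ws_nonneg (h.ctr_Nr B z).1 (Md.ctr_nn (h.ctr_Nr B z)) _ _ _) (cc_pos h _ _).le)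
      (ratD_pos h σ D₀) (ratD_mono h (subset_union_left.trans hD) (h0 D₀ D subset_rfl)))
  rw [Real.norm_eq_abs, abs_mul, abs_of_nonneg (pp_nonneg h t)]
  exact (mul_le_mul_of_nonneg_right h2 (abs_nonneg _)).trans_eq (by ring)

theorem exists_bl (B : Finset Pt) : ∃ r, B ⊆ bl 0 r := by
  refine ⟨B.sup fun x => max x.1.natAbs x.2.natAbs, fun x hx => ?_⟩
  have h := le_sup (f := fun x : Pt => max x.1.natAbs x.2.natAbs) hx
  simp only [max_le_iff] at h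
  rw [mem_bl]
  simp only [Prod.fst_zero, Prod.snd_zero]
  omega

theorem tendsto_exI (h : Λ.Ok) (hσ : FinS σ) (hF : Lo F) :
    Tendsto (fun D => Ex ((Λ.D D).Ws 0 σ) F) atTop (𝓝 (exI Λ σ F)) := by
  obtain ⟨⟨B, hB⟩, hT⟩ := hF
  obtain ⟨r, hr⟩ := exists_bl B
  exact tendsto_exI' h hσ (hB.mono hr)
    ((Md.ctr_ses (h.ctr_Nr _ _) (h.anch_Nr_bl (self_mem_bl 0 r)) 0 σ).ig hT)

/-! ## the class `Lo` -/

theorem Lo.ig (h : Λ.Ok) (hF : Lo F) (D : Finset Pt) (σ : Pt × Pt → ℤ) : Ig ((Λ.D D).Ws 0 σ) F :=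
  (ses h D σ).ig hF.2

theorem Lo.of_ins {r : ℕ} (hF : Ins z r F) : Lo F := ⟨⟨_, hF.1⟩, hF.2⟩

theorem Lo.ins (hF : Lo F) (z : Pt) : ∃ r, Ins z r F := by
  obtain ⟨⟨B, hB⟩, hT⟩ := hF
  obtain ⟨r, hr⟩ := exists_bl (insert z B)
  refine ⟨r + r, hB.mono fun x hx => ?_, hT⟩
  have h1 := mem_bl.1 (hr (mem_insert_of_mem hx))
  have h2 := mem_bl.1 (hr (mem_insert_self z B))
  simp only [Prod.fst_zero, Prod.snd_zero] at h1 h2
  rw [mem_bl]
  push_cast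
  omega

theorem Lo.const (c : ℝ) : Lo fun _ => c := ⟨⟨∅, DepG.const _ _⟩, Tame.const c⟩

theorem Lo.comp₂ (hF : Lo F) (hG : Lo G) (g : ℝ → ℝ → ℝ) (hT : Tame fun s => g (F s) (G s)) :
    Lo fun s => g (F s) (G s) :=
  let ⟨B, hB⟩ := hF.1
  let ⟨B', hB'⟩ := hG.1
  ⟨⟨B ∪ B', (hB.mono subset_union_left).comp₂ (hB'.mono subset_union_right) g⟩, hT⟩

theorem Lo.add (hF : Lo F) (hG : Lo G) : Lo fun s => F s + G s := hF.comp₂ hG _ (hF.2.add hG.2)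
theorem Lo.sub (hF : Lo F) (hG : Lo G) : Lo fun s => F s - G s := hF.comp₂ hG _ (hF.2.sub hG.2)
theorem Lo.mul (hF : Lo F) (hG : Lo G) : Lo fun s => F s * G s := hF.comp₂ hG _ (hF.2.mul hG.2)
theorem Lo.const_mul (hF : Lo F) (c : ℝ) : Lo fun s => c * F s := (Lo.const c).mul hF
theorem Lo.neg (hF : Lo F) : Lo fun s => -F s := hF.comp₂ hF (fun a _ => -a) hF.2.neg
theorem Lo.abs (hF : Lo F) : Lo fun s => |F s| := hF.comp₂ hF (fun a _ => |a|) hF.2.abs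

theorem Lo.sum {ι : Type*} (T : Finset ι) {F : ι → Cfg Pt → ℝ} (h : ∀ i ∈ T, Lo (F i)) :
    Lo fun s => ∑ i ∈ T, F i s := by
  classical
  induction T using Finset.induction_on with
  | empty => simpa using Lo.const 0
  | insert a T ha ih =>
    simp only [sum_insert ha]
    exact (h a (mem_insert_self _ _)).add (ih fun i hi => h i (mem_insert_of_mem hi))

theorem Lo.edge (e : Pt × Pt) (σ : Pt × Pt → ℤ) (g : ℤ → ℝ) (hT : Tame fun s => g (nE σ e s)) :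
    Lo fun s => g (nE σ e s) :=
  ⟨⟨{e.1, e.2}, (DepG.dE (by simp) (by simp)).comp fun k => g (k + σ e)⟩, hT⟩

theorem Lo.pr {f : Pt → ℝ} (hf : ∀ x, x ∉ B → f x = 0) (h0 : ∑ x ∈ B, f x = 0) :
    Lo fun s => pr f s := ⟨⟨B, DepG.pr hf h0⟩, Tame.hom _⟩

/-! ## calculus of `exI` -/

theorem exI_eq (h : Λ.Ok) (hσ : FinS σ) (hF : Lo F) {l : ℝ}
    (hl : Tendsto (fun D => Ex ((Λ.D D).Ws 0 σ) F) atTop (𝓝 l)) : exI Λ σ F = l :=
  tendsto_nhds_unique (tendsto_exI h hσ hF) hl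

theorem exI_const (h : Λ.Ok) (hσ : FinS σ) (c : ℝ) : exI Λ σ (fun _ => c) = c :=
  exI_eq h hσ (Lo.const c) (by simpa only [(wts h _ σ).ex_const] using tendsto_const_nhds)

theorem exI_add (h : Λ.Ok) (hσ : FinS σ) (hF : Lo F) (hG : Lo G) :
    exI Λ σ (fun s => F s + G s) = exI Λ σ F + exI Λ σ G :=
  exI_eq h hσ (hF.add hG) (by
    simpa only [Ex_add (hF.ig h _ σ) (hG.ig h _ σ)] using
      (tendsto_exI h hσ hF).add (tendsto_exI h hσ hG))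

theorem exI_sub (h : Λ.Ok) (hσ : FinS σ) (hF : Lo F) (hG : Lo G) :
    exI Λ σ (fun s => F s - G s) = exI Λ σ F - exI Λ σ G :=
  exI_eq h hσ (hF.sub hG) (by
    simpa only [Ex_sub (hF.ig h _ σ) (hG.ig h _ σ)] using
      (tendsto_exI h hσ hF).sub (tendsto_exI h hσ hG))

theorem exI_const_mul (h : Λ.Ok) (hσ : FinS σ) (hF : Lo F) (c : ℝ) :
    exI Λ σ (fun s => c * F s) = c * exI Λ σ F :=
  exI_eq h hσ (hF.const_mul c) (by
    simpa only [Ex_const_mul] using (tendsto_exI h hσ hF).const_mul c)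

theorem exI_neg (h : Λ.Ok) (hσ : FinS σ) (hF : Lo F) : exI Λ σ (fun s => -F s) = -exI Λ σ F :=
  exI_eq h hσ hF.neg (by simpa only [Ex_neg] using (tendsto_exI h hσ hF).neg)

theorem exI_sum (h : Λ.Ok) (hσ : FinS σ) {ι : Type*} (T : Finset ι) {F : ι → Cfg Pt → ℝ}
    (hF : ∀ i ∈ T, Lo (F i)) : exI Λ σ (fun s => ∑ i ∈ T, F i s) = ∑ i ∈ T, exI Λ σ (F i) :=
  exI_eq h hσ (Lo.sum T hF) (by
    simpa only [Ex_sum T fun i hi => (hF i hi).ig h _ σ] using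
      tendsto_finsetSum T fun i hi => tendsto_exI h hσ (hF i hi))

theorem exI_mono (h : Λ.Ok) (hσ : FinS σ) (hF : Lo F) (hG : Lo G) (hle : ∀ s, F s ≤ G s) :
    exI Λ σ F ≤ exI Λ σ G :=
  le_of_tendsto_of_tendsto' (tendsto_exI h hσ hF) (tendsto_exI h hσ hG) fun D =>
    Ex_mono (wts h D σ).nonneg (hF.ig h D σ) (hG.ig h D σ) hle

theorem exI_nonneg (h : Λ.Ok) (hσ : FinS σ) (hF : Lo F) (h0 : ∀ s, 0 ≤ F s) : 0 ≤ exI Λ σ F :=
  (exI_const h hσ 0).symm.trans_le (exI_mono h hσ (Lo.const 0) hF h0)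

theorem abs_exI_le (h : Λ.Ok) (hσ : FinS σ) (hF : Lo F) : |exI Λ σ F| ≤ exI Λ σ fun s => |F s| :=
  le_of_tendsto_of_tendsto' (tendsto_exI h hσ hF).abs (tendsto_exI h hσ hF.abs) fun D =>
    abs_Ex_le (wts h D σ).nonneg (hF.ig h D σ)

/-- exhausting sequences -/
theorem tendsto_bl (z : Pt) : Tendsto (bl z) atTop atTop := by
  refine tendsto_atTop_finset_of_monotone (fun _ _ => bl_mono z) fun x => ?_
  obtain ⟨r, hr⟩ := exists_bl {x - z}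
  have h1 := mem_bl.1 (hr (mem_singleton_self _))
  simp only [Prod.fst_zero, Prod.snd_zero, Prod.fst_sub, Prod.snd_sub] at h1
  exact ⟨r, mem_bl.2 (by omega)⟩

theorem tendsto_faces : Tendsto faces atTop atTop := by
  refine tendsto_atTop_finset_of_monotone (fun a b hab x => ?_) fun x => ?_
  · simp only [faces, mem_sq]
    push_cast
    omega
  · obtain ⟨r, hr⟩ := exists_bl {x}
    have h1 := mem_bl.1 (hr (mem_singleton_self _))
    simp only [Prod.fst_zero, Prod.snd_zero] at h1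
    refine ⟨r + 1, ?_⟩
    simp only [faces, mem_sq]
    push_cast
    omega

/-! ## symmetries and gauge -/

theorem tendsto_map (φ : Pt ≃ Pt) :
    Tendsto (fun D : Finset Pt => D.map φ.toEmbedding) atTop atTop :=
  tendsto_atTop_finset_of_monotone (fun _ _ h => map_subset_map.2 h) fun x =>
    ⟨{φ.symm x}, by simp⟩

/-- `σ'` is the transport of `σ` along `φ` -/
def Tr (φ : Pt ≃ Pt) (σ σ' : Pt × Pt → ℤ) : Prop :=
  ∀ e, σ' (ori φ e) = if ori φ e = (φ e.1, φ e.2) then σ e else -σ e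

theorem Ws_sym (h : Λ.Ok) {φ : Pt ≃ Pt} (hφ : Λ.Sym φ) (hσ : Tr φ σ σ') (D : Finset Pt) (s : Cfg Pt) :
    (Λ.D (D.map φ.toEmbedding)).Ws 0 σ' (mapH φ s) = (Λ.D D).Ws 0 σ s := by
  have hI := hφ.iso_D h D
  have h1 := Md.iso_off hI 0 s
  rw [← mapH_eq, ← mapH_eq, map_zero] at h1
  simp only [Mdl.Ws]
  rw [ind_congr h1, hI.2.1, prod_map]
  congr 1
  · congr 1
    refine prod_congr rfl fun e _ => ?_
    change Λ.w (dE (ori φ e) _ + σ' (ori φ e)) = Λ.w _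
    rw [hσ]
    split_ifs with h2
    · rw [h2]; simp [dE]
    · rw [(ori_cases φ e).resolve_left h2, ← h.fam.even]
      congr 1
      simp only [dE, mapH_apply, Equiv.symm_apply_apply]
      ring
  · exact (prod_eq_one fun _ _ => rfl).trans (prod_eq_one fun _ _ => rfl).symm

theorem tsum_sym (h : Λ.Ok) {φ : Pt ≃ Pt} (hφ : Λ.Sym φ) (hσ : Tr φ σ σ') (D : Finset Pt)
    (F : Cfg Pt → ℝ) : ∑' s, (Λ.D (D.map φ.toEmbedding)).Ws 0 σ' s * F s =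
      ∑' s, (Λ.D D).Ws 0 σ s * F (mapH φ s) := by
  rw [← (Finsupp.domCongr φ).toEquiv.tsum_eq]
  exact tsum_congr fun s => congrArg (· * F (mapH φ s)) (Ws_sym h hφ hσ D s)

theorem Tr.finS {φ : Pt ≃ Pt} (hT : Tr φ σ σ') (hσ : FinS σ) : FinS σ' := by
  obtain ⟨S, hS⟩ := hσ
  refine ⟨S.map (ori φ).toEmbedding, fun e he => ?_⟩
  obtain ⟨e, rfl⟩ := (ori φ).surjective e
  rw [hT, hS e fun h => he (mem_map_of_mem _ h), neg_zero, ite_self]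

theorem tr_zero (φ : Pt ≃ Pt) : Tr φ 0 0 := fun e => by simp

theorem Lo.map (hF : Lo F) (φ : Pt ≃ Pt) : Lo fun s => F (mapH φ s) :=
  let ⟨B, hB⟩ := hF.1
  ⟨⟨B.map φ.symm.toEmbedding, fun _ _ k hs => hB _ _ k fun _ hx => hs _ (mem_map_of_mem _ hx)⟩,
    hF.2.comp _⟩

theorem exI_sym (h : Λ.Ok) {φ : Pt ≃ Pt} (hφ : Λ.Sym φ) (hT : Tr φ σ σ') (hσ : FinS σ) (hF : Lo F) :
    exI Λ σ (fun s => F (mapH φ s)) = exI Λ σ' F := by
  refine exI_eq h hσ (hF.map φ) (((tendsto_exI h (hT.finS hσ) hF).comp (tendsto_map φ)).congr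
    fun D => ?_)
  have h1 := tsum_sym h hφ hT D fun _ => 1
  simp only [mul_one] at h1
  simp only [Function.comp, Ex, tsum_sym h hφ hT, h1]

theorem ratI_sym (h : Λ.Ok) {φ : Pt ≃ Pt} (hφ : Λ.Sym φ) (hT : Tr φ σ σ') (hσ : FinS σ) :
    ratI Λ σ = ratI Λ σ' := by
  refine tendsto_nhds_unique (tendsto_ratI h hσ)
    (((tendsto_ratI h (hT.finS hσ)).comp (tendsto_map φ)).congr fun D => ?_)
  have h1 := tsum_sym h hφ hT D fun _ => 1
  have h2 := tsum_sym h hφ (tr_zero φ) D fun _ => 1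
  simp only [mul_one] at h1 h2
  simp only [Function.comp, ratD, Zs, Mdl.W_eq_Ws, h1, h2]

/-- the translate of a seam by `t` -/
def shS (t : Pt) (σ : Pt × Pt → ℤ) (e : Pt × Pt) : ℤ := σ (e.1 - t, e.2 - t)

theorem ori_add (t : Pt) (e : Pt × Pt) : ori (Equiv.addRight t) e = (e.1 + t, e.2 + t) :=
  if_pos (by simp)

theorem tr_shS (t : Pt) (σ : Pt × Pt → ℤ) : Tr (Equiv.addRight t) σ (shS t σ) := fun e => by
  simp [ori_add, shS]

theorem FinS.shS (hσ : FinS σ) (t : Pt) : FinS (shS t σ) := (tr_shS t σ).finS hσ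

theorem Lo.trl (hF : Lo F) (t : Pt) : Lo (trl t F) := hF.map _

theorem exI_trl (h : Λ.Ok) (hσ : FinS σ) (hF : Lo F) (t : Pt) :
    exI Λ (shS t σ) (trl t F) = exI Λ σ F := by
  rw [← exI_sym h (Λ.sym_add t) (tr_shS t σ) hσ (hF.trl t)]
  congr 1
  funext s
  rw [trl]
  congr 1
  ext x
  simp

theorem ratI_shS (h : Λ.Ok) (hσ : FinS σ) (t : Pt) : ratI Λ (shS t σ) = ratI Λ σ :=
  (ratI_sym h (Λ.sym_add t) (tr_shS t σ) hσ).symm

theorem nE_trl (t : Pt) (σ : Pt × Pt → ℤ) (e : Pt × Pt) (s : Cfg Pt) :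
    nE σ e (mapH (Equiv.subRight t) s) = nE (shS t σ) (e.1 + t, e.2 + t) s := by
  simp [nE, dE, shS]

theorem FinS.add (hσ : FinS σ) (hσ' : FinS σ') : FinS (σ + σ') :=
  let ⟨S, hS⟩ := hσ
  let ⟨S', hS'⟩ := hσ'
  ⟨S ∪ S', fun e he => by
    rw [mem_union, not_or] at he
    rw [Pi.add_apply, hS e he.1, hS' e he.2, add_zero]⟩

theorem FinS.neg (hσ : FinS σ) : FinS (-σ) :=
  let ⟨S, hS⟩ := hσ
  ⟨S, fun e he => by rw [Pi.neg_apply, hS e he, neg_zero]⟩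

theorem finS_zero : FinS 0 := ⟨∅, fun _ _ => rfl⟩

theorem finS_single (e : Pt × Pt) (k : ℤ) : FinS (Pi.single e k) :=
  ⟨{e}, fun _ he => Pi.single_eq_of_ne (notMem_singleton.1 he) _⟩

theorem Ws_neg (h : Λ.Ok) (D : Finset Pt) (σ : Pt × Pt → ℤ) (s : Cfg Pt) :
    (Λ.D D).Ws 0 (-σ) (-s) = (Λ.D D).Ws 0 σ s :=
  (Md.ctr_rsd_seam (h.ctr_D D)).even (s, σ)

theorem exI_sneg (h : Λ.Ok) (hσ : FinS σ) (hF : Lo F) :
    exI Λ σ (fun s => F (-s)) = exI Λ (-σ) F := by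
  obtain ⟨B, hB⟩ := hF.1
  have hL : Lo fun s => F (-s) := ⟨⟨B, fun s s' k hs => hB _ _ (-k) fun x hx => by
    simp only [Finsupp.neg_apply, hs x hx]; ring⟩, hF.2.comp (-AddMonoidHom.id _)⟩
  refine exI_eq h hσ hL ((tendsto_exI h hσ.neg hF).congr fun D => ?_)
  unfold Ex
  rw [← (Equiv.neg (Cfg Pt)).tsum_eq, ← (Equiv.neg (Cfg Pt)).tsum_eq ((Λ.D D).Ws 0 (-σ))]
  simp only [Equiv.neg_apply, Ws_neg h]

theorem ratI_neg (h : Λ.Ok) (hσ : FinS σ) : ratI Λ (-σ) = ratI Λ σ := by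
  refine tendsto_nhds_unique (tendsto_ratI h hσ.neg) ((tendsto_ratI h hσ).congr fun D => ?_)
  unfold ratD Zs
  rw [← (Equiv.neg (Cfg Pt)).tsum_eq ((Λ.D D).Ws 0 (-σ))]
  simp only [Equiv.neg_apply, Ws_neg h]

/-- gauge transformations: `σ' = σ + ∇u` on the lattice edges -/
def Ga (Λ : Lat) (u : Cfg Pt) (σ σ' : Pt × Pt → ℤ) : Prop :=
  ∀ e : Pt × Pt, e.2 - e.1 ∈ Λ.Jp → σ' e = σ e + dE e u

theorem tsum_gauge {u : Cfg Pt} (hu : Ga Λ u σ σ') (hD : u.support ⊆ D) (F : Cfg Pt → ℝ) :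
    ∑' s, (Λ.D D).Ws 0 σ s * F s = ∑' s, (Λ.D D).Ws 0 σ' s * F (s + u) := by
  rw [← (Equiv.addRight u).tsum_eq]
  refine tsum_congr fun s => congrArg (· * F (s + u)) ?_
  have h1 : (∀ x, x ∉ (Λ.D D).A → (s + u) x = (0 : Cfg Pt) x) ↔
      ∀ x, x ∉ (Λ.D D).A → s x = (0 : Cfg Pt) x := forall₂_congr fun x hx => by
    rw [Finsupp.add_apply, Finsupp.notMem_support_iff.1 fun h => hx (hD h), add_zero]
  simp only [Mdl.Ws, Equiv.coe_addRight]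
  rw [ind_congr h1]
  congr 2
  refine prod_congr rfl fun e he => ?_
  rw [hu e (Lat.mem_edT.1 he).1]
  congr 1
  simp only [dE, Finsupp.add_apply]
  ring

theorem exI_gauge (h : Λ.Ok) {u : Cfg Pt} (hu : Ga Λ u σ σ') (hσ : FinS σ) (hσ' : FinS σ')
    (hF : Lo F) : exI Λ σ' (fun s => F (s + u)) = exI Λ σ F := by
  obtain ⟨B, hB⟩ := hF.1
  refine exI_eq h hσ' ⟨⟨B, fun s s' k hs => hB _ _ k fun x hx => by
    simp only [Finsupp.add_apply, hs x hx]; ring⟩, hF.2.shift u⟩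
    ((tendsto_exI h hσ hF).congr' ((eventually_ge_atTop u.support).mono fun D hD => ?_))
  have h1 := tsum_gauge hu hD fun _ => 1
  simp only [mul_one] at h1
  simp only [Ex, tsum_gauge hu hD F, h1]

theorem ratI_gauge (h : Λ.Ok) {u : Cfg Pt} (hu : Ga Λ u σ σ') (hσ : FinS σ) (hσ' : FinS σ') :
    ratI Λ σ' = ratI Λ σ := by
  refine tendsto_nhds_unique (tendsto_ratI h hσ')
    ((tendsto_ratI h hσ).congr' ((eventually_ge_atTop u.support).mono fun D hD => ?_))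
  have h1 := tsum_gauge hu hD fun _ => 1
  simp only [mul_one] at h1
  simp only [ratD, Zs, h1]

/-! ## change of the seam as an insertion -/

/-- the density of the sector `σ'` with respect to the sector `σ` (they agree off `S`) -/
def dens (Λ : Lat) (S : Finset (Pt × Pt)) (σ σ' : Pt × Pt → ℤ) (s : Cfg Pt) : ℝ :=
  ∏ e ∈ S, Λ.w (nE σ' e s) / Λ.w (nE σ e s)

theorem Ws_dens (h : Λ.Ok) {S : Finset (Pt × Pt)} (hS : S ⊆ Λ.edT D) (hσ : ∀ e, e ∉ S → σ' e = σ e)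
    (η s : Cfg Pt) : (Λ.D D).Ws η σ s * dens Λ S σ σ' s = (Λ.D D).Ws η σ' s := by
  have h1 : (∏ e ∈ Λ.edT D, Λ.w (dE e s + σ e)) * dens Λ S σ σ' s =
      ∏ e ∈ Λ.edT D, Λ.w (dE e s + σ' e) := by
    rw [← prod_sdiff hS, ← prod_sdiff hS, mul_assoc, dens, ← prod_mul_distrib]
    congr 1
    · exact prod_congr rfl fun e he => by rw [hσ e (mem_sdiff.1 he).2]
    · exact prod_congr rfl fun e _ => mul_div_cancel₀ _ (h.fam.pos _).ne'
  change _ * (∏ e ∈ Λ.edT D, Λ.w (dE e s + σ e)) * _ * _ = _ * (∏ e ∈ Λ.edT D, Λ.w (dE e s + σ' e)) * _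
  rw [← h1]
  ring

/-- `E_σ [dens · F] = (Z(σ') / Z(σ)) E_σ' [F]` (no growth condition on `dens` is needed) -/
theorem exI_dens (h : Λ.Ok) {S : Finset (Pt × Pt)} (hS : ∀ e ∈ S, e.2 - e.1 ∈ Λ.Jp)
    (hσσ : ∀ e, e ∉ S → σ' e = σ e) (hσ : FinS σ) (hσ' : FinS σ') (hF : Lo F) :
    Tendsto (fun D => Ex ((Λ.D D).Ws 0 σ) fun s => dens Λ S σ σ' s * F s) atTop
        (𝓝 (ratI Λ σ' / ratI Λ σ * exI Λ σ' F)) ∧
      exI Λ σ (fun s => dens Λ S σ σ' s * F s) = ratI Λ σ' / ratI Λ σ * exI Λ σ' F := by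
  have h1 : Tendsto (fun D => Ex ((Λ.D D).Ws 0 σ) fun s => dens Λ S σ σ' s * F s) atTop
      (𝓝 (ratI Λ σ' / ratI Λ σ * exI Λ σ' F)) := by
    refine (((tendsto_ratI h hσ').div (tendsto_ratI h hσ) (ratI_pos h hσ).ne').mul
      (tendsto_exI h hσ' hF)).congr' ((eventually_ge_atTop (S.image Prod.fst)).mono fun D hD => ?_)
    have h2 : S ⊆ Λ.edT D := fun e he => Lat.mem_edT.2 ⟨hS e he, Or.inl (hD (mem_image_of_mem _ he))⟩
    have h3 := (h.wt_D D 0).ne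
    have h4 := (wts h D σ).ne
    have h5 := (wts h D σ').ne
    simp only [Pi.div_apply, ratD, Ex_def, ← mul_assoc, Ws_dens h h2 hσσ]
    field_simp
  exact ⟨h1, h1.limUnder_eq⟩

end Crest.Agent.T145.Inf48
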