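import Crest.Agent.T145.VxBd_27
import Crest.Agent.T145.VxDef_35

/-!
# Row 145, twisted module: Lemma B, far pairs (helper27)
-/

set_option autoImplicit false

namespace Crest.Agent.T145.Vx.Lb27

open Finset Vb27 Pot

theorem ds_eq (z w : Pt) : ds z w = sn (z - w) := rfl

theorem d_eq (V : Vp) (z : Pt) : V.d z = dd V.p V.q z := rfl

theorem sn_qp (V : Vp) : sn (V.q - V.p) = V.r := by
  rcases V with ⟨a, r, _ | _⟩ <;> simp [Vp.q, Vp.p, Vp.sw, sn]

theorem ds_comm (z w : Pt) : ds z w = ds w z := sn_comm z w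

theorem ds_tri (x y z : Pt) : ds x z ≤ ds x y + ds y z := sn_tri x y z

theorem ds_pq (V : Vp) : ds V.p V.q = V.r := by rw [ds_comm, ds_eq, sn_qp]

/-- the envelope -/
noncomputable def BB (V : Vp) (ρ : ℕ) (z : Pt) : ℝ := al V.p ρ z * al V.q ρ z

theorem al_nonneg (p : Pt) (ρ : ℕ) (z : Pt) : 0 ≤ al p ρ z := by unfold al; positivity

theorem BB_nonneg (V : Vp) (ρ : ℕ) (z : Pt) : 0 ≤ BB V ρ z := mul_nonneg (al_nonneg _ _ _) (al_nonneg _ _ _)

theorem BB_le1 {V : Vp} {ρ : ℕ} (hρ : 1 ≤ ρ) (z : Pt) : BB V ρ z ≤ (((ρ : ℝ) + V.d z) ^ 2)⁻¹ := by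
  have r0 : (0 : ℝ) < ρ := by exact_mod_cast hρ
  have a : (V.d z : ℝ) ≤ ds z V.p := by exact_mod_cast min_le_left _ _
  have b : (V.d z : ℝ) ≤ ds z V.q := by exact_mod_cast min_le_right _ _
  rw [BB, al, al, one_div_mul_one_div, one_div, pow_two]
  exact inv_anti₀ (by positivity) (mul_le_mul (by linarith) (by linarith) (by positivity) (by positivity))

theorem BB_le2 {V : Vp} {ρ : ℕ} (hρ : 1 ≤ ρ) (hr : 1 ≤ V.r) (z : Pt) :
    BB V ρ z ≤ 2 / V.r * ((ρ : ℝ) + V.d z)⁻¹ := by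
  have r0 : (0 : ℝ) < ρ := by exact_mod_cast hρ
  have r1 : (0 : ℝ) < V.r := by exact_mod_cast hr
  have t := ds_tri V.p z V.q
  rw [ds_pq, ds_comm V.p z] at t
  have t' : (V.r : ℝ) ≤ ds z V.p + ds z V.q := by exact_mod_cast t
  rw [BB, al, al, one_div_mul_one_div, ← div_eq_mul_inv, div_div,
    div_le_div_iff₀ (by positivity) (by positivity), Vp.d]
  rcases le_total (ds z V.p) (ds z V.q) with k | k
  · have k' : (ds z V.p : ℝ) ≤ ds z V.q := by exact_mod_cast k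
    rw [min_eq_left k]
    nlinarith [mul_le_mul_of_nonneg_left (by linarith : (V.r : ℝ) ≤ 2 * (ρ + ds z V.q))
      (by positivity : 0 ≤ (ρ : ℝ) + ds z V.p)]
  · have k' : (ds z V.q : ℝ) ≤ ds z V.p := by exact_mod_cast k
    rw [min_eq_right k]
    nlinarith [mul_le_mul_of_nonneg_left (by linarith : (V.r : ℝ) ≤ 2 * (ρ + ds z V.p))
      (by positivity : 0 ≤ (ρ : ℝ) + ds z V.q)]

theorem sum_d {V : Vp} {D : Finset Pt} {n : ℕ} (hp : D ⊆ bl V.p n) (hq : D ⊆ bl V.q n) (f : ℕ → ℝ)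
    (hf : ∀ k, 0 ≤ f k) {X : ℝ} (h : ∀ c, ∑ z ∈ bl c n, f (sn (z - c)) ≤ X) :
    ∑ z ∈ D, f (V.d z) ≤ 2 * X := by
  have k : ∀ c, D ⊆ bl c n → ∑ z ∈ D, f (sn (z - c)) ≤ X := fun c hc =>
    (sum_le_sum_of_subset_of_nonneg hc fun _ _ _ => hf _).trans (h c)
  refine le_trans (sum_le_sum fun z _ => ?_) ((le_of_eq sum_add_distrib).trans
    ((add_le_add (k _ hp) (k _ hq)).trans (by linarith)))
  have := hf (sn (z - V.p)); have := hf (sn (z - V.q))
  rcases dd_cases V.p V.q z with k | k <;> rw [d_eq, k] <;> linarith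

/-- `∑ 1 / ((ρ + |x|) (1 + |x|))` -/
theorem sum_mix (z : Pt) {ρ : ℕ} (hρ : 1 ≤ ρ) (n : ℕ) :
    ∑ x ∈ bl z n, ((ρ : ℝ) + sn (x - z))⁻¹ * (1 + (sn (x - z) : ℝ))⁻¹ ≤
      1 + 8 * Real.log (((ρ : ℝ) + n) / ρ) := by
  have r1 : (1 : ℝ) ≤ ρ := by exact_mod_cast hρ
  refine (sum_rad z _ (fun k => ((ρ : ℝ) + k)⁻¹ * (1 + (k : ℝ))⁻¹) n fun _ _ => le_rfl).trans
    (add_le_add ?_ ?_)
  · simpa using inv_le_one_of_one_le₀ r1
  · refine le_trans ?_ (mul_le_mul_of_nonneg_left (sum_inv_range ρ hρ n) (by norm_num))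
    rw [mul_sum]
    refine sum_le_sum fun k _ => ?_
    push_cast
    rw [← add_assoc, mul_assoc, mul_left_comm ((k : ℝ) + 1)]
    refine mul_le_mul_of_nonneg_left (mul_le_of_le_one_right (by positivity) ?_) (by norm_num)
    rw [← div_eq_mul_inv, div_le_one (by positivity)]
    linarith

/-- profile at a core -/
noncomputable def ph (k : ℕ) : ℝ := (1 + (k : ℝ)) ^ (-(21 / 20 : ℝ))

/-- profile of the partner -/
noncomputable def om (r k : ℕ) : ℝ := (1 + ((min k r : ℕ) : ℝ)) ^ (-(19 / 20 : ℝ))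

theorem ph_nonneg (k : ℕ) : 0 ≤ ph k := Real.rpow_nonneg (by positivity) _

theorem om_nonneg (r k : ℕ) : 0 ≤ om r k := Real.rpow_nonneg (by positivity) _

theorem rp_anti {x y e : ℝ} (hx : 0 < x) (h : x ≤ y) (he : 0 ≤ e) : y ^ (-e) ≤ x ^ (-e) :=
  Real.rpow_le_rpow_of_nonpos hx h (by linarith)

theorem rp_two {x y : ℝ} (hx : 0 < x) (h : x ≤ 2 * y) :
    y ^ (-(19 / 20 : ℝ)) ≤ 2 * x ^ (-(19 / 20 : ℝ)) := by
  refine (rp_anti (x := x / 2) (by positivity) (by linarith) (by norm_num)).trans ?_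
  rw [Real.div_rpow hx.le (by norm_num), Real.rpow_neg (by norm_num : (0 : ℝ) ≤ 2), div_inv_eq_mul,
    mul_comm]
  refine mul_le_mul_of_nonneg_right ?_ (Real.rpow_nonneg hx.le _)
  simpa using Real.rpow_le_rpow_of_exponent_le (by norm_num : (1 : ℝ) ≤ 2) (by norm_num : (19 / 20 : ℝ) ≤ 1)

theorem sq_split {x : ℝ} (hx : 0 < x) : (x ^ 2)⁻¹ = x ^ (-(21 / 20 : ℝ)) * x ^ (-(19 / 20 : ℝ)) := by
  rw [← Real.rpow_add hx, show -(21 / 20 : ℝ) + -(19 / 20) = -((2 : ℕ) : ℝ) by norm_num,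
    Real.rpow_neg hx.le, Real.rpow_natCast]

theorem nb_nonneg (V : Vp) (z : Pt) (l : ℕ) : 0 ≤ nb V z l := by
  unfold nb; split_ifs <;> positivity

theorem nb_le (V : Vp) (z : Pt) (l : ℕ) : nb V z l ≤ ((((min l (V.d z) : ℕ) : ℝ) + 1) ^ 2)⁻¹ := by
  unfold nb
  split_ifs with h
  · rw [min_comm, add_comm, one_div]
  · rw [min_eq_right (by omega : V.d z ≤ l), sq_split (by positivity), add_comm (1 : ℝ)]
    refine mul_le_mul_of_nonneg_left (rp_anti (by positivity) ?_ (by norm_num)) (by positivity)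
    exact_mod_cast (by omega : V.d z + 1 ≤ min l V.r)

theorem nb_far {V : Vp} {z : Pt} {l : ℕ} (hl : 1 ≤ l) (h : l ≤ 4 * V.d z) :
    (l : ℝ) ^ 2 * nb V z l ≤ 16 := by
  have l0 : (0 : ℝ) < l := by exact_mod_cast hl
  have e : (l : ℝ) ≤ 4 * (((min l (V.d z) : ℕ) : ℝ) + 1) := by
    exact_mod_cast (by omega : l ≤ 4 * (min l (V.d z) + 1))
  refine (mul_le_mul_of_nonneg_left (nb_le V z l) (by positivity)).trans ?_
  rw [← div_eq_mul_inv, div_le_iff₀ (by positivity)]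
  nlinarith

theorem nb_core {V : Vp} {z : Pt} {l k : ℕ} (hr : 1 ≤ V.r) (h : V.d z < l) (hk : k ≤ V.d z + l) :
    nb V z l ≤ 2 * (ph (V.d z) * om V.r k) := by
  have p0 := ph_nonneg (V.d z)
  have o0 := om_nonneg V.r k
  unfold nb
  split_ifs with h1
  · rw [min_eq_left h.le, one_div, sq_split (by positivity)]
    refine le_trans (mul_le_mul_of_nonneg_left (rp_anti (x := 1 + ((min k V.r : ℕ) : ℝ)) (by positivity) ?_
      (by norm_num)) p0) (by rw [← om, ← ph]; nlinarith [mul_nonneg p0 o0])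
    exact_mod_cast (by omega : 1 + min k V.r ≤ 1 + V.d z)
  · rw [mul_left_comm]
    refine mul_le_mul_of_nonneg_left (rp_two (by positivity) ?_) p0
    exact_mod_cast (by omega : 1 + min k V.r ≤ 2 * min l V.r)

theorem d_lip (V : Vp) (z w : Pt) : V.d w ≤ V.d z + ds z w := by
  have a := ds_tri w z V.p
  have b := ds_tri w z V.q
  rw [ds_comm w z] at a b
  unfold Vp.d; omega

theorem d_two {V : Vp} {z w : Pt} (h1 : 4 * V.d z < ds z w) (h2 : 4 * V.d w < ds z w) :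
    ds z w ≤ 2 * V.r ∧ V.r ≤ 2 * ds z w := by
  have a1 := ds_tri z V.p w
  have a2 := ds_tri z V.q w
  have a3 := ds_tri V.p V.q w
  have a4 := ds_tri V.q V.p w
  have a5 := ds_tri V.p z V.q
  have a6 := ds_tri z w V.q
  have a7 := ds_tri V.p w V.q
  have a8 := ds_tri w z V.q
  have := ds_comm V.q V.p; have := ds_pq V; have := ds_comm V.p w; have := ds_comm V.q w
  have := ds_comm V.p z; have := ds_comm w z
  unfold Vp.d at h1 h2; omega

theorem far_nb {V : Vp} {z w : Pt} (hr : 1 ≤ V.r) (hl : 1 ≤ ds z w) :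
    (ds z w : ℝ) ^ 2 * (nb V z (ds z w) * nb V w (ds z w)) ≤ 32 ^ 2 * (eu (w - z) ^ 2)⁻¹ +
      (ph (V.d z) * (32 * om V.r (V.d w) + 8 * ((V.r : ℝ) ^ (1 / 20 : ℝ)) ^ 2 * ph (V.d w)) +
        (32 * om V.r (V.d z) + 8 * ((V.r : ℝ) ^ (1 / 20 : ℝ)) ^ 2 * ph (V.d z)) * ph (V.d w)) := by
  set l := ds z w with hl'
  have l0 : (0 : ℝ) < l := by exact_mod_cast hl
  have r0 : (0 : ℝ) < V.r := by exact_mod_cast hr
  have p1 := ph_nonneg (V.d z); have p2 := ph_nonneg (V.d w)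
  have o1 := om_nonneg V.r (V.d z); have o2 := om_nonneg V.r (V.d w)
  have n1 := nb_nonneg V z l; have n2 := nb_nonneg V w l
  have e0 : 0 ≤ (eu (w - z) ^ 2)⁻¹ := by positivity
  have q1 := mul_nonneg p1 o2; have q2 := mul_nonneg o1 p2
  have q3 := mul_nonneg (sq_nonneg ((V.r : ℝ) ^ (1 / 20 : ℝ))) (mul_nonneg p1 p2)
  by_cases h1 : l ≤ 4 * V.d z <;> by_cases h2 : l ≤ 4 * V.d w
  · have a := mul_le_mul (nb_far hl h1) (nb_far hl h2) (by positivity) (by norm_num)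
    have e1 : eu (w - z) ≤ 2 * l := by rw [hl', ds_comm]; exact eu_le_sn _
    have e2 : (l : ℝ) ≤ eu (w - z) := by rw [hl', ds_comm]; exact sn_le_eu (w - z)
    have : (l : ℝ) ^ 2 * (nb V z l * nb V w l) ≤ 32 ^ 2 * (eu (w - z) ^ 2)⁻¹ := by
      rw [← div_eq_mul_inv, le_div_iff₀ (by have := l0.trans_le e2; positivity)]
      nlinarith [mul_le_mul_of_nonneg_left (by nlinarith : eu (w - z) ^ 2 ≤ 4 * (l : ℝ) ^ 2)
        (by positivity : 0 ≤ (l : ℝ) ^ 2 * (nb V z l * nb V w l))]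
    nlinarith
  · have a := nb_core (k := V.d z) hr (by omega : V.d w < l) (by rw [hl', ds_comm]; exact d_lip V w z)
    have b := mul_le_mul (nb_far hl h1) a n2 (by norm_num)
    nlinarith
  · have a := nb_core (k := V.d w) hr (by omega : V.d z < l) (d_lip V z w)
    have b := mul_le_mul (nb_far hl h2) a n1 (by norm_num)
    nlinarith
  · obtain ⟨g1, g2⟩ := d_two (V := V) (z := z) (w := w) (by omega) (by omega)
    have k : ∀ x, ¬ l ≤ 4 * V.d x → nb V x l ≤ ph (V.d x) * (2 * (V.r : ℝ) ^ (-(19 / 20 : ℝ))) :=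
      fun x hx => by
        rw [nb, if_neg (by omega)]
        refine mul_le_mul_of_nonneg_left (rp_two r0 ?_) (ph_nonneg _)
        exact_mod_cast (by omega : V.r ≤ 2 * min l V.r)
    have a := mul_le_mul (k z h1) (k w h2) n2 (by positivity)
    have g3 : (l : ℝ) ^ 2 ≤ 4 * (V.r : ℝ) ^ 2 := by
      have : (l : ℝ) ≤ 2 * V.r := by exact_mod_cast g1
      nlinarith
    have e : (V.r : ℝ) * (V.r : ℝ) ^ (-(19 / 20 : ℝ)) = (V.r : ℝ) ^ (1 / 20 : ℝ) := by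
      rw [← Real.rpow_one_add' r0.le (by norm_num)]; norm_num
    have b := mul_le_mul g3 a (by positivity) (by positivity)
    rw [← e] at q3 ⊢
    nlinarith

section sums
variable {V : Vp} {D : Finset Pt} {ρ n : ℕ} {T : ℝ} (hρ : 1 ≤ ρ) (hr : ρ ≤ V.r) (hp : D ⊆ bl V.p n)
  (hq : D ⊆ bl V.q n) (hT : 1 + Real.log (((ρ : ℝ) + n) / ρ) ≤ T)
include hρ hp hq hT

omit hp hq in
theorem one_le_T : 1 ≤ T := by
  have r0 : (0 : ℝ) < ρ := by exact_mod_cast hρ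
  have := Real.log_nonneg (x := ((ρ : ℝ) + n) / ρ) ((one_le_div r0).2 (by simp))
  linarith

theorem sum_a : ∑ z ∈ D, (((ρ : ℝ) + V.d z) ^ 2)⁻¹ ≤ 16 * T :=
  (sum_d hp hq (fun k => (((ρ : ℝ) + k) ^ 2)⁻¹) (fun _ => by positivity)
    fun c => sum_rho c hρ n).trans (by linarith)

theorem sum_b : ∑ z ∈ D, ((ρ : ℝ) + V.d z)⁻¹ * (1 + (V.d z : ℝ))⁻¹ ≤ 16 * T :=
  (sum_d hp hq (fun k => ((ρ : ℝ) + k)⁻¹ * (1 + (k : ℝ))⁻¹) (fun _ => by positivity)
    fun c => sum_mix c hρ n).trans (by linarith)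

include hr

theorem sum_BB2 : ∑ z ∈ D, BB V ρ z ^ 2 ≤ 64 * T / (V.r : ℝ) ^ 2 := by
  refine le_trans (sum_le_sum fun z _ => ?_) ((le_of_eq (mul_sum _ _ ((2 / (V.r : ℝ)) ^ 2)).symm).trans
    ((mul_le_mul_of_nonneg_left (sum_a hρ hp hq hT) (by positivity)).trans (le_of_eq (by ring))))
  rw [← inv_pow, ← mul_pow]
  exact pow_le_pow_left₀ (BB_nonneg _ _ _) (BB_le2 hρ (hρ.trans hr) z) 2

theorem sum_ph : ∑ z ∈ D, BB V ρ z * ph (V.d z) ≤ 164 * T * (ρ : ℝ) ^ (-(1 / 20 : ℝ)) / V.r := by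
  have r1 : (1 : ℝ) ≤ ρ := by exact_mod_cast hρ
  have a0 : 0 < √(ρ : ℝ) := Real.sqrt_pos.2 (by linarith)
  have T1 := one_le_T hρ hT
  have s1 := sum_d hp hq (fun k => √((k : ℝ) + 1) / (((k : ℝ) + 1) ^ 2 * (ρ + k))) (fun _ => by positivity)
    fun c => sum_core c r1 n
  have s2 := add_le_add (sum_b hρ hp hq hT) (mul_le_mul_of_nonneg_left s1 a0.le)
  rw [mul_sum, ← sum_add_distrib, show √(ρ : ℝ) * (2 * (33 / √ρ)) = 66 by field_simp; ring] at s2
  have b0 : 0 ≤ (ρ : ℝ) ^ (-(1 / 20 : ℝ)) := by positivity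
  refine le_trans (sum_le_sum fun z _ => ?_) ((le_of_eq (mul_sum _ _
    (2 / (V.r : ℝ) * (ρ : ℝ) ^ (-(1 / 20 : ℝ)))).symm).trans ((mul_le_mul_of_nonneg_left
      (s2.trans (by linarith : _ ≤ 82 * T)) (by positivity)).trans (le_of_eq (by ring))))
  refine (mul_le_mul_of_nonneg_right (BB_le2 hρ (hρ.trans hr) z) (ph_nonneg _)).trans ?_
  rw [mul_assoc, mul_assoc]
  refine mul_le_mul_of_nonneg_left ?_ (by positivity)
  set x : ℝ := (V.d z : ℝ) + 1 with hx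
  have x0 : 0 < x := by positivity
  have c0 : 0 < √x := Real.sqrt_pos.2 x0
  have e1 : ph (V.d z) = x⁻¹ * x ^ (-(1 / 20 : ℝ)) := by
    rw [ph, add_comm, ← hx, ← Real.rpow_neg_one, ← Real.rpow_add x0]; norm_num
  have e2 : x ^ (-(1 / 20 : ℝ)) ≤ (ρ : ℝ) ^ (-(1 / 20 : ℝ)) * (1 + √ρ / √x) := by
    rcases le_total (ρ : ℝ) x with k | k
    · exact (rp_anti (by linarith) k (by norm_num)).trans
        (le_mul_of_one_le_right b0 (le_add_of_nonneg_right (by positivity)))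
    · have : x ^ (-(1 / 20 : ℝ)) = (ρ : ℝ) ^ (-(1 / 20 : ℝ)) * ((ρ : ℝ) / x) ^ (1 / 20 : ℝ) := by
        rw [Real.div_rpow (by positivity) x0.le, Real.rpow_neg x0.le, Real.rpow_neg (by positivity)]
        have : 0 < (ρ : ℝ) ^ (1 / 20 : ℝ) := by positivity
        field_simp
      rw [this]
      refine mul_le_mul_of_nonneg_left (le_trans ?_ (le_add_of_nonneg_left zero_le_one)) b0
      rw [← Real.sqrt_div (by positivity), Real.sqrt_eq_rpow]
      exact Real.rpow_le_rpow_of_exponent_le ((one_le_div x0).2 k) (by norm_num)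
  rw [e1]
  refine (mul_le_mul_of_nonneg_left (mul_le_mul_of_nonneg_left e2 (by positivity)) (by positivity)).trans
    (le_of_eq ?_)
  rw [add_comm (1 : ℝ) (V.d z), ← hx]
  have e3 : x = √x * √x := (Real.mul_self_sqrt x0.le).symm
  generalize √x = y at *
  rw [e3]
  field_simp

theorem sum_om : ∑ z ∈ D, BB V ρ z * om V.r (V.d z) ≤ 64 * T * (V.r : ℝ) ^ (1 / 20 : ℝ) / V.r := by
  have r1 : (1 : ℝ) ≤ ρ := by exact_mod_cast hρ
  have r2 : (1 : ℝ) ≤ V.r := by exact_mod_cast hρ.trans hr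
  have a0 : 0 ≤ (V.r : ℝ) ^ (1 / 20 : ℝ) := by positivity
  refine le_trans (sum_le_sum fun z _ => ?_) ((le_of_eq (mul_sum _ _
    (4 * (V.r : ℝ) ^ (1 / 20 : ℝ) / V.r)).symm).trans ((mul_le_mul_of_nonneg_left
      (sum_b hρ hp hq hT) (by positivity)).trans (le_of_eq (by ring))))
  have sp : ∀ x : ℝ, 0 < x → x ^ (-(19 / 20 : ℝ)) = x ^ (1 / 20 : ℝ) * x⁻¹ := fun x hx => by
    rw [← Real.rpow_neg_one, ← Real.rpow_add hx]; norm_num
  rcases le_total (V.d z) V.r with k | k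
  · have k' : (V.d z : ℝ) ≤ V.r := by exact_mod_cast k
    have e : (1 + (V.d z : ℝ)) ^ (1 / 20 : ℝ) ≤ 2 * (V.r : ℝ) ^ (1 / 20 : ℝ) := by
      refine (Real.rpow_le_rpow (by positivity) (by linarith : _ ≤ 2 * (V.r : ℝ)) (by norm_num)).trans ?_
      rw [Real.mul_rpow (by norm_num) (by positivity)]
      refine mul_le_mul_of_nonneg_right ?_ a0
      simpa using Real.rpow_le_rpow_of_exponent_le (by norm_num : (1 : ℝ) ≤ 2)
        (by norm_num : (1 / 20 : ℝ) ≤ 1)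
    rw [om, min_eq_left k, sp _ (by positivity)]
    exact (mul_le_mul (BB_le2 hρ (hρ.trans hr) z) (mul_le_mul_of_nonneg_right e (by positivity))
      (by positivity) (by positivity)).trans (le_of_eq (by ring))
  · have e : om V.r (V.d z) ≤ (V.r : ℝ) ^ (1 / 20 : ℝ) * (V.r : ℝ)⁻¹ := by
      rw [om, min_eq_right k, ← sp _ (by linarith)]
      exact rp_anti (by linarith) (by linarith) (by norm_num)
    have e2 : (((ρ : ℝ) + V.d z) ^ 2)⁻¹ ≤ ((ρ : ℝ) + V.d z)⁻¹ * (1 + (V.d z : ℝ))⁻¹ := by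
      rw [pow_two, mul_inv]
      exact mul_le_mul_of_nonneg_left (inv_anti₀ (by positivity) (by linarith)) (by positivity)
    refine (mul_le_mul ((BB_le1 hρ z).trans e2) e (om_nonneg _ _) (by positivity)).trans ?_
    rw [mul_comm]
    refine mul_le_mul_of_nonneg_right ?_ (by positivity)
    rw [div_eq_mul_inv]
    exact mul_le_mul_of_nonneg_right (by linarith) (by positivity)

end sums

theorem A_nonneg {p : Pt} {ρ : ℕ} {A : ℝ} {u : Pt → ℝ} (hρ : 1 ≤ ρ) (h : Dip p ρ A u) : 0 ≤ A := by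
  have r0 : (0 : ℝ) < ρ := by exact_mod_cast hρ
  have : 0 < al p ρ p := by unfold al; positivity
  exact nonneg_of_mul_nonneg_left ((abs_nonneg _).trans (h.b0 p)) this

theorem abs_Ph {V : Vp} {ρ : ℕ} {A A' : ℝ} {u u' : Pt → ℝ} (hu : Dip V.p ρ A u) (hu' : Dip V.q ρ A' u')
    (z w : Pt) : |Vb27.Ph u u' z w| ≤ A * A' * (BB V ρ z * BB V ρ w * (ds z w : ℝ) ^ 2) := by
  rw [Vb27.Ph, abs_mul]
  refine (mul_le_mul (hu.b1 z w) (hu'.b1 z w) (abs_nonneg _) ((abs_nonneg _).trans (hu.b1 z w))).trans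
    (le_of_eq ?_)
  unfold BB; ring

/-- far pairs -/
theorem farE {V : Vp} {ρ l N : ℕ} {A A' Y T : ℝ} {u u' χ : Pt → ℝ} {c : Pt → Pt → ℝ} (hl : 1 ≤ l)
    (hρ : l ≤ ρ) (hr : ρ ≤ V.r) (hN : l ≤ N) (hY : 0 ≤ Y) (hu : Dip V.p ρ A u) (hu' : Dip V.q ρ A' u')
    (hχ : ∀ z, |χ z| ≤ 1) (hT : 1 + Real.log (2 * (N + V.r : ℕ) / l) ≤ T)
    (h : ∀ z ∈ bl V.p N, ∀ w ∈ bl V.p N, l < ds z w →
      |c z w| ≤ Y * (nb V z (ds z w) * nb V w (ds z w))) :
    |∑ z ∈ bl V.p N, ∑ w ∈ bl V.p N \ bl z l, χ z * χ w * Vb27.Ph u u' z w * c z w| ≤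
      2 * 10 ^ 6 * (A * A') * Y * T ^ 2 * ((V.r : ℝ) / ρ) ^ (1 / 10 : ℝ) / (V.r : ℝ) ^ 2 := by
  classical
  have l0 : (1 : ℝ) ≤ l := by exact_mod_cast hl
  have l1 : (l : ℝ) ≤ ρ := by exact_mod_cast hρ
  have l2 : (ρ : ℝ) ≤ V.r := by exact_mod_cast hr
  have l3 : (l : ℝ) ≤ N := by exact_mod_cast hN
  have ρ1 := hl.trans hρ
  have kk : 0 ≤ A * A' := mul_nonneg (A_nonneg ρ1 hu) (A_nonneg ρ1 hu')
  have lg : ∀ x : ℝ, 0 < x → x ≤ 2 * (N + V.r : ℕ) / l → 1 + Real.log x ≤ T := fun x h0 h1 => by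
    linarith [Real.log_le_log h0 h1]
  have n0 : ((N + V.r : ℕ) : ℝ) = N + V.r := by push_cast; rfl
  have Da : bl V.p N ⊆ bl V.p (N + V.r) := bl_mono _ (by omega)
  have Db : bl V.p N ⊆ bl V.q (N + V.r) := bl_sub (by rw [sn_comm, sn_qp])
  have hT' := lg (((ρ : ℝ) + (N + V.r : ℕ)) / ρ) (by have : (0 : ℝ) < ρ := by linarith
                                                     positivity) (by
    rw [n0]; exact div_le_div₀ (by positivity) (by linarith) (by linarith) l1)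
  have T1 := one_le_T ρ1 hT'
  set a := (V.r : ℝ) ^ (1 / 20 : ℝ) with ha
  set b := (ρ : ℝ) ^ (-(1 / 20 : ℝ)) with hb
  have a0 : 0 ≤ a := by positivity
  have b0 : 0 ≤ b := by positivity
  have ab : a * b = ((V.r : ℝ) / ρ) ^ (1 / 20 : ℝ) := by
    rw [Real.div_rpow (by positivity) (by positivity), hb, Real.rpow_neg (by positivity)]; rfl
  have ab1 : 1 ≤ a * b := by
    rw [ab]; exact Real.one_le_rpow ((one_le_div (by linarith)).2 l2) (by norm_num)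
  have ab2 : ((V.r : ℝ) / ρ) ^ (1 / 10 : ℝ) = (a * b) ^ 2 := by
    rw [ab, ← Real.rpow_natCast, ← Real.rpow_mul (by positivity)]; norm_num
  have key := pairs2 (bl V.p N) (fun z w => w ∉ bl z l)
    (fun z w => χ z * χ w * Vb27.Ph u u' z w * c z w) (BB V ρ) (fun _ => 0) (fun z => ph (V.d z))
    (fun z => 32 * om V.r (V.d z) + 8 * a ^ 2 * ph (V.d z)) (A * A' * Y) 32 (8 * T)
    (fun z w h1 h2 => h1 (mem_bl_comm.1 h2)) (by positivity) (by norm_num) (BB_nonneg V ρ)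
    (fun _ => le_rfl) (fun z => ph_nonneg _)
    (fun z => by have := om_nonneg V.r (V.d z); have := ph_nonneg (V.d z); positivity)
    (fun z hz => by
      refine (sum_le_sum_of_subset_of_nonneg (t := bl z (2 * N) \ bl z l) (fun w hw => mem_sdiff.2
        ⟨bl_sub (by rw [sn_comm]; have := mem_bl_sn.1 hz; omega) (mem_filter.1 hw).1,
          (mem_filter.1 hw).2⟩) fun _ _ _ => by positivity).trans
        ((sum_inv_sq z hl (by omega)).trans ?_)
      have := lg (((2 * N : ℕ) : ℝ) / l) (by push_cast; exact div_pos (by linarith) (by linarith))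
        (by rw [n0]; push_cast; gcongr; linarith)
      linarith)
    (fun z hz w hw hp => by
      have hp' : l < ds z w := by rw [mem_bl_sn, sn_comm, ← ds_eq] at hp; omega
      have a1 := far_nb (V := V) (z := z) (w := w) (by omega) (by omega)
      have a2 := abs_Ph hu hu' z w
      have a3 := mul_le_mul a2 (h z hz w hw hp') (abs_nonneg _) ((abs_nonneg _).trans a2)
      have a4 : |χ z| * |χ w| ≤ 1 := mul_le_one₀ (hχ z) (abs_nonneg _) (hχ w)
      have b1 := mul_nonneg (BB_nonneg V ρ z) (BB_nonneg V ρ w)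
      rw [mul_assoc, abs_mul, abs_mul, abs_mul]
      refine (mul_le_of_le_one_left (by positivity) a4).trans (a3.trans ?_)
      refine le_trans (le_of_eq (by ring)) ((mul_le_mul_of_nonneg_left (mul_le_mul_of_nonneg_left a1 b1)
        (mul_nonneg kk hY)).trans (le_of_eq (by ring))))
  refine (abs_sum_le_sum_abs _ _).trans ((sum_le_sum fun z _ => (abs_sum_le_sum_abs _ _).trans
    (le_of_eq (by rw [sdiff_eq_filter]))).trans (key.trans ?_))
  have s2 := sum_BB2 ρ1 hr Da Db hT'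
  have s3 := sum_ph ρ1 hr Da Db hT'
  have s4 := sum_om ρ1 hr Da Db hT'
  have s5 : ∑ z ∈ bl V.p N, BB V ρ z * (32 * om V.r (V.d z) + 8 * a ^ 2 * ph (V.d z)) ≤
      32 * (64 * T * a / V.r) + 8 * a ^ 2 * (164 * T * b / V.r) := by
    refine le_trans (le_of_eq ?_) (add_le_add (mul_le_mul_of_nonneg_left s4 (by norm_num))
      (mul_le_mul_of_nonneg_left s3 (by positivity)))
    rw [mul_sum, mul_sum, ← sum_add_distrib]
    exact sum_congr rfl fun _ _ => by ring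
  have s6 := mul_le_mul s3 s5 (sum_nonneg fun z _ => mul_nonneg (BB_nonneg _ _ _) (by
    have := om_nonneg V.r (V.d z); have := ph_nonneg (V.d z); positivity)) (by positivity)
  have s7 := mul_le_mul_of_nonneg_left s2 (by positivity : 0 ≤ 32 ^ 2 * (8 * T))
  have t0 : 0 ≤ T ^ 2 / (V.r : ℝ) ^ 2 := by positivity
  have t1 := mul_le_mul_of_nonneg_left (by nlinarith : 1 ≤ (a * b) ^ 2) t0
  have t2 := mul_le_mul_of_nonneg_left (by nlinarith : a * b ≤ (a * b) ^ 2) t0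
  rw [ab2, show 2 * 10 ^ 6 * (A * A') * Y * T ^ 2 * (a * b) ^ 2 / (V.r : ℝ) ^ 2 =
    A * A' * Y * (2 * 10 ^ 6 * (T ^ 2 / (V.r : ℝ) ^ 2 * (a * b) ^ 2)) by ring]
  refine mul_le_mul_of_nonneg_left ?_ (by positivity)
  simp only [mul_zero, sum_const_zero, zero_mul, add_zero]
  have e1 : 32 ^ 2 * (8 * T) * (64 * T / (V.r : ℝ) ^ 2) = 524288 * (T ^ 2 / (V.r : ℝ) ^ 2 * 1) := by ring
  have e2 : 164 * T * b / V.r * (32 * (64 * T * a / V.r) + 8 * a ^ 2 * (164 * T * b / V.r)) =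
      335872 * (T ^ 2 / (V.r : ℝ) ^ 2 * (a * b)) + 215168 * (T ^ 2 / (V.r : ℝ) ^ 2 * (a * b) ^ 2) := by ring
  have t3 : 0 ≤ T ^ 2 / (V.r : ℝ) ^ 2 * (a * b) ^ 2 := by positivity
  rw [e1] at s7
  rw [e2] at s6
  linarith

end Crest.Agent.T145.Vx.Lb27
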