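import Crest.Agent.T145.VxDef_35

/-!
# Row 145, twisted module: lattice sums for Lemma B (helper36)
-/

set_option autoImplicit false

namespace Crest.Agent.T145.Vx.Lb36

open Finset

/-! ## the distance -/

theorem mem_bl_ds {z c : Pt} {n : ℕ} : z ∈ bl c n ↔ ds z c ≤ n := by
  rw [mem_bl, ds]; omega

theorem ds_comm (z w : Pt) : ds z w = ds w z := by rw [ds, ds]; omega

theorem ds_tri (x y z : Pt) : ds x z ≤ ds x y + ds y z := by simp only [ds]; omega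

theorem ds_pos {z w : Pt} (h : z ≠ w) : 1 ≤ ds z w := by
  rw [Ne, Prod.ext_iff] at h; rw [ds]; omega

theorem ds_self (z : Pt) : ds z z = 0 := by simp [ds]

theorem ds_add (z x : Pt) : ds z (z + x) = ds x 0 := by
  simp only [ds, Prod.fst_add, Prod.snd_add, Prod.fst_zero, Prod.snd_zero]; omega

theorem ds_pq (V : Vp) : ds V.p V.q = V.r := by
  obtain ⟨a, r, sd⟩ := V
  cases sd <;> simp [Vp.p, Vp.q, Vp.sw, ds]

theorem d_lip (V : Vp) (z w : Pt) : V.d w ≤ V.d z + ds z w := by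
  have h1 := ds_tri w z V.p
  have h2 := ds_tri w z V.q
  have h3 := ds_comm z w
  simp only [Vp.d]; omega

theorem ds_le_d (V : Vp) (z w : Pt) : ds z w ≤ V.d z + V.d w + V.r := by
  have h0 := ds_pq V
  have h1 := ds_tri z V.p w
  have h2 := ds_tri z V.q w
  have h3 := ds_tri V.p V.q w
  have h4 := ds_tri V.q V.p w
  have h5 := ds_comm V.p w
  have h6 := ds_comm V.q w
  have h7 := ds_comm V.p V.q
  simp only [Vp.d]; omega

/-! ## the twentieth root -/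

/-- `x ^ (1 / 20)` -/
noncomputable def ph (x : ℝ) : ℝ := x ^ (1 / 20 : ℝ)

theorem ph_pos {x : ℝ} (h : 0 < x) : 0 < ph x := Real.rpow_pos_of_pos h _
theorem ph_nonneg {x : ℝ} (h : 0 ≤ x) : 0 ≤ ph x := Real.rpow_nonneg h _
theorem ph_mono {x y : ℝ} (h : 0 ≤ x) (h' : x ≤ y) : ph x ≤ ph y :=
  Real.rpow_le_rpow h h' (by norm_num)
theorem ph_one : ph 1 = 1 := Real.one_rpow _
theorem ph_add {x y : ℝ} (h : 0 ≤ x) (h' : 0 ≤ y) : ph (x + y) ≤ ph x + ph y :=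
  Real.rpow_add_le_add_rpow h h' (by norm_num) (by norm_num)
theorem rp21 {x : ℝ} (h : 0 < x) : x ^ (-(21 / 20 : ℝ)) = 1 / (x * ph x) := by
  rw [Real.rpow_neg h.le, one_div, ph, show (21 / 20 : ℝ) = 1 + 1 / 20 by norm_num,
    Real.rpow_add h, Real.rpow_one]
theorem rp19 {x : ℝ} (h : 0 < x) : x ^ (-(19 / 20 : ℝ)) = ph x / x := by
  rw [ph, show (-(19 / 20) : ℝ) = 1 / 20 - 1 by norm_num, Real.rpow_sub h, Real.rpow_one]
theorem ph_anti {x y : ℝ} (h : 0 < x) (h' : x ≤ y) : ph y / y ≤ ph x / x := by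
  rw [← rp19 h, ← rp19 (h.trans_le h')]
  exact Real.rpow_le_rpow_of_nonpos h h' (by norm_num)

/-! ## one dimensional sums -/

/-- `H (ρ, n)` -/
noncomputable def Hs (ρ : ℝ) (n : ℕ) : ℝ := ∑ a ∈ range (n + 1), 1 / (ρ + a)

theorem Hs_le {ρ : ℝ} (h : 1 ≤ ρ) (n : ℕ) : Hs ρ n ≤ 1 + Real.log ((ρ + n) / ρ) := by
  have h0 : 0 < ρ := by linarith
  induction n with
  | zero =>
    simp only [Hs, zero_add, range_one, sum_singleton, Nat.cast_zero, add_zero, div_self h0.ne',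
      Real.log_one]
    exact (div_le_one h0).2 h
  | succ n ih =>
    have h1 : (0 : ℝ) < ρ + n := by positivity
    have h2 : (0 : ℝ) < ρ + (n + 1 : ℕ) := by positivity
    have h3 := Real.one_sub_inv_le_log_of_pos (div_pos h2 h1)
    have h4 : 1 - ((ρ + (n + 1 : ℕ)) / (ρ + n))⁻¹ = 1 / (ρ + (n + 1 : ℕ)) := by
      rw [inv_div]; field_simp; push_cast; ring
    rw [h4, Real.log_div h2.ne' h1.ne'] at h3
    rw [Real.log_div h1.ne' h0.ne'] at ih
    rw [Hs, sum_range_succ, ← Hs, Real.log_div h2.ne' h0.ne']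
    linarith

theorem Hs_nonneg {ρ : ℝ} (h : 0 < ρ) (n : ℕ) : 0 ≤ Hs ρ n := sum_nonneg fun a _ => by positivity

theorem Hs_le' {ρ : ℝ} (h : 0 < ρ) (n : ℕ) : Hs ρ n ≤ (n + 1) / ρ := by
  calc Hs ρ n ≤ ∑ _a ∈ range (n + 1), 1 / ρ :=
        sum_le_sum fun a _ => by gcongr; linarith [Nat.cast_nonneg (α := ℝ) a]
    _ = _ := by simp [div_eq_mul_inv]

theorem sum_ph (n : ℕ) : ∑ a ∈ range n, 1 / ph (1 + a) ≤ 2 * n / ph n := by
  induction n with
  | zero => simp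
  | succ n ih =>
    rw [sum_range_succ]
    rcases Nat.eq_zero_or_pos n with rfl | hn
    · simp [ph_one]
    have h0 : (0 : ℝ) < n := by exact_mod_cast hn
    have h1 : ph (1 + n) ≤ ph n * (1 + 1 / 20 * (1 / n)) := by
      have : (1 + n : ℝ) = n * (1 + 1 / n) := by field_simp; ring
      rw [this, ph, Real.mul_rpow h0.le (by positivity), ← ph]
      gcongr
      · exact (ph_pos h0).le
      · exact rpow_one_add_le_one_add_mul_self (by linarith [one_div_pos.2 h0]) (by norm_num)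
          (by norm_num)
    have h2 := ph_pos h0
    have h3 : 0 < ph (1 + n) := ph_pos (by positivity)
    have h4 : 2 * n / ph n ≤ (2 * n + 1) / ph (1 + n) := by
      rw [div_le_div_iff₀ h2 h3]
      calc 2 * n * ph (1 + n) ≤ 2 * n * (ph n * (1 + 1 / 20 * (1 / n))) := by gcongr
        _ = (2 * n + 1 / 10) * ph n := by field_simp; ring
        _ ≤ _ := by gcongr; norm_num
    push_cast
    rw [add_comm (n : ℝ) 1]
    calc _ ≤ (2 * n + 1) / ph (1 + n) + 1 / ph (1 + n) := by linarith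
      _ = _ := by ring

/-! ## shells -/

theorem shell (c : Pt) (n : ℕ) {f : ℕ → ℝ} (hf : ∀ a, 0 ≤ f a) :
    ∑ z ∈ bl c n, f (ds z c) ≤ 8 * ∑ a ∈ range (n + 1), (1 + a) * f a := by
  induction n with
  | zero =>
    have h : ∑ z ∈ bl c 0, f (ds z c) = ∑ _z ∈ bl c 0, f 0 :=
      sum_congr rfl fun z hz => by rw [Nat.le_zero.1 (mem_bl_ds.1 hz)]
    rw [h, sum_const, card_bl]
    simp
    linarith [hf 0]
  | succ n ih =>
    have hs : bl c n ⊆ bl c (n + 1) := bl_mono c (Nat.le_succ n)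
    have h : ∑ z ∈ bl c (n + 1) \ bl c n, f (ds z c) = ∑ _z ∈ bl c (n + 1) \ bl c n, f (n + 1) :=
      sum_congr rfl fun z hz => by
        rw [mem_sdiff, mem_bl_ds, mem_bl_ds] at hz
        rw [show ds z c = n + 1 by omega]
    have hc : (bl c (n + 1) \ bl c n).card = 8 * (n + 1) := by
      rw [card_sdiff_of_subset hs, card_bl, card_bl]
      apply Nat.sub_eq_of_eq_add; ring
    rw [← sum_sdiff hs, h, sum_const, hc, sum_range_succ _ (n + 1), nsmul_eq_mul]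
    push_cast
    nlinarith [hf (n + 1)]

/-- the neighbourhood of the cores -/
noncomputable def TT (V : Vp) (n : ℕ) : Finset Pt := bl V.p n ∪ bl V.q n

theorem mem_TT {V : Vp} {n : ℕ} {z : Pt} : z ∈ TT V n ↔ V.d z ≤ n := by
  rw [TT, mem_union, mem_bl_ds, mem_bl_ds, Vp.d]; omega

theorem sumT (V : Vp) (n : ℕ) {f : ℕ → ℝ} (hf : ∀ a, 0 ≤ f a) :
    ∑ z ∈ TT V n, f (V.d z) ≤ 16 * ∑ a ∈ range (n + 1), (1 + a) * f a := by
  rw [← sum_filter_add_sum_filter_not _ fun z => ds z V.p ≤ ds z V.q]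
  have h1 : ∑ z ∈ (TT V n).filter fun z => ds z V.p ≤ ds z V.q, f (V.d z) ≤
      ∑ z ∈ bl V.p n, f (ds z V.p) := by
    rw [sum_congr rfl (g := fun z => f (ds z V.p)) fun z hz => by
      rw [Vp.d, min_eq_left (mem_filter.1 hz).2]]
    refine sum_le_sum_of_subset_of_nonneg (fun z hz => ?_) fun z _ _ => hf _
    rw [mem_filter, mem_TT, Vp.d] at hz
    rw [mem_bl_ds]; omega
  have h2 : ∑ z ∈ (TT V n).filter fun z => ¬ ds z V.p ≤ ds z V.q, f (V.d z) ≤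
      ∑ z ∈ bl V.q n, f (ds z V.q) := by
    rw [sum_congr rfl (g := fun z => f (ds z V.q)) fun z hz => by
      rw [Vp.d, min_eq_right (not_le.1 (mem_filter.1 hz).2).le]]
    refine sum_le_sum_of_subset_of_nonneg (fun z hz => ?_) fun z _ _ => hf _
    rw [mem_filter, mem_TT, Vp.d] at hz
    rw [mem_bl_ds]; omega
  linarith [shell V.p n hf, shell V.q n hf]

/-- `∑ 1 / l²` over `lo < l ≤ hi` -/
theorem sum_inv_sq (z : Pt) (lo hi : ℕ) :
    ∑ w ∈ bl z hi, (if lo < ds w z then 1 / (ds w z : ℝ) ^ 2 else 0) ≤ 32 * Hs (lo + 1) hi := by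
  refine (shell z hi (f := fun l => if lo < l then 1 / (l : ℝ) ^ 2 else 0)
    fun a => by split_ifs <;> positivity).trans ?_
  rw [Hs, mul_sum, mul_sum]
  refine sum_le_sum fun a _ => ?_
  split_ifs with h
  · have h1 : (lo : ℝ) + 1 ≤ a := by exact_mod_cast h
    have h2 : (0 : ℝ) ≤ lo := Nat.cast_nonneg _
    rw [mul_one_div, mul_one_div, ← mul_div_assoc, div_le_div_iff₀ (by nlinarith) (by linarith)]
    nlinarith [mul_nonneg (sub_nonneg.2 h1) (sub_nonneg.2 (show (1 : ℝ) ≤ a by linarith))]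
  · rw [mul_zero, mul_zero]; positivity

theorem sum_inv_one (z : Pt) (n : ℕ) :
    ∑ w ∈ bl z n, (if 0 < ds w z then 1 / (ds w z : ℝ) else 0) ≤ 16 * (n + 1) := by
  refine (shell z n (f := fun l => if 0 < l then 1 / (l : ℝ) else 0)
    fun a => by split_ifs <;> positivity).trans ?_
  have : ∑ a ∈ range (n + 1), (1 + (a : ℝ)) * (if 0 < a then 1 / (a : ℝ) else 0) ≤
      ∑ _a ∈ range (n + 1), (2 : ℝ) := sum_le_sum fun a _ => by
    split_ifs with h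
    · have h1 : (1 : ℝ) ≤ a := by exact_mod_cast h
      rw [mul_one_div, div_le_iff₀ (by linarith)]; linarith
    · simp
  rw [sum_const, card_range, nsmul_eq_mul] at this
  push_cast at this
  linarith

/-! ## the majorants -/

variable (V : Vp) (ρ : ℕ)

/-- majorant of `al p * al q` -/
noncomputable def ab (d : ℕ) : ℝ := 4 / (((ρ : ℝ) + d) * (V.r + d))

/-- the weight of a site next to a core -/
noncomputable def gg (d : ℕ) : ℝ := 1 / (((ρ : ℝ) + d) * ((1 + d) * ph (1 + d)))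

variable {V ρ}

theorem ab_nonneg (d : ℕ) : 0 ≤ ab V ρ d := by rw [ab]; positivity

theorem gg_nonneg (d : ℕ) : 0 ≤ gg ρ d := by
  have := ph_nonneg (show (0 : ℝ) ≤ 1 + d by positivity)
  rw [gg]; positivity

theorem al_pos (hρ : 1 ≤ ρ) (p z : Pt) : 0 < al p ρ z := by
  have : (0 : ℝ) < ρ := by exact_mod_cast hρ
  rw [al]; positivity

theorem al_le (hρ : 1 ≤ ρ) (p z : Pt) : al p ρ z ≤ 1 / ρ := by
  have : (0 : ℝ) < ρ := by exact_mod_cast hρ
  rw [al]; gcongr; linarith [Nat.cast_nonneg (α := ℝ) (ds z p)]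

theorem al_near (hρ : 1 ≤ ρ) (p : Pt) {z y : Pt} (h : ds z y ≤ ρ) : al p ρ y ≤ 2 * al p ρ z := by
  have h0 : (0 : ℝ) < ρ := by exact_mod_cast hρ
  have h1 : (ds z p : ℝ) ≤ ρ + ds y p := by exact_mod_cast (ds_tri z y p).trans (by omega)
  rw [al, al, mul_one_div, div_le_div_iff₀ (by positivity) (by positivity)]
  linarith [Nat.cast_nonneg (α := ℝ) (ds y p)]

theorem al_mul (hρ : 1 ≤ ρ) (hr : 1 ≤ V.r) (z : Pt) : al V.p ρ z * al V.q ρ z ≤ ab V ρ (V.d z) := by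
  have h0 : (0 : ℝ) < ρ := by exact_mod_cast hρ
  have hr0 : (0 : ℝ) < V.r := by exact_mod_cast hr
  have h1 := ds_pq V
  have h2 := ds_tri V.p z V.q
  have h3 := ds_comm V.p z
  rw [al, al, ab, one_div_mul_one_div, div_le_div_iff₀ (by positivity) (by positivity), Vp.d]
  rcases le_total (ds z V.p) (ds z V.q) with h | h
  · rw [min_eq_left h]
    have h4 : (V.r : ℝ) + ds z V.p ≤ 4 * (ρ + ds z V.q) := by
      exact_mod_cast (show V.r + ds z V.p ≤ 4 * (ρ + ds z V.q) by omega)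
    nlinarith [mul_le_mul_of_nonneg_left h4 (show (0 : ℝ) ≤ ρ + ds z V.p by positivity)]
  · rw [min_eq_right h]
    have h4 : (V.r : ℝ) + ds z V.q ≤ 4 * (ρ + ds z V.p) := by
      exact_mod_cast (show V.r + ds z V.q ≤ 4 * (ρ + ds z V.p) by omega)
    nlinarith [mul_le_mul_of_nonneg_left h4 (show (0 : ℝ) ≤ ρ + ds z V.q by positivity)]

theorem ab_anti (hρ : 1 ≤ ρ) (hr : 1 ≤ V.r) {d d' : ℕ} (h : d ≤ d') : ab V ρ d' ≤ ab V ρ d := by
  have h0 : (0 : ℝ) < ρ := by exact_mod_cast hρ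
  have hr0 : (0 : ℝ) < V.r := by exact_mod_cast hr
  have h1 : (d : ℝ) ≤ d' := by exact_mod_cast h
  rw [ab, ab]; gcongr

theorem nb_nonneg (V : Vp) (z : Pt) (l : ℕ) : 0 ≤ nb V z l := by
  rw [nb]; split_ifs <;> positivity

theorem nbA {z : Pt} {l : ℕ} (h1 : 1 ≤ l) (h : l ≤ V.d z) : nb V z l ≤ 1 / (l : ℝ) ^ 2 := by
  have h0 : (0 : ℝ) < l := by exact_mod_cast h1
  rw [nb, if_pos ((min_le_left _ _).trans h), min_eq_right h]
  gcongr; linarith

theorem nbB {z : Pt} {l : ℕ} (h1 : 1 ≤ l) (hr : 1 ≤ V.r) (h : V.d z ≤ 2 * l) :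
    nb V z l ≤ 8 * (1 / ((1 + (V.d z : ℝ)) * ph (1 + V.d z))) *
      (ph ((min l V.r : ℕ) + V.d z) / ((min l V.r : ℕ) + V.d z)) := by
  set m := min l V.r with hm
  set d := V.d z with hd
  have hm1 : (1 : ℝ) ≤ m := by exact_mod_cast le_min h1 hr
  have hd0 : (0 : ℝ) ≤ d := Nat.cast_nonneg _
  have hp : 0 < ph (1 + d) := ph_pos (by positivity)
  have hq : 0 < ph (m + d) := ph_pos (by positivity)
  rw [nb]
  split_ifs with hc
  · have h2 : (m : ℝ) ≤ d := by exact_mod_cast hc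
    have h3 : (1 : ℝ) + d ≤ 2 * (1 + (min d l : ℕ)) := by
      exact_mod_cast (show 1 + d ≤ 2 * (1 + min d l) by omega)
    have h4 : ph (1 + d) ≤ ph (m + d) := ph_mono (by positivity) (by linarith)
    calc 1 / (1 + (min d l : ℕ) : ℝ) ^ 2 ≤ 1 / ((1 + d) / 2) ^ 2 := by gcongr; linarith
      _ = 8 * (1 / ((1 + (d : ℝ)) * ph (1 + d))) * (ph (1 + d) / (2 * (1 + d))) := by
          field_simp; ring
      _ ≤ _ := by gcongr; linarith
  · have h2 : (d : ℝ) ≤ m := by exact_mod_cast (not_le.1 hc).le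
    rw [rp21 (by positivity), rp19 (by positivity)]
    have h4 : ph m ≤ ph (m + d) := ph_mono (by positivity) (by linarith)
    have h5 : ph m / m ≤ 8 * (ph (m + d) / (m + d)) := by
      rw [← mul_div_assoc, div_le_div_iff₀ (by positivity) (by positivity)]
      nlinarith [mul_le_mul_of_nonneg_right h4 (show (0 : ℝ) ≤ m + d by positivity)]
    calc _ ≤ 1 / ((1 + (d : ℝ)) * ph (1 + d)) * (8 * (ph (m + d) / (m + d))) := by gcongr
      _ = _ := by ring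

/-- the summand of the crude bound -/
noncomputable def FF (V : Vp) (ρ : ℕ) (z w : Pt) : ℝ :=
  (ds z w : ℝ) ^ 2 * (ab V ρ (V.d z) * ab V ρ (V.d w)) * (nb V z (ds z w) * nb V w (ds z w))

theorem FF_comm (z w : Pt) : FF V ρ z w = FF V ρ w z := by rw [FF, FF, ds_comm z w]; ring

theorem FF_le (hρ : 1 ≤ ρ) (hr : 1 ≤ V.r) {z w : Pt} (hl : 1 ≤ ds z w) (h : V.d z ≤ V.d w) {μ : ℝ}
    (hμ : ((min (ds z w) V.r : ℕ) : ℝ) ≤ μ) :
    FF V ρ z w ≤ ab V ρ (V.d z) ^ 2 * (1 / (ds z w : ℝ) ^ 2) +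
      4096 * ph μ / (V.r : ℝ) ^ 2 * (gg ρ (V.d z) * ((ph μ + ph (1 + V.d w)) * gg ρ (V.d w))) := by
  have h0 : (0 : ℝ) < ρ := by exact_mod_cast hρ
  have hr0 : (0 : ℝ) < V.r := by exact_mod_cast hr
  have h1 := d_lip V z w
  have h2 := ds_le_d V z w
  rw [FF]
  set l := ds z w with hl'
  set m := min l V.r with hm
  have hl0 : (0 : ℝ) < l := by exact_mod_cast hl
  have hm1 : (1 : ℝ) ≤ m := by exact_mod_cast le_min hl hr
  have hμ0 : 0 < ph μ := ph_pos (by linarith)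
  have hpz : 0 < ph (1 + V.d z) := ph_pos (by positivity)
  have hpw : 0 < ph (1 + V.d w) := ph_pos (by positivity)
  have hgz := gg_nonneg (ρ := ρ) (V.d z)
  have hgw := gg_nonneg (ρ := ρ) (V.d w)
  have haz := ab_nonneg (V := V) (ρ := ρ) (V.d z)
  have haw := ab_nonneg (V := V) (ρ := ρ) (V.d w)
  have hnz := nb_nonneg V z l
  have hnw := nb_nonneg V w l
  rcases le_or_gt l (V.d z) with hc | hc
  · refine le_add_of_le_of_nonneg ?_ (by positivity)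
    calc _ ≤ (l : ℝ) ^ 2 * (ab V ρ (V.d z) * ab V ρ (V.d z)) * (1 / (l : ℝ) ^ 2 * (1 / (l : ℝ) ^ 2)) := by
          gcongr
          exacts [ab_anti hρ hr h, nbA hl hc, nbA hl (hc.trans h)]
      _ = _ := by field_simp
  · refine le_add_of_nonneg_of_le (by positivity) ?_
    have b1 := nbB (z := z) hl hr (by omega)
    have b2 := nbB (z := w) hl hr (by omega)
    rw [← hm] at b1 b2
    have b3 : ph (m + V.d z) / (m + V.d z) ≤ ph μ / m :=
      (ph_anti (x := m) (by linarith) (by linarith [Nat.cast_nonneg (α := ℝ) (V.d z)])).trans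
        (by gcongr; exact ph_mono (by linarith) hμ)
    have b4 : ph (m + V.d w) ≤ ph μ + ph (1 + V.d w) :=
      (ph_add (by linarith) (Nat.cast_nonneg _)).trans
        (add_le_add (ph_mono (by linarith) hμ) (ph_mono (Nat.cast_nonneg _) (by linarith)))
    have b5 : (l : ℝ) ^ 2 / ((V.r + V.d z) * (V.r + V.d w) * (m * (m + V.d w))) ≤ 4 / (V.r : ℝ) ^ 2 := by
      have hz0 : (0 : ℝ) ≤ V.d z := Nat.cast_nonneg _
      have hw0 : (0 : ℝ) ≤ V.d w := Nat.cast_nonneg _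
      rcases le_total l V.r with hlr | hlr
      · rw [hm, min_eq_left hlr]
        calc _ ≤ (l : ℝ) ^ 2 / (V.r * V.r * (l * l)) := by gcongr <;> linarith
          _ = 1 / (V.r : ℝ) ^ 2 := by field_simp
          _ ≤ _ := by gcongr; norm_num
      · rw [hm, min_eq_right hlr]
        have h3 : (l : ℝ) ≤ 2 * (V.r + V.d w) := by
          exact_mod_cast (show l ≤ 2 * (V.r + V.d w) by omega)
        calc _ ≤ (2 * ((V.r : ℝ) + V.d w)) ^ 2 / (V.r * (V.r + V.d w) * (V.r * (V.r + V.d w))) := by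
              gcongr; linarith
          _ = _ := by field_simp; ring
    calc _ ≤ (l : ℝ) ^ 2 * (ab V ρ (V.d z) * ab V ρ (V.d w)) *
          (8 * (1 / ((1 + (V.d z : ℝ)) * ph (1 + V.d z))) * (ph μ / m) *
            (8 * (1 / ((1 + (V.d w : ℝ)) * ph (1 + V.d w))) *
              ((ph μ + ph (1 + V.d w)) / (m + V.d w)))) := by
          gcongr
          · exact b1.trans (by gcongr)
          · exact b2.trans (by gcongr)
      _ = 1024 * ph μ * ((l : ℝ) ^ 2 / ((V.r + V.d z) * (V.r + V.d w) * (m * (m + V.d w)))) *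
            (gg ρ (V.d z) * ((ph μ + ph (1 + V.d w)) * gg ρ (V.d w))) := by
          rw [ab, ab, gg, gg]; field_simp; ring
      _ ≤ 1024 * ph μ * (4 / (V.r : ℝ) ^ 2) *
            (gg ρ (V.d z) * ((ph μ + ph (1 + V.d w)) * gg ρ (V.d w))) := by gcongr
      _ = _ := by ring

theorem pairs (hρ : 1 ≤ ρ) (hr : 1 ≤ V.r) (n lo hi : ℕ) {μ : ℝ} (hμ0 : 0 ≤ μ)
    (hμ : ∀ l ≤ hi, ((min l V.r : ℕ) : ℝ) ≤ μ) :
    ∑ z ∈ TT V n, ∑ w ∈ TT V n, (if lo < ds z w ∧ ds z w ≤ hi then FF V ρ z w else 0) ≤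
      2 * ((∑ z ∈ TT V n, ab V ρ (V.d z) ^ 2) * (32 * Hs (lo + 1) hi) +
        4096 * ph μ / (V.r : ℝ) ^ 2 * ((∑ z ∈ TT V n, gg ρ (V.d z)) *
          ∑ w ∈ TT V n, (ph μ + ph (1 + V.d w)) * gg ρ (V.d w))) := by
  set P : Pt → Pt → ℝ := fun z w =>
    ab V ρ (V.d z) ^ 2 * (if lo < ds z w ∧ ds z w ≤ hi then 1 / (ds z w : ℝ) ^ 2 else 0) +
      4096 * ph μ / (V.r : ℝ) ^ 2 * (gg ρ (V.d z) * ((ph μ + ph (1 + V.d w)) * gg ρ (V.d w))) with hP
  have hp := ph_nonneg hμ0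
  have hP0 : ∀ z w, 0 ≤ P z w := fun z w => by
    have := gg_nonneg (ρ := ρ) (V.d z)
    have := gg_nonneg (ρ := ρ) (V.d w)
    have := ph_nonneg (show (0 : ℝ) ≤ 1 + V.d w by positivity)
    simp only [hP]
    split_ifs <;> positivity
  have h1 : ∀ z w, V.d z ≤ V.d w → (if lo < ds z w ∧ ds z w ≤ hi then FF V ρ z w else 0) ≤ P z w :=
    fun z w h => by
      split_ifs with hc
      · simp only [hP, if_pos hc]
        exact FF_le hρ hr (by omega) h (hμ _ hc.2)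
      · exact hP0 z w
  have h2 : ∀ z w, (if lo < ds z w ∧ ds z w ≤ hi then FF V ρ z w else 0) ≤ P z w + P w z :=
    fun z w => by
      rcases le_total (V.d z) (V.d w) with h | h
      · exact le_add_of_le_of_nonneg (h1 z w h) (hP0 _ _)
      · rw [ds_comm z w, FF_comm]
        exact le_add_of_nonneg_of_le (hP0 _ _) (h1 w z h)
  have h3 : ∑ z ∈ TT V n, ∑ w ∈ TT V n, P z w ≤
      (∑ z ∈ TT V n, ab V ρ (V.d z) ^ 2) * (32 * Hs (lo + 1) hi) +
        4096 * ph μ / (V.r : ℝ) ^ 2 * ((∑ z ∈ TT V n, gg ρ (V.d z)) *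
          ∑ w ∈ TT V n, (ph μ + ph (1 + V.d w)) * gg ρ (V.d w)) := by
    simp only [hP, sum_add_distrib, ← mul_sum]
    rw [sum_mul, ← sum_mul _ (fun z => gg ρ (V.d z))]
    refine add_le_add (sum_le_sum fun z _ => mul_le_mul_of_nonneg_left ?_ (by positivity)) le_rfl
    refine le_trans ?_ (sum_inv_sq z lo hi)
    rw [← sum_filter, ← sum_filter]
    rw [sum_congr rfl (g := fun w => 1 / (ds w z : ℝ) ^ 2) fun w _ => by rw [ds_comm z w]]
    refine sum_le_sum_of_subset_of_nonneg (fun w hw => ?_) fun w _ _ => by positivity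
    rw [mem_filter] at hw ⊢
    rw [mem_bl_ds, ds_comm w z]
    exact ⟨hw.2.2, hw.2.1⟩
  calc _ ≤ ∑ z ∈ TT V n, ∑ w ∈ TT V n, (P z w + P w z) :=
        sum_le_sum fun z _ => sum_le_sum fun w _ => h2 z w
    _ = 2 * ∑ z ∈ TT V n, ∑ w ∈ TT V n, P z w := by
        simp only [sum_add_distrib]
        rw [sum_comm (f := fun z w => P w z), two_mul]
    _ ≤ _ := by gcongr

/-! ## the one site sums -/

theorem SA_le (hρ : 1 ≤ ρ) (hr : 1 ≤ V.r) (n : ℕ) :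
    ∑ z ∈ TT V n, ab V ρ (V.d z) ^ 2 ≤ 256 * Hs ρ n / (V.r : ℝ) ^ 2 := by
  have h0 : (1 : ℝ) ≤ ρ := by exact_mod_cast hρ
  have hr0 : (0 : ℝ) < V.r := by exact_mod_cast hr
  refine (sumT V n (f := fun d => ab V ρ d ^ 2) fun a => by positivity).trans ?_
  rw [Hs, mul_sum, mul_sum, sum_div]
  refine sum_le_sum fun a _ => ?_
  have ha : (0 : ℝ) ≤ a := Nat.cast_nonneg _
  calc 16 * ((1 + (a : ℝ)) * ab V ρ a ^ 2) ≤ 16 * ((ρ + (a : ℝ)) * (4 / ((ρ + a) * V.r)) ^ 2) := by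
        rw [ab]; gcongr; linarith
    _ = _ := by field_simp; ring

theorem SA_le' (hρ : 1 ≤ ρ) (hr : 1 ≤ V.r) (n : ℕ) :
    ∑ z ∈ TT V n, ab V ρ (V.d z) ^ 2 ≤ 256 * (((n : ℝ) + 1) / ρ) ^ 2 / (V.r : ℝ) ^ 2 := by
  have h0 : (1 : ℝ) ≤ ρ := by exact_mod_cast hρ
  have hr0 : (0 : ℝ) < V.r := by exact_mod_cast hr
  refine (sumT V n (f := fun d => ab V ρ d ^ 2) fun a => by positivity).trans ?_
  have : ∑ a ∈ range (n + 1), (1 + (a : ℝ)) * ab V ρ a ^ 2 ≤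
      ∑ _a ∈ range (n + 1), (1 + (n : ℝ)) * (4 / (ρ * V.r)) ^ 2 := sum_le_sum fun a ha => by
    have ha0 : (0 : ℝ) ≤ a := Nat.cast_nonneg _
    have ha1 : (a : ℝ) ≤ n := by exact_mod_cast Nat.lt_succ_iff.1 (mem_range.1 ha)
    rw [ab]; gcongr <;> linarith
  rw [sum_const, card_range, nsmul_eq_mul] at this
  calc _ ≤ 16 * (((n + 1 : ℕ) : ℝ) * ((1 + (n : ℝ)) * (4 / (ρ * V.r)) ^ 2)) := by gcongr
    _ = _ := by push_cast; field_simp; ring

theorem G_le0 (hρ : 1 ≤ ρ) (n : ℕ) :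
    ∑ z ∈ TT V n, gg ρ (V.d z) ≤ 16 * ∑ a ∈ range (n + 1), 1 / (((ρ : ℝ) + a) * ph (1 + a)) := by
  have h0 : (1 : ℝ) ≤ ρ := by exact_mod_cast hρ
  refine (sumT V n (f := gg ρ) gg_nonneg).trans (le_of_eq ?_)
  congr 1
  refine sum_congr rfl fun a _ => ?_
  have := ph_pos (show (0 : ℝ) < 1 + a by positivity)
  rw [gg]; field_simp

theorem G_le (hρ : 1 ≤ ρ) (n : ℕ) :
    ∑ z ∈ TT V n, gg ρ (V.d z) ≤ 16 * (2 + Hs ρ n) / ph ρ := by
  have h0 : (1 : ℝ) ≤ ρ := by exact_mod_cast hρ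
  have hp := ph_pos (show (0 : ℝ) < ρ by linarith)
  refine (G_le0 hρ n).trans ?_
  have h1 : ∑ a ∈ range (n + 1), 1 / (((ρ : ℝ) + a) * ph (1 + a)) ≤
      ∑ a ∈ range (n + 1), ((if a ∈ range ρ then 1 / (ρ : ℝ) * (1 / ph (1 + a)) else 0) +
        1 / ph ρ * (1 / (ρ + a))) := sum_le_sum fun a _ => by
    have ha0 : (0 : ℝ) ≤ a := Nat.cast_nonneg _
    have := ph_pos (show (0 : ℝ) < 1 + a by positivity)
    split_ifs with h
    · refine le_add_of_le_of_nonneg ?_ (by positivity)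
      rw [one_div_mul_one_div]; gcongr; linarith
    · have h2 : (ρ : ℝ) ≤ a := by exact_mod_cast not_lt.1 (mem_range.not.1 h)
      rw [zero_add, one_div_mul_one_div, mul_comm (ph ρ)]
      gcongr
      exact ph_mono (by linarith) (by linarith)
  rw [sum_add_distrib, ← mul_sum, ← Hs, ← sum_filter] at h1
  have h2 : ∑ a ∈ (range (n + 1)).filter (· ∈ range ρ), 1 / (ρ : ℝ) * (1 / ph (1 + a)) ≤ 2 / ph ρ := by
    calc _ ≤ ∑ a ∈ range ρ, 1 / (ρ : ℝ) * (1 / ph (1 + a)) :=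
          sum_le_sum_of_subset_of_nonneg (fun a ha => (mem_filter.1 ha).2) fun a _ _ => by
            have := ph_pos (show (0 : ℝ) < 1 + a by positivity)
            positivity
      _ ≤ 1 / (ρ : ℝ) * (2 * ρ / ph ρ) := by rw [← mul_sum]; gcongr; exact sum_ph ρ
      _ = _ := by field_simp
  calc _ ≤ 16 * (2 / ph ρ + 1 / ph ρ * Hs ρ n) := by gcongr; linarith
    _ = _ := by ring

theorem G_le' (hρ : 1 ≤ ρ) (n : ℕ) :
    ∑ z ∈ TT V n, gg ρ (V.d z) ≤ 32 * (((n : ℝ) + 1) / ρ) / ph (n + 1) := by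
  have h0 : (1 : ℝ) ≤ ρ := by exact_mod_cast hρ
  refine (G_le0 hρ n).trans ?_
  have h1 : ∑ a ∈ range (n + 1), 1 / (((ρ : ℝ) + a) * ph (1 + a)) ≤
      ∑ a ∈ range (n + 1), 1 / (ρ : ℝ) * (1 / ph (1 + a)) := sum_le_sum fun a _ => by
    have ha0 : (0 : ℝ) ≤ a := Nat.cast_nonneg _
    have := ph_pos (show (0 : ℝ) < 1 + a by positivity)
    rw [one_div_mul_one_div]; gcongr; linarith
  rw [← mul_sum] at h1
  have h2 := sum_ph (n + 1)
  push_cast at h2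
  calc _ ≤ 16 * (1 / (ρ : ℝ) * (2 * (n + 1) / ph (n + 1))) := by
        gcongr; exact h1.trans (by gcongr)
    _ = _ := by ring

theorem G'_le (hρ : 1 ≤ ρ) (n : ℕ) :
    ∑ z ∈ TT V n, ph (1 + V.d z) * gg ρ (V.d z) ≤ 16 * Hs ρ n := by
  have h0 : (1 : ℝ) ≤ ρ := by exact_mod_cast hρ
  refine (sumT V n (f := fun d => ph (1 + d) * gg ρ d) fun a =>
    mul_nonneg (ph_nonneg (by positivity)) (gg_nonneg a)).trans (le_of_eq ?_)
  rw [Hs]
  congr 1
  refine sum_congr rfl fun a _ => ?_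
  have := ph_pos (show (0 : ℝ) < 1 + a by positivity)
  rw [gg]; field_simp

/-- far pairs -/
theorem far_sum (hρ : 1 ≤ ρ) (hr : ρ ≤ V.r) (n lo hi : ℕ) {Λ : ℝ} (h1 : 1 ≤ Λ) (h2 : Hs ρ n ≤ Λ)
    (h3 : Hs (lo + 1) hi ≤ Λ) :
    ∑ z ∈ TT V n, ∑ w ∈ TT V n, (if lo < ds z w ∧ ds z w ≤ hi then FF V ρ z w else 0) ≤
      2 ^ 25 * ((ph V.r / ph ρ) ^ 2 * Λ ^ 2) / (V.r : ℝ) ^ 2 := by
  have h0 : (1 : ℝ) ≤ ρ := by exact_mod_cast hρ
  have hr0 : (ρ : ℝ) ≤ V.r := by exact_mod_cast hr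
  have hp := ph_pos (show (0 : ℝ) < ρ by linarith)
  have hq := ph_pos (show (0 : ℝ) < V.r by linarith)
  refine (pairs hρ (hρ.trans hr) n lo hi (μ := V.r) (by linarith)
    fun l _ => by exact_mod_cast min_le_right _ _).trans ?_
  have a1 : ∑ z ∈ TT V n, ab V ρ (V.d z) ^ 2 ≤ 256 * Λ / (V.r : ℝ) ^ 2 :=
    (SA_le hρ (hρ.trans hr) n).trans (by gcongr)
  have a2 : ∑ z ∈ TT V n, gg ρ (V.d z) ≤ 48 * Λ / ph ρ :=
    (G_le hρ n).trans (by gcongr ?_ / _; linarith)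
  have a3 : ∑ w ∈ TT V n, (ph V.r + ph (1 + V.d w)) * gg ρ (V.d w) ≤
      ph V.r * (48 * Λ / ph ρ) + 16 * Λ := by
    simp only [add_mul, sum_add_distrib, ← mul_sum]
    exact add_le_add (by gcongr) ((G'_le hρ n).trans (by gcongr))
  have a4 : 0 ≤ ∑ w ∈ TT V n, (ph V.r + ph (1 + V.d w)) * gg ρ (V.d w) :=
    sum_nonneg fun w _ => mul_nonneg (add_nonneg hq.le (ph_nonneg (by positivity))) (gg_nonneg _)
  have a5 := Hs_nonneg (show (0 : ℝ) < lo + 1 by positivity) hi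
  have hk : 1 ≤ ph V.r / ph ρ := (one_le_div hp).2 (ph_mono (by linarith) hr0)
  calc _ ≤ 2 * (256 * Λ / (V.r : ℝ) ^ 2 * (32 * Λ) + 4096 * ph V.r / (V.r : ℝ) ^ 2 *
        (48 * Λ / ph ρ * (ph V.r * (48 * Λ / ph ρ) + 16 * Λ))) := by gcongr
    _ = (16384 + 8192 * (2304 * (ph V.r / ph ρ) ^ 2 + 768 * (ph V.r / ph ρ))) * Λ ^ 2 /
        (V.r : ℝ) ^ 2 := by field_simp; ring
    _ ≤ (2 ^ 25 * (ph V.r / ph ρ) ^ 2) * Λ ^ 2 / (V.r : ℝ) ^ 2 := by
        gcongr; nlinarith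
    _ = _ := by ring

/-- close pairs next to the cores -/
theorem core_sum (hρ : 1 ≤ ρ) (hr : 1 ≤ V.r) {n hi : ℕ} (hn : hi ≤ n) {Λ : ℝ} (h1 : 1 ≤ Λ)
    (h3 : Hs 1 hi ≤ Λ) :
    ∑ z ∈ TT V n, ∑ w ∈ TT V n, (if 0 < ds z w ∧ ds z w ≤ hi then FF V ρ z w else 0) ≤
      2 ^ 24 * (Λ * (((n : ℝ) + 1) / ρ) ^ 2) / (V.r : ℝ) ^ 2 := by
  have h0 : (1 : ℝ) ≤ ρ := by exact_mod_cast hρ
  have hr0 : (0 : ℝ) < V.r := by exact_mod_cast hr
  have hp := ph_pos (show (0 : ℝ) < n + 1 by positivity)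
  refine (pairs hρ hr n 0 hi (μ := n + 1) (by positivity) fun l hl => by
    exact_mod_cast (show min l V.r ≤ n + 1 by omega)).trans ?_
  have a1 := SA_le' (V := V) hρ hr n
  have a2 := G_le' (V := V) hρ n
  set x := ((n : ℝ) + 1) / ρ with hx
  have hx0 : 0 ≤ x := by positivity
  have a3 : ∑ w ∈ TT V n, (ph (n + 1) + ph (1 + V.d w)) * gg ρ (V.d w) ≤
      ph (n + 1) * (32 * x / ph (n + 1)) + 16 * x := by
    simp only [add_mul, sum_add_distrib, ← mul_sum]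
    exact add_le_add (by gcongr) ((G'_le hρ n).trans (by gcongr; exact Hs_le' (by linarith) n))
  have a4 : 0 ≤ ∑ w ∈ TT V n, (ph (n + 1) + ph (1 + V.d w)) * gg ρ (V.d w) :=
    sum_nonneg fun w _ => mul_nonneg (add_nonneg hp.le (ph_nonneg (by positivity))) (gg_nonneg _)
  have a5 := Hs_nonneg one_pos hi
  rw [Nat.cast_zero, zero_add]
  calc _ ≤ 2 * (256 * x ^ 2 / (V.r : ℝ) ^ 2 * (32 * Λ) + 4096 * ph (n + 1) / (V.r : ℝ) ^ 2 *
        (32 * x / ph (n + 1) * (ph (n + 1) * (32 * x / ph (n + 1)) + 16 * x))) := by gcongr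
    _ = (16384 * Λ + 8192 * 1536) * x ^ 2 / (V.r : ℝ) ^ 2 := by field_simp; ring
    _ ≤ (2 ^ 24 * Λ) * x ^ 2 / (V.r : ℝ) ^ 2 := by gcongr; linarith
    _ = _ := by ring

/-- the sum of the majorant of the sum rule -/
theorem nb_sum (hr : 1 ≤ V.r) {S : ℕ} (hS : V.r ≤ S) :
    ∑ z ∈ bl V.p S, nb V z S ≤ 256 * (((S : ℝ) + 1) / V.r) := by
  have hr0 : (0 : ℝ) < V.r := by exact_mod_cast hr
  have hS0 : (V.r : ℝ) ≤ S := by exact_mod_cast hS
  have hq := ph_pos hr0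
  have hp := ph_pos (show (0 : ℝ) < S + 1 by positivity)
  have h1 : ∀ z ∈ TT V S, nb V z S ≤
      8 * (ph V.r / V.r) * (1 / ((1 + (V.d z : ℝ)) * ph (1 + V.d z))) := fun z hz => by
    have := nbB (V := V) (z := z) (hr.trans hS) hr (by rw [mem_TT] at hz; omega)
    rw [min_eq_right hS] at this
    have h2 := ph_anti hr0 (show (V.r : ℝ) ≤ V.r + V.d z by linarith [Nat.cast_nonneg (α := ℝ) (V.d z)])
    have h3 := ph_pos (show (0 : ℝ) < 1 + V.d z by positivity)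
    calc _ ≤ _ := this
      _ ≤ 8 * (1 / ((1 + (V.d z : ℝ)) * ph (1 + V.d z))) * (ph V.r / V.r) := by gcongr
      _ = _ := by ring
  have h2 := sumT V S (f := fun d => 1 / ((1 + (d : ℝ)) * ph (1 + d))) fun a => by
    have := ph_pos (show (0 : ℝ) < 1 + a by positivity)
    positivity
  have h3 : ∑ a ∈ range (S + 1), (1 + (a : ℝ)) * (1 / ((1 + (a : ℝ)) * ph (1 + a))) =
      ∑ a ∈ range (S + 1), 1 / ph (1 + a) := sum_congr rfl fun a _ => by
    have := ph_pos (show (0 : ℝ) < 1 + a by positivity)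
    field_simp
  have h4 := sum_ph (S + 1)
  push_cast at h4
  rw [h3] at h2
  calc _ ≤ ∑ z ∈ TT V S, nb V z S :=
        sum_le_sum_of_subset_of_nonneg subset_union_left fun z _ _ => nb_nonneg V z S
    _ ≤ _ := sum_le_sum h1
    _ ≤ 8 * (ph V.r / V.r) * (16 * (2 * (S + 1) / ph (S + 1))) := by
        rw [← mul_sum]; gcongr; exact h2.trans (by gcongr)
    _ ≤ 8 * (ph V.r / V.r) * (16 * (2 * (S + 1) / ph V.r)) := by
        gcongr; exact ph_mono hr0.le (by linarith)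
    _ = _ := by field_simp; ring

end Crest.Agent.T145.Vx.Lb36
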