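import Crest.Agent.T145.VxLbA_36
import Crest.Agent.T145.PotHa_91

/-!
# Row 145, twisted module: the deterministic part of Lemma B (helper36)
-/

set_option autoImplicit false

namespace Crest.Agent.T145.Vx.Lb36

open Finset

/-- linear part -/
noncomputable def Lp (u : Pt → ℝ) (z x : Pt) : ℝ := (x.1 : ℝ) * df 0 u z + (x.2 : ℝ) * df 1 u z

theorem tay {u : Pt → ℝ} {z x : Pt} {l : ℕ} (hx : x ∈ bl 0 l) {K : ℝ}
    (h : ∀ y ∈ bl z l, ∀ i j, |df j (df i u) y| ≤ K) :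
    |u (z + x) - u z - Lp u z x| ≤ 4 * (l : ℝ) ^ 2 * K := by
  have key : ∀ i, ∀ y ∈ bl 0 l, |df i u (z + y) - df i u z| ≤ 2 * l * K := fun i y hy =>
    Pot.Ha91.tay1 hy fun w hw =>
      ⟨h _ (Pot.Ha91.add_mem_bl.2 hw) i 0, h _ (Pot.Ha91.add_mem_bl.2 hw) i 1⟩
  have := Pot.Ha91.tay1 (z := 0) (u := fun y => u (z + y) - Lp u z y) hx (K := 2 * l * K)
    fun y hy => ⟨by
      convert key 0 y hy using 2
      simp only [Pot.dif, Lp, df, ev, zero_add, add_assoc, Prod.fst_add, Prod.snd_add,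
        Matrix.cons_val_zero]
      push_cast; ring, by
      convert key 1 y hy using 2
      simp only [Pot.dif, Lp, df, ev, zero_add, add_assoc, Prod.fst_add, Prod.snd_add,
        Matrix.cons_val_one, Matrix.cons_val_zero]
      push_cast; ring⟩
  convert this using 1
  · simp only [Lp, zero_add, add_zero, Prod.fst_zero, Prod.snd_zero]; push_cast; ring_nf
  · ring

theorem sum_shift (z : Pt) (n : ℕ) (f : Pt → ℝ) : ∑ w ∈ bl z n, f w = ∑ x ∈ bl 0 n, f (z + x) :=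
  (sum_equiv (Equiv.addLeft z) (fun _ => Pot.Ha91.add_mem_bl.symm) fun _ _ => rfl).symm

section dip
variable {p : Pt} {ρ : ℕ} {A : ℝ} {u : Pt → ℝ}

theorem A_nonneg (h : Dip p ρ A u) (hρ : 1 ≤ ρ) : 0 ≤ A :=
  nonneg_of_mul_nonneg_left ((abs_nonneg _).trans (h.b0 p)) (al_pos hρ p p)

theorem dip_dif (h : Dip p ρ A u) (hρ : 1 ≤ ρ) (z : Pt) {x : Pt} (hx : ds x 0 ≤ ρ) :
    |u (z + x) - u z| ≤ 2 * A * ds x 0 * al p ρ z ^ 2 := by
  have h1 := h.b1 z (z + x)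
  have h2 := al_near hρ p (z := z) (y := z + x) (by rwa [ds_add])
  have h3 := A_nonneg h hρ
  have h4 := al_pos hρ p z
  rw [abs_sub_comm, ds_add] at h1
  calc _ ≤ _ := h1
    _ ≤ A * ds x 0 * al p ρ z * (2 * al p ρ z) := by gcongr
    _ = _ := by ring

theorem dip_df (h : Dip p ρ A u) (hρ : 1 ≤ ρ) (z : Pt) (i : Fin 2) :
    |df i u z| ≤ 2 * A * al p ρ z ^ 2 := by
  have h1 : ds (ev i) 0 = 1 := by fin_cases i <;> rfl
  have := dip_dif h hρ z (x := ev i) (by omega)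
  rwa [h1, Nat.cast_one, mul_one] at this

theorem dip_tay (h : Dip p ρ A u) (hρ : 1 ≤ ρ) (z : Pt) {x : Pt} (hx : ds x 0 ≤ ρ) :
    |u (z + x) - u z - Lp u z x| ≤ 16 * A * (ds x 0 : ℝ) ^ 2 * al p ρ z ^ 2 / ρ := by
  have h3 := A_nonneg h hρ
  have := tay (u := u) (z := z) (mem_bl_ds.2 (le_refl (ds x 0))) (K := A * (2 * al p ρ z) ^ 2 / ρ)
    fun y hy i j => (h.b2 i j y).trans (by
      have h2 := al_near hρ p (z := z) (y := y) (by rw [ds_comm]; exact (mem_bl_ds.1 hy).trans hx)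
      have h4 := al_pos hρ p y
      gcongr)
  exact this.trans_eq (by ring)

theorem dip_Lp (h : Dip p ρ A u) (hρ : 1 ≤ ρ) (z x : Pt) :
    |Lp u z x| ≤ 4 * A * ds x 0 * al p ρ z ^ 2 := by
  have h0 := mem_bl_abs.1 (mem_bl_ds.2 (le_refl (ds x 0)))
  simp only [Prod.fst_zero, Prod.snd_zero, sub_zero] at h0
  have h1 : |(x.1 : ℝ)| ≤ ds x 0 := by exact_mod_cast h0.1
  have h2 : |(x.2 : ℝ)| ≤ ds x 0 := by exact_mod_cast h0.2
  have h3 := dip_df h hρ z 0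
  have h4 := dip_df h hρ z 1
  calc _ ≤ _ := abs_add_le _ _
    _ ≤ ds x 0 * (2 * A * al p ρ z ^ 2) + ds x 0 * (2 * A * al p ρ z ^ 2) := by
        rw [abs_mul, abs_mul]; gcongr
    _ = _ := by ring

end dip

/-- the product of the increments -/
def DD (u u' : Pt → ℝ) (z w : Pt) : ℝ := (u z - u w) * (u' z - u' w)

variable {V : Vp} {ρ : ℕ} {A A' : ℝ} {u u' : Pt → ℝ}

theorem abs_DD (hu : Dip V.p ρ A u) (hu' : Dip V.q ρ A' u') (hρ : 1 ≤ ρ) (hr : 1 ≤ V.r) (z w : Pt) :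
    |DD u u' z w| ≤ A * A' * ((ds z w : ℝ) ^ 2 * (ab V ρ (V.d z) * ab V ρ (V.d w))) := by
  have h1 := A_nonneg hu hρ
  have h2 := A_nonneg hu' hρ
  have h3 := al_pos hρ V.p z
  have h4 := al_pos hρ V.p w
  have h5 := al_pos hρ V.q z
  have h6 := al_pos hρ V.q w
  have h7 := ab_nonneg (V := V) (ρ := ρ) (V.d z)
  rw [DD, abs_mul]
  calc _ ≤ (A * ds z w * al V.p ρ z * al V.p ρ w) * (A' * ds z w * al V.q ρ z * al V.q ρ w) := by
        gcongr
        exacts [hu.b1 z w, hu'.b1 z w]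
    _ = A * A' * ((ds z w : ℝ) ^ 2 * (al V.p ρ z * al V.q ρ z * (al V.p ρ w * al V.q ρ w))) := by ring
    _ ≤ _ := by gcongr <;> exact al_mul hρ hr _

theorem abs_DK (hu : Dip V.p ρ A u) (hu' : Dip V.q ρ A' u') (hρ : 1 ≤ ρ) (hr : 1 ≤ V.r) {z w : Pt}
    {k C : ℝ} (hk : |k| ≤ C * (nb V z (ds z w) * nb V w (ds z w))) :
    |DD u u' z w * k| ≤ A * A' * C * FF V ρ z w := by
  have h1 := abs_DD hu hu' hρ hr z w
  rw [abs_mul]
  calc _ ≤ A * A' * ((ds z w : ℝ) ^ 2 * (ab V ρ (V.d z) * ab V ρ (V.d w))) *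
        (C * (nb V z (ds z w) * nb V w (ds z w))) :=
        mul_le_mul h1 hk (abs_nonneg _) ((abs_nonneg _).trans h1)
    _ = _ := by rw [FF]; ring

theorem FF_nonneg (z w : Pt) : 0 ≤ FF V ρ z w := by
  have := ab_nonneg (V := V) (ρ := ρ) (V.d z)
  have := ab_nonneg (V := V) (ρ := ρ) (V.d w)
  have := nb_nonneg V z (ds z w)
  have := nb_nonneg V w (ds z w)
  rw [FF]; positivity

theorem abs_dfdf (hu : Dip V.p ρ A u) (hu' : Dip V.q ρ A' u') (hρ : 1 ≤ ρ) (hr : 1 ≤ V.r) (z : Pt)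
    (i j : Fin 2) : |df i u z * df j u' z| ≤ 4 * (A * A' * ab V ρ (V.d z) ^ 2) := by
  have h1 := A_nonneg hu hρ
  have h2 := A_nonneg hu' hρ
  have h3 := al_pos hρ V.p z
  have h5 := al_pos hρ V.q z
  rw [abs_mul]
  calc _ ≤ (2 * A * al V.p ρ z ^ 2) * (2 * A' * al V.q ρ z ^ 2) := by
        gcongr
        exacts [dip_df hu hρ z i, dip_df hu' hρ z j]
    _ = 4 * (A * A' * (al V.p ρ z * al V.q ρ z) ^ 2) := by ring
    _ ≤ _ := by gcongr; exact al_mul hρ hr _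

set_option maxHeartbeats 800000 in
/-- the local computation away from the cores -/
theorem bulk (hu : Dip V.p ρ A u) (hu' : Dip V.q ρ A' u') (hρ : 1 ≤ ρ) (hr : 1 ≤ V.r) {k k0 : Pt → ℝ}
    (z : Pt) {n : ℕ} (hn : n ≤ ρ) {C ε εI g g₂ : ℝ} (hC : 0 ≤ C) (hε : 0 ≤ ε)
    (hN : ∀ x ∈ bl 0 n, x ≠ 0 → |k x - k0 x| ≤ ε / (ds x 0 : ℝ) ^ 4)
    (h0 : ∀ x ∈ bl 0 n, x ≠ 0 → |k0 x| ≤ C / (ds x 0 : ℝ) ^ 4)
    (hI : ∀ i j : Fin 2, |-(1 / 2) * ∑ x ∈ bl 0 n, k0 x * (co i x * co j x) -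
      (if i = j then g₂ else 0)| ≤ εI) :
    |-(1 / 2) * ∑ x ∈ bl 0 n, DD u u' z (z + x) * k x - g * ∑ i, df i u z * df i u' z| ≤
      A * A' * ab V ρ (V.d z) ^ 2 *
        (64 * ε * Hs 1 n + 768 * C * ((n + 1) / ρ) + 16 * εI + 8 * |g₂ - g|) := by
  have hA := A_nonneg hu hρ
  have hA' := A_nonneg hu' hρ
  have ha := al_pos hρ V.p z
  have ha' := al_pos hρ V.q z
  have hρ0 : (0 : ℝ) < ρ := by exact_mod_cast hρ
  have hs : (al V.p ρ z * al V.q ρ z) ^ 2 ≤ ab V ρ (V.d z) ^ 2 := by gcongr; exact al_mul hρ hr _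
  set s := A * A' * ab V ρ (V.d z) ^ 2 with hs'
  have hs0 : 0 ≤ s := by positivity
  have t12 : ∀ x ∈ bl 0 n, |DD u u' z (z + x) * k x - Lp u z x * Lp u' z x * k0 x| ≤
      4 * s * ε * (if 0 < ds x 0 then 1 / (ds x 0 : ℝ) ^ 2 else 0) +
        96 * s * C / ρ * (if 0 < ds x 0 then 1 / (ds x 0 : ℝ) else 0) := fun x hx => by
    rcases eq_or_ne x 0 with rfl | hx0
    · simp [DD, Lp, ds_self]
    have hl : 0 < ds x 0 := ds_pos hx0
    have hl0 : (0 : ℝ) < ds x 0 := by exact_mod_cast hl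
    have hlρ : ds x 0 ≤ ρ := (mem_bl_ds.1 hx).trans hn
    rw [if_pos hl, if_pos hl]
    have a1 := dip_dif hu hρ z hlρ
    have a2 := dip_dif hu' hρ z hlρ
    have a3 := dip_tay hu hρ z hlρ
    have a4 := dip_tay hu' hρ z hlρ
    have a5 := dip_Lp hu hρ z x
    have e : DD u u' z (z + x) * k x - Lp u z x * Lp u' z x * k0 x =
        (u (z + x) - u z) * (u' (z + x) - u' z) * (k x - k0 x) +
          ((u (z + x) - u z - Lp u z x) * (u' (z + x) - u' z) +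
            Lp u z x * (u' (z + x) - u' z - Lp u' z x)) * k0 x := by rw [DD]; ring
    rw [e]
    refine (abs_add_le _ _).trans (add_le_add ?_ ?_)
    · rw [abs_mul, abs_mul]
      calc _ ≤ (2 * A * ds x 0 * al V.p ρ z ^ 2) * (2 * A' * ds x 0 * al V.q ρ z ^ 2) *
            (ε / (ds x 0 : ℝ) ^ 4) := by gcongr; exact hN x hx hx0
        _ = 4 * (A * A' * (al V.p ρ z * al V.q ρ z) ^ 2) * ε * (1 / (ds x 0 : ℝ) ^ 2) := by
            field_simp; ring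
        _ ≤ _ := by rw [hs']; gcongr
    · rw [abs_mul]
      calc _ ≤ (16 * A * (ds x 0 : ℝ) ^ 2 * al V.p ρ z ^ 2 / ρ * (2 * A' * ds x 0 * al V.q ρ z ^ 2) +
            4 * A * ds x 0 * al V.p ρ z ^ 2 * (16 * A' * (ds x 0 : ℝ) ^ 2 * al V.q ρ z ^ 2 / ρ)) *
            (C / (ds x 0 : ℝ) ^ 4) := by
            gcongr
            · refine (abs_add_le _ _).trans ?_
              rw [abs_mul, abs_mul]; gcongr
            · exact h0 x hx hx0
        _ = 96 * (A * A' * (al V.p ρ z * al V.q ρ z) ^ 2) * C / ρ * (1 / (ds x 0 : ℝ)) := by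
            field_simp; ring
        _ ≤ _ := by rw [hs']; gcongr
  have s1 := sum_inv_sq 0 0 n
  have s2 := sum_inv_one 0 n
  rw [Nat.cast_zero, zero_add] at s1
  have t3 : |∑ x ∈ bl 0 n, DD u u' z (z + x) * k x - ∑ x ∈ bl 0 n, Lp u z x * Lp u' z x * k0 x| ≤
      4 * s * ε * (32 * Hs 1 n) + 96 * s * C / ρ * (16 * (n + 1)) := by
    rw [← sum_sub_distrib]
    refine (abs_sum_le_sum_abs _ _).trans ((sum_le_sum t12).trans ?_)
    rw [sum_add_distrib, ← mul_sum, ← mul_sum]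
    gcongr
  set M : Fin 2 → Fin 2 → ℝ := fun i j => -(1 / 2) * ∑ x ∈ bl 0 n, k0 x * (co i x * co j x) with hM
  have t4 : -(1 / 2) * ∑ x ∈ bl 0 n, Lp u z x * Lp u' z x * k0 x =
      df 0 u z * df 0 u' z * M 0 0 + df 0 u z * df 1 u' z * M 0 1 + df 1 u z * df 0 u' z * M 1 0 +
        df 1 u z * df 1 u' z * M 1 1 := by
    simp only [hM, mul_sum, ← sum_add_distrib]
    refine sum_congr rfl fun x _ => ?_
    simp only [Lp, co, Matrix.cons_val_zero, Matrix.cons_val_one]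
    ring
  have i00 : |M 0 0 - g₂| ≤ εI := by have := hI 0 0; rwa [if_pos rfl] at this
  have i01 : |M 0 1| ≤ εI := by have := hI 0 1; rwa [if_neg (by decide), sub_zero] at this
  have i10 : |M 1 0| ≤ εI := by have := hI 1 0; rwa [if_neg (by decide), sub_zero] at this
  have i11 : |M 1 1 - g₂| ≤ εI := by have := hI 1 1; rwa [if_pos rfl] at this
  have b : ∀ (i j : Fin 2) {y e : ℝ}, |y| ≤ e → |df i u z * df j u' z * y| ≤ 4 * s * e :=
    fun i j y e hy => by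
      rw [abs_mul]
      exact mul_le_mul (abs_dfdf hu hu' hρ hr z i j) hy (abs_nonneg _) (by positivity)
  have b00 := abs_le.1 (b 0 0 i00)
  have b01 := abs_le.1 (b 0 1 i01)
  have b10 := abs_le.1 (b 1 0 i10)
  have b11 := abs_le.1 (b 1 1 i11)
  have c0 := abs_le.1 (b 0 0 (le_refl |g₂ - g|))
  have c1 := abs_le.1 (b 1 1 (le_refl |g₂ - g|))
  have t3' := abs_le.1 t3
  have e2 : s * (64 * ε * Hs 1 n + 768 * C * ((n + 1) / ρ) + 16 * εI + 8 * |g₂ - g|) =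
      1 / 2 * (4 * s * ε * (32 * Hs 1 n) + 96 * s * C / ρ * (16 * (n + 1))) + 4 * (4 * s * εI) +
        2 * (4 * s * |g₂ - g|) := by ring
  rw [e2, Fin.sum_univ_two, abs_le]
  constructor <;> linarith [b00.1, b00.2, b01.1, b01.2, b10.1, b10.2, b11.1, b11.2, c0.1, c0.2, c1.1,
    c1.2, t3'.1, t3'.2]

/-- symmetrisation -/
theorem symm_id (B : Finset Pt) {χ : Pt → ℝ} {K : Pt → Pt → ℝ} (hK : ∀ z w, K z w = K w z)
    (h1 : ∀ z, χ z * u z = u z) (h2 : ∀ z, χ z * u' z = u' z) :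
    ∑ z ∈ B, ∑ w ∈ B, u z * u' w * K z w = ∑ z ∈ B, u z * u' z * ∑ w ∈ B, χ w * K z w -
      1 / 2 * ∑ z ∈ B, ∑ w ∈ B, χ z * χ w * (DD u u' z w * K z w) := by
  have e : ∀ z w, χ z * χ w * (DD u u' z w * K z w) =
      (u z * u' z * (χ w * K z w) - u z * u' w * K z w) +
        (u w * u' w * (χ z * K w z) - u w * u' z * K w z) := fun z w => by
    rw [hK w z]
    calc _ = ((χ z * u z) * u' z * χ w - (χ z * u z) * (χ w * u' w) - (χ w * u w) * (χ z * u' z) +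
          (χ w * u w) * u' w * χ z) * K z w := by rw [DD]; ring
      _ = _ := by rw [h1, h1, h2, h2]; ring
  simp only [e, sum_add_distrib]
  rw [sum_comm (f := fun z w => u w * u' w * (χ z * K w z) - u w * u' z * K w z)]
  simp only [sum_sub_distrib, mul_sum]
  ring

set_option maxHeartbeats 1600000 in
/-- Lemma B for abstract kernels -/
theorem det (hu : Dip V.p ρ A u) (hu' : Dip V.q ρ A' u') (hρ : 1 ≤ ρ) (hρr : ρ ≤ V.r) {S S' n₂ n₃ : ℕ}
    (hS : V.r ≤ S) (su : Sup (bl V.p S) u) (su' : Sup (bl V.p S) u') (hn : n₂ ≤ ρ)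
    (hS' : S + 2 * n₂ ≤ S') {χ : Pt → ℝ} (hχ : ∀ z ∈ bl V.p S', χ z = 1) (hχ' : ∀ z, |χ z| ≤ 1)
    {K K0 : Pt → Pt → ℝ} (hK : ∀ z w, K z w = K w z) {C C₂ ε εI εF g g₂ Λ Λ₀ : ℝ} (hC : 0 ≤ C)
    (hC₂ : 0 ≤ C₂) (hε : 0 ≤ ε) (hεI : 0 ≤ εI) (hεF : 0 ≤ εF)
    (hK1 : ∀ z ∈ bl V.p (2 * S'), ∀ w ∈ bl V.p (2 * S'), z ≠ w →
      |K z w| ≤ C * (nb V z (ds z w) * nb V w (ds z w)))
    (hK2 : ∀ z ∈ bl V.p (2 * S'), ∀ w ∈ bl V.p (2 * S'), n₂ < ds z w →
      |K z w| ≤ C₂ * (nb V z (ds z w) * nb V w (ds z w)))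
    (hN : ∀ z ∈ bl V.p S', n₃ < V.d z → ∀ x ∈ bl 0 n₂, x ≠ 0 →
      |K z (z + x) - K0 z (z + x)| ≤ ε / (ds x 0 : ℝ) ^ 4)
    (h0 : ∀ z ∈ bl V.p S', ∀ x ∈ bl 0 n₂, x ≠ 0 → |K0 z (z + x)| ≤ C / (ds x 0 : ℝ) ^ 4)
    (hI : ∀ z ∈ bl V.p S', ∀ i j : Fin 2,
      |-(1 / 2) * ∑ x ∈ bl 0 n₂, K0 z (z + x) * (co i x * co j x) - (if i = j then g₂ else 0)| ≤ εI)
    (hF : ∀ z ∈ bl V.p S, |∑ w ∈ bl V.p (2 * S'), χ w * K z w| ≤ εF * nb V z S)
    (hΛ : 1 ≤ Λ) (hΛ1 : Hs ρ (2 * S') ≤ Λ) (hΛ2 : Hs (n₂ + 1) (4 * S') ≤ Λ) (hΛ₀ : 1 ≤ Λ₀)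
    (hΛ3 : Hs 1 n₂ ≤ Λ₀) :
    |∑ z ∈ bl V.p (2 * S'), ∑ w ∈ bl V.p (2 * S'), u z * u' w * K z w -
      g * ∑ z ∈ bl V.p (S + n₂), ∑ i, df i u z * df i u' z| ≤
      A * A' * (256 * εF * ((S + 1) / V.r) * ((V.r : ℝ) / ρ) ^ 2 +
        2 ^ 24 * C₂ * ((ph V.r / ph ρ) ^ 2 * Λ ^ 2) +
        (2 ^ 23 * C * Λ₀ + 2048 * |g|) * ((((n₃ + n₂ : ℕ) : ℝ) + 1) / ρ) ^ 2 +
        256 * Λ * (64 * ε * Λ₀ + 768 * C * ((n₂ + 1) / ρ) + 16 * εI + 8 * |g₂ - g|)) /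
        (V.r : ℝ) ^ 2 := by
  have hr : 1 ≤ V.r := hρ.trans hρr
  have hA := A_nonneg hu hρ
  have hA' := A_nonneg hu' hρ
  have hρ0 : (0 : ℝ) < ρ := by exact_mod_cast hρ
  have hr0 : (0 : ℝ) < V.r := by exact_mod_cast hr
  set B := bl V.p (2 * S') with hB
  set B₁ := bl V.p (S + n₂) with hB₁
  have hSS : bl V.p S ⊆ bl V.p S' := bl_mono _ (by omega)
  have hB1 : B₁ ⊆ bl V.p S' := bl_mono _ (by omega)
  have hS'B : bl V.p S' ⊆ B := bl_mono _ (by omega)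
  have hχu : ∀ {v : Pt → ℝ}, Sup (bl V.p S) v → ∀ z, χ z * v z = v z := fun hv z => by
    by_cases hz : z ∈ bl V.p S
    · rw [hχ z (hSS hz), one_mul]
    · rw [hv z hz, mul_zero]
  rw [symm_id B hK (hχu su) (hχu su')]
  -- the sum rule
  have e1 : |∑ z ∈ B, u z * u' z * ∑ w ∈ B, χ w * K z w| ≤
      A * A' * (256 * εF * ((S + 1) / V.r) * ((V.r : ℝ) / ρ) ^ 2) / (V.r : ℝ) ^ 2 := by
    rw [← sum_subset (hSS.trans hS'B) fun z _ hz => by rw [su z hz, zero_mul, zero_mul]]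
    refine (abs_sum_le_sum_abs _ _).trans ?_
    calc _ ≤ ∑ z ∈ bl V.p S, A * (1 / ρ) * (A' * (1 / ρ)) * εF * nb V z S := sum_le_sum fun z hz => by
          rw [abs_mul, abs_mul, mul_assoc _ εF]
          gcongr
          · exact (hu.b0 z).trans (by gcongr; exact al_le hρ _ _)
          · exact (hu'.b0 z).trans (by gcongr; exact al_le hρ _ _)
          · exact hF z hz
      _ ≤ A * (1 / ρ) * (A' * (1 / ρ)) * εF * (256 * (((S : ℝ) + 1) / V.r)) := by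
          rw [← mul_sum]; gcongr; exact nb_sum hr hS
      _ = _ := by field_simp
  -- splitting of the pairs
  have e2 : ∑ z ∈ B, ∑ w ∈ B, χ z * χ w * (DD u u' z w * K z w) =
      ∑ z ∈ B, ∑ w ∈ B, (if n₂ < ds z w then χ z * χ w * (DD u u' z w * K z w) else 0) +
        ∑ z ∈ B₁, ∑ x ∈ bl 0 n₂, DD u u' z (z + x) * K z (z + x) := by
    have : ∑ z ∈ B₁, ∑ x ∈ bl 0 n₂, DD u u' z (z + x) * K z (z + x) =
        ∑ z ∈ B, ∑ w ∈ B, (if n₂ < ds z w then 0 else χ z * χ w * (DD u u' z w * K z w)) := by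
      rw [← sum_subset (hB1.trans hS'B) fun z _ hz => sum_eq_zero fun w _ => ?_]
      · refine sum_congr rfl fun z hz => ?_
        have hsub : bl z n₂ ⊆ bl V.p S' := bl_subset_bl hz (by omega)
        rw [← sum_shift z n₂ fun w => DD u u' z w * K z w,
          ← sum_subset (hsub.trans hS'B) fun w _ hw => if_pos (by
            rw [mem_bl_ds, ds_comm] at hw; omega)]
        refine sum_congr rfl fun w hw => ?_
        rw [if_neg (by rw [mem_bl_ds, ds_comm] at hw; omega), hχ z (hB1 hz), hχ w (hsub hw)]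
        ring
      · split_ifs with hc
        · rfl
        · have h1 := ds_tri z w V.p
          rw [hB₁, mem_bl_ds] at hz
          rw [DD, su z (by rw [mem_bl_ds]; omega), su w (by rw [mem_bl_ds]; omega)]
          ring
    rw [this, ← sum_add_distrib]
    refine sum_congr rfl fun z _ => ?_
    rw [← sum_add_distrib]
    refine sum_congr rfl fun w _ => ?_
    split_ifs <;> simp
  -- far pairs
  have hBT : B ⊆ TT V (2 * S') := subset_union_left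
  have e3 : |∑ z ∈ B, ∑ w ∈ B, (if n₂ < ds z w then χ z * χ w * (DD u u' z w * K z w) else 0)| ≤
      A * A' * C₂ * (2 ^ 25 * ((ph V.r / ph ρ) ^ 2 * Λ ^ 2) / (V.r : ℝ) ^ 2) := by
    have hnn : ∀ z w, 0 ≤ (if n₂ < ds z w ∧ ds z w ≤ 4 * S' then FF V ρ z w else 0) := fun z w => by
      split_ifs
      exacts [FF_nonneg z w, le_rfl]
    calc _ ≤ ∑ z ∈ B, ∑ w ∈ B, A * A' * C₂ *
          (if n₂ < ds z w ∧ ds z w ≤ 4 * S' then FF V ρ z w else 0) := by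
          refine (abs_sum_le_sum_abs _ _).trans (sum_le_sum fun z hz =>
            (abs_sum_le_sum_abs _ _).trans (sum_le_sum fun w hw => ?_))
          by_cases hc : n₂ < ds z w
          · have h1 := ds_tri z V.p w
            have h2 := mem_bl_ds.1 hz
            have h3 := mem_bl_ds.1 hw
            rw [ds_comm V.p w] at h1
            rw [if_pos hc, if_pos ⟨hc, by omega⟩, abs_mul, abs_mul]
            calc _ ≤ 1 * 1 * (A * A' * C₂ * FF V ρ z w) := by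
                  gcongr
                  exacts [hχ' z, hχ' w, abs_DK hu hu' hρ hr (hK2 z hz w hw hc)]
              _ = _ := by ring
          · rw [if_neg hc, if_neg fun h => hc h.1, abs_zero, mul_zero]
      _ ≤ A * A' * C₂ * ∑ z ∈ TT V (2 * S'), ∑ w ∈ TT V (2 * S'),
          (if n₂ < ds z w ∧ ds z w ≤ 4 * S' then FF V ρ z w else 0) := by
          simp only [← mul_sum]
          refine mul_le_mul_of_nonneg_left ?_ (by positivity)
          exact (sum_le_sum fun z _ => sum_le_sum_of_subset_of_nonneg hBT fun w _ _ => hnn z w).trans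
            (sum_le_sum_of_subset_of_nonneg hBT fun z _ _ => sum_nonneg fun w _ => hnn z w)
      _ ≤ _ := by gcongr; exact far_sum hρ hρr _ _ _ hΛ hΛ1 hΛ2
  -- close pairs
  set β := 64 * ε * Λ₀ + 768 * C * ((n₂ + 1) / ρ) + 16 * εI + 8 * |g₂ - g| with hβ
  have hβ0 : 0 ≤ β := by positivity
  set X : Pt → ℝ := fun z => 1 / 2 * (A * A' * C * ∑ w ∈ TT V (n₃ + n₂),
    (if 0 < ds z w ∧ ds z w ≤ n₂ then FF V ρ z w else 0)) + |g| * (8 * (A * A' * ab V ρ (V.d z) ^ 2))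
    with hX
  have hnn : ∀ z w, 0 ≤ (if 0 < ds z w ∧ ds z w ≤ n₂ then FF V ρ z w else 0) := fun z w => by
    split_ifs
    exacts [FF_nonneg z w, le_rfl]
  have hX0 : ∀ z, 0 ≤ X z := fun z => by
    have := sum_nonneg (s := TT V (n₃ + n₂)) fun w _ => hnn z w
    simp only [hX]; positivity
  have e4 : ∀ z ∈ B₁, |-(1 / 2) * ∑ x ∈ bl 0 n₂, DD u u' z (z + x) * K z (z + x) -
      g * ∑ i, df i u z * df i u' z| ≤
      (if V.d z ≤ n₃ then X z else 0) + A * A' * β * ab V ρ (V.d z) ^ 2 := fun z hz => by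
    split_ifs with hc
    · refine le_add_of_le_of_nonneg ((abs_sub _ _).trans (add_le_add ?_ ?_)) (by positivity)
      · have hsub : bl z n₂ ⊆ bl V.p S' := bl_subset_bl hz (by omega)
        have hsub' : bl z n₂ ⊆ TT V (n₃ + n₂) := fun w hw => by
          have := d_lip V z w
          rw [mem_bl_ds, ds_comm] at hw
          rw [mem_TT]; omega
        rw [abs_mul, abs_neg, abs_of_pos (by norm_num : (0 : ℝ) < 1 / 2),
          ← sum_shift z n₂ fun w => DD u u' z w * K z w, mul_sum]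
        gcongr
        refine (abs_sum_le_sum_abs _ _).trans (le_trans (sum_le_sum fun w hw => ?_)
          (sum_le_sum_of_subset_of_nonneg hsub' fun w _ _ => mul_nonneg (by positivity) (hnn z w)))
        rcases eq_or_ne z w with rfl | hzw
        · simp [DD, ds_self]
        · rw [if_pos ⟨ds_pos hzw, by rw [ds_comm]; exact mem_bl_ds.1 hw⟩]
          exact abs_DK hu hu' hρ hr (hK1 z (hS'B (hB1 hz)) w (hS'B (hsub hw)) hzw)
      · rw [abs_mul, Fin.sum_univ_two]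
        gcongr
        linarith [abs_add_le (df 0 u z * df 0 u' z) (df 1 u z * df 1 u' z),
          abs_dfdf hu hu' hρ hr z 0 0, abs_dfdf hu hu' hρ hr z 1 1]
    · rw [zero_add]
      refine (bulk hu hu' hρ hr z hn hC hε (hN z (hB1 hz) (not_le.1 hc)) (h0 z (hB1 hz))
        (hI z (hB1 hz))).trans ?_
      rw [mul_right_comm _ β, hβ]
      gcongr
  have e5 : |-(1 / 2) * ∑ z ∈ B₁, ∑ x ∈ bl 0 n₂, DD u u' z (z + x) * K z (z + x) -
      g * ∑ z ∈ B₁, ∑ i, df i u z * df i u' z| ≤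
      1 / 2 * (A * A' * C * (2 ^ 24 * (Λ₀ * ((((n₃ + n₂ : ℕ) : ℝ) + 1) / ρ) ^ 2) / (V.r : ℝ) ^ 2)) +
        |g| * (8 * (A * A' * (256 * ((((n₃ + n₂ : ℕ) : ℝ) + 1) / ρ) ^ 2 / (V.r : ℝ) ^ 2))) +
        A * A' * β * (256 * Λ / (V.r : ℝ) ^ 2) := by
    rw [mul_sum, mul_sum, ← sum_sub_distrib]
    refine (abs_sum_le_sum_abs _ _).trans ((sum_le_sum e4).trans ?_)
    rw [sum_add_distrib, ← sum_filter, ← mul_sum]
    refine add_le_add ?_ ?_
    · refine (sum_le_sum_of_subset_of_nonneg (t := TT V (n₃ + n₂)) (fun z hz => ?_)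
        fun z _ _ => hX0 z).trans ?_
      · have := (mem_filter.1 hz).2
        rw [mem_TT]; omega
      · simp only [hX, sum_add_distrib, ← mul_sum]
        gcongr
        exacts [core_sum hρ hr (by omega) hΛ₀ hΛ3, SA_le' hρ hr _]
    · gcongr
      refine (sum_le_sum_of_subset_of_nonneg (hB1.trans (hS'B.trans hBT))
        fun z _ _ => by positivity).trans ((SA_le hρ hr _).trans ?_)
      gcongr
  rw [e2]
  have f1 := abs_le.1 e1
  have f3 := abs_le.1 e3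
  have f5 := abs_le.1 e5
  have e6 : A * A' * (256 * εF * ((S + 1) / V.r) * ((V.r : ℝ) / ρ) ^ 2 +
        2 ^ 24 * C₂ * ((ph V.r / ph ρ) ^ 2 * Λ ^ 2) +
        (2 ^ 23 * C * Λ₀ + 2048 * |g|) * ((((n₃ + n₂ : ℕ) : ℝ) + 1) / ρ) ^ 2 + 256 * Λ * β) /
        (V.r : ℝ) ^ 2 =
      A * A' * (256 * εF * ((S + 1) / V.r) * ((V.r : ℝ) / ρ) ^ 2) / (V.r : ℝ) ^ 2 +
      1 / 2 * (A * A' * C₂ * (2 ^ 25 * ((ph V.r / ph ρ) ^ 2 * Λ ^ 2) / (V.r : ℝ) ^ 2)) +
      (1 / 2 * (A * A' * C * (2 ^ 24 * (Λ₀ * ((((n₃ + n₂ : ℕ) : ℝ) + 1) / ρ) ^ 2) / (V.r : ℝ) ^ 2)) +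
        |g| * (8 * (A * A' * (256 * ((((n₃ + n₂ : ℕ) : ℝ) + 1) / ρ) ^ 2 / (V.r : ℝ) ^ 2))) +
        A * A' * β * (256 * Λ / (V.r : ℝ) ^ 2)) := by ring
  rw [e6, abs_le]
  constructor <;> linarith [f1.1, f1.2, f3.1, f3.2, f5.1, f5.2]

end Crest.Agent.T145.Vx.Lb36
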