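import Crest.Agent.T145.VxLa_27

/-!
# Row 145, twisted module: the deterministic Lemma B with a site dependent kernel (helper27)
-/

set_option autoImplicit false

namespace Crest.Agent.T145.Vx.Lb27

open Finset Vb27 Pot

/-- size of the gradient -/
noncomputable def G1 (u : Pt → ℝ) (z : Pt) : ℝ := |df 0 u z| + |df 1 u z|

/-- the second moments of `k` are `-2 g δ` up to `2 η` -/
def Mom (k : Pt → ℝ) (l : ℕ) (g η : ℝ) : Prop := ∀ i j : Fin 2,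
  |-(1 / 2) * ∑ x ∈ bl 0 l, k x * (co i x * co j x) - (if i = j then g else 0)| ≤ η

theorem near2 {u u' : Pt → ℝ} {K L K' L' g η : ℝ} (hu : Sm2 u K L) (hu' : Sm2 u' K' L') {k : Pt → ℝ}
    {l : ℕ} (hk : Mom k l g η) (z : Pt) :
    |∑ x ∈ bl 0 l, Vb27.Ph u u' z (z + x) * k x + 2 * g * gg u u' z| ≤
      8 * l * (K / L ^ 2 * (K' / L') + K / L * (K' / L' ^ 2)) * ∑ x ∈ bl 0 l, |k x| * n2 x +
        2 * η * (G1 u z * G1 u' z) := by
  have e1 : |∑ x ∈ bl 0 l, Vb27.Ph u u' z (z + x) * k x - ∑ x ∈ bl 0 l,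
      (df 0 u z * x.1 + df 1 u z * x.2) * (df 0 u' z * x.1 + df 1 u' z * x.2) * k x| ≤
      8 * l * (K / L ^ 2 * (K' / L') + K / L * (K' / L' ^ 2)) * ∑ x ∈ bl 0 l, |k x| * n2 x := by
    rw [← sum_sub_distrib, mul_sum]
    refine (abs_sum_le_sum_abs _ _).trans (sum_le_sum fun x hx => ?_)
    obtain ⟨a1, a2, -⟩ := tay hu z hx
    obtain ⟨b1, -, b3⟩ := tay hu' z hx
    set p := df 0 u z * x.1 + df 1 u z * x.2
    set p' := df 0 u' z * x.1 + df 1 u' z * x.2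
    have e2 : Vb27.Ph u u' z (z + x) * k x - p * p' * k x =
        ((u (z + x) - u z - p) * (u' (z + x) - u' z) + p * (u' (z + x) - u' z - p')) * k x := by
      unfold Vb27.Ph; ring
    rw [e2, abs_mul, n2_eq]
    have c1 := mul_le_mul a1 b3 (abs_nonneg _) ((abs_nonneg _).trans a1)
    have c2 := mul_le_mul a2 b1 (abs_nonneg _) ((abs_nonneg _).trans a2)
    have c3 := abs_add_le ((u (z + x) - u z - p) * (u' (z + x) - u' z)) (p * (u' (z + x) - u' z - p'))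
    rw [abs_mul, abs_mul] at c3
    refine (mul_le_mul_of_nonneg_right (c3.trans (add_le_add c1 c2)) (abs_nonneg _)).trans (le_of_eq ?_)
    ring
  set m : Fin 2 → Fin 2 → ℝ := fun i j =>
    -(1 / 2) * ∑ x ∈ bl 0 l, k x * (co i x * co j x) - (if i = j then g else 0) with hm
  have e2 : ∑ x ∈ bl 0 l, (df 0 u z * x.1 + df 1 u z * x.2) * (df 0 u' z * x.1 + df 1 u' z * x.2) * k x +
      2 * g * gg u u' z = -2 * (df 0 u z * df 0 u' z * m 0 0 + df 0 u z * df 1 u' z * m 0 1 +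
        df 1 u z * df 0 u' z * m 1 0 + df 1 u z * df 1 u' z * m 1 1) := by
    have : ∀ x : Pt, (df 0 u z * x.1 + df 1 u z * x.2) * (df 0 u' z * x.1 + df 1 u' z * x.2) * k x =
        df 0 u z * df 0 u' z * (k x * (co 0 x * co 0 x)) + df 0 u z * df 1 u' z * (k x * (co 0 x * co 1 x)) +
          df 1 u z * df 0 u' z * (k x * (co 1 x * co 0 x)) +
            df 1 u z * df 1 u' z * (k x * (co 1 x * co 1 x)) := fun x => by simp [co]; ring
    simp only [this, sum_add_distrib, ← mul_sum, gg, hm]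
    simp; ring
  have t : ∀ i j, |df i u z * df j u' z * m i j| ≤ |df i u z| * |df j u' z| * η := fun i j => by
    rw [abs_mul, abs_mul]; exact mul_le_mul_of_nonneg_left (hk i j) (by positivity)
  obtain ⟨a1, a2⟩ := abs_le.1 e1
  obtain ⟨b1, b2⟩ := abs_le.1 (t 0 0)
  obtain ⟨c1, c2⟩ := abs_le.1 (t 0 1)
  obtain ⟨d1, d2⟩ := abs_le.1 (t 1 0)
  obtain ⟨f1, f2⟩ := abs_le.1 (t 1 1)
  rw [abs_le, G1, G1]
  constructor <;> linarith

theorem master2 {D S : Finset Pt} {l : ℕ} {χ u u' : Pt → ℝ} {c k : Pt → Pt → ℝ}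
    {K L K' L' E₀ E₁ g η H : ℝ} (hc : ∀ z w, c z w = c w z) (hSD : S ⊆ D)
    (hS : ∀ z ∈ S, ∀ w ∈ bl z l, w ∈ D ∧ χ w = 1)
    (hS' : ∀ z ∈ D, z ∉ S → ∀ w ∈ bl z l, Vb27.Ph u u' z w = 0) (hu : Sm2 u K L) (hu' : Sm2 u' K' L')
    (hk : ∀ z ∈ S, Mom (k z) l g η) (hH : ∀ z ∈ S, ∑ x ∈ bl 0 l, |k z x| * n2 x ≤ H)
    (h0 : |∑ z ∈ D, ∑ w ∈ D \ bl z l, χ z * χ w * Vb27.Ph u u' z w * c z w| ≤ E₀)
    (hE : ∑ z ∈ S, ∑ x ∈ bl 0 l, |c z (z + x) - k z x| * n2 x ≤ E₁) :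
    |∑ z ∈ D, ∑ w ∈ D, χ z * u z * (χ w * u' w) * c z w - g * ∑ z ∈ S, gg u u' z| ≤
      |∑ z ∈ D, ∑ w ∈ D, χ z * u z * u' z * χ w * c z w| + E₀ / 2 + 2 * (K / L * (K' / L')) * E₁ +
        4 * l * (K / L ^ 2 * (K' / L') + K / L * (K' / L' ^ 2)) * S.card * H +
          η * ∑ z ∈ S, G1 u z * G1 u' z := by
  have e1 : ∑ z ∈ D, ∑ w ∈ D, χ z * χ w * Vb27.Ph u u' z w * c z w =
      ∑ z ∈ D, ∑ w ∈ D \ bl z l, χ z * χ w * Vb27.Ph u u' z w * c z w +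
        ∑ z ∈ S, ∑ x ∈ bl 0 l, Vb27.Ph u u' z (z + x) * c z (z + x) := by
    have a1 : ∀ z ∈ D, ∑ w ∈ D, χ z * χ w * Vb27.Ph u u' z w * c z w =
        ∑ w ∈ D \ bl z l, χ z * χ w * Vb27.Ph u u' z w * c z w +
          ∑ w ∈ D ∩ bl z l, χ z * χ w * Vb27.Ph u u' z w * c z w := fun z _ => by
      rw [← sum_sdiff (inter_subset_left (s₁ := D) (s₂ := bl z l)), sdiff_inter_self_left]
    rw [sum_congr rfl a1, sum_add_distrib]
    congr 1
    rw [← sum_subset hSD fun z hz hz' => sum_eq_zero fun w hw => by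
      rw [hS' z hz hz' w (mem_inter.1 hw).2]; ring]
    refine sum_congr rfl fun z hz => ?_
    rw [inter_eq_right.2 fun w hw => (hS z hz w hw).1,
      ← sum_bl_shift z l fun w => Vb27.Ph u u' z w * c z w]
    exact sum_congr rfl fun w hw => by
      rw [(hS z hz w hw).2, (hS z hz z (self_mem_bl z l)).2]; ring
  have k1 : 0 ≤ K / L := (abs_nonneg _).trans (hu.1 0 0)
  have k1' : 0 ≤ K' / L' := (abs_nonneg _).trans (hu'.1 0 0)
  have k2 : 0 ≤ K / L ^ 2 := (abs_nonneg _).trans (hu.2 0 0 0)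
  have k2' : 0 ≤ K' / L' ^ 2 := (abs_nonneg _).trans (hu'.2 0 0 0)
  have e2 : |∑ z ∈ S, ∑ x ∈ bl 0 l, Vb27.Ph u u' z (z + x) * c z (z + x) -
      ∑ z ∈ S, ∑ x ∈ bl 0 l, Vb27.Ph u u' z (z + x) * k z x| ≤ 4 * (K / L * (K' / L')) * E₁ := by
    refine le_trans ?_ (mul_le_mul_of_nonneg_left hE (by positivity))
    rw [← sum_sub_distrib, mul_sum]
    refine (abs_sum_le_sum_abs _ _).trans (sum_le_sum fun z _ => ?_)
    rw [← sum_sub_distrib, mul_sum]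
    refine (abs_sum_le_sum_abs _ _).trans (sum_le_sum fun x _ => ?_)
    rw [← mul_sub, abs_mul]
    refine (mul_le_mul_of_nonneg_right (abs_Ph_le hu hu' z x) (abs_nonneg _)).trans (le_of_eq ?_)
    ring
  have e3 : |∑ z ∈ S, ∑ x ∈ bl 0 l, Vb27.Ph u u' z (z + x) * k z x + 2 * g * ∑ z ∈ S, gg u u' z| ≤
      S.card * (8 * l * (K / L ^ 2 * (K' / L') + K / L * (K' / L' ^ 2)) * H) +
        2 * η * ∑ z ∈ S, G1 u z * G1 u' z := by
    rw [mul_sum, ← sum_add_distrib, ← nsmul_eq_mul, ← sum_const, mul_sum, ← sum_add_distrib]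
    exact (abs_sum_le_sum_abs _ _).trans (sum_le_sum fun z hz => (near2 hu hu' (hk z hz) z).trans
      (add_le_add (mul_le_mul_of_nonneg_left (hH z hz) (by positivity)) le_rfl))
  have e4 := alg D χ u u' c hc
  rw [e1] at e4
  obtain ⟨a1, a2⟩ := abs_le.1 h0
  obtain ⟨b1, b2⟩ := abs_le.1 e2
  obtain ⟨c1, c2⟩ := abs_le.1 e3
  have d1 := le_abs_self (∑ z ∈ D, ∑ w ∈ D, χ z * u z * u' z * χ w * c z w)
  have d2 := neg_abs_le (∑ z ∈ D, ∑ w ∈ D, χ z * u z * u' z * χ w * c z w)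
  rw [abs_le]
  constructor <;> linarith

/-- all near pairs -/
theorem nearE2 {V : Vp} {l l₁ : ℕ} {c k : Pt → Pt → ℝ} {K K₁ ε T : ℝ} {S : Finset Pt}
    (hl : 1 ≤ l) (hl₁ : l ≤ l₁) (hK : 0 ≤ K) (hK₁ : 0 ≤ K₁) (hε : 0 ≤ ε)
    (hT : 1 + Real.log (1 + (V.r + 2 * l₁ : ℕ)) ≤ T)
    (h : ∀ z w, V.d z ≤ l₁ → w ∈ bl z l → w ≠ z → |c z w| ≤ K * (nb V z (ds z w) * nb V w (ds z w)))
    (hB : bl V.p l₁ ∪ bl V.q l₁ ⊆ S)
    (hk : ∀ z ∈ S, ∀ x ∈ bl 0 l, x ≠ 0 → |k z x| ≤ K₁ / (sn x : ℝ) ^ 4)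
    (hg : ∀ z ∈ S, l₁ < V.d z → ∀ x ∈ bl 0 l, x ≠ 0 → |c z (z + x) - k z x| ≤ ε / (sn x : ℝ) ^ 4) :
    (∀ z ∈ S, ∑ x ∈ bl 0 l, |k z x| * n2 x ≤ 512 * K₁ * T) ∧
    ∑ z ∈ S, ∑ x ∈ bl 0 l, |c z (z + x) - k z x| * n2 x ≤
      512 * ε * T * S.card + (40000 * K * T ^ 2 + 9216 * K₁ * T) * (l₁ : ℝ) ^ 2 := by
  classical
  have s1 : ∑ x ∈ bl 0 l, n2 x / ((sn x : ℝ) + 1) ^ 4 ≤ 32 * T :=
    (sum_n2 l).trans (by linarith [log_mono (by omega : l ≤ V.r + 2 * l₁)])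
  have s2 : ∀ (f : Pt → ℝ) (e : ℝ), 0 ≤ e → (∀ x ∈ bl 0 l, x ≠ 0 → |f x| ≤ e / (sn x : ℝ) ^ 4) →
      ∑ x ∈ bl 0 l, |f x| * n2 x ≤ 512 * e * T := fun f e he hf => by
    refine le_trans (sum_le_sum fun x hx => ?_) ((le_of_eq (mul_sum _ _ (16 * e)).symm).trans
      ((mul_le_mul_of_nonneg_left s1 (by positivity)).trans (le_of_eq (by ring))))
    by_cases h0 : x = 0
    · simp [h0, n2]
    have x1 : (1 : ℝ) ≤ sn x := by
      exact_mod_cast (by rw [Prod.ext_iff] at h0; simp at h0; unfold sn; omega : 1 ≤ sn x)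
    refine (mul_le_mul_of_nonneg_right ((hf x hx h0).trans (?_ : _ ≤ 16 * e / ((sn x : ℝ) + 1) ^ 4))
      (n2_nonneg x)).trans (le_of_eq (by ring))
    rw [div_le_div_iff₀ (by positivity) (by positivity)]
    have := pow_le_pow_left₀ (by positivity) (by linarith : (sn x : ℝ) + 1 ≤ 2 * sn x) 4
    nlinarith [mul_le_mul_of_nonneg_left this he]
  have T0 : 0 ≤ T := by
    linarith [(sum_nonneg fun x _ => div_nonneg (n2_nonneg x) (by positivity)).trans s1]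
  refine ⟨fun z hz => s2 _ K₁ hK₁ (hk z hz), ?_⟩
  set Bd := bl V.p l₁ ∪ bl V.q l₁
  rw [← sum_filter_add_sum_filter_not S (fun z => l₁ < V.d z)]
  refine add_le_add ?_ ?_
  · refine (sum_le_card_nsmul _ _ _ fun z hz =>
      s2 _ ε hε (hg z (mem_filter.1 hz).1 (mem_filter.1 hz).2)).trans ?_
    rw [nsmul_eq_mul, mul_comm]
    exact mul_le_mul_of_nonneg_left (by exact_mod_cast card_filter_le _ _) (by positivity)
  · have sub : S.filter (fun z => ¬ l₁ < V.d z) ⊆ Bd := fun z hz => by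
      have := (mem_filter.1 hz).2
      rw [mem_union, mem_bl_sn, mem_bl_sn]
      rw [d_eq] at this
      rcases dd_cases V.p V.q z with k | k <;> omega
    have l1 : (1 : ℝ) ≤ l₁ := by exact_mod_cast hl.trans hl₁
    have cB : (Bd.card : ℝ) ≤ 18 * (l₁ : ℝ) ^ 2 := by
      have : Bd.card ≤ (2 * l₁ + 1) ^ 2 + (2 * l₁ + 1) ^ 2 :=
        (card_union_le _ _).trans (by rw [card_bl, card_bl])
      have h2 : (Bd.card : ℝ) ≤ (2 * l₁ + 1) ^ 2 + (2 * l₁ + 1) ^ 2 := by exact_mod_cast this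
      nlinarith
    have b1 := bad (a := V.p) (b := V.q) (c := c) (T := T) hl hl₁ hK (by rw [sn_qp]; exact hT) fun z w h1 h2 h3 => by
      refine (h z w h1 h2 h3).trans ?_
      rw [mul_assoc, sn_comm]
      exact mul_le_mul_of_nonneg_left (mul_le_mul (nb_le V z _) (nb_le V w _) (nb_nonneg _ _ _)
        (by positivity)) hK
    have b2 : ∑ z ∈ Bd, ∑ x ∈ bl 0 l, |k z x| * n2 x ≤ 18 * (l₁ : ℝ) ^ 2 * (512 * K₁ * T) := by
      refine (sum_le_card_nsmul _ _ _ fun z hz => s2 _ K₁ hK₁ (hk z (hB hz))).trans ?_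
      rw [nsmul_eq_mul]
      exact mul_le_mul_of_nonneg_right cB (by positivity)
    refine (sum_le_sum_of_subset_of_nonneg sub fun _ _ _ => sum_nonneg fun x _ =>
      mul_nonneg (abs_nonneg _) (n2_nonneg x)).trans (le_trans ?_ ((add_le_add b1 b2).trans
        (le_of_eq (by ring))))
    rw [← sum_add_distrib]
    refine sum_le_sum fun z _ => ?_
    rw [← sum_add_distrib]
    exact sum_le_sum fun x _ => by
      rw [← add_mul]; exact mul_le_mul_of_nonneg_right (abs_sub _ _) (n2_nonneg x)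

theorem al_le {p : Pt} {ρ : ℕ} (hρ : 1 ≤ ρ) (z : Pt) : al p ρ z ≤ 1 / ρ :=
  one_div_le_one_div_of_le (by exact_mod_cast hρ) (le_add_of_nonneg_right (by positivity))

theorem ds_ev (z : Pt) (i : Fin 2) : ds (z + ev i) z = 1 := by
  fin_cases i <;> simp [ds, ev]

theorem df_le {p : Pt} {ρ : ℕ} {A : ℝ} {u : Pt → ℝ} (h : Dip p ρ A u) (i : Fin 2) (z : Pt) :
    |df i u z| ≤ A * (al p ρ (z + ev i) * al p ρ z) := by
  have := h.b1 (z + ev i) z
  rwa [ds_ev, Nat.cast_one, mul_one, mul_assoc] at this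

theorem sm2 {p : Pt} {ρ : ℕ} {A : ℝ} {u : Pt → ℝ} (hρ : 1 ≤ ρ) (h : Dip p ρ A u) : Sm2 u (A / ρ) ρ := by
  have a0 := A_nonneg hρ h
  refine ⟨fun i x => (df_le h i x).trans ((mul_le_mul_of_nonneg_left (mul_le_mul (al_le hρ _)
    (al_le hρ _) (al_nonneg _ _ _) (by positivity)) a0).trans (le_of_eq (by ring))),
    fun i j x => (h.b2 i j x).trans ((div_le_div_of_nonneg_right (mul_le_mul_of_nonneg_left
      (pow_le_pow_left₀ (al_nonneg _ _ _) (al_le hρ _) 2) a0) (by positivity)).trans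
        (le_of_eq (by ring)))⟩

theorem G1_le {p : Pt} {ρ : ℕ} {A : ℝ} {u : Pt → ℝ} (hρ : 1 ≤ ρ) (h : Dip p ρ A u) (z : Pt) :
    G1 u z ≤ 4 * A * al p ρ z ^ 2 := by
  have r1 : (1 : ℝ) ≤ ρ := by exact_mod_cast hρ
  have k : ∀ i, |df i u z| ≤ A * (2 * al p ρ z * al p ρ z) := fun i => by
    refine (df_le h i z).trans (mul_le_mul_of_nonneg_left (mul_le_mul_of_nonneg_right ?_
      (al_nonneg _ _ _)) (A_nonneg hρ h))
    have t := ds_tri z (z + ev i) p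
    rw [ds_comm z (z + ev i), ds_ev] at t
    have t' : (ds z p : ℝ) ≤ 1 + ds (z + ev i) p := by exact_mod_cast t
    rw [al, al, mul_one_div, div_le_div_iff₀ (by positivity) (by positivity)]
    linarith [Nat.cast_nonneg (α := ℝ) (ds (z + ev i) p)]
  unfold G1; linarith [k 0, k 1]

theorem en_eq {p : Pt} {M n : ℕ} {u : Pt → ℝ} (h : M + 1 ≤ n) (su : Sup (bl p M) u) (u' : Pt → ℝ) :
    En u u' = ∑ z ∈ bl p n, gg u u' z := by
  rw [En, finsum_eq_sum_of_support_subset (s := bl p n)]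
  · exact sum_congr rfl fun z _ => by rw [Fin.sum_univ_two, gg]
  · intro z hz
    by_contra hn
    have k : ∀ i, df i u z = 0 := fun i => by
      have t := ds_tri z (z + ev i) p
      rw [ds_comm z (z + ev i), ds_ev] at t
      have hn' : ¬ ds z p ≤ n := fun e => hn (mem_coe.2 (mem_bl_sn.2 e))
      rw [df, su z fun e => hn' ((mem_bl_sn.1 e).trans (by omega)),
        su _ fun e => hn' (by have : ds (z + ev i) p ≤ M := mem_bl_sn.1 e; omega), sub_zero]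
    exact hz (by simp [k])

/-- **Lemma B from the bounds on the kernel** -/
theorem det2 {V : Vp} {ρ l l₁ M N : ℕ} {A A' Y T T' K K₁ ε g η : ℝ} {u u' χ : Pt → ℝ}
    {c k : Pt → Pt → ℝ} (hc : ∀ z w, c z w = c w z) (hl : 1 ≤ l) (hρ : l ≤ ρ) (hl₁ : l ≤ l₁)
    (hr : ρ ≤ V.r) (hM : V.r + l₁ ≤ M) (hN : M + 2 * l ≤ N) (hY : 0 ≤ Y) (hK : 0 ≤ K) (hK₁ : 0 ≤ K₁)
    (hε : 0 ≤ ε) (hu : Dip V.p ρ A u) (hu' : Dip V.q ρ A' u') (su : Sup (bl V.p M) u)
    (su' : Sup (bl V.p M) u') (hχ : ∀ z, |χ z| ≤ 1) (χ1 : ∀ z ∈ bl V.p (M + 2 * l), χ z = 1)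
    (hT : 1 + Real.log (2 * (N + V.r : ℕ) / l) ≤ T) (hT' : 1 + Real.log (1 + (V.r + 2 * l₁ : ℕ)) ≤ T')
    (far : ∀ z ∈ bl V.p N, ∀ w ∈ bl V.p N, l < ds z w →
      |c z w| ≤ Y * (nb V z (ds z w) * nb V w (ds z w)))
    (cru : ∀ z w, V.d z ≤ l₁ → w ∈ bl z l → w ≠ z → |c z w| ≤ K * (nb V z (ds z w) * nb V w (ds z w)))
    (hk : ∀ z ∈ bl V.p (M + l), ∀ x ∈ bl 0 l, x ≠ 0 → |k z x| ≤ K₁ / (sn x : ℝ) ^ 4)
    (good : ∀ z ∈ bl V.p (M + l), l₁ < V.d z → ∀ x ∈ bl 0 l, x ≠ 0 →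
      |c z (z + x) - k z x| ≤ ε / (sn x : ℝ) ^ 4)
    (mom : ∀ z ∈ bl V.p (M + l), Mom (k z) l g η) :
    |∑ z ∈ bl V.p N, ∑ w ∈ bl V.p N, u z * u' w * c z w - g * En u u'| ≤
      |∑ z ∈ bl V.p N, ∑ w ∈ bl V.p N, u z * u' z * χ w * c z w| + A * A' *
        ((10 ^ 6 * Y * T ^ 2 * ((V.r : ℝ) / ρ) ^ (1 / 10 : ℝ) + 1024 * η * T) / (V.r : ℝ) ^ 2 +
          (1024 * ε * T' * (2 * (M + l) + 1) ^ 2 + (80000 * K * T' ^ 2 + 18432 * K₁ * T') * (l₁ : ℝ) ^ 2) /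
            (ρ : ℝ) ^ 4 + 4096 * K₁ * T' * l * (2 * (M + l) + 1) ^ 2 / (ρ : ℝ) ^ 5) := by
  have ρ1 := hl.trans hρ
  have r0 : (0 : ℝ) < ρ := by exact_mod_cast ρ1
  have f := farE hl hρ hr (by omega) hY hu hu' hχ hT far
  obtain ⟨n1, n2'⟩ := nearE2 hl hl₁ hK hK₁ hε hT' cru (union_subset (bl_mono _ (by omega))
    (bl_sub (by rw [sn_qp]; omega))) hk good
  have m := master2 (D := bl V.p N) (S := bl V.p (M + l)) hc (bl_mono _ (by omega)) (fun z hz w hw => by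
      have : w ∈ bl V.p (M + 2 * l) := bl_subset_bl hz (by omega) hw
      exact ⟨bl_mono _ hN this, χ1 w this⟩)
    (fun z _ hz w hw => by
      have h1 : z ∉ bl V.p M := fun h => hz (bl_mono _ (by omega) h)
      have h2 : w ∉ bl V.p M := fun h => hz (bl_subset_bl h (by omega) (mem_bl_comm.1 hw))
      rw [Vb27.Ph, su z h1, su w h2, sub_self, zero_mul])
    (sm2 ρ1 hu) (sm2 ρ1 hu') mom n1 f n2'
  have one : ∀ {v : Pt → ℝ}, Sup (bl V.p M) v → ∀ z, χ z * v z = v z := fun hv z => by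
    by_cases h : z ∈ bl V.p M
    · rw [χ1 z (bl_mono _ (by omega) h), one_mul]
    · rw [hv z h, mul_zero]
  simp only [one su, one su'] at m
  rw [← en_eq (by omega : M + 1 ≤ M + l) su u', card_bl] at m
  refine m.trans ?_
  have a0 := A_nonneg ρ1 hu
  have a0' := A_nonneg ρ1 hu'
  have η0 : 0 ≤ η := (abs_nonneg _).trans (mom V.p (self_mem_bl _ _) 0 0)
  have s : ∑ z ∈ bl V.p (M + l), G1 u z * G1 u' z ≤ 16 * (A * A') * (64 * T / (V.r : ℝ) ^ 2) := by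
    have l0 : (0 : ℝ) < l := by exact_mod_cast hl
    have l1 : (l : ℝ) ≤ ρ := by exact_mod_cast hρ
    have l2 : ρ + (N + V.r) ≤ 2 * (N + V.r) := by omega
    have := sum_BB2 (D := bl V.p (M + l)) (n := N + V.r) (T := T) ρ1 hr (bl_mono _ (by omega))
      (bl_sub (by rw [sn_comm, sn_qp]; omega)) (le_trans (add_le_add le_rfl (Real.log_le_log
        (by positivity) (div_le_div₀ (by positivity) (by exact_mod_cast l2) l0 l1))) hT)
    refine le_trans ?_ (mul_le_mul_of_nonneg_left this (by positivity))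
    rw [mul_sum]
    exact sum_le_sum fun z _ => (mul_le_mul (G1_le ρ1 hu z) (G1_le ρ1 hu' z) (by unfold G1; positivity)
      (by positivity)).trans (le_of_eq (by unfold BB; ring))
  have s' := mul_le_mul_of_nonneg_left s η0
  push_cast
  refine le_trans (add_le_add le_rfl s') (le_of_eq ?_)
  field_simp
  ring

end Crest.Agent.T145.Vx.Lb27
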