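import Crest.Agent.T145.VxLbB_36
import Crest.Agent.T145.VxBas_30

/-!
# Row 145, twisted module: Lemma B (helper36)
-/

set_option autoImplicit false

namespace Crest.Agent.T145.Vx

open Finset Filter
open Nc (Amb)

namespace Lb36

theorem cvY (hY : YStmt) {W G : Cfg Pt → ℝ} (hS : SE W) (hG : Tame G) (σ : Pt × Pt → ℤ)
    {B : Finset Pt} {v : Pt → ℝ} (hv : Sup B v) :
    Cv W G (Yv σ v) = ∑ w ∈ B, v w * Cv W G (Jv σ w) := by
  obtain ⟨h1, -, -, -, h2⟩ := hY σ B v hv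
  rw [funext h1, B30.cv_sum_right hS B (fun w _ => (h2 w).1.2.const_mul _) hG]
  exact sum_congr rfl fun w _ => Cv_const_mul_right _ _ _ _

theorem cvYY (hY : YStmt) {W : Cfg Pt → ℝ} (hS : SE W) (σ : Pt × Pt → ℤ) {B : Finset Pt}
    {u v : Pt → ℝ} (hu : Sup B u) (hv : Sup B v) :
    Cv W (Yv σ u) (Yv σ v) = ∑ z ∈ B, ∑ w ∈ B, u z * v w * Cv W (Jv σ z) (Jv σ w) := by
  rw [Cv_comm, cvY hY hS (hY σ B v hv).2.2.2.1 σ hu]
  refine sum_congr rfl fun z _ => ?_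
  rw [Cv_comm, cvY hY hS ((hY σ B v hv).2.2.2.2 z).1.2 σ hv, mul_sum]
  exact sum_congr rfl fun w _ => by ring

theorem En_eq {p : Pt} {S n : ℕ} {u : Pt → ℝ} (hu : Sup (bl p S) u) (hn : 1 ≤ n) (v : Pt → ℝ) :
    En u v = ∑ z ∈ bl p (S + n), ∑ i, df i u z * df i v z := by
  refine finsum_eq_sum_of_support_subset _ fun z hz => ?_
  by_contra h
  refine hz (sum_eq_zero fun i _ => ?_)
  rw [mem_coe, mem_bl_ds] at h
  have h1 : ds (ev i) 0 = 1 := by fin_cases i <;> rfl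
  have h2 := ds_tri z (z + ev i) p
  rw [ds_add, h1] at h2
  rw [df, hu z (by rw [mem_bl_ds]; omega), hu (z + ev i) (by rw [mem_bl_ds]; omega), sub_zero,
    zero_mul]

theorem ev_big (k : ℕ) : ∀ᶠ r : ℕ in atTop, 4 * (2 * Real.log r) ^ k ≤ r := by
  have h := (Real.isLittleO_pow_log_id_atTop (n := k)).bound
    (show (0 : ℝ) < 1 / (4 * 2 ^ k) by positivity)
  filter_upwards [tendsto_natCast_atTop_atTop.eventually h] with r hr
  rw [Real.norm_eq_abs, Real.norm_eq_abs, id, Nat.abs_cast] at hr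
  calc _ = 4 * 2 ^ k * Real.log r ^ k := by ring
    _ ≤ 4 * 2 ^ k * (1 / (4 * 2 ^ k) * r) := by gcongr; exact (le_abs_self _).trans hr
    _ = _ := by field_simp

theorem small_pow {τ t c c' : ℝ} {M : ℕ} (ht : 1 ≤ t) (hτ : t ≤ τ) (hM : 16 ≤ M * c) (hc : c ≤ c') :
    (1 / τ ^ M) ^ c' ≤ 1 / t ^ 16 := by
  have h1 : 1 ≤ τ := ht.trans hτ
  have h0 : 0 < τ := by linarith
  rw [Real.div_rpow zero_le_one (by positivity), Real.one_rpow, ← Real.rpow_natCast τ M,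
    ← Real.rpow_mul h0.le]
  refine one_div_le_one_div_of_le (by positivity) ?_
  calc t ^ 16 ≤ τ ^ 16 := by gcongr
    _ = τ ^ ((16 : ℕ) : ℝ) := (Real.rpow_natCast _ _).symm
    _ ≤ _ := Real.rpow_le_rpow_of_exponent_le h1 (by
        have : (M : ℝ) * c ≤ M * c' := by gcongr
        push_cast; linarith)

theorem log_le_of {x τ : ℝ} {k : ℕ} (hx : 0 < x) (h : x ≤ τ ^ k) : Real.log x ≤ k * Real.log τ := by
  rw [← Real.log_pow]; exact Real.log_le_log hx h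

/-- the numerical end of the proof -/
theorem num {t δ κ Λ CΛ CF CJ CN CI a b x y εI g dg : ℝ} (ht : 4 ≤ t) (hδ : 0 < δ) (hδ1 : δ ≤ 1 / 4)
    (hκ : 1 ≤ κ) (hκ' : κ ≤ t ^ (3 / 10 : ℝ)) (hΛ : 1 ≤ Λ) (hΛ' : Λ ≤ CΛ * t ^ (δ / 2))
    (hF : 0 ≤ CF) (hJ : 0 ≤ CJ) (hN : 0 ≤ CN) (hI : 0 ≤ CI) (ha0 : 0 ≤ a) (ha : a ≤ 512 * t ^ 8)
    (hb0 : 0 ≤ b) (hb : b ≤ t ^ 3) (hx0 : 0 ≤ x) (hx : x ≤ 3 / t ^ 2) (hy : y ≤ 2 / t ^ 2)
    (hεI : εI ≤ 4 * CI * t ^ (-1 - 2 * δ)) (hg : g ≤ 1) (hdg : dg ≤ Λ / t ^ 2) :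
    256 * (CF / t ^ 16) * a * b ^ 2 + 2 ^ 24 * (4 * CJ / t ^ 2) * (κ * Λ ^ 2) +
      (2 ^ 23 * CJ * (2 * t) + 2048 * g) * x ^ 2 +
      256 * Λ * (64 * (CN / t ^ 16) * (2 * t) + 768 * CJ * y + 16 * εI + 8 * dg) ≤
      ((2 ^ 17 * CF + 2 ^ 26 * CJ + 9 * (2 ^ 24 * CJ + 2048) + 256 * (128 * CN + 1536 * CJ + 8)) *
        CΛ ^ 2 + 2 ^ 14 * CI * CΛ) * t ^ (-1 - δ) := by
  have t0 : 0 < t := by linarith
  have t1 : 1 ≤ t := by linarith
  have hC : 0 ≤ CΛ := nonneg_of_mul_nonneg_left (zero_le_one.trans (hΛ.trans hΛ'))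
    (Real.rpow_pos_of_pos t0 _)
  set Z := κ * Λ ^ 2 / t ^ 2 with hZ
  have z1 : Z ≤ CΛ ^ 2 * t ^ (-1 - δ) := by
    calc Z ≤ t ^ (3 / 10 : ℝ) * (CΛ * t ^ (δ / 2)) ^ 2 / t ^ 2 := by rw [hZ]; gcongr
      _ = CΛ ^ 2 * t ^ (3 / 10 + δ / 2 + δ / 2 - 2) := by
          rw [Real.rpow_sub t0, Real.rpow_add t0, Real.rpow_add t0, Real.rpow_two]; ring
      _ ≤ _ := mul_le_mul_of_nonneg_left (Real.rpow_le_rpow_of_exponent_le t1 (by linarith))
          (by positivity)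
  have z2 : Λ * t ^ (-1 - 2 * δ) ≤ CΛ * t ^ (-1 - δ) := by
    calc _ ≤ CΛ * t ^ (δ / 2) * t ^ (-1 - 2 * δ) := by gcongr
      _ = CΛ * t ^ (δ / 2 + (-1 - 2 * δ)) := by rw [Real.rpow_add t0]; ring
      _ ≤ _ := by gcongr; linarith
  have z3 : Λ ^ 2 / t ^ 2 ≤ Z := by rw [hZ]; gcongr; exact le_mul_of_one_le_left (by positivity) hκ
  have z4 : Λ / t ^ 2 ≤ Z := le_trans (by gcongr; nlinarith) z3
  have z5 : 1 / t ^ 2 ≤ Z := le_trans (by gcongr) z4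
  have p1 : t / t ^ 16 ≤ 1 / t ^ 2 := by
    rw [div_le_div_iff₀ (by positivity) (by positivity), one_mul, ← pow_succ']
    exact pow_le_pow_right₀ t1 (by norm_num)
  have p2 : t / t ^ 4 ≤ 1 / t ^ 2 := by
    rw [div_le_div_iff₀ (by positivity) (by positivity), one_mul, ← pow_succ']
    exact pow_le_pow_right₀ t1 (by norm_num)
  have q1 : 256 * (CF / t ^ 16) * a * b ^ 2 ≤ 2 ^ 17 * CF * Z := by
    calc _ ≤ 256 * (CF / t ^ 16) * (512 * t ^ 8) * (t ^ 3) ^ 2 := by gcongr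
      _ = 2 ^ 17 * CF * (1 / t ^ 2) := by field_simp; ring
      _ ≤ _ := by gcongr
  have q2 : 2 ^ 24 * (4 * CJ / t ^ 2) * (κ * Λ ^ 2) = 2 ^ 26 * CJ * Z := by rw [hZ]; ring
  have q3 : (2 ^ 23 * CJ * (2 * t) + 2048 * g) * x ^ 2 ≤ 9 * (2 ^ 24 * CJ + 2048) * Z := by
    calc _ ≤ (2 ^ 23 * CJ * (2 * t) + 2048 * t) * (3 / t ^ 2) ^ 2 := by gcongr; linarith
      _ = 9 * (2 ^ 24 * CJ + 2048) * (t / t ^ 4) := by ring
      _ ≤ _ := by gcongr; exact p2.trans z5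
  have q4 : 256 * Λ * (64 * (CN / t ^ 16) * (2 * t) + 768 * CJ * y + 16 * εI + 8 * dg) ≤
      256 * (128 * CN + 1536 * CJ + 8) * Z + 2 ^ 14 * CI * (CΛ * t ^ (-1 - δ)) := by
    calc _ ≤ 256 * Λ * (64 * (CN / t ^ 16) * (2 * t) + 768 * CJ * (2 / t ^ 2) +
          16 * (4 * CI * t ^ (-1 - 2 * δ)) + 8 * (Λ / t ^ 2)) := by gcongr
      _ = 256 * (128 * CN * (Λ * (t / t ^ 16)) + 1536 * CJ * (Λ / t ^ 2) + 8 * (Λ ^ 2 / t ^ 2)) +
          2 ^ 14 * CI * (Λ * t ^ (-1 - 2 * δ)) := by ring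
      _ ≤ 256 * (128 * CN * Z + 1536 * CJ * Z + 8 * Z) + 2 ^ 14 * CI * (CΛ * t ^ (-1 - δ)) := by
          gcongr
          exact le_trans (by rw [div_eq_mul_one_div Λ]; gcongr) z4
      _ = _ := by ring
  calc _ ≤ (2 ^ 17 * CF + 2 ^ 26 * CJ + 9 * (2 ^ 24 * CJ + 2048) +
        256 * (128 * CN + 1536 * CJ + 8)) * Z + 2 ^ 14 * CI * (CΛ * t ^ (-1 - δ)) := by linarith
    _ ≤ (2 ^ 17 * CF + 2 ^ 26 * CJ + 9 * (2 ^ 24 * CJ + 2048) +
        256 * (128 * CN + 1536 * CJ + 8)) * (CΛ ^ 2 * t ^ (-1 - δ)) +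
        2 ^ 14 * CI * (CΛ * t ^ (-1 - δ)) := by gcongr
    _ = _ := by ring

theorem gc_sub {n r : ℕ} {Λ : ℝ} (ht : 0 < Real.log r) (h1 : Real.log r / 2 ≤ Real.log n)
    (h2 : Real.log n ≤ Real.log r) (h3 : Real.log r - Real.log n ≤ Λ) :
    |gc n - gc r| ≤ Λ / Real.log r ^ 2 := by
  have h0 : 0 < Real.log n := by linarith
  have hπ := Real.pi_gt_three
  have e : gc n - gc r = (Real.log r - Real.log n) / (Real.pi * Real.log n * Real.log r) := by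
    rw [gc, gc]; field_simp; ring
  rw [e, abs_of_nonneg (div_nonneg (by linarith) (by positivity))]
  gcongr
  · linarith
  · rw [pow_two]; gcongr; nlinarith

theorem abs_gc {r : ℕ} (ht : 4 ≤ Real.log r) : |gc r| ≤ 1 := by
  have hπ := Real.pi_gt_three
  have h1 : 2 / Real.pi ≤ 2 / 3 := by gcongr
  have h2 : 1 / (Real.pi * Real.log r) ≤ 1 / (3 * 4) := by gcongr
  rw [gc, abs_of_nonneg (by positivity)]
  linarith

end Lb36

set_option maxHeartbeats 3200000 in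
open Lb36 in
theorem lbStmt (hY : YStmt) (hJ : JfarStmt) (hN : JnearStmt) (hI : IsoStmt) (hF : FarStmt) :
    LbStmt := by
  intro P hP
  obtain ⟨CJ, rJ, hJ⟩ := hJ P hP
  obtain ⟨CN, cN, rN, hcN, -, hN⟩ := hN P hP
  obtain ⟨CI, hI⟩ := hI P hP
  obtain ⟨CF, cF, rF, Λ₀, hcF, -, -, hF⟩ := hF P hP
  have hc : 0 < min cN cF := lt_min hcN hcF
  obtain ⟨M, hM, hM1⟩ : ∃ M : ℕ, 16 ≤ M * min cN cF ∧ 1 ≤ M :=
    ⟨⌈16 / min cN cF⌉₊, (div_le_iff₀ hc).1 (Nat.le_ceil _), Nat.ceil_pos.2 (by positivity)⟩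
  have hδ := hP.δ0
  have hδ1 := hP.δ1
  set CΛ : ℝ := 1 + (16 + 2 * M : ℕ) * (2 / (P.δ / 2)) with hCΛ
  have hlog : Tendsto (fun r : ℕ => Real.log r) atTop atTop :=
    Real.tendsto_log_atTop.comp tendsto_natCast_atTop_atTop
  obtain ⟨r₁, hr₁⟩ := eventually_atTop.1 ((ev_big (2 * (5 + M))).and
    ((hlog.eventually_ge_atTop 4).and ((hlog.eventually_ge_atTop Λ₀).and
      (eventually_ge_atTop (rJ + rN + rF + P.r₀ ^ 2)))))
  refine ⟨(2 ^ 17 * |CF| + 2 ^ 26 * |CJ| + 9 * (2 ^ 24 * |CJ| + 2048) +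
    256 * (128 * |CN| + 1536 * |CJ| + 8)) * CΛ ^ 2 + 2 ^ 14 * |CI| * CΛ, r₁, fun V hV => ?_⟩
  obtain ⟨hbig, ht, htΛ, hrr⟩ := hr₁ V.r hV
  have hVt : V.t = Real.log V.r := rfl
  rw [← hVt] at hbig ht htΛ
  set t := V.t with ht'
  have t0 : 0 < t := by linarith
  have t1 : 1 ≤ t := by linarith
  obtain ⟨τ, hτ1, hτ2⟩ : ∃ τ : ℕ, t ≤ τ ∧ (τ : ℝ) ≤ 2 * t :=
    ⟨⌈t⌉₊, Nat.le_ceil _, by linarith [Nat.ceil_lt_add_one t0.le]⟩
  have hτ4 : 4 ≤ τ := by exact_mod_cast ht.trans hτ1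
  have hτΛ : Λ₀ ≤ τ := by exact_mod_cast htΛ.trans hτ1
  have hτ0 : 0 < τ := by omega
  have τ0 : (0 : ℝ) < τ := by linarith
  have τ1 : (1 : ℝ) ≤ τ := by linarith
  -- the scales
  have hpw : ∀ {a b : ℕ}, a ≤ b → τ ^ a ≤ τ ^ b := fun h => Nat.pow_le_pow_right hτ0 h
  have hQ : 4 * τ ^ (5 + M) * τ ^ (5 + M) ≤ V.r := by
    have : 4 * (τ : ℝ) ^ (2 * (5 + M)) ≤ V.r := le_trans (by gcongr) hbig
    rw [two_mul, pow_add, ← mul_assoc] at this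
    exact_mod_cast this
  have hQ0 : 0 < τ ^ (5 + M) := pow_pos hτ0 _
  obtain ⟨n₂, hn1, hn2⟩ : ∃ n₂ : ℕ, n₂ * τ ^ (5 + M) ≤ V.r ∧ V.r < (n₂ + 1) * τ ^ (5 + M) :=
    ⟨V.r / τ ^ (5 + M), Nat.div_mul_le_self _ _, by
      rw [mul_comm]; exact Nat.lt_mul_div_succ _ hQ0⟩
  have hn3 : 4 * τ ^ (5 + M) ≤ n₂ := Nat.le_of_lt_succ (lt_of_mul_lt_mul_right (hQ.trans_lt hn2) hQ0.le)
  have hn4 : V.r ≤ n₂ ^ 2 := by nlinarith
  have hn5 : 1 ≤ n₂ := by omega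
  have hn6 : P.r₀ ≤ n₂ := (Nat.pow_le_pow_iff_left two_ne_zero).1 (show P.r₀ ^ 2 ≤ n₂ ^ 2 by omega)
  have hτM : τ ≤ τ ^ M := by simpa using hpw hM1
  have hτ5 : τ ≤ τ ^ (5 + M) := by simpa using hpw (show 1 ≤ 5 + M by omega)
  have hτ8 : τ ≤ τ ^ 8 := by simpa using hpw (show 1 ≤ 8 by omega)
  have hn7 : 4 * n₂ ≤ V.r := by nlinarith
  have hr0 : (0 : ℝ) < V.r := by exact_mod_cast (show 0 < V.r by omega)
  have n0 : (0 : ℝ) < n₂ := by exact_mod_cast hn5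
  have hl1 : t / 2 ≤ Real.log n₂ := by
    have := log_le_of (τ := n₂) (k := 2) hr0 (by exact_mod_cast hn4)
    push_cast at this
    linarith
  have hl2 : Real.log n₂ ≤ t := Real.log_le_log n0 (by exact_mod_cast (show n₂ ≤ V.r by omega))
  set S₀ := V.r * τ ^ 8 with hS₀
  set S' := S₀ * τ ^ M with hS'
  have hS1 : 4 * V.r ≤ S₀ := by nlinarith
  have hS2 : 4 * S₀ ≤ S' := by nlinarith
  have hS3 : Λ₀ * S₀ ≤ S' := by nlinarith
  obtain ⟨RI, hI⟩ := hI n₂ hn6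
  refine ⟨16 * S' + RI, fun m ρ S A A' u u' hm hρ hρr hS su su' hu hu' => ?_⟩
  have hρτ : V.r ≤ ρ * τ ^ 3 := by
    have : (V.r : ℝ) ≤ ρ * (τ : ℝ) ^ 3 := hρ.trans (by gcongr)
    exact_mod_cast this
  have hρ1 : 1 ≤ ρ := by
    rcases Nat.eq_zero_or_pos ρ with rfl | h
    · omega
    · exact h
  have ρ0 : (0 : ℝ) < ρ := by exact_mod_cast hρ1
  have hSS : S ≤ S₀ := by
    have : (S : ℝ) ≤ V.r * (τ : ℝ) ^ 8 := hS.trans (by gcongr)
    exact_mod_cast this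
  have hn8 : n₂ * τ ^ M * τ ^ 2 ≤ ρ := by
    refine le_of_mul_le_mul_right (le_trans (le_of_eq ?_) (hn1.trans hρτ)) (pow_pos hτ0 3)
    ring
  have hτ2' : 1 ≤ τ ^ 2 := Nat.one_le_pow _ _ hτ0
  have hn9 : n₂ * τ ^ M ≤ ρ := by nlinarith
  have hn10 : 4 * n₂ ≤ n₂ * τ ^ M := by nlinarith
  have su0 : Sup (bl V.p S₀) u := fun z hz => su z fun h => hz (bl_mono _ hSS h)
  have su0' : Sup (bl V.p S₀) u' := fun z hz => su' z fun h => hz (bl_mono _ hSS h)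
  have hB0 : bl V.p S₀ ⊆ bl V.p (2 * S') := bl_mono _ (by omega)
  have hSE := B30.amb_se hm V.σ
  have hm16 : Amb P.L m (bl V.p (8 * (2 * S'))) := B30.amb_mono hm (bl_mono _ (by omega))
  have hS'0 : (0 : ℝ) < S' := by exact_mod_cast (show 0 < S' by omega)
  set Λ : ℝ := 1 + (16 + 2 * M : ℕ) * Real.log τ with hΛ
  have hlτ := Real.log_nonneg τ1
  have hΛ1 : 1 ≤ Λ := le_add_of_nonneg_right (by positivity)
  have hHs : ∀ a n : ℕ, 1 ≤ a → n ≤ 4 * (a * τ ^ (13 + 2 * M)) → Hs a n ≤ Λ := fun a n ha hn => by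
    have a0 : (0 : ℝ) < a := by exact_mod_cast ha
    refine (Hs_le (by exact_mod_cast ha) n).trans (add_le_add le_rfl (log_le_of (by positivity) ?_))
    rw [div_le_iff₀ a0]
    have h1 : 1 ≤ τ ^ (13 + 2 * M) := Nat.one_le_pow _ _ hτ0
    have h2 : τ ^ (16 + 2 * M) = τ ^ (13 + 2 * M) * τ ^ 3 := by ring
    have h3 : 4 ^ 3 ≤ τ ^ 3 := Nat.pow_le_pow_left hτ4 3
    have h4 : a ≤ a * τ ^ (13 + 2 * M) := Nat.le_mul_of_pos_right _ h1
    have h5 : a * τ ^ (13 + 2 * M) * 4 ^ 3 ≤ a * τ ^ (13 + 2 * M) * τ ^ 3 := Nat.mul_le_mul_left _ h3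
    exact_mod_cast (show a + n ≤ τ ^ (16 + 2 * M) * a by rw [h2]; nlinarith)
  have hlog3 : ∀ k : ℕ, 1 ≤ k → 1 ≤ Real.log (2 + k) := fun k hk => by
    have h1 : (1 : ℝ) ≤ k := by exact_mod_cast hk
    rw [Real.le_log_iff_exp_le (by linarith)]
    linarith [Real.exp_one_lt_d9]
  have key := det (V := V) hu hu' hρ1 hρr (S := S₀) (S' := S') (n₂ := n₂) (n₃ := n₂ * τ ^ M)
    (by omega) su0 su0' (by omega) (by omega) (χ := Pot.cut V.p S' (2 * S'))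
    (fun z hz => Pot.cut_one (by linarith) le_rfl hz) (fun z => Pot.abs_cut_le _ _ _ _)
    (K := fun z w => Cv (m.Ws 0 V.σ) (Jv V.σ z) (Jv V.σ w))
    (K0 := fun z w => Ex (m.W 0) fun s => Jz z s * Jz w s) (fun z w => Cv_comm _ _ _)
    (C := |CJ|) (C₂ := 4 * |CJ| / t ^ 2) (ε := |CN| / t ^ 16)
    (εI := |CI| * Real.log n₂ ^ (-1 - 2 * P.δ)) (εF := |CF| / t ^ 16) (g := gc V.r) (g₂ := gc n₂)
    (Λ := Λ) (Λ₀ := 2 * t) (abs_nonneg _) (by positivity) (by positivity)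
    (mul_nonneg (abs_nonneg _) (Real.rpow_nonneg (by linarith) _)) (by positivity)
    (fun z hz w hw hzw => by
      have h1 := (hJ V m (2 * S') z w (by omega) (by omega) hm16 (mem_bl_ds.1 hz) (mem_bl_ds.1 hw) hzw).1
      have h2 := hlog3 (min (ds z w) V.r) (le_min (ds_pos hzw) (by omega))
      have h3 := nb_nonneg V z (ds z w)
      have h4 := nb_nonneg V w (ds z w)
      calc _ ≤ _ := h1
        _ ≤ |CJ| * nb V z (ds z w) * nb V w (ds z w) / 1 ^ 2 := by gcongr; exact le_abs_self _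
        _ = _ := by ring)
    (fun z hz w hw hzw => by
      have h1 := (hJ V m (2 * S') z w (by omega) (by omega) hm16 (mem_bl_ds.1 hz) (mem_bl_ds.1 hw)
        (by rintro rfl; rw [ds_self] at hzw; omega)).1
      have h2 : t / 2 ≤ Real.log (2 + (min (ds z w) V.r : ℕ)) := hl1.trans (Real.log_le_log n0
        (by exact_mod_cast (show n₂ ≤ 2 + min (ds z w) V.r by omega)))
      have h3 := nb_nonneg V z (ds z w)
      have h4 := nb_nonneg V w (ds z w)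
      calc _ ≤ _ := h1
        _ ≤ |CJ| * nb V z (ds z w) * nb V w (ds z w) / (t / 2) ^ 2 := by gcongr; exact le_abs_self _
        _ = _ := by field_simp; ring)
    (fun z hz hd x hx hx0 => by
      have hz' := mem_bl_ds.1 hz
      have hx' := mem_bl_ds.1 hx
      have h1 := hN V m (2 * S') z (z + x) (by omega) (by omega) hm16 (by omega)
        (by simpa using hx0) (by rw [ds_add]; omega)
      rw [ds_add] at h1
      have h2 : ((ds x 0 : ℝ) / V.d z) ^ cN ≤ 1 / t ^ 16 := by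
        refine le_trans ?_ (small_pow t1 hτ1 hM (min_le_left _ _))
        gcongr ?_ ^ _
        rw [div_le_div_iff₀ (by exact_mod_cast (show 0 < V.d z by omega)) (by positivity)]
        exact_mod_cast (show ds x 0 * τ ^ M ≤ 1 * V.d z by nlinarith)
      calc _ ≤ _ := h1
        _ ≤ |CN| / (ds x 0 : ℝ) ^ 4 * (1 / t ^ 16) := by gcongr; exact le_abs_self _
        _ = _ := by ring)
    (fun z hz x hx hx0 => by
      have hz' := mem_bl_ds.1 hz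
      have hx' := mem_bl_ds.1 hx
      have h0 := ds_tri (z + x) z V.p
      rw [ds_comm (z + x) z, ds_add] at h0
      have h1 := (hJ V m (2 * S') z (z + x) (by omega) (by omega) hm16 (by omega) (by omega)
        (by simpa using hx0)).2
      rw [ds_add] at h1
      exact h1.trans (by gcongr; exact le_abs_self _))
    (fun z hz i j => (hI m z (B30.amb_mono hm (bl_subset_bl hz (by omega))) i j).trans
      (mul_le_mul_of_nonneg_right (le_abs_self _) (Real.rpow_nonneg (by linarith) _)))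
    (fun z hz => by
      have h1 := (hF V m S₀ S' (by omega) hS1 hS3 (B30.amb_mono hm (bl_mono _ (by omega)))).1 z
        (mem_bl_ds.1 hz)
      rw [cvY hY hSE ((hY V.σ _ u su).2.2.2.2 z).1.2 V.σ (B := bl V.p (2 * S'))
        (Pot.sup_cut V.p (by linarith) (by push_cast; linarith))] at h1
      have h2 : ((S₀ : ℝ) / S') ^ cF ≤ 1 / t ^ 16 := by
        refine le_trans (le_of_eq ?_) (small_pow t1 hτ1 hM (min_le_right _ _))
        have : (0 : ℝ) < S₀ := by exact_mod_cast (show 0 < S₀ by omega)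
        rw [hS']; push_cast; congr 1; field_simp
      have h3 := nb_nonneg V z S₀
      calc _ ≤ _ := h1
        _ ≤ |CF| * (1 / t ^ 16) * nb V z S₀ := by gcongr; exact le_abs_self _
        _ = _ := by ring)
    hΛ1 (hHs ρ _ hρ1 (by
      have h1 : S' = V.r * τ ^ (8 + M) := by rw [hS', hS₀]; ring
      have h2 : V.r * τ ^ (8 + M) ≤ ρ * τ ^ 3 * τ ^ (10 + 2 * M) :=
        Nat.mul_le_mul hρτ (hpw (by omega))
      have h3 : ρ * τ ^ 3 * τ ^ (10 + 2 * M) = ρ * τ ^ (13 + 2 * M) := by ring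
      omega))
    (by
      have := hHs (n₂ + 1) (4 * S') (by omega) (by
        have h1 : S' = V.r * τ ^ (8 + M) := by rw [hS', hS₀]; ring
        have h2 : V.r * τ ^ (8 + M) ≤ (n₂ + 1) * τ ^ (5 + M) * τ ^ (8 + M) :=
          Nat.mul_le_mul_right _ hn2.le
        have h3 : (n₂ + 1) * τ ^ (5 + M) * τ ^ (8 + M) = (n₂ + 1) * τ ^ (13 + 2 * M) := by ring
        omega)
      exact_mod_cast this)
    (by linarith)
    ((Hs_le le_rfl n₂).trans (by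
      have : Real.log ((1 + n₂) / 1) ≤ t := Real.log_le_log (by positivity)
        (by rw [div_one]; exact_mod_cast (show 1 + n₂ ≤ V.r by omega))
      linarith))
  rw [cvYY hY hSE V.σ (B := bl V.p (2 * S')) (fun z hz => su0 z fun h => hz (hB0 h))
    (fun z hz => su0' z fun h => hz (hB0 h)), En_eq su0 hn5]
  refine key.trans ?_
  have hA := A_nonneg hu hρ1
  have hA' := A_nonneg hu' hρ1
  have hb : (V.r : ℝ) / ρ ≤ t ^ 3 := by rw [div_le_iff₀' ρ0]; exact hρ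
  have hb1 : 1 ≤ (V.r : ℝ) / ρ := by rw [one_le_div ρ0]; exact_mod_cast hρr
  have hκ : (ph V.r / ph ρ) ^ 2 = ((V.r : ℝ) / ρ) ^ (1 / 10 : ℝ) := by
    rw [ph, ph, ← Real.div_rpow hr0.le ρ0.le, ← Real.rpow_natCast, ← Real.rpow_mul (by positivity)]
    norm_num
  have hnum := num (κ := (ph V.r / ph ρ) ^ 2) (Λ := Λ) (CΛ := CΛ) (CF := |CF|) (CJ := |CJ|)
    (CN := |CN|) (CI := |CI|) (a := ((S₀ : ℝ) + 1) / V.r) (b := (V.r : ℝ) / ρ)
    (x := (((n₂ * τ ^ M + n₂ : ℕ) : ℝ) + 1) / ρ) (y := ((n₂ : ℝ) + 1) / ρ)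
    (εI := |CI| * Real.log n₂ ^ (-1 - 2 * P.δ)) (g := |gc V.r|) (dg := |gc n₂ - gc V.r|) ht hδ hδ1
    (by rw [hκ]; exact Real.one_le_rpow hb1 (by norm_num))
    (by
      rw [hκ]
      calc _ ≤ (t ^ 3) ^ (1 / 10 : ℝ) := by gcongr
        _ = _ := by rw [← Real.rpow_natCast, ← Real.rpow_mul t0.le]; norm_num)
    hΛ1
    (by
      have h1 := Real.log_le_rpow_div τ0.le (half_pos hδ)
      have h2 : (τ : ℝ) ^ (P.δ / 2) ≤ 2 * t ^ (P.δ / 2) := by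
        calc _ ≤ (2 * t) ^ (P.δ / 2) := by gcongr
          _ = 2 ^ (P.δ / 2) * t ^ (P.δ / 2) := Real.mul_rpow (by norm_num) t0.le
          _ ≤ 2 ^ (1 : ℝ) * t ^ (P.δ / 2) := by gcongr <;> linarith
          _ = _ := by rw [Real.rpow_one]
      have h3 : 1 ≤ t ^ (P.δ / 2) := Real.one_le_rpow t1 (by linarith)
      calc Λ ≤ t ^ (P.δ / 2) + (16 + 2 * M : ℕ) * (2 * t ^ (P.δ / 2) / (P.δ / 2)) := by
            rw [hΛ]; gcongr; exact h1.trans (by gcongr)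
        _ = _ := by rw [hCΛ]; ring)
    (abs_nonneg _) (abs_nonneg _) (abs_nonneg _) (abs_nonneg _) (by positivity)
    (by
      rw [div_le_iff₀ hr0]
      have h1 : (S₀ : ℝ) + 1 ≤ 2 * (V.r * (τ : ℝ) ^ 8) := by
        exact_mod_cast (show S₀ + 1 ≤ 2 * (V.r * τ ^ 8) by omega)
      calc _ ≤ _ := h1
        _ ≤ 2 * (V.r * (2 * t) ^ 8) := by gcongr
        _ = _ := by ring)
    (by positivity) hb (by positivity)
    (by
      rw [div_le_div_iff₀ ρ0 (by positivity)]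
      calc _ ≤ (((n₂ * τ ^ M + n₂ : ℕ) : ℝ) + 1) * (τ : ℝ) ^ 2 := by gcongr
        _ ≤ _ := by
          exact_mod_cast (show (n₂ * τ ^ M + n₂ + 1) * τ ^ 2 ≤ 3 * ρ from
            (Nat.mul_le_mul_right _ (show n₂ * τ ^ M + n₂ + 1 ≤ 3 * (n₂ * τ ^ M) by omega)).trans
              (by rw [mul_assoc]; omega)))
    (by
      rw [div_le_div_iff₀ ρ0 (by positivity)]
      calc _ ≤ ((n₂ : ℝ) + 1) * (τ : ℝ) ^ 2 := by gcongr
        _ ≤ _ := by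
          exact_mod_cast (show (n₂ + 1) * τ ^ 2 ≤ 2 * ρ from
            (Nat.mul_le_mul_right _ (show n₂ + 1 ≤ 2 * (n₂ * τ ^ M) by omega)).trans
              (by rw [mul_assoc]; omega)))
    (by
      have h1 : Real.log n₂ ^ (-1 - 2 * P.δ) ≤ (t / 2) ^ (-1 - 2 * P.δ) :=
        Real.rpow_le_rpow_of_nonpos (by linarith) hl1 (by linarith)
      have h2 : (t / 2) ^ (-1 - 2 * P.δ) ≤ 4 * t ^ (-1 - 2 * P.δ) := by
        rw [Real.div_rpow t0.le (by norm_num), div_le_iff₀ (by positivity), mul_right_comm]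
        refine le_mul_of_one_le_left (by positivity) ?_
        have : (2 : ℝ) ^ (-2 : ℝ) ≤ 2 ^ (-1 - 2 * P.δ) := by gcongr <;> linarith
        rw [Real.rpow_neg (by norm_num), Real.rpow_two] at this
        linarith
      calc _ ≤ |CI| * (4 * t ^ (-1 - 2 * P.δ)) := by gcongr; exact h1.trans h2
        _ = _ := by ring)
    (abs_gc ht)
    (gc_sub t0 hl1 hl2 (by
      rw [← Real.log_div hr0.ne' n0.ne']
      refine (log_le_of (τ := τ) (k := 16 + 2 * M) (by positivity) ?_).trans (by rw [hΛ]; linarith)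
      rw [div_le_iff₀ n0]
      have h1 : τ ^ (5 + M) * τ ≤ τ ^ (16 + 2 * M) := by rw [← pow_succ]; exact hpw (by omega)
      have h2 : τ ^ (5 + M) * 4 ≤ τ ^ (5 + M) * τ := Nat.mul_le_mul_left _ hτ4
      exact_mod_cast (show V.r ≤ τ ^ (16 + 2 * M) * n₂ by nlinarith)))
  calc _ ≤ A * A' * (((2 ^ 17 * |CF| + 2 ^ 26 * |CJ| + 9 * (2 ^ 24 * |CJ| + 2048) +
        256 * (128 * |CN| + 1536 * |CJ| + 8)) * CΛ ^ 2 + 2 ^ 14 * |CI| * CΛ) * t ^ (-1 - P.δ)) /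
        (V.r : ℝ) ^ 2 := by gcongr
    _ = _ := by ring

end Crest.Agent.T145.Vx
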