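import Crest.Agent.T145.VxDef_35
import Crest.Agent.T145.MdlC_73
import Crest.Agent.T145.CE_56

/-!
# Row 145, module Vx (helper62): the Lasota-Yorke inequality `LyStmt`
-/

set_option autoImplicit false

namespace Crest.Agent.T145.Vx

open Finset
open Nc (Amb)

namespace Ly62

/-- the abstract Lasota-Yorke argument in rank two -/
theorem core {E : Type*} (I : E → Prop) (cb : ℝ → E → ℝ → E → E) (n₀ n₁ : E → ℝ)
    (a l : E → Fin 2 → ℝ) (V : Fin 2 → E) {w ε C g : ℝ} (hw : 1 ≤ w) (hε : 0 ≤ ε) (hε1 : ε ≤ 1)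
    (hC : 1 ≤ C) (hg : 1 / 2 ≤ g) (hs : 16 * C ^ 2 * ε ≤ 1)
    (hI : ∀ x F y G, I F → I G → I (cb x F y G))
    (ha : ∀ x F y G, I F → I G → a (cb x F y G) = x • a F + y • a G)
    (hl : ∀ x F y G, I F → I G → l (cb x F y G) = x • l F + y • l G)
    (h0 : ∀ F, I F → 0 ≤ n₀ F)
    (t0 : ∀ x F y G, I F → I G → n₀ (cb x F y G) ≤ |x| * n₀ F + |y| * n₀ G)
    (t1 : ∀ F G, I F → I G → n₁ F ≤ n₁ (cb 1 F (-1) G) + n₁ G)
    (a1 : ∀ F, I F → ∀ i, |a F i| ≤ w * n₀ F)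
    (a2 : ∀ F, I F → n₁ F ≤ ∑ i, |a F i| + ε * n₀ F)
    (l1 : ∀ F, I F → ∀ i, |l F i| ≤ C * n₁ F)
    (vI : ∀ i, I (V i)) (v0 : ∀ i, n₀ (V i) ≤ C)
    (lv : ∀ i j, |l (V i) j - if i = j then g else 0| ≤ 1 / 8) {F : E} (hF : I F) :
    n₁ F ≤ 12 * C * w * ∑ i, |l F i| + 2000 * C ^ 4 * w ^ 2 * ε * n₀ F := by
  simp only [Fin.sum_univ_two] at a2 ⊢
  set G : (Fin 2 → ℝ) → E := fun b => cb (b 0) (V 0) (b 1) (V 1) with hG
  have gI : ∀ b, I (G b) := fun b => hI _ _ _ _ (vI 0) (vI 1)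
  have g0 : ∀ b, n₀ (G b) ≤ C * (|b 0| + |b 1|) := fun b =>
    (t0 _ _ _ _ (vI 0) (vI 1)).trans (by
      nlinarith [mul_le_mul_of_nonneg_left (v0 0) (abs_nonneg (b 0)),
        mul_le_mul_of_nonneg_left (v0 1) (abs_nonneg (b 1))])
  have gl : ∀ b, (|b 0| + |b 1|) / 4 ≤ |l (G b) 0| + |l (G b) 1| := fun b => by
    have e := hl (b 0) _ (b 1) _ (vI 0) (vI 1)
    have k00 := lv 0 0
    have k01 := lv 0 1
    have k10 := lv 1 0
    have k11 := lv 1 1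
    simp only [if_true, Fin.zero_eq_one_iff, Fin.one_eq_zero_iff, OfNat.ofNat_ne_one, if_false,
      sub_zero] at k00 k01 k10 k11
    have e0 : b 0 * g = l (G b) 0 - b 0 * (l (V 0) 0 - g) - b 1 * l (V 1) 0 := by
      simp only [hG, e, Pi.add_apply, Pi.smul_apply, smul_eq_mul]; ring
    have e1 : b 1 * g = l (G b) 1 - b 1 * (l (V 1) 1 - g) - b 0 * l (V 0) 1 := by
      simp only [hG, e, Pi.add_apply, Pi.smul_apply, smul_eq_mul]; ring
    have key : ∀ x y z u v : ℝ, x * g = z - x * u - y * v → |u| ≤ 1 / 8 → |v| ≤ 1 / 8 →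
        |x| / 2 ≤ |z| + |x| / 8 + |y| / 8 := fun x y z u v h hu hv => by
      have h1 : |x * g| ≤ |z| + |x * u| + |y * v| := by
        rw [h]; exact (abs_sub _ _).trans (by gcongr; exact abs_sub _ _)
      rw [abs_mul, abs_mul, abs_mul, abs_of_pos (by linarith : 0 < g)] at h1
      nlinarith [abs_nonneg x, abs_nonneg y, mul_le_mul_of_nonneg_left hu (abs_nonneg x),
        mul_le_mul_of_nonneg_left hv (abs_nonneg y), mul_le_mul_of_nonneg_left hg (abs_nonneg x)]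
    linarith [key _ _ _ _ _ e0 k00 k10, key _ _ _ _ _ e1 k11 k01]
  have ga : ∀ b, |b 0| + |b 1| ≤ 16 * C * (|a (G b) 0| + |a (G b) 1|) := fun b => by
    have h1 := gl b
    have h2 := l1 _ (gI b) 0
    have h3 := l1 _ (gI b) 1
    have h4 := mul_le_mul_of_nonneg_left ((a2 _ (gI b)).trans
      (add_le_add_right (mul_le_mul_of_nonneg_left (g0 b) hε) _)) (by linarith : 0 ≤ C)
    have h5 := mul_le_mul_of_nonneg_right hs (by positivity : 0 ≤ |b 0| + |b 1|)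
    nlinarith
  let T : (Fin 2 → ℝ) →ₗ[ℝ] (Fin 2 → ℝ) :=
    (LinearMap.proj 0).smulRight (a (V 0)) + (LinearMap.proj 1).smulRight (a (V 1))
  have hT : ∀ b, T b = a (G b) := fun b => (ha _ _ _ _ (vI 0) (vI 1)).symm
  have hinj : Function.Injective T := (injective_iff_map_eq_zero T).2 fun b hb => by
    have h1 := ga b
    rw [← hT, hb] at h1
    simp only [Pi.zero_apply, abs_zero, add_zero, mul_zero] at h1
    funext i
    fin_cases i
    · exact abs_nonpos_iff.1 (by linarith [abs_nonneg (b 1)] : |b 0| ≤ 0)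
    · exact abs_nonpos_iff.1 (by linarith [abs_nonneg (b 0)] : |b 1| ≤ 0)
  obtain ⟨b, hb⟩ := LinearMap.injective_iff_surjective.1 hinj (a F)
  rw [hT] at hb
  have n0 := h0 F hF
  have rI := hI 1 F (-1) _ hF (gI b)
  set B := |b 0| + |b 1| with hB
  have B0 : 0 ≤ B := by positivity
  have b1 : B ≤ 32 * C * w * n₀ F := by
    have h1 := ga b
    rw [hb] at h1
    nlinarith [mul_le_mul_of_nonneg_left (add_le_add (a1 F hF 0) (a1 F hF 1)) (by linarith : 0 ≤ 16 * C)]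
  have r1 : n₁ (cb 1 F (-1) (G b)) ≤ 33 * C ^ 2 * w * (ε * n₀ F) := by
    have h1 := a2 _ rI
    rw [ha _ _ _ _ hF (gI b), hb] at h1
    have h2 := t0 1 F (-1) _ hF (gI b)
    simp only [one_smul, neg_smul, add_neg_cancel, Pi.zero_apply, abs_zero, zero_add, abs_one, abs_neg,
      one_mul] at h1 h2
    have h3 : n₀ (cb 1 F (-1) (G b)) ≤ 33 * C ^ 2 * w * n₀ F := by
      have h4 := mul_le_mul_of_nonneg_left b1 (by linarith : 0 ≤ C)
      have h5 : 1 * n₀ F ≤ C ^ 2 * w * n₀ F :=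
        mul_le_mul_of_nonneg_right (one_le_mul_of_one_le_of_one_le (one_le_pow₀ hC) hw) n0
      nlinarith [g0 b]
    nlinarith [mul_le_mul_of_nonneg_left h3 hε]
  have b2 : B ≤ 4 * (|l F 0| + |l F 1|) + 8 * C * n₁ (cb 1 F (-1) (G b)) := by
    have e := hl 1 F (-1) _ hF (gI b)
    have k : ∀ i, |l (G b) i| ≤ |l F i| + C * n₁ (cb 1 F (-1) (G b)) := fun i => by
      have h1 : l (G b) i = l F i - l (cb 1 F (-1) (G b)) i := by simp [e]
      rw [h1]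
      exact (abs_sub _ _).trans (add_le_add_right (l1 _ rI i) _)
    linarith [gl b, k 0, k 1]
  have g1 : n₁ (G b) ≤ 3 * C * w * B := by
    have h1 := a2 _ (gI b)
    have h2 := mul_le_mul_of_nonneg_left (g0 b) (by linarith : 0 ≤ w)
    have h3 : ε * n₀ (G b) ≤ w * n₀ (G b) := mul_le_mul_of_nonneg_right (by linarith) (h0 _ (gI b))
    nlinarith [a1 _ (gI b) 0, a1 _ (gI b) 1]
  have X0 : 0 ≤ ε * n₀ F := mul_nonneg hε n0
  have h1 := mul_le_mul_of_nonneg_left b2 (by positivity : 0 ≤ 3 * C * w)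
  have h2 := mul_le_mul_of_nonneg_left r1 (by positivity : 0 ≤ 24 * C ^ 2 * w)
  have h3 : 1 * (C ^ 2 * w * (ε * n₀ F)) ≤ C ^ 2 * w * (C ^ 2 * w * (ε * n₀ F)) :=
    mul_le_mul_of_nonneg_right (one_le_mul_of_one_le_of_one_le (one_le_pow₀ hC) hw) (by positivity)
  have h4 : 0 ≤ C ^ 2 * w * (C ^ 2 * w * (ε * n₀ F)) := by positivity
  nlinarith [t1 F _ hF (gI b)]

theorem big (M : ℕ) : ∃ r₁ : ℕ, ∀ r : ℕ, r₁ ≤ r → (M : ℝ) ≤ Real.log r ∧
    ∀ ρ : ℕ, (r : ℝ) ≤ ρ * Real.log r ^ 3 → M ≤ ρ := by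
  have h1 := (Real.isLittleO_pow_log_id_atTop (n := 3)).bound (c := 1 / (M + 1)) (by positivity)
  have h2 := Real.tendsto_log_atTop.eventually_ge_atTop (M : ℝ)
  obtain ⟨r₁, h⟩ := Filter.eventually_atTop.1
    (tendsto_natCast_atTop_atTop.eventually (h1.and (h2.and (Filter.eventually_gt_atTop (0 : ℝ)))))
  refine ⟨r₁, fun r hr => ⟨(h r hr).2.1, fun ρ hρ => ?_⟩⟩
  obtain ⟨k1, -, k3⟩ := h r hr
  rw [Real.norm_eq_abs, id, Real.norm_eq_abs, abs_of_pos k3] at k1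
  have k4 := hρ.trans (mul_le_mul_of_nonneg_left ((le_abs_self _).trans k1) (Nat.cast_nonneg ρ))
  rw [← mul_assoc, le_mul_iff_one_le_left k3, mul_one_div, one_le_div (by positivity)] at k4
  exact_mod_cast (by linarith : (M : ℝ) ≤ ρ)

theorem exW (M : ℝ) (W₁ : ℕ) : ∃ (W : ℕ) (w : ℝ), W₁ ≤ W ∧ M ≤ w ∧ 1 ≤ w ∧ (W : ℝ) = w ^ 16 ∧
    (W : ℝ) ^ ((1 / 16 : ℝ) - 1) = 1 / w ^ 15 ∧ (W : ℝ) ^ ((1 / 16 : ℝ) - 2) = 1 / w ^ 31 ∧
    (W : ℝ) ^ (-(3 / 4 : ℝ)) = 1 / w ^ 12 := by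
  obtain ⟨n, hn⟩ := exists_nat_ge (max M (W₁ + 1))
  have h1 : W₁ + 1 ≤ n := by exact_mod_cast (le_max_right _ _).trans hn
  have k : ∀ (x : ℝ) (j : ℕ), (16 : ℕ) * x = -(j : ℝ) → ((n ^ 16 : ℕ) : ℝ) ^ x = 1 / (n : ℝ) ^ j :=
    fun x j h => by
      rw [Nat.cast_pow, ← Real.rpow_natCast, ← Real.rpow_mul (Nat.cast_nonneg n), h,
        Real.rpow_neg (Nat.cast_nonneg n), Real.rpow_natCast, one_div]
  exact ⟨n ^ 16, n, (by omega : W₁ ≤ n).trans (Nat.le_self_pow (by norm_num) n),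
    (le_max_left _ _).trans hn, by exact_mod_cast (by omega : 1 ≤ n), Nat.cast_pow _ _,
    k _ _ (by norm_num), k _ _ (by norm_num), k _ _ (by norm_num)⟩

variable {P : Par} {V : Vp} {ρ : ℕ} {F G H W : Cfg Pt → ℝ}

theorem wN (hP : P.Ok) (V : Vp) (c : ℕ) : Wt ((P.L.Nr (bl V.p c) V.p).Ws 0 V.σ) ∧
    SE ((P.L.Nr (bl V.p c) V.p).Ws 0 V.σ) :=
  ⟨Md.ctr_wts (hP.crit.1.ctr_Nr _ _) (hP.crit.1.anch_Nr_bl (self_mem_bl _ _)) _ _,
    Md.ctr_ses (hP.crit.1.ctr_Nr _ _) (hP.crit.1.anch_Nr_bl (self_mem_bl _ _)) _ _⟩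

theorem nu0 (hP : P.Ok) (V : Vp) (ρ : ℕ) (F : Cfg Pt → ℝ) : 0 ≤ P.ν V ρ F :=
  Ex_nonneg (wN hP V _).1.nonneg fun _ _ => abs_nonneg _

theorem ex_lin (hW : SE W) (hF : Tame F) (hG : Tame G) (x y : ℝ) :
    Ex W (fun s => x * F s + y * G s) = x * Ex W F + y * Ex W G := by
  rw [Ex_add (hW.ig (hF.const_mul x)) (hW.ig (hG.const_mul y)), Ex_const_mul, Ex_const_mul]

theorem nu_lin (hT : TrStmt) (hP : P.Ok) (hF : Ins V.p (ρ + 1) F) (hG : Ins V.p (ρ + 1) G) (x y : ℝ) :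
    P.ν V ρ (fun s => x * F s + y * G s) ≤ |x| * P.ν V ρ F + |y| * P.ν V ρ G := by
  obtain ⟨hw, hs⟩ := wN hP V (P.W₀ * ρ)
  have tF : Tame (P.L.tr V.σ V.p ρ F) := (hT P.b V.σ V.p ρ F hP.crit.1.2 hF).1
  have tG : Tame (P.L.tr V.σ V.p ρ G) := (hT P.b V.σ V.p ρ G hP.crit.1.2 hG).1
  have e1 : ∀ s, P.L.tr V.σ V.p ρ (fun s => x * F s + y * G s) s =
      x * P.L.tr V.σ V.p ρ F s + y * P.L.tr V.σ V.p ρ G s := fun s =>
    ex_lin (Md.ctr_ses (hP.crit.1.ctr_D _) (hP.crit.1.anch_D _) _ _) hF.2 hG.2 x y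
  have e2 : P.L.exN V.σ V.p (P.W₀ * ρ) (fun s => x * F s + y * G s) =
      x * P.L.exN V.σ V.p (P.W₀ * ρ) F + y * P.L.exN V.σ V.p (P.W₀ * ρ) G := ex_lin hs hF.2 hG.2 x y
  unfold Par.ν Par.N Lat.nrm
  simp only [e1, e2]
  generalize P.L.exN V.σ V.p (P.W₀ * ρ) F = c
  generalize P.L.exN V.σ V.p (P.W₀ * ρ) G = d
  have a1 := (tF.sub (Tame.const c)).abs
  have a2 := (tG.sub (Tame.const d)).abs
  refine le_of_le_of_eq (Ex_mono hw.nonneg (hs.ig (((tF.const_mul x).add (tG.const_mul y)).sub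
    (Tame.const _)).abs) (hs.ig ((a1.const_mul |x|).add (a2.const_mul |y|))) fun s => ?_)
    (ex_lin hs a1 a2 _ _)
  rw [← abs_mul, ← abs_mul]
  exact (le_of_eq (by congr 1; ring)).trans (abs_add_le _ _)

theorem cv_lin (hW : SE W) (hF : Tame F) (hG : Tame G) (hH : Tame H) (x y : ℝ) :
    Cv W (fun s => x * F s + y * G s) H = x * Cv W F H + y * Cv W G H := by
  rw [Cv_add_left (hW.ig (hF.const_mul x)) (hW.ig (hG.const_mul y)) (hW.ig ((hF.const_mul x).mul hH))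
    (hW.ig ((hG.const_mul y).mul hH)), Cv_const_mul_left, Cv_const_mul_left]

theorem cv_const (h : Wt W) (hW : SE W) (hF : Tame F) (hH : Tame H) (c : ℝ) :
    Cv W F (fun s => H s + c) = Cv W F H := by
  rw [Cv_comm, Cv_add_left (hW.ig hH) (h.ig_const c) (hW.ig (hH.mul hF))
    (hW.ig ((Tame.const c).mul hF)), h.cv_const_left, add_zero, Cv_comm]

theorem ins_mono {z : Pt} {r r' : ℕ} (h : Ins z r F) (hr : r ≤ r') : Ins z r' F :=
  ⟨h.1.mono (bl_mono z hr), h.2⟩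

theorem ins_chg {p : Pt} {D Λc : ℕ} {A : ℝ} {g : Pt → ℝ} (h : Chg p D Λc A g) :
    Ins p (Λc * D) (pr g) :=
  ⟨DepG.pr (fun x hx => by
    by_contra k
    have := (h.1 x k).2
    generalize Λc * D = n at *
    exact hx (by rw [mem_bl]; unfold ds at this; omega)) h.2.1, Tame.hom _⟩

theorem amb_le {m : Mdl Pt} {z : Pt} {R R' : ℕ} (h : Amb P.L m (bl z R)) (hR : R' ≤ R) :
    Amb P.L m (bl z R') :=
  ⟨h.ctr, h.anch, (bl_mono z hR).trans h.sub, h.near.mono (bl_mono z hR)⟩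

theorem gc_ge (r : ℕ) : 1 / 2 ≤ gc r := by
  have h1 : 0 ≤ 1 / (Real.pi * Real.log r) := by have := Real.log_natCast_nonneg r; positivity
  have h2 : 1 / 2 ≤ 2 / Real.pi := by
    rw [div_le_div_iff₀ (by norm_num) Real.pi_pos]; linarith [Real.pi_le_four]
  unfold gc; linarith

theorem small {C t δ : ℝ} (hδ : 0 < δ) (h1 : 1 ≤ t) (h : 8 * |C| ≤ t) : C * t ^ (-1 - δ) ≤ 1 / 8 := by
  have h2 : t ^ (-1 - δ) ≤ t ^ (-1 : ℝ) := Real.rpow_le_rpow_of_exponent_le h1 (by linarith)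
  rw [Real.rpow_neg_one] at h2
  have h3 : |C| * t⁻¹ ≤ 1 / 8 := by
    rw [← div_eq_mul_inv, div_le_iff₀ (by linarith)]; linarith
  exact (mul_le_mul (le_abs_self C) h2 (by positivity) (abs_nonneg C)).trans h3

end Ly62

open Ly62 in
theorem lyStmt (hT : TrStmt) (hY : YStmt) (hU : UcStmt) (hD : DipStmt) (hL : LinStmt) (hV : LvStmt)
    (hS : TsStmt) : LyStmt := fun P hP => by
  obtain ⟨Cu, hU⟩ := hU
  obtain ⟨Cd, hD⟩ := hD
  obtain ⟨C3, r3, h3⟩ := hL P hP 3 (by norm_num)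
  obtain ⟨C8, r8, h8⟩ := hL P hP 8 (by norm_num)
  obtain ⟨Cv, rv, hV⟩ := hV P hP
  obtain ⟨W₁, hS⟩ := hS P hP (1 / 16) (by norm_num)
  obtain ⟨C, hC, c3, c8⟩ : ∃ C : ℝ, 1 ≤ C ∧ |C3| * |Cu| * (8 * P.W₀) ≤ C ∧ |C8| * |Cd| ≤ C :=
    ⟨max 1 (max _ _), le_max_left _ _, le_max_of_le_right (le_max_left _ _),
      le_max_of_le_right (le_max_right _ _)⟩
  obtain ⟨W, w, hW, hM, hw, e16, e15, e31, e12⟩ := exW (2000 * C ^ 4) (max 16 W₁)
  have W16 : 16 ≤ W := (le_max_left _ _).trans hW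
  obtain ⟨rs, hS⟩ := hS W ((le_max_right _ _).trans hW)
  obtain ⟨r₁, hb⟩ := big (8 * (r3 + r8 + rs + P.r₀ + ⌈|Cv|⌉₊ + 4))
  refine ⟨W, W16, 12 * C * w, max r₁ rv, fun V hr => ?_⟩
  obtain ⟨R, hV⟩ := hV V ((le_max_right _ _).trans hr)
  obtain ⟨t1, hb⟩ := hb V.r ((le_max_left _ _).trans hr)
  refine ⟨max R (4 * V.r), fun m ρ F hm h1 h2 hF => ?_⟩
  have ρ1 := hb ρ h1
  have m4 := amb_le hm (le_max_right _ _)
  have hw0 := hP.W2
  have k1 : 16 * ρ ≤ W * ρ := Nat.mul_le_mul_right _ W16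
  have k2 : 4 * (W * ρ) ≤ P.W₀ * (W * ρ) := Nat.mul_le_mul_right _ hw0
  have k3 : P.W₀ * ρ ≤ P.W₀ * (W * ρ) := Nat.mul_le_mul_left _ (by omega)
  obtain ⟨a, ha, hA⟩ := hS V ρ (by omega) (by omega)
  have mw := Md.ctr_wts hm.ctr hm.anch 0 V.σ
  have ms := Md.ctr_ses hm.ctr hm.anch 0 V.σ
  have up : ∀ {F}, Ins V.p (ρ + 1) F → Ins V.p (W * ρ + 1) F := fun h => ins_mono h (by omega)
  have hu := fun i => hU V.p (8 * (P.W₀ * (W * ρ))) i (by omega)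
  have hy := fun i => hY V.σ _ _ (hu i).1
  have hd := fun i => (hD V.p ρ (4 * ρ) i (by omega) le_rfl).1
  have w0 : 0 < w := by linarith
  have ρ0 : (0 : ℝ) < ρ := by exact_mod_cast (by omega : 0 < ρ)
  have C2 : 1 ≤ C ^ 2 := one_le_pow₀ hC
  have ε1 : w * (1 / w ^ 15) ≤ 1 := by
    rw [mul_one_div, div_le_one (by positivity)]; exact le_self_pow₀ hw (by norm_num)
  have ε0 : 0 ≤ 1 / w ^ 15 := by positivity
  have ε2 : 1 / w ^ 15 ≤ 1 := (le_mul_of_one_le_left ε0 hw).trans ε1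
  have ε3 : 16 * C ^ 2 * (1 / w ^ 15) ≤ 1 := (mul_le_mul_of_nonneg_right (by
    linarith [mul_le_mul_of_nonneg_left C2 (by positivity : 0 ≤ C ^ 2)]) ε0).trans ε1
  have key := core (Ins V.p (ρ + 1)) (fun x F y G s => x * F s + y * G s)
    (fun F => ρ * P.ν V ρ F) (fun F => (W * ρ : ℕ) * P.ν V (W * ρ) F)
    (fun F => ((W * ρ : ℕ) : ℝ) • a F) (lf V m (8 * (P.W₀ * (W * ρ)))) (fun i => pr (fd V.p ρ i))
    (w := w) (ε := 1 / w ^ 15) (C := C) (g := gc V.r) hw ε0 ε2 hC (gc_ge _) ε3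
    (fun x F y G hF hG => ⟨hF.1.comp₂ hG.1 fun a b => x * a + y * b,
      (hF.2.const_mul x).add (hG.2.const_mul y)⟩)
    (fun x F y G hF hG => by rw [ha F G x y hF hG, smul_add, smul_comm _ x, smul_comm _ y])
    (fun x F y G hF hG => funext fun i => cv_lin ms hF.2 hG.2 (hy i).2.2.2.1 x y)
    (fun F _ => mul_nonneg ρ0.le (nu0 hP _ _ _))
    (fun x F y G hF hG => by
      linarith [mul_le_mul_of_nonneg_left (nu_lin hT hP hF hG x y) ρ0.le])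
    (fun F G hF hG => by
      have h := nu_lin hT hP (F := fun s => 1 * F s + -1 * G s)
        (up ⟨hF.1.comp₂ hG.1 fun a b => 1 * a + -1 * b, (hF.2.const_mul 1).add (hG.2.const_mul (-1))⟩)
        (up hG) 1 1
      rw [show (fun s => 1 * (1 * F s + -1 * G s) + 1 * G s) = F from funext fun s => by ring,
        abs_one, one_mul, one_mul] at h
      rw [← mul_add]
      exact mul_le_mul_of_nonneg_left h (Nat.cast_nonneg _))
    (fun F hF i => by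
      have h := mul_le_mul_of_nonneg_left ((hA F hF).1 i) (Nat.cast_nonneg (α := ℝ) (W * ρ))
      rw [Pi.smul_apply, smul_eq_mul, abs_mul, Nat.abs_cast]
      refine h.trans (le_of_eq ?_)
      rw [e15, Nat.cast_mul, e16]; field_simp)
    (fun F hF => by
      have h := mul_le_mul_of_nonneg_left (hA F hF).2 (Nat.cast_nonneg (α := ℝ) (W * ρ))
      simp only [Pi.smul_apply, smul_eq_mul, abs_mul, Nat.abs_cast, ← mul_sum]
      refine h.trans (le_of_eq ?_)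
      rw [e31, Nat.cast_mul, e16]; field_simp)
    (fun F hF i => by
      have h := ((h3 V _ _ _ (by omega) (by omega) (hu i).2.1 (Or.inl (by omega))).1 m m4
        (amb_le m4 (by omega))).2 (W * ρ) F (by omega) (by omega) (by omega) (Or.inl (by omega)) (up hF)
      unfold lf
      rw [funext (hy i).2.1, cv_const mw ms hF.2 (Tame.hom _)]
      have n0 := nu0 hP V (W * ρ) F
      have d : ((8 * (P.W₀ * (W * ρ)) - 1 : ℕ) : ℝ) ≤ 8 * P.W₀ * (W * ρ : ℕ) := by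
        exact_mod_cast (by rw [mul_assoc]; omega : 8 * (P.W₀ * (W * ρ)) - 1 ≤ 8 * P.W₀ * (W * ρ))
      refine h.trans ((le_abs_self _).trans ?_)
      rw [abs_mul, abs_mul, abs_mul, Nat.abs_cast, abs_of_nonneg n0]
      calc _ ≤ |C3| * P.ν V (W * ρ) F * (|Cu| * (8 * P.W₀ * (W * ρ : ℕ))) := by gcongr
        _ = |C3| * |Cu| * (8 * P.W₀) * ((W * ρ : ℕ) * P.ν V (W * ρ) F) := by ring
        _ ≤ _ := by gcongr)
    (fun i => ins_mono (ins_chg (hd i)) (by omega))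
    (fun i => by
      have h := (h8 V _ _ _ (by omega) (by omega) (hd i) (Or.inl (by omega))).2 ρ (by omega) (by omega)
        (by omega)
      have d : ((ρ / 8 : ℕ) : ℝ) ≤ ρ := by exact_mod_cast Nat.div_le_self _ _
      refine (mul_le_mul_of_nonneg_left (h.trans (le_abs_self _)) ρ0.le).trans (le_trans ?_ c8)
      rw [abs_mul, abs_mul, abs_div, Nat.abs_cast, abs_of_nonneg (by positivity : (0 : ℝ) ≤ ρ ^ 2)]
      calc _ ≤ ρ * (|C8| * (|Cd| / ρ ^ 2) * ρ) := by gcongr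
        _ = _ := by field_simp)
    (fun i j => by
      have h := ((hV m ρ (amb_le hm (le_max_left _ _)) h1 i j).1 (8 * (P.W₀ * (W * ρ))) (by omega)
        (by omega)).1
      have c := Nat.le_ceil |Cv|
      push_cast at t1
      exact h.trans (small hP.δ0 (by unfold Vp.t; linarith [abs_nonneg Cv])
        (by unfold Vp.t; linarith))) hF
  refine key.trans (add_le_add_right (mul_le_mul_of_nonneg_right ?_
    (mul_nonneg ρ0.le (nu0 hP _ _ _))) _)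
  rw [e12]
  calc _ ≤ w * w ^ 2 * (1 / w ^ 15) := by gcongr
    _ = _ := by field_simp

end Crest.Agent.T145.Vx
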