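import Mathlib

/-!
# Row 145, S0198 (helper34): the backward weighted supremum for the (LY) + (TR) recursion
-/

set_option autoImplicit false

namespace Crest.Agent.T145.Vx34

open Finset

/-- `μ (n+1) ≤ C l n + θ μ n` (Lasota–Yorke) and `l n ≤ l (n+1) + e μ (n+1)` (transport of the left functional) -/
theorem rec_back {μ l : ℕ → ℝ} {C θ e lam : ℝ} {n₀ top : ℕ} (hC : 0 ≤ C) (hθ : 0 ≤ θ) (he : 0 ≤ e)
    (hl : 1 < lam) (hs : θ * lam + C * e * (lam / (lam - 1)) ≤ 1 / 2)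
    (hμ : ∀ n, n₀ ≤ n → n ≤ top → 0 ≤ μ n)
    (h1 : ∀ n, n₀ ≤ n → n < top → μ (n + 1) ≤ C * l n + θ * μ n)
    (h2 : ∀ n, n₀ ≤ n → n < top → l n ≤ l (n + 1) + e * μ (n + 1)) :
    ∀ n, n₀ ≤ n → n ≤ top → μ n ≤ max (μ n₀ / lam ^ (top - n₀)) (2 * C * l top) * lam ^ (top - n) := by
  intro n hn hn'
  have hl0 : 0 < lam := by linarith
  have hl1 : 0 < lam - 1 := by linarith
  obtain ⟨k, hk, hM⟩ := exists_max_image (Icc n₀ top) (fun n => μ n / lam ^ (top - n))
    ⟨n, mem_Icc.2 ⟨hn, hn'⟩⟩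
  set M := μ k / lam ^ (top - k) with hMd
  rw [mem_Icc] at hk
  have hM0 : 0 ≤ M := div_nonneg (hμ k hk.1 hk.2) (by positivity)
  have hM' : ∀ j, n₀ ≤ j → j ≤ top → μ j ≤ M * lam ^ (top - j) := fun j a b => by
    have := hM j (mem_Icc.2 ⟨a, b⟩)
    rwa [div_le_iff₀ (by positivity)] at this
  have hL : ∀ i j, j + i = top → n₀ ≤ j → l j ≤ l top + e * M * (lam ^ i / (lam - 1)) := by
    intro i
    induction i with
    | zero => intro j hj _; rw [← hj]; simp only [add_zero, le_add_iff_nonneg_right]; positivity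
    | succ i ih =>
      intro j hj a
      have b1 := ih (j + 1) (by omega) (by omega)
      have b2 := hM' (j + 1) (by omega) (by omega)
      rw [show top - (j + 1) = i by omega] at b2
      have b3 := h2 j a (by omega)
      have b4 : lam ^ (i + 1) / (lam - 1) = lam ^ i / (lam - 1) + lam ^ i := by field_simp; ring
      rw [b4]
      nlinarith [mul_le_mul_of_nonneg_left b2 he]
  refine (hM' n hn hn').trans (mul_le_mul_of_nonneg_right ?_ (by positivity))
  rcases eq_or_lt_of_le hk.1 with h | h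
  · rw [hMd, ← h]; exact le_max_left _ _
  · refine le_trans ?_ (le_max_right _ _)
    obtain ⟨j, rfl⟩ : ∃ j, k = j + 1 := ⟨k - 1, by omega⟩
    obtain ⟨i, hi⟩ : ∃ i, j + 1 + i = top := ⟨top - (j + 1), by omega⟩
    have b1 := h1 j (by omega) (by omega)
    have b2 := hL (i + 1) j (by omega) (by omega)
    have b3 := hM' j (by omega) (by omega)
    rw [show top - j = i + 1 by omega] at b3
    have hp : 1 ≤ lam ^ i := one_le_pow₀ hl.le
    have b4 : μ (j + 1) = M * lam ^ i := by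
      rw [hMd, show top - (j + 1) = i by omega]; field_simp
    have b5 : M * lam ^ i ≤ C * l top + (θ * lam + C * e * (lam / (lam - 1))) * (M * lam ^ i) := by
      have c1 := mul_le_mul_of_nonneg_left b2 hC
      have c2 := mul_le_mul_of_nonneg_left b3 hθ
      have c3 : (θ * lam + C * e * (lam / (lam - 1))) * (M * lam ^ i) =
          θ * (M * lam ^ (i + 1)) + C * (e * M * (lam ^ (i + 1) / (lam - 1))) := by
        rw [pow_succ]; ring
      rw [c3]; linarith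
    have b6 : 0 ≤ M * lam ^ i := by positivity
    have b7 := mul_le_mul_of_nonneg_right hs b6
    have b8 : M * 1 ≤ M * lam ^ i := by gcongr
    linarith

/-- vanishing left functional at the top: decay -/
theorem rec_zero {μ l : ℕ → ℝ} {C θ e lam : ℝ} {n₀ top : ℕ} (hC : 0 ≤ C) (hθ : 0 ≤ θ) (he : 0 ≤ e)
    (hl : 1 < lam) (hs : θ * lam + C * e * (lam / (lam - 1)) ≤ 1 / 2) (h0 : l top = 0) (hn : n₀ ≤ top)
    (hμ : ∀ n, n₀ ≤ n → n ≤ top → 0 ≤ μ n)
    (h1 : ∀ n, n₀ ≤ n → n < top → μ (n + 1) ≤ C * l n + θ * μ n)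
    (h2 : ∀ n, n₀ ≤ n → n < top → l n ≤ l (n + 1) + e * μ (n + 1)) :
    μ top ≤ μ n₀ / lam ^ (top - n₀) := by
  have := rec_back hC hθ he hl hs hμ h1 h2 top hn le_rfl
  rwa [h0, mul_zero, Nat.sub_self, pow_zero, mul_one,
    max_eq_left (div_nonneg (hμ n₀ le_rfl hn) (pow_nonneg (by linarith) _))] at this

/-- additive form -/
theorem rec_add {μ l : ℕ → ℝ} {C θ e lam : ℝ} {n₀ top : ℕ} (hC : 0 ≤ C) (hθ : 0 ≤ θ) (he : 0 ≤ e)
    (hl : 1 < lam) (hs : θ * lam + C * e * (lam / (lam - 1)) ≤ 1 / 2) (h0 : 0 ≤ l top)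
    (hμ : ∀ n, n₀ ≤ n → n ≤ top → 0 ≤ μ n)
    (h1 : ∀ n, n₀ ≤ n → n < top → μ (n + 1) ≤ C * l n + θ * μ n)
    (h2 : ∀ n, n₀ ≤ n → n < top → l n ≤ l (n + 1) + e * μ (n + 1)) (n : ℕ) (hn : n₀ ≤ n) (hn' : n ≤ top) :
    μ n ≤ μ n₀ / lam ^ (n - n₀) + 2 * C * l top * lam ^ (top - n) := by
  have hl0 : 0 < lam := by linarith
  refine (rec_back hC hθ he hl hs hμ h1 h2 n hn hn').trans ?_
  have a1 : μ n₀ / lam ^ (top - n₀) * lam ^ (top - n) = μ n₀ / lam ^ (n - n₀) := by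
    rw [show top - n₀ = (n - n₀) + (top - n) by omega, pow_add]; field_simp
  have a2 : 0 ≤ μ n₀ / lam ^ (top - n₀) := div_nonneg (hμ n₀ le_rfl (hn.trans hn')) (by positivity)
  have a3 : 0 ≤ 2 * C * l top := by positivity
  rw [← a1, ← add_mul]
  gcongr
  exact max_le (by linarith) (by linarith)

/-- a system of two coupled estimates (calibration at both cores) -/
theorem two_close {a a' ε : ℝ} (hε' : ε ≤ 1 / 4) (h : a ≤ 1 + ε * (1 + a + a'))
    (h' : a' ≤ 1 + ε * (1 + a + a')) : 1 + a + a' ≤ 6 := by nlinarith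

end Crest.Agent.T145.Vx34
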