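import Crest.Agent.T145.VxPur_3
import Crest.Agent.T145.VxBs_27

/-!
# Row 145, twisted module (helper29): deterministic lemmas for `RwStmt`
-/

set_option autoImplicit false

namespace Crest.Agent.T145.Vx.Rw29

open Finset Pur3
open Pot (cut)

theorem ds_tri (a b c : Pt) : ds a c ≤ ds a b + ds b c := by simp only [ds]; omega

theorem ds_comm (a b : Pt) : ds a b = ds b a := by simp only [ds]; omega

theorem ds_self (a : Pt) : ds a a = 0 := by simp [ds]

theorem ds_pq (V : Vp) : ds V.p V.q = V.r := by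
  obtain ⟨a, r, sd⟩ := V
  cases sd <;> simp only [ds, Vp.p, Vp.q, Vp.sw] <;> simp

theorem ds_add {e : Pt} (he : e ∈ nn) (z p : Pt) : ds (z + e) p ≤ ds z p + 1 ∧ ds z p ≤ ds (z + e) p + 1 := by
  have : e.1.natAbs ≤ 1 ∧ e.2.natAbs ≤ 1 := by revert e; decide
  simp only [ds, Prod.fst_add, Prod.snd_add]; omega

theorem ev_nn (i : Fin 2) : ev i ∈ nn := by revert i; decide

/-- radial sums -/
theorem rad (p : Pt) (g : ℕ → ℝ) (hg : ∀ k, 0 ≤ g k) : ∀ n : ℕ,
    ∑ z ∈ bl p n, g (ds z p) ≤ ∑ k ∈ range (n + 1), 8 * ((k : ℝ) + 1) * g k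
  | 0 => by
    have h0 : bl p 0 = {p} := by ext y; rw [mem_bl, mem_singleton, Prod.ext_iff]; omega
    rw [h0, sum_singleton, ds_self]
    simp; linarith [hg 0]
  | n + 1 => by
    have hs : bl p n ⊆ bl p (n + 1) := bl_mono p (by omega)
    rw [← sum_sdiff hs, sum_range_succ, add_comm]
    refine add_le_add (rad p g hg n) ?_
    rw [sum_congr rfl (g := fun _ => g (n + 1)) fun z hz => by
      rw [mem_sdiff, mem_bl_ds, mem_bl_ds] at hz
      rw [show ds z p = n + 1 by omega], sum_const, card_sdiff_of_subset hs, card_bl, card_bl,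
      nsmul_eq_mul]
    refine mul_le_mul_of_nonneg_right ?_ (hg _)
    have : (2 * (n + 1) + 1) ^ 2 - (2 * n + 1) ^ 2 = 8 * (n + 1) := by
      apply Nat.sub_eq_of_eq_add; ring
    rw [this]; push_cast; linarith

/-- `u` minus its affine part at `p` -/
def wa (p : Pt) (u : Pt → ℝ) (z : Pt) : ℝ :=
  u z - u p - (df 0 u p * co 0 (z - p) + df 1 u p * co 1 (z - p))

theorem df_wa (p : Pt) (u : Pt → ℝ) (i : Fin 2) (z : Pt) : df i (wa p u) z = df i u z - df i u p := by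
  fin_cases i <;> simp [df, wa, co, ev] <;> ring

theorem A0_wa (p : Pt) (u : Pt → ℝ) (z : Pt) : A0 (wa p u) z = A0 u z := by
  simp [A0, wa, co]; ring

theorem lip {p z : Pt} {n : ℕ} {f : Pt → ℝ} {K : ℝ} (hz : ds z p ≤ n)
    (h : ∀ x, ds x p ≤ n → ∀ i, |df i f x| ≤ K) : |f z - f p| ≤ 2 * n * K := by
  have := Pot.Ha91.tay1 (r := n) (u := f) (z := p) (y := z - p) (K := K)
    (by rw [mem_bl]; simp only [ds] at hz; simp; omega) fun x hx => by
      have hx' : ds (p + x) p ≤ n := by rw [mem_bl] at hx; simp [ds] at hx ⊢; omega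
      exact ⟨h _ hx' 0, h _ hx' 1⟩
  simpa using this

theorem tay {p : Pt} {n : ℕ} {u : Pt → ℝ} {K : ℝ}
    (h : ∀ x, ds x p ≤ n → ∀ i j, |df j (df i u) x| ≤ K) {z : Pt} (hz : ds z p ≤ n) :
    (∀ i, |df i (wa p u) z| ≤ 2 * n * K) ∧ |wa p u z| ≤ 4 * (n : ℝ) ^ 2 * K := by
  have h1 : ∀ x, ds x p ≤ n → ∀ i, |df i (wa p u) x| ≤ 2 * n * K := fun x hx i => by
    rw [df_wa]; exact lip hx fun y hy j => h y hy i j
  refine ⟨h1 z hz, ?_⟩
  have := lip hz h1
  rw [show wa p u p = 0 by simp [wa, co], sub_zero] at this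
  linarith

theorem step {p z e : Pt} {n : ℕ} {f : Pt → ℝ} {K : ℝ} (he : e ∈ nn) (hz : ds z p ≤ n)
    (h : ∀ x, ds x p ≤ n + 1 → ∀ i, |df i f x| ≤ K) : |f (z + e) - f z| ≤ K := by
  have b : e = ev 0 ∨ e = ev 1 ∨ e + ev 0 = 0 ∨ e + ev 1 = 0 := by clear hz h; revert e; decide
  have a := (ds_add he z p).1
  rcases b with rfl | rfl | b | b
  · exact h z (by omega) 0
  · exact h z (by omega) 1
  · have := h (z + e) (by omega) 0
    rwa [df, add_assoc, b, add_zero, abs_sub_comm] at this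
  · have := h (z + e) (by omega) 1
    rwa [df, add_assoc, b, add_zero, abs_sub_comm] at this

/-- the charge of the cut-off remainder -/
theorem chg : ∃ C : ℝ, 0 ≤ C ∧ ∀ (p : Pt) (u : Pt → ℝ) (D : ℕ) (K : ℝ), 1 ≤ D → 0 ≤ K →
    (∀ z, ds z p ≤ 2 * D + 1 → A0 u z = 0 ∧ ∀ i j, |df j (df i u) z| ≤ K) →
    Chg p D 2 (C * K * D) (A0 fun z => wa p u z * cut p D (2 * D) z) := by
  obtain ⟨C, C0, hC⟩ := Pot.sm_cut 2
  refine ⟨96 * C, by positivity, fun p u D K hD hK h => ?_⟩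
  have D0 : (1 : ℝ) ≤ D := by exact_mod_cast hD
  have lt : (D : ℝ) < 2 * D := by linarith
  have sm := hC p D (2 * D) lt
  rw [show (2 * D : ℝ) - D = D by ring] at sm
  have sup : Pot.Sup (bl p (2 * D - 1)) fun z => wa p u z * cut p D (2 * D) z := fun z hz => by
    show wa p u z * cut p D (2 * D) z = 0
    rw [Pot.cut_zero lt (R := 2 * D - 1) (by rw [Nat.cast_sub (by omega)]; push_cast; linarith) hz,
      mul_zero]
  have out := Xi.sup_A0 sup
  rw [show 2 * D - 1 + 1 = 2 * D by omega] at out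
  refine ⟨fun z hz => ⟨?_, ?_⟩, Xi.sum_A0 (by omega) sup, fun z => ?_⟩
  · by_contra hlt
    refine hz ?_
    rw [Xi.A0_congr (v := wa p u) fun w hw => ?_, A0_wa, (h z (by omega)).1]
    rw [Pot.cut_one lt le_rfl (mem_bl_ds.2 ?_), mul_one]
    have := ds_tri w z p
    have := mem_bl_ds.1 hw
    omega
  · by_contra hlt
    exact hz (out z fun hm => hlt (mem_bl_ds.1 hm))
  by_cases hz : ds z p ≤ 2 * D
  swap
  · rw [out z fun hm => hz (mem_bl_ds.1 hm), abs_zero]; positivity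
  have t := fun x (hx : ds x p ≤ 2 * D + 1) => tay (fun y hy => (h y hy).2) hx
  have n3 : ((2 * D + 1 : ℕ) : ℝ) ≤ 3 * D := by push_cast; linarith
  have w0 : |wa p u z| ≤ 36 * (D : ℝ) ^ 2 * K :=
    (t z (by omega)).2.trans (by
      have := pow_le_pow_left₀ (Nat.cast_nonneg _) n3 2
      nlinarith)
  have w1 : ∀ e ∈ nn, |(wa p u (z + e) - wa p u z) * (cut p D (2 * D) (z + e) - cut p D (2 * D) z)| ≤
      6 * C * K := fun e he => by
    have a := step he hz fun x hx => (t x hx).1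
    have b := sm [e] (by simp) (by simpa using he) z trivial
    simp only [Pot.difs, Pot.dif, List.length_singleton, pow_one] at b
    rw [abs_mul]
    calc _ ≤ 2 * (3 * D) * K * (C / D) :=
          mul_le_mul (a.trans (by gcongr)) b (abs_nonneg _) (by positivity)
      _ = _ := by field_simp; ring
  have c2 : |A0 (cut p D (2 * D)) z| ≤ 2 * C / (D : ℝ) ^ 2 := by
    have a := sm [(1, 0), (-1, 0)] (by simp) (by decide) z trivial
    have b := sm [(0, 1), (0, -1)] (by simp) (by decide) z trivial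
    simp only [Pot.difs, Pot.dif, List.length_cons, List.length_nil, add_assoc, Prod.mk_add_mk] at a b
    norm_num [Prod.mk_zero_zero] at a b
    rw [abs_le] at a b ⊢
    simp only [A0]
    constructor <;> linarith [a.1, a.2, b.1, b.2, mul_div_assoc 2 C ((D : ℝ) ^ 2)]
  have e : A0 (fun z => wa p u z * cut p D (2 * D) z) z =
      cut p D (2 * D) z * A0 (wa p u) z + wa p u z * A0 (cut p D (2 * D)) z -
      (wa p u (z + (1, 0)) - wa p u z) * (cut p D (2 * D) (z + (1, 0)) - cut p D (2 * D) z) -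
      (wa p u (z + (-1, 0)) - wa p u z) * (cut p D (2 * D) (z + (-1, 0)) - cut p D (2 * D) z) -
      (wa p u (z + (0, 1)) - wa p u z) * (cut p D (2 * D) (z + (0, 1)) - cut p D (2 * D) z) -
      (wa p u (z + (0, -1)) - wa p u z) * (cut p D (2 * D) (z + (0, -1)) - cut p D (2 * D) z) := by
    simp only [A0]; ring
  have m : |wa p u z * A0 (cut p D (2 * D)) z| ≤ 72 * C * K := by
    rw [abs_mul]
    calc _ ≤ 36 * (D : ℝ) ^ 2 * K * (2 * C / (D : ℝ) ^ 2) :=
          mul_le_mul w0 c2 (abs_nonneg _) (by positivity)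
      _ = _ := by field_simp; ring
  rw [e, A0_wa, (h z (by omega)).1, mul_zero, zero_add, mul_div_assoc, div_self (by positivity), mul_one]
  have a1 := abs_le.1 (w1 (1, 0) (by decide))
  have a2 := abs_le.1 (w1 (-1, 0) (by decide))
  have a3 := abs_le.1 (w1 (0, 1) (by decide))
  have a4 := abs_le.1 (w1 (0, -1) (by decide))
  have a5 := abs_le.1 m
  rw [abs_le]
  constructor <;> linarith [a1.1, a1.2, a2.1, a2.2, a3.1, a3.2, a4.1, a4.2, a5.1, a5.2]

/-- value and gradient of a dipole potential of the other core -/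
theorem dip_p {V : Vp} {ρ : ℕ} {A : ℝ} {u : Pt → ℝ} (h : Dip V.q ρ A u) (hρ : 1 ≤ ρ) (hr : 1 ≤ V.r) :
    0 ≤ A ∧ |u V.p| ≤ A / V.r ∧ ∀ i, |df i u V.p| ≤ A / (V.r : ℝ) ^ 2 := by
  have ρ1 : (1 : ℝ) ≤ ρ := by exact_mod_cast hρ
  have r1 : (1 : ℝ) ≤ V.r := by exact_mod_cast hr
  have a0 : ∀ z, 0 < al V.q ρ z := fun z => by rw [al]; positivity
  have A0 : 0 ≤ A := nonneg_of_mul_nonneg_left ((abs_nonneg _).trans (h.b0 V.p)) (a0 _)
  have a1 : ∀ z, V.r ≤ ds z V.q + 1 → al V.q ρ z ≤ 1 / V.r := fun z hz => by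
    have : (V.r : ℝ) ≤ ds z V.q + 1 := by exact_mod_cast hz
    exact one_div_le_one_div_of_le (by linarith) (by linarith)
  have ap := a1 V.p (by rw [ds_pq]; omega)
  refine ⟨A0, (h.b0 _).trans ((mul_le_mul_of_nonneg_left ap A0).trans (le_of_eq (by ring))), fun i => ?_⟩
  have b := h.b1 (V.p + ev i) V.p
  have c := ds_add (ev_nn i) V.p V.p
  have d := ds_add (ev_nn i) V.p V.q
  rw [ds_self] at c
  rw [ds_pq] at d
  have c' : (ds (V.p + ev i) V.p : ℝ) ≤ 1 := by exact_mod_cast c.1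
  have := a0 (V.p + ev i)
  have := a0 V.p
  calc _ ≤ _ := b
    _ ≤ A * 1 * (1 / V.r) * (1 / V.r) := by gcongr; exact a1 _ d.2
    _ = _ := by ring

/-- majorant of `nb` away from the core `p`, as a function of the distance to `q` -/
noncomputable def nq (r d : ℕ) : ℝ :=
  1 / ((r : ℝ) + d) ^ 2 + if d < r then (1 + (d : ℝ)) ^ (-(21 / 20 : ℝ)) * (r : ℝ) ^ (-(19 / 20 : ℝ)) else 0

theorem nq_nonneg (r d : ℕ) : 0 ≤ nq r d := by
  rw [nq]; split_ifs <;> positivity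

theorem nb_nonneg (V : Vp) (z : Pt) (l : ℕ) : 0 ≤ nb V z l := by
  rw [nb]; split_ifs <;> positivity

theorem nb_far (V : Vp) {z : Pt} {M : ℕ} (hM : 1 ≤ M) (hr : 1 ≤ V.r) (h : V.r ≤ M * ds z V.p) :
    nb V z (ds z V.p) ≤ 9 * (M : ℝ) ^ 2 * nq V.r (ds z V.q) := by
  have M1 : (1 : ℝ) ≤ M := by exact_mod_cast hM
  have r1 : (1 : ℝ) ≤ V.r := by exact_mod_cast hr
  have t1 := ds_tri z V.p V.q
  rw [ds_pq] at t1
  have hmin : V.r ≤ M * min (ds z V.p) V.r := by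
    rcases le_total (ds z V.p) V.r with a | a
    · rwa [min_eq_left a]
    · rw [min_eq_right a]; exact Nat.le_mul_of_pos_left _ hM
  rw [nb, nq]
  split_ifs with h1 h2 h2
  all_goals try have hd : V.d z ≤ ds z V.p := min_le_left _ _
  any_goals
    have k : V.r + ds z V.q ≤ 3 * M * min (V.d z) (ds z V.p) := by
      rw [min_eq_left hd]
      have a : V.r ≤ M * V.d z := hmin.trans (Nat.mul_le_mul_left _ h1)
      have b : ds z V.q ≤ V.d z + V.r := by rw [Vp.d]; omega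
      have c : V.d z ≤ M * V.d z := Nat.le_mul_of_pos_left _ hM
      rw [mul_assoc]; omega
    have k' : (V.r : ℝ) + ds z V.q ≤ 3 * M * (1 + (min (V.d z) (ds z V.p) : ℕ)) := by
      have : ((V.r + ds z V.q : ℕ) : ℝ) ≤ (3 * M * min (V.d z) (ds z V.p) : ℕ) := by exact_mod_cast k
      push_cast at this ⊢
      nlinarith
    have k2 : 1 / (1 + (min (V.d z) (ds z V.p) : ℕ) : ℝ) ^ 2 ≤
        9 * (M : ℝ) ^ 2 * (1 / ((V.r : ℝ) + ds z V.q) ^ 2) := by
      rw [mul_one_div, div_le_div_iff₀ (by positivity) (by positivity), one_mul]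
      have := pow_le_pow_left₀ (by positivity) k' 2
      linarith [mul_pow (3 * M : ℝ) (1 + (min (V.d z) (ds z V.p) : ℕ)) 2, mul_pow (3 : ℝ) M 2]
    refine k2.trans ?_
    gcongr
    exact le_add_of_nonneg_right (by positivity)
  · have e : V.d z = ds z V.q := by rw [Vp.d] at h1 ⊢; omega
    rw [e]
    have m0 : 1 ≤ min (ds z V.p) V.r := by omega
    have m1 : (1 : ℝ) ≤ (min (ds z V.p) V.r : ℕ) := by exact_mod_cast m0
    have m2 : (V.r : ℝ) / M ≤ (min (ds z V.p) V.r : ℕ) := by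
      rw [div_le_iff₀' (by linarith)]; exact_mod_cast hmin
    have k : ((min (ds z V.p) V.r : ℕ) : ℝ) ^ (-(19 / 20 : ℝ)) ≤
        9 * (M : ℝ) ^ 2 * (V.r : ℝ) ^ (-(19 / 20 : ℝ)) := by
      refine (Real.rpow_le_rpow_of_nonpos (by positivity) m2 (by norm_num)).trans ?_
      rw [Real.div_rpow (by linarith) (by linarith), Real.rpow_neg (by linarith : (0 : ℝ) ≤ M),
        div_inv_eq_mul, mul_comm]
      refine mul_le_mul_of_nonneg_right ?_ (by positivity)
      have := Real.rpow_le_rpow_of_exponent_le M1 (show (19 / 20 : ℝ) ≤ 1 by norm_num)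
      rw [Real.rpow_one] at this
      nlinarith
    calc _ ≤ (1 + (ds z V.q : ℝ)) ^ (-(21 / 20 : ℝ)) * (9 * (M : ℝ) ^ 2 * (V.r : ℝ) ^ (-(19 / 20 : ℝ))) := by
          gcongr
      _ = 9 * (M : ℝ) ^ 2 * ((1 + (ds z V.q : ℝ)) ^ (-(21 / 20 : ℝ)) * (V.r : ℝ) ^ (-(19 / 20 : ℝ))) := by
          ring
      _ ≤ _ := by gcongr; exact le_add_of_nonneg_left (by positivity)
  · exfalso; rw [Vp.d] at h1; omega

/-- the sum away from the core -/
theorem sum_nq (q : Pt) {r ρ N : ℕ} {x : ℝ} (hρ : 1 ≤ ρ) (hr : ρ ≤ r) (hx : ((r : ℝ) / ρ) ^ (1 / 20 : ℝ) ≤ x) :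
    ∑ z ∈ bl q N, (1 / ((ρ : ℝ) + ds z q) + 1 / r) * nq r (ds z q) ≤
      (32 * Real.log (((r : ℝ) + (N + 1 : ℕ)) / r) + 48 * x * (Real.log (((ρ : ℝ) + r) / ρ) + 4)) / r := by
  have ρ1 : (1 : ℝ) ≤ ρ := by exact_mod_cast hρ
  have ρr : (ρ : ℝ) ≤ r := by exact_mod_cast hr
  have r0 : (0 : ℝ) < r := by linarith
  have x0 : 0 ≤ x := le_trans (by positivity) hx
  refine (rad q (fun d => (1 / ((ρ : ℝ) + d) + 1 / r) * nq r d)
    (fun d => mul_nonneg (by positivity) (nq_nonneg _ _)) N).trans ?_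
  have key : ∀ d : ℕ, 8 * ((d : ℝ) + 1) * ((1 / ((ρ : ℝ) + d) + 1 / r) * nq r d) ≤
      32 / r * ((r : ℝ) + d + 1)⁻¹ + if d < r then 48 * x / r * (((ρ : ℝ) + d + 1)⁻¹ +
        √ρ * (√((d : ℝ) + 1) * (ρ + d + 1))⁻¹) else 0 := fun d => by
    have d0 : (0 : ℝ) ≤ d := Nat.cast_nonneg d
    rw [nq, mul_add (1 / ((ρ : ℝ) + d) + 1 / r), mul_add (8 * ((d : ℝ) + 1))]
    refine add_le_add ?_ ?_
    · have a : ((d : ℝ) + 1) * (1 / ((ρ : ℝ) + d) + 1 / r) ≤ 2 * (r + d) / r := by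
        have b : ((d : ℝ) + 1) * (1 / ((ρ : ℝ) + d)) ≤ 1 := by
          rw [mul_one_div, div_le_one (by linarith)]; linarith
        have c : 2 * ((r : ℝ) + d) / r = 1 + (r + 2 * d) * (1 / r) := by field_simp; ring
        have e : ((d : ℝ) + 1) * (1 / r) ≤ (r + 2 * d) * (1 / r) :=
          mul_le_mul_of_nonneg_right (by linarith) (by positivity)
        rw [mul_add, c]; linarith
      calc _ = 8 * (((d : ℝ) + 1) * (1 / ((ρ : ℝ) + d) + 1 / r)) * (1 / ((r : ℝ) + d) ^ 2) := by ring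
        _ ≤ 8 * (2 * (r + d) / r) * (1 / ((r : ℝ) + d) ^ 2) := by gcongr
        _ = 32 / r * (2 * ((r : ℝ) + d))⁻¹ := by field_simp; ring
        _ ≤ _ := by gcongr; linarith
    split_ifs with h
    swap
    · simp
    have dr : (d : ℝ) + 1 ≤ r := by exact_mod_cast h
    have a : 1 / ((ρ : ℝ) + d) + 1 / r ≤ 6 * ((ρ : ℝ) + d + 1)⁻¹ := by
      have b : 1 / ((ρ : ℝ) + d) ≤ 2 * ((ρ : ℝ) + d + 1)⁻¹ := by
        rw [← div_eq_mul_inv, div_le_div_iff₀ (by linarith) (by linarith)]; linarith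
      have c : 1 / (r : ℝ) ≤ 2 * ((ρ : ℝ) + d + 1)⁻¹ := by
        rw [← div_eq_mul_inv, div_le_div_iff₀ r0 (by linarith)]; linarith
      have : 0 ≤ ((ρ : ℝ) + d + 1)⁻¹ := by positivity
      linarith
    have b : ((d : ℝ) + 1) * ((1 + (d : ℝ)) ^ (-(21 / 20 : ℝ)) * (r : ℝ) ^ (-(19 / 20 : ℝ))) =
        ((r : ℝ) / ρ) ^ (1 / 20 : ℝ) * ((ρ : ℝ) / (d + 1)) ^ (1 / 20 : ℝ) / r := by
      rw [← Real.mul_rpow (by positivity) (by positivity), div_mul_div_cancel₀ (by positivity),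
        Real.div_rpow r0.le (by positivity), add_comm (1 : ℝ),
        show (-(21 / 20) : ℝ) = -(1 / 20) - 1 by norm_num,
        show (-(19 / 20) : ℝ) = 1 / 20 - 1 by norm_num, Real.rpow_sub_one (by positivity),
        Real.rpow_sub_one r0.ne', Real.rpow_neg (by positivity)]
      field_simp
    have c : ((ρ : ℝ) / (d + 1)) ^ (1 / 20 : ℝ) ≤ 1 + √ρ * (√((d : ℝ) + 1))⁻¹ := by
      rw [← div_eq_mul_inv, ← Real.sqrt_div (by positivity), Real.sqrt_eq_rpow]
      have : 0 ≤ ((ρ : ℝ) / (d + 1)) ^ (1 / 2 : ℝ) := by positivity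
      rcases le_total ((ρ : ℝ) / (d + 1)) 1 with e | e
      · linarith [Real.rpow_le_one (by positivity) e (show (0 : ℝ) ≤ 1 / 20 by norm_num)]
      · linarith [Real.rpow_le_rpow_of_exponent_le e (show (1 / 20 : ℝ) ≤ 1 / 2 by norm_num)]
    calc _ = 8 * (1 / ((ρ : ℝ) + d) + 1 / r) *
          (((d : ℝ) + 1) * ((1 + (d : ℝ)) ^ (-(21 / 20 : ℝ)) * (r : ℝ) ^ (-(19 / 20 : ℝ)))) := by ring
      _ ≤ 8 * (6 * ((ρ : ℝ) + d + 1)⁻¹) * (x * (1 + √ρ * (√((d : ℝ) + 1))⁻¹) / r) := by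
          rw [b]; gcongr
      _ = _ := by rw [mul_inv]; ring
  refine (sum_le_sum fun d _ => key d).trans ?_
  rw [sum_add_distrib, ← mul_sum, add_div]
  refine add_le_add ?_ ?_
  · have := Vb27.sum_inv_range r (hρ.trans hr) (N + 1)
    calc _ ≤ 32 / r * Real.log (((r : ℝ) + (N + 1 : ℕ)) / r) := by gcongr
      _ = _ := by ring
  rw [← sum_filter]
  have sub : (range (N + 1)).filter (· < r) ⊆ range r := fun d hd => mem_range.2 (mem_filter.1 hd).2
  refine (sum_le_sum_of_subset_of_nonneg sub fun d _ _ => by positivity).trans ?_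
  rw [← mul_sum, sum_add_distrib, ← mul_sum]
  have a := Vb27.sum_inv_range ρ hρ r
  have b := Vb27.sum_sqrt ρ (by linarith) r
  have s0 : 0 < √(ρ : ℝ) := Real.sqrt_pos.2 (by linarith)
  have c : √(ρ : ℝ) * ∑ k ∈ range r, (√((k : ℝ) + 1) * (ρ + k + 1))⁻¹ ≤ 4 := by
    have : 0 ≤ 4 / (√(ρ : ℝ) + √r) := by positivity
    calc _ ≤ √(ρ : ℝ) * (4 / √ρ) := by gcongr; linarith
      _ = 4 := by field_simp
  calc _ ≤ 48 * x / r * (Real.log (((ρ : ℝ) + r) / ρ) + 4) := by gcongr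
    _ = _ := by ring

/-- the sum near the core -/
theorem sum_near (p : Pt) (n : ℕ) {a b : ℝ} (ha : 0 ≤ a) (hb : 0 ≤ b) :
    ∑ z ∈ bl p n, (a + b * (√((ds z p : ℝ) + 1))⁻¹) / ((ds z p : ℝ) + 1) ≤
      8 * (a * (n + 1) + 2 * b * √(n + 1)) := by
  refine (rad p (fun d => (a + b * (√((d : ℝ) + 1))⁻¹) / ((d : ℝ) + 1))
    (fun d => by positivity) n).trans ?_
  have e : ∀ d : ℕ, 8 * ((d : ℝ) + 1) * ((a + b * (√((d : ℝ) + 1))⁻¹) / ((d : ℝ) + 1)) =
      8 * (a + b * (√((d : ℝ) + 1))⁻¹) := fun d => by field_simp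
  simp only [e]
  rw [← mul_sum, sum_add_distrib, ← mul_sum, sum_const, card_range, nsmul_eq_mul]
  have := Vb27.sum_sqrt' (n + 1)
  push_cast at this ⊢
  have := mul_le_mul_of_nonneg_left this hb
  linarith

end Crest.Agent.T145.Vx.Rw29
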