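import Crest.Agent.T145.VxDef_35
import Crest.Agent.T145.DfPw_3

/-!
# Row 145, module Vx: deterministic tools for `RwStmt` (helper55)
-/

set_option autoImplicit false

namespace Crest.Agent.T145.Vx.Rw55

open Finset
open Nc (an Amb)
open Pot (cut)

theorem mem_ds {p z : Pt} {r : ℕ} : z ∈ bl p r ↔ ds z p ≤ r := by
  rw [mem_bl, ds, max_le_iff]; omega

theorem ds_comm (z w : Pt) : ds z w = ds w z := by simp only [ds]; omega

theorem ds_tri (x y z : Pt) : ds x z ≤ ds x y + ds y z := by simp only [ds]; omega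

theorem ds_self (z : Pt) : ds z z = 0 := by simp [ds]

theorem ds_ev (z : Pt) (i : Fin 2) : ds (z + ev i) z = 1 := by
  fin_cases i <;> simp [ds, ev]

theorem ds_nn {e : Pt} (he : e ∈ nn) (z : Pt) : ds (z + e) z = 1 := by
  simp only [nn, mem_insert, mem_singleton] at he
  rcases he with rfl | rfl | rfl | rfl <;> simp [ds]

theorem ds_pq (V : Vp) : ds V.p V.q = V.r := by
  obtain ⟨a, r, sd⟩ := V
  cases sd <;> simp [Vp.p, Vp.q, Vp.sw, ds]

theorem mem_an {p z : Pt} {a b : ℕ} : z ∈ an p a b ↔ a < ds z p ∧ ds z p ≤ b := by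
  rw [an, mem_sdiff, mem_ds, mem_ds]; omega

theorem shells (p : Pt) (a b : ℕ) (f : ℕ → ℝ) :
    ∑ z ∈ an p a b, f (ds z p) = ∑ t ∈ Ioc a b, 8 * (t : ℝ) * f t := Df.Pw3.shells p a b f

theorem sum_inv (p : Pt) (a b : ℕ) : ∑ z ∈ an p a b, 1 / (ds z p : ℝ) ≤ 8 * b := by
  rw [shells p a b fun t => 1 / (t : ℝ)]
  refine (sum_le_card_nsmul _ _ 8 fun t ht => ?_).trans ?_
  · have : (0 : ℝ) < t := by exact_mod_cast (by have := mem_Ioc.1 ht; omega : 0 < t)
    rw [mul_assoc, mul_one_div_cancel this.ne', mul_one]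
  · rw [nsmul_eq_mul, Nat.card_Ioc, mul_comm]
    exact mul_le_mul_of_nonneg_left (by exact_mod_cast Nat.sub_le b a) (by norm_num)

theorem sum_inv_sq (p : Pt) {a b : ℕ} (ha : 1 ≤ a) (h : a ≤ b) :
    ∑ z ∈ an p a b, 1 / (ds z p : ℝ) ^ 2 ≤ 8 * Real.log ((b : ℝ) / a) := by
  rw [shells p a b fun t => 1 / (t : ℝ) ^ 2]
  induction b, h using Nat.le_induction with
  | base => rw [div_self (by positivity)]; simp
  | succ n hn ih =>
    have h0 : (0 : ℝ) < n := by exact_mod_cast (by omega : 0 < n)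
    have a0 : (0 : ℝ) < a := by exact_mod_cast (by omega : 0 < a)
    have h1 := Real.one_sub_inv_le_log_of_pos (x := ((n : ℝ) + 1) / n) (by positivity)
    rw [sum_Ioc_succ_top hn]
    push_cast
    rw [Real.log_div (by positivity) (by positivity)] at *
    have e : 8 * ((n : ℝ) + 1) * (1 / ((n : ℝ) + 1) ^ 2) = 8 * (1 - (((n : ℝ) + 1) / n)⁻¹) := by
      field_simp; ring
    linarith

theorem sum_core (q : Pt) {r : ℕ} (hr : 1 ≤ r) :
    ∑ z ∈ bl q r, (1 + (ds z q : ℝ)) ^ (-(59 / 30 : ℝ)) ≤ 241 * (r : ℝ) ^ (1 / 30 : ℝ) := by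
  have h1 : (1 : ℝ) ≤ (r : ℝ) ^ (1 / 30 : ℝ) := Real.one_le_rpow (by exact_mod_cast hr) (by norm_num)
  have h2 : ∑ z ∈ bl q 0, (1 + (ds z q : ℝ)) ^ (-(59 / 30 : ℝ)) ≤ 1 := by
    refine (sum_le_card_nsmul _ _ 1 fun z _ => ?_).trans (by simp [card_bl])
    exact Real.rpow_le_one_of_one_le_of_nonpos (by simp) (by norm_num)
  have h3 := Df.Pw3.head (q := -(29 / 30)) (by norm_num) 0 r
  have h4 : ∑ t ∈ Ioc 0 r, 8 * (t : ℝ) * (1 + (t : ℝ)) ^ (-(59 / 30 : ℝ)) ≤
      ∑ t ∈ Ioc 0 r, 8 * (t : ℝ) ^ (-(29 / 30 : ℝ)) := sum_le_sum fun t ht => by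
    have : (0 : ℝ) < t := by exact_mod_cast (mem_Ioc.1 ht).1
    rw [show (-(29 / 30) : ℝ) = 1 + -(59 / 30) by norm_num, Real.rpow_add this, Real.rpow_one, mul_assoc]
    exact mul_le_mul_of_nonneg_left (mul_le_mul_of_nonneg_left
      (Real.rpow_le_rpow_of_nonpos this (by linarith) (by norm_num)) this.le) (by norm_num)
  rw [← sum_sdiff (bl_mono q r.zero_le), ← an, shells q 0 r fun t => (1 + (t : ℝ)) ^ (-(59 / 30 : ℝ))]
  rw [← mul_sum] at h4
  norm_num at h3
  linarith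

theorem loc_lip {f : Pt → ℝ} {p : Pt} {R : ℕ} {K : ℝ} (h : ∀ i, ∀ z ∈ bl p R, |df i f z| ≤ K)
    {z : Pt} (hz : z ∈ bl p R) : |f z - f p| ≤ 2 * K * ds z p := by
  have hK : 0 ≤ K := (abs_nonneg _).trans (h 0 p (self_mem_bl _ _))
  set cl : Pt → Pt := fun x =>
    (max (p.1 - R) (min (p.1 + R) x.1), max (p.2 - R) (min (p.2 + R) x.2)) with hcl
  have c1 : ∀ x ∈ bl p R, cl x = x := fun x hx => by
    rw [mem_bl] at hx
    ext <;> simp only [hcl] <;> omega
  have c2 : ∀ x, cl x ∈ bl p R := fun x => by rw [mem_bl]; simp only [hcl]; omega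
  have c3 : ∀ i x, cl (x + ev i) = cl x ∨ cl (x + ev i) = cl x + ev i := fun i x => by
    fin_cases i <;> simp only [hcl, ev, Prod.ext_iff] <;> simp <;> omega
  have := S58.lip (w := fun x => f (cl x)) (c := K) (fun i x => by
    rcases c3 i x with e | e
    · simp only [df, e, sub_self, abs_zero, hK]
    · simp only [df, e]; exact h i _ (c2 x)) p z
  simp only [c1 z hz, c1 p (self_mem_bl _ _), Fin.sum_univ_two, S58.co_fst, S58.co_snd] at this
  have e1 : |((z - p).1 : ℝ)| ≤ ds z p := by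
    rw [← Int.cast_abs, ← Int.natCast_natAbs]; exact_mod_cast le_max_left _ _
  have e2 : |((z - p).2 : ℝ)| ≤ ds z p := by
    rw [← Int.cast_abs, ← Int.natCast_natAbs]; exact_mod_cast le_max_right _ _
  nlinarith

/-- `u` minus its affine part at `p` -/
noncomputable def rem (u : Pt → ℝ) (p z : Pt) : ℝ := u z - u p - ∑ i, df i u p * co i (z - p)

theorem df_rem (u : Pt → ℝ) (p z : Pt) (i : Fin 2) : df i (rem u p) z = df i u z - df i u p := by
  have : z + ev i - p = z - p + ev i := by abel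
  simp only [df, rem, this, S58.co_add, S58.co_ev, Fin.sum_univ_two]
  fin_cases i <;> simp <;> ring

theorem A0_rem (u : Pt → ℝ) (p z : Pt) : A0 (rem u p) z = A0 u z := by
  simp only [A0, rem, Fin.sum_univ_two, S58.co_fst, S58.co_snd, Prod.fst_sub, Prod.snd_sub, Prod.fst_add,
    Prod.snd_add]
  push_cast
  ring

theorem rem_le {u : Pt → ℝ} {p : Pt} {R : ℕ} {H : ℝ}
    (h : ∀ z, ds z p ≤ R → ∀ i j, |df j (df i u) z| ≤ H) {z : Pt} (hz : ds z p ≤ R) :
    (∀ i, |df i (rem u p) z| ≤ 2 * H * ds z p) ∧ |rem u p z| ≤ 4 * H * (ds z p : ℝ) ^ 2 := by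
  have hH : 0 ≤ H := (abs_nonneg _).trans (h z hz 0 0)
  have a : ∀ x, ds x p ≤ R → ∀ i, |df i (rem u p) x| ≤ 2 * H * ds x p := fun x hx i => by
    rw [df_rem]
    exact loc_lip (R := R) (fun j y hy => h y (mem_ds.1 hy) i j) (mem_ds.2 hx)
  refine ⟨a z hz, ?_⟩
  have := loc_lip (f := rem u p) (p := p) (R := ds z p) (K := 2 * H * ds z p) (fun i y hy =>
    (a y ((mem_ds.1 hy).trans hz) i).trans (mul_le_mul_of_nonneg_left
      (by exact_mod_cast mem_ds.1 hy) (by positivity))) (mem_ds.2 le_rfl)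
  rw [show rem u p p = 0 by simp [rem, S58.co_zero], sub_zero] at this
  linarith

/-- the charge of the cut-off remainder -/
theorem chg_rem : ∃ K : ℝ, 0 ≤ K ∧ ∀ (u : Pt → ℝ) (p : Pt) (R D : ℕ) (H : ℝ), 1 ≤ D → 3 * D ≤ R →
    (∀ z, ds z p ≤ R → A0 u z = 0 ∧ ∀ i j, |df j (df i u) z| ≤ H) →
    Chg p D 3 (K * H * D) (A0 fun z => rem u p z * cut p D (2 * D) z) := by
  obtain ⟨K, hK, hs⟩ := Pot.sm_cut 2
  refine ⟨56 * K, by positivity, fun u p R D H hD hR h => ?_⟩
  have D0 : (0 : ℝ) < D := by exact_mod_cast hD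
  have D1 : (1 : ℝ) ≤ D := by exact_mod_cast hD
  have hab : (D : ℝ) < 2 * D := by linarith
  have hH : 0 ≤ H := (abs_nonneg _).trans ((h p (by simp [ds_self])).2 0 0)
  have sm := hs p D (2 * D) hab
  rw [show 2 * (D : ℝ) - D = D by ring] at sm
  have one : ∀ z, ds z p ≤ D → cut p D (2 * D) z = 1 := fun z hz => Pot.cut_one hab le_rfl (mem_ds.2 hz)
  have zero : ∀ z, 2 * D ≤ ds z p → cut p D (2 * D) z = 0 := fun z hz =>
    Pot.cut_zero hab (R := 2 * D - 1) (by rw [Nat.cast_sub (by omega)]; push_cast; linarith)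
      (by rw [mem_ds]; omega)
  have n1 : ((1, 0) : Pt) ∈ nn := by simp [nn]
  have n2 : ((-1, 0) : Pt) ∈ nn := by simp [nn]
  have n3 : ((0, 1) : Pt) ∈ nn := by simp [nn]
  have n4 : ((0, -1) : Pt) ∈ nn := by simp [nn]
  have up : ∀ z, ∀ e ∈ nn, ds (z + e) p ≤ ds z p + 1 := fun z e he => by
    have := ds_tri (z + e) z p; rw [ds_nn he] at this; omega
  have dn : ∀ z, ∀ e ∈ nn, ds z p ≤ ds (z + e) p + 1 := fun z e he => by
    have := ds_tri z (z + e) p; rw [ds_comm z (z + e), ds_nn he] at this; omega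
  have out : ∀ z, 2 * D < ds z p → A0 (fun z => rem u p z * cut p D (2 * D) z) z = 0 := fun z hz => by
    have k := fun e he => zero (z + e) (by have := dn z e he; omega)
    simp only [A0, zero z hz.le, k _ n1, k _ n2, k _ n3, k _ n4, mul_zero, sub_self]
  refine ⟨fun z hz => ⟨?_, ?_⟩, Xi.sum_A0 (n := 2 * D) (by omega) fun z hz => ?_, fun z => ?_⟩
  · by_contra hn
    have k := fun e he => one (z + e) (by have := up z e he; omega)
    refine hz ?_
    have := A0_rem u p z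
    rw [(h z (by omega)).1] at this
    simp only [A0, one z (by omega), k _ n1, k _ n2, k _ n3, k _ n4, mul_one] at this ⊢
    exact this
  · by_contra hn
    exact hz (out z (by omega))
  · rw [zero z (by rw [mem_ds] at hz; omega), mul_zero]
  · rw [mul_div_assoc, div_self D0.ne', mul_one]
    rcases lt_or_ge (2 * D) (ds z p) with hz | hz
    · rw [out z hz, abs_zero]; positivity
    have hz' : (ds z p : ℝ) ≤ 2 * D := by exact_mod_cast hz
    have g : ∀ x, ds x p ≤ 2 * D + 1 → ∀ i, |df i (rem u p) x| ≤ 6 * H * D := fun x hx i => by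
      have h1 := (rem_le (fun y hy => (h y hy).2) (z := x) (by omega)).1 i
      have h2 : (ds x p : ℝ) ≤ 2 * D + 1 := by exact_mod_cast hx
      nlinarith
    have w0 : |rem u p z| ≤ 16 * H * D ^ 2 := by
      have h1 := (rem_le (fun y hy => (h y hy).2) (z := z) (by omega)).2
      have h2 := pow_le_pow_left₀ (by positivity) hz' 2
      nlinarith
    have t : ∀ e ∈ nn, |rem u p (z + e) - rem u p z| ≤ 6 * H * D →
        |(rem u p (z + e) - rem u p z) * Pot.dif e (cut p D (2 * D)) z| ≤ 6 * H * K := fun e he hb => by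
      rw [abs_mul]
      refine (mul_le_mul hb (sm.one (by norm_num) he trivial) (abs_nonneg _) (by positivity)).trans_eq ?_
      field_simp
    have s : ∀ e ∈ nn, ∀ e' ∈ nn,
        |rem u p z * Pot.dif e (Pot.dif e' (cut p D (2 * D))) z| ≤ 16 * H * K := fun e he e' he' => by
      rw [abs_mul]
      refine (mul_le_mul w0 (sm.two le_rfl he he' trivial) (abs_nonneg _) (by positivity)).trans_eq ?_
      field_simp
    have t1 := t _ n1 (g z (by omega) 0)
    have t3 := t _ n3 (g z (by omega) 1)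
    have t2 := t _ n2 (by
      have := g (z + (-1, 0)) (by have := up z _ n2; omega) 0
      rwa [df, show z + (-1, 0) + ev 0 = z by simp [ev, add_assoc], abs_sub_comm] at this)
    have t4 := t _ n4 (by
      have := g (z + (0, -1)) (by have := up z _ n4; omega) 1
      rwa [df, show z + (0, -1) + ev 1 = z by simp [ev, add_assoc], abs_sub_comm] at this)
    have s1 := s _ n1 _ n2
    have s2 := s _ n3 _ n4
    have h0 := A0_rem u p z
    rw [(h z (by omega)).1] at h0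
    simp only [Pot.dif, show z + (1, 0) + (-1, 0) = z by simp [add_assoc],
      show z + (0, 1) + (0, -1) = z by simp [add_assoc], A0, abs_le] at *
    have h0' := congrArg (· * cut p D (2 * D) z) h0
    constructor <;> linarith [t1.1, t1.2, t2.1, t2.2, t3.1, t3.2, t4.1, t4.2, s1.1, s1.2, s2.1, s2.2]

/-- the outer sum -/
theorem outer (V : Vp) {a b ρ : ℕ} {M t : ℝ} (ha : 1 ≤ a) (hab : a ≤ b) (hρ : 1 ≤ ρ) (hρr : ρ ≤ V.r)
    (hM : 1 ≤ M) (har : (V.r : ℝ) ≤ M * a) (ht : 0 < t) (hr : (V.r : ℝ) ≤ ρ * t ^ 3) :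
    ∑ z ∈ an V.p a b, (al V.q ρ z + 1 / V.r) * nb V z (ds z V.p) ≤
      (64 * M * Real.log ((b : ℝ) / a) + 723 * M * t ^ (1 / 4 : ℝ)) / V.r := by
  have r1 : 1 ≤ V.r := hρ.trans hρr
  have r0 : (0 : ℝ) < V.r := by exact_mod_cast r1
  have ρ0 : (0 : ℝ) < ρ := by exact_mod_cast hρ
  have ρ1 : (1 : ℝ) ≤ ρ := by exact_mod_cast hρ
  have M0 : 0 < M := by linarith
  have pq := ds_pq V
  set c : ℝ := 3 * M * (V.r : ℝ) ^ (-(19 / 20 : ℝ)) * (ρ : ℝ) ^ (-(1 / 12 : ℝ)) with hc
  have c0 : 0 ≤ c := by positivity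
  have key : ∀ z ∈ an V.p a b, (al V.q ρ z + 1 / V.r) * nb V z (ds z V.p) ≤
      8 * M / V.r * (1 / (ds z V.p : ℝ) ^ 2) +
        if z ∈ bl V.q V.r then c * (1 + (ds z V.q : ℝ)) ^ (-(59 / 30 : ℝ)) else 0 := fun z hz => by
    obtain ⟨z1, -⟩ := mem_an.1 hz
    have tri := ds_tri z V.q V.p
    rw [ds_comm V.q] at tri
    have hm : (V.r : ℝ) ≤ M * (min (ds z V.p) V.r : ℕ) := by
      rcases le_total (ds z V.p) V.r with h | h
      · rw [min_eq_left h]
        exact har.trans (mul_le_mul_of_nonneg_left (by exact_mod_cast z1.le) M0.le)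
      · rw [min_eq_right h]; nlinarith
    have d0 : (0 : ℝ) < ds z V.p := by exact_mod_cast (by omega : 0 < ds z V.p)
    have e0 : (0 : ℝ) ≤ ds z V.q := Nat.cast_nonneg _
    unfold nb
    split_ifs with h1 h2 h2
    rotate_left 2
    · have he : V.d z = ds z V.q := by simp only [Vp.d] at h1 ⊢; omega
      have er : (ds z V.q : ℝ) ≤ V.r := by exact_mod_cast mem_ds.1 h2
      have ρr : (ρ : ℝ) ≤ V.r := by exact_mod_cast hρr
      have b1 : al V.q ρ z + 1 / V.r ≤ 3 * (1 / ((ρ : ℝ) + ds z V.q)) := by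
        have : 1 / (V.r : ℝ) ≤ 2 * (1 / ((ρ : ℝ) + ds z V.q)) := by
          rw [mul_one_div, div_le_div_iff₀ r0 (by positivity)]; linarith
        unfold al; linarith
      have b2 : 1 / ((ρ : ℝ) + ds z V.q) ≤
          (ρ : ℝ) ^ (-(1 / 12 : ℝ)) * (1 + (ds z V.q : ℝ)) ^ (-(11 / 12 : ℝ)) := by
        have x0 : (0 : ℝ) < ρ + ds z V.q := by positivity
        rw [one_div, ← Real.rpow_neg_one, show (-1 : ℝ) = -(1 / 12) + -(11 / 12) by norm_num,
          Real.rpow_add x0]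
        exact mul_le_mul (Real.rpow_le_rpow_of_nonpos ρ0 (by linarith) (by norm_num))
          (Real.rpow_le_rpow_of_nonpos (by positivity) (by linarith) (by norm_num)) (by positivity)
          (by positivity)
      have m0 : (0 : ℝ) < (min (ds z V.p) V.r : ℕ) := by exact_mod_cast (by omega : 0 < min _ _)
      have b3 : ((min (ds z V.p) V.r : ℕ) : ℝ) ^ (-(19 / 20 : ℝ)) ≤ M * (V.r : ℝ) ^ (-(19 / 20 : ℝ)) := by
        refine (Real.rpow_le_rpow_of_nonpos (x := V.r / M) (by positivity)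
          (by rw [div_le_iff₀' M0]; exact hm) (by norm_num)).trans ?_
        rw [Real.div_rpow r0.le M0.le, Real.rpow_neg M0.le, div_inv_eq_mul, mul_comm]
        refine mul_le_mul_of_nonneg_right ?_ (by positivity)
        exact (Real.rpow_le_rpow_of_exponent_le hM (by norm_num : (19 / 20 : ℝ) ≤ 1)).trans_eq
          (Real.rpow_one M)
      rw [he]
      refine le_add_of_nonneg_of_le (by positivity) ?_
      refine (mul_le_mul (b1.trans (mul_le_mul_of_nonneg_left b2 (by norm_num)))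
        (mul_le_mul_of_nonneg_left b3 (by positivity)) (by positivity) (by positivity)).trans_eq ?_
      rw [hc, show (-(59 / 30) : ℝ) = -(11 / 12) + -(21 / 20) by norm_num,
        Real.rpow_add (by positivity)]
      ring
    · exact absurd (mem_ds.2 (by simp only [Vp.d] at h1; omega)) h2
    all_goals
      refine le_add_of_le_of_nonneg ?_ (by positivity)
      simp only [Vp.d] at h1 ⊢
      have k1 : (ds z V.p : ℝ) ≤ 2 * (1 + (min (min (ds z V.p) (ds z V.q)) (ds z V.p) : ℕ)) := by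
        exact_mod_cast (by omega : ds z V.p ≤ 2 * (1 + min (min (ds z V.p) (ds z V.q)) (ds z V.p)))
      have k2 : ((min (ds z V.p) V.r : ℕ) : ℝ) ≤ ds z V.q := by exact_mod_cast (by omega)
      have b1 : al V.q ρ z + 1 / V.r ≤ 2 * M / V.r := by
        have : al V.q ρ z ≤ M / V.r := by
          rw [al, div_le_div_iff₀ (by positivity) r0]; nlinarith
        have h' : 1 / (V.r : ℝ) ≤ M / V.r := div_le_div_of_nonneg_right hM r0.le
        rw [mul_div_assoc]; linarith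
      have b2 : 1 / (1 + (min (min (ds z V.p) (ds z V.q)) (ds z V.p) : ℕ) : ℝ) ^ 2 ≤
          4 * (1 / (ds z V.p : ℝ) ^ 2) := by
        rw [mul_one_div, div_le_div_iff₀ (by positivity) (by positivity)]
        nlinarith [pow_le_pow_left₀ d0.le k1 2]
      exact (mul_le_mul b1 b2 (by positivity) (by positivity)).trans_eq (by ring)
  refine (sum_le_sum key).trans ?_
  rw [sum_add_distrib, ← mul_sum, ← sum_filter, add_div]
  refine add_le_add ((mul_le_mul_of_nonneg_left (sum_inv_sq V.p ha hab) (by positivity)).trans_eq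
    (by ring)) ?_
  refine (sum_le_sum_of_subset_of_nonneg (t := bl V.q V.r) (fun z hz => (mem_filter.1 hz).2)
    fun _ _ _ => by positivity).trans ?_
  rw [← mul_sum]
  refine (mul_le_mul_of_nonneg_left (sum_core V.q r1) c0).trans ?_
  have b4 : (ρ : ℝ) ^ (-(1 / 12 : ℝ)) ≤ t ^ (1 / 4 : ℝ) * (V.r : ℝ) ^ (-(1 / 12 : ℝ)) := by
    have t3 : (0 : ℝ) < t ^ 3 := by positivity
    refine (Real.rpow_le_rpow_of_nonpos (x := V.r / t ^ 3) (by positivity)
      (by rw [div_le_iff₀ t3]; exact hr) (by norm_num)).trans_eq ?_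
    rw [Real.div_rpow r0.le t3.le, Real.rpow_neg t3.le, div_inv_eq_mul, mul_comm, ← Real.rpow_natCast,
      ← Real.rpow_mul ht.le]
    norm_num
  have e : (V.r : ℝ) ^ (-(19 / 20 : ℝ)) * (V.r : ℝ) ^ (-(1 / 12 : ℝ)) * (V.r : ℝ) ^ (1 / 30 : ℝ) =
      1 / V.r := by
    rw [← Real.rpow_add r0, ← Real.rpow_add r0, one_div (V.r : ℝ), ← Real.rpow_neg_one]
    norm_num
  calc c * (241 * (V.r : ℝ) ^ (1 / 30 : ℝ))
      = 723 * M * (V.r : ℝ) ^ (-(19 / 20 : ℝ)) * (V.r : ℝ) ^ (1 / 30 : ℝ) * (ρ : ℝ) ^ (-(1 / 12 : ℝ)) := by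
        rw [hc]; ring
    _ ≤ 723 * M * (V.r : ℝ) ^ (-(19 / 20 : ℝ)) * (V.r : ℝ) ^ (1 / 30 : ℝ) *
        (t ^ (1 / 4 : ℝ) * (V.r : ℝ) ^ (-(1 / 12 : ℝ))) := mul_le_mul_of_nonneg_left b4 (by positivity)
    _ = 723 * M * t ^ (1 / 4 : ℝ) * (1 / V.r) := by rw [← e]; ring
    _ = _ := by ring

end Crest.Agent.T145.Vx.Rw55
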