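import Crest.Agent.T145.VxDef_35
import Crest.Agent.T145.VxCal_48
import Crest.Agent.T145.NcLat_37

/-!
# Row 145, twisted module, X part A (helper87): the filter, the scales, linear algebra
-/

set_option autoImplicit false

namespace Crest.Agent.T145.Vx.X87

open Finset Filter Topology Asymptotics Real
open Nc (Amb)

/-! ## `r → ∞`, then `R → ∞` -/

def GG : Filter Vp := comap Vp.r atTop

def FF : Filter (Vp × ℕ) := GG.curry atTop

theorem evG {Q : ℕ → Prop} (h : ∀ᶠ r in atTop, Q r) : ∀ᶠ V in GG, Q V.r := tendsto_comap.eventually h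

theorem evF {Q : Vp → ℕ → Prop} (h : ∀ᶠ V in GG, ∀ᶠ R in atTop, Q V R) : ∀ᶠ x in FF, Q x.1 x.2 :=
  eventually_curry_iff.2 h

theorem ev1 {Q : Vp → Prop} (h : ∀ᶠ V in GG, Q V) : ∀ᶠ x in FF, Q x.1 :=
  evF (Q := fun V _ => Q V) (h.mono fun _ h => .of_forall fun _ => h)

theorem evr {Q : ℕ → Prop} (h : ∀ᶠ r in atTop, Q r) : ∀ᶠ x in FF, Q x.1.r := ev1 (evG h)

theorem out {Q : Vp → ℕ → Prop} (h : ∀ᶠ x in FF, Q x.1 x.2) :
    ∃ r₁ : ℕ, ∀ V : Vp, r₁ ≤ V.r → ∀ᶠ R in atTop, Q V R := by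
  obtain ⟨r₁, h⟩ := eventually_atTop.1 (eventually_comap.1 (eventually_curry_iff.1 h))
  exact ⟨r₁, fun V hV => h _ hV V rfl⟩

/-- exchange of the cores -/
def sw (x : Vp × ℕ) : Vp × ℕ := (x.1.sw, x.2)

theorem tend_sw : Tendsto sw FF FF := fun s hs => by
  obtain ⟨r₁, h⟩ := out (Q := fun V R => (V, R) ∈ s) hs
  exact evF (Q := fun V R => sw (V, R) ∈ s)
    ((evG (eventually_ge_atTop r₁)).mono fun V hV => h V.sw hV)

theorem amb_ev {Λ : Lat} (h : Λ.Ok) (c : Pt) (N : ℕ) :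
    ∀ᶠ R : ℕ in atTop, Amb Λ (Λ.D (faces R)) (bl c N) := by
  filter_upwards [eventually_ge_atTop (c.1.natAbs + c.2.natAbs + N + 1)] with R hR
  refine Nc.L37.Amb.mono' (Nc.L37.amb_D h _) fun x hx => ?_
  rw [mem_bl] at hx
  simp only [faces, sq, mem_product, mem_Ico]
  omega

theorem ev_amb {Λ : Lat} (h : Λ.Ok) (c : Vp → Pt) (N : Vp → ℕ) :
    ∀ᶠ x in FF, Amb Λ (Λ.D (faces x.2)) (bl (c x.1) (N x.1)) :=
  evF (Q := fun V R => Amb Λ (Λ.D (faces R)) (bl (c V) (N V))) (.of_forall fun _ => amb_ev h _ _)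

theorem ofb {α : Type*} {l : Filter α} {f g : α → ℝ} (C : ℝ) (h : ∀ᶠ x in l, |f x| ≤ C * g x) :
    f =O[l] g := IsBigO.of_bound |C| (h.mono fun x hx => by
  rw [norm_eq_abs, norm_eq_abs, ← abs_mul]; exact hx.trans (le_abs_self _))

/-! ## the scales -/

noncomputable def rho (r : ℕ) : ℕ := ⌈(r : ℝ) / log r ^ 3⌉₊

noncomputable def nn (a W r : ℕ) : ℕ := Nat.log W (r / (128 * (a * rho r)))

noncomputable def r2 (a W r : ℕ) : ℕ := W ^ nn a W r * rho r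

noncomputable def r3 (a W r : ℕ) : ℕ := 8 * (a * r2 a W r)

noncomputable def SS (r : ℕ) : ℕ := ⌈(r : ℝ) * log r ^ 2⌉₊

structure Sc (a W r : ℕ) : Prop where
  t4 : 4 ≤ log r
  h1 : (r : ℝ) ≤ rho r * log r ^ 3
  h2 : rho r * log r ^ 2 ≤ r
  h3 : 128 * (a * r2 a W r) ≤ r
  h4 : r ≤ 128 * (a * (W ^ (nn a W r + 1) * rho r))
  h5 : log r / 2 ≤ log (rho r)
  h6 : log r ≤ (W : ℝ) ^ nn a W r
  h7 : rho r ≤ r2 a W r
  s1 : r * log r ^ 2 ≤ SS r
  s2 : ((2 * SS r + r : ℕ) : ℝ) ≤ r * log r ^ 8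
  s3 : 16 * r ≤ SS r

theorem tend_log : Tendsto (fun r : ℕ => log r) atTop atTop :=
  tendsto_log_atTop.comp tendsto_natCast_atTop_atTop

theorem ev_sqrt : ∀ᶠ r : ℕ in atTop, √(r : ℝ) ≤ rho r := by
  have h := (isLittleO_log_rpow_rpow_atTop (3 : ℕ) (s := 1 / 2) (by norm_num)).eventuallyLE
  filter_upwards [tendsto_natCast_atTop_atTop.eventually h, tend_log.eventually_ge_atTop 1] with r h h1
  refine le_trans ?_ (Nat.le_ceil _)
  rw [rpow_natCast, ← sqrt_eq_rpow, norm_of_nonneg (by positivity), norm_of_nonneg (sqrt_nonneg _)] at h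
  rw [le_div_iff₀ (by positivity)]
  calc _ ≤ √(r : ℝ) * √(r : ℝ) := by gcongr
    _ = r := mul_self_sqrt (Nat.cast_nonneg r)

theorem ev_rho (k : ℕ) : ∀ᶠ r : ℕ in atTop, k ≤ rho r := by
  filter_upwards [ev_sqrt, eventually_ge_atTop (k ^ 2)] with r h h1
  have : (k : ℝ) ≤ √(r : ℝ) := le_sqrt_of_sq_le (by exact_mod_cast h1)
  exact_mod_cast this.trans h

theorem ev_sc {a W : ℕ} (ha : 1 ≤ a) (hW : 2 ≤ W) : ∀ᶠ r : ℕ in atTop, Sc a W r := by
  filter_upwards [ev_sqrt, ev_rho 2, tend_log.eventually_ge_atTop 4,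
    tend_log.eventually_ge_atTop (128 * (a * W)), eventually_ge_atTop 1] with r hs h2 t4 ta r1
  have r1' : (1 : ℝ) ≤ r := by exact_mod_cast r1
  have a1 : (1 : ℝ) ≤ a := by exact_mod_cast ha
  have W1 : (2 : ℝ) ≤ W := by exact_mod_cast hW
  have t0 : 0 < log (r : ℝ) := by linarith
  have ρ2 : (2 : ℝ) ≤ rho r := by exact_mod_cast h2
  have h1 : (r : ℝ) ≤ rho r * log r ^ 3 := (div_le_iff₀ (by positivity)).1 (Nat.le_ceil _)
  have h2' : rho r * log r ^ 2 ≤ r := by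
    have : (rho r : ℝ) < r / log r ^ 3 + 1 := Nat.ceil_lt_add_one (by positivity)
    have h : (rho r : ℝ) / 2 ≤ r / log r ^ 3 := by linarith
    rw [le_div_iff₀ (by positivity)] at h
    nlinarith [mul_pos (mul_pos (show (0 : ℝ) < rho r by linarith) (pow_pos t0 2)) t0,
      mul_pos (show (0 : ℝ) < rho r by linarith) (pow_pos t0 2)]
  have p0 : 0 < 128 * (a * rho r) := by positivity
  have aW : 128 * (a : ℝ) ≤ log r := by nlinarith
  have p1 : 128 * (a * rho r) ≤ r := by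
    have : 128 * ((a : ℝ) * rho r) ≤ r := by nlinarith
    exact_mod_cast this
  have h3 := (Nat.le_div_iff_mul_le p0).1 (Nat.pow_log_le_self W (Nat.div_pos p1 p0).ne')
  have h4 := (Nat.div_lt_iff_lt_mul p0).1
    (Nat.lt_pow_succ_log_self (show 1 < W by omega) (r / (128 * (a * rho r))))
  have h4' : r ≤ 128 * (a * (W ^ (nn a W r + 1) * rho r)) := h4.le.trans_eq (by rw [nn, Nat.succ_eq_add_one]; ring)
  have s1 : r * log r ^ 2 ≤ SS r := Nat.le_ceil _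
  refine ⟨t4, h1, h2', le_of_eq_of_le (by rw [r2, nn]; ring) h3, h4', ?_, ?_,
    Nat.le_mul_of_pos_left _ (by positivity), s1, ?_, ?_⟩
  · rw [← log_sqrt (Nat.cast_nonneg r)]; exact log_le_log (by positivity) hs
  · have h : (r : ℝ) ≤ 128 * (a * W) * W ^ nn a W r * rho r := by
      have : (r : ℝ) ≤ ((128 * (a * (W ^ (nn a W r + 1) * rho r)) : ℕ) : ℝ) := by exact_mod_cast h4'
      push_cast at this; exact this.trans_eq (by ring)
    have h' : rho r * (log r * log r) ≤ rho r * (log r * W ^ nn a W r) := calc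
      _ ≤ (r : ℝ) := by rw [← pow_two]; exact h2'
      _ ≤ _ := h
      _ ≤ log r * W ^ nn a W r * rho r := by gcongr
      _ = _ := by ring
    exact le_of_mul_le_mul_left (le_of_mul_le_mul_left h' (by linarith)) t0
  · have : (SS r : ℝ) < r * log r ^ 2 + 1 := Nat.ceil_lt_add_one (by positivity)
    have u : (16 : ℝ) ≤ log r ^ 2 := by nlinarith
    have u2 : log (r : ℝ) ^ 2 * 16 ≤ log r ^ 8 := calc
      _ ≤ log (r : ℝ) ^ 2 * (log r ^ 2 * (1 * 1)) := by rw [mul_one, mul_one]; gcongr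
      _ ≤ log (r : ℝ) ^ 2 * (log r ^ 2 * (log r ^ 2 * log r ^ 2)) := by gcongr <;> linarith
      _ = _ := by ring
    push_cast
    nlinarith
  · have u : (16 : ℝ) ≤ log r ^ 2 := by nlinarith
    have : 16 * (r : ℝ) ≤ SS r := by nlinarith
    exact_mod_cast this

/-! ## two by two -/

/-- the solution of `∑ i, a i * M i j = b j` -/
noncomputable def cr (M : Fin 2 → Fin 2 → ℝ) (b : Fin 2 → ℝ) : Fin 2 → ℝ :=
  ![(b 0 * M 1 1 - b 1 * M 1 0) / (M 0 0 * M 1 1 - M 0 1 * M 1 0),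
    (b 1 * M 0 0 - b 0 * M 0 1) / (M 0 0 * M 1 1 - M 0 1 * M 1 0)]

theorem cramer {M : Fin 2 → Fin 2 → ℝ} {g : ℝ} (h1 : 1 / 2 ≤ g) (h2 : g ≤ 1)
    (hM : ∀ i j, |M i j - if i = j then g else 0| ≤ 1 / 8) (b : Fin 2 → ℝ) :
    (∀ j, cr M b 0 * M 0 j + cr M b 1 * M 1 j = b j) ∧ ∀ i, |cr M b i| ≤ 9 * (|b 0| + |b 1|) := by
  have a := abs_le.1 (hM 0 0)
  have b' := abs_le.1 (hM 0 1)
  have c := abs_le.1 (hM 1 0)
  have d := abs_le.1 (hM 1 1)
  simp only [if_true, zero_ne_one, one_ne_zero, if_false, sub_zero] at a b' c d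
  have hd : 1 / 8 ≤ M 0 0 * M 1 1 - M 0 1 * M 1 0 := by nlinarith
  have h0 : M 0 0 * M 1 1 - M 0 1 * M 1 0 ≠ 0 := by linarith
  have key : ∀ x y u v : ℝ, |u| ≤ 9 / 8 → |v| ≤ 9 / 8 →
      |(x * u - y * v) / (M 0 0 * M 1 1 - M 0 1 * M 1 0)| ≤ 9 * (|x| + |y|) := fun x y u v hu hv => by
    rw [abs_div, abs_of_pos (by linarith : 0 < M 0 0 * M 1 1 - M 0 1 * M 1 0), div_le_iff₀ (by linarith)]
    refine (abs_sub _ _).trans ?_
    rw [abs_mul, abs_mul]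
    nlinarith [abs_nonneg x, abs_nonneg y]
  refine ⟨Fin.forall_fin_two.2 ⟨?_, ?_⟩, Fin.forall_fin_two.2 ⟨?_, ?_⟩⟩
  · simp only [cr, Matrix.cons_val_zero, Matrix.cons_val_one]
    rw [div_mul_eq_mul_div, div_mul_eq_mul_div, ← add_div, div_eq_iff h0]; ring
  · simp only [cr, Matrix.cons_val_zero, Matrix.cons_val_one]
    rw [div_mul_eq_mul_div, div_mul_eq_mul_div, ← add_div, div_eq_iff h0]; ring
  · exact key _ _ _ _ (abs_le.2 ⟨by linarith, by linarith⟩) (abs_le.2 ⟨by linarith, by linarith⟩)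
  · rw [add_comm]
    exact key _ _ _ _ (abs_le.2 ⟨by linarith, by linarith⟩) (abs_le.2 ⟨by linarith, by linarith⟩)

theorem gc_bd {r : ℕ} (h : 4 ≤ log r) : 1 / 2 ≤ gc r ∧ gc r ≤ 1 := by
  have p3 := pi_gt_three
  have p4 := pi_lt_four
  have a1 : 1 / 2 ≤ 2 / π := by rw [div_le_div_iff₀ (by norm_num) pi_pos]; linarith
  have a2 : 2 / π ≤ 2 / 3 := by gcongr
  have a3 : 0 ≤ 1 / (π * log r) := by positivity
  have a4 : 1 / (π * log r) ≤ 1 / (3 * 4) := by gcongr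
  rw [gc]; constructor <;> linarith

end Crest.Agent.T145.Vx.X87
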