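import Crest.Agent.T145.VxXA_87
import Crest.Agent.T145.VxBas_30

/-!
# Row 145, twisted module, X part B (helper87): the purified micro move at one core
-/

set_option autoImplicit false

namespace Crest.Agent.T145.Vx.X87

open Finset Filter Topology Asymptotics Real B30
open Nc (Amb)

/-- the inputs -/
structure Hy (P : Par) (W : ℕ) : Prop where
  ok : P.Ok
  w16 : 16 ≤ W
  ly : Ly P W
  tr : TrStmt
  cov : CovStmt
  mic : MicStmt
  lin : LinStmt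
  y : YStmt
  uc : UcStmt
  dip : DipStmt
  lv : LvStmt
  pur : PurStmt
  rw : RwStmt
  cal : CalStmt
  apr : AprStmt

theorem ins_Dv {b : ℝ} (hb : 0 < b) (V : Vp) : Ins V.p 1 (Dv b V) :=
  ⟨Inf48.depG_mv (xyL b) V.σ
    (by unfold Vp.e Vp.p; split_ifs <;> simp only [mem_bl] <;> omega)
    (by unfold Vp.e Vp.p; split_ifs <;> simp only [mem_bl] <;> omega), Inf48.tame_mv hb V.σ V.e⟩

theorem Chg.sup {p : Pt} {D c : ℕ} {A : ℝ} {g : Pt → ℝ} (h : Chg p D c A g) : Sup (bl p (c * D)) g :=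
  fun z hz => by_contra fun e => hz (mem_bl_ds.2 (h.1 z e).2)

theorem Chg.ins {p : Pt} {D c : ℕ} {A : ℝ} {g : Pt → ℝ} (h : Chg p D c A g) : Ins p (c * D) (pr g) :=
  ⟨DepG.pr (Chg.sup h) h.2.1, Tame.hom _⟩

/-- recentring a far shell -/
theorem Chg.move {p q : Pt} {D r : ℕ} {A : ℝ} {g : Pt → ℝ} (h : Chg q D 3 A g) (hr : ds q p = r)
    (hD : 5 * r < D) (hA : 0 ≤ A) : Chg p (D - r) 4 A g := by
  refine ⟨fun z hz => ?_, ?_, fun z => (h.2.2 z).trans ?_⟩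
  · have := h.1 z hz
    have := ds_tri z q p
    have := ds_tri z p q
    have := ds_comm p q
    omega
  · rw [← h.2.1]
    exact (sum_subset (bl_sub (by omega)) fun z _ hz => Chg.sup h z hz).symm
  · exact div_le_div_of_nonneg_left hA (by exact_mod_cast (by omega : 0 < D - r))
      (by exact_mod_cast Nat.sub_le D r)

theorem cv_Y (hY : YStmt) {W F : Cfg Pt → ℝ} (hW : Wt W) (hS : SE W) (hF : Tame F) (σ : Pt × Pt → ℤ)
    {S : Finset Pt} {u : Pt → ℝ} (hu : Sup S u) : Cv W F (Yv σ u) = Cv W F (pr (A0 u)) := by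
  obtain ⟨-, h, -, ht, -⟩ := hY σ S u hu
  rw [← cv_sub_const hW hS hF ht 0 (∑ᶠ z, ∑ i, df i u z * σ (z, z + ev i))]
  simp only [h, sub_zero, add_sub_cancel_right]

/-- a function supported near `q` is flat at `p` -/
theorem flat_of_sup {p q : Pt} {r n : ℕ} {A : ℝ} {u : Pt → ℝ} (hu : Sup (bl q n) u) (hr : ds p q = r)
    (hn : 8 * n ≤ r) (h8 : 8 ≤ r) (hA : 0 ≤ A) : Flat p r A u := fun z hz => by
  have key : ∀ w, ds w z ≤ 2 → u w = 0 := fun w hw => hu w fun h => by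
    have := mem_bl_ds.1 h
    have := ds_tri p z q
    have := ds_tri z w q
    have := ds_comm z p
    have := ds_comm z w
    omega
  refine ⟨?_, fun i j => ?_⟩
  · rw [A0, key z (by simp [ds]), key (z + _) (by simp [ds]), key (z + _) (by simp [ds]),
      key (z + _) (by simp [ds]), key (z + _) (by simp [ds])]
    ring
  · have e : ∀ i, ds (ev i) 0 = 1 := by decide
    have e2 : ∀ i j, ds (ev i + ev j) 0 ≤ 2 := by decide
    rw [df, df, df, key z (by simp [ds]), key (z + ev j) (by rw [ds_add, e]; omega),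
      key (z + ev i) (by rw [ds_add, e]; omega), key _ (by rw [add_assoc, ds_add]; exact e2 _ _)]
    simp only [sub_self, abs_zero]; positivity

section defs
variable (P : Par) (W : ℕ) (x : Vp × ℕ)

noncomputable def md : Mdl Pt := P.L.D (faces x.2)
noncomputable def wt : Cfg Pt → ℝ := (md P x).Ws 0 x.1.σ
noncomputable def ff (i : Fin 2) : Cfg Pt → ℝ := pr (fd x.1.p (rho x.1.r) i)
noncomputable def MM (i j : Fin 2) : ℝ := lf x.1 (md P x) (r3 P.W₀ W x.1.r) (ff x i) j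
noncomputable def bb (j : Fin 2) : ℝ := lf x.1 (md P x) (r3 P.W₀ W x.1.r) (Dv P.b x.1) j
noncomputable def aa : Fin 2 → ℝ := cr (MM P W x) (bb P W x)
noncomputable def RR : Cfg Pt → ℝ := fun s =>
  Dv P.b x.1 s - (aa P W x 0 * ff x 0 s + aa P W x 1 * ff x 1 s)
noncomputable def mu : ℝ := rho x.1.r * P.ν x.1 (rho x.1.r) (RR P W x)
noncomputable def tau : ℝ := x.1.t ^ (-1 - P.δ)
noncomputable def EE : ℝ := Ex (wt P x) (Dv P.b x.1)

end defs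

theorem tame_ff (x : Vp × ℕ) (i : Fin 2) : Tame (ff x i) := Tame.hom _

theorem tend_t : Tendsto (fun x : Vp × ℕ => x.1.t) FF atTop :=
  tendsto_atTop.2 fun c => evr (tend_log.eventually_ge_atTop c)

theorem le_tau {P : Par} {c : ℝ} (hc : c ≤ -1 - P.δ) : (fun x : Vp × ℕ => x.1.t ^ c) =O[FF] tau P :=
  ofb 1 ((tend_t.eventually_ge_atTop 1).mono fun x hx => by
    rw [abs_of_nonneg (rpow_nonneg (by linarith) _), one_mul]
    exact rpow_le_rpow_of_exponent_le hx hc)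

namespace Hy
variable {P : Par} {W : ℕ} (h : Hy P W)
include h

theorem sc : ∀ᶠ x in FF, Sc P.W₀ W x.1.r :=
  evr (ev_sc (by have := h.ok.W2; omega) (by have := h.w16; omega))

theorem amb (c : Vp → Pt) (N : Vp → ℕ) : ∀ᶠ x in FF, Amb P.L (md P x) (bl (c x.1) (N x.1)) :=
  ev_amb (lok h.ok) c N

theorem wt' (x : Vp × ℕ) : Wt (wt P x) := wt_D (lok h.ok) _ _ _
theorem se (x : Vp × ℕ) : SE (wt P x) := se_D (lok h.ok) _ _ _
theorem tame_D (V : Vp) : Tame (Dv P.b V) := (ins_Dv (b_pos h.ok) V).2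
theorem tame_R (x : Vp × ℕ) : Tame (RR P W x) :=
  (h.tame_D _).sub (((tame_ff x 0).const_mul _).add ((tame_ff x 1).const_mul _))

theorem tau0 : Tendsto (tau P) FF (𝓝 0) := by
  have := (tendsto_rpow_neg_atTop (y := 1 + P.δ) (by linarith [h.ok.δ0])).comp tend_t
  rwa [neg_add, ← sub_eq_add_neg] at this

theorem tau1 : tau P =O[FF] fun _ => (1 : ℝ) := h.tau0.isBigO_one ℝ

theorem E_bd : ∃ c : ℝ, 0 < c ∧ (∀ᶠ x in FF, c ≤ EE P x) ∧ EE P =O[FF] fun _ => (1 : ℝ) := by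
  obtain ⟨c, C, r₁, hc, H⟩ := (h.mic P h.ok).2
  have : ∀ᶠ x in FF, c ≤ EE P x ∧ EE P x ≤ C := by
    filter_upwards [evr (eventually_ge_atTop r₁), h.amb Vp.p fun V => 4 * V.r] with x h1 h2
    exact ⟨(H x.1 _ h1 h2).1, (H x.1 _ h1 h2).2.1⟩
  exact ⟨c, hc, this.mono fun _ h => h.1, ofb C (this.mono fun _ h => by
    rw [abs_of_pos (hc.trans_le h.1), mul_one]; exact h.2)⟩

theorem E_inv : (fun x => (EE P x)⁻¹) =O[FF] fun _ => (1 : ℝ) := by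
  obtain ⟨c, hc, H, -⟩ := h.E_bd
  exact ofb c⁻¹ (H.mono fun x hx => by
    rw [abs_of_pos (inv_pos.2 (hc.trans_le hx)), mul_one]; exact inv_anti₀ hc hx)

theorem b_bd (j : Fin 2) : (fun x => bb P W x j) =O[FF] fun _ => (1 : ℝ) := by
  obtain ⟨C, r₁, H⟩ := h.lin P h.ok 3 (by norm_num)
  obtain ⟨A, hU⟩ := h.uc
  obtain ⟨M, hM⟩ := h.apr P h.ok
  refine ofb (|C| * |A| * (8 * P.W₀) * M) ?_
  filter_upwards [h.sc, evr (ev_rho (r₁ + P.r₀ + 1)), evr (eventually_ge_atTop r₁),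
    h.amb Vp.p fun V => 4 * V.r] with x s h1 h2 h3
  have w := four_le h.ok (ρ := r2 P.W₀ W x.1.r)
  have s3 := s.h3
  have s7 := s.h7
  have e3 : r3 P.W₀ W x.1.r = 8 * (P.W₀ * r2 P.W₀ W x.1.r) := rfl
  obtain ⟨u1, u2, -⟩ := hU x.1.p (r3 P.W₀ W x.1.r) j (by omega)
  have := ((H x.1 _ A _ (by omega) h2 u2 (Or.inl (by omega))).1 _ h3
    (amb_mono h3 (bl_mono _ (by omega)))).2 (r2 P.W₀ W x.1.r) _ (by omega) (by omega) (by omega)
    (Or.inl (by omega)) (ins_le (ins_Dv (b_pos h.ok) x.1) (by omega))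
  have e : bb P W x j = _ := cv_Y h.y (h.wt' x) (h.se x) (h.tame_D _) x.1.σ u1
  have hν := ν_nonneg h.ok x.1 (r2 P.W₀ W x.1.r) (Dv P.b x.1)
  have hD : ((r3 P.W₀ W x.1.r - 1 : ℕ) : ℝ) ≤ 8 * P.W₀ * r2 P.W₀ W x.1.r := by
    exact_mod_cast (by rw [mul_assoc]; omega : r3 P.W₀ W x.1.r - 1 ≤ 8 * P.W₀ * r2 P.W₀ W x.1.r)
  rw [e, mul_one]
  refine this.trans ((le_abs_self _).trans ?_)
  rw [abs_mul, abs_mul, abs_mul, abs_of_nonneg hν, Nat.abs_cast]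
  calc _ ≤ |C| * P.ν x.1 (r2 P.W₀ W x.1.r) (Dv P.b x.1) * (|A| * (8 * P.W₀ * r2 P.W₀ W x.1.r)) := by gcongr
    _ = |C| * |A| * (8 * P.W₀) * (r2 P.W₀ W x.1.r * P.ν x.1 (r2 P.W₀ W x.1.r) (Dv P.b x.1)) := by ring
    _ ≤ _ := by gcongr; exact hM x.1 _ (by omega) (by omega)

theorem lv' : ∃ C : ℝ, ∀ᶠ x in FF, ∀ i j : Fin 2,
    |MM P W x i j - if i = j then gc x.1.r else 0| ≤ C * tau P x ∧
    |lf x.1 (md P x) (r3 P.W₀ W x.1.r) (ff (sw x) i) j| ≤ C * tau P x ∧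
    |(x.1.r : ℝ) ^ 2 * Cv (wt P x) (ff x i) (ff (sw x) j)| ≤ C * 1 ∧
    |(x.1.r : ℝ) ^ 2 * Cv (wt P x) (ff x 1) (ff (sw x) 1) - gc x.1.r / (2 * π)| ≤ C * tau P x := by
  obtain ⟨C, r₁, H⟩ := h.lv P h.ok
  choose! R H using H
  refine ⟨C, ?_⟩
  filter_upwards [h.sc, evr (ev_rho 1), evr (eventually_ge_atTop r₁), h.amb Vp.p R] with x s h1 h2 h3 i j
  have w := four_le h.ok (ρ := r2 P.W₀ W x.1.r)
  have s3 := s.h3
  have s7 := s.h7
  have e3 : r3 P.W₀ W x.1.r = 8 * (P.W₀ * r2 P.W₀ W x.1.r) := rfl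
  obtain ⟨a, b⟩ := H x.1 h2 _ _ h3 s.h1 i j
  obtain ⟨a1, a2⟩ := a (r3 P.W₀ W x.1.r) (by omega) (by omega)
  obtain ⟨b1, b2⟩ := b s.h2
  exact ⟨a1, a2, b1.trans_eq (mul_one _).symm, b2⟩

theorem a_bd : ∀ᶠ x in FF,
    (∀ j, aa P W x 0 * MM P W x 0 j + aa P W x 1 * MM P W x 1 j = bb P W x j) ∧
      ∀ i, |aa P W x i| ≤ 9 * (|bb P W x 0| + |bb P W x 1|) := by
  obtain ⟨C, H⟩ := h.lv'
  have := h.tau0.const_mul C
  rw [mul_zero] at this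
  filter_upwards [h.sc, H, this.eventually_le_const (show (0 : ℝ) < 1 / 8 by norm_num)] with x s H h1
  exact cramer (gc_bd s.t4).1 (gc_bd s.t4).2 (fun i j => (H i j).1.trans h1) _

theorem a_one (i : Fin 2) : (fun x => aa P W x i) =O[FF] fun _ => (1 : ℝ) :=
  (ofb 9 (h.a_bd.mono fun _ hx => hx.2 i)).trans ((h.b_bd 0).abs_left.add (h.b_bd 1).abs_left)

theorem lf_R (x : Vp × ℕ) (σ : Pt × Pt → ℤ) {S : Finset Pt} {u : Pt → ℝ} (hu : Sup S u) :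
    Cv (wt P x) (RR P W x) (Yv σ u) = Cv (wt P x) (Dv P.b x.1) (Yv σ u) -
      (aa P W x 0 * Cv (wt P x) (ff x 0) (Yv σ u) + aa P W x 1 * Cv (wt P x) (ff x 1) (Yv σ u)) := by
  have ht := (h.y σ S u hu).2.2.2.1
  rw [← Cv_const_mul_left, ← Cv_const_mul_left, ← cv_add_left (h.se x) ((tame_ff x 0).const_mul _)
    ((tame_ff x 1).const_mul _) ht, ← cv_sub_left (h.se x) (h.tame_D _)
    (((tame_ff x 0).const_mul _).add ((tame_ff x 1).const_mul _)) ht]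
  rfl

theorem ins_f : ∀ᶠ x in FF, ∀ i, Ins x.1.p (rho x.1.r + 1) (ff x i) := by
  obtain ⟨A, hD⟩ := h.dip
  filter_upwards [evr (ev_rho 32)] with x h1 i
  exact ins_le (Chg.ins (hD x.1.p _ _ i h1 le_rfl).1) (by omega)

theorem ins_R : ∀ᶠ x in FF, Ins x.1.p (rho x.1.r + 1) (RR P W x) := h.ins_f.mono fun x hx =>
  ins_sub (ins_le (ins_Dv (b_pos h.ok) x.1) (by omega)) (ins_add (ins_smul (hx 0) _) (ins_smul (hx 1) _))

theorem kill : ∀ᶠ x in FF, ∀ j, lf x.1 (md P x) (r3 P.W₀ W x.1.r) (RR P W x) j = 0 := by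
  obtain ⟨A, hU⟩ := h.uc
  filter_upwards [h.a_bd, h.sc, evr (ev_rho 1)] with x hx s h1 j
  have w := four_le h.ok (ρ := r2 P.W₀ W x.1.r)
  have s7 := s.h7
  exact (h.lf_R x _ (hU x.1.p (r3 P.W₀ W x.1.r) j (by rw [r3]; omega)).1).trans (sub_eq_zero.2 (hx.1 j).symm)

theorem nu_f (i : Fin 2) :
    (fun x => (rho x.1.r : ℝ) * P.ν x.1 (rho x.1.r) (ff x i)) =O[FF] fun _ => (1 : ℝ) := by
  obtain ⟨C, r₁, H⟩ := h.lin P h.ok 8 (by norm_num)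
  obtain ⟨A, hD⟩ := h.dip
  refine ofb (|C| * |A|) ?_
  filter_upwards [h.sc, evr (ev_rho (8 * r₁ + 32)), evr (eventually_ge_atTop r₁)] with x s h1 h2
  have w := four_le h.ok (ρ := r2 P.W₀ W x.1.r)
  have w' := Nat.mul_le_mul_left P.W₀ s.h7
  have s3 := s.h3
  have s7 := s.h7
  have := (H x.1 _ _ _ (by omega) h2 (hD x.1.p (rho x.1.r) _ i (by omega) le_rfl).1 (Or.inl (by omega))).2
    (rho x.1.r) (by omega) (by omega) (by omega)
  have ρ0 : (0 : ℝ) < rho x.1.r := by exact_mod_cast (by omega : 0 < rho x.1.r)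
  have hD : ((rho x.1.r / 8 : ℕ) : ℝ) ≤ rho x.1.r := by exact_mod_cast Nat.div_le_self _ _
  rw [abs_of_nonneg (mul_nonneg ρ0.le (ν_nonneg h.ok _ _ _)), mul_one]
  refine (mul_le_mul_of_nonneg_left (this.trans (le_abs_self _)) ρ0.le).trans ?_
  rw [abs_mul, abs_mul, abs_div, Nat.abs_cast, abs_of_pos (pow_pos ρ0 2)]
  calc _ ≤ (rho x.1.r : ℝ) * (|C| * (|A| / (rho x.1.r : ℝ) ^ 2) * rho x.1.r) := by gcongr
    _ = _ := by field_simp

theorem mu_one : mu P W =O[FF] fun _ => (1 : ℝ) := by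
  obtain ⟨M, hM⟩ := h.apr P h.ok
  have h0 : (fun x : Vp × ℕ => (rho x.1.r : ℝ) * P.ν x.1 (rho x.1.r) (Dv P.b x.1)) =O[FF]
      fun _ => (1 : ℝ) := by
    refine ofb M ?_
    filter_upwards [h.sc, evr (ev_rho P.r₀)] with x s h1
    have w' := Nat.mul_le_mul_left P.W₀ s.h7
    have s3 := s.h3
    rw [abs_of_nonneg (mul_nonneg (Nat.cast_nonneg _) (ν_nonneg h.ok _ _ _)), mul_one]
    exact hM x.1 _ h1 (by omega)
  have h1 := fun i => ((h.a_one i).abs_left.mul (h.nu_f i)).congr_right fun _ => mul_one _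
  refine (ofb 1 ?_).trans (h0.add ((h1 0).add (h1 1)))
  filter_upwards [h.ins_f] with x hx
  rw [mu, abs_of_nonneg (mul_nonneg (Nat.cast_nonneg _) (ν_nonneg h.ok _ _ _)), one_mul]
  have a1 := ν_sub_le h.ok h.tr (ins_le (ins_Dv (b_pos h.ok) x.1) (by omega))
    (ins_add (ins_smul (hx 0) (aa P W x 0)) (ins_smul (hx 1) (aa P W x 1)))
  have a2 := ν_add_le h.ok h.tr (ins_smul (hx 0) (aa P W x 0)) (ins_smul (hx 1) (aa P W x 1))
  rw [ν_smul, ν_smul] at a2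
  exact (mul_le_mul_of_nonneg_left (a1.trans (add_le_add le_rfl a2)) (Nat.cast_nonneg _)).trans_eq
    (by ring)

theorem pur' : ∀ᶠ x in FF, ∀ k ≤ nn P.W₀ W x.1.r,
    (W ^ k * rho x.1.r : ℕ) * P.ν x.1 (W ^ k * rho x.1.r) (RR P W x) ≤
      mu P W x * (x.1.t ^ (-(3 / 4 : ℝ)) + ((W : ℝ) ^ k) ^ (-(3 / 4 : ℝ))) := by
  obtain ⟨r₁, H⟩ := h.pur P h.ok W h.w16 h.ly
  choose! R H using H
  filter_upwards [h.sc, evr (eventually_ge_atTop r₁), h.amb Vp.p R, h.ins_R, h.kill] with x s a b h1 h2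
  exact H x.1 a _ _ _ _ b s.h1 s.h3 h1 h2

theorem rw' : ∃ C : ℝ, ∀ᶠ x in FF, ∀ (S : ℕ) (A : ℝ) (u : Pt → ℝ), (S : ℝ) ≤ x.1.r * x.1.t ^ 8 →
    Sup (bl x.1.p S) u → Dip x.1.q (rho x.1.r) A u → Flat x.1.p x.1.r A u →
    |Cv (wt P x) (RR P W x) (Yv x.1.σ u)| ≤
      C * A * mu P W x * x.1.t ^ (-(3 / 2 : ℝ)) / (x.1.r : ℝ) ^ 2 := by
  obtain ⟨C, r₁, H⟩ := h.rw P h.ok W h.w16
  choose! R H using H
  refine ⟨C, ?_⟩
  filter_upwards [h.sc, evr (eventually_ge_atTop r₁), h.amb Vp.p R, h.ins_R, h.kill, h.pur']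
    with x s a b h1 h2 h3 S A u
  exact H x.1 a _ _ _ S A _ _ u b s.h1 s.h2 s.h3 s.h4 h1 h2 h3

theorem mu_tau : (fun x => mu P W x * x.1.t ^ (-(3 / 2 : ℝ))) =O[FF] tau P :=
  (h.mu_one.mul (le_tau (by linarith [h.ok.δ1]))).congr_right fun _ => one_mul _

theorem nu_R : (fun x => (x.1.r : ℝ) * P.ν x.1 (r2 P.W₀ W x.1.r) (RR P W x)) =O[FF]
    fun x => x.1.t ^ (-(3 / 4 : ℝ)) := by
  refine (ofb (g := fun x => mu P W x * x.1.t ^ (-(3 / 4 : ℝ))) (256 * P.W₀ * W) ?_).trans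
    ((h.mu_one.mul (isBigO_refl _ _)).congr_right fun _ => one_mul _)
  filter_upwards [h.sc, h.pur'] with x s H
  have hν := ν_nonneg h.ok x.1 (r2 P.W₀ W x.1.r) (RR P W x)
  have hμ : 0 ≤ mu P W x := mul_nonneg (Nat.cast_nonneg _) (ν_nonneg h.ok _ _ _)
  have a1 : (x.1.r : ℝ) ≤ 128 * P.W₀ * W * r2 P.W₀ W x.1.r := by
    exact_mod_cast s.h4.trans_eq (by rw [r2]; ring)
  have a2 : ((W : ℝ) ^ nn P.W₀ W x.1.r) ^ (-(3 / 4 : ℝ)) ≤ x.1.t ^ (-(3 / 4 : ℝ)) :=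
    rpow_le_rpow_of_nonpos (by linarith [s.t4] : 0 < log x.1.r) s.h6 (by norm_num)
  rw [abs_of_nonneg (mul_nonneg (Nat.cast_nonneg _) hν)]
  calc _ ≤ 128 * P.W₀ * W * r2 P.W₀ W x.1.r * P.ν x.1 (r2 P.W₀ W x.1.r) (RR P W x) := by gcongr
    _ = 128 * P.W₀ * W * (r2 P.W₀ W x.1.r * P.ν x.1 (r2 P.W₀ W x.1.r) (RR P W x)) := by ring
    _ ≤ 128 * P.W₀ * W * (mu P W x * (x.1.t ^ (-(3 / 4 : ℝ)) + x.1.t ^ (-(3 / 4 : ℝ)))) := by
        exact mul_le_mul_of_nonneg_left ((H _ le_rfl).trans (by gcongr)) (by positivity)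
    _ = _ := by ring

end Hy

end Crest.Agent.T145.Vx.X87
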