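import Crest.Agent.T145.XyB_48
import Crest.Agent.T145.Def_97
import Crest.Prelude.Def_XY

/-!
# Row 145, XY duality, part C (helper48): from spins to dual heights

* `twoPoint_eq` : random-current form of the two point function on any finite `V`
* `xy_dual`     : `xyBoxCorrelation b R r = Zs (m.Ws 0 (seam r)) / Zs (m.W 0)` for the model `m` of
  heights on the faces of the box (outer face pinned at `0`) with kernels `bes b`
-/

set_option autoImplicit false
set_option linter.unusedSectionVars false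

open Finset MeasureTheory Crest.ProbabilityR.SpinModel

noncomputable section

namespace Crest.Agent.T145.Xy48

theorem bes_eq : bes = besI := rfl

/-- the edges inside `V` -/
def EF (V : Finset (ℤ × ℤ)) : Finset ((ℤ × ℤ) × Fin 2) :=
  (V ×ˢ univ).filter fun p => p.1 + latticeDir p.2 ∈ V

variable {V : Finset (ℤ × ℤ)}

theorem mem_EF {p : (ℤ × ℤ) × Fin 2} : p ∈ EF V ↔ p.1 ∈ V ∧ p.1 + latticeDir p.2 ∈ V := by
  simp [EF]

/-- source of an edge -/
def sE (V : Finset (ℤ × ℤ)) (e : EF V) : V := ⟨e.1.1, (mem_EF.1 e.2).1⟩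

/-- target of an edge -/
def tE (V : Finset (ℤ × ℤ)) (e : EF V) : V := ⟨e.1.1 + latticeDir e.1.2, (mem_EF.1 e.2).2⟩

theorem interaction_eq (b : ℤ × ℤ → Fin 2 → ℝ) (σ : SpinConfig 2 V) :
    interaction 2 V b σ =
      ∑ e : EF V, b e.1.1 e.1.2 * inner ℝ (σ (sE V e) : E2) (σ (tE V e) : E2) := by
  classical
  set g : (ℤ × ℤ) × Fin 2 → ℝ := fun p => if h : p ∈ EF V then
    b p.1 p.2 * inner ℝ (σ (sE V ⟨p, h⟩) : E2) (σ (tE V ⟨p, h⟩) : E2) else 0 with hg
  have h1 : interaction 2 V b σ = ∑ u : V, ∑ i : Fin 2, g (u, i) := by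
    refine sum_congr rfl fun u _ => sum_congr rfl fun i _ => ?_
    by_cases h : (u : ℤ × ℤ) + latticeDir i ∈ V
    · rw [dif_pos h, hg]
      simp only
      rw [dif_pos (mem_EF.2 ⟨u.2, h⟩)]
      rfl
    · rw [dif_neg h, hg]
      simp only
      rw [dif_neg fun h' => h (mem_EF.1 h').2]
  rw [h1, sum_coe_sort V fun u => ∑ i : Fin 2, g (u, i), ← sum_product (f := g),
    ← sum_subset (filter_subset _ _ : EF V ⊆ _) fun p _ hp => by rw [hg]; exact dif_neg hp,
    ← sum_coe_sort]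
  exact sum_congr rfl fun e _ => by rw [hg]; exact dif_pos e.2

theorem prod_single {ι : Type} [Fintype ι] [DecidableEq ι] {z : ι → ℂ} (hz : ∀ v, z v ≠ 0)
    (x y : ι) : ∏ v, z v ^ (Pi.single x 1 - Pi.single y 1 : ι → ℤ) v = z x * (z y)⁻¹ := by
  have h : ∀ w : ι, ∏ v, z v ^ (Pi.single w 1 : ι → ℤ) v = z w := fun w => by
    rw [prod_eq_single w (fun x _ hx => by rw [Pi.single_eq_of_ne hx, zpow_zero]) (by simp)]
    simp
  simp only [Pi.sub_apply, zpow_sub₀ (hz _), prod_div_distrib, h]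
  rw [div_eq_mul_inv]

/-- random-current form of the two point function -/
theorem twoPoint_eq (b : ℤ × ℤ → Fin 2 → ℝ) (x y : V) :
    twoPoint 2 V b x y =
      cur (sE V) (tE V) (fun e => b e.1.1 e.1.2) (Pi.single y 1 - Pi.single x 1) /
        cur (sE V) (tE V) (fun e => b e.1.1 e.1.2) 0 := by
  set μ : Measure (V → S1) := Measure.pi fun _ => muS with hμ
  set H : (V → S1) → ℝ := fun σ =>
    Real.exp (∑ e : EF V, b e.1.1 e.1.2 * inner ℝ (σ (sE V e) : E2) (σ (tE V e) : E2)) with hH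
  have hHc : Continuous H := by
    rw [hH]
    fun_prop
  have h0 := current (sE V) (tE V) (fun e => b e.1.1 e.1.2) 0
  have h1 := current (sE V) (tE V) (fun e => b e.1.1 e.1.2) (Pi.single y 1 - Pi.single x 1)
  have h2 := current (sE V) (tE V) (fun e => b e.1.1 e.1.2) (Pi.single x 1 - Pi.single y 1)
  rw [← cur_neg, neg_sub] at h2
  simp only [prod_single fun v => cz_ne _] at h1 h2
  simp only [Pi.zero_apply, zpow_zero, prod_const_one, one_mul, integral_complex_ofReal] at h0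
  have hint : ∀ u v : V, Integrable (fun σ : V → S1 => cz (σ u) * (cz (σ v))⁻¹ * (H σ : ℂ)) μ :=
    fun u v => (((continuous_cz.comp (continuous_apply u)).mul
      ((continuous_cz.comp (continuous_apply v)).inv₀ fun _ => cz_ne _)).mul
        (Complex.continuous_ofReal.comp hHc)).integrable_of_hasCompactSupport
          (HasCompactSupport.of_compactSpace _)
  have h3 : ((∫ σ, inner ℝ (σ x : E2) (σ y : E2) * H σ ∂μ : ℝ) : ℂ) = mS ^ Fintype.card V *
      cur (sE V) (tE V) (fun e => b e.1.1 e.1.2) (Pi.single y 1 - Pi.single x 1) := by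
    rw [← integral_complex_ofReal]
    have h4 : ∀ σ : V → S1, ((inner ℝ (σ x : E2) (σ y : E2) * H σ : ℝ) : ℂ) =
        (1 / 2 : ℂ) * (cz (σ x) * (cz (σ y))⁻¹ * (H σ : ℂ) +
          cz (σ y) * (cz (σ x))⁻¹ * (H σ : ℂ)) := fun σ => by
      rw [Complex.ofReal_mul, inner_eq, mul_inv, inv_inv]
      ring
    have h5 : (∫ σ, ((inner ℝ (σ x : E2) (σ y : E2) * H σ : ℝ) : ℂ) ∂μ) =
        (1 / 2 : ℂ) * (∫ σ, cz (σ x) * (cz (σ y))⁻¹ * (H σ : ℂ) ∂μ +
          ∫ σ, cz (σ y) * (cz (σ x))⁻¹ * (H σ : ℂ) ∂μ) := by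
      simp only [h4]
      rw [integral_const_mul, integral_add (hint x y) (hint y x)]
    refine h5.trans ?_
    rw [h1, h2]
    ring
  have h6 : ∫ σ, inner ℝ (σ x : E2) (σ y : E2) * H σ ∂μ = mS ^ Fintype.card V *
      cur (sE V) (tE V) (fun e => b e.1.1 e.1.2) (Pi.single y 1 - Pi.single x 1) := by
    exact_mod_cast h3
  have h7 : ∫ σ, H σ ∂μ = mS ^ Fintype.card V * cur (sE V) (tE V) (fun e => b e.1.1 e.1.2) 0 := by
    exact_mod_cast h0
  unfold twoPoint partitionFn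
  simp only [interaction_eq]
  exact (congrArg₂ (· / ·) h6 h7).trans (mul_div_mul_left _ _ (pow_pos mS_pos _).ne')

/-- extension by zero of a current -/
def ext (k : EF V → ℤ) (p : (ℤ × ℤ) × Fin 2) : ℤ := if h : p ∈ EF V then k ⟨p, h⟩ else 0

theorem ext_val (k : EF V → ℤ) (e : EF V) : ext k e.1 = k e := dif_pos e.2

theorem ext_zero (k : EF V → ℤ) {p : (ℤ × ℤ) × Fin 2} (h : p ∉ EF V) : ext k p = 0 := dif_neg h

theorem sum_ext (k : EF V → ℤ) (q : Fin 2 → ℤ × ℤ) (P : EF V → Prop) [DecidablePred P]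
    (hP : ∀ e, P e ↔ e.1.1 = q e.1.2) :
    ∑ e : EF V, (if P e then k e else 0) = ∑ i, ext k (q i, i) := by
  have h1 : ∀ e : EF V, (if P e then k e else 0) =
      ∑ i, if e.1 = (q i, i) then ext k e.1 else 0 := fun e => by
    rw [sum_eq_single e.1.2 (fun i _ hi => if_neg fun h => hi (by rw [h])) (by simp), ext_val]
    refine if_congr ((hP e).trans ⟨fun h => by rw [← h], fun h => congrArg Prod.fst h⟩) rfl rfl
  simp only [h1]
  rw [sum_coe_sort (EF V) fun p => ∑ i, if p = (q i, i) then ext k p else 0, sum_comm]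
  refine sum_congr rfl fun i _ => ?_
  rw [sum_ite_eq']
  split_ifs with h
  · rfl
  · exact (ext_zero k h).symm

/-- lattice divergence -/
def dL (K : (ℤ × ℤ) × Fin 2 → ℤ) (v : ℤ × ℤ) : ℤ :=
  K (v, 0) + K (v, 1) - K ((v.1 - 1, v.2), 0) - K ((v.1, v.2 - 1), 1)

theorem dv_eq (k : EF V → ℤ) (v : V) : dv (sE V) (tE V) k v = dL (ext k) v := by
  rw [dv, sum_sub_distrib, sum_ext k (fun _ => v) _ fun e => Subtype.ext_iff,
    sum_ext k (fun i => v - latticeDir i) _ fun e => Subtype.ext_iff.trans eq_sub_iff_add_eq.symm]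
  simp only [Fin.sum_univ_two, dL, latticeDir]
  have e1 : (v : ℤ × ℤ) - (1, 0) = ((v : ℤ × ℤ).1 - 1, (v : ℤ × ℤ).2) := by ext <;> simp
  have e2 : (v : ℤ × ℤ) - (0, 1) = ((v : ℤ × ℤ).1, (v : ℤ × ℤ).2 - 1) := by ext <;> simp
  simp only [if_true, one_ne_zero, if_false, e1, e2]
  ring

theorem dL_ext_out (k : EF V → ℤ) {v : ℤ × ℤ} (hv : v ∉ V) : dL (ext k) v = 0 := by
  rw [dL, ext_zero, ext_zero, ext_zero, ext_zero]
  · simp
  all_goals
    intro h
    have h1 := mem_EF.1 h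
    simp only [latticeDir, if_true, one_ne_zero, if_false, Prod.mk_add_mk, sub_add_cancel,
      add_zero] at h1
    tauto

/-- the current of a height function on the faces -/
def crl (s : ℤ × ℤ → ℤ) (p : (ℤ × ℤ) × Fin 2) : ℤ :=
  if p.2 = 0 then s p.1 - s (p.1.1, p.1.2 - 1) else s (p.1.1 - 1, p.1.2) - s p.1

theorem dL_crl (s : ℤ × ℤ → ℤ) (v : ℤ × ℤ) : dL (crl s) v = 0 := by
  simp only [dL, crl, if_true, one_ne_zero, if_false]
  ring

/-- the unit current from `0` to `(r, 0)` -/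
def pth (r : ℕ) (p : (ℤ × ℤ) × Fin 2) : ℤ :=
  if p.2 = 0 ∧ p.1.2 = 0 ∧ 0 ≤ p.1.1 ∧ p.1.1 < r then 1 else 0

theorem dL_pth (r : ℕ) (v : ℤ × ℤ) :
    dL (pth r) v = (if v = (0, 0) then 1 else 0) - if v = ((r : ℤ), 0) then 1 else 0 := by
  obtain ⟨x, y⟩ := v
  simp only [dL, pth, one_ne_zero, false_and, if_false, true_and, Prod.mk.injEq]
  split_ifs <;> omega

/-- the faces of the box -/
def faces (R : ℕ) : Finset (ℤ × ℤ) := Icc (-(R : ℤ)) (R - 1) ×ˢ Icc (-(R : ℤ)) (R - 1)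

theorem mem_faces {R : ℕ} {x : ℤ × ℤ} :
    x ∈ faces R ↔ (-(R : ℤ) ≤ x.1 ∧ x.1 ≤ R - 1) ∧ -(R : ℤ) ≤ x.2 ∧ x.2 ≤ R - 1 := by
  simp [faces]

theorem mem_box {R : ℕ} {x : ℤ × ℤ} :
    x ∈ latticeBox R ↔ (-(R : ℤ) ≤ x.1 ∧ x.1 ≤ R) ∧ -(R : ℤ) ≤ x.2 ∧ x.2 ≤ R := by
  simp [latticeBox]

theorem mem_EF0 {R : ℕ} {x y : ℤ} : ((x, y), (0 : Fin 2)) ∈ EF (latticeBox R) ↔
    (-(R : ℤ) ≤ x ∧ x ≤ R - 1) ∧ -(R : ℤ) ≤ y ∧ y ≤ R := by
  simp only [mem_EF, mem_box, latticeDir, if_true, Prod.mk_add_mk]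
  omega

theorem mem_EF1 {R : ℕ} {x y : ℤ} : ((x, y), (1 : Fin 2)) ∈ EF (latticeBox R) ↔
    (-(R : ℤ) ≤ x ∧ x ≤ R) ∧ -(R : ℤ) ≤ y ∧ y ≤ R - 1 := by
  simp only [mem_EF, mem_box, latticeDir, one_ne_zero, if_false, Prod.mk_add_mk]
  omega

theorem crl_out {R : ℕ} {s : ℤ × ℤ → ℤ} (hs : ∀ x, x ∉ faces R → s x = 0)
    {p : (ℤ × ℤ) × Fin 2} (hp : p ∉ EF (latticeBox R)) : crl s p = 0 := by
  obtain ⟨⟨x, y⟩, i⟩ := p
  fin_cases i
  · have h := mt mem_EF0.2 hp
    simp only [crl, Fin.zero_eta, if_true]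
    rw [hs, hs, sub_zero] <;> rw [mem_faces] <;> simp only <;> omega
  · have h := mt mem_EF1.2 hp
    simp only [crl, Fin.mk_one, one_ne_zero, if_false]
    rw [hs, hs, sub_zero] <;> rw [mem_faces] <;> simp only <;> omega

/-- a divergence free current is the current of a height function -/
theorem exists_crl {R : ℕ} {K : (ℤ × ℤ) × Fin 2 → ℤ} (h0 : ∀ p, p ∉ EF (latticeBox R) → K p = 0)
    (hd : ∀ v, dL K v = 0) :
    ∃ s : Cfg (ℤ × ℤ), (∀ x, x ∉ faces R → s x = 0) ∧ crl s = K := by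
  set h : ℤ × ℤ → ℤ := fun u => ∑ y ∈ Icc (-(R : ℤ)) u.2, K ((u.1, y), 0) with hh
  have hlow : ∀ x y : ℤ, y < -(R : ℤ) → h (x, y) = 0 := fun x y hy => by
    rw [hh]; simp only; rw [Icc_eq_empty (by omega), sum_empty]
  have hH : ∀ x y : ℤ, h (x, y) - h (x, y - 1) = K ((x, y), 0) := fun x y => by
    rcases lt_or_ge y (-(R : ℤ)) with hy | hy
    · rw [hlow x y hy, hlow x _ (by omega), h0 _ (by rw [mem_EF0]; omega), sub_zero]
    · have e : Icc (-(R : ℤ)) y = insert y (Icc (-(R : ℤ)) (y - 1)) := by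
        ext z; simp only [mem_Icc, mem_insert]; omega
      rw [hh]; simp only
      rw [e, sum_insert (by simp)]
      ring
  have hV : ∀ x y : ℤ, h (x - 1, y) - h (x, y) = K ((x, y), 1) := by
    intro x y
    rcases lt_or_ge y (-(R : ℤ)) with hy | hy
    · rw [hlow x y hy, hlow _ y hy, h0 _ (by rw [mem_EF1]; omega), sub_zero]
    · have hy' : -(R : ℤ) - 1 ≤ y := by omega
      clear hy
      induction y, hy' using Int.leInduction with
      | base => rw [hlow x _ (by omega), hlow _ _ (by omega), h0 _ (by rw [mem_EF1]; omega), sub_zero]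
      | succ y hy ih =>
        have h1 := hH x (y + 1)
        have h2 := hH (x - 1) (y + 1)
        have h3 := hd (x, y + 1)
        simp only [dL, add_sub_cancel_right] at h1 h2 h3
        omega
  have hside : ∀ x y : ℤ, (x < -(R : ℤ) ∨ (R : ℤ) ≤ x) → h (x, y) = 0 := fun x y hx => by
    rw [hh]
    exact sum_eq_zero fun z _ => h0 _ (by rw [mem_EF0]; omega)
  have htop : ∀ y : ℤ, (R : ℤ) ≤ y → ∀ x : ℤ, -(R : ℤ) - 1 ≤ x → h (x, y) = 0 := by
    intro y hy x hx
    induction x, hx using Int.leInduction with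
    | base => exact hside _ _ (Or.inl (by omega))
    | succ x hx ih =>
      have h1 := hV (x + 1) y
      rw [h0 _ (by rw [mem_EF1]; omega), add_sub_cancel_right] at h1
      omega
  have hout : ∀ u, u ∉ faces R → h u = 0 := by
    rintro ⟨x, y⟩ hu
    rw [mem_faces] at hu
    simp only at hu
    by_cases hx : x < -(R : ℤ) ∨ (R : ℤ) ≤ x
    · exact hside x y hx
    · by_cases hy : y < -(R : ℤ)
      · exact hlow x y hy
      · exact htop y (by omega) x (by omega)
  refine ⟨Finsupp.onFinset (faces R) h fun u hu => by_contra fun h' => hu (hout u h'), hout, ?_⟩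
  funext ⟨⟨x, y⟩, i⟩
  fin_cases i
  · simpa [crl] using hH x y
  · simpa [crl] using hV x y

theorem crl_inj {R : ℕ} {s t : ℤ × ℤ → ℤ} (hs : ∀ x, x ∉ faces R → s x = 0)
    (ht : ∀ x, x ∉ faces R → t x = 0) (h : crl s = crl t) : s = t := by
  funext ⟨x, y⟩
  rcases lt_or_ge y (-(R : ℤ) - 1) with hy | hy
  · rw [hs, ht] <;> rw [mem_faces] <;> simp only <;> omega
  · induction y, hy using Int.leInduction with
    | base => rw [hs, ht] <;> rw [mem_faces] <;> simp only <;> omega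
    | succ y hy ih =>
      have h1 := congrFun h ((x, y + 1), 0)
      simp only [crl, if_true, add_sub_cancel_right] at h1
      omega

/-- the dual edge -/
def du (p : (ℤ × ℤ) × Fin 2) : (ℤ × ℤ) × (ℤ × ℤ) :=
  if p.2 = 0 then ((p.1.1, p.1.2 - 1), p.1) else ((p.1.1 - 1, p.1.2), p.1)

/-- the seam dual to the segment from `0` to `(r, 0)` -/
def seam (r : ℕ) (e : (ℤ × ℤ) × (ℤ × ℤ)) : ℤ :=
  if e.1.2 = -1 ∧ e.2.2 = 0 ∧ e.1.1 = e.2.1 ∧ 0 ≤ e.2.1 ∧ e.2.1 < r then 1 else 0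

/-- `m` is the dual height model of the box of radius `R` at inverse temperature `b` -/
structure Dual (b : ℝ) (R : ℕ) (m : Mdl (ℤ × ℤ)) : Prop where
  A : m.A = faces R
  ed : ∀ e, e ∈ m.ed ↔ (e.2 = e.1 + (1, 0) ∨ e.2 = e.1 + (0, 1)) ∧ (e.1 ∈ m.A ∨ e.2 ∈ m.A)
  w : ∀ e ∈ m.ed, m.w e = bes b
  site : ∀ x ∈ m.A, ∀ k, m.site x k = 1

theorem Dual.prod {b : ℝ} {R : ℕ} {m : Mdl (ℤ × ℤ)} (hm : Dual b R m) (r : ℕ) (s : Cfg (ℤ × ℤ)) :
    ∏ e ∈ m.ed, m.w e (dE e s + seam r e) =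
      wt (fun _ : EF (latticeBox R) => b) fun e => crl s e.1 + pth r e.1 := by
  rw [wt, prod_coe_sort (EF (latticeBox R)) fun p => besI b (crl s p + pth r p)]
  symm
  refine prod_bij (fun p _ => du p) ?_ ?_ ?_ ?_
  · rintro ⟨⟨x, y⟩, i⟩ hp
    rw [hm.ed, hm.A, mem_faces, mem_faces]
    fin_cases i
    · have h := mem_EF0.1 hp
      simp only [du, Fin.zero_eta, if_true, Prod.mk_add_mk, Prod.mk.injEq]
      omega
    · have h := mem_EF1.1 hp
      simp only [du, Fin.mk_one, one_ne_zero, if_false, Prod.mk_add_mk, Prod.mk.injEq]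
      omega
  · rintro ⟨⟨x, y⟩, i⟩ - ⟨⟨x', y'⟩, i'⟩ - h
    fin_cases i <;> fin_cases i' <;>
      simp only [du, Fin.zero_eta, Fin.mk_one, if_true, one_ne_zero, if_false, Prod.mk.injEq,
        and_true, and_false, zero_ne_one] at h ⊢ <;> omega
  · rintro ⟨⟨x, y⟩, x', y'⟩ he
    rw [hm.ed, hm.A, mem_faces, mem_faces] at he
    simp only [Prod.mk_add_mk, Prod.mk.injEq] at he
    rcases he.1 with h | h
    · refine ⟨((x', y'), 1), mem_EF1.2 (by omega), ?_⟩
      simp only [du, one_ne_zero, if_false, Prod.mk.injEq, and_true]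
      omega
    · refine ⟨((x', y'), 0), mem_EF0.2 (by omega), ?_⟩
      simp only [du, if_true, Prod.mk.injEq, and_true]
      omega
  · rintro ⟨⟨x, y⟩, i⟩ hp
    have he : du ((x, y), i) ∈ m.ed := by
      rw [hm.ed, hm.A, mem_faces, mem_faces]
      fin_cases i
      · have h := mem_EF0.1 hp
        simp only [du, Fin.zero_eta, if_true, Prod.mk_add_mk, Prod.mk.injEq]
        omega
      · have h := mem_EF1.1 hp
        simp only [du, Fin.mk_one, one_ne_zero, if_false, Prod.mk_add_mk, Prod.mk.injEq]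
        omega
    rw [hm.w _ he, bes_eq]
    fin_cases i
    · congr 1
      simp only [du, crl, pth, seam, dE, Fin.zero_eta, if_true, true_and]
      split_ifs <;> omega
    · rw [← besI_neg]
      congr 1
      simp only [du, crl, pth, seam, dE, Fin.mk_one, one_ne_zero, if_false, false_and]
      split_ifs <;> omega

theorem Dual.zs {b : ℝ} {R : ℕ} {m : Mdl (ℤ × ℤ)} (hm : Dual b R m) {r : ℕ} (hr : r ≤ R)
    {a : latticeBox R → ℤ} (ha : ∀ v, a v = -dL (pth r) v) :
    cur (sE _) (tE _) (fun _ : EF (latticeBox R) => b) a = Zs (m.Ws 0 (seam r)) := by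
  have hp : ∀ p, p ∉ EF (latticeBox R) → pth r p = 0 := by
    rintro ⟨⟨x, y⟩, i⟩ hp
    refine if_neg ?_
    rintro ⟨h1, h2⟩
    simp only at h1 h2
    subst h1
    exact hp (mem_EF0.2 (by omega))
  set Φ : {s : Cfg (ℤ × ℤ) // ∀ x, x ∉ faces R → s x = 0} → EF (latticeBox R) → ℤ :=
    fun s e => crl s.1 e.1 + pth r e.1 with hΦ
  have hext : ∀ s, ext (Φ s) = crl s.1 + pth r := fun s => by
    funext p
    by_cases h : p ∈ EF (latticeBox R)
    · exact ext_val (Φ s) ⟨p, h⟩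
    · rw [ext_zero _ h, Pi.add_apply, crl_out s.2 h, hp p h, add_zero]
  have hinj : Function.Injective Φ := fun s t h => by
    have h1 := hext s
    rw [h, hext t] at h1
    exact Subtype.ext (DFunLike.coe_injective (crl_inj s.2 t.2 (add_right_cancel h1).symm))
  have hadd : ∀ K L v, dL (K + L) v = dL K v + dL L v := fun K L v => by
    simp only [dL, Pi.add_apply]; ring
  rw [cur, ← hinj.tsum_eq, Zs, ← (Subtype.val_injective
    (p := fun s : Cfg (ℤ × ℤ) => ∀ x, x ∉ faces R → s x = 0)).tsum_eq]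
  · refine tsum_congr fun s => ?_
    rw [if_pos, Mdl.Ws, hm.prod, prod_eq_one fun x hx => hm.site x hx _, ind, if_pos, one_mul,
      mul_one]
    · rw [hm.A]; exact s.2
    · funext v
      rw [Pi.add_apply, ha, dv_eq, hext, hadd, dL_crl]
      simp
  · intro s hs
    by_contra h
    refine hs ?_
    rw [Mdl.Ws, ind, if_neg, zero_mul, zero_mul]
    rw [hm.A]
    exact fun h' => h ⟨⟨s, h'⟩, rfl⟩
  · intro k hk
    have h1 : a + dv (sE _) (tE _) k = 0 := by
      by_contra h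
      exact hk (if_neg h)
    obtain ⟨s, hs, hs'⟩ := exists_crl (R := R) (K := ext k - pth r)
      (fun p h => by rw [Pi.sub_apply, ext_zero _ h, hp p h, sub_zero]) fun v => by
        have h2 := hadd (ext k - pth r) (pth r) v
        rw [sub_add_cancel] at h2
        by_cases hv : v ∈ latticeBox R
        · have h3 := congrFun h1 ⟨v, hv⟩
          rw [Pi.add_apply, ha, dv_eq, Pi.zero_apply] at h3
          simp only at h3
          omega
        · have h3 := dL_pth r v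
          rw [if_neg, if_neg] at h3
          · rw [dL_ext_out k hv] at h2
            omega
          all_goals
            rintro rfl
            exact hv (mem_box.2 (by simp only; omega))
    refine ⟨⟨s, hs⟩, funext fun e => ?_⟩
    rw [hΦ]
    simp only
    rw [hs', Pi.sub_apply, ext_val, sub_add_cancel]

theorem seam_zero : seam 0 = 0 := by
  funext e
  refine if_neg ?_
  omega

theorem Ws_zero {W : Type*} [DecidableEq W] (m : Mdl W) (η : Cfg W) : m.Ws η 0 = m.W η := by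
  funext s
  simp [Mdl.Ws, Mdl.W]

/-- XY duality -/
theorem xy_dual {b : ℝ} {R r : ℕ} {m : Mdl (ℤ × ℤ)} (hm : Dual b R m) (hr : r ≤ R) :
    xyBoxCorrelation b R r = Zs (m.Ws 0 (seam r)) / Zs (m.W 0) := by
  rw [xyBoxCorrelation, dif_pos hr, twoPoint_eq, hm.zs hr, hm.zs (Nat.zero_le R), seam_zero,
    Ws_zero]
  · intro v
    rw [dL_pth]
    simp
  · intro v
    rw [dL_pth]
    simp only [Pi.sub_apply, Pi.single_apply, Subtype.ext_iff]
    ring

end Crest.Agent.T145.Xy48
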