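import Crest.Agent.T145.XyC_48
import Crest.Agent.T145.Rsd_63
import Crest.Agent.T145.BesB_66
import Crest.Agent.T145.Pd_77
import Crest.Agent.T145.Api_98

/-!
# Row 145, XY model (helper48): Ginibre and Griffiths inequalities for random currents

* `rsd_cur`   : `a ↦ cur b a` is RSD
* `cur_mono`  : `cur b a / cur b 0` increases with the edge strengths
* `cur_emb`   : the same for a subgraph
* `cur_griff` : `cur (δx + δy - 2δr) ≤ cur (δx - δy)`, `cur_super` : `f(x,y) ≥ f(x,r) f(r,y)`
-/

set_option autoImplicit false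
set_option linter.unusedSectionVars false

open Finset MeasureTheory

noncomputable section

namespace Crest.Agent.T145.Xy48

variable {ι E : Type} [Fintype ι] [DecidableEq ι] [Fintype E] {src tgt : E → ι} {b b' : E → ℝ}

theorem besI_zero (k : ℤ) : besI 0 k = if k = 0 then 1 else 0 := Bes66.bes_zero k

theorem rsd_besI {t : ℝ} (ht : 0 ≤ t) : RSD (besI t) := by
  rcases ht.eq_or_lt with rfl | h
  · have h1 := Rsd63.rsd_ind (AddMonoidHom.id ℤ)
    have e : besI 0 = fun s => ind (AddMonoidHom.id ℤ s = 0) := by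
      funext k; rw [besI_zero, ind]; simp
    rwa [e]
  · exact (Bes66.isKer_bes h).cen.toRSD

theorem rsd_prod {L κ : Type*} [AddCommGroup L] (s : Finset κ) {f : κ → L → ℝ}
    (h : ∀ e ∈ s, RSD (f e)) : RSD fun x => ∏ e ∈ s, f e x := by
  classical
  induction s using Finset.induction_on with
  | empty => simpa using Rsd63.rsd_one
  | insert a s ha ih =>
    simp only [prod_insert ha]
    exact Rsd63.rsd_mul (h a (mem_insert_self _ _)) (ih fun e he => h e (mem_insert_of_mem he))

theorem rsd_map {L L' : Type*} [AddCommGroup L] [AddCommGroup L'] {ρ : L' → ℝ} (h : RSD ρ)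
    (f : L → L') (hf : ∀ x y, f (x + y) = f x + f y) : RSD fun s => ρ (f s) :=
  Rsd63.rsd_comp h (AddMonoidHom.mk' f hf)

theorem rsd_ind' {L L' : Type*} [AddCommGroup L] [AddCommGroup L'] (f : L → L')
    (hf : ∀ x y, f (x + y) = f x + f y) : RSD fun s => ind (f s = 0) :=
  Rsd63.rsd_ind (AddMonoidHom.mk' f hf)

theorem pd_ind' {L L' : Type*} [AddCommGroup L] [AddCommGroup L'] (f : L → L')
    (hf : ∀ x y, f (x + y) = f x + f y) : PD fun s => ind (f s = 0) :=
  pd_ind (AddMonoidHom.mk' f hf)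

theorem rsd_wt (hb : ∀ e, 0 ≤ b e) : RSD (wt b) :=
  rsd_prod univ fun e _ => Rsd63.rsd_comp (rsd_besI (hb e)) (Pi.evalAddMonoidHom (fun _ => ℤ) e)

theorem wt_nonneg (hb : ∀ e, 0 ≤ b e) (k : E → ℤ) : 0 ≤ wt b k := (rsd_wt hb).nonneg k

/-- the divergence as a homomorphism -/
def dvH (src tgt : E → ι) : (E → ℤ) →+ (ι → ℤ) := AddMonoidHom.mk' (dv src tgt) (dv_add src tgt)

theorem dv_zero : dv src tgt 0 = 0 := (dvH src tgt).map_zero

theorem sum_dv (k : E → ℤ) : ∑ v, dv src tgt k v = 0 := by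
  simp only [dv]
  rw [sum_comm]
  simp [sum_sub_distrib]

theorem ite_eq_ind (p : Prop) [Decidable p] (x : ℝ) : (if p then x else 0) = ind p * x := by
  unfold ind; split_ifs <;> simp

theorem cur_eq (a : ι → ℤ) : cur src tgt b a = ∑' k, ind (a + dv src tgt k = 0) * wt b k :=
  tsum_congr fun _ => ite_eq_ind _ _

theorem summable_cur' (a : ι → ℤ) : Summable fun k => ind (a + dv src tgt k = 0) * wt b k :=
  (summable_cur src tgt b a).congr fun _ => ite_eq_ind _ _

theorem rsd_pair (hb : ∀ e, 0 ≤ b e) :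
    RSD fun p : (E → ℤ) × (ι → ℤ) => ind (p.2 + dv src tgt p.1 = 0) * wt b p.1 :=
  Rsd63.rsd_mul
    (rsd_ind' (fun p : (E → ℤ) × (ι → ℤ) => p.2 + dv src tgt p.1) fun x y => by
      rw [Prod.fst_add, Prod.snd_add, dv_add]; abel)
    (rsd_map (rsd_wt hb) (fun p : (E → ℤ) × (ι → ℤ) => p.1) fun _ _ => rfl)

theorem rsd_cur (hb : ∀ e, 0 ≤ b e) : RSD (cur src tgt b) := by
  have h := Rsd63.rsd_mg (rsd_pair (src := src) (tgt := tgt) hb) fun a => summable_cur' a
  have e : cur src tgt b = _ := funext fun a => cur_eq a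
  rw [e]
  exact h

theorem cur_nonneg (hb : ∀ e, 0 ≤ b e) (a : ι → ℤ) : 0 ≤ cur src tgt b a := (rsd_cur hb).nonneg a

theorem besI_zero_pos {t : ℝ} (ht : 0 ≤ t) : 0 < besI t 0 := by
  rcases ht.eq_or_lt with rfl | h
  · simp [besI_zero]
  · exact besI_pos h 0

theorem cur_pos (hb : ∀ e, 0 ≤ b e) {a : ι → ℤ} {k : E → ℤ} (hk : a + dv src tgt k = 0)
    (hw : 0 < wt b k) : 0 < cur src tgt b a :=
  (summable_cur src tgt b a).tsum_pos (fun k => by split_ifs; exacts [wt_nonneg hb k, le_rfl]) k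
    (by rwa [if_pos hk])

theorem cur_zero_pos (hb : ∀ e, 0 ≤ b e) : 0 < cur src tgt b 0 :=
  cur_pos hb (k := 0) (by rw [dv_zero, add_zero]) (prod_pos fun e _ => besI_zero_pos (hb e))

theorem cur_le (a : ι → ℤ) : cur src tgt b a ≤ cur src tgt b 0 := by
  have h0 := current src tgt b 0
  have h1 := current src tgt b a
  simp only [Pi.zero_apply, zpow_zero, prod_const_one, one_mul, integral_complex_ofReal] at h0
  have h2 := norm_integral_le_integral_norm (μ := Measure.pi fun _ : ι => muS)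
    fun σ : ι → S1 => (∏ v, cz (σ v) ^ a v) *
      (Real.exp (∑ e, b e * inner ℝ (σ (src e) : E2) (σ (tgt e) : E2)) : ℂ)
  simp only [h1, norm_mul, norm_prod, norm_cz_zpow, prod_const_one, one_mul, Complex.norm_real,
    Real.norm_eq_abs, Real.abs_exp, norm_pow, abs_of_pos mS_pos] at h2
  have h3 : ∫ σ : ι → S1, Real.exp (∑ e, b e * inner ℝ (σ (src e) : E2) (σ (tgt e) : E2))
      ∂(Measure.pi fun _ => muS) = mS ^ Fintype.card ι * cur src tgt b 0 := by exact_mod_cast h0
  rw [h3] at h2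
  exact (le_abs_self _).trans (le_of_mul_le_mul_left h2 (pow_pos mS_pos _))

theorem wt_conv (b c : E → ℝ) (k : E → ℤ) :
    HasSum (fun j : E → ℤ => wt c j * wt b (k - j)) (wt (c + b) k) := by
  have h := hasSum_piR _ _ fun e => besI_conv (c e) (b e) (k e)
  simp only [prod_mul_distrib] at h
  exact h

/-- Ginibre: monotonicity in the edge strengths -/
theorem cur_mono (hb : ∀ e, 0 ≤ b e) (hbb : ∀ e, b e ≤ b' e) (a : ι → ℤ) :
    cur src tgt b a * cur src tgt b' 0 ≤ cur src tgt b' a * cur src tgt b 0 := by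
  set c : E → ℝ := b' - b with hc
  have hc0 : ∀ e, 0 ≤ c e := fun e => sub_nonneg.2 (hbb e)
  have hcb : c + b = b' := sub_add_cancel _ _
  set ρ : ((E → ℤ) × (E → ℤ)) × (ι → ℤ) → ℝ :=
    fun p => ind (p.2 + dv src tgt p.1.1 = 0) * (wt c p.1.2 * wt b (p.1.1 - p.1.2)) with hρ
  have h1 : RSD ρ := Rsd63.rsd_mul
    (rsd_ind' (fun p : ((E → ℤ) × (E → ℤ)) × (ι → ℤ) => p.2 + dv src tgt p.1.1) fun x y => by
      rw [Prod.fst_add, Prod.snd_add, Prod.fst_add, dv_add]; abel)
    (Rsd63.rsd_mul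
      (rsd_map (rsd_wt hc0) (fun p : ((E → ℤ) × (E → ℤ)) × (ι → ℤ) => p.1.2) fun _ _ => rfl)
      (rsd_map (rsd_wt hb) (fun p : ((E → ℤ) × (E → ℤ)) × (ι → ℤ) => p.1.1 - p.1.2) fun x y => by
        rw [Prod.fst_add, Prod.snd_add, Prod.fst_add]; abel))
  have h2 : PD fun p : ((E → ℤ) × (E → ℤ)) × (ι → ℤ) => ind (p.1.2 = 0) :=
    pd_ind' (fun p : ((E → ℤ) × (E → ℤ)) × (ι → ℤ) => p.1.2) fun _ _ => rfl
  have hs : ∀ a, HasSum (sl ρ a) (cur src tgt b' a) := fun a => by
    have h3 : ∀ k, HasSum (fun j => sl ρ a (k, j)) (ind (a + dv src tgt k = 0) * wt b' k) :=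
      fun k => hcb ▸ (wt_conv b c k).mul_left _
    have h4 : Summable (sl ρ a) := by
      refine (summable_prod_of_nonneg fun p => h1.nonneg _).2 ⟨fun k => (h3 k).summable, ?_⟩
      exact (summable_cur' a).congr fun k => (h3 k).tsum_eq.symm
    rw [cur_eq, ← tsum_congr fun k => (h3 k).tsum_eq, ← h4.tsum_prod]
    exact h4.hasSum
  have hg : ∀ a, ∑' p, sl ρ a p * ind (p.2 = 0) = wt c 0 * cur src tgt b a := fun a => by
    have hi : Function.Injective fun k : E → ℤ => (k, (0 : E → ℤ)) := fun k l h => congrArg Prod.fst h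
    rw [← hi.tsum_eq, cur_eq, ← tsum_mul_left]
    · refine tsum_congr fun k => ?_
      simp only [sl, hρ, sub_zero, ind_pos trivial]
      ring
    · rintro ⟨k, j⟩ h
      have h5 : j = 0 := by
        by_contra h6
        exact h (by simp only [ind_neg h6, mul_zero])
      exact ⟨k, by rw [h5]⟩
  have e : ∀ a, tilt (sl ρ a) 0 = sl ρ a := fun a => funext fun s => by simp [tilt]
  have h5 := rsdBStmt _ _ ρ _ h1 h2 a 0 (hs 0).summable (by rw [e]; exact (hs a).summable)
  rw [e, hg, Zs, Zs, (hs 0).tsum_eq, (hs a).tsum_eq] at h5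
  have h6 := hg 0
  simp only [sl] at h6
  rw [h6] at h5
  have h7 : 0 < wt c 0 := prod_pos fun e _ => besI_zero_pos (hc0 e)
  have h8 := le_abs_self (wt c 0 * cur src tgt b a)
  have h9 := cur_nonneg (src := src) (tgt := tgt) (fun e => (hb e).trans (hbb e)) 0
  refine le_of_mul_le_mul_left ?_ h7
  nlinarith [mul_le_mul_of_nonneg_right h8 h9]

section emb

variable {ι' E' : Type} [Fintype ι'] [DecidableEq ι'] [Fintype E'] {src' tgt' : E' → ι'}
  {φ : ι → ι'} {ψ : E → E'}

theorem cur_extend (hφ : Function.Injective φ) (hψ : Function.Injective ψ)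
    (hs : ∀ e, src' (ψ e) = φ (src e)) (ht : ∀ e, tgt' (ψ e) = φ (tgt e)) {a : ι → ℤ}
    {a' : ι' → ℤ} (ha : ∀ v, a' (φ v) = a v) (ha' : ∀ v', (∀ v, φ v ≠ v') → a' v' = 0) :
    cur src' tgt' (Function.extend ψ b 0) a' = cur src tgt b a := by
  classical
  set K : (E → ℤ) → E' → ℤ := fun k => Function.extend ψ k 0 with hK
  have hK1 : ∀ k e, K k (ψ e) = k e := fun k e => hψ.extend_apply _ _ e
  have hK0 : ∀ k e', (¬∃ e, ψ e = e') → K k e' = 0 := fun k e' h => Function.extend_apply' _ _ _ h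
  have hb0 : ∀ e', (¬∃ e, ψ e = e') → Function.extend ψ b 0 e' = 0 :=
    fun e' h => Function.extend_apply' _ _ _ h
  have hi : Function.Injective K := fun k l h => funext fun e => by rw [← hK1 k, h, hK1]
  have hd : ∀ k v', dv src' tgt' (K k) v' =
      ∑ e, ((if φ (src e) = v' then k e else 0) - (if φ (tgt e) = v' then k e else 0)) := by
    intro k v'
    symm
    refine Fintype.sum_of_injective ψ hψ _ _ (fun e' h => ?_) fun e => by rw [hs, ht, hK1]
    rw [hK0 k e' h]; simp
  rw [cur, cur, ← hi.tsum_eq]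
  · refine tsum_congr fun k => if_congr ?_ ?_ rfl
    · constructor
      · intro h
        funext v
        have h1 := congrFun h (φ v)
        simp only [Pi.add_apply, hd, ha, hφ.eq_iff] at h1
        exact h1
      · intro h
        funext v'
        by_cases h1 : ∃ v, φ v = v'
        · obtain ⟨v, rfl⟩ := h1
          simp only [Pi.add_apply, hd, ha, hφ.eq_iff]
          exact congrFun h v
        · push Not at h1
          simp [hd, ha' v' h1, h1]
    · symm
      refine Fintype.prod_of_injective ψ hψ _ _ (fun e' h => ?_) fun e => by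
        rw [hK1, hψ.extend_apply]
      rw [hK0 k e' h, hb0 e' h, besI_zero, if_pos rfl]
  · intro k' hk'
    refine ⟨fun e => k' (ψ e), funext fun e' => ?_⟩
    by_cases h : ∃ e, ψ e = e'
    · obtain ⟨e, rfl⟩ := h
      exact hK1 _ e
    · rw [hK0 _ e' h]
      by_contra h1
      refine hk' ?_
      have h2 : wt (Function.extend ψ b 0) k' = 0 :=
        prod_eq_zero (mem_univ e') (by rw [hb0 e' h, besI_zero, if_neg (Ne.symm h1)])
      simp [h2]

/-- Ginibre: monotonicity under embeddings of weighted graphs -/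
theorem cur_emb {b' : E' → ℝ} (hφ : Function.Injective φ) (hψ : Function.Injective ψ)
    (hs : ∀ e, src' (ψ e) = φ (src e)) (ht : ∀ e, tgt' (ψ e) = φ (tgt e)) (hb : ∀ e, 0 ≤ b e)
    (hb' : ∀ e, 0 ≤ b' e) (hbb : ∀ e, b e ≤ b' (ψ e)) (x y : ι) :
    cur src tgt b (Pi.single y 1 - Pi.single x 1) / cur src tgt b 0 ≤
      cur src' tgt' b' (Pi.single (φ y) 1 - Pi.single (φ x) 1) / cur src' tgt' b' 0 := by
  have h1 : ∀ e', 0 ≤ Function.extend ψ b 0 e' ∧ Function.extend ψ b 0 e' ≤ b' e' := fun e' => by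
    by_cases h : ∃ e, ψ e = e'
    · obtain ⟨e, rfl⟩ := h
      rw [hψ.extend_apply]
      exact ⟨hb e, hbb e⟩
    · rw [Function.extend_apply' _ _ _ h]
      exact ⟨le_rfl, hb' e'⟩
  have h2 := cur_mono (src := src') (tgt := tgt') (fun e => (h1 e).1) (fun e => (h1 e).2)
    (Pi.single (φ y) 1 - Pi.single (φ x) 1)
  rw [cur_extend hφ hψ hs ht (a := Pi.single y 1 - Pi.single x 1)
    (fun v => by simp [Pi.single_apply, hφ.eq_iff])
    (fun v' h => by simp [Pi.single_apply, (h _).symm]),
    cur_extend hφ hψ hs ht (a := 0) (a' := 0) (fun _ => rfl) fun _ _ => rfl] at h2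
  rw [div_le_div_iff₀ (cur_zero_pos hb) (cur_zero_pos hb')]
  exact h2

end emb

/-! ## Griffiths' inequality for the second components -/

/-- `± y` -/
def sv (y : ι → ℝ) (ε : ι → Bool) (v : ι) : ℝ := if ε v then -y v else y v

theorem gks (hb : ∀ e, 0 ≤ b e) (y : ι → ℝ) (S : Finset E) (n : ι → ℕ) :
    0 ≤ ∑ ε : ι → Bool, (∏ v, sv y ε v ^ n v) *
      ∏ e ∈ S, Real.exp (b e * (sv y ε (src e) * sv y ε (tgt e))) := by
  classical
  induction S using Finset.induction_on generalizing n with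
  | empty =>
    simp only [prod_empty, mul_one, sv]
    rw [← Fintype.prod_sum fun v (β : Bool) => (if β then -y v else y v) ^ n v]
    refine prod_nonneg fun v _ => ?_
    simp only [Fintype.sum_bool, if_true, Bool.false_eq_true, if_false]
    rcases Nat.even_or_odd (n v) with h | h
    · rw [h.neg_pow]
      have := h.pow_nonneg (y v)
      linarith
    · rw [h.neg_pow]; simp
  | insert e S he ih =>
    set q : ℝ := y (src e) * y (tgt e) with hq
    have hc : 0 ≤ Real.sinh (b e * q) / q := by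
      rcases le_total 0 q with h | h
      · exact div_nonneg (Real.sinh_nonneg_iff.2 (mul_nonneg (hb e) h)) h
      · exact div_nonneg_of_nonpos (Real.sinh_nonpos_iff.2 (mul_nonpos_of_nonneg_of_nonpos (hb e) h)) h
    have h1 : ∀ ε : ι → Bool, Real.exp (b e * (sv y ε (src e) * sv y ε (tgt e))) =
        Real.cosh (b e * q) + Real.sinh (b e * q) / q * (sv y ε (src e) * sv y ε (tgt e)) := by
      intro ε
      have h2 : sv y ε (src e) * sv y ε (tgt e) = q ∨ sv y ε (src e) * sv y ε (tgt e) = -q := by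
        unfold sv; split_ifs <;> simp [hq]
      rcases eq_or_ne q 0 with h0 | h0
      · rcases h2 with h | h <;> simp [h, h0]
      · rcases h2 with h | h
        · rw [h, div_mul_cancel₀ _ h0, Real.cosh_add_sinh]
        · rw [h, mul_neg, mul_neg, div_mul_cancel₀ _ h0, ← sub_eq_add_neg, Real.cosh_sub_sinh]
    have h3 : ∀ ε : ι → Bool,
        ∏ v, sv y ε v ^ (n + Pi.single (src e) 1 + Pi.single (tgt e) 1 : ι → ℕ) v =
          (∏ v, sv y ε v ^ n v) * (sv y ε (src e) * sv y ε (tgt e)) := fun ε => by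
      have h : ∀ w : ι, ∏ v, sv y ε v ^ (Pi.single w 1 : ι → ℕ) v = sv y ε w := fun w => by
        rw [prod_eq_single w (fun x _ hx => by rw [Pi.single_eq_of_ne hx, pow_zero]) (by simp)]
        simp
      simp only [Pi.add_apply, pow_add, prod_mul_distrib, h, mul_assoc]
    have h4 := add_nonneg (mul_nonneg (Real.cosh_pos (b e * q)).le (ih n))
      (mul_nonneg hc (ih (n + Pi.single (src e) 1 + Pi.single (tgt e) 1)))
    rw [mul_sum, mul_sum, ← sum_add_distrib] at h4
    refine h4.trans_eq (sum_congr rfl fun ε _ => ?_)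
    rw [prod_insert he, h1, h3]
    ring

/-- the reflection of the circle in the first axis -/
def rf : S1 → S1 := isoS (iso.trans (Complex.conjLIE.trans iso.symm))

theorem cz_rf (s : S1) : cz (rf s) = (starRingEnd ℂ) (cz s) := by simp [cz, rf, isoS]

/-- the point `1` -/
def e1 : S1 := ⟨iso.symm 1, by simp⟩

theorem cz_e1 : cz e1 = 1 := by simp [cz, e1]

theorem rf_e1 : rf e1 = e1 := by
  ext1
  apply iso.injective
  change cz (rf e1) = cz e1
  rw [cz_rf, cz_e1, map_one]

/-- the spin law with the spin at `r` pinned -/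
def nuP (r v : ι) : Measure S1 := if v = r then Measure.dirac e1 else muS

instance (r v : ι) : IsFiniteMeasure (nuP r v) := by unfold nuP; split_ifs <;> infer_instance

theorem mp_rf (r v : ι) : MeasurePreserving rf (nuP r v) (nuP r v) := by
  unfold nuP
  split_ifs
  · exact ⟨(continuous_isoS _).measurable, by
      rw [Measure.map_dirac' (f := rf) (continuous_isoS _).measurable, rf_e1]⟩
  · exact mp_isoS _

theorem inner_eq' (s t : S1) :
    inner ℝ (s : E2) (t : E2) = (cz s).re * (cz t).re + (cz s).im * (cz t).im := by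
  rw [← iso.inner_map_map, Complex.inner]
  simp only [cz, Complex.mul_re, Complex.conj_re, Complex.conj_im]
  ring

theorem int_im_nonneg (hb : ∀ e, 0 ≤ b e) (r x y : ι) :
    0 ≤ ∫ σ : ι → S1, (cz (σ x)).im * (cz (σ y)).im *
      Real.exp (∑ e, b e * inner ℝ (σ (src e) : E2) (σ (tgt e) : E2)) ∂(Measure.pi (nuP r)) := by
  set F : (ι → S1) → ℝ := fun σ => (cz (σ x)).im * (cz (σ y)).im *
    Real.exp (∑ e, b e * inner ℝ (σ (src e) : E2) (σ (tgt e) : E2)) with hF
  have hz := continuous_cz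
  have hFc : Continuous F := by rw [hF]; fun_prop
  set T : (ι → Bool) → (ι → S1) → ι → S1 := fun ε σ v => (if ε v then rf else id) (σ v) with hT
  have hT1 : ∀ ε, MeasurePreserving (T ε) (Measure.pi (nuP r)) (Measure.pi (nuP r)) := fun ε =>
    measurePreserving_pi _ _ (f := fun v => if ε v then rf else id) fun v => by
      split_ifs
      exacts [mp_rf r v, MeasurePreserving.id _]
  have hFi : Integrable F (Measure.pi (nuP r)) :=
    hFc.integrable_of_hasCompactSupport (HasCompactSupport.of_compactSpace _)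
  have h1 : ∀ ε, ∫ σ, F (T ε σ) ∂(Measure.pi (nuP r)) = ∫ σ, F σ ∂(Measure.pi (nuP r)) := fun ε => by
    rw [← integral_map (hT1 ε).measurable.aemeasurable hFc.aestronglyMeasurable, (hT1 ε).map_eq]
  have h2 : 0 ≤ ∫ σ, ∑ ε, F (T ε σ) ∂(Measure.pi (nuP r)) := by
    refine integral_nonneg fun σ => ?_
    have hre : ∀ ε v, (cz (T ε σ v)).re = (cz (σ v)).re := fun ε v => by
      simp only [hT]; split_ifs <;> simp [cz_rf]
    have him : ∀ ε v, (cz (T ε σ v)).im = sv (fun v => (cz (σ v)).im) ε v := fun ε v => by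
      simp only [hT, sv]; split_ifs <;> simp [cz_rf]
    have h3 := mul_nonneg
      (Real.exp_pos (∑ e, b e * ((cz (σ (src e))).re * (cz (σ (tgt e))).re))).le
      (gks (src := src) (tgt := tgt) hb (fun v => (cz (σ v)).im) univ (Pi.single x 1 + Pi.single y 1))
    rw [mul_sum] at h3
    refine h3.trans_eq (sum_congr rfl fun ε _ => ?_)
    have h : ∀ w : ι, ∏ v, sv (fun v => (cz (σ v)).im) ε v ^ (Pi.single w 1 : ι → ℕ) v =
        sv (fun v => (cz (σ v)).im) ε w := fun w => by
      rw [prod_eq_single w (fun x _ hx => by rw [Pi.single_eq_of_ne hx, pow_zero]) (by simp)]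
      simp
    simp only [hF, inner_eq', hre, him, Pi.add_apply, pow_add, prod_mul_distrib, h, mul_add,
      sum_add_distrib, Real.exp_add, ← Real.exp_sum]
    ring
  rw [integral_finsetSum (f := fun ε σ => F (T ε σ)) _
    fun ε _ => (hT1 ε).integrable_comp_of_integrable hFi] at h2
  simp only [h1, sum_const, nsmul_eq_mul] at h2
  exact nonneg_of_mul_nonneg_right h2 (by exact_mod_cast card_pos.2 univ_nonempty) |> fun h => h

/-- random currents with a pinned spin -/
theorem current_pin (r : ι) {a a' : ι → ℤ} (h0 : ∑ v, a v = 0) (ha : ∀ v, v ≠ r → a' v = a v) :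
    ∫ σ : ι → S1, (∏ v, cz (σ v) ^ a' v) *
        (Real.exp (∑ e, b e * inner ℝ (σ (src e) : E2) (σ (tgt e) : E2)) : ℂ)
      ∂(Measure.pi (nuP r)) = (∏ v, if v = r then 1 else mS : ℝ) * cur src tgt b a := by
  have hz : ∀ (σ : ι → S1) e, cz (σ (src e)) * (cz (σ (tgt e)))⁻¹ ≠ 0 := fun σ e =>
    mul_ne_zero (cz_ne _) (inv_ne_zero (cz_ne _))
  have h0' : ∀ σ : ι → S1, HasSum (fun k : E → ℤ => (wt b k : ℂ) *
      ∏ v, cz (σ v) ^ (a' + dv src tgt k) v) ((∏ v, cz (σ v) ^ a' v) *
        (Real.exp (∑ e, b e * inner ℝ (σ (src e) : E2) (σ (tgt e) : E2)) : ℂ)) := by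
    intro σ
    have h1 := (hasSum_pi _ _ fun e => hasSum_gen (b e) (hz σ e)).mul_left (∏ v, cz (σ v) ^ a' v)
    have e1 : ∀ k : E → ℤ, (∏ v, cz (σ v) ^ a' v) *
        ∏ e, (besI (b e) (k e) : ℂ) * (cz (σ (src e)) * (cz (σ (tgt e)))⁻¹) ^ k e =
        (wt b k : ℂ) * ∏ v, cz (σ v) ^ (a' + dv src tgt k) v := fun k => by
      rw [prod_mul_distrib, prod_dv src tgt k fun v => cz_ne (σ v)]
      simp only [Pi.add_apply, zpow_add₀ (cz_ne _), prod_mul_distrib, wt]
      push_cast
      ring
    have e2 : ∏ e, Complex.exp ((b e / 2 : ℂ) * (cz (σ (src e)) * (cz (σ (tgt e)))⁻¹ +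
        (cz (σ (src e)) * (cz (σ (tgt e)))⁻¹)⁻¹)) =
        (Real.exp (∑ e, b e * inner ℝ (σ (src e) : E2) (σ (tgt e) : E2)) : ℂ) := by
      rw [← Complex.exp_sum]
      push_cast
      congr 1
      refine sum_congr rfl fun e _ => ?_
      rw [inner_eq]
      ring
    simp only [e1, e2] at h1
    exact h1
  have h1 := hasSum_int (Measure.pi (nuP r)) (c := fun k => |wt b k|)
    (F := fun (k : E → ℤ) σ => (wt b k : ℂ) * ∏ v, cz (σ v) ^ (a' + dv src tgt k) v)
    (fun k => continuous_const.mul (continuous_finsetProd _ fun v _ =>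
      (continuous_cz_zpow _).comp (continuous_apply v)))
    (summable_wt b).abs (fun k σ => by simp [norm_cz]) h0'
  have h3 : ∀ (v : ι) (j : ℤ), ∫ s, cz s ^ j ∂(nuP r v) =
      if v = r then 1 else if j = 0 then (mS : ℂ) else 0 := fun v j => by
    unfold nuP
    by_cases h : v = r
    · rw [if_pos h, if_pos h, integral_dirac, cz_e1, one_zpow]
    · rw [if_neg h, if_neg h, int_zpow]
  have h2 : ∀ k : E → ℤ, ∫ σ : ι → S1, (wt b k : ℂ) * ∏ v, cz (σ v) ^ (a' + dv src tgt k) v
      ∂(Measure.pi (nuP r)) = ((∏ v, if v = r then 1 else mS : ℝ) : ℂ) *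
        ((if a + dv src tgt k = 0 then wt b k else 0 : ℝ) : ℂ) := by
    intro k
    rw [integral_const_mul,
      integral_fintype_prod_eq_prod (fun v (s : S1) => cz s ^ (a' + dv src tgt k) v)]
    simp only [h3]
    by_cases h : a + dv src tgt k = 0
    · rw [if_pos h, mul_comm]
      push_cast
      congr 1
      refine prod_congr rfl fun v _ => ?_
      by_cases hv : v = r
      · simp [hv]
      · rw [if_neg hv, if_neg hv, if_pos]
        rw [Pi.add_apply, ha v hv]
        exact congrFun h v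
    · have h4 : ∃ v, v ≠ r ∧ (a + dv src tgt k) v ≠ 0 := by
        by_contra h5
        push Not at h5
        refine h (funext fun v => ?_)
        by_cases hv : v = r
        · have h6 : ∑ v, (a + dv src tgt k) v = 0 := by
            simp only [Pi.add_apply, sum_add_distrib, h0, sum_dv, add_zero]
          rw [sum_eq_single r (fun w _ hw => h5 w hw) (by simp)] at h6
          rw [hv]; exact h6
        · exact h5 v hv
      obtain ⟨v, hv, hv'⟩ := h4
      rw [if_neg h, prod_eq_zero (mem_univ v)]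
      · simp
      · rw [if_neg hv, if_neg]
        rwa [Pi.add_apply, ha v hv]
  simp only [h2] at h1
  exact h1.unique ((Complex.hasSum_ofReal.2 (summable_cur src tgt b a).hasSum).mul_left _)

theorem cur_griff (hb : ∀ e, 0 ≤ b e) (r x y : ι) :
    cur src tgt b (Pi.single x 1 + Pi.single y 1 - Pi.single r 2) ≤
      cur src tgt b (Pi.single x 1 - Pi.single y 1) := by
  set H : (ι → S1) → ℝ := fun σ =>
    Real.exp (∑ e, b e * inner ℝ (σ (src e) : E2) (σ (tgt e) : E2)) with hH
  have hz := continuous_cz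
  have hHc : Continuous H := by rw [hH]; fun_prop
  have h1 := current_pin (src := src) (tgt := tgt) (b := b) r
    (a := Pi.single x 1 - Pi.single y 1) (a' := Pi.single x 1 - Pi.single y 1)
    (by simp [sum_sub_distrib]) fun _ _ => rfl
  have h2 := current_pin (src := src) (tgt := tgt) (b := b) r
    (a := Pi.single x 1 + Pi.single y 1 - Pi.single r 2) (a' := Pi.single x 1 + Pi.single y 1)
    (by simp [sum_sub_distrib, sum_add_distrib]) fun v hv => by simp [Pi.single_eq_of_ne hv]
  have hp : ∀ σ : ι → S1, ∏ v, cz (σ v) ^ (Pi.single x 1 + Pi.single y 1 : ι → ℤ) v =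
      cz (σ x) * cz (σ y) := fun σ => by
    have h : ∀ w : ι, ∏ v, cz (σ v) ^ (Pi.single w 1 : ι → ℤ) v = cz (σ w) := fun w => by
      rw [prod_eq_single w (fun x _ hx => by rw [Pi.single_eq_of_ne hx, zpow_zero]) (by simp)]
      simp
    simp only [Pi.add_apply, zpow_add₀ (cz_ne _), prod_mul_distrib, h]
  simp only [prod_single fun v => cz_ne _] at h1
  simp only [hp] at h2
  have i1 : Integrable (fun σ : ι → S1 => cz (σ x) * (cz (σ y))⁻¹ * (H σ : ℂ)) (Measure.pi (nuP r)) :=
    (((hz.comp (continuous_apply x)).mul ((hz.comp (continuous_apply y)).inv₀ fun _ => cz_ne _)).mul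
      (Complex.continuous_ofReal.comp hHc)).integrable_of_hasCompactSupport
        (HasCompactSupport.of_compactSpace _)
  have i2 : Integrable (fun σ : ι → S1 => cz (σ x) * cz (σ y) * (H σ : ℂ)) (Measure.pi (nuP r)) :=
    (((hz.comp (continuous_apply x)).mul (hz.comp (continuous_apply y))).mul
      (Complex.continuous_ofReal.comp hHc)).integrable_of_hasCompactSupport
        (HasCompactSupport.of_compactSpace _)
  have h3 := integral_re (i1.sub i2)
  rw [integral_sub' i1 i2, h1, h2] at h3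
  have h4 : ∀ σ : ι → S1, RCLike.re (((fun σ : ι → S1 => cz (σ x) * (cz (σ y))⁻¹ * (H σ : ℂ)) -
      fun σ : ι → S1 => cz (σ x) * cz (σ y) * (H σ : ℂ)) σ) =
      2 * ((cz (σ x)).im * (cz (σ y)).im * H σ) := fun σ => by
    simp only [Pi.sub_apply, Complex.inv_eq_conj (norm_cz _), RCLike.re_to_complex, Complex.sub_re,
      Complex.mul_re, Complex.ofReal_re, Complex.ofReal_im, Complex.conj_re, Complex.conj_im]
    ring
  simp only [h4] at h3
  rw [integral_const_mul] at h3
  have h5 := int_im_nonneg (src := src) (tgt := tgt) hb r x y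
  have h6 : 0 < ∏ v : ι, if v = r then 1 else mS :=
    prod_pos fun v _ => by split_ifs; exacts [one_pos, mS_pos]
  simp only [RCLike.re_to_complex, Complex.sub_re, Complex.mul_re, Complex.ofReal_re,
    Complex.ofReal_im, mul_zero, sub_zero] at h3
  refine le_of_mul_le_mul_left ?_ h6
  simp only [hH] at h3
  linarith

/-- `f(x,y) ≥ f(x,r) f(r,y)` -/
theorem cur_super (hb : ∀ e, 0 ≤ b e) (r x y : ι) :
    cur src tgt b (Pi.single r 1 - Pi.single x 1) * cur src tgt b (Pi.single y 1 - Pi.single r 1) ≤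
      cur src tgt b (Pi.single y 1 - Pi.single x 1) * cur src tgt b 0 := by
  have h1 := Rsd63.rsd_minor (rsd_cur (src := src) (tgt := tgt) hb)
    (Pi.single y 1 - Pi.single r 1) (Pi.single r 1 - Pi.single x 1)
  have e1 : (Pi.single y 1 - Pi.single r 1 + (Pi.single r 1 - Pi.single x 1) : ι → ℤ) =
      Pi.single y 1 - Pi.single x 1 := by abel
  have e2 : (Pi.single y 1 - Pi.single r 1 - (Pi.single r 1 - Pi.single x 1) : ι → ℤ) =
      Pi.single y 1 + Pi.single x 1 - Pi.single r 2 := by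
    rw [show (2 : ℤ) = 1 + 1 by norm_num, Pi.single_add]; abel
  rw [e1, e2] at h1
  have h2 := cur_griff (src := src) (tgt := tgt) hb r y x
  have h3 := cur_nonneg (src := src) (tgt := tgt) hb (Pi.single y 1 - Pi.single x 1)
  have h4 := cur_nonneg (src := src) (tgt := tgt) hb 0
  refine le_of_sq_le_sq ?_ (mul_nonneg h3 h4) |> fun h => h
  have h5 := mul_le_mul_of_nonneg_right (mul_le_mul_of_nonneg_left h2 h3) (sq_nonneg (cur src tgt b 0))
  nlinarith

end Crest.Agent.T145.Xy48
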